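import Vale.Agent.Lib.P154.PChain.BB.R5_0

set_option linter.all false

namespace Vale.Agent.Lib.P154.PChain.BB.S6

open Vale.Agent.Lib.P154.Chain

noncomputable def pc0 : PT := (PT.nd (nat_lit 5080920) (PT.nd (nat_lit 4706364) (PT.nd (nat_lit 4519008) (PT.nd (nat_lit 3769740) (PT.nd (nat_lit 3707340) (PT.nd (nat_lit 3707262) PT.nil (PT.lf (nat_lit 76) (nat_lit 6) (nat_lit 1) (nat_lit 3) (nat_lit 270) (nat_lit 59) (nat_lit 271))) (PT.lf (nat_lit 76) (nat_lit 6) (nat_lit 1) (nat_lit 1) (nat_lit 271) (nat_lit 59) (nat_lit 270))) (PT.nd (nat_lit 686790) (PT.lf (nat_lit 152) (nat_lit 3) (nat_lit 2) (nat_lit 1) (nat_lit 270) (nat_lit 60) (nat_lit 270)) (PT.nd (nat_lit 78) (PT.lf (nat_lit 228) (nat_lit 6) (nat_lit 3) (nat_lit 3) (nat_lit 264) (nat_lit 71) (nat_lit 265)) (PT.lf (nat_lit 228) (nat_lit 6) (nat_lit 3) (nat_lit 1) (nat_lit 265) (nat_lit 71) (nat_lit 264))))) (PT.nd (nat_lit 62478) (PT.nd (nat_lit 62400) (PT.lf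 (nat_lit 380) (nat_lit 3) (nat_lit 5) (nat_lit 1) (nat_lit 264) (nat_lit 72) (nat_lit 264)) (PT.lf (nat_lit 456) (nat_lit 6) (nat_lit 6) (nat_lit 3) (nat_lit 263) (nat_lit 73) (nat_lit 264))) (PT.nd (nat_lit 62400) (PT.lf (nat_lit 456) (nat_lit 6) (nat_lit 6) (nat_lit 1) (nat_lit 264) (nat_lit 73) (nat_lit 263)) (PT.nd (nat_lit 62400) (PT.lf (nat_lit 608) (nat_lit 3) (nat_lit 8) (nat_lit 1) (nat_lit 263) (nat_lit 74) (nat_lit 263)) (PT.lf (nat_lit 684) (nat_lit 6) (nat_lit 9) (nat_lit 3) (nat_lit 262) (nat_lit 75) (nat_lit 263)))))) (PT.nd (nat_lit 249678) (PT.nd (nat_lit 124800) (PT.nd (nat_lit 62400) (PT.lf (nat_lit 684) (nat_lit 6) (nat_lit 9) (nat_lit 1) (nat_lit 263) (nat_lit 75) (nat_lit 262)) (PT.lf (nat_lit 836) (nat_lit 3) (nat_lit 11) (nat_lit 1) (nat_lit 262) (nat_lit 76) (nat_lit 262))) (PT.nd (nat_lit 78) (PT.lf (nat_lit 912) (nat_lit 6) (nat_lit 12) (nat_lit 3) (nat_lit 261) (nat_lit 77) (nat_lit 262))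 (PT.nd (nat_lit 62400) (PT.lf (nat_lit 912) (nat_lit 6) (nat_lit 12) (nat_lit 1) (nat_lit 262) (nat_lit 77) (nat_lit 261)) (PT.lf (nat_lit 1064) (nat_lit 3) (nat_lit 14) (nat_lit 1) (nat_lit 261) (nat_lit 78) (nat_lit 261))))) (PT.nd (nat_lit 62400) (PT.nd (nat_lit 78) (PT.lf (nat_lit 1140) (nat_lit 6) (nat_lit 15) (nat_lit 3) (nat_lit 260) (nat_lit 79) (nat_lit 261)) (PT.lf (nat_lit 1140) (nat_lit 6) (nat_lit 15) (nat_lit 1) (nat_lit 261) (nat_lit 79) (nat_lit 260))) (PT.nd (nat_lit 78) (PT.lf (nat_lit 1216) (nat_lit 6) (nat_lit 16) (nat_lit 3) (nat_lit 259) (nat_lit 80) (nat_lit 261)) (PT.nd (nat_lit 78) (PT.lf (nat_lit 1292) (nat_lit 3) (nat_lit 17) (nat_lit 1) (nat_lit 260) (nat_lit 80) (nat_lit 260)) (PT.lf (nat_lit 1216) (nat_lit 6) (nat_lit 16) (nat_lit 1) (nat_lit 261) (nat_lit 80) (nat_lit 259))))))) (PT.nd (nat_lit 249756) (PT.nd (nat_lit 124878) (PT.nd (nat_lit 62400) (PT.nd (nat_lit 78) (PT.lf (nat_lit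 1368) (nat_lit 6) (nat_lit 18) (nat_lit 3) (nat_lit 259) (nat_lit 81) (nat_lit 260)) (PT.lf (nat_lit 1368) (nat_lit 6) (nat_lit 18) (nat_lit 1) (nat_lit 260) (nat_lit 81) (nat_lit 259))) (PT.nd (nat_lit 78) (PT.lf (nat_lit 1444) (nat_lit 6) (nat_lit 19) (nat_lit 3) (nat_lit 258) (nat_lit 82) (nat_lit 260)) (PT.nd (nat_lit 78) (PT.lf (nat_lit 1520) (nat_lit 3) (nat_lit 20) (nat_lit 1) (nat_lit 259) (nat_lit 82) (nat_lit 259)) (PT.lf (nat_lit 1444) (nat_lit 6) (nat_lit 19) (nat_lit 1) (nat_lit 260) (nat_lit 82) (nat_lit 258))))) (PT.nd (nat_lit 62400) (PT.nd (nat_lit 78) (PT.lf (nat_lit 1596) (nat_lit 6) (nat_lit 21) (nat_lit 3) (nat_lit 258) (nat_lit 83) (nat_lit 259)) (PT.lf (nat_lit 1596) (nat_lit 6) (nat_lit 21) (nat_lit 1) (nat_lit 259) (nat_lit 83) (nat_lit 258))) (PT.nd (nat_lit 78) (PT.lf (nat_lit 1672) (nat_lit 6) (nat_lit 22) (nat_lit 3) (nat_lit 257) (nat_lit 84) (nat_lit 259)) (PT.nd (nat_lit 78) (PT.lf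 (nat_lit 1748) (nat_lit 3) (nat_lit 23) (nat_lit 1) (nat_lit 258) (nat_lit 84) (nat_lit 258)) (PT.lf (nat_lit 1672) (nat_lit 6) (nat_lit 22) (nat_lit 1) (nat_lit 259) (nat_lit 84) (nat_lit 257)))))) (PT.nd (nat_lit 124878) (PT.nd (nat_lit 62400) (PT.nd (nat_lit 78) (PT.lf (nat_lit 1824) (nat_lit 6) (nat_lit 24) (nat_lit 3) (nat_lit 257) (nat_lit 85) (nat_lit 258)) (PT.lf (nat_lit 1824) (nat_lit 6) (nat_lit 24) (nat_lit 1) (nat_lit 258) (nat_lit 85) (nat_lit 257))) (PT.nd (nat_lit 78) (PT.lf (nat_lit 1900) (nat_lit 6) (nat_lit 25) (nat_lit 3) (nat_lit 256) (nat_lit 86) (nat_lit 258)) (PT.nd (nat_lit 78) (PT.lf (nat_lit 1976) (nat_lit 3) (nat_lit 26) (nat_lit 1) (nat_lit 257) (nat_lit 86) (nat_lit 257)) (PT.lf (nat_lit 1900) (nat_lit 6) (nat_lit 25) (nat_lit 1) (nat_lit 258) (nat_lit 86) (nat_lit 256))))) (PT.nd (nat_lit 62400) (PT.nd (nat_lit 78) (PT.lf (nat_lit 2052) (nat_lit 6) (nat_lit 27) (nat_lit 3) (nat_lit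 256) (nat_lit 87) (nat_lit 257)) (PT.lf (nat_lit 2052) (nat_lit 6) (nat_lit 27) (nat_lit 1) (nat_lit 257) (nat_lit 87) (nat_lit 256))) (PT.nd (nat_lit 78) (PT.lf (nat_lit 2128) (nat_lit 6) (nat_lit 28) (nat_lit 3) (nat_lit 255) (nat_lit 88) (nat_lit 257)) (PT.nd (nat_lit 78) (PT.lf (nat_lit 2204) (nat_lit 3) (nat_lit 29) (nat_lit 1) (nat_lit 256) (nat_lit 88) (nat_lit 256)) (PT.lf (nat_lit 2128) (nat_lit 6) (nat_lit 28) (nat_lit 1) (nat_lit 257) (nat_lit 88) (nat_lit 255))))))))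
noncomputable def pc1 : PT := (PT.nd (nat_lit 499512) (PT.nd (nat_lit 249756) (PT.nd (nat_lit 124878) (PT.nd (nat_lit 62400) (PT.nd (nat_lit 78) (PT.lf (nat_lit 2280) (nat_lit 6) (nat_lit 30) (nat_lit 3) (nat_lit 255) (nat_lit 89) (nat_lit 256)) (PT.lf (nat_lit 2280) (nat_lit 6) (nat_lit 30) (nat_lit 1) (nat_lit 256) (nat_lit 89) (nat_lit 255))) (PT.nd (nat_lit 78) (PT.lf (nat_lit 2356) (nat_lit 6) (nat_lit 31) (nat_lit 3) (nat_lit 254) (nat_lit 90) (nat_lit 256)) (PT.nd (nat_lit 78) (PT.lf (nat_lit 2432) (nat_lit 3) (nat_lit 32) (nat_lit 1) (nat_lit 255) (nat_lit 90) (nat_lit 255)) (PT.lf (nat_lit 2356) (nat_lit 6) (nat_lit 31) (nat_lit 1) (nat_lit 256) (nat_lit 90) (nat_lit 254))))) (PT.nd (nat_lit 62400) (PT.nd (nat_lit 78) (PT.lf (nat_lit 2508) (nat_lit 6) (nat_lit 33) (nat_lit 3) (nat_lit 254) (nat_lit 91) (nat_lit 255)) (PT.lf (nat_lit 2508) (nat_lit 6) (nat_lit 33) (nat_lit 1) (nat_lit 255) (nat_lit 91) (nat_lit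 254))) (PT.nd (nat_lit 78) (PT.lf (nat_lit 2584) (nat_lit 6) (nat_lit 34) (nat_lit 3) (nat_lit 253) (nat_lit 92) (nat_lit 255)) (PT.nd (nat_lit 78) (PT.lf (nat_lit 2660) (nat_lit 3) (nat_lit 35) (nat_lit 1) (nat_lit 254) (nat_lit 92) (nat_lit 254)) (PT.lf (nat_lit 2584) (nat_lit 6) (nat_lit 34) (nat_lit 1) (nat_lit 255) (nat_lit 92) (nat_lit 253)))))) (PT.nd (nat_lit 124878) (PT.nd (nat_lit 62400) (PT.nd (nat_lit 78) (PT.lf (nat_lit 2736) (nat_lit 6) (nat_lit 36) (nat_lit 3) (nat_lit 253) (nat_lit 93) (nat_lit 254)) (PT.lf (nat_lit 2736) (nat_lit 6) (nat_lit 36) (nat_lit 1) (nat_lit 254) (nat_lit 93) (nat_lit 253))) (PT.nd (nat_lit 78) (PT.lf (nat_lit 2812) (nat_lit 6) (nat_lit 37) (nat_lit 3) (nat_lit 252) (nat_lit 94) (nat_lit 254)) (PT.nd (nat_lit 78) (PT.lf (nat_lit 2888) (nat_lit 3) (nat_lit 38) (nat_lit 1) (nat_lit 253) (nat_lit 94) (nat_lit 253)) (PT.lf (nat_lit 2812) (nat_lit 6) (nat_lit 37) (nat_lit 1)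 (nat_lit 254) (nat_lit 94) (nat_lit 252))))) (PT.nd (nat_lit 62400) (PT.nd (nat_lit 78) (PT.lf (nat_lit 2964) (nat_lit 6) (nat_lit 39) (nat_lit 3) (nat_lit 252) (nat_lit 95) (nat_lit 253)) (PT.lf (nat_lit 2964) (nat_lit 6) (nat_lit 39) (nat_lit 1) (nat_lit 253) (nat_lit 95) (nat_lit 252))) (PT.nd (nat_lit 78) (PT.lf (nat_lit 3040) (nat_lit 6) (nat_lit 40) (nat_lit 3) (nat_lit 251) (nat_lit 96) (nat_lit 253)) (PT.nd (nat_lit 78) (PT.lf (nat_lit 3116) (nat_lit 3) (nat_lit 41) (nat_lit 1) (nat_lit 252) (nat_lit 96) (nat_lit 252)) (PT.lf (nat_lit 3040) (nat_lit 6) (nat_lit 40) (nat_lit 1) (nat_lit 253) (nat_lit 96) (nat_lit 251))))))) (PT.nd (nat_lit 249756) (PT.nd (nat_lit 124878) (PT.nd (nat_lit 62400) (PT.nd (nat_lit 78) (PT.lf (nat_lit 3192) (nat_lit 6) (nat_lit 42) (nat_lit 3) (nat_lit 251) (nat_lit 97) (nat_lit 252)) (PT.lf (nat_lit 3192) (nat_lit 6) (nat_lit 42) (nat_lit 1) (nat_lit 252) (nat_lit 97) (nat_lit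 251))) (PT.nd (nat_lit 78) (PT.lf (nat_lit 3268) (nat_lit 6) (nat_lit 43) (nat_lit 3) (nat_lit 250) (nat_lit 98) (nat_lit 252)) (PT.nd (nat_lit 78) (PT.lf (nat_lit 3344) (nat_lit 3) (nat_lit 44) (nat_lit 1) (nat_lit 251) (nat_lit 98) (nat_lit 251)) (PT.lf (nat_lit 3268) (nat_lit 6) (nat_lit 43) (nat_lit 1) (nat_lit 252) (nat_lit 98) (nat_lit 250))))) (PT.nd (nat_lit 62400) (PT.nd (nat_lit 78) (PT.lf (nat_lit 3420) (nat_lit 6) (nat_lit 45) (nat_lit 3) (nat_lit 250) (nat_lit 99) (nat_lit 251)) (PT.lf (nat_lit 3420) (nat_lit 6) (nat_lit 45) (nat_lit 1) (nat_lit 251) (nat_lit 99) (nat_lit 250))) (PT.nd (nat_lit 78) (PT.lf (nat_lit 3496) (nat_lit 6) (nat_lit 46) (nat_lit 3) (nat_lit 249) (nat_lit 100) (nat_lit 251)) (PT.nd (nat_lit 78) (PT.lf (nat_lit 3572) (nat_lit 3) (nat_lit 47) (nat_lit 1) (nat_lit 250) (nat_lit 100) (nat_lit 250)) (PT.lf (nat_lit 3496) (nat_lit 6) (nat_lit 46) (nat_lit 1) (nat_lit 251) (nat_lit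 100) (nat_lit 249)))))) (PT.nd (nat_lit 124878) (PT.nd (nat_lit 62400) (PT.nd (nat_lit 78) (PT.lf (nat_lit 3648) (nat_lit 6) (nat_lit 48) (nat_lit 3) (nat_lit 249) (nat_lit 101) (nat_lit 250)) (PT.lf (nat_lit 3648) (nat_lit 6) (nat_lit 48) (nat_lit 1) (nat_lit 250) (nat_lit 101) (nat_lit 249))) (PT.nd (nat_lit 78) (PT.lf (nat_lit 3724) (nat_lit 6) (nat_lit 49) (nat_lit 3) (nat_lit 248) (nat_lit 102) (nat_lit 250)) (PT.nd (nat_lit 78) (PT.lf (nat_lit 3800) (nat_lit 3) (nat_lit 50) (nat_lit 1) (nat_lit 249) (nat_lit 102) (nat_lit 249)) (PT.lf (nat_lit 3724) (nat_lit 6) (nat_lit 49) (nat_lit 1) (nat_lit 250) (nat_lit 102) (nat_lit 248))))) (PT.nd (nat_lit 62400) (PT.nd (nat_lit 78) (PT.lf (nat_lit 3876) (nat_lit 6) (nat_lit 51) (nat_lit 3) (nat_lit 248) (nat_lit 103) (nat_lit 249)) (PT.lf (nat_lit 3876) (nat_lit 6) (nat_lit 51) (nat_lit 1) (nat_lit 249) (nat_lit 103) (nat_lit 248))) (PT.nd (nat_lit 78) (PT.lf (nat_lit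 3952) (nat_lit 6) (nat_lit 52) (nat_lit 3) (nat_lit 247) (nat_lit 104) (nat_lit 249)) (PT.nd (nat_lit 78) (PT.lf (nat_lit 4028) (nat_lit 3) (nat_lit 53) (nat_lit 1) (nat_lit 248) (nat_lit 104) (nat_lit 248)) (PT.lf (nat_lit 3952) (nat_lit 6) (nat_lit 52) (nat_lit 1) (nat_lit 249) (nat_lit 104) (nat_lit 247))))))))
noncomputable def pc2 : PT := (PT.nd (nat_lit 499512) (PT.nd (nat_lit 249756) (PT.nd (nat_lit 124878) (PT.nd (nat_lit 62400) (PT.nd (nat_lit 78) (PT.lf (nat_lit 4104) (nat_lit 6) (nat_lit 54) (nat_lit 3) (nat_lit 247) (nat_lit 105) (nat_lit 248)) (PT.lf (nat_lit 4104) (nat_lit 6) (nat_lit 54) (nat_lit 1) (nat_lit 248) (nat_lit 105) (nat_lit 247))) (PT.nd (nat_lit 78) (PT.lf (nat_lit 4180) (nat_lit 6) (nat_lit 55) (nat_lit 3) (nat_lit 246) (nat_lit 106) (nat_lit 248)) (PT.nd (nat_lit 78) (PT.lf (nat_lit 4256) (nat_lit 3) (nat_lit 56) (nat_lit 1) (nat_lit 247) (nat_lit 106) (nat_lit 247)) (PT.lf (nat_lit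 4180) (nat_lit 6) (nat_lit 55) (nat_lit 1) (nat_lit 248) (nat_lit 106) (nat_lit 246))))) (PT.nd (nat_lit 62400) (PT.nd (nat_lit 78) (PT.lf (nat_lit 4332) (nat_lit 6) (nat_lit 57) (nat_lit 3) (nat_lit 246) (nat_lit 107) (nat_lit 247)) (PT.lf (nat_lit 4332) (nat_lit 6) (nat_lit 57) (nat_lit 1) (nat_lit 247) (nat_lit 107) (nat_lit 246))) (PT.nd (nat_lit 78) (PT.lf (nat_lit 4408) (nat_lit 6) (nat_lit 58) (nat_lit 3) (nat_lit 245) (nat_lit 108) (nat_lit 247)) (PT.nd (nat_lit 78) (PT.lf (nat_lit 4484) (nat_lit 3) (nat_lit 59) (nat_lit 1) (nat_lit 246) (nat_lit 108) (nat_lit 246)) (PT.lf (nat_lit 4408) (nat_lit 6) (nat_lit 58) (nat_lit 1) (nat_lit 247) (nat_lit 108) (nat_lit 245)))))) (PT.nd (nat_lit 124878) (PT.nd (nat_lit 62400) (PT.nd (nat_lit 78) (PT.lf (nat_lit 4560) (nat_lit 6) (nat_lit 60) (nat_lit 3) (nat_lit 245) (nat_lit 109) (nat_lit 246)) (PT.lf (nat_lit 4560) (nat_lit 6) (nat_lit 60) (nat_lit 1) (nat_lit 246)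 (nat_lit 109) (nat_lit 245))) (PT.nd (nat_lit 78) (PT.lf (nat_lit 4636) (nat_lit 6) (nat_lit 61) (nat_lit 3) (nat_lit 244) (nat_lit 110) (nat_lit 246)) (PT.nd (nat_lit 78) (PT.lf (nat_lit 4712) (nat_lit 3) (nat_lit 62) (nat_lit 1) (nat_lit 245) (nat_lit 110) (nat_lit 245)) (PT.lf (nat_lit 4636) (nat_lit 6) (nat_lit 61) (nat_lit 1) (nat_lit 246) (nat_lit 110) (nat_lit 244))))) (PT.nd (nat_lit 62400) (PT.nd (nat_lit 78) (PT.lf (nat_lit 4788) (nat_lit 6) (nat_lit 63) (nat_lit 3) (nat_lit 244) (nat_lit 111) (nat_lit 245)) (PT.lf (nat_lit 4788) (nat_lit 6) (nat_lit 63) (nat_lit 1) (nat_lit 245) (nat_lit 111) (nat_lit 244))) (PT.nd (nat_lit 78) (PT.lf (nat_lit 4864) (nat_lit 6) (nat_lit 64) (nat_lit 3) (nat_lit 243) (nat_lit 112) (nat_lit 245)) (PT.nd (nat_lit 78) (PT.lf (nat_lit 4940) (nat_lit 3) (nat_lit 65) (nat_lit 1) (nat_lit 244) (nat_lit 112) (nat_lit 244)) (PT.lf (nat_lit 4864) (nat_lit 6) (nat_lit 64) (nat_lit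 1) (nat_lit 245) (nat_lit 112) (nat_lit 243))))))) (PT.nd (nat_lit 249756) (PT.nd (nat_lit 124878) (PT.nd (nat_lit 62400) (PT.nd (nat_lit 78) (PT.lf (nat_lit 5016) (nat_lit 6) (nat_lit 66) (nat_lit 3) (nat_lit 243) (nat_lit 113) (nat_lit 244)) (PT.lf (nat_lit 5016) (nat_lit 6) (nat_lit 66) (nat_lit 1) (nat_lit 244) (nat_lit 113) (nat_lit 243))) (PT.nd (nat_lit 78) (PT.lf (nat_lit 5092) (nat_lit 6) (nat_lit 67) (nat_lit 3) (nat_lit 242) (nat_lit 114) (nat_lit 244)) (PT.nd (nat_lit 78) (PT.lf (nat_lit 5168) (nat_lit 3) (nat_lit 68) (nat_lit 1) (nat_lit 243) (nat_lit 114) (nat_lit 243)) (PT.lf (nat_lit 5092) (nat_lit 6) (nat_lit 67) (nat_lit 1) (nat_lit 244) (nat_lit 114) (nat_lit 242))))) (PT.nd (nat_lit 62400) (PT.nd (nat_lit 78) (PT.lf (nat_lit 5244) (nat_lit 6) (nat_lit 69) (nat_lit 3) (nat_lit 242) (nat_lit 115) (nat_lit 243)) (PT.lf (nat_lit 5244) (nat_lit 6) (nat_lit 69) (nat_lit 1) (nat_lit 243) (nat_lit 115)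 (nat_lit 242))) (PT.nd (nat_lit 78) (PT.lf (nat_lit 5320) (nat_lit 6) (nat_lit 70) (nat_lit 3) (nat_lit 241) (nat_lit 116) (nat_lit 243)) (PT.nd (nat_lit 78) (PT.lf (nat_lit 5396) (nat_lit 3) (nat_lit 71) (nat_lit 1) (nat_lit 242) (nat_lit 116) (nat_lit 242)) (PT.lf (nat_lit 5320) (nat_lit 6) (nat_lit 70) (nat_lit 1) (nat_lit 243) (nat_lit 116) (nat_lit 241)))))) (PT.nd (nat_lit 124878) (PT.nd (nat_lit 62400) (PT.nd (nat_lit 78) (PT.lf (nat_lit 5472) (nat_lit 6) (nat_lit 72) (nat_lit 3) (nat_lit 241) (nat_lit 117) (nat_lit 242)) (PT.lf (nat_lit 5472) (nat_lit 6) (nat_lit 72) (nat_lit 1) (nat_lit 242) (nat_lit 117) (nat_lit 241))) (PT.nd (nat_lit 78) (PT.lf (nat_lit 5548) (nat_lit 6) (nat_lit 73) (nat_lit 3) (nat_lit 240) (nat_lit 118) (nat_lit 242)) (PT.nd (nat_lit 78) (PT.lf (nat_lit 5624) (nat_lit 3) (nat_lit 74) (nat_lit 1) (nat_lit 241) (nat_lit 118) (nat_lit 241)) (PT.lf (nat_lit 5548) (nat_lit 6) (nat_lit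 73) (nat_lit 1) (nat_lit 242) (nat_lit 118) (nat_lit 240))))) (PT.nd (nat_lit 62400) (PT.nd (nat_lit 78) (PT.lf (nat_lit 5700) (nat_lit 6) (nat_lit 75) (nat_lit 3) (nat_lit 240) (nat_lit 119) (nat_lit 241)) (PT.lf (nat_lit 5700) (nat_lit 6) (nat_lit 75) (nat_lit 1) (nat_lit 241) (nat_lit 119) (nat_lit 240))) (PT.nd (nat_lit 78) (PT.lf (nat_lit 5776) (nat_lit 6) (nat_lit 76) (nat_lit 3) (nat_lit 239) (nat_lit 120) (nat_lit 241)) (PT.nd (nat_lit 78) (PT.lf (nat_lit 5852) (nat_lit 3) (nat_lit 77) (nat_lit 1) (nat_lit 240) (nat_lit 120) (nat_lit 240)) (PT.lf (nat_lit 5776) (nat_lit 6) (nat_lit 76) (nat_lit 1) (nat_lit 241) (nat_lit 120) (nat_lit 239))))))))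
noncomputable def pc3 : PT := (PT.nd (nat_lit 374634) (PT.nd (nat_lit 187356) (PT.nd (nat_lit 124800) (PT.nd (nat_lit 62400) (PT.nd (nat_lit 78) (PT.lf (nat_lit 5928) (nat_lit 6) (nat_lit 78) (nat_lit 3) (nat_lit 239) (nat_lit 121) (nat_lit 240)) (PT.lf (nat_lit 5928) (nat_lit 6) (nat_lit 78) (nat_lit 1) (nat_lit 240) (nat_lit 121) (nat_lit 239))) (PT.nd (nat_lit 78) (PT.lf (nat_lit 6004) (nat_lit 6) (nat_lit 79) (nat_lit 3) (nat_lit 238) (nat_lit 122) (nat_lit 240)) (PT.nd (nat_lit 78) (PT.lf (nat_lit 6080) (nat_lit 3) (nat_lit 80) (nat_lit 1) (nat_lit 239) (nat_lit 122) (nat_lit 239)) (PT.lf (nat_lit 6004) (nat_lit 6) (nat_lit 79) (nat_lit 1) (nat_lit 240) (nat_lit 122) (nat_lit 238))))) (PT.nd (nat_lit 156) (PT.nd (nat_lit 78) (PT.lf (nat_lit 6156) (nat_lit 6) (nat_lit 81) (nat_lit 3) (nat_lit 237) (nat_lit 123) (nat_lit 240)) (PT.lf (nat_lit 6232) (nat_lit 6) (nat_lit 82) (nat_lit 3) (nat_lit 238) (nat_lit 123)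 (nat_lit 239))) (PT.nd (nat_lit 78) (PT.lf (nat_lit 6232) (nat_lit 6) (nat_lit 82) (nat_lit 1) (nat_lit 239) (nat_lit 123) (nat_lit 238)) (PT.nd (nat_lit 62244) (PT.lf (nat_lit 6156) (nat_lit 6) (nat_lit 81) (nat_lit 1) (nat_lit 240) (nat_lit 123) (nat_lit 237)) (PT.lf (nat_lit 6308) (nat_lit 6) (nat_lit 83) (nat_lit 3) (nat_lit 237) (nat_lit 124) (nat_lit 239)))))) (PT.nd (nat_lit 62556) (PT.nd (nat_lit 62322) (PT.nd (nat_lit 78) (PT.lf (nat_lit 6384) (nat_lit 3) (nat_lit 84) (nat_lit 1) (nat_lit 238) (nat_lit 124) (nat_lit 238)) (PT.lf (nat_lit 6308) (nat_lit 6) (nat_lit 83) (nat_lit 1) (nat_lit 239) (nat_lit 124) (nat_lit 237))) (PT.nd (nat_lit 78) (PT.lf (nat_lit 6460) (nat_lit 6) (nat_lit 85) (nat_lit 3) (nat_lit 236) (nat_lit 125) (nat_lit 239)) (PT.nd (nat_lit 78) (PT.lf (nat_lit 6536) (nat_lit 6) (nat_lit 86) (nat_lit 3) (nat_lit 237) (nat_lit 125) (nat_lit 238)) (PT.lf (nat_lit 6536) (nat_lit 6) (nat_lit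 86) (nat_lit 1) (nat_lit 238) (nat_lit 125) (nat_lit 237))))) (PT.nd (nat_lit 62322) (PT.nd (nat_lit 62244) (PT.lf (nat_lit 6460) (nat_lit 6) (nat_lit 85) (nat_lit 1) (nat_lit 239) (nat_lit 125) (nat_lit 236)) (PT.lf (nat_lit 6612) (nat_lit 6) (nat_lit 87) (nat_lit 3) (nat_lit 236) (nat_lit 126) (nat_lit 238))) (PT.nd (nat_lit 78) (PT.lf (nat_lit 6688) (nat_lit 3) (nat_lit 88) (nat_lit 1) (nat_lit 237) (nat_lit 126) (nat_lit 237)) (PT.nd (nat_lit 62244) (PT.lf (nat_lit 6612) (nat_lit 6) (nat_lit 87) (nat_lit 1) (nat_lit 238) (nat_lit 126) (nat_lit 236)) (PT.lf (nat_lit 6764) (nat_lit 6) (nat_lit 89) (nat_lit 3) (nat_lit 235) (nat_lit 127) (nat_lit 238))))))) (PT.nd (nat_lit 187278) (PT.nd (nat_lit 62556) (PT.nd (nat_lit 156) (PT.nd (nat_lit 78) (PT.lf (nat_lit 6840) (nat_lit 6) (nat_lit 90) (nat_lit 3) (nat_lit 236) (nat_lit 127) (nat_lit 237)) (PT.lf (nat_lit 6840) (nat_lit 6) (nat_lit 90) (nat_lit 1) (nat_lit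 237) (nat_lit 127) (nat_lit 236))) (PT.nd (nat_lit 62244) (PT.lf (nat_lit 6764) (nat_lit 6) (nat_lit 89) (nat_lit 1) (nat_lit 238) (nat_lit 127) (nat_lit 235)) (PT.nd (nat_lit 78) (PT.lf (nat_lit 6916) (nat_lit 6) (nat_lit 91) (nat_lit 3) (nat_lit 235) (nat_lit 128) (nat_lit 237)) (PT.lf (nat_lit 6992) (nat_lit 3) (nat_lit 92) (nat_lit 1) (nat_lit 236) (nat_lit 128) (nat_lit 236))))) (PT.nd (nat_lit 62322) (PT.nd (nat_lit 62244) (PT.lf (nat_lit 6916) (nat_lit 6) (nat_lit 91) (nat_lit 1) (nat_lit 237) (nat_lit 128) (nat_lit 235)) (PT.lf (nat_lit 7068) (nat_lit 6) (nat_lit 93) (nat_lit 3) (nat_lit 234) (nat_lit 129) (nat_lit 237))) (PT.nd (nat_lit 78) (PT.lf (nat_lit 7144) (nat_lit 6) (nat_lit 94) (nat_lit 3) (nat_lit 235) (nat_lit 129) (nat_lit 236)) (PT.nd (nat_lit 78) (PT.lf (nat_lit 7144) (nat_lit 6) (nat_lit 94) (nat_lit 1) (nat_lit 236) (nat_lit 129) (nat_lit 235)) (PT.lf (nat_lit 7068) (nat_lit 6) (nat_lit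 93) (nat_lit 1) (nat_lit 237) (nat_lit 129) (nat_lit 234)))))) (PT.nd (nat_lit 62556) (PT.nd (nat_lit 156) (PT.nd (nat_lit 78) (PT.lf (nat_lit 7220) (nat_lit 6) (nat_lit 95) (nat_lit 3) (nat_lit 234) (nat_lit 130) (nat_lit 236)) (PT.lf (nat_lit 7296) (nat_lit 3) (nat_lit 96) (nat_lit 1) (nat_lit 235) (nat_lit 130) (nat_lit 235))) (PT.nd (nat_lit 62244) (PT.lf (nat_lit 7220) (nat_lit 6) (nat_lit 95) (nat_lit 1) (nat_lit 236) (nat_lit 130) (nat_lit 234)) (PT.nd (nat_lit 78) (PT.lf (nat_lit 7372) (nat_lit 6) (nat_lit 97) (nat_lit 3) (nat_lit 233) (nat_lit 131) (nat_lit 236)) (PT.lf (nat_lit 7448) (nat_lit 6) (nat_lit 98) (nat_lit 3) (nat_lit 234) (nat_lit 131) (nat_lit 235))))) (PT.nd (nat_lit 62400) (PT.nd (nat_lit 78) (PT.lf (nat_lit 7448) (nat_lit 6) (nat_lit 98) (nat_lit 1) (nat_lit 235) (nat_lit 131) (nat_lit 234)) (PT.nd (nat_lit 62244) (PT.lf (nat_lit 7372) (nat_lit 6) (nat_lit 97) (nat_lit 1) (nat_lit 236)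 (nat_lit 131) (nat_lit 233)) (PT.lf (nat_lit 7524) (nat_lit 6) (nat_lit 99) (nat_lit 3) (nat_lit 233) (nat_lit 132) (nat_lit 235)))) (PT.nd (nat_lit 78) (PT.lf (nat_lit 7600) (nat_lit 3) (nat_lit 100) (nat_lit 1) (nat_lit 234) (nat_lit 132) (nat_lit 234)) (PT.nd (nat_lit 62244) (PT.lf (nat_lit 7524) (nat_lit 6) (nat_lit 99) (nat_lit 1) (nat_lit 235) (nat_lit 132) (nat_lit 233)) (PT.lf (nat_lit 7676) (nat_lit 6) (nat_lit 101) (nat_lit 3) (nat_lit 232) (nat_lit 133) (nat_lit 235))))))))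
noncomputable def pc4 : PT := (PT.nd (nat_lit 312312) (PT.nd (nat_lit 187278) (PT.nd (nat_lit 62556) (PT.nd (nat_lit 156) (PT.nd (nat_lit 78) (PT.lf (nat_lit 7752) (nat_lit 6) (nat_lit 102) (nat_lit 3) (nat_lit 233) (nat_lit 133) (nat_lit 234)) (PT.lf (nat_lit 7752) (nat_lit 6) (nat_lit 102) (nat_lit 1) (nat_lit 234) (nat_lit 133) (nat_lit 233))) (PT.nd (nat_lit 62244) (PT.lf (nat_lit 7676) (nat_lit 6) (nat_lit 101) (nat_lit 1) (nat_lit 235) (nat_lit 133) (nat_lit 232)) (PT.nd (nat_lit 78) (PT.lf (nat_lit 7828) (nat_lit 6) (nat_lit 103) (nat_lit 3) (nat_lit 232) (nat_lit 134) (nat_lit 234)) (PT.lf (nat_lit 7904) (nat_lit 3) (nat_lit 104) (nat_lit 1) (nat_lit 233) (nat_lit 134) (nat_lit 233))))) (PT.nd (nat_lit 62322) (PT.nd (nat_lit 62244) (PT.lf (nat_lit 7828) (nat_lit 6) (nat_lit 103) (nat_lit 1) (nat_lit 234) (nat_lit 134) (nat_lit 232)) (PT.lf (nat_lit 7980) (nat_lit 6) (nat_lit 105) (nat_lit 3) (nat_lit 231)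 (nat_lit 135) (nat_lit 234))) (PT.nd (nat_lit 78) (PT.lf (nat_lit 8056) (nat_lit 6) (nat_lit 106) (nat_lit 3) (nat_lit 232) (nat_lit 135) (nat_lit 233)) (PT.nd (nat_lit 78) (PT.lf (nat_lit 8056) (nat_lit 6) (nat_lit 106) (nat_lit 1) (nat_lit 233) (nat_lit 135) (nat_lit 232)) (PT.lf (nat_lit 7980) (nat_lit 6) (nat_lit 105) (nat_lit 1) (nat_lit 234) (nat_lit 135) (nat_lit 231)))))) (PT.nd (nat_lit 62556) (PT.nd (nat_lit 156) (PT.nd (nat_lit 78) (PT.lf (nat_lit 8132) (nat_lit 6) (nat_lit 107) (nat_lit 3) (nat_lit 231) (nat_lit 136) (nat_lit 233)) (PT.lf (nat_lit 8208) (nat_lit 3) (nat_lit 108) (nat_lit 1) (nat_lit 232) (nat_lit 136) (nat_lit 232))) (PT.nd (nat_lit 62244) (PT.lf (nat_lit 8132) (nat_lit 6) (nat_lit 107) (nat_lit 1) (nat_lit 233) (nat_lit 136) (nat_lit 231)) (PT.nd (nat_lit 78) (PT.lf (nat_lit 8284) (nat_lit 6) (nat_lit 109) (nat_lit 3) (nat_lit 230) (nat_lit 137) (nat_lit 233)) (PT.lf (nat_lit 8360)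 (nat_lit 6) (nat_lit 110) (nat_lit 3) (nat_lit 231) (nat_lit 137) (nat_lit 232))))) (PT.nd (nat_lit 62244) (PT.nd (nat_lit 78) (PT.lf (nat_lit 8360) (nat_lit 6) (nat_lit 110) (nat_lit 1) (nat_lit 232) (nat_lit 137) (nat_lit 231)) (PT.lf (nat_lit 8284) (nat_lit 6) (nat_lit 109) (nat_lit 1) (nat_lit 233) (nat_lit 137) (nat_lit 230))) (PT.nd (nat_lit 78) (PT.lf (nat_lit 8436) (nat_lit 6) (nat_lit 111) (nat_lit 3) (nat_lit 229) (nat_lit 138) (nat_lit 233)) (PT.nd (nat_lit 78) (PT.lf (nat_lit 8512) (nat_lit 6) (nat_lit 112) (nat_lit 3) (nat_lit 230) (nat_lit 138) (nat_lit 232)) (PT.lf (nat_lit 8588) (nat_lit 3) (nat_lit 113) (nat_lit 1) (nat_lit 231) (nat_lit 138) (nat_lit 231))))))) (PT.nd (nat_lit 124956) (PT.nd (nat_lit 62478) (PT.nd (nat_lit 62244) (PT.nd (nat_lit 78) (PT.lf (nat_lit 8512) (nat_lit 6) (nat_lit 112) (nat_lit 1) (nat_lit 232) (nat_lit 138) (nat_lit 230)) (PT.lf (nat_lit 8436) (nat_lit 6) (nat_lit 111)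 (nat_lit 1) (nat_lit 233) (nat_lit 138) (nat_lit 229))) (PT.nd (nat_lit 78) (PT.lf (nat_lit 8664) (nat_lit 6) (nat_lit 114) (nat_lit 3) (nat_lit 229) (nat_lit 139) (nat_lit 232)) (PT.nd (nat_lit 78) (PT.lf (nat_lit 8740) (nat_lit 6) (nat_lit 115) (nat_lit 3) (nat_lit 230) (nat_lit 139) (nat_lit 231)) (PT.lf (nat_lit 8740) (nat_lit 6) (nat_lit 115) (nat_lit 1) (nat_lit 231) (nat_lit 139) (nat_lit 230))))) (PT.nd (nat_lit 62244) (PT.nd (nat_lit 62166) (PT.lf (nat_lit 8664) (nat_lit 6) (nat_lit 114) (nat_lit 1) (nat_lit 232) (nat_lit 139) (nat_lit 229)) (PT.lf (nat_lit 8816) (nat_lit 6) (nat_lit 116) (nat_lit 3) (nat_lit 228) (nat_lit 140) (nat_lit 232))) (PT.nd (nat_lit 78) (PT.lf (nat_lit 8892) (nat_lit 6) (nat_lit 117) (nat_lit 3) (nat_lit 229) (nat_lit 140) (nat_lit 231)) (PT.nd (nat_lit 78) (PT.lf (nat_lit 8968) (nat_lit 3) (nat_lit 118) (nat_lit 1) (nat_lit 230) (nat_lit 140) (nat_lit 230)) (PT.lf (nat_lit 8892)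 (nat_lit 6) (nat_lit 117) (nat_lit 1) (nat_lit 231) (nat_lit 140) (nat_lit 229)))))) (PT.nd (nat_lit 124566) (PT.nd (nat_lit 62244) (PT.nd (nat_lit 62166) (PT.lf (nat_lit 8816) (nat_lit 6) (nat_lit 116) (nat_lit 1) (nat_lit 232) (nat_lit 140) (nat_lit 228)) (PT.lf (nat_lit 9044) (nat_lit 6) (nat_lit 119) (nat_lit 3) (nat_lit 228) (nat_lit 141) (nat_lit 231))) (PT.nd (nat_lit 78) (PT.lf (nat_lit 9120) (nat_lit 6) (nat_lit 120) (nat_lit 3) (nat_lit 229) (nat_lit 141) (nat_lit 230)) (PT.nd (nat_lit 78) (PT.lf (nat_lit 9120) (nat_lit 6) (nat_lit 120) (nat_lit 1) (nat_lit 230) (nat_lit 141) (nat_lit 229)) (PT.lf (nat_lit 9044) (nat_lit 6) (nat_lit 119) (nat_lit 1) (nat_lit 231) (nat_lit 141) (nat_lit 228))))) (PT.nd (nat_lit 156) (PT.nd (nat_lit 78) (PT.lf (nat_lit 9196) (nat_lit 6) (nat_lit 121) (nat_lit 3) (nat_lit 227) (nat_lit 142) (nat_lit 231)) (PT.lf (nat_lit 9272) (nat_lit 6) (nat_lit 122) (nat_lit 3) (nat_lit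 228) (nat_lit 142) (nat_lit 230))) (PT.nd (nat_lit 78) (PT.lf (nat_lit 9348) (nat_lit 3) (nat_lit 123) (nat_lit 1) (nat_lit 229) (nat_lit 142) (nat_lit 229)) (PT.nd (nat_lit 78) (PT.lf (nat_lit 9272) (nat_lit 6) (nat_lit 122) (nat_lit 1) (nat_lit 230) (nat_lit 142) (nat_lit 228)) (PT.lf (nat_lit 9196) (nat_lit 6) (nat_lit 121) (nat_lit 1) (nat_lit 231) (nat_lit 142) (nat_lit 227))))))))
noncomputable def pc5 : PT := (PT.nd (nat_lit 249834) (PT.nd (nat_lit 124956) (PT.nd (nat_lit 62478) (PT.nd (nat_lit 156) (PT.nd (nat_lit 78) (PT.lf (nat_lit 9424) (nat_lit 6) (nat_lit 124) (nat_lit 3) (nat_lit 227) (nat_lit 143) (nat_lit 230)) (PT.lf (nat_lit 9500) (nat_lit 6) (nat_lit 125) (nat_lit 3) (nat_lit 228) (nat_lit 143) (nat_lit 229))) (PT.nd (nat_lit 78) (PT.lf (nat_lit 9500) (nat_lit 6) (nat_lit 125) (nat_lit 1) (nat_lit 229) (nat_lit 143) (nat_lit 228)) (PT.nd (nat_lit 62166) (PT.lf (nat_lit 9424) (nat_lit 6) (nat_lit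 124) (nat_lit 1) (nat_lit 230) (nat_lit 143) (nat_lit 227)) (PT.lf (nat_lit 9576) (nat_lit 6) (nat_lit 126) (nat_lit 3) (nat_lit 226) (nat_lit 144) (nat_lit 230))))) (PT.nd (nat_lit 156) (PT.nd (nat_lit 78) (PT.lf (nat_lit 9652) (nat_lit 6) (nat_lit 127) (nat_lit 3) (nat_lit 227) (nat_lit 144) (nat_lit 229)) (PT.lf (nat_lit 9728) (nat_lit 3) (nat_lit 128) (nat_lit 1) (nat_lit 228) (nat_lit 144) (nat_lit 228))) (PT.nd (nat_lit 78) (PT.lf (nat_lit 9652) (nat_lit 6) (nat_lit 127) (nat_lit 1) (nat_lit 229) (nat_lit 144) (nat_lit 227)) (PT.nd (nat_lit 62166) (PT.lf (nat_lit 9576) (nat_lit 6) (nat_lit 126) (nat_lit 1) (nat_lit 230) (nat_lit 144) (nat_lit 226)) (PT.lf (nat_lit 9804) (nat_lit 6) (nat_lit 129) (nat_lit 3) (nat_lit 226) (nat_lit 145) (nat_lit 229)))))) (PT.nd (nat_lit 62478) (PT.nd (nat_lit 156) (PT.nd (nat_lit 78) (PT.lf (nat_lit 9880) (nat_lit 6) (nat_lit 130) (nat_lit 3) (nat_lit 227) (nat_lit 145) (nat_lit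 228)) (PT.lf (nat_lit 9880) (nat_lit 6) (nat_lit 130) (nat_lit 1) (nat_lit 228) (nat_lit 145) (nat_lit 227))) (PT.nd (nat_lit 62166) (PT.lf (nat_lit 9804) (nat_lit 6) (nat_lit 129) (nat_lit 1) (nat_lit 229) (nat_lit 145) (nat_lit 226)) (PT.nd (nat_lit 78) (PT.lf (nat_lit 9956) (nat_lit 6) (nat_lit 131) (nat_lit 3) (nat_lit 225) (nat_lit 146) (nat_lit 229)) (PT.lf (nat_lit 10032) (nat_lit 6) (nat_lit 132) (nat_lit 3) (nat_lit 226) (nat_lit 146) (nat_lit 228))))) (PT.nd (nat_lit 156) (PT.nd (nat_lit 78) (PT.lf (nat_lit 10108) (nat_lit 3) (nat_lit 133) (nat_lit 1) (nat_lit 227) (nat_lit 146) (nat_lit 227)) (PT.lf (nat_lit 10032) (nat_lit 6) (nat_lit 132) (nat_lit 1) (nat_lit 228) (nat_lit 146) (nat_lit 226))) (PT.nd (nat_lit 62088) (PT.lf (nat_lit 9956) (nat_lit 6) (nat_lit 131) (nat_lit 1) (nat_lit 229) (nat_lit 146) (nat_lit 225)) (PT.nd (nat_lit 78) (PT.lf (nat_lit 10184) (nat_lit 6) (nat_lit 134) (nat_lit 3) (nat_lit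 224) (nat_lit 147) (nat_lit 229)) (PT.lf (nat_lit 10260) (nat_lit 6) (nat_lit 135) (nat_lit 3) (nat_lit 225) (nat_lit 147) (nat_lit 228))))))) (PT.nd (nat_lit 124800) (PT.nd (nat_lit 62400) (PT.nd (nat_lit 156) (PT.nd (nat_lit 78) (PT.lf (nat_lit 10336) (nat_lit 6) (nat_lit 136) (nat_lit 3) (nat_lit 226) (nat_lit 147) (nat_lit 227)) (PT.lf (nat_lit 10336) (nat_lit 6) (nat_lit 136) (nat_lit 1) (nat_lit 227) (nat_lit 147) (nat_lit 226))) (PT.nd (nat_lit 78) (PT.lf (nat_lit 10260) (nat_lit 6) (nat_lit 135) (nat_lit 1) (nat_lit 228) (nat_lit 147) (nat_lit 225)) (PT.nd (nat_lit 62088) (PT.lf (nat_lit 10184) (nat_lit 6) (nat_lit 134) (nat_lit 1) (nat_lit 229) (nat_lit 147) (nat_lit 224)) (PT.lf (nat_lit 10412) (nat_lit 6) (nat_lit 137) (nat_lit 3) (nat_lit 224) (nat_lit 148) (nat_lit 228))))) (PT.nd (nat_lit 156) (PT.nd (nat_lit 78) (PT.lf (nat_lit 10488) (nat_lit 6) (nat_lit 138) (nat_lit 3) (nat_lit 225) (nat_lit 148)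 (nat_lit 227)) (PT.lf (nat_lit 10564) (nat_lit 3) (nat_lit 139) (nat_lit 1) (nat_lit 226) (nat_lit 148) (nat_lit 226))) (PT.nd (nat_lit 78) (PT.lf (nat_lit 10488) (nat_lit 6) (nat_lit 138) (nat_lit 1) (nat_lit 227) (nat_lit 148) (nat_lit 225)) (PT.nd (nat_lit 62088) (PT.lf (nat_lit 10412) (nat_lit 6) (nat_lit 137) (nat_lit 1) (nat_lit 228) (nat_lit 148) (nat_lit 224)) (PT.lf (nat_lit 10640) (nat_lit 6) (nat_lit 140) (nat_lit 3) (nat_lit 223) (nat_lit 149) (nat_lit 228)))))) (PT.nd (nat_lit 62400) (PT.nd (nat_lit 156) (PT.nd (nat_lit 78) (PT.lf (nat_lit 10716) (nat_lit 6) (nat_lit 141) (nat_lit 3) (nat_lit 224) (nat_lit 149) (nat_lit 227)) (PT.lf (nat_lit 10792) (nat_lit 6) (nat_lit 142) (nat_lit 3) (nat_lit 225) (nat_lit 149) (nat_lit 226))) (PT.nd (nat_lit 78) (PT.lf (nat_lit 10792) (nat_lit 6) (nat_lit 142) (nat_lit 1) (nat_lit 226) (nat_lit 149) (nat_lit 225)) (PT.nd (nat_lit 78) (PT.lf (nat_lit 10716) (nat_lit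 6) (nat_lit 141) (nat_lit 1) (nat_lit 227) (nat_lit 149) (nat_lit 224)) (PT.lf (nat_lit 10640) (nat_lit 6) (nat_lit 140) (nat_lit 1) (nat_lit 228) (nat_lit 149) (nat_lit 223))))) (PT.nd (nat_lit 156) (PT.nd (nat_lit 78) (PT.lf (nat_lit 10868) (nat_lit 6) (nat_lit 143) (nat_lit 3) (nat_lit 223) (nat_lit 150) (nat_lit 227)) (PT.lf (nat_lit 10944) (nat_lit 6) (nat_lit 144) (nat_lit 3) (nat_lit 224) (nat_lit 150) (nat_lit 226))) (PT.nd (nat_lit 78) (PT.lf (nat_lit 11020) (nat_lit 3) (nat_lit 145) (nat_lit 1) (nat_lit 225) (nat_lit 150) (nat_lit 225)) (PT.nd (nat_lit 78) (PT.lf (nat_lit 10944) (nat_lit 6) (nat_lit 144) (nat_lit 1) (nat_lit 226) (nat_lit 150) (nat_lit 224)) (PT.lf (nat_lit 10868) (nat_lit 6) (nat_lit 143) (nat_lit 1) (nat_lit 227) (nat_lit 150) (nat_lit 223))))))))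
noncomputable def pc6 : PT := (PT.nd (nat_lit 187512) (PT.nd (nat_lit 62790) (PT.nd (nat_lit 390) (PT.nd (nat_lit 156) (PT.nd (nat_lit 78) (PT.lf (nat_lit 11096) (nat_lit 6) (nat_lit 146) (nat_lit 3) (nat_lit 222) (nat_lit 151) (nat_lit 227)) (PT.lf (nat_lit 11172) (nat_lit 6) (nat_lit 147) (nat_lit 3) (nat_lit 223) (nat_lit 151) (nat_lit 226))) (PT.nd (nat_lit 78) (PT.lf (nat_lit 11248) (nat_lit 6) (nat_lit 148) (nat_lit 3) (nat_lit 224) (nat_lit 151) (nat_lit 225)) (PT.nd (nat_lit 78) (PT.lf (nat_lit 11248) (nat_lit 6) (nat_lit 148) (nat_lit 1) (nat_lit 225) (nat_lit 151) (nat_lit 224)) (PT.lf (nat_lit 11172) (nat_lit 6) (nat_lit 147) (nat_lit 1) (nat_lit 226) (nat_lit 151) (nat_lit 223))))) (PT.nd (nat_lit 62166) (PT.nd (nat_lit 62088) (PT.lf (nat_lit 11096) (nat_lit 6) (nat_lit 146) (nat_lit 1) (nat_lit 227) (nat_lit 151) (nat_lit 222)) (PT.lf (nat_lit 11324) (nat_lit 6) (nat_lit 149) (nat_lit 3) (nat_lit 222)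 (nat_lit 152) (nat_lit 226))) (PT.nd (nat_lit 78) (PT.lf (nat_lit 11400) (nat_lit 6) (nat_lit 150) (nat_lit 3) (nat_lit 223) (nat_lit 152) (nat_lit 225)) (PT.nd (nat_lit 78) (PT.lf (nat_lit 11476) (nat_lit 3) (nat_lit 151) (nat_lit 1) (nat_lit 224) (nat_lit 152) (nat_lit 224)) (PT.lf (nat_lit 11400) (nat_lit 6) (nat_lit 150) (nat_lit 1) (nat_lit 225) (nat_lit 152) (nat_lit 223)))))) (PT.nd (nat_lit 62400) (PT.nd (nat_lit 62166) (PT.nd (nat_lit 62088) (PT.lf (nat_lit 11324) (nat_lit 6) (nat_lit 149) (nat_lit 1) (nat_lit 226) (nat_lit 152) (nat_lit 222)) (PT.lf (nat_lit 11552) (nat_lit 6) (nat_lit 152) (nat_lit 3) (nat_lit 221) (nat_lit 153) (nat_lit 226))) (PT.nd (nat_lit 78) (PT.lf (nat_lit 11628) (nat_lit 6) (nat_lit 153) (nat_lit 3) (nat_lit 222) (nat_lit 153) (nat_lit 225)) (PT.nd (nat_lit 78) (PT.lf (nat_lit 11704) (nat_lit 6) (nat_lit 154) (nat_lit 3) (nat_lit 223) (nat_lit 153) (nat_lit 224)) (PT.lf (nat_lit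 11704) (nat_lit 6) (nat_lit 154) (nat_lit 1) (nat_lit 224) (nat_lit 153) (nat_lit 223))))) (PT.nd (nat_lit 62088) (PT.nd (nat_lit 78) (PT.lf (nat_lit 11628) (nat_lit 6) (nat_lit 153) (nat_lit 1) (nat_lit 225) (nat_lit 153) (nat_lit 222)) (PT.lf (nat_lit 11552) (nat_lit 6) (nat_lit 152) (nat_lit 1) (nat_lit 226) (nat_lit 153) (nat_lit 221))) (PT.nd (nat_lit 78) (PT.lf (nat_lit 11780) (nat_lit 6) (nat_lit 155) (nat_lit 3) (nat_lit 220) (nat_lit 154) (nat_lit 226)) (PT.nd (nat_lit 78) (PT.lf (nat_lit 11856) (nat_lit 6) (nat_lit 156) (nat_lit 3) (nat_lit 221) (nat_lit 154) (nat_lit 225)) (PT.lf (nat_lit 11932) (nat_lit 6) (nat_lit 157) (nat_lit 3) (nat_lit 222) (nat_lit 154) (nat_lit 224))))))) (PT.nd (nat_lit 124644) (PT.nd (nat_lit 62322) (PT.nd (nat_lit 156) (PT.nd (nat_lit 78) (PT.lf (nat_lit 12008) (nat_lit 3) (nat_lit 158) (nat_lit 1) (nat_lit 223) (nat_lit 154) (nat_lit 223)) (PT.lf (nat_lit 11932) (nat_lit 6)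 (nat_lit 157) (nat_lit 1) (nat_lit 224) (nat_lit 154) (nat_lit 222))) (PT.nd (nat_lit 78) (PT.lf (nat_lit 11856) (nat_lit 6) (nat_lit 156) (nat_lit 1) (nat_lit 225) (nat_lit 154) (nat_lit 221)) (PT.nd (nat_lit 62010) (PT.lf (nat_lit 11780) (nat_lit 6) (nat_lit 155) (nat_lit 1) (nat_lit 226) (nat_lit 154) (nat_lit 220)) (PT.lf (nat_lit 12084) (nat_lit 6) (nat_lit 159) (nat_lit 3) (nat_lit 220) (nat_lit 155) (nat_lit 225))))) (PT.nd (nat_lit 156) (PT.nd (nat_lit 78) (PT.lf (nat_lit 12160) (nat_lit 6) (nat_lit 160) (nat_lit 3) (nat_lit 221) (nat_lit 155) (nat_lit 224)) (PT.lf (nat_lit 12236) (nat_lit 6) (nat_lit 161) (nat_lit 3) (nat_lit 222) (nat_lit 155) (nat_lit 223))) (PT.nd (nat_lit 78) (PT.lf (nat_lit 12236) (nat_lit 6) (nat_lit 161) (nat_lit 1) (nat_lit 223) (nat_lit 155) (nat_lit 222)) (PT.nd (nat_lit 78) (PT.lf (nat_lit 12160) (nat_lit 6) (nat_lit 160) (nat_lit 1) (nat_lit 224) (nat_lit 155) (nat_lit 221))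 (PT.lf (nat_lit 12084) (nat_lit 6) (nat_lit 159) (nat_lit 1) (nat_lit 225) (nat_lit 155) (nat_lit 220)))))) (PT.nd (nat_lit 390) (PT.nd (nat_lit 156) (PT.nd (nat_lit 78) (PT.lf (nat_lit 12312) (nat_lit 6) (nat_lit 162) (nat_lit 3) (nat_lit 219) (nat_lit 156) (nat_lit 225)) (PT.lf (nat_lit 12388) (nat_lit 6) (nat_lit 163) (nat_lit 3) (nat_lit 220) (nat_lit 156) (nat_lit 224))) (PT.nd (nat_lit 78) (PT.lf (nat_lit 12464) (nat_lit 6) (nat_lit 164) (nat_lit 3) (nat_lit 221) (nat_lit 156) (nat_lit 223)) (PT.nd (nat_lit 78) (PT.lf (nat_lit 12540) (nat_lit 3) (nat_lit 165) (nat_lit 1) (nat_lit 222) (nat_lit 156) (nat_lit 222)) (PT.lf (nat_lit 12464) (nat_lit 6) (nat_lit 164) (nat_lit 1) (nat_lit 223) (nat_lit 156) (nat_lit 221))))) (PT.nd (nat_lit 62088) (PT.nd (nat_lit 78) (PT.lf (nat_lit 12388) (nat_lit 6) (nat_lit 163) (nat_lit 1) (nat_lit 224) (nat_lit 156) (nat_lit 220)) (PT.lf (nat_lit 12312) (nat_lit 6) (nat_lit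 162) (nat_lit 1) (nat_lit 225) (nat_lit 156) (nat_lit 219))) (PT.nd (nat_lit 78) (PT.lf (nat_lit 12616) (nat_lit 6) (nat_lit 166) (nat_lit 3) (nat_lit 219) (nat_lit 157) (nat_lit 224)) (PT.nd (nat_lit 78) (PT.lf (nat_lit 12692) (nat_lit 6) (nat_lit 167) (nat_lit 3) (nat_lit 220) (nat_lit 157) (nat_lit 223)) (PT.lf (nat_lit 12768) (nat_lit 6) (nat_lit 168) (nat_lit 3) (nat_lit 221) (nat_lit 157) (nat_lit 222))))))))
noncomputable def pc7 : PT := (PT.nd (nat_lit 187200) (PT.nd (nat_lit 124566) (PT.nd (nat_lit 62322) (PT.nd (nat_lit 156) (PT.nd (nat_lit 78) (PT.lf (nat_lit 12768) (nat_lit 6) (nat_lit 168) (nat_lit 1) (nat_lit 222) (nat_lit 157) (nat_lit 221)) (PT.lf (nat_lit 12692) (nat_lit 6) (nat_lit 167) (nat_lit 1) (nat_lit 223) (nat_lit 157) (nat_lit 220))) (PT.nd (nat_lit 62010) (PT.lf (nat_lit 12616) (nat_lit 6) (nat_lit 166) (nat_lit 1) (nat_lit 224) (nat_lit 157) (nat_lit 219)) (PT.nd (nat_lit 78) (PT.lf (nat_lit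 12844) (nat_lit 6) (nat_lit 169) (nat_lit 3) (nat_lit 218) (nat_lit 158) (nat_lit 224)) (PT.lf (nat_lit 12920) (nat_lit 6) (nat_lit 170) (nat_lit 3) (nat_lit 219) (nat_lit 158) (nat_lit 223))))) (PT.nd (nat_lit 156) (PT.nd (nat_lit 78) (PT.lf (nat_lit 12996) (nat_lit 6) (nat_lit 171) (nat_lit 3) (nat_lit 220) (nat_lit 158) (nat_lit 222)) (PT.lf (nat_lit 13072) (nat_lit 3) (nat_lit 172) (nat_lit 1) (nat_lit 221) (nat_lit 158) (nat_lit 221))) (PT.nd (nat_lit 78) (PT.lf (nat_lit 12996) (nat_lit 6) (nat_lit 171) (nat_lit 1) (nat_lit 222) (nat_lit 158) (nat_lit 220)) (PT.nd (nat_lit 78) (PT.lf (nat_lit 12920) (nat_lit 6) (nat_lit 170) (nat_lit 1) (nat_lit 223) (nat_lit 158) (nat_lit 219)) (PT.lf (nat_lit 12844) (nat_lit 6) (nat_lit 169) (nat_lit 1) (nat_lit 224) (nat_lit 158) (nat_lit 218)))))) (PT.nd (nat_lit 390) (PT.nd (nat_lit 156) (PT.nd (nat_lit 78) (PT.lf (nat_lit 13148) (nat_lit 6) (nat_lit 173) (nat_lit 3) (nat_lit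 217) (nat_lit 159) (nat_lit 224)) (PT.lf (nat_lit 13224) (nat_lit 6) (nat_lit 174) (nat_lit 3) (nat_lit 218) (nat_lit 159) (nat_lit 223))) (PT.nd (nat_lit 78) (PT.lf (nat_lit 13300) (nat_lit 6) (nat_lit 175) (nat_lit 3) (nat_lit 219) (nat_lit 159) (nat_lit 222)) (PT.nd (nat_lit 78) (PT.lf (nat_lit 13376) (nat_lit 6) (nat_lit 176) (nat_lit 3) (nat_lit 220) (nat_lit 159) (nat_lit 221)) (PT.lf (nat_lit 13376) (nat_lit 6) (nat_lit 176) (nat_lit 1) (nat_lit 221) (nat_lit 159) (nat_lit 220))))) (PT.nd (nat_lit 156) (PT.nd (nat_lit 78) (PT.lf (nat_lit 13300) (nat_lit 6) (nat_lit 175) (nat_lit 1) (nat_lit 222) (nat_lit 159) (nat_lit 219)) (PT.lf (nat_lit 13224) (nat_lit 6) (nat_lit 174) (nat_lit 1) (nat_lit 223) (nat_lit 159) (nat_lit 218))) (PT.nd (nat_lit 61932) (PT.lf (nat_lit 13148) (nat_lit 6) (nat_lit 173) (nat_lit 1) (nat_lit 224) (nat_lit 159) (nat_lit 217)) (PT.nd (nat_lit 78) (PT.lf (nat_lit 13452) (nat_lit 6)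 (nat_lit 177) (nat_lit 3) (nat_lit 217) (nat_lit 160) (nat_lit 223)) (PT.lf (nat_lit 13528) (nat_lit 6) (nat_lit 178) (nat_lit 3) (nat_lit 218) (nat_lit 160) (nat_lit 222))))))) (PT.nd (nat_lit 62634) (PT.nd (nat_lit 62244) (PT.nd (nat_lit 156) (PT.nd (nat_lit 78) (PT.lf (nat_lit 13604) (nat_lit 6) (nat_lit 179) (nat_lit 3) (nat_lit 219) (nat_lit 160) (nat_lit 221)) (PT.lf (nat_lit 13680) (nat_lit 3) (nat_lit 180) (nat_lit 1) (nat_lit 220) (nat_lit 160) (nat_lit 220))) (PT.nd (nat_lit 78) (PT.lf (nat_lit 13604) (nat_lit 6) (nat_lit 179) (nat_lit 1) (nat_lit 221) (nat_lit 160) (nat_lit 219)) (PT.nd (nat_lit 78) (PT.lf (nat_lit 13528) (nat_lit 6) (nat_lit 178) (nat_lit 1) (nat_lit 222) (nat_lit 160) (nat_lit 218)) (PT.lf (nat_lit 13452) (nat_lit 6) (nat_lit 177) (nat_lit 1) (nat_lit 223) (nat_lit 160) (nat_lit 217))))) (PT.nd (nat_lit 156) (PT.nd (nat_lit 78) (PT.lf (nat_lit 13756) (nat_lit 6) (nat_lit 181) (nat_lit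 3) (nat_lit 216) (nat_lit 161) (nat_lit 223)) (PT.lf (nat_lit 13832) (nat_lit 6) (nat_lit 182) (nat_lit 3) (nat_lit 217) (nat_lit 161) (nat_lit 222))) (PT.nd (nat_lit 78) (PT.lf (nat_lit 13908) (nat_lit 6) (nat_lit 183) (nat_lit 3) (nat_lit 218) (nat_lit 161) (nat_lit 221)) (PT.nd (nat_lit 78) (PT.lf (nat_lit 13984) (nat_lit 6) (nat_lit 184) (nat_lit 3) (nat_lit 219) (nat_lit 161) (nat_lit 220)) (PT.lf (nat_lit 13984) (nat_lit 6) (nat_lit 184) (nat_lit 1) (nat_lit 220) (nat_lit 161) (nat_lit 219)))))) (PT.nd (nat_lit 62166) (PT.nd (nat_lit 156) (PT.nd (nat_lit 78) (PT.lf (nat_lit 13908) (nat_lit 6) (nat_lit 183) (nat_lit 1) (nat_lit 221) (nat_lit 161) (nat_lit 218)) (PT.lf (nat_lit 13832) (nat_lit 6) (nat_lit 182) (nat_lit 1) (nat_lit 222) (nat_lit 161) (nat_lit 217))) (PT.nd (nat_lit 61854) (PT.lf (nat_lit 13756) (nat_lit 6) (nat_lit 181) (nat_lit 1) (nat_lit 223) (nat_lit 161) (nat_lit 216)) (PT.nd (nat_lit 78)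 (PT.lf (nat_lit 14060) (nat_lit 6) (nat_lit 185) (nat_lit 3) (nat_lit 215) (nat_lit 162) (nat_lit 223)) (PT.lf (nat_lit 14136) (nat_lit 6) (nat_lit 186) (nat_lit 3) (nat_lit 216) (nat_lit 162) (nat_lit 222))))) (PT.nd (nat_lit 234) (PT.nd (nat_lit 78) (PT.lf (nat_lit 14212) (nat_lit 6) (nat_lit 187) (nat_lit 3) (nat_lit 217) (nat_lit 162) (nat_lit 221)) (PT.nd (nat_lit 78) (PT.lf (nat_lit 14288) (nat_lit 6) (nat_lit 188) (nat_lit 3) (nat_lit 218) (nat_lit 162) (nat_lit 220)) (PT.lf (nat_lit 14364) (nat_lit 3) (nat_lit 189) (nat_lit 1) (nat_lit 219) (nat_lit 162) (nat_lit 219)))) (PT.nd (nat_lit 78) (PT.lf (nat_lit 14288) (nat_lit 6) (nat_lit 188) (nat_lit 1) (nat_lit 220) (nat_lit 162) (nat_lit 218)) (PT.nd (nat_lit 78) (PT.lf (nat_lit 14212) (nat_lit 6) (nat_lit 187) (nat_lit 1) (nat_lit 221) (nat_lit 162) (nat_lit 217)) (PT.lf (nat_lit 14136) (nat_lit 6) (nat_lit 186) (nat_lit 1) (nat_lit 222) (nat_lit 162) (nat_lit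 216))))))))
noncomputable def pc8 : PT := (PT.nd (nat_lit 186888) (PT.nd (nat_lit 124332) (PT.nd (nat_lit 62166) (PT.nd (nat_lit 61932) (PT.nd (nat_lit 61854) (PT.lf (nat_lit 14060) (nat_lit 6) (nat_lit 185) (nat_lit 1) (nat_lit 223) (nat_lit 162) (nat_lit 215)) (PT.lf (nat_lit 14440) (nat_lit 6) (nat_lit 190) (nat_lit 3) (nat_lit 215) (nat_lit 163) (nat_lit 222))) (PT.nd (nat_lit 78) (PT.lf (nat_lit 14516) (nat_lit 6) (nat_lit 191) (nat_lit 3) (nat_lit 216) (nat_lit 163) (nat_lit 221)) (PT.nd (nat_lit 78) (PT.lf (nat_lit 14592) (nat_lit 6) (nat_lit 192) (nat_lit 3) (nat_lit 217) (nat_lit 163) (nat_lit 220)) (PT.lf (nat_lit 14668) (nat_lit 6) (nat_lit 193) (nat_lit 3) (nat_lit 218) (nat_lit 163) (nat_lit 219))))) (PT.nd (nat_lit 156) (PT.nd (nat_lit 78) (PT.lf (nat_lit 14668) (nat_lit 6) (nat_lit 193) (nat_lit 1) (nat_lit 219) (nat_lit 163) (nat_lit 218)) (PT.lf (nat_lit 14592) (nat_lit 6) (nat_lit 192) (nat_lit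 1) (nat_lit 220) (nat_lit 163) (nat_lit 217))) (PT.nd (nat_lit 78) (PT.lf (nat_lit 14516) (nat_lit 6) (nat_lit 191) (nat_lit 1) (nat_lit 221) (nat_lit 163) (nat_lit 216)) (PT.nd (nat_lit 61854) (PT.lf (nat_lit 14440) (nat_lit 6) (nat_lit 190) (nat_lit 1) (nat_lit 222) (nat_lit 163) (nat_lit 215)) (PT.lf (nat_lit 14744) (nat_lit 6) (nat_lit 194) (nat_lit 3) (nat_lit 214) (nat_lit 164) (nat_lit 222)))))) (PT.nd (nat_lit 390) (PT.nd (nat_lit 156) (PT.nd (nat_lit 78) (PT.lf (nat_lit 14820) (nat_lit 6) (nat_lit 195) (nat_lit 3) (nat_lit 215) (nat_lit 164) (nat_lit 221)) (PT.lf (nat_lit 14896) (nat_lit 6) (nat_lit 196) (nat_lit 3) (nat_lit 216) (nat_lit 164) (nat_lit 220))) (PT.nd (nat_lit 78) (PT.lf (nat_lit 14972) (nat_lit 6) (nat_lit 197) (nat_lit 3) (nat_lit 217) (nat_lit 164) (nat_lit 219)) (PT.nd (nat_lit 78) (PT.lf (nat_lit 15048) (nat_lit 3) (nat_lit 198) (nat_lit 1) (nat_lit 218) (nat_lit 164) (nat_lit 218))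 (PT.lf (nat_lit 14972) (nat_lit 6) (nat_lit 197) (nat_lit 1) (nat_lit 219) (nat_lit 164) (nat_lit 217))))) (PT.nd (nat_lit 156) (PT.nd (nat_lit 78) (PT.lf (nat_lit 14896) (nat_lit 6) (nat_lit 196) (nat_lit 1) (nat_lit 220) (nat_lit 164) (nat_lit 216)) (PT.lf (nat_lit 14820) (nat_lit 6) (nat_lit 195) (nat_lit 1) (nat_lit 221) (nat_lit 164) (nat_lit 215))) (PT.nd (nat_lit 61854) (PT.lf (nat_lit 14744) (nat_lit 6) (nat_lit 194) (nat_lit 1) (nat_lit 222) (nat_lit 164) (nat_lit 214)) (PT.nd (nat_lit 78) (PT.lf (nat_lit 15124) (nat_lit 6) (nat_lit 199) (nat_lit 3) (nat_lit 214) (nat_lit 165) (nat_lit 221)) (PT.lf (nat_lit 15200) (nat_lit 6) (nat_lit 200) (nat_lit 3) (nat_lit 215) (nat_lit 165) (nat_lit 220))))))) (PT.nd (nat_lit 62556) (PT.nd (nat_lit 390) (PT.nd (nat_lit 156) (PT.nd (nat_lit 78) (PT.lf (nat_lit 15276) (nat_lit 6) (nat_lit 201) (nat_lit 3) (nat_lit 216) (nat_lit 165) (nat_lit 219)) (PT.lf (nat_lit 15352)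 (nat_lit 6) (nat_lit 202) (nat_lit 3) (nat_lit 217) (nat_lit 165) (nat_lit 218))) (PT.nd (nat_lit 78) (PT.lf (nat_lit 15352) (nat_lit 6) (nat_lit 202) (nat_lit 1) (nat_lit 218) (nat_lit 165) (nat_lit 217)) (PT.nd (nat_lit 78) (PT.lf (nat_lit 15276) (nat_lit 6) (nat_lit 201) (nat_lit 1) (nat_lit 219) (nat_lit 165) (nat_lit 216)) (PT.lf (nat_lit 15200) (nat_lit 6) (nat_lit 200) (nat_lit 1) (nat_lit 220) (nat_lit 165) (nat_lit 215))))) (PT.nd (nat_lit 61932) (PT.nd (nat_lit 61854) (PT.lf (nat_lit 15124) (nat_lit 6) (nat_lit 199) (nat_lit 1) (nat_lit 221) (nat_lit 165) (nat_lit 214)) (PT.lf (nat_lit 15428) (nat_lit 6) (nat_lit 203) (nat_lit 3) (nat_lit 213) (nat_lit 166) (nat_lit 221))) (PT.nd (nat_lit 78) (PT.lf (nat_lit 15504) (nat_lit 6) (nat_lit 204) (nat_lit 3) (nat_lit 214) (nat_lit 166) (nat_lit 220)) (PT.nd (nat_lit 78) (PT.lf (nat_lit 15580) (nat_lit 6) (nat_lit 205) (nat_lit 3) (nat_lit 215) (nat_lit 166)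 (nat_lit 219)) (PT.lf (nat_lit 15656) (nat_lit 6) (nat_lit 206) (nat_lit 3) (nat_lit 216) (nat_lit 166) (nat_lit 218)))))) (PT.nd (nat_lit 62088) (PT.nd (nat_lit 156) (PT.nd (nat_lit 78) (PT.lf (nat_lit 15732) (nat_lit 3) (nat_lit 207) (nat_lit 1) (nat_lit 217) (nat_lit 166) (nat_lit 217)) (PT.lf (nat_lit 15656) (nat_lit 6) (nat_lit 206) (nat_lit 1) (nat_lit 218) (nat_lit 166) (nat_lit 216))) (PT.nd (nat_lit 78) (PT.lf (nat_lit 15580) (nat_lit 6) (nat_lit 205) (nat_lit 1) (nat_lit 219) (nat_lit 166) (nat_lit 215)) (PT.nd (nat_lit 78) (PT.lf (nat_lit 15504) (nat_lit 6) (nat_lit 204) (nat_lit 1) (nat_lit 220) (nat_lit 166) (nat_lit 214)) (PT.lf (nat_lit 15428) (nat_lit 6) (nat_lit 203) (nat_lit 1) (nat_lit 221) (nat_lit 166) (nat_lit 213))))) (PT.nd (nat_lit 156) (PT.nd (nat_lit 78) (PT.lf (nat_lit 15808) (nat_lit 6) (nat_lit 208) (nat_lit 3) (nat_lit 212) (nat_lit 167) (nat_lit 221)) (PT.lf (nat_lit 15884) (nat_lit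 6) (nat_lit 209) (nat_lit 3) (nat_lit 213) (nat_lit 167) (nat_lit 220))) (PT.nd (nat_lit 78) (PT.lf (nat_lit 15960) (nat_lit 6) (nat_lit 210) (nat_lit 3) (nat_lit 214) (nat_lit 167) (nat_lit 219)) (PT.nd (nat_lit 78) (PT.lf (nat_lit 16036) (nat_lit 6) (nat_lit 211) (nat_lit 3) (nat_lit 215) (nat_lit 167) (nat_lit 218)) (PT.lf (nat_lit 16112) (nat_lit 6) (nat_lit 212) (nat_lit 3) (nat_lit 216) (nat_lit 167) (nat_lit 217))))))))
noncomputable def pc9 : PT := (PT.nd (nat_lit 124800) (PT.nd (nat_lit 62400) (PT.nd (nat_lit 62010) (PT.nd (nat_lit 156) (PT.nd (nat_lit 78) (PT.lf (nat_lit 16112) (nat_lit 6) (nat_lit 212) (nat_lit 1) (nat_lit 217) (nat_lit 167) (nat_lit 216)) (PT.lf (nat_lit 16036) (nat_lit 6) (nat_lit 211) (nat_lit 1) (nat_lit 218) (nat_lit 167) (nat_lit 215))) (PT.nd (nat_lit 78) (PT.lf (nat_lit 15960) (nat_lit 6) (nat_lit 210) (nat_lit 1) (nat_lit 219) (nat_lit 167) (nat_lit 214)) (PT.nd (nat_lit 78)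 (PT.lf (nat_lit 15884) (nat_lit 6) (nat_lit 209) (nat_lit 1) (nat_lit 220) (nat_lit 167) (nat_lit 213)) (PT.lf (nat_lit 15808) (nat_lit 6) (nat_lit 208) (nat_lit 1) (nat_lit 221) (nat_lit 167) (nat_lit 212))))) (PT.nd (nat_lit 156) (PT.nd (nat_lit 78) (PT.lf (nat_lit 16188) (nat_lit 6) (nat_lit 213) (nat_lit 3) (nat_lit 211) (nat_lit 168) (nat_lit 221)) (PT.lf (nat_lit 16264) (nat_lit 6) (nat_lit 214) (nat_lit 3) (nat_lit 212) (nat_lit 168) (nat_lit 220))) (PT.nd (nat_lit 78) (PT.lf (nat_lit 16340) (nat_lit 6) (nat_lit 215) (nat_lit 3) (nat_lit 213) (nat_lit 168) (nat_lit 219)) (PT.nd (nat_lit 78) (PT.lf (nat_lit 16416) (nat_lit 6) (nat_lit 216) (nat_lit 3) (nat_lit 214) (nat_lit 168) (nat_lit 218)) (PT.lf (nat_lit 16492) (nat_lit 6) (nat_lit 217) (nat_lit 3) (nat_lit 215) (nat_lit 168) (nat_lit 217)))))) (PT.nd (nat_lit 390) (PT.nd (nat_lit 156) (PT.nd (nat_lit 78) (PT.lf (nat_lit 16568) (nat_lit 3) (nat_lit 218)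 (nat_lit 1) (nat_lit 216) (nat_lit 168) (nat_lit 216)) (PT.lf (nat_lit 16492) (nat_lit 6) (nat_lit 217) (nat_lit 1) (nat_lit 217) (nat_lit 168) (nat_lit 215))) (PT.nd (nat_lit 78) (PT.lf (nat_lit 16416) (nat_lit 6) (nat_lit 216) (nat_lit 1) (nat_lit 218) (nat_lit 168) (nat_lit 214)) (PT.nd (nat_lit 78) (PT.lf (nat_lit 16340) (nat_lit 6) (nat_lit 215) (nat_lit 1) (nat_lit 219) (nat_lit 168) (nat_lit 213)) (PT.lf (nat_lit 16264) (nat_lit 6) (nat_lit 214) (nat_lit 1) (nat_lit 220) (nat_lit 168) (nat_lit 212))))) (PT.nd (nat_lit 61776) (PT.nd (nat_lit 61698) (PT.lf (nat_lit 16188) (nat_lit 6) (nat_lit 213) (nat_lit 1) (nat_lit 221) (nat_lit 168) (nat_lit 211)) (PT.lf (nat_lit 16644) (nat_lit 6) (nat_lit 219) (nat_lit 3) (nat_lit 211) (nat_lit 169) (nat_lit 220))) (PT.nd (nat_lit 78) (PT.lf (nat_lit 16720) (nat_lit 6) (nat_lit 220) (nat_lit 3) (nat_lit 212) (nat_lit 169) (nat_lit 219)) (PT.nd (nat_lit 78) (PT.lf (nat_lit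 16796) (nat_lit 6) (nat_lit 221) (nat_lit 3) (nat_lit 213) (nat_lit 169) (nat_lit 218)) (PT.lf (nat_lit 16872) (nat_lit 6) (nat_lit 222) (nat_lit 3) (nat_lit 214) (nat_lit 169) (nat_lit 217))))))) (PT.nd (nat_lit 62400) (PT.nd (nat_lit 390) (PT.nd (nat_lit 156) (PT.nd (nat_lit 78) (PT.lf (nat_lit 16948) (nat_lit 6) (nat_lit 223) (nat_lit 3) (nat_lit 215) (nat_lit 169) (nat_lit 216)) (PT.lf (nat_lit 16948) (nat_lit 6) (nat_lit 223) (nat_lit 1) (nat_lit 216) (nat_lit 169) (nat_lit 215))) (PT.nd (nat_lit 78) (PT.lf (nat_lit 16872) (nat_lit 6) (nat_lit 222) (nat_lit 1) (nat_lit 217) (nat_lit 169) (nat_lit 214)) (PT.nd (nat_lit 78) (PT.lf (nat_lit 16796) (nat_lit 6) (nat_lit 221) (nat_lit 1) (nat_lit 218) (nat_lit 169) (nat_lit 213)) (PT.lf (nat_lit 16720) (nat_lit 6) (nat_lit 220) (nat_lit 1) (nat_lit 219) (nat_lit 169) (nat_lit 212))))) (PT.nd (nat_lit 61776) (PT.nd (nat_lit 61698) (PT.lf (nat_lit 16644) (nat_lit 6)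 (nat_lit 219) (nat_lit 1) (nat_lit 220) (nat_lit 169) (nat_lit 211)) (PT.lf (nat_lit 17024) (nat_lit 6) (nat_lit 224) (nat_lit 3) (nat_lit 210) (nat_lit 170) (nat_lit 220))) (PT.nd (nat_lit 78) (PT.lf (nat_lit 17100) (nat_lit 6) (nat_lit 225) (nat_lit 3) (nat_lit 211) (nat_lit 170) (nat_lit 219)) (PT.nd (nat_lit 78) (PT.lf (nat_lit 17176) (nat_lit 6) (nat_lit 226) (nat_lit 3) (nat_lit 212) (nat_lit 170) (nat_lit 218)) (PT.lf (nat_lit 17252) (nat_lit 6) (nat_lit 227) (nat_lit 3) (nat_lit 213) (nat_lit 170) (nat_lit 217)))))) (PT.nd (nat_lit 390) (PT.nd (nat_lit 156) (PT.nd (nat_lit 78) (PT.lf (nat_lit 17328) (nat_lit 6) (nat_lit 228) (nat_lit 3) (nat_lit 214) (nat_lit 170) (nat_lit 216)) (PT.lf (nat_lit 17404) (nat_lit 3) (nat_lit 229) (nat_lit 1) (nat_lit 215) (nat_lit 170) (nat_lit 215))) (PT.nd (nat_lit 78) (PT.lf (nat_lit 17328) (nat_lit 6) (nat_lit 228) (nat_lit 1) (nat_lit 216) (nat_lit 170) (nat_lit 214))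 (PT.nd (nat_lit 78) (PT.lf (nat_lit 17252) (nat_lit 6) (nat_lit 227) (nat_lit 1) (nat_lit 217) (nat_lit 170) (nat_lit 213)) (PT.lf (nat_lit 17176) (nat_lit 6) (nat_lit 226) (nat_lit 1) (nat_lit 218) (nat_lit 170) (nat_lit 212))))) (PT.nd (nat_lit 61698) (PT.nd (nat_lit 78) (PT.lf (nat_lit 17100) (nat_lit 6) (nat_lit 225) (nat_lit 1) (nat_lit 219) (nat_lit 170) (nat_lit 211)) (PT.lf (nat_lit 17024) (nat_lit 6) (nat_lit 224) (nat_lit 1) (nat_lit 220) (nat_lit 170) (nat_lit 210))) (PT.nd (nat_lit 78) (PT.lf (nat_lit 17480) (nat_lit 6) (nat_lit 230) (nat_lit 3) (nat_lit 209) (nat_lit 171) (nat_lit 220)) (PT.nd (nat_lit 78) (PT.lf (nat_lit 17556) (nat_lit 6) (nat_lit 231) (nat_lit 3) (nat_lit 210) (nat_lit 171) (nat_lit 219)) (PT.lf (nat_lit 17632) (nat_lit 6) (nat_lit 232) (nat_lit 3) (nat_lit 211) (nat_lit 171) (nat_lit 218))))))))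
noncomputable def pc10 : PT := (PT.nd (nat_lit 124644) (PT.nd (nat_lit 62322) (PT.nd (nat_lit 390) (PT.nd (nat_lit 156) (PT.nd (nat_lit 78) (PT.lf (nat_lit 17708) (nat_lit 6) (nat_lit 233) (nat_lit 3) (nat_lit 212) (nat_lit 171) (nat_lit 217)) (PT.lf (nat_lit 17784) (nat_lit 6) (nat_lit 234) (nat_lit 3) (nat_lit 213) (nat_lit 171) (nat_lit 216))) (PT.nd (nat_lit 78) (PT.lf (nat_lit 17860) (nat_lit 6) (nat_lit 235) (nat_lit 3) (nat_lit 214) (nat_lit 171) (nat_lit 215)) (PT.nd (nat_lit 78) (PT.lf (nat_lit 17860) (nat_lit 6) (nat_lit 235) (nat_lit 1) (nat_lit 215) (nat_lit 171) (nat_lit 214)) (PT.lf (nat_lit 17784) (nat_lit 6) (nat_lit 234) (nat_lit 1) (nat_lit 216) (nat_lit 171) (nat_lit 213))))) (PT.nd (nat_lit 156) (PT.nd (nat_lit 78) (PT.lf (nat_lit 17708) (nat_lit 6) (nat_lit 233) (nat_lit 1) (nat_lit 217) (nat_lit 171) (nat_lit 212)) (PT.lf (nat_lit 17632) (nat_lit 6) (nat_lit 232) (nat_lit 1) (nat_lit 218) (nat_lit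 171) (nat_lit 211))) (PT.nd (nat_lit 78) (PT.lf (nat_lit 17556) (nat_lit 6) (nat_lit 231) (nat_lit 1) (nat_lit 219) (nat_lit 171) (nat_lit 210)) (PT.nd (nat_lit 61620) (PT.lf (nat_lit 17480) (nat_lit 6) (nat_lit 230) (nat_lit 1) (nat_lit 220) (nat_lit 171) (nat_lit 209)) (PT.lf (nat_lit 17936) (nat_lit 6) (nat_lit 236) (nat_lit 3) (nat_lit 209) (nat_lit 172) (nat_lit 219)))))) (PT.nd (nat_lit 390) (PT.nd (nat_lit 156) (PT.nd (nat_lit 78) (PT.lf (nat_lit 18012) (nat_lit 6) (nat_lit 237) (nat_lit 3) (nat_lit 210) (nat_lit 172) (nat_lit 218)) (PT.lf (nat_lit 18088) (nat_lit 6) (nat_lit 238) (nat_lit 3) (nat_lit 211) (nat_lit 172) (nat_lit 217))) (PT.nd (nat_lit 78) (PT.lf (nat_lit 18164) (nat_lit 6) (nat_lit 239) (nat_lit 3) (nat_lit 212) (nat_lit 172) (nat_lit 216)) (PT.nd (nat_lit 78) (PT.lf (nat_lit 18240) (nat_lit 6) (nat_lit 240) (nat_lit 3) (nat_lit 213) (nat_lit 172) (nat_lit 215)) (PT.lf (nat_lit 18316) (nat_lit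 3) (nat_lit 241) (nat_lit 1) (nat_lit 214) (nat_lit 172) (nat_lit 214))))) (PT.nd (nat_lit 156) (PT.nd (nat_lit 78) (PT.lf (nat_lit 18240) (nat_lit 6) (nat_lit 240) (nat_lit 1) (nat_lit 215) (nat_lit 172) (nat_lit 213)) (PT.lf (nat_lit 18164) (nat_lit 6) (nat_lit 239) (nat_lit 1) (nat_lit 216) (nat_lit 172) (nat_lit 212))) (PT.nd (nat_lit 78) (PT.lf (nat_lit 18088) (nat_lit 6) (nat_lit 238) (nat_lit 1) (nat_lit 217) (nat_lit 172) (nat_lit 211)) (PT.nd (nat_lit 78) (PT.lf (nat_lit 18012) (nat_lit 6) (nat_lit 237) (nat_lit 1) (nat_lit 218) (nat_lit 172) (nat_lit 210)) (PT.lf (nat_lit 17936) (nat_lit 6) (nat_lit 236) (nat_lit 1) (nat_lit 219) (nat_lit 172) (nat_lit 209))))))) (PT.nd (nat_lit 780) (PT.nd (nat_lit 390) (PT.nd (nat_lit 156) (PT.nd (nat_lit 78) (PT.lf (nat_lit 18392) (nat_lit 6) (nat_lit 242) (nat_lit 3) (nat_lit 208) (nat_lit 173) (nat_lit 219)) (PT.lf (nat_lit 18468) (nat_lit 6) (nat_lit 243) (nat_lit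 3) (nat_lit 209) (nat_lit 173) (nat_lit 218))) (PT.nd (nat_lit 78) (PT.lf (nat_lit 18544) (nat_lit 6) (nat_lit 244) (nat_lit 3) (nat_lit 210) (nat_lit 173) (nat_lit 217)) (PT.nd (nat_lit 78) (PT.lf (nat_lit 18620) (nat_lit 6) (nat_lit 245) (nat_lit 3) (nat_lit 211) (nat_lit 173) (nat_lit 216)) (PT.lf (nat_lit 18696) (nat_lit 6) (nat_lit 246) (nat_lit 3) (nat_lit 212) (nat_lit 173) (nat_lit 215))))) (PT.nd (nat_lit 156) (PT.nd (nat_lit 78) (PT.lf (nat_lit 18772) (nat_lit 6) (nat_lit 247) (nat_lit 3) (nat_lit 213) (nat_lit 173) (nat_lit 214)) (PT.lf (nat_lit 18772) (nat_lit 6) (nat_lit 247) (nat_lit 1) (nat_lit 214) (nat_lit 173) (nat_lit 213))) (PT.nd (nat_lit 78) (PT.lf (nat_lit 18696) (nat_lit 6) (nat_lit 246) (nat_lit 1) (nat_lit 215) (nat_lit 173) (nat_lit 212)) (PT.nd (nat_lit 78) (PT.lf (nat_lit 18620) (nat_lit 6) (nat_lit 245) (nat_lit 1) (nat_lit 216) (nat_lit 173) (nat_lit 211)) (PT.lf (nat_lit 18544) (nat_lit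 6) (nat_lit 244) (nat_lit 1) (nat_lit 217) (nat_lit 173) (nat_lit 210)))))) (PT.nd (nat_lit 61854) (PT.nd (nat_lit 61620) (PT.nd (nat_lit 78) (PT.lf (nat_lit 18468) (nat_lit 6) (nat_lit 243) (nat_lit 1) (nat_lit 218) (nat_lit 173) (nat_lit 209)) (PT.lf (nat_lit 18392) (nat_lit 6) (nat_lit 242) (nat_lit 1) (nat_lit 219) (nat_lit 173) (nat_lit 208))) (PT.nd (nat_lit 78) (PT.lf (nat_lit 18848) (nat_lit 6) (nat_lit 248) (nat_lit 3) (nat_lit 207) (nat_lit 174) (nat_lit 219)) (PT.nd (nat_lit 78) (PT.lf (nat_lit 18924) (nat_lit 6) (nat_lit 249) (nat_lit 3) (nat_lit 208) (nat_lit 174) (nat_lit 218)) (PT.lf (nat_lit 19000) (nat_lit 6) (nat_lit 250) (nat_lit 3) (nat_lit 209) (nat_lit 174) (nat_lit 217))))) (PT.nd (nat_lit 156) (PT.nd (nat_lit 78) (PT.lf (nat_lit 19076) (nat_lit 6) (nat_lit 251) (nat_lit 3) (nat_lit 210) (nat_lit 174) (nat_lit 216)) (PT.lf (nat_lit 19152) (nat_lit 6) (nat_lit 252) (nat_lit 3) (nat_lit 211)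 (nat_lit 174) (nat_lit 215))) (PT.nd (nat_lit 78) (PT.lf (nat_lit 19228) (nat_lit 6) (nat_lit 253) (nat_lit 3) (nat_lit 212) (nat_lit 174) (nat_lit 214)) (PT.nd (nat_lit 78) (PT.lf (nat_lit 19304) (nat_lit 3) (nat_lit 254) (nat_lit 1) (nat_lit 213) (nat_lit 174) (nat_lit 213)) (PT.lf (nat_lit 19228) (nat_lit 6) (nat_lit 253) (nat_lit 1) (nat_lit 214) (nat_lit 174) (nat_lit 212))))))))
noncomputable def pc11 : PT := (PT.nd (nat_lit 124488) (PT.nd (nat_lit 62244) (PT.nd (nat_lit 61854) (PT.nd (nat_lit 156) (PT.nd (nat_lit 78) (PT.lf (nat_lit 19152) (nat_lit 6) (nat_lit 252) (nat_lit 1) (nat_lit 215) (nat_lit 174) (nat_lit 211)) (PT.lf (nat_lit 19076) (nat_lit 6) (nat_lit 251) (nat_lit 1) (nat_lit 216) (nat_lit 174) (nat_lit 210))) (PT.nd (nat_lit 78) (PT.lf (nat_lit 19000) (nat_lit 6) (nat_lit 250) (nat_lit 1) (nat_lit 217) (nat_lit 174) (nat_lit 209)) (PT.nd (nat_lit 78) (PT.lf (nat_lit 18924) (nat_lit 6) (nat_lit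 249) (nat_lit 1) (nat_lit 218) (nat_lit 174) (nat_lit 208)) (PT.lf (nat_lit 18848) (nat_lit 6) (nat_lit 248) (nat_lit 1) (nat_lit 219) (nat_lit 174) (nat_lit 207))))) (PT.nd (nat_lit 156) (PT.nd (nat_lit 78) (PT.lf (nat_lit 19380) (nat_lit 6) (nat_lit 255) (nat_lit 3) (nat_lit 207) (nat_lit 175) (nat_lit 218)) (PT.lf (nat_lit 19456) (nat_lit 6) (nat_lit 256) (nat_lit 3) (nat_lit 208) (nat_lit 175) (nat_lit 217))) (PT.nd (nat_lit 78) (PT.lf (nat_lit 19532) (nat_lit 6) (nat_lit 257) (nat_lit 3) (nat_lit 209) (nat_lit 175) (nat_lit 216)) (PT.nd (nat_lit 78) (PT.lf (nat_lit 19608) (nat_lit 6) (nat_lit 258) (nat_lit 3) (nat_lit 210) (nat_lit 175) (nat_lit 215)) (PT.lf (nat_lit 19684) (nat_lit 6) (nat_lit 259) (nat_lit 3) (nat_lit 211) (nat_lit 175) (nat_lit 214)))))) (PT.nd (nat_lit 390) (PT.nd (nat_lit 156) (PT.nd (nat_lit 78) (PT.lf (nat_lit 19760) (nat_lit 6) (nat_lit 260) (nat_lit 3) (nat_lit 212) (nat_lit 175) (nat_lit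 213)) (PT.lf (nat_lit 19760) (nat_lit 6) (nat_lit 260) (nat_lit 1) (nat_lit 213) (nat_lit 175) (nat_lit 212))) (PT.nd (nat_lit 78) (PT.lf (nat_lit 19684) (nat_lit 6) (nat_lit 259) (nat_lit 1) (nat_lit 214) (nat_lit 175) (nat_lit 211)) (PT.nd (nat_lit 78) (PT.lf (nat_lit 19608) (nat_lit 6) (nat_lit 258) (nat_lit 1) (nat_lit 215) (nat_lit 175) (nat_lit 210)) (PT.lf (nat_lit 19532) (nat_lit 6) (nat_lit 257) (nat_lit 1) (nat_lit 216) (nat_lit 175) (nat_lit 209))))) (PT.nd (nat_lit 61620) (PT.nd (nat_lit 78) (PT.lf (nat_lit 19456) (nat_lit 6) (nat_lit 256) (nat_lit 1) (nat_lit 217) (nat_lit 175) (nat_lit 208)) (PT.lf (nat_lit 19380) (nat_lit 6) (nat_lit 255) (nat_lit 1) (nat_lit 218) (nat_lit 175) (nat_lit 207))) (PT.nd (nat_lit 78) (PT.lf (nat_lit 19836) (nat_lit 6) (nat_lit 261) (nat_lit 3) (nat_lit 206) (nat_lit 176) (nat_lit 218)) (PT.nd (nat_lit 78) (PT.lf (nat_lit 19912) (nat_lit 6) (nat_lit 262) (nat_lit 3) (nat_lit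 207) (nat_lit 176) (nat_lit 217)) (PT.lf (nat_lit 19988) (nat_lit 6) (nat_lit 263) (nat_lit 3) (nat_lit 208) (nat_lit 176) (nat_lit 216))))))) (PT.nd (nat_lit 62166) (PT.nd (nat_lit 390) (PT.nd (nat_lit 156) (PT.nd (nat_lit 78) (PT.lf (nat_lit 20064) (nat_lit 6) (nat_lit 264) (nat_lit 3) (nat_lit 209) (nat_lit 176) (nat_lit 215)) (PT.lf (nat_lit 20140) (nat_lit 6) (nat_lit 265) (nat_lit 3) (nat_lit 210) (nat_lit 176) (nat_lit 214))) (PT.nd (nat_lit 78) (PT.lf (nat_lit 20216) (nat_lit 6) (nat_lit 266) (nat_lit 3) (nat_lit 211) (nat_lit 176) (nat_lit 213)) (PT.nd (nat_lit 78) (PT.lf (nat_lit 20292) (nat_lit 3) (nat_lit 267) (nat_lit 1) (nat_lit 212) (nat_lit 176) (nat_lit 212)) (PT.lf (nat_lit 20216) (nat_lit 6) (nat_lit 266) (nat_lit 1) (nat_lit 213) (nat_lit 176) (nat_lit 211))))) (PT.nd (nat_lit 156) (PT.nd (nat_lit 78) (PT.lf (nat_lit 20140) (nat_lit 6) (nat_lit 265) (nat_lit 1) (nat_lit 214) (nat_lit 176) (nat_lit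 210)) (PT.lf (nat_lit 20064) (nat_lit 6) (nat_lit 264) (nat_lit 1) (nat_lit 215) (nat_lit 176) (nat_lit 209))) (PT.nd (nat_lit 78) (PT.lf (nat_lit 19988) (nat_lit 6) (nat_lit 263) (nat_lit 1) (nat_lit 216) (nat_lit 176) (nat_lit 208)) (PT.nd (nat_lit 78) (PT.lf (nat_lit 19912) (nat_lit 6) (nat_lit 262) (nat_lit 1) (nat_lit 217) (nat_lit 176) (nat_lit 207)) (PT.lf (nat_lit 19836) (nat_lit 6) (nat_lit 261) (nat_lit 1) (nat_lit 218) (nat_lit 176) (nat_lit 206)))))) (PT.nd (nat_lit 390) (PT.nd (nat_lit 156) (PT.nd (nat_lit 78) (PT.lf (nat_lit 20368) (nat_lit 6) (nat_lit 268) (nat_lit 3) (nat_lit 205) (nat_lit 177) (nat_lit 218)) (PT.lf (nat_lit 20444) (nat_lit 6) (nat_lit 269) (nat_lit 3) (nat_lit 206) (nat_lit 177) (nat_lit 217))) (PT.nd (nat_lit 78) (PT.lf (nat_lit 20520) (nat_lit 6) (nat_lit 270) (nat_lit 3) (nat_lit 207) (nat_lit 177) (nat_lit 216)) (PT.nd (nat_lit 78) (PT.lf (nat_lit 20596) (nat_lit 6) (nat_lit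 271) (nat_lit 3) (nat_lit 208) (nat_lit 177) (nat_lit 215)) (PT.lf (nat_lit 20672) (nat_lit 6) (nat_lit 272) (nat_lit 3) (nat_lit 209) (nat_lit 177) (nat_lit 214))))) (PT.nd (nat_lit 234) (PT.nd (nat_lit 78) (PT.lf (nat_lit 20748) (nat_lit 6) (nat_lit 273) (nat_lit 3) (nat_lit 210) (nat_lit 177) (nat_lit 213)) (PT.nd (nat_lit 78) (PT.lf (nat_lit 20824) (nat_lit 6) (nat_lit 274) (nat_lit 3) (nat_lit 211) (nat_lit 177) (nat_lit 212)) (PT.lf (nat_lit 20824) (nat_lit 6) (nat_lit 274) (nat_lit 1) (nat_lit 212) (nat_lit 177) (nat_lit 211)))) (PT.nd (nat_lit 78) (PT.lf (nat_lit 20748) (nat_lit 6) (nat_lit 273) (nat_lit 1) (nat_lit 213) (nat_lit 177) (nat_lit 210)) (PT.nd (nat_lit 78) (PT.lf (nat_lit 20672) (nat_lit 6) (nat_lit 272) (nat_lit 1) (nat_lit 214) (nat_lit 177) (nat_lit 209)) (PT.lf (nat_lit 20596) (nat_lit 6) (nat_lit 271) (nat_lit 1) (nat_lit 215) (nat_lit 177) (nat_lit 208))))))))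
noncomputable def pc12 : PT := (PT.nd (nat_lit 124098) (PT.nd (nat_lit 62088) (PT.nd (nat_lit 61698) (PT.nd (nat_lit 156) (PT.nd (nat_lit 78) (PT.lf (nat_lit 20520) (nat_lit 6) (nat_lit 270) (nat_lit 1) (nat_lit 216) (nat_lit 177) (nat_lit 207)) (PT.lf (nat_lit 20444) (nat_lit 6) (nat_lit 269) (nat_lit 1) (nat_lit 217) (nat_lit 177) (nat_lit 206))) (PT.nd (nat_lit 61386) (PT.lf (nat_lit 20368) (nat_lit 6) (nat_lit 268) (nat_lit 1) (nat_lit 218) (nat_lit 177) (nat_lit 205)) (PT.nd (nat_lit 78) (PT.lf (nat_lit 20900) (nat_lit 6) (nat_lit 275) (nat_lit 3) (nat_lit 204) (nat_lit 178) (nat_lit 218)) (PT.lf (nat_lit 20976) (nat_lit 6) (nat_lit 276) (nat_lit 3) (nat_lit 205) (nat_lit 178) (nat_lit 217))))) (PT.nd (nat_lit 156) (PT.nd (nat_lit 78) (PT.lf (nat_lit 21052) (nat_lit 6) (nat_lit 277) (nat_lit 3) (nat_lit 206) (nat_lit 178) (nat_lit 216)) (PT.lf (nat_lit 21128) (nat_lit 6) (nat_lit 278) (nat_lit 3) (nat_lit 207)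 (nat_lit 178) (nat_lit 215))) (PT.nd (nat_lit 78) (PT.lf (nat_lit 21204) (nat_lit 6) (nat_lit 279) (nat_lit 3) (nat_lit 208) (nat_lit 178) (nat_lit 214)) (PT.nd (nat_lit 78) (PT.lf (nat_lit 21280) (nat_lit 6) (nat_lit 280) (nat_lit 3) (nat_lit 209) (nat_lit 178) (nat_lit 213)) (PT.lf (nat_lit 21356) (nat_lit 6) (nat_lit 281) (nat_lit 3) (nat_lit 210) (nat_lit 178) (nat_lit 212)))))) (PT.nd (nat_lit 390) (PT.nd (nat_lit 156) (PT.nd (nat_lit 78) (PT.lf (nat_lit 21432) (nat_lit 3) (nat_lit 282) (nat_lit 1) (nat_lit 211) (nat_lit 178) (nat_lit 211)) (PT.lf (nat_lit 21356) (nat_lit 6) (nat_lit 281) (nat_lit 1) (nat_lit 212) (nat_lit 178) (nat_lit 210))) (PT.nd (nat_lit 78) (PT.lf (nat_lit 21280) (nat_lit 6) (nat_lit 280) (nat_lit 1) (nat_lit 213) (nat_lit 178) (nat_lit 209)) (PT.nd (nat_lit 78) (PT.lf (nat_lit 21204) (nat_lit 6) (nat_lit 279) (nat_lit 1) (nat_lit 214) (nat_lit 178) (nat_lit 208)) (PT.lf (nat_lit 21128)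 (nat_lit 6) (nat_lit 278) (nat_lit 1) (nat_lit 215) (nat_lit 178) (nat_lit 207))))) (PT.nd (nat_lit 156) (PT.nd (nat_lit 78) (PT.lf (nat_lit 21052) (nat_lit 6) (nat_lit 277) (nat_lit 1) (nat_lit 216) (nat_lit 178) (nat_lit 206)) (PT.lf (nat_lit 20976) (nat_lit 6) (nat_lit 276) (nat_lit 1) (nat_lit 217) (nat_lit 178) (nat_lit 205))) (PT.nd (nat_lit 61308) (PT.lf (nat_lit 20900) (nat_lit 6) (nat_lit 275) (nat_lit 1) (nat_lit 218) (nat_lit 178) (nat_lit 204)) (PT.nd (nat_lit 78) (PT.lf (nat_lit 21508) (nat_lit 6) (nat_lit 283) (nat_lit 3) (nat_lit 203) (nat_lit 179) (nat_lit 218)) (PT.lf (nat_lit 21584) (nat_lit 6) (nat_lit 284) (nat_lit 3) (nat_lit 204) (nat_lit 179) (nat_lit 217))))))) (PT.nd (nat_lit 780) (PT.nd (nat_lit 390) (PT.nd (nat_lit 156) (PT.nd (nat_lit 78) (PT.lf (nat_lit 21660) (nat_lit 6) (nat_lit 285) (nat_lit 3) (nat_lit 205) (nat_lit 179) (nat_lit 216)) (PT.lf (nat_lit 21736) (nat_lit 6) (nat_lit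 286) (nat_lit 3) (nat_lit 206) (nat_lit 179) (nat_lit 215))) (PT.nd (nat_lit 78) (PT.lf (nat_lit 21812) (nat_lit 6) (nat_lit 287) (nat_lit 3) (nat_lit 207) (nat_lit 179) (nat_lit 214)) (PT.nd (nat_lit 78) (PT.lf (nat_lit 21888) (nat_lit 6) (nat_lit 288) (nat_lit 3) (nat_lit 208) (nat_lit 179) (nat_lit 213)) (PT.lf (nat_lit 21964) (nat_lit 6) (nat_lit 289) (nat_lit 3) (nat_lit 209) (nat_lit 179) (nat_lit 212))))) (PT.nd (nat_lit 156) (PT.nd (nat_lit 78) (PT.lf (nat_lit 22040) (nat_lit 6) (nat_lit 290) (nat_lit 3) (nat_lit 210) (nat_lit 179) (nat_lit 211)) (PT.lf (nat_lit 22040) (nat_lit 6) (nat_lit 290) (nat_lit 1) (nat_lit 211) (nat_lit 179) (nat_lit 210))) (PT.nd (nat_lit 78) (PT.lf (nat_lit 21964) (nat_lit 6) (nat_lit 289) (nat_lit 1) (nat_lit 212) (nat_lit 179) (nat_lit 209)) (PT.nd (nat_lit 78) (PT.lf (nat_lit 21888) (nat_lit 6) (nat_lit 288) (nat_lit 1) (nat_lit 213) (nat_lit 179) (nat_lit 208)) (PT.lf (nat_lit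 21812) (nat_lit 6) (nat_lit 287) (nat_lit 1) (nat_lit 214) (nat_lit 179) (nat_lit 207)))))) (PT.nd (nat_lit 61620) (PT.nd (nat_lit 156) (PT.nd (nat_lit 78) (PT.lf (nat_lit 21736) (nat_lit 6) (nat_lit 286) (nat_lit 1) (nat_lit 215) (nat_lit 179) (nat_lit 206)) (PT.lf (nat_lit 21660) (nat_lit 6) (nat_lit 285) (nat_lit 1) (nat_lit 216) (nat_lit 179) (nat_lit 205))) (PT.nd (nat_lit 78) (PT.lf (nat_lit 21584) (nat_lit 6) (nat_lit 284) (nat_lit 1) (nat_lit 217) (nat_lit 179) (nat_lit 204)) (PT.nd (nat_lit 61308) (PT.lf (nat_lit 21508) (nat_lit 6) (nat_lit 283) (nat_lit 1) (nat_lit 218) (nat_lit 179) (nat_lit 203)) (PT.lf (nat_lit 22116) (nat_lit 6) (nat_lit 291) (nat_lit 3) (nat_lit 203) (nat_lit 180) (nat_lit 217))))) (PT.nd (nat_lit 156) (PT.nd (nat_lit 78) (PT.lf (nat_lit 22192) (nat_lit 6) (nat_lit 292) (nat_lit 3) (nat_lit 204) (nat_lit 180) (nat_lit 216)) (PT.lf (nat_lit 22268) (nat_lit 6) (nat_lit 293) (nat_lit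 3) (nat_lit 205) (nat_lit 180) (nat_lit 215))) (PT.nd (nat_lit 78) (PT.lf (nat_lit 22344) (nat_lit 6) (nat_lit 294) (nat_lit 3) (nat_lit 206) (nat_lit 180) (nat_lit 214)) (PT.nd (nat_lit 78) (PT.lf (nat_lit 22420) (nat_lit 6) (nat_lit 295) (nat_lit 3) (nat_lit 207) (nat_lit 180) (nat_lit 213)) (PT.lf (nat_lit 22496) (nat_lit 6) (nat_lit 296) (nat_lit 3) (nat_lit 208) (nat_lit 180) (nat_lit 212))))))))
noncomputable def pc13 : PT := (PT.nd (nat_lit 62790) (PT.nd (nat_lit 62010) (PT.nd (nat_lit 390) (PT.nd (nat_lit 156) (PT.nd (nat_lit 78) (PT.lf (nat_lit 22572) (nat_lit 6) (nat_lit 297) (nat_lit 3) (nat_lit 209) (nat_lit 180) (nat_lit 211)) (PT.lf (nat_lit 22648) (nat_lit 3) (nat_lit 298) (nat_lit 1) (nat_lit 210) (nat_lit 180) (nat_lit 210))) (PT.nd (nat_lit 78) (PT.lf (nat_lit 22572) (nat_lit 6) (nat_lit 297) (nat_lit 1) (nat_lit 211) (nat_lit 180) (nat_lit 209)) (PT.nd (nat_lit 78) (PT.lf (nat_lit 22496) (nat_lit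 6) (nat_lit 296) (nat_lit 1) (nat_lit 212) (nat_lit 180) (nat_lit 208)) (PT.lf (nat_lit 22420) (nat_lit 6) (nat_lit 295) (nat_lit 1) (nat_lit 213) (nat_lit 180) (nat_lit 207))))) (PT.nd (nat_lit 156) (PT.nd (nat_lit 78) (PT.lf (nat_lit 22344) (nat_lit 6) (nat_lit 294) (nat_lit 1) (nat_lit 214) (nat_lit 180) (nat_lit 206)) (PT.lf (nat_lit 22268) (nat_lit 6) (nat_lit 293) (nat_lit 1) (nat_lit 215) (nat_lit 180) (nat_lit 205))) (PT.nd (nat_lit 78) (PT.lf (nat_lit 22192) (nat_lit 6) (nat_lit 292) (nat_lit 1) (nat_lit 216) (nat_lit 180) (nat_lit 204)) (PT.nd (nat_lit 61308) (PT.lf (nat_lit 22116) (nat_lit 6) (nat_lit 291) (nat_lit 1) (nat_lit 217) (nat_lit 180) (nat_lit 203)) (PT.lf (nat_lit 22724) (nat_lit 6) (nat_lit 299) (nat_lit 3) (nat_lit 202) (nat_lit 181) (nat_lit 217)))))) (PT.nd (nat_lit 390) (PT.nd (nat_lit 156) (PT.nd (nat_lit 78) (PT.lf (nat_lit 22800) (nat_lit 6) (nat_lit 300) (nat_lit 3) (nat_lit 203)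 (nat_lit 181) (nat_lit 216)) (PT.lf (nat_lit 22876) (nat_lit 6) (nat_lit 301) (nat_lit 3) (nat_lit 204) (nat_lit 181) (nat_lit 215))) (PT.nd (nat_lit 78) (PT.lf (nat_lit 22952) (nat_lit 6) (nat_lit 302) (nat_lit 3) (nat_lit 205) (nat_lit 181) (nat_lit 214)) (PT.nd (nat_lit 78) (PT.lf (nat_lit 23028) (nat_lit 6) (nat_lit 303) (nat_lit 3) (nat_lit 206) (nat_lit 181) (nat_lit 213)) (PT.lf (nat_lit 23104) (nat_lit 6) (nat_lit 304) (nat_lit 3) (nat_lit 207) (nat_lit 181) (nat_lit 212))))) (PT.nd (nat_lit 156) (PT.nd (nat_lit 78) (PT.lf (nat_lit 23180) (nat_lit 6) (nat_lit 305) (nat_lit 3) (nat_lit 208) (nat_lit 181) (nat_lit 211)) (PT.lf (nat_lit 23256) (nat_lit 6) (nat_lit 306) (nat_lit 3) (nat_lit 209) (nat_lit 181) (nat_lit 210))) (PT.nd (nat_lit 78) (PT.lf (nat_lit 23256) (nat_lit 6) (nat_lit 306) (nat_lit 1) (nat_lit 210) (nat_lit 181) (nat_lit 209)) (PT.nd (nat_lit 78) (PT.lf (nat_lit 23180) (nat_lit 6) (nat_lit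 305) (nat_lit 1) (nat_lit 211) (nat_lit 181) (nat_lit 208)) (PT.lf (nat_lit 23104) (nat_lit 6) (nat_lit 304) (nat_lit 1) (nat_lit 212) (nat_lit 181) (nat_lit 207))))))) (PT.nd (nat_lit 61932) (PT.nd (nat_lit 61542) (PT.nd (nat_lit 156) (PT.nd (nat_lit 78) (PT.lf (nat_lit 23028) (nat_lit 6) (nat_lit 303) (nat_lit 1) (nat_lit 213) (nat_lit 181) (nat_lit 206)) (PT.lf (nat_lit 22952) (nat_lit 6) (nat_lit 302) (nat_lit 1) (nat_lit 214) (nat_lit 181) (nat_lit 205))) (PT.nd (nat_lit 78) (PT.lf (nat_lit 22876) (nat_lit 6) (nat_lit 301) (nat_lit 1) (nat_lit 215) (nat_lit 181) (nat_lit 204)) (PT.nd (nat_lit 78) (PT.lf (nat_lit 22800) (nat_lit 6) (nat_lit 300) (nat_lit 1) (nat_lit 216) (nat_lit 181) (nat_lit 203)) (PT.lf (nat_lit 22724) (nat_lit 6) (nat_lit 299) (nat_lit 1) (nat_lit 217) (nat_lit 181) (nat_lit 202))))) (PT.nd (nat_lit 156) (PT.nd (nat_lit 78) (PT.lf (nat_lit 23332) (nat_lit 6) (nat_lit 307) (nat_lit 3) (nat_lit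 201) (nat_lit 182) (nat_lit 217)) (PT.lf (nat_lit 23408) (nat_lit 6) (nat_lit 308) (nat_lit 3) (nat_lit 202) (nat_lit 182) (nat_lit 216))) (PT.nd (nat_lit 78) (PT.lf (nat_lit 23484) (nat_lit 6) (nat_lit 309) (nat_lit 3) (nat_lit 203) (nat_lit 182) (nat_lit 215)) (PT.nd (nat_lit 78) (PT.lf (nat_lit 23560) (nat_lit 6) (nat_lit 310) (nat_lit 3) (nat_lit 204) (nat_lit 182) (nat_lit 214)) (PT.lf (nat_lit 23636) (nat_lit 6) (nat_lit 311) (nat_lit 3) (nat_lit 205) (nat_lit 182) (nat_lit 213)))))) (PT.nd (nat_lit 390) (PT.nd (nat_lit 156) (PT.nd (nat_lit 78) (PT.lf (nat_lit 23712) (nat_lit 6) (nat_lit 312) (nat_lit 3) (nat_lit 206) (nat_lit 182) (nat_lit 212)) (PT.lf (nat_lit 23788) (nat_lit 6) (nat_lit 313) (nat_lit 3) (nat_lit 207) (nat_lit 182) (nat_lit 211))) (PT.nd (nat_lit 78) (PT.lf (nat_lit 23864) (nat_lit 6) (nat_lit 314) (nat_lit 3) (nat_lit 208) (nat_lit 182) (nat_lit 210)) (PT.nd (nat_lit 78) (PT.lf (nat_lit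 23940) (nat_lit 3) (nat_lit 315) (nat_lit 1) (nat_lit 209) (nat_lit 182) (nat_lit 209)) (PT.lf (nat_lit 23864) (nat_lit 6) (nat_lit 314) (nat_lit 1) (nat_lit 210) (nat_lit 182) (nat_lit 208))))) (PT.nd (nat_lit 156) (PT.nd (nat_lit 78) (PT.lf (nat_lit 23788) (nat_lit 6) (nat_lit 313) (nat_lit 1) (nat_lit 211) (nat_lit 182) (nat_lit 207)) (PT.lf (nat_lit 23712) (nat_lit 6) (nat_lit 312) (nat_lit 1) (nat_lit 212) (nat_lit 182) (nat_lit 206))) (PT.nd (nat_lit 78) (PT.lf (nat_lit 23636) (nat_lit 6) (nat_lit 311) (nat_lit 1) (nat_lit 213) (nat_lit 182) (nat_lit 205)) (PT.nd (nat_lit 78) (PT.lf (nat_lit 23560) (nat_lit 6) (nat_lit 310) (nat_lit 1) (nat_lit 214) (nat_lit 182) (nat_lit 204)) (PT.lf (nat_lit 23484) (nat_lit 6) (nat_lit 309) (nat_lit 1) (nat_lit 215) (nat_lit 182) (nat_lit 203))))))))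
noncomputable def pc14 : PT := (PT.nd (nat_lit 123630) (PT.nd (nat_lit 61854) (PT.nd (nat_lit 61464) (PT.nd (nat_lit 61230) (PT.nd (nat_lit 78) (PT.lf (nat_lit 23408) (nat_lit 6) (nat_lit 308) (nat_lit 1) (nat_lit 216) (nat_lit 182) (nat_lit 202)) (PT.lf (nat_lit 23332) (nat_lit 6) (nat_lit 307) (nat_lit 1) (nat_lit 217) (nat_lit 182) (nat_lit 201))) (PT.nd (nat_lit 78) (PT.lf (nat_lit 24168) (nat_lit 6) (nat_lit 318) (nat_lit 3) (nat_lit 200) (nat_lit 183) (nat_lit 217)) (PT.nd (nat_lit 78) (PT.lf (nat_lit 24244) (nat_lit 6) (nat_lit 319) (nat_lit 3) (nat_lit 201) (nat_lit 183) (nat_lit 216)) (PT.lf (nat_lit 24320) (nat_lit 6) (nat_lit 320) (nat_lit 3) (nat_lit 202) (nat_lit 183) (nat_lit 215))))) (PT.nd (nat_lit 156) (PT.nd (nat_lit 78) (PT.lf (nat_lit 24396) (nat_lit 6) (nat_lit 321) (nat_lit 3) (nat_lit 203) (nat_lit 183) (nat_lit 214)) (PT.lf (nat_lit 24472) (nat_lit 6) (nat_lit 322) (nat_lit 3) (nat_lit 204)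 (nat_lit 183) (nat_lit 213))) (PT.nd (nat_lit 78) (PT.lf (nat_lit 24548) (nat_lit 6) (nat_lit 323) (nat_lit 3) (nat_lit 205) (nat_lit 183) (nat_lit 212)) (PT.nd (nat_lit 78) (PT.lf (nat_lit 24624) (nat_lit 6) (nat_lit 324) (nat_lit 3) (nat_lit 206) (nat_lit 183) (nat_lit 211)) (PT.lf (nat_lit 24700) (nat_lit 6) (nat_lit 325) (nat_lit 3) (nat_lit 207) (nat_lit 183) (nat_lit 210)))))) (PT.nd (nat_lit 390) (PT.nd (nat_lit 156) (PT.nd (nat_lit 78) (PT.lf (nat_lit 24776) (nat_lit 6) (nat_lit 326) (nat_lit 3) (nat_lit 208) (nat_lit 183) (nat_lit 209)) (PT.lf (nat_lit 24776) (nat_lit 6) (nat_lit 326) (nat_lit 1) (nat_lit 209) (nat_lit 183) (nat_lit 208))) (PT.nd (nat_lit 78) (PT.lf (nat_lit 24700) (nat_lit 6) (nat_lit 325) (nat_lit 1) (nat_lit 210) (nat_lit 183) (nat_lit 207)) (PT.nd (nat_lit 78) (PT.lf (nat_lit 24624) (nat_lit 6) (nat_lit 324) (nat_lit 1) (nat_lit 211) (nat_lit 183) (nat_lit 206)) (PT.lf (nat_lit 24548)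 (nat_lit 6) (nat_lit 323) (nat_lit 1) (nat_lit 212) (nat_lit 183) (nat_lit 205))))) (PT.nd (nat_lit 156) (PT.nd (nat_lit 78) (PT.lf (nat_lit 24472) (nat_lit 6) (nat_lit 322) (nat_lit 1) (nat_lit 213) (nat_lit 183) (nat_lit 204)) (PT.lf (nat_lit 24396) (nat_lit 6) (nat_lit 321) (nat_lit 1) (nat_lit 214) (nat_lit 183) (nat_lit 203))) (PT.nd (nat_lit 78) (PT.lf (nat_lit 24320) (nat_lit 6) (nat_lit 320) (nat_lit 1) (nat_lit 215) (nat_lit 183) (nat_lit 202)) (PT.nd (nat_lit 78) (PT.lf (nat_lit 24244) (nat_lit 6) (nat_lit 319) (nat_lit 1) (nat_lit 216) (nat_lit 183) (nat_lit 201)) (PT.lf (nat_lit 24168) (nat_lit 6) (nat_lit 318) (nat_lit 1) (nat_lit 217) (nat_lit 183) (nat_lit 200))))))) (PT.nd (nat_lit 780) (PT.nd (nat_lit 390) (PT.nd (nat_lit 156) (PT.nd (nat_lit 78) (PT.lf (nat_lit 24092) (nat_lit 6) (nat_lit 317) (nat_lit 3) (nat_lit 199) (nat_lit 184) (nat_lit 217)) (PT.lf (nat_lit 25460) (nat_lit 6) (nat_lit 335)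 (nat_lit 3) (nat_lit 200) (nat_lit 184) (nat_lit 216))) (PT.nd (nat_lit 78) (PT.lf (nat_lit 25536) (nat_lit 6) (nat_lit 336) (nat_lit 3) (nat_lit 201) (nat_lit 184) (nat_lit 215)) (PT.nd (nat_lit 78) (PT.lf (nat_lit 25612) (nat_lit 6) (nat_lit 337) (nat_lit 3) (nat_lit 202) (nat_lit 184) (nat_lit 214)) (PT.lf (nat_lit 25688) (nat_lit 6) (nat_lit 338) (nat_lit 3) (nat_lit 203) (nat_lit 184) (nat_lit 213))))) (PT.nd (nat_lit 156) (PT.nd (nat_lit 78) (PT.lf (nat_lit 25764) (nat_lit 6) (nat_lit 339) (nat_lit 3) (nat_lit 204) (nat_lit 184) (nat_lit 212)) (PT.lf (nat_lit 25840) (nat_lit 6) (nat_lit 340) (nat_lit 3) (nat_lit 205) (nat_lit 184) (nat_lit 211))) (PT.nd (nat_lit 78) (PT.lf (nat_lit 25916) (nat_lit 6) (nat_lit 341) (nat_lit 3) (nat_lit 206) (nat_lit 184) (nat_lit 210)) (PT.nd (nat_lit 78) (PT.lf (nat_lit 25992) (nat_lit 6) (nat_lit 342) (nat_lit 3) (nat_lit 207) (nat_lit 184) (nat_lit 209)) (PT.lf (nat_lit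 26068) (nat_lit 3) (nat_lit 343) (nat_lit 1) (nat_lit 208) (nat_lit 184) (nat_lit 208)))))) (PT.nd (nat_lit 390) (PT.nd (nat_lit 156) (PT.nd (nat_lit 78) (PT.lf (nat_lit 25992) (nat_lit 6) (nat_lit 342) (nat_lit 1) (nat_lit 209) (nat_lit 184) (nat_lit 207)) (PT.lf (nat_lit 25916) (nat_lit 6) (nat_lit 341) (nat_lit 1) (nat_lit 210) (nat_lit 184) (nat_lit 206))) (PT.nd (nat_lit 78) (PT.lf (nat_lit 25840) (nat_lit 6) (nat_lit 340) (nat_lit 1) (nat_lit 211) (nat_lit 184) (nat_lit 205)) (PT.nd (nat_lit 78) (PT.lf (nat_lit 25764) (nat_lit 6) (nat_lit 339) (nat_lit 1) (nat_lit 212) (nat_lit 184) (nat_lit 204)) (PT.lf (nat_lit 25688) (nat_lit 6) (nat_lit 338) (nat_lit 1) (nat_lit 213) (nat_lit 184) (nat_lit 203))))) (PT.nd (nat_lit 156) (PT.nd (nat_lit 78) (PT.lf (nat_lit 25612) (nat_lit 6) (nat_lit 337) (nat_lit 1) (nat_lit 214) (nat_lit 184) (nat_lit 202)) (PT.lf (nat_lit 25536) (nat_lit 6) (nat_lit 336) (nat_lit 1) (nat_lit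 215) (nat_lit 184) (nat_lit 201))) (PT.nd (nat_lit 78) (PT.lf (nat_lit 25460) (nat_lit 6) (nat_lit 335) (nat_lit 1) (nat_lit 216) (nat_lit 184) (nat_lit 200)) (PT.nd (nat_lit 60996) (PT.lf (nat_lit 24092) (nat_lit 6) (nat_lit 317) (nat_lit 1) (nat_lit 217) (nat_lit 184) (nat_lit 199)) (PT.lf (nat_lit 24016) (nat_lit 6) (nat_lit 316) (nat_lit 3) (nat_lit 198) (nat_lit 185) (nat_lit 217))))))))
noncomputable def pc15 : PT := (PT.nd (nat_lit 62478) (PT.nd (nat_lit 780) (PT.nd (nat_lit 390) (PT.nd (nat_lit 156) (PT.nd (nat_lit 78) (PT.lf (nat_lit 25384) (nat_lit 6) (nat_lit 334) (nat_lit 3) (nat_lit 199) (nat_lit 185) (nat_lit 216)) (PT.lf (nat_lit 26676) (nat_lit 6) (nat_lit 351) (nat_lit 3) (nat_lit 200) (nat_lit 185) (nat_lit 215))) (PT.nd (nat_lit 78) (PT.lf (nat_lit 26752) (nat_lit 6) (nat_lit 352) (nat_lit 3) (nat_lit 201) (nat_lit 185) (nat_lit 214)) (PT.nd (nat_lit 78) (PT.lf (nat_lit 26828) (nat_lit 6) (nat_lit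 353) (nat_lit 3) (nat_lit 202) (nat_lit 185) (nat_lit 213)) (PT.lf (nat_lit 26904) (nat_lit 6) (nat_lit 354) (nat_lit 3) (nat_lit 203) (nat_lit 185) (nat_lit 212))))) (PT.nd (nat_lit 156) (PT.nd (nat_lit 78) (PT.lf (nat_lit 26980) (nat_lit 6) (nat_lit 355) (nat_lit 3) (nat_lit 204) (nat_lit 185) (nat_lit 211)) (PT.lf (nat_lit 27056) (nat_lit 6) (nat_lit 356) (nat_lit 3) (nat_lit 205) (nat_lit 185) (nat_lit 210))) (PT.nd (nat_lit 78) (PT.lf (nat_lit 27132) (nat_lit 6) (nat_lit 357) (nat_lit 3) (nat_lit 206) (nat_lit 185) (nat_lit 209)) (PT.nd (nat_lit 78) (PT.lf (nat_lit 27208) (nat_lit 6) (nat_lit 358) (nat_lit 3) (nat_lit 207) (nat_lit 185) (nat_lit 208)) (PT.lf (nat_lit 27208) (nat_lit 6) (nat_lit 358) (nat_lit 1) (nat_lit 208) (nat_lit 185) (nat_lit 207)))))) (PT.nd (nat_lit 390) (PT.nd (nat_lit 156) (PT.nd (nat_lit 78) (PT.lf (nat_lit 27132) (nat_lit 6) (nat_lit 357) (nat_lit 1) (nat_lit 209) (nat_lit 185) (nat_lit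 206)) (PT.lf (nat_lit 27056) (nat_lit 6) (nat_lit 356) (nat_lit 1) (nat_lit 210) (nat_lit 185) (nat_lit 205))) (PT.nd (nat_lit 78) (PT.lf (nat_lit 26980) (nat_lit 6) (nat_lit 355) (nat_lit 1) (nat_lit 211) (nat_lit 185) (nat_lit 204)) (PT.nd (nat_lit 78) (PT.lf (nat_lit 26904) (nat_lit 6) (nat_lit 354) (nat_lit 1) (nat_lit 212) (nat_lit 185) (nat_lit 203)) (PT.lf (nat_lit 26828) (nat_lit 6) (nat_lit 353) (nat_lit 1) (nat_lit 213) (nat_lit 185) (nat_lit 202))))) (PT.nd (nat_lit 156) (PT.nd (nat_lit 78) (PT.lf (nat_lit 26752) (nat_lit 6) (nat_lit 352) (nat_lit 1) (nat_lit 214) (nat_lit 185) (nat_lit 201)) (PT.lf (nat_lit 26676) (nat_lit 6) (nat_lit 351) (nat_lit 1) (nat_lit 215) (nat_lit 185) (nat_lit 200))) (PT.nd (nat_lit 78) (PT.lf (nat_lit 25384) (nat_lit 6) (nat_lit 334) (nat_lit 1) (nat_lit 216) (nat_lit 185) (nat_lit 199)) (PT.nd (nat_lit 60996) (PT.lf (nat_lit 24016) (nat_lit 6) (nat_lit 316) (nat_lit 1) (nat_lit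 217) (nat_lit 185) (nat_lit 198)) (PT.lf (nat_lit 25308) (nat_lit 6) (nat_lit 333) (nat_lit 3) (nat_lit 198) (nat_lit 186) (nat_lit 216))))))) (PT.nd (nat_lit 780) (PT.nd (nat_lit 390) (PT.nd (nat_lit 156) (PT.nd (nat_lit 78) (PT.lf (nat_lit 26600) (nat_lit 6) (nat_lit 350) (nat_lit 3) (nat_lit 199) (nat_lit 186) (nat_lit 215)) (PT.lf (nat_lit 27816) (nat_lit 6) (nat_lit 366) (nat_lit 3) (nat_lit 200) (nat_lit 186) (nat_lit 214))) (PT.nd (nat_lit 78) (PT.lf (nat_lit 27892) (nat_lit 6) (nat_lit 367) (nat_lit 3) (nat_lit 201) (nat_lit 186) (nat_lit 213)) (PT.nd (nat_lit 78) (PT.lf (nat_lit 27968) (nat_lit 6) (nat_lit 368) (nat_lit 3) (nat_lit 202) (nat_lit 186) (nat_lit 212)) (PT.lf (nat_lit 28044) (nat_lit 6) (nat_lit 369) (nat_lit 3) (nat_lit 203) (nat_lit 186) (nat_lit 211))))) (PT.nd (nat_lit 156) (PT.nd (nat_lit 78) (PT.lf (nat_lit 28120) (nat_lit 6) (nat_lit 370) (nat_lit 3) (nat_lit 204) (nat_lit 186) (nat_lit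 210)) (PT.lf (nat_lit 28196) (nat_lit 6) (nat_lit 371) (nat_lit 3) (nat_lit 205) (nat_lit 186) (nat_lit 209))) (PT.nd (nat_lit 78) (PT.lf (nat_lit 28272) (nat_lit 6) (nat_lit 372) (nat_lit 3) (nat_lit 206) (nat_lit 186) (nat_lit 208)) (PT.nd (nat_lit 78) (PT.lf (nat_lit 28348) (nat_lit 3) (nat_lit 373) (nat_lit 1) (nat_lit 207) (nat_lit 186) (nat_lit 207)) (PT.lf (nat_lit 28272) (nat_lit 6) (nat_lit 372) (nat_lit 1) (nat_lit 208) (nat_lit 186) (nat_lit 206)))))) (PT.nd (nat_lit 390) (PT.nd (nat_lit 156) (PT.nd (nat_lit 78) (PT.lf (nat_lit 28196) (nat_lit 6) (nat_lit 371) (nat_lit 1) (nat_lit 209) (nat_lit 186) (nat_lit 205)) (PT.lf (nat_lit 28120) (nat_lit 6) (nat_lit 370) (nat_lit 1) (nat_lit 210) (nat_lit 186) (nat_lit 204))) (PT.nd (nat_lit 78) (PT.lf (nat_lit 28044) (nat_lit 6) (nat_lit 369) (nat_lit 1) (nat_lit 211) (nat_lit 186) (nat_lit 203)) (PT.nd (nat_lit 78) (PT.lf (nat_lit 27968) (nat_lit 6) (nat_lit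 368) (nat_lit 1) (nat_lit 212) (nat_lit 186) (nat_lit 202)) (PT.lf (nat_lit 27892) (nat_lit 6) (nat_lit 367) (nat_lit 1) (nat_lit 213) (nat_lit 186) (nat_lit 201))))) (PT.nd (nat_lit 61152) (PT.nd (nat_lit 78) (PT.lf (nat_lit 27816) (nat_lit 6) (nat_lit 366) (nat_lit 1) (nat_lit 214) (nat_lit 186) (nat_lit 200)) (PT.nd (nat_lit 78) (PT.lf (nat_lit 26600) (nat_lit 6) (nat_lit 350) (nat_lit 1) (nat_lit 215) (nat_lit 186) (nat_lit 199)) (PT.lf (nat_lit 25308) (nat_lit 6) (nat_lit 333) (nat_lit 1) (nat_lit 216) (nat_lit 186) (nat_lit 198)))) (PT.nd (nat_lit 78) (PT.lf (nat_lit 25232) (nat_lit 6) (nat_lit 332) (nat_lit 3) (nat_lit 197) (nat_lit 187) (nat_lit 216)) (PT.nd (nat_lit 78) (PT.lf (nat_lit 26524) (nat_lit 6) (nat_lit 349) (nat_lit 3) (nat_lit 198) (nat_lit 187) (nat_lit 215)) (PT.lf (nat_lit 27740) (nat_lit 6) (nat_lit 365) (nat_lit 3) (nat_lit 199) (nat_lit 187) (nat_lit 214))))))))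
noncomputable def pc16 : PT := (PT.nd (nat_lit 62400) (PT.nd (nat_lit 780) (PT.nd (nat_lit 390) (PT.nd (nat_lit 156) (PT.nd (nat_lit 78) (PT.lf (nat_lit 28880) (nat_lit 6) (nat_lit 380) (nat_lit 3) (nat_lit 200) (nat_lit 187) (nat_lit 213)) (PT.lf (nat_lit 28956) (nat_lit 6) (nat_lit 381) (nat_lit 3) (nat_lit 201) (nat_lit 187) (nat_lit 212))) (PT.nd (nat_lit 78) (PT.lf (nat_lit 29032) (nat_lit 6) (nat_lit 382) (nat_lit 3) (nat_lit 202) (nat_lit 187) (nat_lit 211)) (PT.nd (nat_lit 78) (PT.lf (nat_lit 29108) (nat_lit 6) (nat_lit 383) (nat_lit 3) (nat_lit 203) (nat_lit 187) (nat_lit 210)) (PT.lf (nat_lit 29184) (nat_lit 6) (nat_lit 384) (nat_lit 3) (nat_lit 204) (nat_lit 187) (nat_lit 209))))) (PT.nd (nat_lit 156) (PT.nd (nat_lit 78) (PT.lf (nat_lit 29260) (nat_lit 6) (nat_lit 385) (nat_lit 3) (nat_lit 205) (nat_lit 187) (nat_lit 208)) (PT.lf (nat_lit 29336) (nat_lit 6) (nat_lit 386) (nat_lit 3) (nat_lit 206) (nat_lit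 187) (nat_lit 207))) (PT.nd (nat_lit 78) (PT.lf (nat_lit 29336) (nat_lit 6) (nat_lit 386) (nat_lit 1) (nat_lit 207) (nat_lit 187) (nat_lit 206)) (PT.nd (nat_lit 78) (PT.lf (nat_lit 29260) (nat_lit 6) (nat_lit 385) (nat_lit 1) (nat_lit 208) (nat_lit 187) (nat_lit 205)) (PT.lf (nat_lit 29184) (nat_lit 6) (nat_lit 384) (nat_lit 1) (nat_lit 209) (nat_lit 187) (nat_lit 204)))))) (PT.nd (nat_lit 390) (PT.nd (nat_lit 156) (PT.nd (nat_lit 78) (PT.lf (nat_lit 29108) (nat_lit 6) (nat_lit 383) (nat_lit 1) (nat_lit 210) (nat_lit 187) (nat_lit 203)) (PT.lf (nat_lit 29032) (nat_lit 6) (nat_lit 382) (nat_lit 1) (nat_lit 211) (nat_lit 187) (nat_lit 202))) (PT.nd (nat_lit 78) (PT.lf (nat_lit 28956) (nat_lit 6) (nat_lit 381) (nat_lit 1) (nat_lit 212) (nat_lit 187) (nat_lit 201)) (PT.nd (nat_lit 78) (PT.lf (nat_lit 28880) (nat_lit 6) (nat_lit 380) (nat_lit 1) (nat_lit 213) (nat_lit 187) (nat_lit 200)) (PT.lf (nat_lit 27740) (nat_lit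 6) (nat_lit 365) (nat_lit 1) (nat_lit 214) (nat_lit 187) (nat_lit 199))))) (PT.nd (nat_lit 60996) (PT.nd (nat_lit 78) (PT.lf (nat_lit 26524) (nat_lit 6) (nat_lit 349) (nat_lit 1) (nat_lit 215) (nat_lit 187) (nat_lit 198)) (PT.lf (nat_lit 25232) (nat_lit 6) (nat_lit 332) (nat_lit 1) (nat_lit 216) (nat_lit 187) (nat_lit 197))) (PT.nd (nat_lit 78) (PT.lf (nat_lit 25156) (nat_lit 6) (nat_lit 331) (nat_lit 3) (nat_lit 196) (nat_lit 188) (nat_lit 216)) (PT.nd (nat_lit 78) (PT.lf (nat_lit 26448) (nat_lit 6) (nat_lit 348) (nat_lit 3) (nat_lit 197) (nat_lit 188) (nat_lit 215)) (PT.lf (nat_lit 27664) (nat_lit 6) (nat_lit 364) (nat_lit 3) (nat_lit 198) (nat_lit 188) (nat_lit 214))))))) (PT.nd (nat_lit 780) (PT.nd (nat_lit 390) (PT.nd (nat_lit 156) (PT.nd (nat_lit 78) (PT.lf (nat_lit 28804) (nat_lit 6) (nat_lit 379) (nat_lit 3) (nat_lit 199) (nat_lit 188) (nat_lit 213)) (PT.lf (nat_lit 29868) (nat_lit 6) (nat_lit 393) (nat_lit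 3) (nat_lit 200) (nat_lit 188) (nat_lit 212))) (PT.nd (nat_lit 78) (PT.lf (nat_lit 29944) (nat_lit 6) (nat_lit 394) (nat_lit 3) (nat_lit 201) (nat_lit 188) (nat_lit 211)) (PT.nd (nat_lit 78) (PT.lf (nat_lit 30020) (nat_lit 6) (nat_lit 395) (nat_lit 3) (nat_lit 202) (nat_lit 188) (nat_lit 210)) (PT.lf (nat_lit 30096) (nat_lit 6) (nat_lit 396) (nat_lit 3) (nat_lit 203) (nat_lit 188) (nat_lit 209))))) (PT.nd (nat_lit 156) (PT.nd (nat_lit 78) (PT.lf (nat_lit 30172) (nat_lit 6) (nat_lit 397) (nat_lit 3) (nat_lit 204) (nat_lit 188) (nat_lit 208)) (PT.lf (nat_lit 30248) (nat_lit 6) (nat_lit 398) (nat_lit 3) (nat_lit 205) (nat_lit 188) (nat_lit 207))) (PT.nd (nat_lit 78) (PT.lf (nat_lit 30324) (nat_lit 3) (nat_lit 399) (nat_lit 1) (nat_lit 206) (nat_lit 188) (nat_lit 206)) (PT.nd (nat_lit 78) (PT.lf (nat_lit 30248) (nat_lit 6) (nat_lit 398) (nat_lit 1) (nat_lit 207) (nat_lit 188) (nat_lit 205)) (PT.lf (nat_lit 30172) (nat_lit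 6) (nat_lit 397) (nat_lit 1) (nat_lit 208) (nat_lit 188) (nat_lit 204)))))) (PT.nd (nat_lit 390) (PT.nd (nat_lit 156) (PT.nd (nat_lit 78) (PT.lf (nat_lit 30096) (nat_lit 6) (nat_lit 396) (nat_lit 1) (nat_lit 209) (nat_lit 188) (nat_lit 203)) (PT.lf (nat_lit 30020) (nat_lit 6) (nat_lit 395) (nat_lit 1) (nat_lit 210) (nat_lit 188) (nat_lit 202))) (PT.nd (nat_lit 78) (PT.lf (nat_lit 29944) (nat_lit 6) (nat_lit 394) (nat_lit 1) (nat_lit 211) (nat_lit 188) (nat_lit 201)) (PT.nd (nat_lit 78) (PT.lf (nat_lit 29868) (nat_lit 6) (nat_lit 393) (nat_lit 1) (nat_lit 212) (nat_lit 188) (nat_lit 200)) (PT.lf (nat_lit 28804) (nat_lit 6) (nat_lit 379) (nat_lit 1) (nat_lit 213) (nat_lit 188) (nat_lit 199))))) (PT.nd (nat_lit 156) (PT.nd (nat_lit 78) (PT.lf (nat_lit 27664) (nat_lit 6) (nat_lit 364) (nat_lit 1) (nat_lit 214) (nat_lit 188) (nat_lit 198)) (PT.lf (nat_lit 26448) (nat_lit 6) (nat_lit 348) (nat_lit 1) (nat_lit 215) (nat_lit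 188) (nat_lit 197))) (PT.nd (nat_lit 60840) (PT.lf (nat_lit 25156) (nat_lit 6) (nat_lit 331) (nat_lit 1) (nat_lit 216) (nat_lit 188) (nat_lit 196)) (PT.nd (nat_lit 78) (PT.lf (nat_lit 25080) (nat_lit 6) (nat_lit 330) (nat_lit 3) (nat_lit 195) (nat_lit 189) (nat_lit 216)) (PT.lf (nat_lit 26372) (nat_lit 6) (nat_lit 347) (nat_lit 3) (nat_lit 196) (nat_lit 189) (nat_lit 215))))))))
noncomputable def pc17 : PT := (PT.nd (nat_lit 62244) (PT.nd (nat_lit 780) (PT.nd (nat_lit 390) (PT.nd (nat_lit 156) (PT.nd (nat_lit 78) (PT.lf (nat_lit 27588) (nat_lit 6) (nat_lit 363) (nat_lit 3) (nat_lit 197) (nat_lit 189) (nat_lit 214)) (PT.lf (nat_lit 28728) (nat_lit 6) (nat_lit 378) (nat_lit 3) (nat_lit 198) (nat_lit 189) (nat_lit 213))) (PT.nd (nat_lit 78) (PT.lf (nat_lit 29792) (nat_lit 6) (nat_lit 392) (nat_lit 3) (nat_lit 199) (nat_lit 189) (nat_lit 212)) (PT.nd (nat_lit 78) (PT.lf (nat_lit 30780) (nat_lit 6) (nat_lit 405) (nat_lit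 3) (nat_lit 200) (nat_lit 189) (nat_lit 211)) (PT.lf (nat_lit 30856) (nat_lit 6) (nat_lit 406) (nat_lit 3) (nat_lit 201) (nat_lit 189) (nat_lit 210))))) (PT.nd (nat_lit 156) (PT.nd (nat_lit 78) (PT.lf (nat_lit 30932) (nat_lit 6) (nat_lit 407) (nat_lit 3) (nat_lit 202) (nat_lit 189) (nat_lit 209)) (PT.lf (nat_lit 31008) (nat_lit 6) (nat_lit 408) (nat_lit 3) (nat_lit 203) (nat_lit 189) (nat_lit 208))) (PT.nd (nat_lit 78) (PT.lf (nat_lit 31084) (nat_lit 6) (nat_lit 409) (nat_lit 3) (nat_lit 204) (nat_lit 189) (nat_lit 207)) (PT.nd (nat_lit 78) (PT.lf (nat_lit 31160) (nat_lit 6) (nat_lit 410) (nat_lit 3) (nat_lit 205) (nat_lit 189) (nat_lit 206)) (PT.lf (nat_lit 31160) (nat_lit 6) (nat_lit 410) (nat_lit 1) (nat_lit 206) (nat_lit 189) (nat_lit 205)))))) (PT.nd (nat_lit 390) (PT.nd (nat_lit 156) (PT.nd (nat_lit 78) (PT.lf (nat_lit 31084) (nat_lit 6) (nat_lit 409) (nat_lit 1) (nat_lit 207) (nat_lit 189) (nat_lit 204))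 (PT.lf (nat_lit 31008) (nat_lit 6) (nat_lit 408) (nat_lit 1) (nat_lit 208) (nat_lit 189) (nat_lit 203))) (PT.nd (nat_lit 78) (PT.lf (nat_lit 30932) (nat_lit 6) (nat_lit 407) (nat_lit 1) (nat_lit 209) (nat_lit 189) (nat_lit 202)) (PT.nd (nat_lit 78) (PT.lf (nat_lit 30856) (nat_lit 6) (nat_lit 406) (nat_lit 1) (nat_lit 210) (nat_lit 189) (nat_lit 201)) (PT.lf (nat_lit 30780) (nat_lit 6) (nat_lit 405) (nat_lit 1) (nat_lit 211) (nat_lit 189) (nat_lit 200))))) (PT.nd (nat_lit 156) (PT.nd (nat_lit 78) (PT.lf (nat_lit 29792) (nat_lit 6) (nat_lit 392) (nat_lit 1) (nat_lit 212) (nat_lit 189) (nat_lit 199)) (PT.lf (nat_lit 28728) (nat_lit 6) (nat_lit 378) (nat_lit 1) (nat_lit 213) (nat_lit 189) (nat_lit 198))) (PT.nd (nat_lit 78) (PT.lf (nat_lit 27588) (nat_lit 6) (nat_lit 363) (nat_lit 1) (nat_lit 214) (nat_lit 189) (nat_lit 197)) (PT.nd (nat_lit 78) (PT.lf (nat_lit 26372) (nat_lit 6) (nat_lit 347) (nat_lit 1) (nat_lit 215)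 (nat_lit 189) (nat_lit 196)) (PT.lf (nat_lit 25080) (nat_lit 6) (nat_lit 330) (nat_lit 1) (nat_lit 216) (nat_lit 189) (nat_lit 195))))))) (PT.nd (nat_lit 780) (PT.nd (nat_lit 390) (PT.nd (nat_lit 156) (PT.nd (nat_lit 78) (PT.lf (nat_lit 25004) (nat_lit 6) (nat_lit 329) (nat_lit 3) (nat_lit 194) (nat_lit 190) (nat_lit 216)) (PT.lf (nat_lit 26296) (nat_lit 6) (nat_lit 346) (nat_lit 3) (nat_lit 195) (nat_lit 190) (nat_lit 215))) (PT.nd (nat_lit 78) (PT.lf (nat_lit 27512) (nat_lit 6) (nat_lit 362) (nat_lit 3) (nat_lit 196) (nat_lit 190) (nat_lit 214)) (PT.nd (nat_lit 78) (PT.lf (nat_lit 28652) (nat_lit 6) (nat_lit 377) (nat_lit 3) (nat_lit 197) (nat_lit 190) (nat_lit 213)) (PT.lf (nat_lit 29716) (nat_lit 6) (nat_lit 391) (nat_lit 3) (nat_lit 198) (nat_lit 190) (nat_lit 212))))) (PT.nd (nat_lit 156) (PT.nd (nat_lit 78) (PT.lf (nat_lit 30704) (nat_lit 6) (nat_lit 404) (nat_lit 3) (nat_lit 199) (nat_lit 190) (nat_lit 211))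 (PT.lf (nat_lit 31616) (nat_lit 6) (nat_lit 416) (nat_lit 3) (nat_lit 200) (nat_lit 190) (nat_lit 210))) (PT.nd (nat_lit 78) (PT.lf (nat_lit 31692) (nat_lit 6) (nat_lit 417) (nat_lit 3) (nat_lit 201) (nat_lit 190) (nat_lit 209)) (PT.nd (nat_lit 78) (PT.lf (nat_lit 31768) (nat_lit 6) (nat_lit 418) (nat_lit 3) (nat_lit 202) (nat_lit 190) (nat_lit 208)) (PT.lf (nat_lit 31844) (nat_lit 6) (nat_lit 419) (nat_lit 3) (nat_lit 203) (nat_lit 190) (nat_lit 207)))))) (PT.nd (nat_lit 390) (PT.nd (nat_lit 156) (PT.nd (nat_lit 78) (PT.lf (nat_lit 31920) (nat_lit 6) (nat_lit 420) (nat_lit 3) (nat_lit 204) (nat_lit 190) (nat_lit 206)) (PT.lf (nat_lit 31996) (nat_lit 3) (nat_lit 421) (nat_lit 1) (nat_lit 205) (nat_lit 190) (nat_lit 205))) (PT.nd (nat_lit 78) (PT.lf (nat_lit 31920) (nat_lit 6) (nat_lit 420) (nat_lit 1) (nat_lit 206) (nat_lit 190) (nat_lit 204)) (PT.nd (nat_lit 78) (PT.lf (nat_lit 31844) (nat_lit 6) (nat_lit 419)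 (nat_lit 1) (nat_lit 207) (nat_lit 190) (nat_lit 203)) (PT.lf (nat_lit 31768) (nat_lit 6) (nat_lit 418) (nat_lit 1) (nat_lit 208) (nat_lit 190) (nat_lit 202))))) (PT.nd (nat_lit 156) (PT.nd (nat_lit 78) (PT.lf (nat_lit 31692) (nat_lit 6) (nat_lit 417) (nat_lit 1) (nat_lit 209) (nat_lit 190) (nat_lit 201)) (PT.lf (nat_lit 31616) (nat_lit 6) (nat_lit 416) (nat_lit 1) (nat_lit 210) (nat_lit 190) (nat_lit 200))) (PT.nd (nat_lit 78) (PT.lf (nat_lit 30704) (nat_lit 6) (nat_lit 404) (nat_lit 1) (nat_lit 211) (nat_lit 190) (nat_lit 199)) (PT.nd (nat_lit 78) (PT.lf (nat_lit 29716) (nat_lit 6) (nat_lit 391) (nat_lit 1) (nat_lit 212) (nat_lit 190) (nat_lit 198)) (PT.lf (nat_lit 28652) (nat_lit 6) (nat_lit 377) (nat_lit 1) (nat_lit 213) (nat_lit 190) (nat_lit 197))))))))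
noncomputable def pc18 : PT := (PT.nd (nat_lit 62166) (PT.nd (nat_lit 61386) (PT.nd (nat_lit 60996) (PT.nd (nat_lit 156) (PT.nd (nat_lit 78) (PT.lf (nat_lit 27512) (nat_lit 6) (nat_lit 362) (nat_lit 1) (nat_lit 214) (nat_lit 190) (nat_lit 196)) (PT.lf (nat_lit 26296) (nat_lit 6) (nat_lit 346) (nat_lit 1) (nat_lit 215) (nat_lit 190) (nat_lit 195))) (PT.nd (nat_lit 60684) (PT.lf (nat_lit 25004) (nat_lit 6) (nat_lit 329) (nat_lit 1) (nat_lit 216) (nat_lit 190) (nat_lit 194)) (PT.nd (nat_lit 78) (PT.lf (nat_lit 24928) (nat_lit 6) (nat_lit 328) (nat_lit 3) (nat_lit 193) (nat_lit 191) (nat_lit 216)) (PT.lf (nat_lit 26220) (nat_lit 6) (nat_lit 345) (nat_lit 3) (nat_lit 194) (nat_lit 191) (nat_lit 215))))) (PT.nd (nat_lit 156) (PT.nd (nat_lit 78) (PT.lf (nat_lit 27436) (nat_lit 6) (nat_lit 361) (nat_lit 3) (nat_lit 195) (nat_lit 191) (nat_lit 214)) (PT.lf (nat_lit 28576) (nat_lit 6) (nat_lit 376) (nat_lit 3) (nat_lit 196)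 (nat_lit 191) (nat_lit 213))) (PT.nd (nat_lit 78) (PT.lf (nat_lit 29640) (nat_lit 6) (nat_lit 390) (nat_lit 3) (nat_lit 197) (nat_lit 191) (nat_lit 212)) (PT.nd (nat_lit 78) (PT.lf (nat_lit 30628) (nat_lit 6) (nat_lit 403) (nat_lit 3) (nat_lit 198) (nat_lit 191) (nat_lit 211)) (PT.lf (nat_lit 31540) (nat_lit 6) (nat_lit 415) (nat_lit 3) (nat_lit 199) (nat_lit 191) (nat_lit 210)))))) (PT.nd (nat_lit 390) (PT.nd (nat_lit 156) (PT.nd (nat_lit 78) (PT.lf (nat_lit 32376) (nat_lit 6) (nat_lit 426) (nat_lit 3) (nat_lit 200) (nat_lit 191) (nat_lit 209)) (PT.lf (nat_lit 32452) (nat_lit 6) (nat_lit 427) (nat_lit 3) (nat_lit 201) (nat_lit 191) (nat_lit 208))) (PT.nd (nat_lit 78) (PT.lf (nat_lit 32528) (nat_lit 6) (nat_lit 428) (nat_lit 3) (nat_lit 202) (nat_lit 191) (nat_lit 207)) (PT.nd (nat_lit 78) (PT.lf (nat_lit 32604) (nat_lit 6) (nat_lit 429) (nat_lit 3) (nat_lit 203) (nat_lit 191) (nat_lit 206)) (PT.lf (nat_lit 32680)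 (nat_lit 6) (nat_lit 430) (nat_lit 3) (nat_lit 204) (nat_lit 191) (nat_lit 205))))) (PT.nd (nat_lit 156) (PT.nd (nat_lit 78) (PT.lf (nat_lit 32680) (nat_lit 6) (nat_lit 430) (nat_lit 1) (nat_lit 205) (nat_lit 191) (nat_lit 204)) (PT.lf (nat_lit 32604) (nat_lit 6) (nat_lit 429) (nat_lit 1) (nat_lit 206) (nat_lit 191) (nat_lit 203))) (PT.nd (nat_lit 78) (PT.lf (nat_lit 32528) (nat_lit 6) (nat_lit 428) (nat_lit 1) (nat_lit 207) (nat_lit 191) (nat_lit 202)) (PT.nd (nat_lit 78) (PT.lf (nat_lit 32452) (nat_lit 6) (nat_lit 427) (nat_lit 1) (nat_lit 208) (nat_lit 191) (nat_lit 201)) (PT.lf (nat_lit 32376) (nat_lit 6) (nat_lit 426) (nat_lit 1) (nat_lit 209) (nat_lit 191) (nat_lit 200))))))) (PT.nd (nat_lit 61308) (PT.nd (nat_lit 390) (PT.nd (nat_lit 156) (PT.nd (nat_lit 78) (PT.lf (nat_lit 31540) (nat_lit 6) (nat_lit 415) (nat_lit 1) (nat_lit 210) (nat_lit 191) (nat_lit 199)) (PT.lf (nat_lit 30628) (nat_lit 6) (nat_lit 403)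 (nat_lit 1) (nat_lit 211) (nat_lit 191) (nat_lit 198))) (PT.nd (nat_lit 78) (PT.lf (nat_lit 29640) (nat_lit 6) (nat_lit 390) (nat_lit 1) (nat_lit 212) (nat_lit 191) (nat_lit 197)) (PT.nd (nat_lit 78) (PT.lf (nat_lit 28576) (nat_lit 6) (nat_lit 376) (nat_lit 1) (nat_lit 213) (nat_lit 191) (nat_lit 196)) (PT.lf (nat_lit 27436) (nat_lit 6) (nat_lit 361) (nat_lit 1) (nat_lit 214) (nat_lit 191) (nat_lit 195))))) (PT.nd (nat_lit 60684) (PT.nd (nat_lit 78) (PT.lf (nat_lit 26220) (nat_lit 6) (nat_lit 345) (nat_lit 1) (nat_lit 215) (nat_lit 191) (nat_lit 194)) (PT.lf (nat_lit 24928) (nat_lit 6) (nat_lit 328) (nat_lit 1) (nat_lit 216) (nat_lit 191) (nat_lit 193))) (PT.nd (nat_lit 78) (PT.lf (nat_lit 24852) (nat_lit 3) (nat_lit 327) (nat_lit 3) (nat_lit 192) (nat_lit 192) (nat_lit 216)) (PT.nd (nat_lit 78) (PT.lf (nat_lit 26144) (nat_lit 6) (nat_lit 344) (nat_lit 3) (nat_lit 193) (nat_lit 192) (nat_lit 215)) (PT.lf (nat_lit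 27360) (nat_lit 6) (nat_lit 360) (nat_lit 3) (nat_lit 194) (nat_lit 192) (nat_lit 214)))))) (PT.nd (nat_lit 390) (PT.nd (nat_lit 156) (PT.nd (nat_lit 78) (PT.lf (nat_lit 28500) (nat_lit 6) (nat_lit 375) (nat_lit 3) (nat_lit 195) (nat_lit 192) (nat_lit 213)) (PT.lf (nat_lit 29564) (nat_lit 6) (nat_lit 389) (nat_lit 3) (nat_lit 196) (nat_lit 192) (nat_lit 212))) (PT.nd (nat_lit 78) (PT.lf (nat_lit 30552) (nat_lit 6) (nat_lit 402) (nat_lit 3) (nat_lit 197) (nat_lit 192) (nat_lit 211)) (PT.nd (nat_lit 78) (PT.lf (nat_lit 31464) (nat_lit 6) (nat_lit 414) (nat_lit 3) (nat_lit 198) (nat_lit 192) (nat_lit 210)) (PT.lf (nat_lit 32300) (nat_lit 6) (nat_lit 425) (nat_lit 3) (nat_lit 199) (nat_lit 192) (nat_lit 209))))) (PT.nd (nat_lit 156) (PT.nd (nat_lit 78) (PT.lf (nat_lit 33060) (nat_lit 6) (nat_lit 435) (nat_lit 3) (nat_lit 200) (nat_lit 192) (nat_lit 208)) (PT.lf (nat_lit 33136) (nat_lit 6) (nat_lit 436) (nat_lit 3) (nat_lit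 201) (nat_lit 192) (nat_lit 207))) (PT.nd (nat_lit 78) (PT.lf (nat_lit 33212) (nat_lit 6) (nat_lit 437) (nat_lit 3) (nat_lit 202) (nat_lit 192) (nat_lit 206)) (PT.nd (nat_lit 78) (PT.lf (nat_lit 33288) (nat_lit 6) (nat_lit 438) (nat_lit 3) (nat_lit 203) (nat_lit 192) (nat_lit 205)) (PT.lf (nat_lit 33364) (nat_lit 3) (nat_lit 439) (nat_lit 1) (nat_lit 204) (nat_lit 192) (nat_lit 204))))))))
noncomputable def pc19 : PT := (PT.nd (nat_lit 62010) (PT.nd (nat_lit 780) (PT.nd (nat_lit 390) (PT.nd (nat_lit 156) (PT.nd (nat_lit 78) (PT.lf (nat_lit 33288) (nat_lit 6) (nat_lit 438) (nat_lit 1) (nat_lit 205) (nat_lit 192) (nat_lit 203)) (PT.lf (nat_lit 33212) (nat_lit 6) (nat_lit 437) (nat_lit 1) (nat_lit 206) (nat_lit 192) (nat_lit 202))) (PT.nd (nat_lit 78) (PT.lf (nat_lit 33136) (nat_lit 6) (nat_lit 436) (nat_lit 1) (nat_lit 207) (nat_lit 192) (nat_lit 201)) (PT.nd (nat_lit 78) (PT.lf (nat_lit 33060) (nat_lit 6) (nat_lit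 435) (nat_lit 1) (nat_lit 208) (nat_lit 192) (nat_lit 200)) (PT.lf (nat_lit 32300) (nat_lit 6) (nat_lit 425) (nat_lit 1) (nat_lit 209) (nat_lit 192) (nat_lit 199))))) (PT.nd (nat_lit 156) (PT.nd (nat_lit 78) (PT.lf (nat_lit 31464) (nat_lit 6) (nat_lit 414) (nat_lit 1) (nat_lit 210) (nat_lit 192) (nat_lit 198)) (PT.lf (nat_lit 30552) (nat_lit 6) (nat_lit 402) (nat_lit 1) (nat_lit 211) (nat_lit 192) (nat_lit 197))) (PT.nd (nat_lit 78) (PT.lf (nat_lit 29564) (nat_lit 6) (nat_lit 389) (nat_lit 1) (nat_lit 212) (nat_lit 192) (nat_lit 196)) (PT.nd (nat_lit 78) (PT.lf (nat_lit 28500) (nat_lit 6) (nat_lit 375) (nat_lit 1) (nat_lit 213) (nat_lit 192) (nat_lit 195)) (PT.lf (nat_lit 27360) (nat_lit 6) (nat_lit 360) (nat_lit 1) (nat_lit 214) (nat_lit 192) (nat_lit 194)))))) (PT.nd (nat_lit 60840) (PT.nd (nat_lit 60606) (PT.nd (nat_lit 78) (PT.lf (nat_lit 26144) (nat_lit 6) (nat_lit 344) (nat_lit 1) (nat_lit 215) (nat_lit 192)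 (nat_lit 193)) (PT.lf (nat_lit 24852) (nat_lit 3) (nat_lit 327) (nat_lit 0) (nat_lit 216) (nat_lit 192) (nat_lit 192))) (PT.nd (nat_lit 78) (PT.lf (nat_lit 24928) (nat_lit 6) (nat_lit 328) (nat_lit 5) (nat_lit 191) (nat_lit 193) (nat_lit 216)) (PT.nd (nat_lit 78) (PT.lf (nat_lit 26144) (nat_lit 6) (nat_lit 344) (nat_lit 5) (nat_lit 192) (nat_lit 193) (nat_lit 215)) (PT.lf (nat_lit 27284) (nat_lit 3) (nat_lit 359) (nat_lit 3) (nat_lit 193) (nat_lit 193) (nat_lit 214))))) (PT.nd (nat_lit 156) (PT.nd (nat_lit 78) (PT.lf (nat_lit 28424) (nat_lit 6) (nat_lit 374) (nat_lit 3) (nat_lit 194) (nat_lit 193) (nat_lit 213)) (PT.lf (nat_lit 29488) (nat_lit 6) (nat_lit 388) (nat_lit 3) (nat_lit 195) (nat_lit 193) (nat_lit 212))) (PT.nd (nat_lit 78) (PT.lf (nat_lit 30476) (nat_lit 6) (nat_lit 401) (nat_lit 3) (nat_lit 196) (nat_lit 193) (nat_lit 211)) (PT.nd (nat_lit 78) (PT.lf (nat_lit 31388) (nat_lit 6) (nat_lit 413) (nat_lit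 3) (nat_lit 197) (nat_lit 193) (nat_lit 210)) (PT.lf (nat_lit 32224) (nat_lit 6) (nat_lit 424) (nat_lit 3) (nat_lit 198) (nat_lit 193) (nat_lit 209))))))) (PT.nd (nat_lit 780) (PT.nd (nat_lit 390) (PT.nd (nat_lit 156) (PT.nd (nat_lit 78) (PT.lf (nat_lit 32984) (nat_lit 6) (nat_lit 434) (nat_lit 3) (nat_lit 199) (nat_lit 193) (nat_lit 208)) (PT.lf (nat_lit 33668) (nat_lit 6) (nat_lit 443) (nat_lit 3) (nat_lit 200) (nat_lit 193) (nat_lit 207))) (PT.nd (nat_lit 78) (PT.lf (nat_lit 33744) (nat_lit 6) (nat_lit 444) (nat_lit 3) (nat_lit 201) (nat_lit 193) (nat_lit 206)) (PT.nd (nat_lit 78) (PT.lf (nat_lit 33820) (nat_lit 6) (nat_lit 445) (nat_lit 3) (nat_lit 202) (nat_lit 193) (nat_lit 205)) (PT.lf (nat_lit 33896) (nat_lit 6) (nat_lit 446) (nat_lit 3) (nat_lit 203) (nat_lit 193) (nat_lit 204))))) (PT.nd (nat_lit 156) (PT.nd (nat_lit 78) (PT.lf (nat_lit 33896) (nat_lit 6) (nat_lit 446) (nat_lit 1) (nat_lit 204) (nat_lit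 193) (nat_lit 203)) (PT.lf (nat_lit 33820) (nat_lit 6) (nat_lit 445) (nat_lit 1) (nat_lit 205) (nat_lit 193) (nat_lit 202))) (PT.nd (nat_lit 78) (PT.lf (nat_lit 33744) (nat_lit 6) (nat_lit 444) (nat_lit 1) (nat_lit 206) (nat_lit 193) (nat_lit 201)) (PT.nd (nat_lit 78) (PT.lf (nat_lit 33668) (nat_lit 6) (nat_lit 443) (nat_lit 1) (nat_lit 207) (nat_lit 193) (nat_lit 200)) (PT.lf (nat_lit 32984) (nat_lit 6) (nat_lit 434) (nat_lit 1) (nat_lit 208) (nat_lit 193) (nat_lit 199)))))) (PT.nd (nat_lit 390) (PT.nd (nat_lit 156) (PT.nd (nat_lit 78) (PT.lf (nat_lit 32224) (nat_lit 6) (nat_lit 424) (nat_lit 1) (nat_lit 209) (nat_lit 193) (nat_lit 198)) (PT.lf (nat_lit 31388) (nat_lit 6) (nat_lit 413) (nat_lit 1) (nat_lit 210) (nat_lit 193) (nat_lit 197))) (PT.nd (nat_lit 78) (PT.lf (nat_lit 30476) (nat_lit 6) (nat_lit 401) (nat_lit 1) (nat_lit 211) (nat_lit 193) (nat_lit 196)) (PT.nd (nat_lit 78) (PT.lf (nat_lit 29488) (nat_lit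 6) (nat_lit 388) (nat_lit 1) (nat_lit 212) (nat_lit 193) (nat_lit 195)) (PT.lf (nat_lit 28424) (nat_lit 6) (nat_lit 374) (nat_lit 1) (nat_lit 213) (nat_lit 193) (nat_lit 194))))) (PT.nd (nat_lit 60606) (PT.nd (nat_lit 78) (PT.lf (nat_lit 27284) (nat_lit 3) (nat_lit 359) (nat_lit 0) (nat_lit 214) (nat_lit 193) (nat_lit 193)) (PT.nd (nat_lit 78) (PT.lf (nat_lit 26144) (nat_lit 6) (nat_lit 344) (nat_lit 0) (nat_lit 215) (nat_lit 193) (nat_lit 192)) (PT.lf (nat_lit 24928) (nat_lit 6) (nat_lit 328) (nat_lit 0) (nat_lit 216) (nat_lit 193) (nat_lit 191)))) (PT.nd (nat_lit 78) (PT.lf (nat_lit 25004) (nat_lit 6) (nat_lit 329) (nat_lit 5) (nat_lit 190) (nat_lit 194) (nat_lit 216)) (PT.nd (nat_lit 78) (PT.lf (nat_lit 26220) (nat_lit 6) (nat_lit 345) (nat_lit 5) (nat_lit 191) (nat_lit 194) (nat_lit 215)) (PT.lf (nat_lit 27360) (nat_lit 6) (nat_lit 360) (nat_lit 5) (nat_lit 192) (nat_lit 194) (nat_lit 214))))))))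
noncomputable def pc20 : PT := (PT.nd (nat_lit 1560) (PT.nd (nat_lit 780) (PT.nd (nat_lit 390) (PT.nd (nat_lit 156) (PT.nd (nat_lit 78) (PT.lf (nat_lit 28424) (nat_lit 6) (nat_lit 374) (nat_lit 5) (nat_lit 193) (nat_lit 194) (nat_lit 213)) (PT.lf (nat_lit 29412) (nat_lit 3) (nat_lit 387) (nat_lit 3) (nat_lit 194) (nat_lit 194) (nat_lit 212))) (PT.nd (nat_lit 78) (PT.lf (nat_lit 30400) (nat_lit 6) (nat_lit 400) (nat_lit 3) (nat_lit 195) (nat_lit 194) (nat_lit 211)) (PT.nd (nat_lit 78) (PT.lf (nat_lit 31312) (nat_lit 6) (nat_lit 412) (nat_lit 3) (nat_lit 196) (nat_lit 194) (nat_lit 210)) (PT.lf (nat_lit 32148) (nat_lit 6) (nat_lit 423) (nat_lit 3) (nat_lit 197) (nat_lit 194) (nat_lit 209))))) (PT.nd (nat_lit 156) (PT.nd (nat_lit 78) (PT.lf (nat_lit 32908) (nat_lit 6) (nat_lit 433) (nat_lit 3) (nat_lit 198) (nat_lit 194) (nat_lit 208)) (PT.lf (nat_lit 33592) (nat_lit 6) (nat_lit 442) (nat_lit 3) (nat_lit 199) (nat_lit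 194) (nat_lit 207))) (PT.nd (nat_lit 78) (PT.lf (nat_lit 34200) (nat_lit 6) (nat_lit 450) (nat_lit 3) (nat_lit 200) (nat_lit 194) (nat_lit 206)) (PT.nd (nat_lit 78) (PT.lf (nat_lit 34276) (nat_lit 6) (nat_lit 451) (nat_lit 3) (nat_lit 201) (nat_lit 194) (nat_lit 205)) (PT.lf (nat_lit 34352) (nat_lit 6) (nat_lit 452) (nat_lit 3) (nat_lit 202) (nat_lit 194) (nat_lit 204)))))) (PT.nd (nat_lit 390) (PT.nd (nat_lit 156) (PT.nd (nat_lit 78) (PT.lf (nat_lit 34428) (nat_lit 3) (nat_lit 453) (nat_lit 1) (nat_lit 203) (nat_lit 194) (nat_lit 203)) (PT.lf (nat_lit 34352) (nat_lit 6) (nat_lit 452) (nat_lit 1) (nat_lit 204) (nat_lit 194) (nat_lit 202))) (PT.nd (nat_lit 78) (PT.lf (nat_lit 34276) (nat_lit 6) (nat_lit 451) (nat_lit 1) (nat_lit 205) (nat_lit 194) (nat_lit 201)) (PT.nd (nat_lit 78) (PT.lf (nat_lit 34200) (nat_lit 6) (nat_lit 450) (nat_lit 1) (nat_lit 206) (nat_lit 194) (nat_lit 200)) (PT.lf (nat_lit 33592) (nat_lit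 6) (nat_lit 442) (nat_lit 1) (nat_lit 207) (nat_lit 194) (nat_lit 199))))) (PT.nd (nat_lit 156) (PT.nd (nat_lit 78) (PT.lf (nat_lit 32908) (nat_lit 6) (nat_lit 433) (nat_lit 1) (nat_lit 208) (nat_lit 194) (nat_lit 198)) (PT.lf (nat_lit 32148) (nat_lit 6) (nat_lit 423) (nat_lit 1) (nat_lit 209) (nat_lit 194) (nat_lit 197))) (PT.nd (nat_lit 78) (PT.lf (nat_lit 31312) (nat_lit 6) (nat_lit 412) (nat_lit 1) (nat_lit 210) (nat_lit 194) (nat_lit 196)) (PT.nd (nat_lit 78) (PT.lf (nat_lit 30400) (nat_lit 6) (nat_lit 400) (nat_lit 1) (nat_lit 211) (nat_lit 194) (nat_lit 195)) (PT.lf (nat_lit 29412) (nat_lit 3) (nat_lit 387) (nat_lit 0) (nat_lit 212) (nat_lit 194) (nat_lit 194))))))) (PT.nd (nat_lit 61074) (PT.nd (nat_lit 60684) (PT.nd (nat_lit 156) (PT.nd (nat_lit 78) (PT.lf (nat_lit 28424) (nat_lit 6) (nat_lit 374) (nat_lit 0) (nat_lit 213) (nat_lit 194) (nat_lit 193)) (PT.lf (nat_lit 27360) (nat_lit 6) (nat_lit 360) (nat_lit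 0) (nat_lit 214) (nat_lit 194) (nat_lit 192))) (PT.nd (nat_lit 78) (PT.lf (nat_lit 26220) (nat_lit 6) (nat_lit 345) (nat_lit 0) (nat_lit 215) (nat_lit 194) (nat_lit 191)) (PT.nd (nat_lit 60372) (PT.lf (nat_lit 25004) (nat_lit 6) (nat_lit 329) (nat_lit 0) (nat_lit 216) (nat_lit 194) (nat_lit 190)) (PT.lf (nat_lit 25080) (nat_lit 6) (nat_lit 330) (nat_lit 5) (nat_lit 189) (nat_lit 195) (nat_lit 216))))) (PT.nd (nat_lit 156) (PT.nd (nat_lit 78) (PT.lf (nat_lit 26296) (nat_lit 6) (nat_lit 346) (nat_lit 5) (nat_lit 190) (nat_lit 195) (nat_lit 215)) (PT.lf (nat_lit 27436) (nat_lit 6) (nat_lit 361) (nat_lit 5) (nat_lit 191) (nat_lit 195) (nat_lit 214))) (PT.nd (nat_lit 78) (PT.lf (nat_lit 28500) (nat_lit 6) (nat_lit 375) (nat_lit 5) (nat_lit 192) (nat_lit 195) (nat_lit 213)) (PT.nd (nat_lit 78) (PT.lf (nat_lit 29488) (nat_lit 6) (nat_lit 388) (nat_lit 5) (nat_lit 193) (nat_lit 195) (nat_lit 212)) (PT.lf (nat_lit 30400)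 (nat_lit 6) (nat_lit 400) (nat_lit 5) (nat_lit 194) (nat_lit 195) (nat_lit 211)))))) (PT.nd (nat_lit 390) (PT.nd (nat_lit 156) (PT.nd (nat_lit 78) (PT.lf (nat_lit 31236) (nat_lit 3) (nat_lit 411) (nat_lit 3) (nat_lit 195) (nat_lit 195) (nat_lit 210)) (PT.lf (nat_lit 32072) (nat_lit 6) (nat_lit 422) (nat_lit 3) (nat_lit 196) (nat_lit 195) (nat_lit 209))) (PT.nd (nat_lit 78) (PT.lf (nat_lit 32832) (nat_lit 6) (nat_lit 432) (nat_lit 3) (nat_lit 197) (nat_lit 195) (nat_lit 208)) (PT.nd (nat_lit 78) (PT.lf (nat_lit 33516) (nat_lit 6) (nat_lit 441) (nat_lit 3) (nat_lit 198) (nat_lit 195) (nat_lit 207)) (PT.lf (nat_lit 34124) (nat_lit 6) (nat_lit 449) (nat_lit 3) (nat_lit 199) (nat_lit 195) (nat_lit 206))))) (PT.nd (nat_lit 156) (PT.nd (nat_lit 78) (PT.lf (nat_lit 34656) (nat_lit 6) (nat_lit 456) (nat_lit 3) (nat_lit 200) (nat_lit 195) (nat_lit 205)) (PT.lf (nat_lit 34732) (nat_lit 6) (nat_lit 457) (nat_lit 3) (nat_lit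 201) (nat_lit 195) (nat_lit 204))) (PT.nd (nat_lit 78) (PT.lf (nat_lit 34808) (nat_lit 6) (nat_lit 458) (nat_lit 3) (nat_lit 202) (nat_lit 195) (nat_lit 203)) (PT.nd (nat_lit 78) (PT.lf (nat_lit 34808) (nat_lit 6) (nat_lit 458) (nat_lit 1) (nat_lit 203) (nat_lit 195) (nat_lit 202)) (PT.lf (nat_lit 34732) (nat_lit 6) (nat_lit 457) (nat_lit 1) (nat_lit 204) (nat_lit 195) (nat_lit 201))))))))
noncomputable def pc21 : PT := (PT.nd (nat_lit 61776) (PT.nd (nat_lit 780) (PT.nd (nat_lit 390) (PT.nd (nat_lit 156) (PT.nd (nat_lit 78) (PT.lf (nat_lit 34656) (nat_lit 6) (nat_lit 456) (nat_lit 1) (nat_lit 205) (nat_lit 195) (nat_lit 200)) (PT.lf (nat_lit 34124) (nat_lit 6) (nat_lit 449) (nat_lit 1) (nat_lit 206) (nat_lit 195) (nat_lit 199))) (PT.nd (nat_lit 78) (PT.lf (nat_lit 33516) (nat_lit 6) (nat_lit 441) (nat_lit 1) (nat_lit 207) (nat_lit 195) (nat_lit 198)) (PT.nd (nat_lit 78) (PT.lf (nat_lit 32832) (nat_lit 6) (nat_lit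 432) (nat_lit 1) (nat_lit 208) (nat_lit 195) (nat_lit 197)) (PT.lf (nat_lit 32072) (nat_lit 6) (nat_lit 422) (nat_lit 1) (nat_lit 209) (nat_lit 195) (nat_lit 196))))) (PT.nd (nat_lit 156) (PT.nd (nat_lit 78) (PT.lf (nat_lit 31236) (nat_lit 3) (nat_lit 411) (nat_lit 0) (nat_lit 210) (nat_lit 195) (nat_lit 195)) (PT.lf (nat_lit 30400) (nat_lit 6) (nat_lit 400) (nat_lit 0) (nat_lit 211) (nat_lit 195) (nat_lit 194))) (PT.nd (nat_lit 78) (PT.lf (nat_lit 29488) (nat_lit 6) (nat_lit 388) (nat_lit 0) (nat_lit 212) (nat_lit 195) (nat_lit 193)) (PT.nd (nat_lit 78) (PT.lf (nat_lit 28500) (nat_lit 6) (nat_lit 375) (nat_lit 0) (nat_lit 213) (nat_lit 195) (nat_lit 192)) (PT.lf (nat_lit 27436) (nat_lit 6) (nat_lit 361) (nat_lit 0) (nat_lit 214) (nat_lit 195) (nat_lit 191)))))) (PT.nd (nat_lit 60606) (PT.nd (nat_lit 60372) (PT.nd (nat_lit 78) (PT.lf (nat_lit 26296) (nat_lit 6) (nat_lit 346) (nat_lit 0) (nat_lit 215) (nat_lit 195)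 (nat_lit 190)) (PT.lf (nat_lit 25080) (nat_lit 6) (nat_lit 330) (nat_lit 0) (nat_lit 216) (nat_lit 195) (nat_lit 189))) (PT.nd (nat_lit 78) (PT.lf (nat_lit 25156) (nat_lit 6) (nat_lit 331) (nat_lit 5) (nat_lit 188) (nat_lit 196) (nat_lit 216)) (PT.nd (nat_lit 78) (PT.lf (nat_lit 26372) (nat_lit 6) (nat_lit 347) (nat_lit 5) (nat_lit 189) (nat_lit 196) (nat_lit 215)) (PT.lf (nat_lit 27512) (nat_lit 6) (nat_lit 362) (nat_lit 5) (nat_lit 190) (nat_lit 196) (nat_lit 214))))) (PT.nd (nat_lit 156) (PT.nd (nat_lit 78) (PT.lf (nat_lit 28576) (nat_lit 6) (nat_lit 376) (nat_lit 5) (nat_lit 191) (nat_lit 196) (nat_lit 213)) (PT.lf (nat_lit 29564) (nat_lit 6) (nat_lit 389) (nat_lit 5) (nat_lit 192) (nat_lit 196) (nat_lit 212))) (PT.nd (nat_lit 78) (PT.lf (nat_lit 30476) (nat_lit 6) (nat_lit 401) (nat_lit 5) (nat_lit 193) (nat_lit 196) (nat_lit 211)) (PT.nd (nat_lit 78) (PT.lf (nat_lit 31312) (nat_lit 6) (nat_lit 412) (nat_lit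 5) (nat_lit 194) (nat_lit 196) (nat_lit 210)) (PT.lf (nat_lit 32072) (nat_lit 6) (nat_lit 422) (nat_lit 5) (nat_lit 195) (nat_lit 196) (nat_lit 209))))))) (PT.nd (nat_lit 780) (PT.nd (nat_lit 390) (PT.nd (nat_lit 156) (PT.nd (nat_lit 78) (PT.lf (nat_lit 32756) (nat_lit 3) (nat_lit 431) (nat_lit 3) (nat_lit 196) (nat_lit 196) (nat_lit 208)) (PT.lf (nat_lit 33440) (nat_lit 6) (nat_lit 440) (nat_lit 3) (nat_lit 197) (nat_lit 196) (nat_lit 207))) (PT.nd (nat_lit 78) (PT.lf (nat_lit 34048) (nat_lit 6) (nat_lit 448) (nat_lit 3) (nat_lit 198) (nat_lit 196) (nat_lit 206)) (PT.nd (nat_lit 78) (PT.lf (nat_lit 34580) (nat_lit 6) (nat_lit 455) (nat_lit 3) (nat_lit 199) (nat_lit 196) (nat_lit 205)) (PT.lf (nat_lit 35036) (nat_lit 6) (nat_lit 461) (nat_lit 3) (nat_lit 200) (nat_lit 196) (nat_lit 204))))) (PT.nd (nat_lit 156) (PT.nd (nat_lit 78) (PT.lf (nat_lit 35112) (nat_lit 6) (nat_lit 462) (nat_lit 3) (nat_lit 201) (nat_lit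 196) (nat_lit 203)) (PT.lf (nat_lit 35188) (nat_lit 3) (nat_lit 463) (nat_lit 1) (nat_lit 202) (nat_lit 196) (nat_lit 202))) (PT.nd (nat_lit 78) (PT.lf (nat_lit 35112) (nat_lit 6) (nat_lit 462) (nat_lit 1) (nat_lit 203) (nat_lit 196) (nat_lit 201)) (PT.nd (nat_lit 78) (PT.lf (nat_lit 35036) (nat_lit 6) (nat_lit 461) (nat_lit 1) (nat_lit 204) (nat_lit 196) (nat_lit 200)) (PT.lf (nat_lit 34580) (nat_lit 6) (nat_lit 455) (nat_lit 1) (nat_lit 205) (nat_lit 196) (nat_lit 199)))))) (PT.nd (nat_lit 390) (PT.nd (nat_lit 156) (PT.nd (nat_lit 78) (PT.lf (nat_lit 34048) (nat_lit 6) (nat_lit 448) (nat_lit 1) (nat_lit 206) (nat_lit 196) (nat_lit 198)) (PT.lf (nat_lit 33440) (nat_lit 6) (nat_lit 440) (nat_lit 1) (nat_lit 207) (nat_lit 196) (nat_lit 197))) (PT.nd (nat_lit 78) (PT.lf (nat_lit 32756) (nat_lit 3) (nat_lit 431) (nat_lit 0) (nat_lit 208) (nat_lit 196) (nat_lit 196)) (PT.nd (nat_lit 78) (PT.lf (nat_lit 32072) (nat_lit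 6) (nat_lit 422) (nat_lit 0) (nat_lit 209) (nat_lit 196) (nat_lit 195)) (PT.lf (nat_lit 31312) (nat_lit 6) (nat_lit 412) (nat_lit 0) (nat_lit 210) (nat_lit 196) (nat_lit 194))))) (PT.nd (nat_lit 156) (PT.nd (nat_lit 78) (PT.lf (nat_lit 30476) (nat_lit 6) (nat_lit 401) (nat_lit 0) (nat_lit 211) (nat_lit 196) (nat_lit 193)) (PT.lf (nat_lit 29564) (nat_lit 6) (nat_lit 389) (nat_lit 0) (nat_lit 212) (nat_lit 196) (nat_lit 192))) (PT.nd (nat_lit 78) (PT.lf (nat_lit 28576) (nat_lit 6) (nat_lit 376) (nat_lit 0) (nat_lit 213) (nat_lit 196) (nat_lit 191)) (PT.nd (nat_lit 78) (PT.lf (nat_lit 27512) (nat_lit 6) (nat_lit 362) (nat_lit 0) (nat_lit 214) (nat_lit 196) (nat_lit 190)) (PT.lf (nat_lit 26372) (nat_lit 6) (nat_lit 347) (nat_lit 0) (nat_lit 215) (nat_lit 196) (nat_lit 189))))))))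
noncomputable def pc22 : PT := (PT.nd (nat_lit 61698) (PT.nd (nat_lit 60918) (PT.nd (nat_lit 60528) (PT.nd (nat_lit 60294) (PT.nd (nat_lit 60216) (PT.lf (nat_lit 25156) (nat_lit 6) (nat_lit 331) (nat_lit 0) (nat_lit 216) (nat_lit 196) (nat_lit 188)) (PT.lf (nat_lit 25232) (nat_lit 6) (nat_lit 332) (nat_lit 5) (nat_lit 187) (nat_lit 197) (nat_lit 216))) (PT.nd (nat_lit 78) (PT.lf (nat_lit 26448) (nat_lit 6) (nat_lit 348) (nat_lit 5) (nat_lit 188) (nat_lit 197) (nat_lit 215)) (PT.nd (nat_lit 78) (PT.lf (nat_lit 27588) (nat_lit 6) (nat_lit 363) (nat_lit 5) (nat_lit 189) (nat_lit 197) (nat_lit 214)) (PT.lf (nat_lit 28652) (nat_lit 6) (nat_lit 377) (nat_lit 5) (nat_lit 190) (nat_lit 197) (nat_lit 213))))) (PT.nd (nat_lit 156) (PT.nd (nat_lit 78) (PT.lf (nat_lit 29640) (nat_lit 6) (nat_lit 390) (nat_lit 5) (nat_lit 191) (nat_lit 197) (nat_lit 212)) (PT.lf (nat_lit 30552) (nat_lit 6) (nat_lit 402) (nat_lit 5) (nat_lit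 192) (nat_lit 197) (nat_lit 211))) (PT.nd (nat_lit 78) (PT.lf (nat_lit 31388) (nat_lit 6) (nat_lit 413) (nat_lit 5) (nat_lit 193) (nat_lit 197) (nat_lit 210)) (PT.nd (nat_lit 78) (PT.lf (nat_lit 32148) (nat_lit 6) (nat_lit 423) (nat_lit 5) (nat_lit 194) (nat_lit 197) (nat_lit 209)) (PT.lf (nat_lit 32832) (nat_lit 6) (nat_lit 432) (nat_lit 5) (nat_lit 195) (nat_lit 197) (nat_lit 208)))))) (PT.nd (nat_lit 390) (PT.nd (nat_lit 156) (PT.nd (nat_lit 78) (PT.lf (nat_lit 33440) (nat_lit 6) (nat_lit 440) (nat_lit 5) (nat_lit 196) (nat_lit 197) (nat_lit 207)) (PT.lf (nat_lit 33972) (nat_lit 3) (nat_lit 447) (nat_lit 3) (nat_lit 197) (nat_lit 197) (nat_lit 206))) (PT.nd (nat_lit 78) (PT.lf (nat_lit 34504) (nat_lit 6) (nat_lit 454) (nat_lit 3) (nat_lit 198) (nat_lit 197) (nat_lit 205)) (PT.nd (nat_lit 78) (PT.lf (nat_lit 34960) (nat_lit 6) (nat_lit 460) (nat_lit 3) (nat_lit 199) (nat_lit 197) (nat_lit 204)) (PT.lf (nat_lit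 35340) (nat_lit 6) (nat_lit 465) (nat_lit 3) (nat_lit 200) (nat_lit 197) (nat_lit 203))))) (PT.nd (nat_lit 156) (PT.nd (nat_lit 78) (PT.lf (nat_lit 35416) (nat_lit 6) (nat_lit 466) (nat_lit 3) (nat_lit 201) (nat_lit 197) (nat_lit 202)) (PT.lf (nat_lit 35416) (nat_lit 6) (nat_lit 466) (nat_lit 1) (nat_lit 202) (nat_lit 197) (nat_lit 201))) (PT.nd (nat_lit 78) (PT.lf (nat_lit 35340) (nat_lit 6) (nat_lit 465) (nat_lit 1) (nat_lit 203) (nat_lit 197) (nat_lit 200)) (PT.nd (nat_lit 78) (PT.lf (nat_lit 34960) (nat_lit 6) (nat_lit 460) (nat_lit 1) (nat_lit 204) (nat_lit 197) (nat_lit 199)) (PT.lf (nat_lit 34504) (nat_lit 6) (nat_lit 454) (nat_lit 1) (nat_lit 205) (nat_lit 197) (nat_lit 198))))))) (PT.nd (nat_lit 780) (PT.nd (nat_lit 390) (PT.nd (nat_lit 156) (PT.nd (nat_lit 78) (PT.lf (nat_lit 33972) (nat_lit 3) (nat_lit 447) (nat_lit 0) (nat_lit 206) (nat_lit 197) (nat_lit 197)) (PT.lf (nat_lit 33440) (nat_lit 6) (nat_lit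 440) (nat_lit 0) (nat_lit 207) (nat_lit 197) (nat_lit 196))) (PT.nd (nat_lit 78) (PT.lf (nat_lit 32832) (nat_lit 6) (nat_lit 432) (nat_lit 0) (nat_lit 208) (nat_lit 197) (nat_lit 195)) (PT.nd (nat_lit 78) (PT.lf (nat_lit 32148) (nat_lit 6) (nat_lit 423) (nat_lit 0) (nat_lit 209) (nat_lit 197) (nat_lit 194)) (PT.lf (nat_lit 31388) (nat_lit 6) (nat_lit 413) (nat_lit 0) (nat_lit 210) (nat_lit 197) (nat_lit 193))))) (PT.nd (nat_lit 156) (PT.nd (nat_lit 78) (PT.lf (nat_lit 30552) (nat_lit 6) (nat_lit 402) (nat_lit 0) (nat_lit 211) (nat_lit 197) (nat_lit 192)) (PT.lf (nat_lit 29640) (nat_lit 6) (nat_lit 390) (nat_lit 0) (nat_lit 212) (nat_lit 197) (nat_lit 191))) (PT.nd (nat_lit 78) (PT.lf (nat_lit 28652) (nat_lit 6) (nat_lit 377) (nat_lit 0) (nat_lit 213) (nat_lit 197) (nat_lit 190)) (PT.nd (nat_lit 78) (PT.lf (nat_lit 27588) (nat_lit 6) (nat_lit 363) (nat_lit 0) (nat_lit 214) (nat_lit 197) (nat_lit 189)) (PT.lf (nat_lit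 26448) (nat_lit 6) (nat_lit 348) (nat_lit 0) (nat_lit 215) (nat_lit 197) (nat_lit 188)))))) (PT.nd (nat_lit 60372) (PT.nd (nat_lit 60138) (PT.nd (nat_lit 60060) (PT.lf (nat_lit 25232) (nat_lit 6) (nat_lit 332) (nat_lit 0) (nat_lit 216) (nat_lit 197) (nat_lit 187)) (PT.lf (nat_lit 24016) (nat_lit 6) (nat_lit 316) (nat_lit 5) (nat_lit 185) (nat_lit 198) (nat_lit 217))) (PT.nd (nat_lit 78) (PT.lf (nat_lit 25308) (nat_lit 6) (nat_lit 333) (nat_lit 5) (nat_lit 186) (nat_lit 198) (nat_lit 216)) (PT.nd (nat_lit 78) (PT.lf (nat_lit 26524) (nat_lit 6) (nat_lit 349) (nat_lit 5) (nat_lit 187) (nat_lit 198) (nat_lit 215)) (PT.lf (nat_lit 27664) (nat_lit 6) (nat_lit 364) (nat_lit 5) (nat_lit 188) (nat_lit 198) (nat_lit 214))))) (PT.nd (nat_lit 156) (PT.nd (nat_lit 78) (PT.lf (nat_lit 28728) (nat_lit 6) (nat_lit 378) (nat_lit 5) (nat_lit 189) (nat_lit 198) (nat_lit 213)) (PT.lf (nat_lit 29716) (nat_lit 6) (nat_lit 391) (nat_lit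 5) (nat_lit 190) (nat_lit 198) (nat_lit 212))) (PT.nd (nat_lit 78) (PT.lf (nat_lit 30628) (nat_lit 6) (nat_lit 403) (nat_lit 5) (nat_lit 191) (nat_lit 198) (nat_lit 211)) (PT.nd (nat_lit 78) (PT.lf (nat_lit 31464) (nat_lit 6) (nat_lit 414) (nat_lit 5) (nat_lit 192) (nat_lit 198) (nat_lit 210)) (PT.lf (nat_lit 32224) (nat_lit 6) (nat_lit 424) (nat_lit 5) (nat_lit 193) (nat_lit 198) (nat_lit 209))))))))
noncomputable def pc23 : PT := (PT.nd (nat_lit 1560) (PT.nd (nat_lit 780) (PT.nd (nat_lit 390) (PT.nd (nat_lit 156) (PT.nd (nat_lit 78) (PT.lf (nat_lit 32908) (nat_lit 6) (nat_lit 433) (nat_lit 5) (nat_lit 194) (nat_lit 198) (nat_lit 208)) (PT.lf (nat_lit 33516) (nat_lit 6) (nat_lit 441) (nat_lit 5) (nat_lit 195) (nat_lit 198) (nat_lit 207))) (PT.nd (nat_lit 78) (PT.lf (nat_lit 34048) (nat_lit 6) (nat_lit 448) (nat_lit 5) (nat_lit 196) (nat_lit 198) (nat_lit 206)) (PT.nd (nat_lit 78) (PT.lf (nat_lit 34504) (nat_lit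 6) (nat_lit 454) (nat_lit 5) (nat_lit 197) (nat_lit 198) (nat_lit 205)) (PT.lf (nat_lit 34884) (nat_lit 3) (nat_lit 459) (nat_lit 3) (nat_lit 198) (nat_lit 198) (nat_lit 204))))) (PT.nd (nat_lit 156) (PT.nd (nat_lit 78) (PT.lf (nat_lit 35264) (nat_lit 6) (nat_lit 464) (nat_lit 3) (nat_lit 199) (nat_lit 198) (nat_lit 203)) (PT.lf (nat_lit 35568) (nat_lit 6) (nat_lit 468) (nat_lit 3) (nat_lit 200) (nat_lit 198) (nat_lit 202))) (PT.nd (nat_lit 78) (PT.lf (nat_lit 35644) (nat_lit 3) (nat_lit 469) (nat_lit 1) (nat_lit 201) (nat_lit 198) (nat_lit 201)) (PT.nd (nat_lit 78) (PT.lf (nat_lit 35568) (nat_lit 6) (nat_lit 468) (nat_lit 1) (nat_lit 202) (nat_lit 198) (nat_lit 200)) (PT.lf (nat_lit 35264) (nat_lit 6) (nat_lit 464) (nat_lit 1) (nat_lit 203) (nat_lit 198) (nat_lit 199)))))) (PT.nd (nat_lit 390) (PT.nd (nat_lit 156) (PT.nd (nat_lit 78) (PT.lf (nat_lit 34884) (nat_lit 3) (nat_lit 459) (nat_lit 0) (nat_lit 204) (nat_lit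 198) (nat_lit 198)) (PT.lf (nat_lit 34504) (nat_lit 6) (nat_lit 454) (nat_lit 0) (nat_lit 205) (nat_lit 198) (nat_lit 197))) (PT.nd (nat_lit 78) (PT.lf (nat_lit 34048) (nat_lit 6) (nat_lit 448) (nat_lit 0) (nat_lit 206) (nat_lit 198) (nat_lit 196)) (PT.nd (nat_lit 78) (PT.lf (nat_lit 33516) (nat_lit 6) (nat_lit 441) (nat_lit 0) (nat_lit 207) (nat_lit 198) (nat_lit 195)) (PT.lf (nat_lit 32908) (nat_lit 6) (nat_lit 433) (nat_lit 0) (nat_lit 208) (nat_lit 198) (nat_lit 194))))) (PT.nd (nat_lit 156) (PT.nd (nat_lit 78) (PT.lf (nat_lit 32224) (nat_lit 6) (nat_lit 424) (nat_lit 0) (nat_lit 209) (nat_lit 198) (nat_lit 193)) (PT.lf (nat_lit 31464) (nat_lit 6) (nat_lit 414) (nat_lit 0) (nat_lit 210) (nat_lit 198) (nat_lit 192))) (PT.nd (nat_lit 78) (PT.lf (nat_lit 30628) (nat_lit 6) (nat_lit 403) (nat_lit 0) (nat_lit 211) (nat_lit 198) (nat_lit 191)) (PT.nd (nat_lit 78) (PT.lf (nat_lit 29716) (nat_lit 6) (nat_lit 391) (nat_lit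 0) (nat_lit 212) (nat_lit 198) (nat_lit 190)) (PT.lf (nat_lit 28728) (nat_lit 6) (nat_lit 378) (nat_lit 0) (nat_lit 213) (nat_lit 198) (nat_lit 189))))))) (PT.nd (nat_lit 60606) (PT.nd (nat_lit 60216) (PT.nd (nat_lit 156) (PT.nd (nat_lit 78) (PT.lf (nat_lit 27664) (nat_lit 6) (nat_lit 364) (nat_lit 0) (nat_lit 214) (nat_lit 198) (nat_lit 188)) (PT.lf (nat_lit 26524) (nat_lit 6) (nat_lit 349) (nat_lit 0) (nat_lit 215) (nat_lit 198) (nat_lit 187))) (PT.nd (nat_lit 78) (PT.lf (nat_lit 25308) (nat_lit 6) (nat_lit 333) (nat_lit 0) (nat_lit 216) (nat_lit 198) (nat_lit 186)) (PT.nd (nat_lit 59904) (PT.lf (nat_lit 24016) (nat_lit 6) (nat_lit 316) (nat_lit 0) (nat_lit 217) (nat_lit 198) (nat_lit 185)) (PT.lf (nat_lit 24092) (nat_lit 6) (nat_lit 317) (nat_lit 5) (nat_lit 184) (nat_lit 199) (nat_lit 217))))) (PT.nd (nat_lit 156) (PT.nd (nat_lit 78) (PT.lf (nat_lit 25384) (nat_lit 6) (nat_lit 334) (nat_lit 5) (nat_lit 185)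 (nat_lit 199) (nat_lit 216)) (PT.lf (nat_lit 26600) (nat_lit 6) (nat_lit 350) (nat_lit 5) (nat_lit 186) (nat_lit 199) (nat_lit 215))) (PT.nd (nat_lit 78) (PT.lf (nat_lit 27740) (nat_lit 6) (nat_lit 365) (nat_lit 5) (nat_lit 187) (nat_lit 199) (nat_lit 214)) (PT.nd (nat_lit 78) (PT.lf (nat_lit 28804) (nat_lit 6) (nat_lit 379) (nat_lit 5) (nat_lit 188) (nat_lit 199) (nat_lit 213)) (PT.lf (nat_lit 29792) (nat_lit 6) (nat_lit 392) (nat_lit 5) (nat_lit 189) (nat_lit 199) (nat_lit 212)))))) (PT.nd (nat_lit 390) (PT.nd (nat_lit 156) (PT.nd (nat_lit 78) (PT.lf (nat_lit 30704) (nat_lit 6) (nat_lit 404) (nat_lit 5) (nat_lit 190) (nat_lit 199) (nat_lit 211)) (PT.lf (nat_lit 31540) (nat_lit 6) (nat_lit 415) (nat_lit 5) (nat_lit 191) (nat_lit 199) (nat_lit 210))) (PT.nd (nat_lit 78) (PT.lf (nat_lit 32300) (nat_lit 6) (nat_lit 425) (nat_lit 5) (nat_lit 192) (nat_lit 199) (nat_lit 209)) (PT.nd (nat_lit 78) (PT.lf (nat_lit 32984)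 (nat_lit 6) (nat_lit 434) (nat_lit 5) (nat_lit 193) (nat_lit 199) (nat_lit 208)) (PT.lf (nat_lit 33592) (nat_lit 6) (nat_lit 442) (nat_lit 5) (nat_lit 194) (nat_lit 199) (nat_lit 207))))) (PT.nd (nat_lit 234) (PT.nd (nat_lit 78) (PT.lf (nat_lit 34124) (nat_lit 6) (nat_lit 449) (nat_lit 5) (nat_lit 195) (nat_lit 199) (nat_lit 206)) (PT.nd (nat_lit 78) (PT.lf (nat_lit 34580) (nat_lit 6) (nat_lit 455) (nat_lit 5) (nat_lit 196) (nat_lit 199) (nat_lit 205)) (PT.lf (nat_lit 34960) (nat_lit 6) (nat_lit 460) (nat_lit 5) (nat_lit 197) (nat_lit 199) (nat_lit 204)))) (PT.nd (nat_lit 78) (PT.lf (nat_lit 35264) (nat_lit 6) (nat_lit 464) (nat_lit 5) (nat_lit 198) (nat_lit 199) (nat_lit 203)) (PT.nd (nat_lit 78) (PT.lf (nat_lit 35492) (nat_lit 3) (nat_lit 467) (nat_lit 3) (nat_lit 199) (nat_lit 199) (nat_lit 202)) (PT.lf (nat_lit 35720) (nat_lit 6) (nat_lit 470) (nat_lit 3) (nat_lit 200) (nat_lit 199) (nat_lit 201))))))))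
noncomputable def pc24 : PT := (PT.nd (nat_lit 61308) (PT.nd (nat_lit 780) (PT.nd (nat_lit 390) (PT.nd (nat_lit 156) (PT.nd (nat_lit 78) (PT.lf (nat_lit 35720) (nat_lit 6) (nat_lit 470) (nat_lit 1) (nat_lit 201) (nat_lit 199) (nat_lit 200)) (PT.lf (nat_lit 35492) (nat_lit 3) (nat_lit 467) (nat_lit 0) (nat_lit 202) (nat_lit 199) (nat_lit 199))) (PT.nd (nat_lit 78) (PT.lf (nat_lit 35264) (nat_lit 6) (nat_lit 464) (nat_lit 0) (nat_lit 203) (nat_lit 199) (nat_lit 198)) (PT.nd (nat_lit 78) (PT.lf (nat_lit 34960) (nat_lit 6) (nat_lit 460) (nat_lit 0) (nat_lit 204) (nat_lit 199) (nat_lit 197)) (PT.lf (nat_lit 34580) (nat_lit 6) (nat_lit 455) (nat_lit 0) (nat_lit 205) (nat_lit 199) (nat_lit 196))))) (PT.nd (nat_lit 156) (PT.nd (nat_lit 78) (PT.lf (nat_lit 34124) (nat_lit 6) (nat_lit 449) (nat_lit 0) (nat_lit 206) (nat_lit 199) (nat_lit 195)) (PT.lf (nat_lit 33592) (nat_lit 6) (nat_lit 442) (nat_lit 0) (nat_lit 207) (nat_lit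 199) (nat_lit 194))) (PT.nd (nat_lit 78) (PT.lf (nat_lit 32984) (nat_lit 6) (nat_lit 434) (nat_lit 0) (nat_lit 208) (nat_lit 199) (nat_lit 193)) (PT.nd (nat_lit 78) (PT.lf (nat_lit 32300) (nat_lit 6) (nat_lit 425) (nat_lit 0) (nat_lit 209) (nat_lit 199) (nat_lit 192)) (PT.lf (nat_lit 31540) (nat_lit 6) (nat_lit 415) (nat_lit 0) (nat_lit 210) (nat_lit 199) (nat_lit 191)))))) (PT.nd (nat_lit 390) (PT.nd (nat_lit 156) (PT.nd (nat_lit 78) (PT.lf (nat_lit 30704) (nat_lit 6) (nat_lit 404) (nat_lit 0) (nat_lit 211) (nat_lit 199) (nat_lit 190)) (PT.lf (nat_lit 29792) (nat_lit 6) (nat_lit 392) (nat_lit 0) (nat_lit 212) (nat_lit 199) (nat_lit 189))) (PT.nd (nat_lit 78) (PT.lf (nat_lit 28804) (nat_lit 6) (nat_lit 379) (nat_lit 0) (nat_lit 213) (nat_lit 199) (nat_lit 188)) (PT.nd (nat_lit 78) (PT.lf (nat_lit 27740) (nat_lit 6) (nat_lit 365) (nat_lit 0) (nat_lit 214) (nat_lit 199) (nat_lit 187)) (PT.lf (nat_lit 26600) (nat_lit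 6) (nat_lit 350) (nat_lit 0) (nat_lit 215) (nat_lit 199) (nat_lit 186))))) (PT.nd (nat_lit 59904) (PT.nd (nat_lit 78) (PT.lf (nat_lit 25384) (nat_lit 6) (nat_lit 334) (nat_lit 0) (nat_lit 216) (nat_lit 199) (nat_lit 185)) (PT.lf (nat_lit 24092) (nat_lit 6) (nat_lit 317) (nat_lit 0) (nat_lit 217) (nat_lit 199) (nat_lit 184))) (PT.nd (nat_lit 78) (PT.lf (nat_lit 24168) (nat_lit 6) (nat_lit 318) (nat_lit 5) (nat_lit 183) (nat_lit 200) (nat_lit 217)) (PT.nd (nat_lit 78) (PT.lf (nat_lit 25460) (nat_lit 6) (nat_lit 335) (nat_lit 5) (nat_lit 184) (nat_lit 200) (nat_lit 216)) (PT.lf (nat_lit 26676) (nat_lit 6) (nat_lit 351) (nat_lit 5) (nat_lit 185) (nat_lit 200) (nat_lit 215))))))) (PT.nd (nat_lit 780) (PT.nd (nat_lit 390) (PT.nd (nat_lit 156) (PT.nd (nat_lit 78) (PT.lf (nat_lit 27816) (nat_lit 6) (nat_lit 366) (nat_lit 5) (nat_lit 186) (nat_lit 200) (nat_lit 214)) (PT.lf (nat_lit 28880) (nat_lit 6) (nat_lit 380) (nat_lit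 5) (nat_lit 187) (nat_lit 200) (nat_lit 213))) (PT.nd (nat_lit 78) (PT.lf (nat_lit 29868) (nat_lit 6) (nat_lit 393) (nat_lit 5) (nat_lit 188) (nat_lit 200) (nat_lit 212)) (PT.nd (nat_lit 78) (PT.lf (nat_lit 30780) (nat_lit 6) (nat_lit 405) (nat_lit 5) (nat_lit 189) (nat_lit 200) (nat_lit 211)) (PT.lf (nat_lit 31616) (nat_lit 6) (nat_lit 416) (nat_lit 5) (nat_lit 190) (nat_lit 200) (nat_lit 210))))) (PT.nd (nat_lit 156) (PT.nd (nat_lit 78) (PT.lf (nat_lit 32376) (nat_lit 6) (nat_lit 426) (nat_lit 5) (nat_lit 191) (nat_lit 200) (nat_lit 209)) (PT.lf (nat_lit 33060) (nat_lit 6) (nat_lit 435) (nat_lit 5) (nat_lit 192) (nat_lit 200) (nat_lit 208))) (PT.nd (nat_lit 78) (PT.lf (nat_lit 33668) (nat_lit 6) (nat_lit 443) (nat_lit 5) (nat_lit 193) (nat_lit 200) (nat_lit 207)) (PT.nd (nat_lit 78) (PT.lf (nat_lit 34200) (nat_lit 6) (nat_lit 450) (nat_lit 5) (nat_lit 194) (nat_lit 200) (nat_lit 206)) (PT.lf (nat_lit 34656) (nat_lit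 6) (nat_lit 456) (nat_lit 5) (nat_lit 195) (nat_lit 200) (nat_lit 205)))))) (PT.nd (nat_lit 390) (PT.nd (nat_lit 156) (PT.nd (nat_lit 78) (PT.lf (nat_lit 35036) (nat_lit 6) (nat_lit 461) (nat_lit 5) (nat_lit 196) (nat_lit 200) (nat_lit 204)) (PT.lf (nat_lit 35340) (nat_lit 6) (nat_lit 465) (nat_lit 5) (nat_lit 197) (nat_lit 200) (nat_lit 203))) (PT.nd (nat_lit 78) (PT.lf (nat_lit 35568) (nat_lit 6) (nat_lit 468) (nat_lit 5) (nat_lit 198) (nat_lit 200) (nat_lit 202)) (PT.nd (nat_lit 78) (PT.lf (nat_lit 35720) (nat_lit 6) (nat_lit 470) (nat_lit 5) (nat_lit 199) (nat_lit 200) (nat_lit 201)) (PT.lf (nat_lit 35796) (nat_lit 1) (nat_lit 471) (nat_lit 0) (nat_lit 200) (nat_lit 200) (nat_lit 200))))) (PT.nd (nat_lit 156) (PT.nd (nat_lit 78) (PT.lf (nat_lit 35720) (nat_lit 6) (nat_lit 470) (nat_lit 0) (nat_lit 201) (nat_lit 200) (nat_lit 199)) (PT.lf (nat_lit 35568) (nat_lit 6) (nat_lit 468) (nat_lit 0) (nat_lit 202) (nat_lit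 200) (nat_lit 198))) (PT.nd (nat_lit 78) (PT.lf (nat_lit 35340) (nat_lit 6) (nat_lit 465) (nat_lit 0) (nat_lit 203) (nat_lit 200) (nat_lit 197)) (PT.nd (nat_lit 78) (PT.lf (nat_lit 35036) (nat_lit 6) (nat_lit 461) (nat_lit 0) (nat_lit 204) (nat_lit 200) (nat_lit 196)) (PT.lf (nat_lit 34656) (nat_lit 6) (nat_lit 456) (nat_lit 0) (nat_lit 205) (nat_lit 200) (nat_lit 195))))))))
noncomputable def pc25 : PT := (PT.nd (nat_lit 61230) (PT.nd (nat_lit 780) (PT.nd (nat_lit 390) (PT.nd (nat_lit 156) (PT.nd (nat_lit 78) (PT.lf (nat_lit 34200) (nat_lit 6) (nat_lit 450) (nat_lit 0) (nat_lit 206) (nat_lit 200) (nat_lit 194)) (PT.lf (nat_lit 33668) (nat_lit 6) (nat_lit 443) (nat_lit 0) (nat_lit 207) (nat_lit 200) (nat_lit 193))) (PT.nd (nat_lit 78) (PT.lf (nat_lit 33060) (nat_lit 6) (nat_lit 435) (nat_lit 0) (nat_lit 208) (nat_lit 200) (nat_lit 192)) (PT.nd (nat_lit 78) (PT.lf (nat_lit 32376) (nat_lit 6) (nat_lit 426) (nat_lit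 0) (nat_lit 209) (nat_lit 200) (nat_lit 191)) (PT.lf (nat_lit 31616) (nat_lit 6) (nat_lit 416) (nat_lit 0) (nat_lit 210) (nat_lit 200) (nat_lit 190))))) (PT.nd (nat_lit 156) (PT.nd (nat_lit 78) (PT.lf (nat_lit 30780) (nat_lit 6) (nat_lit 405) (nat_lit 0) (nat_lit 211) (nat_lit 200) (nat_lit 189)) (PT.lf (nat_lit 29868) (nat_lit 6) (nat_lit 393) (nat_lit 0) (nat_lit 212) (nat_lit 200) (nat_lit 188))) (PT.nd (nat_lit 78) (PT.lf (nat_lit 28880) (nat_lit 6) (nat_lit 380) (nat_lit 0) (nat_lit 213) (nat_lit 200) (nat_lit 187)) (PT.nd (nat_lit 78) (PT.lf (nat_lit 27816) (nat_lit 6) (nat_lit 366) (nat_lit 0) (nat_lit 214) (nat_lit 200) (nat_lit 186)) (PT.lf (nat_lit 26676) (nat_lit 6) (nat_lit 351) (nat_lit 0) (nat_lit 215) (nat_lit 200) (nat_lit 185)))))) (PT.nd (nat_lit 60060) (PT.nd (nat_lit 59826) (PT.nd (nat_lit 78) (PT.lf (nat_lit 25460) (nat_lit 6) (nat_lit 335) (nat_lit 0) (nat_lit 216) (nat_lit 200) (nat_lit 184))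 (PT.lf (nat_lit 24168) (nat_lit 6) (nat_lit 318) (nat_lit 0) (nat_lit 217) (nat_lit 200) (nat_lit 183))) (PT.nd (nat_lit 78) (PT.lf (nat_lit 23332) (nat_lit 6) (nat_lit 307) (nat_lit 5) (nat_lit 182) (nat_lit 201) (nat_lit 217)) (PT.nd (nat_lit 78) (PT.lf (nat_lit 24244) (nat_lit 6) (nat_lit 319) (nat_lit 5) (nat_lit 183) (nat_lit 201) (nat_lit 216)) (PT.lf (nat_lit 25536) (nat_lit 6) (nat_lit 336) (nat_lit 5) (nat_lit 184) (nat_lit 201) (nat_lit 215))))) (PT.nd (nat_lit 156) (PT.nd (nat_lit 78) (PT.lf (nat_lit 26752) (nat_lit 6) (nat_lit 352) (nat_lit 5) (nat_lit 185) (nat_lit 201) (nat_lit 214)) (PT.lf (nat_lit 27892) (nat_lit 6) (nat_lit 367) (nat_lit 5) (nat_lit 186) (nat_lit 201) (nat_lit 213))) (PT.nd (nat_lit 78) (PT.lf (nat_lit 28956) (nat_lit 6) (nat_lit 381) (nat_lit 5) (nat_lit 187) (nat_lit 201) (nat_lit 212)) (PT.nd (nat_lit 78) (PT.lf (nat_lit 29944) (nat_lit 6) (nat_lit 394) (nat_lit 5) (nat_lit 188)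 (nat_lit 201) (nat_lit 211)) (PT.lf (nat_lit 30856) (nat_lit 6) (nat_lit 406) (nat_lit 5) (nat_lit 189) (nat_lit 201) (nat_lit 210))))))) (PT.nd (nat_lit 780) (PT.nd (nat_lit 390) (PT.nd (nat_lit 156) (PT.nd (nat_lit 78) (PT.lf (nat_lit 31692) (nat_lit 6) (nat_lit 417) (nat_lit 5) (nat_lit 190) (nat_lit 201) (nat_lit 209)) (PT.lf (nat_lit 32452) (nat_lit 6) (nat_lit 427) (nat_lit 5) (nat_lit 191) (nat_lit 201) (nat_lit 208))) (PT.nd (nat_lit 78) (PT.lf (nat_lit 33136) (nat_lit 6) (nat_lit 436) (nat_lit 5) (nat_lit 192) (nat_lit 201) (nat_lit 207)) (PT.nd (nat_lit 78) (PT.lf (nat_lit 33744) (nat_lit 6) (nat_lit 444) (nat_lit 5) (nat_lit 193) (nat_lit 201) (nat_lit 206)) (PT.lf (nat_lit 34276) (nat_lit 6) (nat_lit 451) (nat_lit 5) (nat_lit 194) (nat_lit 201) (nat_lit 205))))) (PT.nd (nat_lit 156) (PT.nd (nat_lit 78) (PT.lf (nat_lit 34732) (nat_lit 6) (nat_lit 457) (nat_lit 5) (nat_lit 195) (nat_lit 201) (nat_lit 204))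 (PT.lf (nat_lit 35112) (nat_lit 6) (nat_lit 462) (nat_lit 5) (nat_lit 196) (nat_lit 201) (nat_lit 203))) (PT.nd (nat_lit 78) (PT.lf (nat_lit 35416) (nat_lit 6) (nat_lit 466) (nat_lit 5) (nat_lit 197) (nat_lit 201) (nat_lit 202)) (PT.nd (nat_lit 78) (PT.lf (nat_lit 35644) (nat_lit 3) (nat_lit 469) (nat_lit 4) (nat_lit 198) (nat_lit 201) (nat_lit 201)) (PT.lf (nat_lit 35720) (nat_lit 6) (nat_lit 470) (nat_lit 4) (nat_lit 199) (nat_lit 201) (nat_lit 200)))))) (PT.nd (nat_lit 390) (PT.nd (nat_lit 156) (PT.nd (nat_lit 78) (PT.lf (nat_lit 35720) (nat_lit 6) (nat_lit 470) (nat_lit 2) (nat_lit 200) (nat_lit 201) (nat_lit 199)) (PT.lf (nat_lit 35644) (nat_lit 3) (nat_lit 469) (nat_lit 0) (nat_lit 201) (nat_lit 201) (nat_lit 198))) (PT.nd (nat_lit 78) (PT.lf (nat_lit 35416) (nat_lit 6) (nat_lit 466) (nat_lit 0) (nat_lit 202) (nat_lit 201) (nat_lit 197)) (PT.nd (nat_lit 78) (PT.lf (nat_lit 35112) (nat_lit 6) (nat_lit 462)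 (nat_lit 0) (nat_lit 203) (nat_lit 201) (nat_lit 196)) (PT.lf (nat_lit 34732) (nat_lit 6) (nat_lit 457) (nat_lit 0) (nat_lit 204) (nat_lit 201) (nat_lit 195))))) (PT.nd (nat_lit 156) (PT.nd (nat_lit 78) (PT.lf (nat_lit 34276) (nat_lit 6) (nat_lit 451) (nat_lit 0) (nat_lit 205) (nat_lit 201) (nat_lit 194)) (PT.lf (nat_lit 33744) (nat_lit 6) (nat_lit 444) (nat_lit 0) (nat_lit 206) (nat_lit 201) (nat_lit 193))) (PT.nd (nat_lit 78) (PT.lf (nat_lit 33136) (nat_lit 6) (nat_lit 436) (nat_lit 0) (nat_lit 207) (nat_lit 201) (nat_lit 192)) (PT.nd (nat_lit 78) (PT.lf (nat_lit 32452) (nat_lit 6) (nat_lit 427) (nat_lit 0) (nat_lit 208) (nat_lit 201) (nat_lit 191)) (PT.lf (nat_lit 31692) (nat_lit 6) (nat_lit 417) (nat_lit 0) (nat_lit 209) (nat_lit 201) (nat_lit 190))))))))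
noncomputable def pc26 : PT := (PT.nd (nat_lit 61152) (PT.nd (nat_lit 60372) (PT.nd (nat_lit 390) (PT.nd (nat_lit 156) (PT.nd (nat_lit 78) (PT.lf (nat_lit 30856) (nat_lit 6) (nat_lit 406) (nat_lit 0) (nat_lit 210) (nat_lit 201) (nat_lit 189)) (PT.lf (nat_lit 29944) (nat_lit 6) (nat_lit 394) (nat_lit 0) (nat_lit 211) (nat_lit 201) (nat_lit 188))) (PT.nd (nat_lit 78) (PT.lf (nat_lit 28956) (nat_lit 6) (nat_lit 381) (nat_lit 0) (nat_lit 212) (nat_lit 201) (nat_lit 187)) (PT.nd (nat_lit 78) (PT.lf (nat_lit 27892) (nat_lit 6) (nat_lit 367) (nat_lit 0) (nat_lit 213) (nat_lit 201) (nat_lit 186)) (PT.lf (nat_lit 26752) (nat_lit 6) (nat_lit 352) (nat_lit 0) (nat_lit 214) (nat_lit 201) (nat_lit 185))))) (PT.nd (nat_lit 156) (PT.nd (nat_lit 78) (PT.lf (nat_lit 25536) (nat_lit 6) (nat_lit 336) (nat_lit 0) (nat_lit 215) (nat_lit 201) (nat_lit 184)) (PT.lf (nat_lit 24244) (nat_lit 6) (nat_lit 319) (nat_lit 0) (nat_lit 216) (nat_lit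 201) (nat_lit 183))) (PT.nd (nat_lit 59670) (PT.lf (nat_lit 23332) (nat_lit 6) (nat_lit 307) (nat_lit 0) (nat_lit 217) (nat_lit 201) (nat_lit 182)) (PT.nd (nat_lit 78) (PT.lf (nat_lit 22724) (nat_lit 6) (nat_lit 299) (nat_lit 5) (nat_lit 181) (nat_lit 202) (nat_lit 217)) (PT.lf (nat_lit 23408) (nat_lit 6) (nat_lit 308) (nat_lit 5) (nat_lit 182) (nat_lit 202) (nat_lit 216)))))) (PT.nd (nat_lit 390) (PT.nd (nat_lit 156) (PT.nd (nat_lit 78) (PT.lf (nat_lit 24320) (nat_lit 6) (nat_lit 320) (nat_lit 5) (nat_lit 183) (nat_lit 202) (nat_lit 215)) (PT.lf (nat_lit 25612) (nat_lit 6) (nat_lit 337) (nat_lit 5) (nat_lit 184) (nat_lit 202) (nat_lit 214))) (PT.nd (nat_lit 78) (PT.lf (nat_lit 26828) (nat_lit 6) (nat_lit 353) (nat_lit 5) (nat_lit 185) (nat_lit 202) (nat_lit 213)) (PT.nd (nat_lit 78) (PT.lf (nat_lit 27968) (nat_lit 6) (nat_lit 368) (nat_lit 5) (nat_lit 186) (nat_lit 202) (nat_lit 212)) (PT.lf (nat_lit 29032) (nat_lit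 6) (nat_lit 382) (nat_lit 5) (nat_lit 187) (nat_lit 202) (nat_lit 211))))) (PT.nd (nat_lit 156) (PT.nd (nat_lit 78) (PT.lf (nat_lit 30020) (nat_lit 6) (nat_lit 395) (nat_lit 5) (nat_lit 188) (nat_lit 202) (nat_lit 210)) (PT.lf (nat_lit 30932) (nat_lit 6) (nat_lit 407) (nat_lit 5) (nat_lit 189) (nat_lit 202) (nat_lit 209))) (PT.nd (nat_lit 78) (PT.lf (nat_lit 31768) (nat_lit 6) (nat_lit 418) (nat_lit 5) (nat_lit 190) (nat_lit 202) (nat_lit 208)) (PT.nd (nat_lit 78) (PT.lf (nat_lit 32528) (nat_lit 6) (nat_lit 428) (nat_lit 5) (nat_lit 191) (nat_lit 202) (nat_lit 207)) (PT.lf (nat_lit 33212) (nat_lit 6) (nat_lit 437) (nat_lit 5) (nat_lit 192) (nat_lit 202) (nat_lit 206))))))) (PT.nd (nat_lit 780) (PT.nd (nat_lit 390) (PT.nd (nat_lit 156) (PT.nd (nat_lit 78) (PT.lf (nat_lit 33820) (nat_lit 6) (nat_lit 445) (nat_lit 5) (nat_lit 193) (nat_lit 202) (nat_lit 205)) (PT.lf (nat_lit 34352) (nat_lit 6) (nat_lit 452) (nat_lit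 5) (nat_lit 194) (nat_lit 202) (nat_lit 204))) (PT.nd (nat_lit 78) (PT.lf (nat_lit 34808) (nat_lit 6) (nat_lit 458) (nat_lit 5) (nat_lit 195) (nat_lit 202) (nat_lit 203)) (PT.nd (nat_lit 78) (PT.lf (nat_lit 35188) (nat_lit 3) (nat_lit 463) (nat_lit 4) (nat_lit 196) (nat_lit 202) (nat_lit 202)) (PT.lf (nat_lit 35416) (nat_lit 6) (nat_lit 466) (nat_lit 4) (nat_lit 197) (nat_lit 202) (nat_lit 201))))) (PT.nd (nat_lit 156) (PT.nd (nat_lit 78) (PT.lf (nat_lit 35568) (nat_lit 6) (nat_lit 468) (nat_lit 4) (nat_lit 198) (nat_lit 202) (nat_lit 200)) (PT.lf (nat_lit 35492) (nat_lit 3) (nat_lit 467) (nat_lit 2) (nat_lit 199) (nat_lit 202) (nat_lit 199))) (PT.nd (nat_lit 78) (PT.lf (nat_lit 35568) (nat_lit 6) (nat_lit 468) (nat_lit 2) (nat_lit 200) (nat_lit 202) (nat_lit 198)) (PT.nd (nat_lit 78) (PT.lf (nat_lit 35416) (nat_lit 6) (nat_lit 466) (nat_lit 2) (nat_lit 201) (nat_lit 202) (nat_lit 197)) (PT.lf (nat_lit 35188) (nat_lit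 3) (nat_lit 463) (nat_lit 0) (nat_lit 202) (nat_lit 202) (nat_lit 196)))))) (PT.nd (nat_lit 390) (PT.nd (nat_lit 156) (PT.nd (nat_lit 78) (PT.lf (nat_lit 34808) (nat_lit 6) (nat_lit 458) (nat_lit 0) (nat_lit 203) (nat_lit 202) (nat_lit 195)) (PT.lf (nat_lit 34352) (nat_lit 6) (nat_lit 452) (nat_lit 0) (nat_lit 204) (nat_lit 202) (nat_lit 194))) (PT.nd (nat_lit 78) (PT.lf (nat_lit 33820) (nat_lit 6) (nat_lit 445) (nat_lit 0) (nat_lit 205) (nat_lit 202) (nat_lit 193)) (PT.nd (nat_lit 78) (PT.lf (nat_lit 33212) (nat_lit 6) (nat_lit 437) (nat_lit 0) (nat_lit 206) (nat_lit 202) (nat_lit 192)) (PT.lf (nat_lit 32528) (nat_lit 6) (nat_lit 428) (nat_lit 0) (nat_lit 207) (nat_lit 202) (nat_lit 191))))) (PT.nd (nat_lit 156) (PT.nd (nat_lit 78) (PT.lf (nat_lit 31768) (nat_lit 6) (nat_lit 418) (nat_lit 0) (nat_lit 208) (nat_lit 202) (nat_lit 190)) (PT.lf (nat_lit 30932) (nat_lit 6) (nat_lit 407) (nat_lit 0) (nat_lit 209) (nat_lit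 202) (nat_lit 189))) (PT.nd (nat_lit 78) (PT.lf (nat_lit 30020) (nat_lit 6) (nat_lit 395) (nat_lit 0) (nat_lit 210) (nat_lit 202) (nat_lit 188)) (PT.nd (nat_lit 78) (PT.lf (nat_lit 29032) (nat_lit 6) (nat_lit 382) (nat_lit 0) (nat_lit 211) (nat_lit 202) (nat_lit 187)) (PT.lf (nat_lit 27968) (nat_lit 6) (nat_lit 368) (nat_lit 0) (nat_lit 212) (nat_lit 202) (nat_lit 186))))))))
noncomputable def pc27 : PT := (PT.nd (nat_lit 60996) (PT.nd (nat_lit 60216) (PT.nd (nat_lit 59826) (PT.nd (nat_lit 156) (PT.nd (nat_lit 78) (PT.lf (nat_lit 26828) (nat_lit 6) (nat_lit 353) (nat_lit 0) (nat_lit 213) (nat_lit 202) (nat_lit 185)) (PT.lf (nat_lit 25612) (nat_lit 6) (nat_lit 337) (nat_lit 0) (nat_lit 214) (nat_lit 202) (nat_lit 184))) (PT.nd (nat_lit 78) (PT.lf (nat_lit 24320) (nat_lit 6) (nat_lit 320) (nat_lit 0) (nat_lit 215) (nat_lit 202) (nat_lit 183)) (PT.nd (nat_lit 78) (PT.lf (nat_lit 23408) (nat_lit 6) (nat_lit 308) (nat_lit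 0) (nat_lit 216) (nat_lit 202) (nat_lit 182)) (PT.lf (nat_lit 22724) (nat_lit 6) (nat_lit 299) (nat_lit 0) (nat_lit 217) (nat_lit 202) (nat_lit 181))))) (PT.nd (nat_lit 156) (PT.nd (nat_lit 78) (PT.lf (nat_lit 21508) (nat_lit 6) (nat_lit 283) (nat_lit 5) (nat_lit 179) (nat_lit 203) (nat_lit 218)) (PT.lf (nat_lit 22116) (nat_lit 6) (nat_lit 291) (nat_lit 5) (nat_lit 180) (nat_lit 203) (nat_lit 217))) (PT.nd (nat_lit 78) (PT.lf (nat_lit 22800) (nat_lit 6) (nat_lit 300) (nat_lit 5) (nat_lit 181) (nat_lit 203) (nat_lit 216)) (PT.nd (nat_lit 78) (PT.lf (nat_lit 23484) (nat_lit 6) (nat_lit 309) (nat_lit 5) (nat_lit 182) (nat_lit 203) (nat_lit 215)) (PT.lf (nat_lit 24396) (nat_lit 6) (nat_lit 321) (nat_lit 5) (nat_lit 183) (nat_lit 203) (nat_lit 214)))))) (PT.nd (nat_lit 390) (PT.nd (nat_lit 156) (PT.nd (nat_lit 78) (PT.lf (nat_lit 25688) (nat_lit 6) (nat_lit 338) (nat_lit 5) (nat_lit 184) (nat_lit 203) (nat_lit 213))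 (PT.lf (nat_lit 26904) (nat_lit 6) (nat_lit 354) (nat_lit 5) (nat_lit 185) (nat_lit 203) (nat_lit 212))) (PT.nd (nat_lit 78) (PT.lf (nat_lit 28044) (nat_lit 6) (nat_lit 369) (nat_lit 5) (nat_lit 186) (nat_lit 203) (nat_lit 211)) (PT.nd (nat_lit 78) (PT.lf (nat_lit 29108) (nat_lit 6) (nat_lit 383) (nat_lit 5) (nat_lit 187) (nat_lit 203) (nat_lit 210)) (PT.lf (nat_lit 30096) (nat_lit 6) (nat_lit 396) (nat_lit 5) (nat_lit 188) (nat_lit 203) (nat_lit 209))))) (PT.nd (nat_lit 156) (PT.nd (nat_lit 78) (PT.lf (nat_lit 31008) (nat_lit 6) (nat_lit 408) (nat_lit 5) (nat_lit 189) (nat_lit 203) (nat_lit 208)) (PT.lf (nat_lit 31844) (nat_lit 6) (nat_lit 419) (nat_lit 5) (nat_lit 190) (nat_lit 203) (nat_lit 207))) (PT.nd (nat_lit 78) (PT.lf (nat_lit 32604) (nat_lit 6) (nat_lit 429) (nat_lit 5) (nat_lit 191) (nat_lit 203) (nat_lit 206)) (PT.nd (nat_lit 78) (PT.lf (nat_lit 33288) (nat_lit 6) (nat_lit 438) (nat_lit 5) (nat_lit 192)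 (nat_lit 203) (nat_lit 205)) (PT.lf (nat_lit 33896) (nat_lit 6) (nat_lit 446) (nat_lit 5) (nat_lit 193) (nat_lit 203) (nat_lit 204))))))) (PT.nd (nat_lit 780) (PT.nd (nat_lit 390) (PT.nd (nat_lit 156) (PT.nd (nat_lit 78) (PT.lf (nat_lit 34428) (nat_lit 3) (nat_lit 453) (nat_lit 4) (nat_lit 194) (nat_lit 203) (nat_lit 203)) (PT.lf (nat_lit 34808) (nat_lit 6) (nat_lit 458) (nat_lit 4) (nat_lit 195) (nat_lit 203) (nat_lit 202))) (PT.nd (nat_lit 78) (PT.lf (nat_lit 35112) (nat_lit 6) (nat_lit 462) (nat_lit 4) (nat_lit 196) (nat_lit 203) (nat_lit 201)) (PT.nd (nat_lit 78) (PT.lf (nat_lit 35340) (nat_lit 6) (nat_lit 465) (nat_lit 4) (nat_lit 197) (nat_lit 203) (nat_lit 200)) (PT.lf (nat_lit 35264) (nat_lit 6) (nat_lit 464) (nat_lit 4) (nat_lit 198) (nat_lit 203) (nat_lit 199))))) (PT.nd (nat_lit 156) (PT.nd (nat_lit 78) (PT.lf (nat_lit 35264) (nat_lit 6) (nat_lit 464) (nat_lit 2) (nat_lit 199) (nat_lit 203) (nat_lit 198))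 (PT.lf (nat_lit 35340) (nat_lit 6) (nat_lit 465) (nat_lit 2) (nat_lit 200) (nat_lit 203) (nat_lit 197))) (PT.nd (nat_lit 78) (PT.lf (nat_lit 35112) (nat_lit 6) (nat_lit 462) (nat_lit 2) (nat_lit 201) (nat_lit 203) (nat_lit 196)) (PT.nd (nat_lit 78) (PT.lf (nat_lit 34808) (nat_lit 6) (nat_lit 458) (nat_lit 2) (nat_lit 202) (nat_lit 203) (nat_lit 195)) (PT.lf (nat_lit 34428) (nat_lit 3) (nat_lit 453) (nat_lit 0) (nat_lit 203) (nat_lit 203) (nat_lit 194)))))) (PT.nd (nat_lit 390) (PT.nd (nat_lit 156) (PT.nd (nat_lit 78) (PT.lf (nat_lit 33896) (nat_lit 6) (nat_lit 446) (nat_lit 0) (nat_lit 204) (nat_lit 203) (nat_lit 193)) (PT.lf (nat_lit 33288) (nat_lit 6) (nat_lit 438) (nat_lit 0) (nat_lit 205) (nat_lit 203) (nat_lit 192))) (PT.nd (nat_lit 78) (PT.lf (nat_lit 32604) (nat_lit 6) (nat_lit 429) (nat_lit 0) (nat_lit 206) (nat_lit 203) (nat_lit 191)) (PT.nd (nat_lit 78) (PT.lf (nat_lit 31844) (nat_lit 6) (nat_lit 419)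 (nat_lit 0) (nat_lit 207) (nat_lit 203) (nat_lit 190)) (PT.lf (nat_lit 31008) (nat_lit 6) (nat_lit 408) (nat_lit 0) (nat_lit 208) (nat_lit 203) (nat_lit 189))))) (PT.nd (nat_lit 234) (PT.nd (nat_lit 78) (PT.lf (nat_lit 30096) (nat_lit 6) (nat_lit 396) (nat_lit 0) (nat_lit 209) (nat_lit 203) (nat_lit 188)) (PT.nd (nat_lit 78) (PT.lf (nat_lit 29108) (nat_lit 6) (nat_lit 383) (nat_lit 0) (nat_lit 210) (nat_lit 203) (nat_lit 187)) (PT.lf (nat_lit 28044) (nat_lit 6) (nat_lit 369) (nat_lit 0) (nat_lit 211) (nat_lit 203) (nat_lit 186)))) (PT.nd (nat_lit 78) (PT.lf (nat_lit 26904) (nat_lit 6) (nat_lit 354) (nat_lit 0) (nat_lit 212) (nat_lit 203) (nat_lit 185)) (PT.nd (nat_lit 78) (PT.lf (nat_lit 25688) (nat_lit 6) (nat_lit 338) (nat_lit 0) (nat_lit 213) (nat_lit 203) (nat_lit 184)) (PT.lf (nat_lit 24396) (nat_lit 6) (nat_lit 321) (nat_lit 0) (nat_lit 214) (nat_lit 203) (nat_lit 183))))))))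
noncomputable def pc28 : PT := (PT.nd (nat_lit 60840) (PT.nd (nat_lit 60060) (PT.nd (nat_lit 59670) (PT.nd (nat_lit 156) (PT.nd (nat_lit 78) (PT.lf (nat_lit 23484) (nat_lit 6) (nat_lit 309) (nat_lit 0) (nat_lit 215) (nat_lit 203) (nat_lit 182)) (PT.lf (nat_lit 22800) (nat_lit 6) (nat_lit 300) (nat_lit 0) (nat_lit 216) (nat_lit 203) (nat_lit 181))) (PT.nd (nat_lit 78) (PT.lf (nat_lit 22116) (nat_lit 6) (nat_lit 291) (nat_lit 0) (nat_lit 217) (nat_lit 203) (nat_lit 180)) (PT.nd (nat_lit 59358) (PT.lf (nat_lit 21508) (nat_lit 6) (nat_lit 283) (nat_lit 0) (nat_lit 218) (nat_lit 203) (nat_lit 179)) (PT.lf (nat_lit 20900) (nat_lit 6) (nat_lit 275) (nat_lit 5) (nat_lit 178) (nat_lit 204) (nat_lit 218))))) (PT.nd (nat_lit 156) (PT.nd (nat_lit 78) (PT.lf (nat_lit 21584) (nat_lit 6) (nat_lit 284) (nat_lit 5) (nat_lit 179) (nat_lit 204) (nat_lit 217)) (PT.lf (nat_lit 22192) (nat_lit 6) (nat_lit 292) (nat_lit 5) (nat_lit 180)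 (nat_lit 204) (nat_lit 216))) (PT.nd (nat_lit 78) (PT.lf (nat_lit 22876) (nat_lit 6) (nat_lit 301) (nat_lit 5) (nat_lit 181) (nat_lit 204) (nat_lit 215)) (PT.nd (nat_lit 78) (PT.lf (nat_lit 23560) (nat_lit 6) (nat_lit 310) (nat_lit 5) (nat_lit 182) (nat_lit 204) (nat_lit 214)) (PT.lf (nat_lit 24472) (nat_lit 6) (nat_lit 322) (nat_lit 5) (nat_lit 183) (nat_lit 204) (nat_lit 213)))))) (PT.nd (nat_lit 390) (PT.nd (nat_lit 156) (PT.nd (nat_lit 78) (PT.lf (nat_lit 25764) (nat_lit 6) (nat_lit 339) (nat_lit 5) (nat_lit 184) (nat_lit 204) (nat_lit 212)) (PT.lf (nat_lit 26980) (nat_lit 6) (nat_lit 355) (nat_lit 5) (nat_lit 185) (nat_lit 204) (nat_lit 211))) (PT.nd (nat_lit 78) (PT.lf (nat_lit 28120) (nat_lit 6) (nat_lit 370) (nat_lit 5) (nat_lit 186) (nat_lit 204) (nat_lit 210)) (PT.nd (nat_lit 78) (PT.lf (nat_lit 29184) (nat_lit 6) (nat_lit 384) (nat_lit 5) (nat_lit 187) (nat_lit 204) (nat_lit 209)) (PT.lf (nat_lit 30172)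 (nat_lit 6) (nat_lit 397) (nat_lit 5) (nat_lit 188) (nat_lit 204) (nat_lit 208))))) (PT.nd (nat_lit 156) (PT.nd (nat_lit 78) (PT.lf (nat_lit 31084) (nat_lit 6) (nat_lit 409) (nat_lit 5) (nat_lit 189) (nat_lit 204) (nat_lit 207)) (PT.lf (nat_lit 31920) (nat_lit 6) (nat_lit 420) (nat_lit 5) (nat_lit 190) (nat_lit 204) (nat_lit 206))) (PT.nd (nat_lit 78) (PT.lf (nat_lit 32680) (nat_lit 6) (nat_lit 430) (nat_lit 5) (nat_lit 191) (nat_lit 204) (nat_lit 205)) (PT.nd (nat_lit 78) (PT.lf (nat_lit 33364) (nat_lit 3) (nat_lit 439) (nat_lit 4) (nat_lit 192) (nat_lit 204) (nat_lit 204)) (PT.lf (nat_lit 33896) (nat_lit 6) (nat_lit 446) (nat_lit 4) (nat_lit 193) (nat_lit 204) (nat_lit 203))))))) (PT.nd (nat_lit 780) (PT.nd (nat_lit 390) (PT.nd (nat_lit 156) (PT.nd (nat_lit 78) (PT.lf (nat_lit 34352) (nat_lit 6) (nat_lit 452) (nat_lit 4) (nat_lit 194) (nat_lit 204) (nat_lit 202)) (PT.lf (nat_lit 34732) (nat_lit 6) (nat_lit 457)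 (nat_lit 4) (nat_lit 195) (nat_lit 204) (nat_lit 201))) (PT.nd (nat_lit 78) (PT.lf (nat_lit 35036) (nat_lit 6) (nat_lit 461) (nat_lit 4) (nat_lit 196) (nat_lit 204) (nat_lit 200)) (PT.nd (nat_lit 78) (PT.lf (nat_lit 34960) (nat_lit 6) (nat_lit 460) (nat_lit 4) (nat_lit 197) (nat_lit 204) (nat_lit 199)) (PT.lf (nat_lit 34884) (nat_lit 3) (nat_lit 459) (nat_lit 2) (nat_lit 198) (nat_lit 204) (nat_lit 198))))) (PT.nd (nat_lit 156) (PT.nd (nat_lit 78) (PT.lf (nat_lit 34960) (nat_lit 6) (nat_lit 460) (nat_lit 2) (nat_lit 199) (nat_lit 204) (nat_lit 197)) (PT.lf (nat_lit 35036) (nat_lit 6) (nat_lit 461) (nat_lit 2) (nat_lit 200) (nat_lit 204) (nat_lit 196))) (PT.nd (nat_lit 78) (PT.lf (nat_lit 34732) (nat_lit 6) (nat_lit 457) (nat_lit 2) (nat_lit 201) (nat_lit 204) (nat_lit 195)) (PT.nd (nat_lit 78) (PT.lf (nat_lit 34352) (nat_lit 6) (nat_lit 452) (nat_lit 2) (nat_lit 202) (nat_lit 204) (nat_lit 194)) (PT.lf (nat_lit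 33896) (nat_lit 6) (nat_lit 446) (nat_lit 2) (nat_lit 203) (nat_lit 204) (nat_lit 193)))))) (PT.nd (nat_lit 390) (PT.nd (nat_lit 156) (PT.nd (nat_lit 78) (PT.lf (nat_lit 33364) (nat_lit 3) (nat_lit 439) (nat_lit 0) (nat_lit 204) (nat_lit 204) (nat_lit 192)) (PT.lf (nat_lit 32680) (nat_lit 6) (nat_lit 430) (nat_lit 0) (nat_lit 205) (nat_lit 204) (nat_lit 191))) (PT.nd (nat_lit 78) (PT.lf (nat_lit 31920) (nat_lit 6) (nat_lit 420) (nat_lit 0) (nat_lit 206) (nat_lit 204) (nat_lit 190)) (PT.nd (nat_lit 78) (PT.lf (nat_lit 31084) (nat_lit 6) (nat_lit 409) (nat_lit 0) (nat_lit 207) (nat_lit 204) (nat_lit 189)) (PT.lf (nat_lit 30172) (nat_lit 6) (nat_lit 397) (nat_lit 0) (nat_lit 208) (nat_lit 204) (nat_lit 188))))) (PT.nd (nat_lit 156) (PT.nd (nat_lit 78) (PT.lf (nat_lit 29184) (nat_lit 6) (nat_lit 384) (nat_lit 0) (nat_lit 209) (nat_lit 204) (nat_lit 187)) (PT.lf (nat_lit 28120) (nat_lit 6) (nat_lit 370) (nat_lit 0) (nat_lit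 210) (nat_lit 204) (nat_lit 186))) (PT.nd (nat_lit 78) (PT.lf (nat_lit 26980) (nat_lit 6) (nat_lit 355) (nat_lit 0) (nat_lit 211) (nat_lit 204) (nat_lit 185)) (PT.nd (nat_lit 78) (PT.lf (nat_lit 25764) (nat_lit 6) (nat_lit 339) (nat_lit 0) (nat_lit 212) (nat_lit 204) (nat_lit 184)) (PT.lf (nat_lit 24472) (nat_lit 6) (nat_lit 322) (nat_lit 0) (nat_lit 213) (nat_lit 204) (nat_lit 183))))))))
noncomputable def pc29 : PT := (PT.nd (nat_lit 60762) (PT.nd (nat_lit 59982) (PT.nd (nat_lit 59592) (PT.nd (nat_lit 156) (PT.nd (nat_lit 78) (PT.lf (nat_lit 23560) (nat_lit 6) (nat_lit 310) (nat_lit 0) (nat_lit 214) (nat_lit 204) (nat_lit 182)) (PT.lf (nat_lit 22876) (nat_lit 6) (nat_lit 301) (nat_lit 0) (nat_lit 215) (nat_lit 204) (nat_lit 181))) (PT.nd (nat_lit 78) (PT.lf (nat_lit 22192) (nat_lit 6) (nat_lit 292) (nat_lit 0) (nat_lit 216) (nat_lit 204) (nat_lit 180)) (PT.nd (nat_lit 78) (PT.lf (nat_lit 21584) (nat_lit 6) (nat_lit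 284) (nat_lit 0) (nat_lit 217) (nat_lit 204) (nat_lit 179)) (PT.lf (nat_lit 20900) (nat_lit 6) (nat_lit 275) (nat_lit 0) (nat_lit 218) (nat_lit 204) (nat_lit 178))))) (PT.nd (nat_lit 156) (PT.nd (nat_lit 78) (PT.lf (nat_lit 20368) (nat_lit 6) (nat_lit 268) (nat_lit 5) (nat_lit 177) (nat_lit 205) (nat_lit 218)) (PT.lf (nat_lit 20976) (nat_lit 6) (nat_lit 276) (nat_lit 5) (nat_lit 178) (nat_lit 205) (nat_lit 217))) (PT.nd (nat_lit 78) (PT.lf (nat_lit 21660) (nat_lit 6) (nat_lit 285) (nat_lit 5) (nat_lit 179) (nat_lit 205) (nat_lit 216)) (PT.nd (nat_lit 78) (PT.lf (nat_lit 22268) (nat_lit 6) (nat_lit 293) (nat_lit 5) (nat_lit 180) (nat_lit 205) (nat_lit 215)) (PT.lf (nat_lit 22952) (nat_lit 6) (nat_lit 302) (nat_lit 5) (nat_lit 181) (nat_lit 205) (nat_lit 214)))))) (PT.nd (nat_lit 390) (PT.nd (nat_lit 156) (PT.nd (nat_lit 78) (PT.lf (nat_lit 23636) (nat_lit 6) (nat_lit 311) (nat_lit 5) (nat_lit 182) (nat_lit 205) (nat_lit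 213)) (PT.lf (nat_lit 24548) (nat_lit 6) (nat_lit 323) (nat_lit 5) (nat_lit 183) (nat_lit 205) (nat_lit 212))) (PT.nd (nat_lit 78) (PT.lf (nat_lit 25840) (nat_lit 6) (nat_lit 340) (nat_lit 5) (nat_lit 184) (nat_lit 205) (nat_lit 211)) (PT.nd (nat_lit 78) (PT.lf (nat_lit 27056) (nat_lit 6) (nat_lit 356) (nat_lit 5) (nat_lit 185) (nat_lit 205) (nat_lit 210)) (PT.lf (nat_lit 28196) (nat_lit 6) (nat_lit 371) (nat_lit 5) (nat_lit 186) (nat_lit 205) (nat_lit 209))))) (PT.nd (nat_lit 156) (PT.nd (nat_lit 78) (PT.lf (nat_lit 29260) (nat_lit 6) (nat_lit 385) (nat_lit 5) (nat_lit 187) (nat_lit 205) (nat_lit 208)) (PT.lf (nat_lit 30248) (nat_lit 6) (nat_lit 398) (nat_lit 5) (nat_lit 188) (nat_lit 205) (nat_lit 207))) (PT.nd (nat_lit 78) (PT.lf (nat_lit 31160) (nat_lit 6) (nat_lit 410) (nat_lit 5) (nat_lit 189) (nat_lit 205) (nat_lit 206)) (PT.nd (nat_lit 78) (PT.lf (nat_lit 31996) (nat_lit 3) (nat_lit 421) (nat_lit 4) (nat_lit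 190) (nat_lit 205) (nat_lit 205)) (PT.lf (nat_lit 32680) (nat_lit 6) (nat_lit 430) (nat_lit 4) (nat_lit 191) (nat_lit 205) (nat_lit 204))))))) (PT.nd (nat_lit 780) (PT.nd (nat_lit 390) (PT.nd (nat_lit 156) (PT.nd (nat_lit 78) (PT.lf (nat_lit 33288) (nat_lit 6) (nat_lit 438) (nat_lit 4) (nat_lit 192) (nat_lit 205) (nat_lit 203)) (PT.lf (nat_lit 33820) (nat_lit 6) (nat_lit 445) (nat_lit 4) (nat_lit 193) (nat_lit 205) (nat_lit 202))) (PT.nd (nat_lit 78) (PT.lf (nat_lit 34276) (nat_lit 6) (nat_lit 451) (nat_lit 4) (nat_lit 194) (nat_lit 205) (nat_lit 201)) (PT.nd (nat_lit 78) (PT.lf (nat_lit 34656) (nat_lit 6) (nat_lit 456) (nat_lit 4) (nat_lit 195) (nat_lit 205) (nat_lit 200)) (PT.lf (nat_lit 34580) (nat_lit 6) (nat_lit 455) (nat_lit 4) (nat_lit 196) (nat_lit 205) (nat_lit 199))))) (PT.nd (nat_lit 156) (PT.nd (nat_lit 78) (PT.lf (nat_lit 34504) (nat_lit 6) (nat_lit 454) (nat_lit 4) (nat_lit 197) (nat_lit 205) (nat_lit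 198)) (PT.lf (nat_lit 34504) (nat_lit 6) (nat_lit 454) (nat_lit 2) (nat_lit 198) (nat_lit 205) (nat_lit 197))) (PT.nd (nat_lit 78) (PT.lf (nat_lit 34580) (nat_lit 6) (nat_lit 455) (nat_lit 2) (nat_lit 199) (nat_lit 205) (nat_lit 196)) (PT.nd (nat_lit 78) (PT.lf (nat_lit 34656) (nat_lit 6) (nat_lit 456) (nat_lit 2) (nat_lit 200) (nat_lit 205) (nat_lit 195)) (PT.lf (nat_lit 34276) (nat_lit 6) (nat_lit 451) (nat_lit 2) (nat_lit 201) (nat_lit 205) (nat_lit 194)))))) (PT.nd (nat_lit 390) (PT.nd (nat_lit 156) (PT.nd (nat_lit 78) (PT.lf (nat_lit 33820) (nat_lit 6) (nat_lit 445) (nat_lit 2) (nat_lit 202) (nat_lit 205) (nat_lit 193)) (PT.lf (nat_lit 33288) (nat_lit 6) (nat_lit 438) (nat_lit 2) (nat_lit 203) (nat_lit 205) (nat_lit 192))) (PT.nd (nat_lit 78) (PT.lf (nat_lit 32680) (nat_lit 6) (nat_lit 430) (nat_lit 2) (nat_lit 204) (nat_lit 205) (nat_lit 191)) (PT.nd (nat_lit 78) (PT.lf (nat_lit 31996) (nat_lit 3) (nat_lit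 421) (nat_lit 0) (nat_lit 205) (nat_lit 205) (nat_lit 190)) (PT.lf (nat_lit 31160) (nat_lit 6) (nat_lit 410) (nat_lit 0) (nat_lit 206) (nat_lit 205) (nat_lit 189))))) (PT.nd (nat_lit 234) (PT.nd (nat_lit 78) (PT.lf (nat_lit 30248) (nat_lit 6) (nat_lit 398) (nat_lit 0) (nat_lit 207) (nat_lit 205) (nat_lit 188)) (PT.nd (nat_lit 78) (PT.lf (nat_lit 29260) (nat_lit 6) (nat_lit 385) (nat_lit 0) (nat_lit 208) (nat_lit 205) (nat_lit 187)) (PT.lf (nat_lit 28196) (nat_lit 6) (nat_lit 371) (nat_lit 0) (nat_lit 209) (nat_lit 205) (nat_lit 186)))) (PT.nd (nat_lit 78) (PT.lf (nat_lit 27056) (nat_lit 6) (nat_lit 356) (nat_lit 0) (nat_lit 210) (nat_lit 205) (nat_lit 185)) (PT.nd (nat_lit 78) (PT.lf (nat_lit 25840) (nat_lit 6) (nat_lit 340) (nat_lit 0) (nat_lit 211) (nat_lit 205) (nat_lit 184)) (PT.lf (nat_lit 24548) (nat_lit 6) (nat_lit 323) (nat_lit 0) (nat_lit 212) (nat_lit 205) (nat_lit 183))))))))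
noncomputable def pc30 : PT := (PT.nd (nat_lit 60684) (PT.nd (nat_lit 59904) (PT.nd (nat_lit 390) (PT.nd (nat_lit 156) (PT.nd (nat_lit 78) (PT.lf (nat_lit 23636) (nat_lit 6) (nat_lit 311) (nat_lit 0) (nat_lit 213) (nat_lit 205) (nat_lit 182)) (PT.lf (nat_lit 22952) (nat_lit 6) (nat_lit 302) (nat_lit 0) (nat_lit 214) (nat_lit 205) (nat_lit 181))) (PT.nd (nat_lit 78) (PT.lf (nat_lit 22268) (nat_lit 6) (nat_lit 293) (nat_lit 0) (nat_lit 215) (nat_lit 205) (nat_lit 180)) (PT.nd (nat_lit 78) (PT.lf (nat_lit 21660) (nat_lit 6) (nat_lit 285) (nat_lit 0) (nat_lit 216) (nat_lit 205) (nat_lit 179)) (PT.lf (nat_lit 20976) (nat_lit 6) (nat_lit 276) (nat_lit 0) (nat_lit 217) (nat_lit 205) (nat_lit 178))))) (PT.nd (nat_lit 59280) (PT.nd (nat_lit 59202) (PT.lf (nat_lit 20368) (nat_lit 6) (nat_lit 268) (nat_lit 0) (nat_lit 218) (nat_lit 205) (nat_lit 177)) (PT.lf (nat_lit 19836) (nat_lit 6) (nat_lit 261) (nat_lit 5) (nat_lit 176)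 (nat_lit 206) (nat_lit 218))) (PT.nd (nat_lit 78) (PT.lf (nat_lit 20444) (nat_lit 6) (nat_lit 269) (nat_lit 5) (nat_lit 177) (nat_lit 206) (nat_lit 217)) (PT.nd (nat_lit 78) (PT.lf (nat_lit 21052) (nat_lit 6) (nat_lit 277) (nat_lit 5) (nat_lit 178) (nat_lit 206) (nat_lit 216)) (PT.lf (nat_lit 21736) (nat_lit 6) (nat_lit 286) (nat_lit 5) (nat_lit 179) (nat_lit 206) (nat_lit 215)))))) (PT.nd (nat_lit 390) (PT.nd (nat_lit 156) (PT.nd (nat_lit 78) (PT.lf (nat_lit 22344) (nat_lit 6) (nat_lit 294) (nat_lit 5) (nat_lit 180) (nat_lit 206) (nat_lit 214)) (PT.lf (nat_lit 23028) (nat_lit 6) (nat_lit 303) (nat_lit 5) (nat_lit 181) (nat_lit 206) (nat_lit 213))) (PT.nd (nat_lit 78) (PT.lf (nat_lit 23712) (nat_lit 6) (nat_lit 312) (nat_lit 5) (nat_lit 182) (nat_lit 206) (nat_lit 212)) (PT.nd (nat_lit 78) (PT.lf (nat_lit 24624) (nat_lit 6) (nat_lit 324) (nat_lit 5) (nat_lit 183) (nat_lit 206) (nat_lit 211)) (PT.lf (nat_lit 25916)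 (nat_lit 6) (nat_lit 341) (nat_lit 5) (nat_lit 184) (nat_lit 206) (nat_lit 210))))) (PT.nd (nat_lit 156) (PT.nd (nat_lit 78) (PT.lf (nat_lit 27132) (nat_lit 6) (nat_lit 357) (nat_lit 5) (nat_lit 185) (nat_lit 206) (nat_lit 209)) (PT.lf (nat_lit 28272) (nat_lit 6) (nat_lit 372) (nat_lit 5) (nat_lit 186) (nat_lit 206) (nat_lit 208))) (PT.nd (nat_lit 78) (PT.lf (nat_lit 29336) (nat_lit 6) (nat_lit 386) (nat_lit 5) (nat_lit 187) (nat_lit 206) (nat_lit 207)) (PT.nd (nat_lit 78) (PT.lf (nat_lit 30324) (nat_lit 3) (nat_lit 399) (nat_lit 4) (nat_lit 188) (nat_lit 206) (nat_lit 206)) (PT.lf (nat_lit 31160) (nat_lit 6) (nat_lit 410) (nat_lit 4) (nat_lit 189) (nat_lit 206) (nat_lit 205))))))) (PT.nd (nat_lit 780) (PT.nd (nat_lit 390) (PT.nd (nat_lit 156) (PT.nd (nat_lit 78) (PT.lf (nat_lit 31920) (nat_lit 6) (nat_lit 420) (nat_lit 4) (nat_lit 190) (nat_lit 206) (nat_lit 204)) (PT.lf (nat_lit 32604) (nat_lit 6) (nat_lit 429)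 (nat_lit 4) (nat_lit 191) (nat_lit 206) (nat_lit 203))) (PT.nd (nat_lit 78) (PT.lf (nat_lit 33212) (nat_lit 6) (nat_lit 437) (nat_lit 4) (nat_lit 192) (nat_lit 206) (nat_lit 202)) (PT.nd (nat_lit 78) (PT.lf (nat_lit 33744) (nat_lit 6) (nat_lit 444) (nat_lit 4) (nat_lit 193) (nat_lit 206) (nat_lit 201)) (PT.lf (nat_lit 34200) (nat_lit 6) (nat_lit 450) (nat_lit 4) (nat_lit 194) (nat_lit 206) (nat_lit 200))))) (PT.nd (nat_lit 156) (PT.nd (nat_lit 78) (PT.lf (nat_lit 34124) (nat_lit 6) (nat_lit 449) (nat_lit 4) (nat_lit 195) (nat_lit 206) (nat_lit 199)) (PT.lf (nat_lit 34048) (nat_lit 6) (nat_lit 448) (nat_lit 4) (nat_lit 196) (nat_lit 206) (nat_lit 198))) (PT.nd (nat_lit 78) (PT.lf (nat_lit 33972) (nat_lit 3) (nat_lit 447) (nat_lit 2) (nat_lit 197) (nat_lit 206) (nat_lit 197)) (PT.nd (nat_lit 78) (PT.lf (nat_lit 34048) (nat_lit 6) (nat_lit 448) (nat_lit 2) (nat_lit 198) (nat_lit 206) (nat_lit 196)) (PT.lf (nat_lit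 34124) (nat_lit 6) (nat_lit 449) (nat_lit 2) (nat_lit 199) (nat_lit 206) (nat_lit 195)))))) (PT.nd (nat_lit 390) (PT.nd (nat_lit 156) (PT.nd (nat_lit 78) (PT.lf (nat_lit 34200) (nat_lit 6) (nat_lit 450) (nat_lit 2) (nat_lit 200) (nat_lit 206) (nat_lit 194)) (PT.lf (nat_lit 33744) (nat_lit 6) (nat_lit 444) (nat_lit 2) (nat_lit 201) (nat_lit 206) (nat_lit 193))) (PT.nd (nat_lit 78) (PT.lf (nat_lit 33212) (nat_lit 6) (nat_lit 437) (nat_lit 2) (nat_lit 202) (nat_lit 206) (nat_lit 192)) (PT.nd (nat_lit 78) (PT.lf (nat_lit 32604) (nat_lit 6) (nat_lit 429) (nat_lit 2) (nat_lit 203) (nat_lit 206) (nat_lit 191)) (PT.lf (nat_lit 31920) (nat_lit 6) (nat_lit 420) (nat_lit 2) (nat_lit 204) (nat_lit 206) (nat_lit 190))))) (PT.nd (nat_lit 156) (PT.nd (nat_lit 78) (PT.lf (nat_lit 31160) (nat_lit 6) (nat_lit 410) (nat_lit 2) (nat_lit 205) (nat_lit 206) (nat_lit 189)) (PT.lf (nat_lit 30324) (nat_lit 3) (nat_lit 399) (nat_lit 0) (nat_lit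 206) (nat_lit 206) (nat_lit 188))) (PT.nd (nat_lit 78) (PT.lf (nat_lit 29336) (nat_lit 6) (nat_lit 386) (nat_lit 0) (nat_lit 207) (nat_lit 206) (nat_lit 187)) (PT.nd (nat_lit 78) (PT.lf (nat_lit 28272) (nat_lit 6) (nat_lit 372) (nat_lit 0) (nat_lit 208) (nat_lit 206) (nat_lit 186)) (PT.lf (nat_lit 27132) (nat_lit 6) (nat_lit 357) (nat_lit 0) (nat_lit 209) (nat_lit 206) (nat_lit 185))))))))
noncomputable def pc31 : PT := (PT.nd (nat_lit 60528) (PT.nd (nat_lit 59748) (PT.nd (nat_lit 390) (PT.nd (nat_lit 156) (PT.nd (nat_lit 78) (PT.lf (nat_lit 25916) (nat_lit 6) (nat_lit 341) (nat_lit 0) (nat_lit 210) (nat_lit 206) (nat_lit 184)) (PT.lf (nat_lit 24624) (nat_lit 6) (nat_lit 324) (nat_lit 0) (nat_lit 211) (nat_lit 206) (nat_lit 183))) (PT.nd (nat_lit 78) (PT.lf (nat_lit 23712) (nat_lit 6) (nat_lit 312) (nat_lit 0) (nat_lit 212) (nat_lit 206) (nat_lit 182)) (PT.nd (nat_lit 78) (PT.lf (nat_lit 23028) (nat_lit 6) (nat_lit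 303) (nat_lit 0) (nat_lit 213) (nat_lit 206) (nat_lit 181)) (PT.lf (nat_lit 22344) (nat_lit 6) (nat_lit 294) (nat_lit 0) (nat_lit 214) (nat_lit 206) (nat_lit 180))))) (PT.nd (nat_lit 156) (PT.nd (nat_lit 78) (PT.lf (nat_lit 21736) (nat_lit 6) (nat_lit 286) (nat_lit 0) (nat_lit 215) (nat_lit 206) (nat_lit 179)) (PT.lf (nat_lit 21052) (nat_lit 6) (nat_lit 277) (nat_lit 0) (nat_lit 216) (nat_lit 206) (nat_lit 178))) (PT.nd (nat_lit 78) (PT.lf (nat_lit 20444) (nat_lit 6) (nat_lit 269) (nat_lit 0) (nat_lit 217) (nat_lit 206) (nat_lit 177)) (PT.nd (nat_lit 59046) (PT.lf (nat_lit 19836) (nat_lit 6) (nat_lit 261) (nat_lit 0) (nat_lit 218) (nat_lit 206) (nat_lit 176)) (PT.lf (nat_lit 18848) (nat_lit 6) (nat_lit 248) (nat_lit 5) (nat_lit 174) (nat_lit 207) (nat_lit 219)))))) (PT.nd (nat_lit 390) (PT.nd (nat_lit 156) (PT.nd (nat_lit 78) (PT.lf (nat_lit 19380) (nat_lit 6) (nat_lit 255) (nat_lit 5) (nat_lit 175) (nat_lit 207)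 (nat_lit 218)) (PT.lf (nat_lit 19912) (nat_lit 6) (nat_lit 262) (nat_lit 5) (nat_lit 176) (nat_lit 207) (nat_lit 217))) (PT.nd (nat_lit 78) (PT.lf (nat_lit 20520) (nat_lit 6) (nat_lit 270) (nat_lit 5) (nat_lit 177) (nat_lit 207) (nat_lit 216)) (PT.nd (nat_lit 78) (PT.lf (nat_lit 21128) (nat_lit 6) (nat_lit 278) (nat_lit 5) (nat_lit 178) (nat_lit 207) (nat_lit 215)) (PT.lf (nat_lit 21812) (nat_lit 6) (nat_lit 287) (nat_lit 5) (nat_lit 179) (nat_lit 207) (nat_lit 214))))) (PT.nd (nat_lit 156) (PT.nd (nat_lit 78) (PT.lf (nat_lit 22420) (nat_lit 6) (nat_lit 295) (nat_lit 5) (nat_lit 180) (nat_lit 207) (nat_lit 213)) (PT.lf (nat_lit 23104) (nat_lit 6) (nat_lit 304) (nat_lit 5) (nat_lit 181) (nat_lit 207) (nat_lit 212))) (PT.nd (nat_lit 78) (PT.lf (nat_lit 23788) (nat_lit 6) (nat_lit 313) (nat_lit 5) (nat_lit 182) (nat_lit 207) (nat_lit 211)) (PT.nd (nat_lit 78) (PT.lf (nat_lit 24700) (nat_lit 6) (nat_lit 325) (nat_lit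 5) (nat_lit 183) (nat_lit 207) (nat_lit 210)) (PT.lf (nat_lit 25992) (nat_lit 6) (nat_lit 342) (nat_lit 5) (nat_lit 184) (nat_lit 207) (nat_lit 209))))))) (PT.nd (nat_lit 780) (PT.nd (nat_lit 390) (PT.nd (nat_lit 156) (PT.nd (nat_lit 78) (PT.lf (nat_lit 27208) (nat_lit 6) (nat_lit 358) (nat_lit 5) (nat_lit 185) (nat_lit 207) (nat_lit 208)) (PT.lf (nat_lit 28348) (nat_lit 3) (nat_lit 373) (nat_lit 4) (nat_lit 186) (nat_lit 207) (nat_lit 207))) (PT.nd (nat_lit 78) (PT.lf (nat_lit 29336) (nat_lit 6) (nat_lit 386) (nat_lit 4) (nat_lit 187) (nat_lit 207) (nat_lit 206)) (PT.nd (nat_lit 78) (PT.lf (nat_lit 30248) (nat_lit 6) (nat_lit 398) (nat_lit 4) (nat_lit 188) (nat_lit 207) (nat_lit 205)) (PT.lf (nat_lit 31084) (nat_lit 6) (nat_lit 409) (nat_lit 4) (nat_lit 189) (nat_lit 207) (nat_lit 204))))) (PT.nd (nat_lit 156) (PT.nd (nat_lit 78) (PT.lf (nat_lit 31844) (nat_lit 6) (nat_lit 419) (nat_lit 4) (nat_lit 190) (nat_lit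 207) (nat_lit 203)) (PT.lf (nat_lit 32528) (nat_lit 6) (nat_lit 428) (nat_lit 4) (nat_lit 191) (nat_lit 207) (nat_lit 202))) (PT.nd (nat_lit 78) (PT.lf (nat_lit 33136) (nat_lit 6) (nat_lit 436) (nat_lit 4) (nat_lit 192) (nat_lit 207) (nat_lit 201)) (PT.nd (nat_lit 78) (PT.lf (nat_lit 33668) (nat_lit 6) (nat_lit 443) (nat_lit 4) (nat_lit 193) (nat_lit 207) (nat_lit 200)) (PT.lf (nat_lit 33592) (nat_lit 6) (nat_lit 442) (nat_lit 4) (nat_lit 194) (nat_lit 207) (nat_lit 199)))))) (PT.nd (nat_lit 390) (PT.nd (nat_lit 156) (PT.nd (nat_lit 78) (PT.lf (nat_lit 33516) (nat_lit 6) (nat_lit 441) (nat_lit 4) (nat_lit 195) (nat_lit 207) (nat_lit 198)) (PT.lf (nat_lit 33440) (nat_lit 6) (nat_lit 440) (nat_lit 4) (nat_lit 196) (nat_lit 207) (nat_lit 197))) (PT.nd (nat_lit 78) (PT.lf (nat_lit 33440) (nat_lit 6) (nat_lit 440) (nat_lit 2) (nat_lit 197) (nat_lit 207) (nat_lit 196)) (PT.nd (nat_lit 78) (PT.lf (nat_lit 33516) (nat_lit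 6) (nat_lit 441) (nat_lit 2) (nat_lit 198) (nat_lit 207) (nat_lit 195)) (PT.lf (nat_lit 33592) (nat_lit 6) (nat_lit 442) (nat_lit 2) (nat_lit 199) (nat_lit 207) (nat_lit 194))))) (PT.nd (nat_lit 234) (PT.nd (nat_lit 78) (PT.lf (nat_lit 33668) (nat_lit 6) (nat_lit 443) (nat_lit 2) (nat_lit 200) (nat_lit 207) (nat_lit 193)) (PT.nd (nat_lit 78) (PT.lf (nat_lit 33136) (nat_lit 6) (nat_lit 436) (nat_lit 2) (nat_lit 201) (nat_lit 207) (nat_lit 192)) (PT.lf (nat_lit 32528) (nat_lit 6) (nat_lit 428) (nat_lit 2) (nat_lit 202) (nat_lit 207) (nat_lit 191)))) (PT.nd (nat_lit 78) (PT.lf (nat_lit 31844) (nat_lit 6) (nat_lit 419) (nat_lit 2) (nat_lit 203) (nat_lit 207) (nat_lit 190)) (PT.nd (nat_lit 78) (PT.lf (nat_lit 31084) (nat_lit 6) (nat_lit 409) (nat_lit 2) (nat_lit 204) (nat_lit 207) (nat_lit 189)) (PT.lf (nat_lit 30248) (nat_lit 6) (nat_lit 398) (nat_lit 2) (nat_lit 205) (nat_lit 207) (nat_lit 188))))))))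
noncomputable def pc32 : PT := (PT.nd (nat_lit 60372) (PT.nd (nat_lit 780) (PT.nd (nat_lit 390) (PT.nd (nat_lit 156) (PT.nd (nat_lit 78) (PT.lf (nat_lit 29336) (nat_lit 6) (nat_lit 386) (nat_lit 2) (nat_lit 206) (nat_lit 207) (nat_lit 187)) (PT.lf (nat_lit 28348) (nat_lit 3) (nat_lit 373) (nat_lit 0) (nat_lit 207) (nat_lit 207) (nat_lit 186))) (PT.nd (nat_lit 78) (PT.lf (nat_lit 27208) (nat_lit 6) (nat_lit 358) (nat_lit 0) (nat_lit 208) (nat_lit 207) (nat_lit 185)) (PT.nd (nat_lit 78) (PT.lf (nat_lit 25992) (nat_lit 6) (nat_lit 342) (nat_lit 0) (nat_lit 209) (nat_lit 207) (nat_lit 184)) (PT.lf (nat_lit 24700) (nat_lit 6) (nat_lit 325) (nat_lit 0) (nat_lit 210) (nat_lit 207) (nat_lit 183))))) (PT.nd (nat_lit 156) (PT.nd (nat_lit 78) (PT.lf (nat_lit 23788) (nat_lit 6) (nat_lit 313) (nat_lit 0) (nat_lit 211) (nat_lit 207) (nat_lit 182)) (PT.lf (nat_lit 23104) (nat_lit 6) (nat_lit 304) (nat_lit 0) (nat_lit 212) (nat_lit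 207) (nat_lit 181))) (PT.nd (nat_lit 78) (PT.lf (nat_lit 22420) (nat_lit 6) (nat_lit 295) (nat_lit 0) (nat_lit 213) (nat_lit 207) (nat_lit 180)) (PT.nd (nat_lit 78) (PT.lf (nat_lit 21812) (nat_lit 6) (nat_lit 287) (nat_lit 0) (nat_lit 214) (nat_lit 207) (nat_lit 179)) (PT.lf (nat_lit 21128) (nat_lit 6) (nat_lit 278) (nat_lit 0) (nat_lit 215) (nat_lit 207) (nat_lit 178)))))) (PT.nd (nat_lit 59202) (PT.nd (nat_lit 156) (PT.nd (nat_lit 78) (PT.lf (nat_lit 20520) (nat_lit 6) (nat_lit 270) (nat_lit 0) (nat_lit 216) (nat_lit 207) (nat_lit 177)) (PT.lf (nat_lit 19912) (nat_lit 6) (nat_lit 262) (nat_lit 0) (nat_lit 217) (nat_lit 207) (nat_lit 176))) (PT.nd (nat_lit 78) (PT.lf (nat_lit 19380) (nat_lit 6) (nat_lit 255) (nat_lit 0) (nat_lit 218) (nat_lit 207) (nat_lit 175)) (PT.nd (nat_lit 58890) (PT.lf (nat_lit 18848) (nat_lit 6) (nat_lit 248) (nat_lit 0) (nat_lit 219) (nat_lit 207) (nat_lit 174)) (PT.lf (nat_lit 18392) (nat_lit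 6) (nat_lit 242) (nat_lit 5) (nat_lit 173) (nat_lit 208) (nat_lit 219))))) (PT.nd (nat_lit 156) (PT.nd (nat_lit 78) (PT.lf (nat_lit 18924) (nat_lit 6) (nat_lit 249) (nat_lit 5) (nat_lit 174) (nat_lit 208) (nat_lit 218)) (PT.lf (nat_lit 19456) (nat_lit 6) (nat_lit 256) (nat_lit 5) (nat_lit 175) (nat_lit 208) (nat_lit 217))) (PT.nd (nat_lit 78) (PT.lf (nat_lit 19988) (nat_lit 6) (nat_lit 263) (nat_lit 5) (nat_lit 176) (nat_lit 208) (nat_lit 216)) (PT.nd (nat_lit 78) (PT.lf (nat_lit 20596) (nat_lit 6) (nat_lit 271) (nat_lit 5) (nat_lit 177) (nat_lit 208) (nat_lit 215)) (PT.lf (nat_lit 21204) (nat_lit 6) (nat_lit 279) (nat_lit 5) (nat_lit 178) (nat_lit 208) (nat_lit 214))))))) (PT.nd (nat_lit 780) (PT.nd (nat_lit 390) (PT.nd (nat_lit 156) (PT.nd (nat_lit 78) (PT.lf (nat_lit 21888) (nat_lit 6) (nat_lit 288) (nat_lit 5) (nat_lit 179) (nat_lit 208) (nat_lit 213)) (PT.lf (nat_lit 22496) (nat_lit 6) (nat_lit 296) (nat_lit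 5) (nat_lit 180) (nat_lit 208) (nat_lit 212))) (PT.nd (nat_lit 78) (PT.lf (nat_lit 23180) (nat_lit 6) (nat_lit 305) (nat_lit 5) (nat_lit 181) (nat_lit 208) (nat_lit 211)) (PT.nd (nat_lit 78) (PT.lf (nat_lit 23864) (nat_lit 6) (nat_lit 314) (nat_lit 5) (nat_lit 182) (nat_lit 208) (nat_lit 210)) (PT.lf (nat_lit 24776) (nat_lit 6) (nat_lit 326) (nat_lit 5) (nat_lit 183) (nat_lit 208) (nat_lit 209))))) (PT.nd (nat_lit 156) (PT.nd (nat_lit 78) (PT.lf (nat_lit 26068) (nat_lit 3) (nat_lit 343) (nat_lit 4) (nat_lit 184) (nat_lit 208) (nat_lit 208)) (PT.lf (nat_lit 27208) (nat_lit 6) (nat_lit 358) (nat_lit 4) (nat_lit 185) (nat_lit 208) (nat_lit 207))) (PT.nd (nat_lit 78) (PT.lf (nat_lit 28272) (nat_lit 6) (nat_lit 372) (nat_lit 4) (nat_lit 186) (nat_lit 208) (nat_lit 206)) (PT.nd (nat_lit 78) (PT.lf (nat_lit 29260) (nat_lit 6) (nat_lit 385) (nat_lit 4) (nat_lit 187) (nat_lit 208) (nat_lit 205)) (PT.lf (nat_lit 30172) (nat_lit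 6) (nat_lit 397) (nat_lit 4) (nat_lit 188) (nat_lit 208) (nat_lit 204)))))) (PT.nd (nat_lit 390) (PT.nd (nat_lit 156) (PT.nd (nat_lit 78) (PT.lf (nat_lit 31008) (nat_lit 6) (nat_lit 408) (nat_lit 4) (nat_lit 189) (nat_lit 208) (nat_lit 203)) (PT.lf (nat_lit 31768) (nat_lit 6) (nat_lit 418) (nat_lit 4) (nat_lit 190) (nat_lit 208) (nat_lit 202))) (PT.nd (nat_lit 78) (PT.lf (nat_lit 32452) (nat_lit 6) (nat_lit 427) (nat_lit 4) (nat_lit 191) (nat_lit 208) (nat_lit 201)) (PT.nd (nat_lit 78) (PT.lf (nat_lit 33060) (nat_lit 6) (nat_lit 435) (nat_lit 4) (nat_lit 192) (nat_lit 208) (nat_lit 200)) (PT.lf (nat_lit 32984) (nat_lit 6) (nat_lit 434) (nat_lit 4) (nat_lit 193) (nat_lit 208) (nat_lit 199))))) (PT.nd (nat_lit 156) (PT.nd (nat_lit 78) (PT.lf (nat_lit 32908) (nat_lit 6) (nat_lit 433) (nat_lit 4) (nat_lit 194) (nat_lit 208) (nat_lit 198)) (PT.lf (nat_lit 32832) (nat_lit 6) (nat_lit 432) (nat_lit 4) (nat_lit 195) (nat_lit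 208) (nat_lit 197))) (PT.nd (nat_lit 78) (PT.lf (nat_lit 32756) (nat_lit 3) (nat_lit 431) (nat_lit 2) (nat_lit 196) (nat_lit 208) (nat_lit 196)) (PT.nd (nat_lit 78) (PT.lf (nat_lit 32832) (nat_lit 6) (nat_lit 432) (nat_lit 2) (nat_lit 197) (nat_lit 208) (nat_lit 195)) (PT.lf (nat_lit 32908) (nat_lit 6) (nat_lit 433) (nat_lit 2) (nat_lit 198) (nat_lit 208) (nat_lit 194))))))))
noncomputable def pc33 : PT := (PT.nd (nat_lit 1560) (PT.nd (nat_lit 780) (PT.nd (nat_lit 390) (PT.nd (nat_lit 156) (PT.nd (nat_lit 78) (PT.lf (nat_lit 32984) (nat_lit 6) (nat_lit 434) (nat_lit 2) (nat_lit 199) (nat_lit 208) (nat_lit 193)) (PT.lf (nat_lit 33060) (nat_lit 6) (nat_lit 435) (nat_lit 2) (nat_lit 200) (nat_lit 208) (nat_lit 192))) (PT.nd (nat_lit 78) (PT.lf (nat_lit 32452) (nat_lit 6) (nat_lit 427) (nat_lit 2) (nat_lit 201) (nat_lit 208) (nat_lit 191)) (PT.nd (nat_lit 78) (PT.lf (nat_lit 31768) (nat_lit 6) (nat_lit 418) (nat_lit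 2) (nat_lit 202) (nat_lit 208) (nat_lit 190)) (PT.lf (nat_lit 31008) (nat_lit 6) (nat_lit 408) (nat_lit 2) (nat_lit 203) (nat_lit 208) (nat_lit 189))))) (PT.nd (nat_lit 156) (PT.nd (nat_lit 78) (PT.lf (nat_lit 30172) (nat_lit 6) (nat_lit 397) (nat_lit 2) (nat_lit 204) (nat_lit 208) (nat_lit 188)) (PT.lf (nat_lit 29260) (nat_lit 6) (nat_lit 385) (nat_lit 2) (nat_lit 205) (nat_lit 208) (nat_lit 187))) (PT.nd (nat_lit 78) (PT.lf (nat_lit 28272) (nat_lit 6) (nat_lit 372) (nat_lit 2) (nat_lit 206) (nat_lit 208) (nat_lit 186)) (PT.nd (nat_lit 78) (PT.lf (nat_lit 27208) (nat_lit 6) (nat_lit 358) (nat_lit 2) (nat_lit 207) (nat_lit 208) (nat_lit 185)) (PT.lf (nat_lit 26068) (nat_lit 3) (nat_lit 343) (nat_lit 0) (nat_lit 208) (nat_lit 208) (nat_lit 184)))))) (PT.nd (nat_lit 390) (PT.nd (nat_lit 156) (PT.nd (nat_lit 78) (PT.lf (nat_lit 24776) (nat_lit 6) (nat_lit 326) (nat_lit 0) (nat_lit 209) (nat_lit 208) (nat_lit 183))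 (PT.lf (nat_lit 23864) (nat_lit 6) (nat_lit 314) (nat_lit 0) (nat_lit 210) (nat_lit 208) (nat_lit 182))) (PT.nd (nat_lit 78) (PT.lf (nat_lit 23180) (nat_lit 6) (nat_lit 305) (nat_lit 0) (nat_lit 211) (nat_lit 208) (nat_lit 181)) (PT.nd (nat_lit 78) (PT.lf (nat_lit 22496) (nat_lit 6) (nat_lit 296) (nat_lit 0) (nat_lit 212) (nat_lit 208) (nat_lit 180)) (PT.lf (nat_lit 21888) (nat_lit 6) (nat_lit 288) (nat_lit 0) (nat_lit 213) (nat_lit 208) (nat_lit 179))))) (PT.nd (nat_lit 156) (PT.nd (nat_lit 78) (PT.lf (nat_lit 21204) (nat_lit 6) (nat_lit 279) (nat_lit 0) (nat_lit 214) (nat_lit 208) (nat_lit 178)) (PT.lf (nat_lit 20596) (nat_lit 6) (nat_lit 271) (nat_lit 0) (nat_lit 215) (nat_lit 208) (nat_lit 177))) (PT.nd (nat_lit 78) (PT.lf (nat_lit 19988) (nat_lit 6) (nat_lit 263) (nat_lit 0) (nat_lit 216) (nat_lit 208) (nat_lit 176)) (PT.nd (nat_lit 78) (PT.lf (nat_lit 19456) (nat_lit 6) (nat_lit 256) (nat_lit 0) (nat_lit 217)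 (nat_lit 208) (nat_lit 175)) (PT.lf (nat_lit 18924) (nat_lit 6) (nat_lit 249) (nat_lit 0) (nat_lit 218) (nat_lit 208) (nat_lit 174))))))) (PT.nd (nat_lit 59436) (PT.nd (nat_lit 59046) (PT.nd (nat_lit 58812) (PT.nd (nat_lit 58734) (PT.lf (nat_lit 18392) (nat_lit 6) (nat_lit 242) (nat_lit 0) (nat_lit 219) (nat_lit 208) (nat_lit 173)) (PT.lf (nat_lit 17480) (nat_lit 6) (nat_lit 230) (nat_lit 5) (nat_lit 171) (nat_lit 209) (nat_lit 220))) (PT.nd (nat_lit 78) (PT.lf (nat_lit 17936) (nat_lit 6) (nat_lit 236) (nat_lit 5) (nat_lit 172) (nat_lit 209) (nat_lit 219)) (PT.nd (nat_lit 78) (PT.lf (nat_lit 18468) (nat_lit 6) (nat_lit 243) (nat_lit 5) (nat_lit 173) (nat_lit 209) (nat_lit 218)) (PT.lf (nat_lit 19000) (nat_lit 6) (nat_lit 250) (nat_lit 5) (nat_lit 174) (nat_lit 209) (nat_lit 217))))) (PT.nd (nat_lit 156) (PT.nd (nat_lit 78) (PT.lf (nat_lit 19532) (nat_lit 6) (nat_lit 257) (nat_lit 5) (nat_lit 175) (nat_lit 209) (nat_lit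 216)) (PT.lf (nat_lit 20064) (nat_lit 6) (nat_lit 264) (nat_lit 5) (nat_lit 176) (nat_lit 209) (nat_lit 215))) (PT.nd (nat_lit 78) (PT.lf (nat_lit 20672) (nat_lit 6) (nat_lit 272) (nat_lit 5) (nat_lit 177) (nat_lit 209) (nat_lit 214)) (PT.nd (nat_lit 78) (PT.lf (nat_lit 21280) (nat_lit 6) (nat_lit 280) (nat_lit 5) (nat_lit 178) (nat_lit 209) (nat_lit 213)) (PT.lf (nat_lit 21964) (nat_lit 6) (nat_lit 289) (nat_lit 5) (nat_lit 179) (nat_lit 209) (nat_lit 212)))))) (PT.nd (nat_lit 390) (PT.nd (nat_lit 156) (PT.nd (nat_lit 78) (PT.lf (nat_lit 22572) (nat_lit 6) (nat_lit 297) (nat_lit 5) (nat_lit 180) (nat_lit 209) (nat_lit 211)) (PT.lf (nat_lit 23256) (nat_lit 6) (nat_lit 306) (nat_lit 5) (nat_lit 181) (nat_lit 209) (nat_lit 210))) (PT.nd (nat_lit 78) (PT.lf (nat_lit 23940) (nat_lit 3) (nat_lit 315) (nat_lit 4) (nat_lit 182) (nat_lit 209) (nat_lit 209)) (PT.nd (nat_lit 78) (PT.lf (nat_lit 24776) (nat_lit 6) (nat_lit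 326) (nat_lit 4) (nat_lit 183) (nat_lit 209) (nat_lit 208)) (PT.lf (nat_lit 25992) (nat_lit 6) (nat_lit 342) (nat_lit 4) (nat_lit 184) (nat_lit 209) (nat_lit 207))))) (PT.nd (nat_lit 156) (PT.nd (nat_lit 78) (PT.lf (nat_lit 27132) (nat_lit 6) (nat_lit 357) (nat_lit 4) (nat_lit 185) (nat_lit 209) (nat_lit 206)) (PT.lf (nat_lit 28196) (nat_lit 6) (nat_lit 371) (nat_lit 4) (nat_lit 186) (nat_lit 209) (nat_lit 205))) (PT.nd (nat_lit 78) (PT.lf (nat_lit 29184) (nat_lit 6) (nat_lit 384) (nat_lit 4) (nat_lit 187) (nat_lit 209) (nat_lit 204)) (PT.nd (nat_lit 78) (PT.lf (nat_lit 30096) (nat_lit 6) (nat_lit 396) (nat_lit 4) (nat_lit 188) (nat_lit 209) (nat_lit 203)) (PT.lf (nat_lit 30932) (nat_lit 6) (nat_lit 407) (nat_lit 4) (nat_lit 189) (nat_lit 209) (nat_lit 202))))))))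
noncomputable def pc34 : PT := (PT.nd (nat_lit 1560) (PT.nd (nat_lit 780) (PT.nd (nat_lit 390) (PT.nd (nat_lit 156) (PT.nd (nat_lit 78) (PT.lf (nat_lit 31692) (nat_lit 6) (nat_lit 417) (nat_lit 4) (nat_lit 190) (nat_lit 209) (nat_lit 201)) (PT.lf (nat_lit 32376) (nat_lit 6) (nat_lit 426) (nat_lit 4) (nat_lit 191) (nat_lit 209) (nat_lit 200))) (PT.nd (nat_lit 78) (PT.lf (nat_lit 32300) (nat_lit 6) (nat_lit 425) (nat_lit 4) (nat_lit 192) (nat_lit 209) (nat_lit 199)) (PT.nd (nat_lit 78) (PT.lf (nat_lit 32224) (nat_lit 6) (nat_lit 424) (nat_lit 4) (nat_lit 193) (nat_lit 209) (nat_lit 198)) (PT.lf (nat_lit 32148) (nat_lit 6) (nat_lit 423) (nat_lit 4) (nat_lit 194) (nat_lit 209) (nat_lit 197))))) (PT.nd (nat_lit 156) (PT.nd (nat_lit 78) (PT.lf (nat_lit 32072) (nat_lit 6) (nat_lit 422) (nat_lit 4) (nat_lit 195) (nat_lit 209) (nat_lit 196)) (PT.lf (nat_lit 32072) (nat_lit 6) (nat_lit 422) (nat_lit 2) (nat_lit 196) (nat_lit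 209) (nat_lit 195))) (PT.nd (nat_lit 78) (PT.lf (nat_lit 32148) (nat_lit 6) (nat_lit 423) (nat_lit 2) (nat_lit 197) (nat_lit 209) (nat_lit 194)) (PT.nd (nat_lit 78) (PT.lf (nat_lit 32224) (nat_lit 6) (nat_lit 424) (nat_lit 2) (nat_lit 198) (nat_lit 209) (nat_lit 193)) (PT.lf (nat_lit 32300) (nat_lit 6) (nat_lit 425) (nat_lit 2) (nat_lit 199) (nat_lit 209) (nat_lit 192)))))) (PT.nd (nat_lit 390) (PT.nd (nat_lit 156) (PT.nd (nat_lit 78) (PT.lf (nat_lit 32376) (nat_lit 6) (nat_lit 426) (nat_lit 2) (nat_lit 200) (nat_lit 209) (nat_lit 191)) (PT.lf (nat_lit 31692) (nat_lit 6) (nat_lit 417) (nat_lit 2) (nat_lit 201) (nat_lit 209) (nat_lit 190))) (PT.nd (nat_lit 78) (PT.lf (nat_lit 30932) (nat_lit 6) (nat_lit 407) (nat_lit 2) (nat_lit 202) (nat_lit 209) (nat_lit 189)) (PT.nd (nat_lit 78) (PT.lf (nat_lit 30096) (nat_lit 6) (nat_lit 396) (nat_lit 2) (nat_lit 203) (nat_lit 209) (nat_lit 188)) (PT.lf (nat_lit 29184) (nat_lit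 6) (nat_lit 384) (nat_lit 2) (nat_lit 204) (nat_lit 209) (nat_lit 187))))) (PT.nd (nat_lit 156) (PT.nd (nat_lit 78) (PT.lf (nat_lit 28196) (nat_lit 6) (nat_lit 371) (nat_lit 2) (nat_lit 205) (nat_lit 209) (nat_lit 186)) (PT.lf (nat_lit 27132) (nat_lit 6) (nat_lit 357) (nat_lit 2) (nat_lit 206) (nat_lit 209) (nat_lit 185))) (PT.nd (nat_lit 78) (PT.lf (nat_lit 25992) (nat_lit 6) (nat_lit 342) (nat_lit 2) (nat_lit 207) (nat_lit 209) (nat_lit 184)) (PT.nd (nat_lit 78) (PT.lf (nat_lit 24776) (nat_lit 6) (nat_lit 326) (nat_lit 2) (nat_lit 208) (nat_lit 209) (nat_lit 183)) (PT.lf (nat_lit 23940) (nat_lit 3) (nat_lit 315) (nat_lit 0) (nat_lit 209) (nat_lit 209) (nat_lit 182))))))) (PT.nd (nat_lit 780) (PT.nd (nat_lit 390) (PT.nd (nat_lit 156) (PT.nd (nat_lit 78) (PT.lf (nat_lit 23256) (nat_lit 6) (nat_lit 306) (nat_lit 0) (nat_lit 210) (nat_lit 209) (nat_lit 181)) (PT.lf (nat_lit 22572) (nat_lit 6) (nat_lit 297) (nat_lit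 0) (nat_lit 211) (nat_lit 209) (nat_lit 180))) (PT.nd (nat_lit 78) (PT.lf (nat_lit 21964) (nat_lit 6) (nat_lit 289) (nat_lit 0) (nat_lit 212) (nat_lit 209) (nat_lit 179)) (PT.nd (nat_lit 78) (PT.lf (nat_lit 21280) (nat_lit 6) (nat_lit 280) (nat_lit 0) (nat_lit 213) (nat_lit 209) (nat_lit 178)) (PT.lf (nat_lit 20672) (nat_lit 6) (nat_lit 272) (nat_lit 0) (nat_lit 214) (nat_lit 209) (nat_lit 177))))) (PT.nd (nat_lit 156) (PT.nd (nat_lit 78) (PT.lf (nat_lit 20064) (nat_lit 6) (nat_lit 264) (nat_lit 0) (nat_lit 215) (nat_lit 209) (nat_lit 176)) (PT.lf (nat_lit 19532) (nat_lit 6) (nat_lit 257) (nat_lit 0) (nat_lit 216) (nat_lit 209) (nat_lit 175))) (PT.nd (nat_lit 78) (PT.lf (nat_lit 19000) (nat_lit 6) (nat_lit 250) (nat_lit 0) (nat_lit 217) (nat_lit 209) (nat_lit 174)) (PT.nd (nat_lit 78) (PT.lf (nat_lit 18468) (nat_lit 6) (nat_lit 243) (nat_lit 0) (nat_lit 218) (nat_lit 209) (nat_lit 173)) (PT.lf (nat_lit 17936) (nat_lit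 6) (nat_lit 236) (nat_lit 0) (nat_lit 219) (nat_lit 209) (nat_lit 172)))))) (PT.nd (nat_lit 58890) (PT.nd (nat_lit 58656) (PT.nd (nat_lit 58578) (PT.lf (nat_lit 17480) (nat_lit 6) (nat_lit 230) (nat_lit 0) (nat_lit 220) (nat_lit 209) (nat_lit 171)) (PT.lf (nat_lit 17024) (nat_lit 6) (nat_lit 224) (nat_lit 5) (nat_lit 170) (nat_lit 210) (nat_lit 220))) (PT.nd (nat_lit 78) (PT.lf (nat_lit 17556) (nat_lit 6) (nat_lit 231) (nat_lit 5) (nat_lit 171) (nat_lit 210) (nat_lit 219)) (PT.nd (nat_lit 78) (PT.lf (nat_lit 18012) (nat_lit 6) (nat_lit 237) (nat_lit 5) (nat_lit 172) (nat_lit 210) (nat_lit 218)) (PT.lf (nat_lit 18544) (nat_lit 6) (nat_lit 244) (nat_lit 5) (nat_lit 173) (nat_lit 210) (nat_lit 217))))) (PT.nd (nat_lit 156) (PT.nd (nat_lit 78) (PT.lf (nat_lit 19076) (nat_lit 6) (nat_lit 251) (nat_lit 5) (nat_lit 174) (nat_lit 210) (nat_lit 216)) (PT.lf (nat_lit 19608) (nat_lit 6) (nat_lit 258) (nat_lit 5) (nat_lit 175)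 (nat_lit 210) (nat_lit 215))) (PT.nd (nat_lit 78) (PT.lf (nat_lit 20140) (nat_lit 6) (nat_lit 265) (nat_lit 5) (nat_lit 176) (nat_lit 210) (nat_lit 214)) (PT.nd (nat_lit 78) (PT.lf (nat_lit 20748) (nat_lit 6) (nat_lit 273) (nat_lit 5) (nat_lit 177) (nat_lit 210) (nat_lit 213)) (PT.lf (nat_lit 21356) (nat_lit 6) (nat_lit 281) (nat_lit 5) (nat_lit 178) (nat_lit 210) (nat_lit 212))))))))
noncomputable def pc35 : PT := (PT.nd (nat_lit 1560) (PT.nd (nat_lit 780) (PT.nd (nat_lit 390) (PT.nd (nat_lit 156) (PT.nd (nat_lit 78) (PT.lf (nat_lit 22040) (nat_lit 6) (nat_lit 290) (nat_lit 5) (nat_lit 179) (nat_lit 210) (nat_lit 211)) (PT.lf (nat_lit 22648) (nat_lit 3) (nat_lit 298) (nat_lit 4) (nat_lit 180) (nat_lit 210) (nat_lit 210))) (PT.nd (nat_lit 78) (PT.lf (nat_lit 23256) (nat_lit 6) (nat_lit 306) (nat_lit 4) (nat_lit 181) (nat_lit 210) (nat_lit 209)) (PT.nd (nat_lit 78) (PT.lf (nat_lit 23864) (nat_lit 6) (nat_lit 314)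 (nat_lit 4) (nat_lit 182) (nat_lit 210) (nat_lit 208)) (PT.lf (nat_lit 24700) (nat_lit 6) (nat_lit 325) (nat_lit 4) (nat_lit 183) (nat_lit 210) (nat_lit 207))))) (PT.nd (nat_lit 156) (PT.nd (nat_lit 78) (PT.lf (nat_lit 25916) (nat_lit 6) (nat_lit 341) (nat_lit 4) (nat_lit 184) (nat_lit 210) (nat_lit 206)) (PT.lf (nat_lit 27056) (nat_lit 6) (nat_lit 356) (nat_lit 4) (nat_lit 185) (nat_lit 210) (nat_lit 205))) (PT.nd (nat_lit 78) (PT.lf (nat_lit 28120) (nat_lit 6) (nat_lit 370) (nat_lit 4) (nat_lit 186) (nat_lit 210) (nat_lit 204)) (PT.nd (nat_lit 78) (PT.lf (nat_lit 29108) (nat_lit 6) (nat_lit 383) (nat_lit 4) (nat_lit 187) (nat_lit 210) (nat_lit 203)) (PT.lf (nat_lit 30020) (nat_lit 6) (nat_lit 395) (nat_lit 4) (nat_lit 188) (nat_lit 210) (nat_lit 202)))))) (PT.nd (nat_lit 390) (PT.nd (nat_lit 156) (PT.nd (nat_lit 78) (PT.lf (nat_lit 30856) (nat_lit 6) (nat_lit 406) (nat_lit 4) (nat_lit 189) (nat_lit 210) (nat_lit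 201)) (PT.lf (nat_lit 31616) (nat_lit 6) (nat_lit 416) (nat_lit 4) (nat_lit 190) (nat_lit 210) (nat_lit 200))) (PT.nd (nat_lit 78) (PT.lf (nat_lit 31540) (nat_lit 6) (nat_lit 415) (nat_lit 4) (nat_lit 191) (nat_lit 210) (nat_lit 199)) (PT.nd (nat_lit 78) (PT.lf (nat_lit 31464) (nat_lit 6) (nat_lit 414) (nat_lit 4) (nat_lit 192) (nat_lit 210) (nat_lit 198)) (PT.lf (nat_lit 31388) (nat_lit 6) (nat_lit 413) (nat_lit 4) (nat_lit 193) (nat_lit 210) (nat_lit 197))))) (PT.nd (nat_lit 156) (PT.nd (nat_lit 78) (PT.lf (nat_lit 31312) (nat_lit 6) (nat_lit 412) (nat_lit 4) (nat_lit 194) (nat_lit 210) (nat_lit 196)) (PT.lf (nat_lit 31236) (nat_lit 3) (nat_lit 411) (nat_lit 2) (nat_lit 195) (nat_lit 210) (nat_lit 195))) (PT.nd (nat_lit 78) (PT.lf (nat_lit 31312) (nat_lit 6) (nat_lit 412) (nat_lit 2) (nat_lit 196) (nat_lit 210) (nat_lit 194)) (PT.nd (nat_lit 78) (PT.lf (nat_lit 31388) (nat_lit 6) (nat_lit 413) (nat_lit 2) (nat_lit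 197) (nat_lit 210) (nat_lit 193)) (PT.lf (nat_lit 31464) (nat_lit 6) (nat_lit 414) (nat_lit 2) (nat_lit 198) (nat_lit 210) (nat_lit 192))))))) (PT.nd (nat_lit 780) (PT.nd (nat_lit 390) (PT.nd (nat_lit 156) (PT.nd (nat_lit 78) (PT.lf (nat_lit 31540) (nat_lit 6) (nat_lit 415) (nat_lit 2) (nat_lit 199) (nat_lit 210) (nat_lit 191)) (PT.lf (nat_lit 31616) (nat_lit 6) (nat_lit 416) (nat_lit 2) (nat_lit 200) (nat_lit 210) (nat_lit 190))) (PT.nd (nat_lit 78) (PT.lf (nat_lit 30856) (nat_lit 6) (nat_lit 406) (nat_lit 2) (nat_lit 201) (nat_lit 210) (nat_lit 189)) (PT.nd (nat_lit 78) (PT.lf (nat_lit 30020) (nat_lit 6) (nat_lit 395) (nat_lit 2) (nat_lit 202) (nat_lit 210) (nat_lit 188)) (PT.lf (nat_lit 29108) (nat_lit 6) (nat_lit 383) (nat_lit 2) (nat_lit 203) (nat_lit 210) (nat_lit 187))))) (PT.nd (nat_lit 156) (PT.nd (nat_lit 78) (PT.lf (nat_lit 28120) (nat_lit 6) (nat_lit 370) (nat_lit 2) (nat_lit 204) (nat_lit 210) (nat_lit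 186)) (PT.lf (nat_lit 27056) (nat_lit 6) (nat_lit 356) (nat_lit 2) (nat_lit 205) (nat_lit 210) (nat_lit 185))) (PT.nd (nat_lit 78) (PT.lf (nat_lit 25916) (nat_lit 6) (nat_lit 341) (nat_lit 2) (nat_lit 206) (nat_lit 210) (nat_lit 184)) (PT.nd (nat_lit 78) (PT.lf (nat_lit 24700) (nat_lit 6) (nat_lit 325) (nat_lit 2) (nat_lit 207) (nat_lit 210) (nat_lit 183)) (PT.lf (nat_lit 23864) (nat_lit 6) (nat_lit 314) (nat_lit 2) (nat_lit 208) (nat_lit 210) (nat_lit 182)))))) (PT.nd (nat_lit 390) (PT.nd (nat_lit 156) (PT.nd (nat_lit 78) (PT.lf (nat_lit 23256) (nat_lit 6) (nat_lit 306) (nat_lit 2) (nat_lit 209) (nat_lit 210) (nat_lit 181)) (PT.lf (nat_lit 22648) (nat_lit 3) (nat_lit 298) (nat_lit 0) (nat_lit 210) (nat_lit 210) (nat_lit 180))) (PT.nd (nat_lit 78) (PT.lf (nat_lit 22040) (nat_lit 6) (nat_lit 290) (nat_lit 0) (nat_lit 211) (nat_lit 210) (nat_lit 179)) (PT.nd (nat_lit 78) (PT.lf (nat_lit 21356) (nat_lit 6) (nat_lit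 281) (nat_lit 0) (nat_lit 212) (nat_lit 210) (nat_lit 178)) (PT.lf (nat_lit 20748) (nat_lit 6) (nat_lit 273) (nat_lit 0) (nat_lit 213) (nat_lit 210) (nat_lit 177))))) (PT.nd (nat_lit 234) (PT.nd (nat_lit 78) (PT.lf (nat_lit 20140) (nat_lit 6) (nat_lit 265) (nat_lit 0) (nat_lit 214) (nat_lit 210) (nat_lit 176)) (PT.nd (nat_lit 78) (PT.lf (nat_lit 19608) (nat_lit 6) (nat_lit 258) (nat_lit 0) (nat_lit 215) (nat_lit 210) (nat_lit 175)) (PT.lf (nat_lit 19076) (nat_lit 6) (nat_lit 251) (nat_lit 0) (nat_lit 216) (nat_lit 210) (nat_lit 174)))) (PT.nd (nat_lit 78) (PT.lf (nat_lit 18544) (nat_lit 6) (nat_lit 244) (nat_lit 0) (nat_lit 217) (nat_lit 210) (nat_lit 173)) (PT.nd (nat_lit 78) (PT.lf (nat_lit 18012) (nat_lit 6) (nat_lit 237) (nat_lit 0) (nat_lit 218) (nat_lit 210) (nat_lit 172)) (PT.lf (nat_lit 17556) (nat_lit 6) (nat_lit 231) (nat_lit 0) (nat_lit 219) (nat_lit 210) (nat_lit 171))))))))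
noncomputable def pc36 : PT := (PT.nd (nat_lit 59904) (PT.nd (nat_lit 59124) (PT.nd (nat_lit 58734) (PT.nd (nat_lit 58500) (PT.nd (nat_lit 58422) (PT.lf (nat_lit 17024) (nat_lit 6) (nat_lit 224) (nat_lit 0) (nat_lit 220) (nat_lit 210) (nat_lit 170)) (PT.lf (nat_lit 16188) (nat_lit 6) (nat_lit 213) (nat_lit 5) (nat_lit 168) (nat_lit 211) (nat_lit 221))) (PT.nd (nat_lit 78) (PT.lf (nat_lit 16644) (nat_lit 6) (nat_lit 219) (nat_lit 5) (nat_lit 169) (nat_lit 211) (nat_lit 220)) (PT.nd (nat_lit 78) (PT.lf (nat_lit 17100) (nat_lit 6) (nat_lit 225) (nat_lit 5) (nat_lit 170) (nat_lit 211) (nat_lit 219)) (PT.lf (nat_lit 17632) (nat_lit 6) (nat_lit 232) (nat_lit 5) (nat_lit 171) (nat_lit 211) (nat_lit 218))))) (PT.nd (nat_lit 156) (PT.nd (nat_lit 78) (PT.lf (nat_lit 18088) (nat_lit 6) (nat_lit 238) (nat_lit 5) (nat_lit 172) (nat_lit 211) (nat_lit 217)) (PT.lf (nat_lit 18620) (nat_lit 6) (nat_lit 245) (nat_lit 5) (nat_lit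 173) (nat_lit 211) (nat_lit 216))) (PT.nd (nat_lit 78) (PT.lf (nat_lit 19152) (nat_lit 6) (nat_lit 252) (nat_lit 5) (nat_lit 174) (nat_lit 211) (nat_lit 215)) (PT.nd (nat_lit 78) (PT.lf (nat_lit 19684) (nat_lit 6) (nat_lit 259) (nat_lit 5) (nat_lit 175) (nat_lit 211) (nat_lit 214)) (PT.lf (nat_lit 20216) (nat_lit 6) (nat_lit 266) (nat_lit 5) (nat_lit 176) (nat_lit 211) (nat_lit 213)))))) (PT.nd (nat_lit 390) (PT.nd (nat_lit 156) (PT.nd (nat_lit 78) (PT.lf (nat_lit 20824) (nat_lit 6) (nat_lit 274) (nat_lit 5) (nat_lit 177) (nat_lit 211) (nat_lit 212)) (PT.lf (nat_lit 21432) (nat_lit 3) (nat_lit 282) (nat_lit 4) (nat_lit 178) (nat_lit 211) (nat_lit 211))) (PT.nd (nat_lit 78) (PT.lf (nat_lit 22040) (nat_lit 6) (nat_lit 290) (nat_lit 4) (nat_lit 179) (nat_lit 211) (nat_lit 210)) (PT.nd (nat_lit 78) (PT.lf (nat_lit 22572) (nat_lit 6) (nat_lit 297) (nat_lit 4) (nat_lit 180) (nat_lit 211) (nat_lit 209)) (PT.lf (nat_lit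 23180) (nat_lit 6) (nat_lit 305) (nat_lit 4) (nat_lit 181) (nat_lit 211) (nat_lit 208))))) (PT.nd (nat_lit 156) (PT.nd (nat_lit 78) (PT.lf (nat_lit 23788) (nat_lit 6) (nat_lit 313) (nat_lit 4) (nat_lit 182) (nat_lit 211) (nat_lit 207)) (PT.lf (nat_lit 24624) (nat_lit 6) (nat_lit 324) (nat_lit 4) (nat_lit 183) (nat_lit 211) (nat_lit 206))) (PT.nd (nat_lit 78) (PT.lf (nat_lit 25840) (nat_lit 6) (nat_lit 340) (nat_lit 4) (nat_lit 184) (nat_lit 211) (nat_lit 205)) (PT.nd (nat_lit 78) (PT.lf (nat_lit 26980) (nat_lit 6) (nat_lit 355) (nat_lit 4) (nat_lit 185) (nat_lit 211) (nat_lit 204)) (PT.lf (nat_lit 28044) (nat_lit 6) (nat_lit 369) (nat_lit 4) (nat_lit 186) (nat_lit 211) (nat_lit 203))))))) (PT.nd (nat_lit 780) (PT.nd (nat_lit 390) (PT.nd (nat_lit 156) (PT.nd (nat_lit 78) (PT.lf (nat_lit 29032) (nat_lit 6) (nat_lit 382) (nat_lit 4) (nat_lit 187) (nat_lit 211) (nat_lit 202)) (PT.lf (nat_lit 29944) (nat_lit 6) (nat_lit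 394) (nat_lit 4) (nat_lit 188) (nat_lit 211) (nat_lit 201))) (PT.nd (nat_lit 78) (PT.lf (nat_lit 30780) (nat_lit 6) (nat_lit 405) (nat_lit 4) (nat_lit 189) (nat_lit 211) (nat_lit 200)) (PT.nd (nat_lit 78) (PT.lf (nat_lit 30704) (nat_lit 6) (nat_lit 404) (nat_lit 4) (nat_lit 190) (nat_lit 211) (nat_lit 199)) (PT.lf (nat_lit 30628) (nat_lit 6) (nat_lit 403) (nat_lit 4) (nat_lit 191) (nat_lit 211) (nat_lit 198))))) (PT.nd (nat_lit 156) (PT.nd (nat_lit 78) (PT.lf (nat_lit 30552) (nat_lit 6) (nat_lit 402) (nat_lit 4) (nat_lit 192) (nat_lit 211) (nat_lit 197)) (PT.lf (nat_lit 30476) (nat_lit 6) (nat_lit 401) (nat_lit 4) (nat_lit 193) (nat_lit 211) (nat_lit 196))) (PT.nd (nat_lit 78) (PT.lf (nat_lit 30400) (nat_lit 6) (nat_lit 400) (nat_lit 4) (nat_lit 194) (nat_lit 211) (nat_lit 195)) (PT.nd (nat_lit 78) (PT.lf (nat_lit 30400) (nat_lit 6) (nat_lit 400) (nat_lit 2) (nat_lit 195) (nat_lit 211) (nat_lit 194)) (PT.lf (nat_lit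 30476) (nat_lit 6) (nat_lit 401) (nat_lit 2) (nat_lit 196) (nat_lit 211) (nat_lit 193)))))) (PT.nd (nat_lit 390) (PT.nd (nat_lit 156) (PT.nd (nat_lit 78) (PT.lf (nat_lit 30552) (nat_lit 6) (nat_lit 402) (nat_lit 2) (nat_lit 197) (nat_lit 211) (nat_lit 192)) (PT.lf (nat_lit 30628) (nat_lit 6) (nat_lit 403) (nat_lit 2) (nat_lit 198) (nat_lit 211) (nat_lit 191))) (PT.nd (nat_lit 78) (PT.lf (nat_lit 30704) (nat_lit 6) (nat_lit 404) (nat_lit 2) (nat_lit 199) (nat_lit 211) (nat_lit 190)) (PT.nd (nat_lit 78) (PT.lf (nat_lit 30780) (nat_lit 6) (nat_lit 405) (nat_lit 2) (nat_lit 200) (nat_lit 211) (nat_lit 189)) (PT.lf (nat_lit 29944) (nat_lit 6) (nat_lit 394) (nat_lit 2) (nat_lit 201) (nat_lit 211) (nat_lit 188))))) (PT.nd (nat_lit 156) (PT.nd (nat_lit 78) (PT.lf (nat_lit 29032) (nat_lit 6) (nat_lit 382) (nat_lit 2) (nat_lit 202) (nat_lit 211) (nat_lit 187)) (PT.lf (nat_lit 28044) (nat_lit 6) (nat_lit 369) (nat_lit 2) (nat_lit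 203) (nat_lit 211) (nat_lit 186))) (PT.nd (nat_lit 78) (PT.lf (nat_lit 26980) (nat_lit 6) (nat_lit 355) (nat_lit 2) (nat_lit 204) (nat_lit 211) (nat_lit 185)) (PT.nd (nat_lit 78) (PT.lf (nat_lit 25840) (nat_lit 6) (nat_lit 340) (nat_lit 2) (nat_lit 205) (nat_lit 211) (nat_lit 184)) (PT.lf (nat_lit 24624) (nat_lit 6) (nat_lit 324) (nat_lit 2) (nat_lit 206) (nat_lit 211) (nat_lit 183))))))))
noncomputable def pc37 : PT := (PT.nd (nat_lit 59748) (PT.nd (nat_lit 780) (PT.nd (nat_lit 390) (PT.nd (nat_lit 156) (PT.nd (nat_lit 78) (PT.lf (nat_lit 23788) (nat_lit 6) (nat_lit 313) (nat_lit 2) (nat_lit 207) (nat_lit 211) (nat_lit 182)) (PT.lf (nat_lit 23180) (nat_lit 6) (nat_lit 305) (nat_lit 2) (nat_lit 208) (nat_lit 211) (nat_lit 181))) (PT.nd (nat_lit 78) (PT.lf (nat_lit 22572) (nat_lit 6) (nat_lit 297) (nat_lit 2) (nat_lit 209) (nat_lit 211) (nat_lit 180)) (PT.nd (nat_lit 78) (PT.lf (nat_lit 22040) (nat_lit 6) (nat_lit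 290) (nat_lit 2) (nat_lit 210) (nat_lit 211) (nat_lit 179)) (PT.lf (nat_lit 21432) (nat_lit 3) (nat_lit 282) (nat_lit 0) (nat_lit 211) (nat_lit 211) (nat_lit 178))))) (PT.nd (nat_lit 156) (PT.nd (nat_lit 78) (PT.lf (nat_lit 20824) (nat_lit 6) (nat_lit 274) (nat_lit 0) (nat_lit 212) (nat_lit 211) (nat_lit 177)) (PT.lf (nat_lit 20216) (nat_lit 6) (nat_lit 266) (nat_lit 0) (nat_lit 213) (nat_lit 211) (nat_lit 176))) (PT.nd (nat_lit 78) (PT.lf (nat_lit 19684) (nat_lit 6) (nat_lit 259) (nat_lit 0) (nat_lit 214) (nat_lit 211) (nat_lit 175)) (PT.nd (nat_lit 78) (PT.lf (nat_lit 19152) (nat_lit 6) (nat_lit 252) (nat_lit 0) (nat_lit 215) (nat_lit 211) (nat_lit 174)) (PT.lf (nat_lit 18620) (nat_lit 6) (nat_lit 245) (nat_lit 0) (nat_lit 216) (nat_lit 211) (nat_lit 173)))))) (PT.nd (nat_lit 58578) (PT.nd (nat_lit 156) (PT.nd (nat_lit 78) (PT.lf (nat_lit 18088) (nat_lit 6) (nat_lit 238) (nat_lit 0) (nat_lit 217) (nat_lit 211)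 (nat_lit 172)) (PT.lf (nat_lit 17632) (nat_lit 6) (nat_lit 232) (nat_lit 0) (nat_lit 218) (nat_lit 211) (nat_lit 171))) (PT.nd (nat_lit 78) (PT.lf (nat_lit 17100) (nat_lit 6) (nat_lit 225) (nat_lit 0) (nat_lit 219) (nat_lit 211) (nat_lit 170)) (PT.nd (nat_lit 78) (PT.lf (nat_lit 16644) (nat_lit 6) (nat_lit 219) (nat_lit 0) (nat_lit 220) (nat_lit 211) (nat_lit 169)) (PT.lf (nat_lit 16188) (nat_lit 6) (nat_lit 213) (nat_lit 0) (nat_lit 221) (nat_lit 211) (nat_lit 168))))) (PT.nd (nat_lit 156) (PT.nd (nat_lit 78) (PT.lf (nat_lit 15808) (nat_lit 6) (nat_lit 208) (nat_lit 5) (nat_lit 167) (nat_lit 212) (nat_lit 221)) (PT.lf (nat_lit 16264) (nat_lit 6) (nat_lit 214) (nat_lit 5) (nat_lit 168) (nat_lit 212) (nat_lit 220))) (PT.nd (nat_lit 78) (PT.lf (nat_lit 16720) (nat_lit 6) (nat_lit 220) (nat_lit 5) (nat_lit 169) (nat_lit 212) (nat_lit 219)) (PT.nd (nat_lit 78) (PT.lf (nat_lit 17176) (nat_lit 6) (nat_lit 226) (nat_lit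 5) (nat_lit 170) (nat_lit 212) (nat_lit 218)) (PT.lf (nat_lit 17708) (nat_lit 6) (nat_lit 233) (nat_lit 5) (nat_lit 171) (nat_lit 212) (nat_lit 217))))))) (PT.nd (nat_lit 780) (PT.nd (nat_lit 390) (PT.nd (nat_lit 156) (PT.nd (nat_lit 78) (PT.lf (nat_lit 18164) (nat_lit 6) (nat_lit 239) (nat_lit 5) (nat_lit 172) (nat_lit 212) (nat_lit 216)) (PT.lf (nat_lit 18696) (nat_lit 6) (nat_lit 246) (nat_lit 5) (nat_lit 173) (nat_lit 212) (nat_lit 215))) (PT.nd (nat_lit 78) (PT.lf (nat_lit 19228) (nat_lit 6) (nat_lit 253) (nat_lit 5) (nat_lit 174) (nat_lit 212) (nat_lit 214)) (PT.nd (nat_lit 78) (PT.lf (nat_lit 19760) (nat_lit 6) (nat_lit 260) (nat_lit 5) (nat_lit 175) (nat_lit 212) (nat_lit 213)) (PT.lf (nat_lit 20292) (nat_lit 3) (nat_lit 267) (nat_lit 4) (nat_lit 176) (nat_lit 212) (nat_lit 212))))) (PT.nd (nat_lit 156) (PT.nd (nat_lit 78) (PT.lf (nat_lit 20824) (nat_lit 6) (nat_lit 274) (nat_lit 4) (nat_lit 177) (nat_lit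 212) (nat_lit 211)) (PT.lf (nat_lit 21356) (nat_lit 6) (nat_lit 281) (nat_lit 4) (nat_lit 178) (nat_lit 212) (nat_lit 210))) (PT.nd (nat_lit 78) (PT.lf (nat_lit 21964) (nat_lit 6) (nat_lit 289) (nat_lit 4) (nat_lit 179) (nat_lit 212) (nat_lit 209)) (PT.nd (nat_lit 78) (PT.lf (nat_lit 22496) (nat_lit 6) (nat_lit 296) (nat_lit 4) (nat_lit 180) (nat_lit 212) (nat_lit 208)) (PT.lf (nat_lit 23104) (nat_lit 6) (nat_lit 304) (nat_lit 4) (nat_lit 181) (nat_lit 212) (nat_lit 207)))))) (PT.nd (nat_lit 390) (PT.nd (nat_lit 156) (PT.nd (nat_lit 78) (PT.lf (nat_lit 23712) (nat_lit 6) (nat_lit 312) (nat_lit 4) (nat_lit 182) (nat_lit 212) (nat_lit 206)) (PT.lf (nat_lit 24548) (nat_lit 6) (nat_lit 323) (nat_lit 4) (nat_lit 183) (nat_lit 212) (nat_lit 205))) (PT.nd (nat_lit 78) (PT.lf (nat_lit 25764) (nat_lit 6) (nat_lit 339) (nat_lit 4) (nat_lit 184) (nat_lit 212) (nat_lit 204)) (PT.nd (nat_lit 78) (PT.lf (nat_lit 26904) (nat_lit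 6) (nat_lit 354) (nat_lit 4) (nat_lit 185) (nat_lit 212) (nat_lit 203)) (PT.lf (nat_lit 27968) (nat_lit 6) (nat_lit 368) (nat_lit 4) (nat_lit 186) (nat_lit 212) (nat_lit 202))))) (PT.nd (nat_lit 156) (PT.nd (nat_lit 78) (PT.lf (nat_lit 28956) (nat_lit 6) (nat_lit 381) (nat_lit 4) (nat_lit 187) (nat_lit 212) (nat_lit 201)) (PT.lf (nat_lit 29868) (nat_lit 6) (nat_lit 393) (nat_lit 4) (nat_lit 188) (nat_lit 212) (nat_lit 200))) (PT.nd (nat_lit 78) (PT.lf (nat_lit 29792) (nat_lit 6) (nat_lit 392) (nat_lit 4) (nat_lit 189) (nat_lit 212) (nat_lit 199)) (PT.nd (nat_lit 78) (PT.lf (nat_lit 29716) (nat_lit 6) (nat_lit 391) (nat_lit 4) (nat_lit 190) (nat_lit 212) (nat_lit 198)) (PT.lf (nat_lit 29640) (nat_lit 6) (nat_lit 390) (nat_lit 4) (nat_lit 191) (nat_lit 212) (nat_lit 197))))))))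
noncomputable def pc38 : PT := (PT.nd (nat_lit 1560) (PT.nd (nat_lit 780) (PT.nd (nat_lit 390) (PT.nd (nat_lit 156) (PT.nd (nat_lit 78) (PT.lf (nat_lit 29564) (nat_lit 6) (nat_lit 389) (nat_lit 4) (nat_lit 192) (nat_lit 212) (nat_lit 196)) (PT.lf (nat_lit 29488) (nat_lit 6) (nat_lit 388) (nat_lit 4) (nat_lit 193) (nat_lit 212) (nat_lit 195))) (PT.nd (nat_lit 78) (PT.lf (nat_lit 29412) (nat_lit 3) (nat_lit 387) (nat_lit 2) (nat_lit 194) (nat_lit 212) (nat_lit 194)) (PT.nd (nat_lit 78) (PT.lf (nat_lit 29488) (nat_lit 6) (nat_lit 388) (nat_lit 2) (nat_lit 195) (nat_lit 212) (nat_lit 193)) (PT.lf (nat_lit 29564) (nat_lit 6) (nat_lit 389) (nat_lit 2) (nat_lit 196) (nat_lit 212) (nat_lit 192))))) (PT.nd (nat_lit 156) (PT.nd (nat_lit 78) (PT.lf (nat_lit 29640) (nat_lit 6) (nat_lit 390) (nat_lit 2) (nat_lit 197) (nat_lit 212) (nat_lit 191)) (PT.lf (nat_lit 29716) (nat_lit 6) (nat_lit 391) (nat_lit 2) (nat_lit 198) (nat_lit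 212) (nat_lit 190))) (PT.nd (nat_lit 78) (PT.lf (nat_lit 29792) (nat_lit 6) (nat_lit 392) (nat_lit 2) (nat_lit 199) (nat_lit 212) (nat_lit 189)) (PT.nd (nat_lit 78) (PT.lf (nat_lit 29868) (nat_lit 6) (nat_lit 393) (nat_lit 2) (nat_lit 200) (nat_lit 212) (nat_lit 188)) (PT.lf (nat_lit 28956) (nat_lit 6) (nat_lit 381) (nat_lit 2) (nat_lit 201) (nat_lit 212) (nat_lit 187)))))) (PT.nd (nat_lit 390) (PT.nd (nat_lit 156) (PT.nd (nat_lit 78) (PT.lf (nat_lit 27968) (nat_lit 6) (nat_lit 368) (nat_lit 2) (nat_lit 202) (nat_lit 212) (nat_lit 186)) (PT.lf (nat_lit 26904) (nat_lit 6) (nat_lit 354) (nat_lit 2) (nat_lit 203) (nat_lit 212) (nat_lit 185))) (PT.nd (nat_lit 78) (PT.lf (nat_lit 25764) (nat_lit 6) (nat_lit 339) (nat_lit 2) (nat_lit 204) (nat_lit 212) (nat_lit 184)) (PT.nd (nat_lit 78) (PT.lf (nat_lit 24548) (nat_lit 6) (nat_lit 323) (nat_lit 2) (nat_lit 205) (nat_lit 212) (nat_lit 183)) (PT.lf (nat_lit 23712) (nat_lit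 6) (nat_lit 312) (nat_lit 2) (nat_lit 206) (nat_lit 212) (nat_lit 182))))) (PT.nd (nat_lit 156) (PT.nd (nat_lit 78) (PT.lf (nat_lit 23104) (nat_lit 6) (nat_lit 304) (nat_lit 2) (nat_lit 207) (nat_lit 212) (nat_lit 181)) (PT.lf (nat_lit 22496) (nat_lit 6) (nat_lit 296) (nat_lit 2) (nat_lit 208) (nat_lit 212) (nat_lit 180))) (PT.nd (nat_lit 78) (PT.lf (nat_lit 21964) (nat_lit 6) (nat_lit 289) (nat_lit 2) (nat_lit 209) (nat_lit 212) (nat_lit 179)) (PT.nd (nat_lit 78) (PT.lf (nat_lit 21356) (nat_lit 6) (nat_lit 281) (nat_lit 2) (nat_lit 210) (nat_lit 212) (nat_lit 178)) (PT.lf (nat_lit 20824) (nat_lit 6) (nat_lit 274) (nat_lit 2) (nat_lit 211) (nat_lit 212) (nat_lit 177))))))) (PT.nd (nat_lit 58890) (PT.nd (nat_lit 390) (PT.nd (nat_lit 156) (PT.nd (nat_lit 78) (PT.lf (nat_lit 20292) (nat_lit 3) (nat_lit 267) (nat_lit 0) (nat_lit 212) (nat_lit 212) (nat_lit 176)) (PT.lf (nat_lit 19760) (nat_lit 6) (nat_lit 260) (nat_lit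 0) (nat_lit 213) (nat_lit 212) (nat_lit 175))) (PT.nd (nat_lit 78) (PT.lf (nat_lit 19228) (nat_lit 6) (nat_lit 253) (nat_lit 0) (nat_lit 214) (nat_lit 212) (nat_lit 174)) (PT.nd (nat_lit 78) (PT.lf (nat_lit 18696) (nat_lit 6) (nat_lit 246) (nat_lit 0) (nat_lit 215) (nat_lit 212) (nat_lit 173)) (PT.lf (nat_lit 18164) (nat_lit 6) (nat_lit 239) (nat_lit 0) (nat_lit 216) (nat_lit 212) (nat_lit 172))))) (PT.nd (nat_lit 156) (PT.nd (nat_lit 78) (PT.lf (nat_lit 17708) (nat_lit 6) (nat_lit 233) (nat_lit 0) (nat_lit 217) (nat_lit 212) (nat_lit 171)) (PT.lf (nat_lit 17176) (nat_lit 6) (nat_lit 226) (nat_lit 0) (nat_lit 218) (nat_lit 212) (nat_lit 170))) (PT.nd (nat_lit 78) (PT.lf (nat_lit 16720) (nat_lit 6) (nat_lit 220) (nat_lit 0) (nat_lit 219) (nat_lit 212) (nat_lit 169)) (PT.nd (nat_lit 78) (PT.lf (nat_lit 16264) (nat_lit 6) (nat_lit 214) (nat_lit 0) (nat_lit 220) (nat_lit 212) (nat_lit 168)) (PT.lf (nat_lit 15808) (nat_lit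 6) (nat_lit 208) (nat_lit 0) (nat_lit 221) (nat_lit 212) (nat_lit 167)))))) (PT.nd (nat_lit 390) (PT.nd (nat_lit 156) (PT.nd (nat_lit 78) (PT.lf (nat_lit 15428) (nat_lit 6) (nat_lit 203) (nat_lit 5) (nat_lit 166) (nat_lit 213) (nat_lit 221)) (PT.lf (nat_lit 15884) (nat_lit 6) (nat_lit 209) (nat_lit 5) (nat_lit 167) (nat_lit 213) (nat_lit 220))) (PT.nd (nat_lit 78) (PT.lf (nat_lit 16340) (nat_lit 6) (nat_lit 215) (nat_lit 5) (nat_lit 168) (nat_lit 213) (nat_lit 219)) (PT.nd (nat_lit 78) (PT.lf (nat_lit 16796) (nat_lit 6) (nat_lit 221) (nat_lit 5) (nat_lit 169) (nat_lit 213) (nat_lit 218)) (PT.lf (nat_lit 17252) (nat_lit 6) (nat_lit 227) (nat_lit 5) (nat_lit 170) (nat_lit 213) (nat_lit 217))))) (PT.nd (nat_lit 156) (PT.nd (nat_lit 78) (PT.lf (nat_lit 17784) (nat_lit 6) (nat_lit 234) (nat_lit 5) (nat_lit 171) (nat_lit 213) (nat_lit 216)) (PT.lf (nat_lit 18240) (nat_lit 6) (nat_lit 240) (nat_lit 5) (nat_lit 172) (nat_lit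 213) (nat_lit 215))) (PT.nd (nat_lit 78) (PT.lf (nat_lit 18772) (nat_lit 6) (nat_lit 247) (nat_lit 5) (nat_lit 173) (nat_lit 213) (nat_lit 214)) (PT.nd (nat_lit 78) (PT.lf (nat_lit 19304) (nat_lit 3) (nat_lit 254) (nat_lit 4) (nat_lit 174) (nat_lit 213) (nat_lit 213)) (PT.lf (nat_lit 19760) (nat_lit 6) (nat_lit 260) (nat_lit 4) (nat_lit 175) (nat_lit 213) (nat_lit 212))))))))
noncomputable def pc39 : PT := (PT.nd (nat_lit 1560) (PT.nd (nat_lit 780) (PT.nd (nat_lit 390) (PT.nd (nat_lit 156) (PT.nd (nat_lit 78) (PT.lf (nat_lit 20216) (nat_lit 6) (nat_lit 266) (nat_lit 4) (nat_lit 176) (nat_lit 213) (nat_lit 211)) (PT.lf (nat_lit 20748) (nat_lit 6) (nat_lit 273) (nat_lit 4) (nat_lit 177) (nat_lit 213) (nat_lit 210))) (PT.nd (nat_lit 78) (PT.lf (nat_lit 21280) (nat_lit 6) (nat_lit 280) (nat_lit 4) (nat_lit 178) (nat_lit 213) (nat_lit 209)) (PT.nd (nat_lit 78) (PT.lf (nat_lit 21888) (nat_lit 6) (nat_lit 288) (nat_lit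 4) (nat_lit 179) (nat_lit 213) (nat_lit 208)) (PT.lf (nat_lit 22420) (nat_lit 6) (nat_lit 295) (nat_lit 4) (nat_lit 180) (nat_lit 213) (nat_lit 207))))) (PT.nd (nat_lit 156) (PT.nd (nat_lit 78) (PT.lf (nat_lit 23028) (nat_lit 6) (nat_lit 303) (nat_lit 4) (nat_lit 181) (nat_lit 213) (nat_lit 206)) (PT.lf (nat_lit 23636) (nat_lit 6) (nat_lit 311) (nat_lit 4) (nat_lit 182) (nat_lit 213) (nat_lit 205))) (PT.nd (nat_lit 78) (PT.lf (nat_lit 24472) (nat_lit 6) (nat_lit 322) (nat_lit 4) (nat_lit 183) (nat_lit 213) (nat_lit 204)) (PT.nd (nat_lit 78) (PT.lf (nat_lit 25688) (nat_lit 6) (nat_lit 338) (nat_lit 4) (nat_lit 184) (nat_lit 213) (nat_lit 203)) (PT.lf (nat_lit 26828) (nat_lit 6) (nat_lit 353) (nat_lit 4) (nat_lit 185) (nat_lit 213) (nat_lit 202)))))) (PT.nd (nat_lit 390) (PT.nd (nat_lit 156) (PT.nd (nat_lit 78) (PT.lf (nat_lit 27892) (nat_lit 6) (nat_lit 367) (nat_lit 4) (nat_lit 186) (nat_lit 213) (nat_lit 201))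 (PT.lf (nat_lit 28880) (nat_lit 6) (nat_lit 380) (nat_lit 4) (nat_lit 187) (nat_lit 213) (nat_lit 200))) (PT.nd (nat_lit 78) (PT.lf (nat_lit 28804) (nat_lit 6) (nat_lit 379) (nat_lit 4) (nat_lit 188) (nat_lit 213) (nat_lit 199)) (PT.nd (nat_lit 78) (PT.lf (nat_lit 28728) (nat_lit 6) (nat_lit 378) (nat_lit 4) (nat_lit 189) (nat_lit 213) (nat_lit 198)) (PT.lf (nat_lit 28652) (nat_lit 6) (nat_lit 377) (nat_lit 4) (nat_lit 190) (nat_lit 213) (nat_lit 197))))) (PT.nd (nat_lit 156) (PT.nd (nat_lit 78) (PT.lf (nat_lit 28576) (nat_lit 6) (nat_lit 376) (nat_lit 4) (nat_lit 191) (nat_lit 213) (nat_lit 196)) (PT.lf (nat_lit 28500) (nat_lit 6) (nat_lit 375) (nat_lit 4) (nat_lit 192) (nat_lit 213) (nat_lit 195))) (PT.nd (nat_lit 78) (PT.lf (nat_lit 28424) (nat_lit 6) (nat_lit 374) (nat_lit 4) (nat_lit 193) (nat_lit 213) (nat_lit 194)) (PT.nd (nat_lit 78) (PT.lf (nat_lit 28424) (nat_lit 6) (nat_lit 374) (nat_lit 2) (nat_lit 194)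 (nat_lit 213) (nat_lit 193)) (PT.lf (nat_lit 28500) (nat_lit 6) (nat_lit 375) (nat_lit 2) (nat_lit 195) (nat_lit 213) (nat_lit 192))))))) (PT.nd (nat_lit 780) (PT.nd (nat_lit 390) (PT.nd (nat_lit 156) (PT.nd (nat_lit 78) (PT.lf (nat_lit 28576) (nat_lit 6) (nat_lit 376) (nat_lit 2) (nat_lit 196) (nat_lit 213) (nat_lit 191)) (PT.lf (nat_lit 28652) (nat_lit 6) (nat_lit 377) (nat_lit 2) (nat_lit 197) (nat_lit 213) (nat_lit 190))) (PT.nd (nat_lit 78) (PT.lf (nat_lit 28728) (nat_lit 6) (nat_lit 378) (nat_lit 2) (nat_lit 198) (nat_lit 213) (nat_lit 189)) (PT.nd (nat_lit 78) (PT.lf (nat_lit 28804) (nat_lit 6) (nat_lit 379) (nat_lit 2) (nat_lit 199) (nat_lit 213) (nat_lit 188)) (PT.lf (nat_lit 28880) (nat_lit 6) (nat_lit 380) (nat_lit 2) (nat_lit 200) (nat_lit 213) (nat_lit 187))))) (PT.nd (nat_lit 156) (PT.nd (nat_lit 78) (PT.lf (nat_lit 27892) (nat_lit 6) (nat_lit 367) (nat_lit 2) (nat_lit 201) (nat_lit 213) (nat_lit 186))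 (PT.lf (nat_lit 26828) (nat_lit 6) (nat_lit 353) (nat_lit 2) (nat_lit 202) (nat_lit 213) (nat_lit 185))) (PT.nd (nat_lit 78) (PT.lf (nat_lit 25688) (nat_lit 6) (nat_lit 338) (nat_lit 2) (nat_lit 203) (nat_lit 213) (nat_lit 184)) (PT.nd (nat_lit 78) (PT.lf (nat_lit 24472) (nat_lit 6) (nat_lit 322) (nat_lit 2) (nat_lit 204) (nat_lit 213) (nat_lit 183)) (PT.lf (nat_lit 23636) (nat_lit 6) (nat_lit 311) (nat_lit 2) (nat_lit 205) (nat_lit 213) (nat_lit 182)))))) (PT.nd (nat_lit 390) (PT.nd (nat_lit 156) (PT.nd (nat_lit 78) (PT.lf (nat_lit 23028) (nat_lit 6) (nat_lit 303) (nat_lit 2) (nat_lit 206) (nat_lit 213) (nat_lit 181)) (PT.lf (nat_lit 22420) (nat_lit 6) (nat_lit 295) (nat_lit 2) (nat_lit 207) (nat_lit 213) (nat_lit 180))) (PT.nd (nat_lit 78) (PT.lf (nat_lit 21888) (nat_lit 6) (nat_lit 288) (nat_lit 2) (nat_lit 208) (nat_lit 213) (nat_lit 179)) (PT.nd (nat_lit 78) (PT.lf (nat_lit 21280) (nat_lit 6) (nat_lit 280)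 (nat_lit 2) (nat_lit 209) (nat_lit 213) (nat_lit 178)) (PT.lf (nat_lit 20748) (nat_lit 6) (nat_lit 273) (nat_lit 2) (nat_lit 210) (nat_lit 213) (nat_lit 177))))) (PT.nd (nat_lit 234) (PT.nd (nat_lit 78) (PT.lf (nat_lit 20216) (nat_lit 6) (nat_lit 266) (nat_lit 2) (nat_lit 211) (nat_lit 213) (nat_lit 176)) (PT.nd (nat_lit 78) (PT.lf (nat_lit 19760) (nat_lit 6) (nat_lit 260) (nat_lit 2) (nat_lit 212) (nat_lit 213) (nat_lit 175)) (PT.lf (nat_lit 19304) (nat_lit 3) (nat_lit 254) (nat_lit 0) (nat_lit 213) (nat_lit 213) (nat_lit 174)))) (PT.nd (nat_lit 78) (PT.lf (nat_lit 18772) (nat_lit 6) (nat_lit 247) (nat_lit 0) (nat_lit 214) (nat_lit 213) (nat_lit 173)) (PT.nd (nat_lit 78) (PT.lf (nat_lit 18240) (nat_lit 6) (nat_lit 240) (nat_lit 0) (nat_lit 215) (nat_lit 213) (nat_lit 172)) (PT.lf (nat_lit 17784) (nat_lit 6) (nat_lit 234) (nat_lit 0) (nat_lit 216) (nat_lit 213) (nat_lit 171))))))))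
noncomputable def pc40 : PT := (PT.nd (nat_lit 59514) (PT.nd (nat_lit 58734) (PT.nd (nat_lit 58344) (PT.nd (nat_lit 156) (PT.nd (nat_lit 78) (PT.lf (nat_lit 17252) (nat_lit 6) (nat_lit 227) (nat_lit 0) (nat_lit 217) (nat_lit 213) (nat_lit 170)) (PT.lf (nat_lit 16796) (nat_lit 6) (nat_lit 221) (nat_lit 0) (nat_lit 218) (nat_lit 213) (nat_lit 169))) (PT.nd (nat_lit 78) (PT.lf (nat_lit 16340) (nat_lit 6) (nat_lit 215) (nat_lit 0) (nat_lit 219) (nat_lit 213) (nat_lit 168)) (PT.nd (nat_lit 78) (PT.lf (nat_lit 15884) (nat_lit 6) (nat_lit 209) (nat_lit 0) (nat_lit 220) (nat_lit 213) (nat_lit 167)) (PT.lf (nat_lit 15428) (nat_lit 6) (nat_lit 203) (nat_lit 0) (nat_lit 221) (nat_lit 213) (nat_lit 166))))) (PT.nd (nat_lit 156) (PT.nd (nat_lit 78) (PT.lf (nat_lit 14744) (nat_lit 6) (nat_lit 194) (nat_lit 5) (nat_lit 164) (nat_lit 214) (nat_lit 222)) (PT.lf (nat_lit 15124) (nat_lit 6) (nat_lit 199) (nat_lit 5) (nat_lit 165)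 (nat_lit 214) (nat_lit 221))) (PT.nd (nat_lit 78) (PT.lf (nat_lit 15504) (nat_lit 6) (nat_lit 204) (nat_lit 5) (nat_lit 166) (nat_lit 214) (nat_lit 220)) (PT.nd (nat_lit 78) (PT.lf (nat_lit 15960) (nat_lit 6) (nat_lit 210) (nat_lit 5) (nat_lit 167) (nat_lit 214) (nat_lit 219)) (PT.lf (nat_lit 16416) (nat_lit 6) (nat_lit 216) (nat_lit 5) (nat_lit 168) (nat_lit 214) (nat_lit 218)))))) (PT.nd (nat_lit 390) (PT.nd (nat_lit 156) (PT.nd (nat_lit 78) (PT.lf (nat_lit 16872) (nat_lit 6) (nat_lit 222) (nat_lit 5) (nat_lit 169) (nat_lit 214) (nat_lit 217)) (PT.lf (nat_lit 17328) (nat_lit 6) (nat_lit 228) (nat_lit 5) (nat_lit 170) (nat_lit 214) (nat_lit 216))) (PT.nd (nat_lit 78) (PT.lf (nat_lit 17860) (nat_lit 6) (nat_lit 235) (nat_lit 5) (nat_lit 171) (nat_lit 214) (nat_lit 215)) (PT.nd (nat_lit 78) (PT.lf (nat_lit 18316) (nat_lit 3) (nat_lit 241) (nat_lit 4) (nat_lit 172) (nat_lit 214) (nat_lit 214)) (PT.lf (nat_lit 18772)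 (nat_lit 6) (nat_lit 247) (nat_lit 4) (nat_lit 173) (nat_lit 214) (nat_lit 213))))) (PT.nd (nat_lit 156) (PT.nd (nat_lit 78) (PT.lf (nat_lit 19228) (nat_lit 6) (nat_lit 253) (nat_lit 4) (nat_lit 174) (nat_lit 214) (nat_lit 212)) (PT.lf (nat_lit 19684) (nat_lit 6) (nat_lit 259) (nat_lit 4) (nat_lit 175) (nat_lit 214) (nat_lit 211))) (PT.nd (nat_lit 78) (PT.lf (nat_lit 20140) (nat_lit 6) (nat_lit 265) (nat_lit 4) (nat_lit 176) (nat_lit 214) (nat_lit 210)) (PT.nd (nat_lit 78) (PT.lf (nat_lit 20672) (nat_lit 6) (nat_lit 272) (nat_lit 4) (nat_lit 177) (nat_lit 214) (nat_lit 209)) (PT.lf (nat_lit 21204) (nat_lit 6) (nat_lit 279) (nat_lit 4) (nat_lit 178) (nat_lit 214) (nat_lit 208))))))) (PT.nd (nat_lit 780) (PT.nd (nat_lit 390) (PT.nd (nat_lit 156) (PT.nd (nat_lit 78) (PT.lf (nat_lit 21812) (nat_lit 6) (nat_lit 287) (nat_lit 4) (nat_lit 179) (nat_lit 214) (nat_lit 207)) (PT.lf (nat_lit 22344) (nat_lit 6) (nat_lit 294)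 (nat_lit 4) (nat_lit 180) (nat_lit 214) (nat_lit 206))) (PT.nd (nat_lit 78) (PT.lf (nat_lit 22952) (nat_lit 6) (nat_lit 302) (nat_lit 4) (nat_lit 181) (nat_lit 214) (nat_lit 205)) (PT.nd (nat_lit 78) (PT.lf (nat_lit 23560) (nat_lit 6) (nat_lit 310) (nat_lit 4) (nat_lit 182) (nat_lit 214) (nat_lit 204)) (PT.lf (nat_lit 24396) (nat_lit 6) (nat_lit 321) (nat_lit 4) (nat_lit 183) (nat_lit 214) (nat_lit 203))))) (PT.nd (nat_lit 156) (PT.nd (nat_lit 78) (PT.lf (nat_lit 25612) (nat_lit 6) (nat_lit 337) (nat_lit 4) (nat_lit 184) (nat_lit 214) (nat_lit 202)) (PT.lf (nat_lit 26752) (nat_lit 6) (nat_lit 352) (nat_lit 4) (nat_lit 185) (nat_lit 214) (nat_lit 201))) (PT.nd (nat_lit 78) (PT.lf (nat_lit 27816) (nat_lit 6) (nat_lit 366) (nat_lit 4) (nat_lit 186) (nat_lit 214) (nat_lit 200)) (PT.nd (nat_lit 78) (PT.lf (nat_lit 27740) (nat_lit 6) (nat_lit 365) (nat_lit 4) (nat_lit 187) (nat_lit 214) (nat_lit 199)) (PT.lf (nat_lit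 27664) (nat_lit 6) (nat_lit 364) (nat_lit 4) (nat_lit 188) (nat_lit 214) (nat_lit 198)))))) (PT.nd (nat_lit 390) (PT.nd (nat_lit 156) (PT.nd (nat_lit 78) (PT.lf (nat_lit 27588) (nat_lit 6) (nat_lit 363) (nat_lit 4) (nat_lit 189) (nat_lit 214) (nat_lit 197)) (PT.lf (nat_lit 27512) (nat_lit 6) (nat_lit 362) (nat_lit 4) (nat_lit 190) (nat_lit 214) (nat_lit 196))) (PT.nd (nat_lit 78) (PT.lf (nat_lit 27436) (nat_lit 6) (nat_lit 361) (nat_lit 4) (nat_lit 191) (nat_lit 214) (nat_lit 195)) (PT.nd (nat_lit 78) (PT.lf (nat_lit 27360) (nat_lit 6) (nat_lit 360) (nat_lit 4) (nat_lit 192) (nat_lit 214) (nat_lit 194)) (PT.lf (nat_lit 27284) (nat_lit 3) (nat_lit 359) (nat_lit 2) (nat_lit 193) (nat_lit 214) (nat_lit 193))))) (PT.nd (nat_lit 156) (PT.nd (nat_lit 78) (PT.lf (nat_lit 27360) (nat_lit 6) (nat_lit 360) (nat_lit 2) (nat_lit 194) (nat_lit 214) (nat_lit 192)) (PT.lf (nat_lit 27436) (nat_lit 6) (nat_lit 361) (nat_lit 2) (nat_lit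 195) (nat_lit 214) (nat_lit 191))) (PT.nd (nat_lit 78) (PT.lf (nat_lit 27512) (nat_lit 6) (nat_lit 362) (nat_lit 2) (nat_lit 196) (nat_lit 214) (nat_lit 190)) (PT.nd (nat_lit 78) (PT.lf (nat_lit 27588) (nat_lit 6) (nat_lit 363) (nat_lit 2) (nat_lit 197) (nat_lit 214) (nat_lit 189)) (PT.lf (nat_lit 27664) (nat_lit 6) (nat_lit 364) (nat_lit 2) (nat_lit 198) (nat_lit 214) (nat_lit 188))))))))
noncomputable def pc41 : PT := (PT.nd (nat_lit 1560) (PT.nd (nat_lit 780) (PT.nd (nat_lit 390) (PT.nd (nat_lit 156) (PT.nd (nat_lit 78) (PT.lf (nat_lit 27740) (nat_lit 6) (nat_lit 365) (nat_lit 2) (nat_lit 199) (nat_lit 214) (nat_lit 187)) (PT.lf (nat_lit 27816) (nat_lit 6) (nat_lit 366) (nat_lit 2) (nat_lit 200) (nat_lit 214) (nat_lit 186))) (PT.nd (nat_lit 78) (PT.lf (nat_lit 26752) (nat_lit 6) (nat_lit 352) (nat_lit 2) (nat_lit 201) (nat_lit 214) (nat_lit 185)) (PT.nd (nat_lit 78) (PT.lf (nat_lit 25612) (nat_lit 6) (nat_lit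 337) (nat_lit 2) (nat_lit 202) (nat_lit 214) (nat_lit 184)) (PT.lf (nat_lit 24396) (nat_lit 6) (nat_lit 321) (nat_lit 2) (nat_lit 203) (nat_lit 214) (nat_lit 183))))) (PT.nd (nat_lit 156) (PT.nd (nat_lit 78) (PT.lf (nat_lit 23560) (nat_lit 6) (nat_lit 310) (nat_lit 2) (nat_lit 204) (nat_lit 214) (nat_lit 182)) (PT.lf (nat_lit 22952) (nat_lit 6) (nat_lit 302) (nat_lit 2) (nat_lit 205) (nat_lit 214) (nat_lit 181))) (PT.nd (nat_lit 78) (PT.lf (nat_lit 22344) (nat_lit 6) (nat_lit 294) (nat_lit 2) (nat_lit 206) (nat_lit 214) (nat_lit 180)) (PT.nd (nat_lit 78) (PT.lf (nat_lit 21812) (nat_lit 6) (nat_lit 287) (nat_lit 2) (nat_lit 207) (nat_lit 214) (nat_lit 179)) (PT.lf (nat_lit 21204) (nat_lit 6) (nat_lit 279) (nat_lit 2) (nat_lit 208) (nat_lit 214) (nat_lit 178)))))) (PT.nd (nat_lit 390) (PT.nd (nat_lit 156) (PT.nd (nat_lit 78) (PT.lf (nat_lit 20672) (nat_lit 6) (nat_lit 272) (nat_lit 2) (nat_lit 209) (nat_lit 214) (nat_lit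 177)) (PT.lf (nat_lit 20140) (nat_lit 6) (nat_lit 265) (nat_lit 2) (nat_lit 210) (nat_lit 214) (nat_lit 176))) (PT.nd (nat_lit 78) (PT.lf (nat_lit 19684) (nat_lit 6) (nat_lit 259) (nat_lit 2) (nat_lit 211) (nat_lit 214) (nat_lit 175)) (PT.nd (nat_lit 78) (PT.lf (nat_lit 19228) (nat_lit 6) (nat_lit 253) (nat_lit 2) (nat_lit 212) (nat_lit 214) (nat_lit 174)) (PT.lf (nat_lit 18772) (nat_lit 6) (nat_lit 247) (nat_lit 2) (nat_lit 213) (nat_lit 214) (nat_lit 173))))) (PT.nd (nat_lit 156) (PT.nd (nat_lit 78) (PT.lf (nat_lit 18316) (nat_lit 3) (nat_lit 241) (nat_lit 0) (nat_lit 214) (nat_lit 214) (nat_lit 172)) (PT.lf (nat_lit 17860) (nat_lit 6) (nat_lit 235) (nat_lit 0) (nat_lit 215) (nat_lit 214) (nat_lit 171))) (PT.nd (nat_lit 78) (PT.lf (nat_lit 17328) (nat_lit 6) (nat_lit 228) (nat_lit 0) (nat_lit 216) (nat_lit 214) (nat_lit 170)) (PT.nd (nat_lit 78) (PT.lf (nat_lit 16872) (nat_lit 6) (nat_lit 222) (nat_lit 0) (nat_lit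 217) (nat_lit 214) (nat_lit 169)) (PT.lf (nat_lit 16416) (nat_lit 6) (nat_lit 216) (nat_lit 0) (nat_lit 218) (nat_lit 214) (nat_lit 168))))))) (PT.nd (nat_lit 58500) (PT.nd (nat_lit 58110) (PT.nd (nat_lit 156) (PT.nd (nat_lit 78) (PT.lf (nat_lit 15960) (nat_lit 6) (nat_lit 210) (nat_lit 0) (nat_lit 219) (nat_lit 214) (nat_lit 167)) (PT.lf (nat_lit 15504) (nat_lit 6) (nat_lit 204) (nat_lit 0) (nat_lit 220) (nat_lit 214) (nat_lit 166))) (PT.nd (nat_lit 78) (PT.lf (nat_lit 15124) (nat_lit 6) (nat_lit 199) (nat_lit 0) (nat_lit 221) (nat_lit 214) (nat_lit 165)) (PT.nd (nat_lit 57798) (PT.lf (nat_lit 14744) (nat_lit 6) (nat_lit 194) (nat_lit 0) (nat_lit 222) (nat_lit 214) (nat_lit 164)) (PT.lf (nat_lit 14060) (nat_lit 6) (nat_lit 185) (nat_lit 5) (nat_lit 162) (nat_lit 215) (nat_lit 223))))) (PT.nd (nat_lit 156) (PT.nd (nat_lit 78) (PT.lf (nat_lit 14440) (nat_lit 6) (nat_lit 190) (nat_lit 5) (nat_lit 163) (nat_lit 215)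 (nat_lit 222)) (PT.lf (nat_lit 14820) (nat_lit 6) (nat_lit 195) (nat_lit 5) (nat_lit 164) (nat_lit 215) (nat_lit 221))) (PT.nd (nat_lit 78) (PT.lf (nat_lit 15200) (nat_lit 6) (nat_lit 200) (nat_lit 5) (nat_lit 165) (nat_lit 215) (nat_lit 220)) (PT.nd (nat_lit 78) (PT.lf (nat_lit 15580) (nat_lit 6) (nat_lit 205) (nat_lit 5) (nat_lit 166) (nat_lit 215) (nat_lit 219)) (PT.lf (nat_lit 16036) (nat_lit 6) (nat_lit 211) (nat_lit 5) (nat_lit 167) (nat_lit 215) (nat_lit 218)))))) (PT.nd (nat_lit 390) (PT.nd (nat_lit 156) (PT.nd (nat_lit 78) (PT.lf (nat_lit 16492) (nat_lit 6) (nat_lit 217) (nat_lit 5) (nat_lit 168) (nat_lit 215) (nat_lit 217)) (PT.lf (nat_lit 16948) (nat_lit 6) (nat_lit 223) (nat_lit 5) (nat_lit 169) (nat_lit 215) (nat_lit 216))) (PT.nd (nat_lit 78) (PT.lf (nat_lit 17404) (nat_lit 3) (nat_lit 229) (nat_lit 4) (nat_lit 170) (nat_lit 215) (nat_lit 215)) (PT.nd (nat_lit 78) (PT.lf (nat_lit 17860) (nat_lit 6)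 (nat_lit 235) (nat_lit 4) (nat_lit 171) (nat_lit 215) (nat_lit 214)) (PT.lf (nat_lit 18240) (nat_lit 6) (nat_lit 240) (nat_lit 4) (nat_lit 172) (nat_lit 215) (nat_lit 213))))) (PT.nd (nat_lit 156) (PT.nd (nat_lit 78) (PT.lf (nat_lit 18696) (nat_lit 6) (nat_lit 246) (nat_lit 4) (nat_lit 173) (nat_lit 215) (nat_lit 212)) (PT.lf (nat_lit 19152) (nat_lit 6) (nat_lit 252) (nat_lit 4) (nat_lit 174) (nat_lit 215) (nat_lit 211))) (PT.nd (nat_lit 78) (PT.lf (nat_lit 19608) (nat_lit 6) (nat_lit 258) (nat_lit 4) (nat_lit 175) (nat_lit 215) (nat_lit 210)) (PT.nd (nat_lit 78) (PT.lf (nat_lit 20064) (nat_lit 6) (nat_lit 264) (nat_lit 4) (nat_lit 176) (nat_lit 215) (nat_lit 209)) (PT.lf (nat_lit 20596) (nat_lit 6) (nat_lit 271) (nat_lit 4) (nat_lit 177) (nat_lit 215) (nat_lit 208))))))))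
noncomputable def pc42 : PT := (PT.nd (nat_lit 1560) (PT.nd (nat_lit 780) (PT.nd (nat_lit 390) (PT.nd (nat_lit 156) (PT.nd (nat_lit 78) (PT.lf (nat_lit 21128) (nat_lit 6) (nat_lit 278) (nat_lit 4) (nat_lit 178) (nat_lit 215) (nat_lit 207)) (PT.lf (nat_lit 21736) (nat_lit 6) (nat_lit 286) (nat_lit 4) (nat_lit 179) (nat_lit 215) (nat_lit 206))) (PT.nd (nat_lit 78) (PT.lf (nat_lit 22268) (nat_lit 6) (nat_lit 293) (nat_lit 4) (nat_lit 180) (nat_lit 215) (nat_lit 205)) (PT.nd (nat_lit 78) (PT.lf (nat_lit 22876) (nat_lit 6) (nat_lit 301) (nat_lit 4) (nat_lit 181) (nat_lit 215) (nat_lit 204)) (PT.lf (nat_lit 23484) (nat_lit 6) (nat_lit 309) (nat_lit 4) (nat_lit 182) (nat_lit 215) (nat_lit 203))))) (PT.nd (nat_lit 156) (PT.nd (nat_lit 78) (PT.lf (nat_lit 24320) (nat_lit 6) (nat_lit 320) (nat_lit 4) (nat_lit 183) (nat_lit 215) (nat_lit 202)) (PT.lf (nat_lit 25536) (nat_lit 6) (nat_lit 336) (nat_lit 4) (nat_lit 184) (nat_lit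 215) (nat_lit 201))) (PT.nd (nat_lit 78) (PT.lf (nat_lit 26676) (nat_lit 6) (nat_lit 351) (nat_lit 4) (nat_lit 185) (nat_lit 215) (nat_lit 200)) (PT.nd (nat_lit 78) (PT.lf (nat_lit 26600) (nat_lit 6) (nat_lit 350) (nat_lit 4) (nat_lit 186) (nat_lit 215) (nat_lit 199)) (PT.lf (nat_lit 26524) (nat_lit 6) (nat_lit 349) (nat_lit 4) (nat_lit 187) (nat_lit 215) (nat_lit 198)))))) (PT.nd (nat_lit 390) (PT.nd (nat_lit 156) (PT.nd (nat_lit 78) (PT.lf (nat_lit 26448) (nat_lit 6) (nat_lit 348) (nat_lit 4) (nat_lit 188) (nat_lit 215) (nat_lit 197)) (PT.lf (nat_lit 26372) (nat_lit 6) (nat_lit 347) (nat_lit 4) (nat_lit 189) (nat_lit 215) (nat_lit 196))) (PT.nd (nat_lit 78) (PT.lf (nat_lit 26296) (nat_lit 6) (nat_lit 346) (nat_lit 4) (nat_lit 190) (nat_lit 215) (nat_lit 195)) (PT.nd (nat_lit 78) (PT.lf (nat_lit 26220) (nat_lit 6) (nat_lit 345) (nat_lit 4) (nat_lit 191) (nat_lit 215) (nat_lit 194)) (PT.lf (nat_lit 26144) (nat_lit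 6) (nat_lit 344) (nat_lit 4) (nat_lit 192) (nat_lit 215) (nat_lit 193))))) (PT.nd (nat_lit 156) (PT.nd (nat_lit 78) (PT.lf (nat_lit 26144) (nat_lit 6) (nat_lit 344) (nat_lit 2) (nat_lit 193) (nat_lit 215) (nat_lit 192)) (PT.lf (nat_lit 26220) (nat_lit 6) (nat_lit 345) (nat_lit 2) (nat_lit 194) (nat_lit 215) (nat_lit 191))) (PT.nd (nat_lit 78) (PT.lf (nat_lit 26296) (nat_lit 6) (nat_lit 346) (nat_lit 2) (nat_lit 195) (nat_lit 215) (nat_lit 190)) (PT.nd (nat_lit 78) (PT.lf (nat_lit 26372) (nat_lit 6) (nat_lit 347) (nat_lit 2) (nat_lit 196) (nat_lit 215) (nat_lit 189)) (PT.lf (nat_lit 26448) (nat_lit 6) (nat_lit 348) (nat_lit 2) (nat_lit 197) (nat_lit 215) (nat_lit 188))))))) (PT.nd (nat_lit 780) (PT.nd (nat_lit 390) (PT.nd (nat_lit 156) (PT.nd (nat_lit 78) (PT.lf (nat_lit 26524) (nat_lit 6) (nat_lit 349) (nat_lit 2) (nat_lit 198) (nat_lit 215) (nat_lit 187)) (PT.lf (nat_lit 26600) (nat_lit 6) (nat_lit 350) (nat_lit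 2) (nat_lit 199) (nat_lit 215) (nat_lit 186))) (PT.nd (nat_lit 78) (PT.lf (nat_lit 26676) (nat_lit 6) (nat_lit 351) (nat_lit 2) (nat_lit 200) (nat_lit 215) (nat_lit 185)) (PT.nd (nat_lit 78) (PT.lf (nat_lit 25536) (nat_lit 6) (nat_lit 336) (nat_lit 2) (nat_lit 201) (nat_lit 215) (nat_lit 184)) (PT.lf (nat_lit 24320) (nat_lit 6) (nat_lit 320) (nat_lit 2) (nat_lit 202) (nat_lit 215) (nat_lit 183))))) (PT.nd (nat_lit 156) (PT.nd (nat_lit 78) (PT.lf (nat_lit 23484) (nat_lit 6) (nat_lit 309) (nat_lit 2) (nat_lit 203) (nat_lit 215) (nat_lit 182)) (PT.lf (nat_lit 22876) (nat_lit 6) (nat_lit 301) (nat_lit 2) (nat_lit 204) (nat_lit 215) (nat_lit 181))) (PT.nd (nat_lit 78) (PT.lf (nat_lit 22268) (nat_lit 6) (nat_lit 293) (nat_lit 2) (nat_lit 205) (nat_lit 215) (nat_lit 180)) (PT.nd (nat_lit 78) (PT.lf (nat_lit 21736) (nat_lit 6) (nat_lit 286) (nat_lit 2) (nat_lit 206) (nat_lit 215) (nat_lit 179)) (PT.lf (nat_lit 21128) (nat_lit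 6) (nat_lit 278) (nat_lit 2) (nat_lit 207) (nat_lit 215) (nat_lit 178)))))) (PT.nd (nat_lit 390) (PT.nd (nat_lit 156) (PT.nd (nat_lit 78) (PT.lf (nat_lit 20596) (nat_lit 6) (nat_lit 271) (nat_lit 2) (nat_lit 208) (nat_lit 215) (nat_lit 177)) (PT.lf (nat_lit 20064) (nat_lit 6) (nat_lit 264) (nat_lit 2) (nat_lit 209) (nat_lit 215) (nat_lit 176))) (PT.nd (nat_lit 78) (PT.lf (nat_lit 19608) (nat_lit 6) (nat_lit 258) (nat_lit 2) (nat_lit 210) (nat_lit 215) (nat_lit 175)) (PT.nd (nat_lit 78) (PT.lf (nat_lit 19152) (nat_lit 6) (nat_lit 252) (nat_lit 2) (nat_lit 211) (nat_lit 215) (nat_lit 174)) (PT.lf (nat_lit 18696) (nat_lit 6) (nat_lit 246) (nat_lit 2) (nat_lit 212) (nat_lit 215) (nat_lit 173))))) (PT.nd (nat_lit 156) (PT.nd (nat_lit 78) (PT.lf (nat_lit 18240) (nat_lit 6) (nat_lit 240) (nat_lit 2) (nat_lit 213) (nat_lit 215) (nat_lit 172)) (PT.lf (nat_lit 17860) (nat_lit 6) (nat_lit 235) (nat_lit 2) (nat_lit 214) (nat_lit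 215) (nat_lit 171))) (PT.nd (nat_lit 78) (PT.lf (nat_lit 17404) (nat_lit 3) (nat_lit 229) (nat_lit 0) (nat_lit 215) (nat_lit 215) (nat_lit 170)) (PT.nd (nat_lit 78) (PT.lf (nat_lit 16948) (nat_lit 6) (nat_lit 223) (nat_lit 0) (nat_lit 216) (nat_lit 215) (nat_lit 169)) (PT.lf (nat_lit 16492) (nat_lit 6) (nat_lit 217) (nat_lit 0) (nat_lit 217) (nat_lit 215) (nat_lit 168))))))))
noncomputable def pc43 : PT := (PT.nd (nat_lit 59124) (PT.nd (nat_lit 58344) (PT.nd (nat_lit 390) (PT.nd (nat_lit 156) (PT.nd (nat_lit 78) (PT.lf (nat_lit 16036) (nat_lit 6) (nat_lit 211) (nat_lit 0) (nat_lit 218) (nat_lit 215) (nat_lit 167)) (PT.lf (nat_lit 15580) (nat_lit 6) (nat_lit 205) (nat_lit 0) (nat_lit 219) (nat_lit 215) (nat_lit 166))) (PT.nd (nat_lit 78) (PT.lf (nat_lit 15200) (nat_lit 6) (nat_lit 200) (nat_lit 0) (nat_lit 220) (nat_lit 215) (nat_lit 165)) (PT.nd (nat_lit 78) (PT.lf (nat_lit 14820) (nat_lit 6) (nat_lit 195) (nat_lit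 0) (nat_lit 221) (nat_lit 215) (nat_lit 164)) (PT.lf (nat_lit 14440) (nat_lit 6) (nat_lit 190) (nat_lit 0) (nat_lit 222) (nat_lit 215) (nat_lit 163))))) (PT.nd (nat_lit 57720) (PT.nd (nat_lit 57642) (PT.lf (nat_lit 14060) (nat_lit 6) (nat_lit 185) (nat_lit 0) (nat_lit 223) (nat_lit 215) (nat_lit 162)) (PT.lf (nat_lit 13756) (nat_lit 6) (nat_lit 181) (nat_lit 5) (nat_lit 161) (nat_lit 216) (nat_lit 223))) (PT.nd (nat_lit 78) (PT.lf (nat_lit 14136) (nat_lit 6) (nat_lit 186) (nat_lit 5) (nat_lit 162) (nat_lit 216) (nat_lit 222)) (PT.nd (nat_lit 78) (PT.lf (nat_lit 14516) (nat_lit 6) (nat_lit 191) (nat_lit 5) (nat_lit 163) (nat_lit 216) (nat_lit 221)) (PT.lf (nat_lit 14896) (nat_lit 6) (nat_lit 196) (nat_lit 5) (nat_lit 164) (nat_lit 216) (nat_lit 220)))))) (PT.nd (nat_lit 390) (PT.nd (nat_lit 156) (PT.nd (nat_lit 78) (PT.lf (nat_lit 15276) (nat_lit 6) (nat_lit 201) (nat_lit 5) (nat_lit 165) (nat_lit 216) (nat_lit 219))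 (PT.lf (nat_lit 15656) (nat_lit 6) (nat_lit 206) (nat_lit 5) (nat_lit 166) (nat_lit 216) (nat_lit 218))) (PT.nd (nat_lit 78) (PT.lf (nat_lit 16112) (nat_lit 6) (nat_lit 212) (nat_lit 5) (nat_lit 167) (nat_lit 216) (nat_lit 217)) (PT.nd (nat_lit 78) (PT.lf (nat_lit 16568) (nat_lit 3) (nat_lit 218) (nat_lit 4) (nat_lit 168) (nat_lit 216) (nat_lit 216)) (PT.lf (nat_lit 16948) (nat_lit 6) (nat_lit 223) (nat_lit 4) (nat_lit 169) (nat_lit 216) (nat_lit 215))))) (PT.nd (nat_lit 156) (PT.nd (nat_lit 78) (PT.lf (nat_lit 17328) (nat_lit 6) (nat_lit 228) (nat_lit 4) (nat_lit 170) (nat_lit 216) (nat_lit 214)) (PT.lf (nat_lit 17784) (nat_lit 6) (nat_lit 234) (nat_lit 4) (nat_lit 171) (nat_lit 216) (nat_lit 213))) (PT.nd (nat_lit 78) (PT.lf (nat_lit 18164) (nat_lit 6) (nat_lit 239) (nat_lit 4) (nat_lit 172) (nat_lit 216) (nat_lit 212)) (PT.nd (nat_lit 78) (PT.lf (nat_lit 18620) (nat_lit 6) (nat_lit 245) (nat_lit 4) (nat_lit 173)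 (nat_lit 216) (nat_lit 211)) (PT.lf (nat_lit 19076) (nat_lit 6) (nat_lit 251) (nat_lit 4) (nat_lit 174) (nat_lit 216) (nat_lit 210))))))) (PT.nd (nat_lit 780) (PT.nd (nat_lit 390) (PT.nd (nat_lit 156) (PT.nd (nat_lit 78) (PT.lf (nat_lit 19532) (nat_lit 6) (nat_lit 257) (nat_lit 4) (nat_lit 175) (nat_lit 216) (nat_lit 209)) (PT.lf (nat_lit 19988) (nat_lit 6) (nat_lit 263) (nat_lit 4) (nat_lit 176) (nat_lit 216) (nat_lit 208))) (PT.nd (nat_lit 78) (PT.lf (nat_lit 20520) (nat_lit 6) (nat_lit 270) (nat_lit 4) (nat_lit 177) (nat_lit 216) (nat_lit 207)) (PT.nd (nat_lit 78) (PT.lf (nat_lit 21052) (nat_lit 6) (nat_lit 277) (nat_lit 4) (nat_lit 178) (nat_lit 216) (nat_lit 206)) (PT.lf (nat_lit 21660) (nat_lit 6) (nat_lit 285) (nat_lit 4) (nat_lit 179) (nat_lit 216) (nat_lit 205))))) (PT.nd (nat_lit 156) (PT.nd (nat_lit 78) (PT.lf (nat_lit 22192) (nat_lit 6) (nat_lit 292) (nat_lit 4) (nat_lit 180) (nat_lit 216) (nat_lit 204))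 (PT.lf (nat_lit 22800) (nat_lit 6) (nat_lit 300) (nat_lit 4) (nat_lit 181) (nat_lit 216) (nat_lit 203))) (PT.nd (nat_lit 78) (PT.lf (nat_lit 23408) (nat_lit 6) (nat_lit 308) (nat_lit 4) (nat_lit 182) (nat_lit 216) (nat_lit 202)) (PT.nd (nat_lit 78) (PT.lf (nat_lit 24244) (nat_lit 6) (nat_lit 319) (nat_lit 4) (nat_lit 183) (nat_lit 216) (nat_lit 201)) (PT.lf (nat_lit 25460) (nat_lit 6) (nat_lit 335) (nat_lit 4) (nat_lit 184) (nat_lit 216) (nat_lit 200)))))) (PT.nd (nat_lit 390) (PT.nd (nat_lit 156) (PT.nd (nat_lit 78) (PT.lf (nat_lit 25384) (nat_lit 6) (nat_lit 334) (nat_lit 4) (nat_lit 185) (nat_lit 216) (nat_lit 199)) (PT.lf (nat_lit 25308) (nat_lit 6) (nat_lit 333) (nat_lit 4) (nat_lit 186) (nat_lit 216) (nat_lit 198))) (PT.nd (nat_lit 78) (PT.lf (nat_lit 25232) (nat_lit 6) (nat_lit 332) (nat_lit 4) (nat_lit 187) (nat_lit 216) (nat_lit 197)) (PT.nd (nat_lit 78) (PT.lf (nat_lit 25156) (nat_lit 6) (nat_lit 331)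 (nat_lit 4) (nat_lit 188) (nat_lit 216) (nat_lit 196)) (PT.lf (nat_lit 25080) (nat_lit 6) (nat_lit 330) (nat_lit 4) (nat_lit 189) (nat_lit 216) (nat_lit 195))))) (PT.nd (nat_lit 234) (PT.nd (nat_lit 78) (PT.lf (nat_lit 25004) (nat_lit 6) (nat_lit 329) (nat_lit 4) (nat_lit 190) (nat_lit 216) (nat_lit 194)) (PT.nd (nat_lit 78) (PT.lf (nat_lit 24928) (nat_lit 6) (nat_lit 328) (nat_lit 4) (nat_lit 191) (nat_lit 216) (nat_lit 193)) (PT.lf (nat_lit 24852) (nat_lit 3) (nat_lit 327) (nat_lit 2) (nat_lit 192) (nat_lit 216) (nat_lit 192)))) (PT.nd (nat_lit 78) (PT.lf (nat_lit 24928) (nat_lit 6) (nat_lit 328) (nat_lit 2) (nat_lit 193) (nat_lit 216) (nat_lit 191)) (PT.nd (nat_lit 78) (PT.lf (nat_lit 25004) (nat_lit 6) (nat_lit 329) (nat_lit 2) (nat_lit 194) (nat_lit 216) (nat_lit 190)) (PT.lf (nat_lit 25080) (nat_lit 6) (nat_lit 330) (nat_lit 2) (nat_lit 195) (nat_lit 216) (nat_lit 189))))))))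
noncomputable def pc44 : PT := (PT.nd (nat_lit 1560) (PT.nd (nat_lit 780) (PT.nd (nat_lit 390) (PT.nd (nat_lit 156) (PT.nd (nat_lit 78) (PT.lf (nat_lit 25156) (nat_lit 6) (nat_lit 331) (nat_lit 2) (nat_lit 196) (nat_lit 216) (nat_lit 188)) (PT.lf (nat_lit 25232) (nat_lit 6) (nat_lit 332) (nat_lit 2) (nat_lit 197) (nat_lit 216) (nat_lit 187))) (PT.nd (nat_lit 78) (PT.lf (nat_lit 25308) (nat_lit 6) (nat_lit 333) (nat_lit 2) (nat_lit 198) (nat_lit 216) (nat_lit 186)) (PT.nd (nat_lit 78) (PT.lf (nat_lit 25384) (nat_lit 6) (nat_lit 334) (nat_lit 2) (nat_lit 199) (nat_lit 216) (nat_lit 185)) (PT.lf (nat_lit 25460) (nat_lit 6) (nat_lit 335) (nat_lit 2) (nat_lit 200) (nat_lit 216) (nat_lit 184))))) (PT.nd (nat_lit 156) (PT.nd (nat_lit 78) (PT.lf (nat_lit 24244) (nat_lit 6) (nat_lit 319) (nat_lit 2) (nat_lit 201) (nat_lit 216) (nat_lit 183)) (PT.lf (nat_lit 23408) (nat_lit 6) (nat_lit 308) (nat_lit 2) (nat_lit 202) (nat_lit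 216) (nat_lit 182))) (PT.nd (nat_lit 78) (PT.lf (nat_lit 22800) (nat_lit 6) (nat_lit 300) (nat_lit 2) (nat_lit 203) (nat_lit 216) (nat_lit 181)) (PT.nd (nat_lit 78) (PT.lf (nat_lit 22192) (nat_lit 6) (nat_lit 292) (nat_lit 2) (nat_lit 204) (nat_lit 216) (nat_lit 180)) (PT.lf (nat_lit 21660) (nat_lit 6) (nat_lit 285) (nat_lit 2) (nat_lit 205) (nat_lit 216) (nat_lit 179)))))) (PT.nd (nat_lit 390) (PT.nd (nat_lit 156) (PT.nd (nat_lit 78) (PT.lf (nat_lit 21052) (nat_lit 6) (nat_lit 277) (nat_lit 2) (nat_lit 206) (nat_lit 216) (nat_lit 178)) (PT.lf (nat_lit 20520) (nat_lit 6) (nat_lit 270) (nat_lit 2) (nat_lit 207) (nat_lit 216) (nat_lit 177))) (PT.nd (nat_lit 78) (PT.lf (nat_lit 19988) (nat_lit 6) (nat_lit 263) (nat_lit 2) (nat_lit 208) (nat_lit 216) (nat_lit 176)) (PT.nd (nat_lit 78) (PT.lf (nat_lit 19532) (nat_lit 6) (nat_lit 257) (nat_lit 2) (nat_lit 209) (nat_lit 216) (nat_lit 175)) (PT.lf (nat_lit 19076) (nat_lit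 6) (nat_lit 251) (nat_lit 2) (nat_lit 210) (nat_lit 216) (nat_lit 174))))) (PT.nd (nat_lit 156) (PT.nd (nat_lit 78) (PT.lf (nat_lit 18620) (nat_lit 6) (nat_lit 245) (nat_lit 2) (nat_lit 211) (nat_lit 216) (nat_lit 173)) (PT.lf (nat_lit 18164) (nat_lit 6) (nat_lit 239) (nat_lit 2) (nat_lit 212) (nat_lit 216) (nat_lit 172))) (PT.nd (nat_lit 78) (PT.lf (nat_lit 17784) (nat_lit 6) (nat_lit 234) (nat_lit 2) (nat_lit 213) (nat_lit 216) (nat_lit 171)) (PT.nd (nat_lit 78) (PT.lf (nat_lit 17328) (nat_lit 6) (nat_lit 228) (nat_lit 2) (nat_lit 214) (nat_lit 216) (nat_lit 170)) (PT.lf (nat_lit 16948) (nat_lit 6) (nat_lit 223) (nat_lit 2) (nat_lit 215) (nat_lit 216) (nat_lit 169))))))) (PT.nd (nat_lit 58188) (PT.nd (nat_lit 390) (PT.nd (nat_lit 156) (PT.nd (nat_lit 78) (PT.lf (nat_lit 16568) (nat_lit 3) (nat_lit 218) (nat_lit 0) (nat_lit 216) (nat_lit 216) (nat_lit 168)) (PT.lf (nat_lit 16112) (nat_lit 6) (nat_lit 212) (nat_lit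 0) (nat_lit 217) (nat_lit 216) (nat_lit 167))) (PT.nd (nat_lit 78) (PT.lf (nat_lit 15656) (nat_lit 6) (nat_lit 206) (nat_lit 0) (nat_lit 218) (nat_lit 216) (nat_lit 166)) (PT.nd (nat_lit 78) (PT.lf (nat_lit 15276) (nat_lit 6) (nat_lit 201) (nat_lit 0) (nat_lit 219) (nat_lit 216) (nat_lit 165)) (PT.lf (nat_lit 14896) (nat_lit 6) (nat_lit 196) (nat_lit 0) (nat_lit 220) (nat_lit 216) (nat_lit 164))))) (PT.nd (nat_lit 156) (PT.nd (nat_lit 78) (PT.lf (nat_lit 14516) (nat_lit 6) (nat_lit 191) (nat_lit 0) (nat_lit 221) (nat_lit 216) (nat_lit 163)) (PT.lf (nat_lit 14136) (nat_lit 6) (nat_lit 186) (nat_lit 0) (nat_lit 222) (nat_lit 216) (nat_lit 162))) (PT.nd (nat_lit 57486) (PT.lf (nat_lit 13756) (nat_lit 6) (nat_lit 181) (nat_lit 0) (nat_lit 223) (nat_lit 216) (nat_lit 161)) (PT.nd (nat_lit 78) (PT.lf (nat_lit 13148) (nat_lit 6) (nat_lit 173) (nat_lit 5) (nat_lit 159) (nat_lit 217) (nat_lit 224)) (PT.lf (nat_lit 13452)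 (nat_lit 6) (nat_lit 177) (nat_lit 5) (nat_lit 160) (nat_lit 217) (nat_lit 223)))))) (PT.nd (nat_lit 390) (PT.nd (nat_lit 156) (PT.nd (nat_lit 78) (PT.lf (nat_lit 13832) (nat_lit 6) (nat_lit 182) (nat_lit 5) (nat_lit 161) (nat_lit 217) (nat_lit 222)) (PT.lf (nat_lit 14212) (nat_lit 6) (nat_lit 187) (nat_lit 5) (nat_lit 162) (nat_lit 217) (nat_lit 221))) (PT.nd (nat_lit 78) (PT.lf (nat_lit 14592) (nat_lit 6) (nat_lit 192) (nat_lit 5) (nat_lit 163) (nat_lit 217) (nat_lit 220)) (PT.nd (nat_lit 78) (PT.lf (nat_lit 14972) (nat_lit 6) (nat_lit 197) (nat_lit 5) (nat_lit 164) (nat_lit 217) (nat_lit 219)) (PT.lf (nat_lit 15352) (nat_lit 6) (nat_lit 202) (nat_lit 5) (nat_lit 165) (nat_lit 217) (nat_lit 218))))) (PT.nd (nat_lit 156) (PT.nd (nat_lit 78) (PT.lf (nat_lit 15732) (nat_lit 3) (nat_lit 207) (nat_lit 4) (nat_lit 166) (nat_lit 217) (nat_lit 217)) (PT.lf (nat_lit 16112) (nat_lit 6) (nat_lit 212) (nat_lit 4) (nat_lit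 167) (nat_lit 217) (nat_lit 216))) (PT.nd (nat_lit 78) (PT.lf (nat_lit 16492) (nat_lit 6) (nat_lit 217) (nat_lit 4) (nat_lit 168) (nat_lit 217) (nat_lit 215)) (PT.nd (nat_lit 78) (PT.lf (nat_lit 16872) (nat_lit 6) (nat_lit 222) (nat_lit 4) (nat_lit 169) (nat_lit 217) (nat_lit 214)) (PT.lf (nat_lit 17252) (nat_lit 6) (nat_lit 227) (nat_lit 4) (nat_lit 170) (nat_lit 217) (nat_lit 213))))))))
noncomputable def pc45 : PT := (PT.nd (nat_lit 2496) (PT.nd (nat_lit 780) (PT.nd (nat_lit 390) (PT.nd (nat_lit 156) (PT.nd (nat_lit 78) (PT.lf (nat_lit 17708) (nat_lit 6) (nat_lit 233) (nat_lit 4) (nat_lit 171) (nat_lit 217) (nat_lit 212)) (PT.lf (nat_lit 18088) (nat_lit 6) (nat_lit 238) (nat_lit 4) (nat_lit 172) (nat_lit 217) (nat_lit 211))) (PT.nd (nat_lit 78) (PT.lf (nat_lit 18544) (nat_lit 6) (nat_lit 244) (nat_lit 4) (nat_lit 173) (nat_lit 217) (nat_lit 210)) (PT.nd (nat_lit 78) (PT.lf (nat_lit 19000) (nat_lit 6) (nat_lit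 250) (nat_lit 4) (nat_lit 174) (nat_lit 217) (nat_lit 209)) (PT.lf (nat_lit 19456) (nat_lit 6) (nat_lit 256) (nat_lit 4) (nat_lit 175) (nat_lit 217) (nat_lit 208))))) (PT.nd (nat_lit 156) (PT.nd (nat_lit 78) (PT.lf (nat_lit 19912) (nat_lit 6) (nat_lit 262) (nat_lit 4) (nat_lit 176) (nat_lit 217) (nat_lit 207)) (PT.lf (nat_lit 20444) (nat_lit 6) (nat_lit 269) (nat_lit 4) (nat_lit 177) (nat_lit 217) (nat_lit 206))) (PT.nd (nat_lit 78) (PT.lf (nat_lit 20976) (nat_lit 6) (nat_lit 276) (nat_lit 4) (nat_lit 178) (nat_lit 217) (nat_lit 205)) (PT.nd (nat_lit 78) (PT.lf (nat_lit 21584) (nat_lit 6) (nat_lit 284) (nat_lit 4) (nat_lit 179) (nat_lit 217) (nat_lit 204)) (PT.lf (nat_lit 22116) (nat_lit 6) (nat_lit 291) (nat_lit 4) (nat_lit 180) (nat_lit 217) (nat_lit 203)))))) (PT.nd (nat_lit 1326) (PT.nd (nat_lit 156) (PT.nd (nat_lit 78) (PT.lf (nat_lit 22724) (nat_lit 6) (nat_lit 299) (nat_lit 4) (nat_lit 181) (nat_lit 217)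 (nat_lit 202)) (PT.lf (nat_lit 23332) (nat_lit 6) (nat_lit 307) (nat_lit 4) (nat_lit 182) (nat_lit 217) (nat_lit 201))) (PT.nd (nat_lit 78) (PT.lf (nat_lit 24168) (nat_lit 6) (nat_lit 318) (nat_lit 4) (nat_lit 183) (nat_lit 217) (nat_lit 200)) (PT.nd (nat_lit 78) (PT.lf (nat_lit 24092) (nat_lit 6) (nat_lit 317) (nat_lit 4) (nat_lit 184) (nat_lit 217) (nat_lit 199)) (PT.lf (nat_lit 24016) (nat_lit 6) (nat_lit 316) (nat_lit 4) (nat_lit 185) (nat_lit 217) (nat_lit 198))))) (PT.nd (nat_lit 156) (PT.nd (nat_lit 78) (PT.lf (nat_lit 24016) (nat_lit 6) (nat_lit 316) (nat_lit 2) (nat_lit 198) (nat_lit 217) (nat_lit 185)) (PT.lf (nat_lit 24092) (nat_lit 6) (nat_lit 317) (nat_lit 2) (nat_lit 199) (nat_lit 217) (nat_lit 184))) (PT.nd (nat_lit 78) (PT.lf (nat_lit 24168) (nat_lit 6) (nat_lit 318) (nat_lit 2) (nat_lit 200) (nat_lit 217) (nat_lit 183)) (PT.nd (nat_lit 78) (PT.lf (nat_lit 23332) (nat_lit 6) (nat_lit 307) (nat_lit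 2) (nat_lit 201) (nat_lit 217) (nat_lit 182)) (PT.lf (nat_lit 22724) (nat_lit 6) (nat_lit 299) (nat_lit 2) (nat_lit 202) (nat_lit 217) (nat_lit 181))))))) (PT.nd (nat_lit 780) (PT.nd (nat_lit 390) (PT.nd (nat_lit 156) (PT.nd (nat_lit 78) (PT.lf (nat_lit 22116) (nat_lit 6) (nat_lit 291) (nat_lit 2) (nat_lit 203) (nat_lit 217) (nat_lit 180)) (PT.lf (nat_lit 21584) (nat_lit 6) (nat_lit 284) (nat_lit 2) (nat_lit 204) (nat_lit 217) (nat_lit 179))) (PT.nd (nat_lit 78) (PT.lf (nat_lit 20976) (nat_lit 6) (nat_lit 276) (nat_lit 2) (nat_lit 205) (nat_lit 217) (nat_lit 178)) (PT.nd (nat_lit 78) (PT.lf (nat_lit 20444) (nat_lit 6) (nat_lit 269) (nat_lit 2) (nat_lit 206) (nat_lit 217) (nat_lit 177)) (PT.lf (nat_lit 19912) (nat_lit 6) (nat_lit 262) (nat_lit 2) (nat_lit 207) (nat_lit 217) (nat_lit 176))))) (PT.nd (nat_lit 156) (PT.nd (nat_lit 78) (PT.lf (nat_lit 19456) (nat_lit 6) (nat_lit 256) (nat_lit 2) (nat_lit 208) (nat_lit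 217) (nat_lit 175)) (PT.lf (nat_lit 19000) (nat_lit 6) (nat_lit 250) (nat_lit 2) (nat_lit 209) (nat_lit 217) (nat_lit 174))) (PT.nd (nat_lit 78) (PT.lf (nat_lit 18544) (nat_lit 6) (nat_lit 244) (nat_lit 2) (nat_lit 210) (nat_lit 217) (nat_lit 173)) (PT.nd (nat_lit 78) (PT.lf (nat_lit 18088) (nat_lit 6) (nat_lit 238) (nat_lit 2) (nat_lit 211) (nat_lit 217) (nat_lit 172)) (PT.lf (nat_lit 17708) (nat_lit 6) (nat_lit 233) (nat_lit 2) (nat_lit 212) (nat_lit 217) (nat_lit 171)))))) (PT.nd (nat_lit 390) (PT.nd (nat_lit 156) (PT.nd (nat_lit 78) (PT.lf (nat_lit 17252) (nat_lit 6) (nat_lit 227) (nat_lit 2) (nat_lit 213) (nat_lit 217) (nat_lit 170)) (PT.lf (nat_lit 16872) (nat_lit 6) (nat_lit 222) (nat_lit 2) (nat_lit 214) (nat_lit 217) (nat_lit 169))) (PT.nd (nat_lit 78) (PT.lf (nat_lit 16492) (nat_lit 6) (nat_lit 217) (nat_lit 2) (nat_lit 215) (nat_lit 217) (nat_lit 168)) (PT.nd (nat_lit 78) (PT.lf (nat_lit 16112) (nat_lit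 6) (nat_lit 212) (nat_lit 2) (nat_lit 216) (nat_lit 217) (nat_lit 167)) (PT.lf (nat_lit 15732) (nat_lit 3) (nat_lit 207) (nat_lit 0) (nat_lit 217) (nat_lit 217) (nat_lit 166))))) (PT.nd (nat_lit 156) (PT.nd (nat_lit 78) (PT.lf (nat_lit 15352) (nat_lit 6) (nat_lit 202) (nat_lit 0) (nat_lit 218) (nat_lit 217) (nat_lit 165)) (PT.lf (nat_lit 14972) (nat_lit 6) (nat_lit 197) (nat_lit 0) (nat_lit 219) (nat_lit 217) (nat_lit 164))) (PT.nd (nat_lit 78) (PT.lf (nat_lit 14592) (nat_lit 6) (nat_lit 192) (nat_lit 0) (nat_lit 220) (nat_lit 217) (nat_lit 163)) (PT.nd (nat_lit 78) (PT.lf (nat_lit 14212) (nat_lit 6) (nat_lit 187) (nat_lit 0) (nat_lit 221) (nat_lit 217) (nat_lit 162)) (PT.lf (nat_lit 13832) (nat_lit 6) (nat_lit 182) (nat_lit 0) (nat_lit 222) (nat_lit 217) (nat_lit 161))))))))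
noncomputable def pc46 : PT := (PT.nd (nat_lit 58812) (PT.nd (nat_lit 58032) (PT.nd (nat_lit 57642) (PT.nd (nat_lit 57408) (PT.nd (nat_lit 78) (PT.lf (nat_lit 13452) (nat_lit 6) (nat_lit 177) (nat_lit 0) (nat_lit 223) (nat_lit 217) (nat_lit 160)) (PT.lf (nat_lit 13148) (nat_lit 6) (nat_lit 173) (nat_lit 0) (nat_lit 224) (nat_lit 217) (nat_lit 159))) (PT.nd (nat_lit 78) (PT.lf (nat_lit 12844) (nat_lit 6) (nat_lit 169) (nat_lit 5) (nat_lit 158) (nat_lit 218) (nat_lit 224)) (PT.nd (nat_lit 78) (PT.lf (nat_lit 13224) (nat_lit 6) (nat_lit 174) (nat_lit 5) (nat_lit 159) (nat_lit 218) (nat_lit 223)) (PT.lf (nat_lit 13528) (nat_lit 6) (nat_lit 178) (nat_lit 5) (nat_lit 160) (nat_lit 218) (nat_lit 222))))) (PT.nd (nat_lit 156) (PT.nd (nat_lit 78) (PT.lf (nat_lit 13908) (nat_lit 6) (nat_lit 183) (nat_lit 5) (nat_lit 161) (nat_lit 218) (nat_lit 221)) (PT.lf (nat_lit 14288) (nat_lit 6) (nat_lit 188) (nat_lit 5) (nat_lit 162)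 (nat_lit 218) (nat_lit 220))) (PT.nd (nat_lit 78) (PT.lf (nat_lit 14668) (nat_lit 6) (nat_lit 193) (nat_lit 5) (nat_lit 163) (nat_lit 218) (nat_lit 219)) (PT.nd (nat_lit 78) (PT.lf (nat_lit 15048) (nat_lit 3) (nat_lit 198) (nat_lit 4) (nat_lit 164) (nat_lit 218) (nat_lit 218)) (PT.lf (nat_lit 15352) (nat_lit 6) (nat_lit 202) (nat_lit 4) (nat_lit 165) (nat_lit 218) (nat_lit 217)))))) (PT.nd (nat_lit 390) (PT.nd (nat_lit 156) (PT.nd (nat_lit 78) (PT.lf (nat_lit 15656) (nat_lit 6) (nat_lit 206) (nat_lit 4) (nat_lit 166) (nat_lit 218) (nat_lit 216)) (PT.lf (nat_lit 16036) (nat_lit 6) (nat_lit 211) (nat_lit 4) (nat_lit 167) (nat_lit 218) (nat_lit 215))) (PT.nd (nat_lit 78) (PT.lf (nat_lit 16416) (nat_lit 6) (nat_lit 216) (nat_lit 4) (nat_lit 168) (nat_lit 218) (nat_lit 214)) (PT.nd (nat_lit 78) (PT.lf (nat_lit 16796) (nat_lit 6) (nat_lit 221) (nat_lit 4) (nat_lit 169) (nat_lit 218) (nat_lit 213)) (PT.lf (nat_lit 17176)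 (nat_lit 6) (nat_lit 226) (nat_lit 4) (nat_lit 170) (nat_lit 218) (nat_lit 212))))) (PT.nd (nat_lit 156) (PT.nd (nat_lit 78) (PT.lf (nat_lit 17632) (nat_lit 6) (nat_lit 232) (nat_lit 4) (nat_lit 171) (nat_lit 218) (nat_lit 211)) (PT.lf (nat_lit 18012) (nat_lit 6) (nat_lit 237) (nat_lit 4) (nat_lit 172) (nat_lit 218) (nat_lit 210))) (PT.nd (nat_lit 78) (PT.lf (nat_lit 18468) (nat_lit 6) (nat_lit 243) (nat_lit 4) (nat_lit 173) (nat_lit 218) (nat_lit 209)) (PT.nd (nat_lit 78) (PT.lf (nat_lit 18924) (nat_lit 6) (nat_lit 249) (nat_lit 4) (nat_lit 174) (nat_lit 218) (nat_lit 208)) (PT.lf (nat_lit 19380) (nat_lit 6) (nat_lit 255) (nat_lit 4) (nat_lit 175) (nat_lit 218) (nat_lit 207))))))) (PT.nd (nat_lit 2574) (PT.nd (nat_lit 2184) (PT.nd (nat_lit 156) (PT.nd (nat_lit 78) (PT.lf (nat_lit 19836) (nat_lit 6) (nat_lit 261) (nat_lit 4) (nat_lit 176) (nat_lit 218) (nat_lit 206)) (PT.lf (nat_lit 20368) (nat_lit 6) (nat_lit 268)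 (nat_lit 4) (nat_lit 177) (nat_lit 218) (nat_lit 205))) (PT.nd (nat_lit 78) (PT.lf (nat_lit 20900) (nat_lit 6) (nat_lit 275) (nat_lit 4) (nat_lit 178) (nat_lit 218) (nat_lit 204)) (PT.nd (nat_lit 1872) (PT.lf (nat_lit 21508) (nat_lit 6) (nat_lit 283) (nat_lit 4) (nat_lit 179) (nat_lit 218) (nat_lit 203)) (PT.lf (nat_lit 21508) (nat_lit 6) (nat_lit 283) (nat_lit 2) (nat_lit 203) (nat_lit 218) (nat_lit 179))))) (PT.nd (nat_lit 156) (PT.nd (nat_lit 78) (PT.lf (nat_lit 20900) (nat_lit 6) (nat_lit 275) (nat_lit 2) (nat_lit 204) (nat_lit 218) (nat_lit 178)) (PT.lf (nat_lit 20368) (nat_lit 6) (nat_lit 268) (nat_lit 2) (nat_lit 205) (nat_lit 218) (nat_lit 177))) (PT.nd (nat_lit 78) (PT.lf (nat_lit 19836) (nat_lit 6) (nat_lit 261) (nat_lit 2) (nat_lit 206) (nat_lit 218) (nat_lit 176)) (PT.nd (nat_lit 78) (PT.lf (nat_lit 19380) (nat_lit 6) (nat_lit 255) (nat_lit 2) (nat_lit 207) (nat_lit 218) (nat_lit 175)) (PT.lf (nat_lit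 18924) (nat_lit 6) (nat_lit 249) (nat_lit 2) (nat_lit 208) (nat_lit 218) (nat_lit 174)))))) (PT.nd (nat_lit 390) (PT.nd (nat_lit 156) (PT.nd (nat_lit 78) (PT.lf (nat_lit 18468) (nat_lit 6) (nat_lit 243) (nat_lit 2) (nat_lit 209) (nat_lit 218) (nat_lit 173)) (PT.lf (nat_lit 18012) (nat_lit 6) (nat_lit 237) (nat_lit 2) (nat_lit 210) (nat_lit 218) (nat_lit 172))) (PT.nd (nat_lit 78) (PT.lf (nat_lit 17632) (nat_lit 6) (nat_lit 232) (nat_lit 2) (nat_lit 211) (nat_lit 218) (nat_lit 171)) (PT.nd (nat_lit 78) (PT.lf (nat_lit 17176) (nat_lit 6) (nat_lit 226) (nat_lit 2) (nat_lit 212) (nat_lit 218) (nat_lit 170)) (PT.lf (nat_lit 16796) (nat_lit 6) (nat_lit 221) (nat_lit 2) (nat_lit 213) (nat_lit 218) (nat_lit 169))))) (PT.nd (nat_lit 156) (PT.nd (nat_lit 78) (PT.lf (nat_lit 16416) (nat_lit 6) (nat_lit 216) (nat_lit 2) (nat_lit 214) (nat_lit 218) (nat_lit 168)) (PT.lf (nat_lit 16036) (nat_lit 6) (nat_lit 211) (nat_lit 2) (nat_lit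 215) (nat_lit 218) (nat_lit 167))) (PT.nd (nat_lit 78) (PT.lf (nat_lit 15656) (nat_lit 6) (nat_lit 206) (nat_lit 2) (nat_lit 216) (nat_lit 218) (nat_lit 166)) (PT.nd (nat_lit 78) (PT.lf (nat_lit 15352) (nat_lit 6) (nat_lit 202) (nat_lit 2) (nat_lit 217) (nat_lit 218) (nat_lit 165)) (PT.lf (nat_lit 15048) (nat_lit 3) (nat_lit 198) (nat_lit 0) (nat_lit 218) (nat_lit 218) (nat_lit 164))))))))
noncomputable def pc47 : PT := (PT.nd (nat_lit 58656) (PT.nd (nat_lit 57876) (PT.nd (nat_lit 390) (PT.nd (nat_lit 156) (PT.nd (nat_lit 78) (PT.lf (nat_lit 14668) (nat_lit 6) (nat_lit 193) (nat_lit 0) (nat_lit 219) (nat_lit 218) (nat_lit 163)) (PT.lf (nat_lit 14288) (nat_lit 6) (nat_lit 188) (nat_lit 0) (nat_lit 220) (nat_lit 218) (nat_lit 162))) (PT.nd (nat_lit 78) (PT.lf (nat_lit 13908) (nat_lit 6) (nat_lit 183) (nat_lit 0) (nat_lit 221) (nat_lit 218) (nat_lit 161)) (PT.nd (nat_lit 78) (PT.lf (nat_lit 13528) (nat_lit 6) (nat_lit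 178) (nat_lit 0) (nat_lit 222) (nat_lit 218) (nat_lit 160)) (PT.lf (nat_lit 13224) (nat_lit 6) (nat_lit 174) (nat_lit 0) (nat_lit 223) (nat_lit 218) (nat_lit 159))))) (PT.nd (nat_lit 57252) (PT.nd (nat_lit 57174) (PT.lf (nat_lit 12844) (nat_lit 6) (nat_lit 169) (nat_lit 0) (nat_lit 224) (nat_lit 218) (nat_lit 158)) (PT.lf (nat_lit 12312) (nat_lit 6) (nat_lit 162) (nat_lit 5) (nat_lit 156) (nat_lit 219) (nat_lit 225))) (PT.nd (nat_lit 78) (PT.lf (nat_lit 12616) (nat_lit 6) (nat_lit 166) (nat_lit 5) (nat_lit 157) (nat_lit 219) (nat_lit 224)) (PT.nd (nat_lit 78) (PT.lf (nat_lit 12920) (nat_lit 6) (nat_lit 170) (nat_lit 5) (nat_lit 158) (nat_lit 219) (nat_lit 223)) (PT.lf (nat_lit 13300) (nat_lit 6) (nat_lit 175) (nat_lit 5) (nat_lit 159) (nat_lit 219) (nat_lit 222)))))) (PT.nd (nat_lit 390) (PT.nd (nat_lit 156) (PT.nd (nat_lit 78) (PT.lf (nat_lit 13604) (nat_lit 6) (nat_lit 179) (nat_lit 5) (nat_lit 160) (nat_lit 219)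 (nat_lit 221)) (PT.lf (nat_lit 13984) (nat_lit 6) (nat_lit 184) (nat_lit 5) (nat_lit 161) (nat_lit 219) (nat_lit 220))) (PT.nd (nat_lit 78) (PT.lf (nat_lit 14364) (nat_lit 3) (nat_lit 189) (nat_lit 4) (nat_lit 162) (nat_lit 219) (nat_lit 219)) (PT.nd (nat_lit 78) (PT.lf (nat_lit 14668) (nat_lit 6) (nat_lit 193) (nat_lit 4) (nat_lit 163) (nat_lit 219) (nat_lit 218)) (PT.lf (nat_lit 14972) (nat_lit 6) (nat_lit 197) (nat_lit 4) (nat_lit 164) (nat_lit 219) (nat_lit 217))))) (PT.nd (nat_lit 156) (PT.nd (nat_lit 78) (PT.lf (nat_lit 15276) (nat_lit 6) (nat_lit 201) (nat_lit 4) (nat_lit 165) (nat_lit 219) (nat_lit 216)) (PT.lf (nat_lit 15580) (nat_lit 6) (nat_lit 205) (nat_lit 4) (nat_lit 166) (nat_lit 219) (nat_lit 215))) (PT.nd (nat_lit 78) (PT.lf (nat_lit 15960) (nat_lit 6) (nat_lit 210) (nat_lit 4) (nat_lit 167) (nat_lit 219) (nat_lit 214)) (PT.nd (nat_lit 78) (PT.lf (nat_lit 16340) (nat_lit 6) (nat_lit 215) (nat_lit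 4) (nat_lit 168) (nat_lit 219) (nat_lit 213)) (PT.lf (nat_lit 16720) (nat_lit 6) (nat_lit 220) (nat_lit 4) (nat_lit 169) (nat_lit 219) (nat_lit 212))))))) (PT.nd (nat_lit 3276) (PT.nd (nat_lit 2886) (PT.nd (nat_lit 156) (PT.nd (nat_lit 78) (PT.lf (nat_lit 17100) (nat_lit 6) (nat_lit 225) (nat_lit 4) (nat_lit 170) (nat_lit 219) (nat_lit 211)) (PT.lf (nat_lit 17556) (nat_lit 6) (nat_lit 231) (nat_lit 4) (nat_lit 171) (nat_lit 219) (nat_lit 210))) (PT.nd (nat_lit 78) (PT.lf (nat_lit 17936) (nat_lit 6) (nat_lit 236) (nat_lit 4) (nat_lit 172) (nat_lit 219) (nat_lit 209)) (PT.nd (nat_lit 78) (PT.lf (nat_lit 18392) (nat_lit 6) (nat_lit 242) (nat_lit 4) (nat_lit 173) (nat_lit 219) (nat_lit 208)) (PT.lf (nat_lit 18848) (nat_lit 6) (nat_lit 248) (nat_lit 4) (nat_lit 174) (nat_lit 219) (nat_lit 207))))) (PT.nd (nat_lit 156) (PT.nd (nat_lit 78) (PT.lf (nat_lit 18848) (nat_lit 6) (nat_lit 248) (nat_lit 2) (nat_lit 207) (nat_lit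 219) (nat_lit 174)) (PT.lf (nat_lit 18392) (nat_lit 6) (nat_lit 242) (nat_lit 2) (nat_lit 208) (nat_lit 219) (nat_lit 173))) (PT.nd (nat_lit 78) (PT.lf (nat_lit 17936) (nat_lit 6) (nat_lit 236) (nat_lit 2) (nat_lit 209) (nat_lit 219) (nat_lit 172)) (PT.nd (nat_lit 78) (PT.lf (nat_lit 17556) (nat_lit 6) (nat_lit 231) (nat_lit 2) (nat_lit 210) (nat_lit 219) (nat_lit 171)) (PT.lf (nat_lit 17100) (nat_lit 6) (nat_lit 225) (nat_lit 2) (nat_lit 211) (nat_lit 219) (nat_lit 170)))))) (PT.nd (nat_lit 390) (PT.nd (nat_lit 156) (PT.nd (nat_lit 78) (PT.lf (nat_lit 16720) (nat_lit 6) (nat_lit 220) (nat_lit 2) (nat_lit 212) (nat_lit 219) (nat_lit 169)) (PT.lf (nat_lit 16340) (nat_lit 6) (nat_lit 215) (nat_lit 2) (nat_lit 213) (nat_lit 219) (nat_lit 168))) (PT.nd (nat_lit 78) (PT.lf (nat_lit 15960) (nat_lit 6) (nat_lit 210) (nat_lit 2) (nat_lit 214) (nat_lit 219) (nat_lit 167)) (PT.nd (nat_lit 78) (PT.lf (nat_lit 15580) (nat_lit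 6) (nat_lit 205) (nat_lit 2) (nat_lit 215) (nat_lit 219) (nat_lit 166)) (PT.lf (nat_lit 15276) (nat_lit 6) (nat_lit 201) (nat_lit 2) (nat_lit 216) (nat_lit 219) (nat_lit 165))))) (PT.nd (nat_lit 234) (PT.nd (nat_lit 78) (PT.lf (nat_lit 14972) (nat_lit 6) (nat_lit 197) (nat_lit 2) (nat_lit 217) (nat_lit 219) (nat_lit 164)) (PT.nd (nat_lit 78) (PT.lf (nat_lit 14668) (nat_lit 6) (nat_lit 193) (nat_lit 2) (nat_lit 218) (nat_lit 219) (nat_lit 163)) (PT.lf (nat_lit 14364) (nat_lit 3) (nat_lit 189) (nat_lit 0) (nat_lit 219) (nat_lit 219) (nat_lit 162)))) (PT.nd (nat_lit 78) (PT.lf (nat_lit 13984) (nat_lit 6) (nat_lit 184) (nat_lit 0) (nat_lit 220) (nat_lit 219) (nat_lit 161)) (PT.nd (nat_lit 78) (PT.lf (nat_lit 13604) (nat_lit 6) (nat_lit 179) (nat_lit 0) (nat_lit 221) (nat_lit 219) (nat_lit 160)) (PT.lf (nat_lit 13300) (nat_lit 6) (nat_lit 175) (nat_lit 0) (nat_lit 222) (nat_lit 219) (nat_lit 159))))))))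
noncomputable def pc48 : PT := (PT.nd (nat_lit 58422) (PT.nd (nat_lit 57642) (PT.nd (nat_lit 57252) (PT.nd (nat_lit 156) (PT.nd (nat_lit 78) (PT.lf (nat_lit 12920) (nat_lit 6) (nat_lit 170) (nat_lit 0) (nat_lit 223) (nat_lit 219) (nat_lit 158)) (PT.lf (nat_lit 12616) (nat_lit 6) (nat_lit 166) (nat_lit 0) (nat_lit 224) (nat_lit 219) (nat_lit 157))) (PT.nd (nat_lit 56940) (PT.lf (nat_lit 12312) (nat_lit 6) (nat_lit 162) (nat_lit 0) (nat_lit 225) (nat_lit 219) (nat_lit 156)) (PT.nd (nat_lit 78) (PT.lf (nat_lit 11780) (nat_lit 6) (nat_lit 155) (nat_lit 5) (nat_lit 154) (nat_lit 220) (nat_lit 226)) (PT.lf (nat_lit 12084) (nat_lit 6) (nat_lit 159) (nat_lit 5) (nat_lit 155) (nat_lit 220) (nat_lit 225))))) (PT.nd (nat_lit 156) (PT.nd (nat_lit 78) (PT.lf (nat_lit 12388) (nat_lit 6) (nat_lit 163) (nat_lit 5) (nat_lit 156) (nat_lit 220) (nat_lit 224)) (PT.lf (nat_lit 12692) (nat_lit 6) (nat_lit 167) (nat_lit 5) (nat_lit 157)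 (nat_lit 220) (nat_lit 223))) (PT.nd (nat_lit 78) (PT.lf (nat_lit 12996) (nat_lit 6) (nat_lit 171) (nat_lit 5) (nat_lit 158) (nat_lit 220) (nat_lit 222)) (PT.nd (nat_lit 78) (PT.lf (nat_lit 13376) (nat_lit 6) (nat_lit 176) (nat_lit 5) (nat_lit 159) (nat_lit 220) (nat_lit 221)) (PT.lf (nat_lit 13680) (nat_lit 3) (nat_lit 180) (nat_lit 4) (nat_lit 160) (nat_lit 220) (nat_lit 220)))))) (PT.nd (nat_lit 390) (PT.nd (nat_lit 156) (PT.nd (nat_lit 78) (PT.lf (nat_lit 13984) (nat_lit 6) (nat_lit 184) (nat_lit 4) (nat_lit 161) (nat_lit 220) (nat_lit 219)) (PT.lf (nat_lit 14288) (nat_lit 6) (nat_lit 188) (nat_lit 4) (nat_lit 162) (nat_lit 220) (nat_lit 218))) (PT.nd (nat_lit 78) (PT.lf (nat_lit 14592) (nat_lit 6) (nat_lit 192) (nat_lit 4) (nat_lit 163) (nat_lit 220) (nat_lit 217)) (PT.nd (nat_lit 78) (PT.lf (nat_lit 14896) (nat_lit 6) (nat_lit 196) (nat_lit 4) (nat_lit 164) (nat_lit 220) (nat_lit 216)) (PT.lf (nat_lit 15200)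 (nat_lit 6) (nat_lit 200) (nat_lit 4) (nat_lit 165) (nat_lit 220) (nat_lit 215))))) (PT.nd (nat_lit 156) (PT.nd (nat_lit 78) (PT.lf (nat_lit 15504) (nat_lit 6) (nat_lit 204) (nat_lit 4) (nat_lit 166) (nat_lit 220) (nat_lit 214)) (PT.lf (nat_lit 15884) (nat_lit 6) (nat_lit 209) (nat_lit 4) (nat_lit 167) (nat_lit 220) (nat_lit 213))) (PT.nd (nat_lit 78) (PT.lf (nat_lit 16264) (nat_lit 6) (nat_lit 214) (nat_lit 4) (nat_lit 168) (nat_lit 220) (nat_lit 212)) (PT.nd (nat_lit 78) (PT.lf (nat_lit 16644) (nat_lit 6) (nat_lit 219) (nat_lit 4) (nat_lit 169) (nat_lit 220) (nat_lit 211)) (PT.lf (nat_lit 17024) (nat_lit 6) (nat_lit 224) (nat_lit 4) (nat_lit 170) (nat_lit 220) (nat_lit 210))))))) (PT.nd (nat_lit 3666) (PT.nd (nat_lit 3276) (PT.nd (nat_lit 3042) (PT.nd (nat_lit 2964) (PT.lf (nat_lit 17480) (nat_lit 6) (nat_lit 230) (nat_lit 4) (nat_lit 171) (nat_lit 220) (nat_lit 209)) (PT.lf (nat_lit 17480) (nat_lit 6) (nat_lit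 230) (nat_lit 2) (nat_lit 209) (nat_lit 220) (nat_lit 171))) (PT.nd (nat_lit 78) (PT.lf (nat_lit 17024) (nat_lit 6) (nat_lit 224) (nat_lit 2) (nat_lit 210) (nat_lit 220) (nat_lit 170)) (PT.nd (nat_lit 78) (PT.lf (nat_lit 16644) (nat_lit 6) (nat_lit 219) (nat_lit 2) (nat_lit 211) (nat_lit 220) (nat_lit 169)) (PT.lf (nat_lit 16264) (nat_lit 6) (nat_lit 214) (nat_lit 2) (nat_lit 212) (nat_lit 220) (nat_lit 168))))) (PT.nd (nat_lit 156) (PT.nd (nat_lit 78) (PT.lf (nat_lit 15884) (nat_lit 6) (nat_lit 209) (nat_lit 2) (nat_lit 213) (nat_lit 220) (nat_lit 167)) (PT.lf (nat_lit 15504) (nat_lit 6) (nat_lit 204) (nat_lit 2) (nat_lit 214) (nat_lit 220) (nat_lit 166))) (PT.nd (nat_lit 78) (PT.lf (nat_lit 15200) (nat_lit 6) (nat_lit 200) (nat_lit 2) (nat_lit 215) (nat_lit 220) (nat_lit 165)) (PT.nd (nat_lit 78) (PT.lf (nat_lit 14896) (nat_lit 6) (nat_lit 196) (nat_lit 2) (nat_lit 216) (nat_lit 220) (nat_lit 164)) (PT.lf (nat_lit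 14592) (nat_lit 6) (nat_lit 192) (nat_lit 2) (nat_lit 217) (nat_lit 220) (nat_lit 163)))))) (PT.nd (nat_lit 390) (PT.nd (nat_lit 156) (PT.nd (nat_lit 78) (PT.lf (nat_lit 14288) (nat_lit 6) (nat_lit 188) (nat_lit 2) (nat_lit 218) (nat_lit 220) (nat_lit 162)) (PT.lf (nat_lit 13984) (nat_lit 6) (nat_lit 184) (nat_lit 2) (nat_lit 219) (nat_lit 220) (nat_lit 161))) (PT.nd (nat_lit 78) (PT.lf (nat_lit 13680) (nat_lit 3) (nat_lit 180) (nat_lit 0) (nat_lit 220) (nat_lit 220) (nat_lit 160)) (PT.nd (nat_lit 78) (PT.lf (nat_lit 13376) (nat_lit 6) (nat_lit 176) (nat_lit 0) (nat_lit 221) (nat_lit 220) (nat_lit 159)) (PT.lf (nat_lit 12996) (nat_lit 6) (nat_lit 171) (nat_lit 0) (nat_lit 222) (nat_lit 220) (nat_lit 158))))) (PT.nd (nat_lit 156) (PT.nd (nat_lit 78) (PT.lf (nat_lit 12692) (nat_lit 6) (nat_lit 167) (nat_lit 0) (nat_lit 223) (nat_lit 220) (nat_lit 157)) (PT.lf (nat_lit 12388) (nat_lit 6) (nat_lit 163) (nat_lit 0) (nat_lit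 224) (nat_lit 220) (nat_lit 156))) (PT.nd (nat_lit 78) (PT.lf (nat_lit 12084) (nat_lit 6) (nat_lit 159) (nat_lit 0) (nat_lit 225) (nat_lit 220) (nat_lit 155)) (PT.nd (nat_lit 56784) (PT.lf (nat_lit 11780) (nat_lit 6) (nat_lit 155) (nat_lit 0) (nat_lit 226) (nat_lit 220) (nat_lit 154)) (PT.lf (nat_lit 11552) (nat_lit 6) (nat_lit 152) (nat_lit 5) (nat_lit 153) (nat_lit 221) (nat_lit 226))))))))
noncomputable def pc49 : PT := (PT.nd (nat_lit 4836) (PT.nd (nat_lit 780) (PT.nd (nat_lit 390) (PT.nd (nat_lit 156) (PT.nd (nat_lit 78) (PT.lf (nat_lit 11856) (nat_lit 6) (nat_lit 156) (nat_lit 5) (nat_lit 154) (nat_lit 221) (nat_lit 225)) (PT.lf (nat_lit 12160) (nat_lit 6) (nat_lit 160) (nat_lit 5) (nat_lit 155) (nat_lit 221) (nat_lit 224))) (PT.nd (nat_lit 78) (PT.lf (nat_lit 12464) (nat_lit 6) (nat_lit 164) (nat_lit 5) (nat_lit 156) (nat_lit 221) (nat_lit 223)) (PT.nd (nat_lit 78) (PT.lf (nat_lit 12768) (nat_lit 6) (nat_lit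 168) (nat_lit 5) (nat_lit 157) (nat_lit 221) (nat_lit 222)) (PT.lf (nat_lit 13072) (nat_lit 3) (nat_lit 172) (nat_lit 4) (nat_lit 158) (nat_lit 221) (nat_lit 221))))) (PT.nd (nat_lit 156) (PT.nd (nat_lit 78) (PT.lf (nat_lit 13376) (nat_lit 6) (nat_lit 176) (nat_lit 4) (nat_lit 159) (nat_lit 221) (nat_lit 220)) (PT.lf (nat_lit 13604) (nat_lit 6) (nat_lit 179) (nat_lit 4) (nat_lit 160) (nat_lit 221) (nat_lit 219))) (PT.nd (nat_lit 78) (PT.lf (nat_lit 13908) (nat_lit 6) (nat_lit 183) (nat_lit 4) (nat_lit 161) (nat_lit 221) (nat_lit 218)) (PT.nd (nat_lit 78) (PT.lf (nat_lit 14212) (nat_lit 6) (nat_lit 187) (nat_lit 4) (nat_lit 162) (nat_lit 221) (nat_lit 217)) (PT.lf (nat_lit 14516) (nat_lit 6) (nat_lit 191) (nat_lit 4) (nat_lit 163) (nat_lit 221) (nat_lit 216)))))) (PT.nd (nat_lit 3666) (PT.nd (nat_lit 156) (PT.nd (nat_lit 78) (PT.lf (nat_lit 14820) (nat_lit 6) (nat_lit 195) (nat_lit 4) (nat_lit 164) (nat_lit 221)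 (nat_lit 215)) (PT.lf (nat_lit 15124) (nat_lit 6) (nat_lit 199) (nat_lit 4) (nat_lit 165) (nat_lit 221) (nat_lit 214))) (PT.nd (nat_lit 78) (PT.lf (nat_lit 15428) (nat_lit 6) (nat_lit 203) (nat_lit 4) (nat_lit 166) (nat_lit 221) (nat_lit 213)) (PT.nd (nat_lit 78) (PT.lf (nat_lit 15808) (nat_lit 6) (nat_lit 208) (nat_lit 4) (nat_lit 167) (nat_lit 221) (nat_lit 212)) (PT.lf (nat_lit 16188) (nat_lit 6) (nat_lit 213) (nat_lit 4) (nat_lit 168) (nat_lit 221) (nat_lit 211))))) (PT.nd (nat_lit 156) (PT.nd (nat_lit 78) (PT.lf (nat_lit 16188) (nat_lit 6) (nat_lit 213) (nat_lit 2) (nat_lit 211) (nat_lit 221) (nat_lit 168)) (PT.lf (nat_lit 15808) (nat_lit 6) (nat_lit 208) (nat_lit 2) (nat_lit 212) (nat_lit 221) (nat_lit 167))) (PT.nd (nat_lit 78) (PT.lf (nat_lit 15428) (nat_lit 6) (nat_lit 203) (nat_lit 2) (nat_lit 213) (nat_lit 221) (nat_lit 166)) (PT.nd (nat_lit 78) (PT.lf (nat_lit 15124) (nat_lit 6) (nat_lit 199) (nat_lit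 2) (nat_lit 214) (nat_lit 221) (nat_lit 165)) (PT.lf (nat_lit 14820) (nat_lit 6) (nat_lit 195) (nat_lit 2) (nat_lit 215) (nat_lit 221) (nat_lit 164))))))) (PT.nd (nat_lit 780) (PT.nd (nat_lit 390) (PT.nd (nat_lit 156) (PT.nd (nat_lit 78) (PT.lf (nat_lit 14516) (nat_lit 6) (nat_lit 191) (nat_lit 2) (nat_lit 216) (nat_lit 221) (nat_lit 163)) (PT.lf (nat_lit 14212) (nat_lit 6) (nat_lit 187) (nat_lit 2) (nat_lit 217) (nat_lit 221) (nat_lit 162))) (PT.nd (nat_lit 78) (PT.lf (nat_lit 13908) (nat_lit 6) (nat_lit 183) (nat_lit 2) (nat_lit 218) (nat_lit 221) (nat_lit 161)) (PT.nd (nat_lit 78) (PT.lf (nat_lit 13604) (nat_lit 6) (nat_lit 179) (nat_lit 2) (nat_lit 219) (nat_lit 221) (nat_lit 160)) (PT.lf (nat_lit 13376) (nat_lit 6) (nat_lit 176) (nat_lit 2) (nat_lit 220) (nat_lit 221) (nat_lit 159))))) (PT.nd (nat_lit 156) (PT.nd (nat_lit 78) (PT.lf (nat_lit 13072) (nat_lit 3) (nat_lit 172) (nat_lit 0) (nat_lit 221) (nat_lit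 221) (nat_lit 158)) (PT.lf (nat_lit 12768) (nat_lit 6) (nat_lit 168) (nat_lit 0) (nat_lit 222) (nat_lit 221) (nat_lit 157))) (PT.nd (nat_lit 78) (PT.lf (nat_lit 12464) (nat_lit 6) (nat_lit 164) (nat_lit 0) (nat_lit 223) (nat_lit 221) (nat_lit 156)) (PT.nd (nat_lit 78) (PT.lf (nat_lit 12160) (nat_lit 6) (nat_lit 160) (nat_lit 0) (nat_lit 224) (nat_lit 221) (nat_lit 155)) (PT.lf (nat_lit 11856) (nat_lit 6) (nat_lit 156) (nat_lit 0) (nat_lit 225) (nat_lit 221) (nat_lit 154)))))) (PT.nd (nat_lit 56940) (PT.nd (nat_lit 56706) (PT.nd (nat_lit 56628) (PT.lf (nat_lit 11552) (nat_lit 6) (nat_lit 152) (nat_lit 0) (nat_lit 226) (nat_lit 221) (nat_lit 153)) (PT.lf (nat_lit 11096) (nat_lit 6) (nat_lit 146) (nat_lit 5) (nat_lit 151) (nat_lit 222) (nat_lit 227))) (PT.nd (nat_lit 78) (PT.lf (nat_lit 11324) (nat_lit 6) (nat_lit 149) (nat_lit 5) (nat_lit 152) (nat_lit 222) (nat_lit 226)) (PT.nd (nat_lit 78) (PT.lf (nat_lit 11628)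 (nat_lit 6) (nat_lit 153) (nat_lit 5) (nat_lit 153) (nat_lit 222) (nat_lit 225)) (PT.lf (nat_lit 11932) (nat_lit 6) (nat_lit 157) (nat_lit 5) (nat_lit 154) (nat_lit 222) (nat_lit 224))))) (PT.nd (nat_lit 156) (PT.nd (nat_lit 78) (PT.lf (nat_lit 12236) (nat_lit 6) (nat_lit 161) (nat_lit 5) (nat_lit 155) (nat_lit 222) (nat_lit 223)) (PT.lf (nat_lit 12540) (nat_lit 3) (nat_lit 165) (nat_lit 4) (nat_lit 156) (nat_lit 222) (nat_lit 222))) (PT.nd (nat_lit 78) (PT.lf (nat_lit 12768) (nat_lit 6) (nat_lit 168) (nat_lit 4) (nat_lit 157) (nat_lit 222) (nat_lit 221)) (PT.nd (nat_lit 78) (PT.lf (nat_lit 12996) (nat_lit 6) (nat_lit 171) (nat_lit 4) (nat_lit 158) (nat_lit 222) (nat_lit 220)) (PT.lf (nat_lit 13300) (nat_lit 6) (nat_lit 175) (nat_lit 4) (nat_lit 159) (nat_lit 222) (nat_lit 219))))))))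
noncomputable def pc50 : PT := (PT.nd (nat_lit 61698) (PT.nd (nat_lit 4602) (PT.nd (nat_lit 4212) (PT.nd (nat_lit 156) (PT.nd (nat_lit 78) (PT.lf (nat_lit 13528) (nat_lit 6) (nat_lit 178) (nat_lit 4) (nat_lit 160) (nat_lit 222) (nat_lit 218)) (PT.lf (nat_lit 13832) (nat_lit 6) (nat_lit 182) (nat_lit 4) (nat_lit 161) (nat_lit 222) (nat_lit 217))) (PT.nd (nat_lit 78) (PT.lf (nat_lit 14136) (nat_lit 6) (nat_lit 186) (nat_lit 4) (nat_lit 162) (nat_lit 222) (nat_lit 216)) (PT.nd (nat_lit 78) (PT.lf (nat_lit 14440) (nat_lit 6) (nat_lit 190) (nat_lit 4) (nat_lit 163) (nat_lit 222) (nat_lit 215)) (PT.lf (nat_lit 14744) (nat_lit 6) (nat_lit 194) (nat_lit 4) (nat_lit 164) (nat_lit 222) (nat_lit 214))))) (PT.nd (nat_lit 156) (PT.nd (nat_lit 78) (PT.lf (nat_lit 14744) (nat_lit 6) (nat_lit 194) (nat_lit 2) (nat_lit 214) (nat_lit 222) (nat_lit 164)) (PT.lf (nat_lit 14440) (nat_lit 6) (nat_lit 190) (nat_lit 2) (nat_lit 215) (nat_lit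 222) (nat_lit 163))) (PT.nd (nat_lit 78) (PT.lf (nat_lit 14136) (nat_lit 6) (nat_lit 186) (nat_lit 2) (nat_lit 216) (nat_lit 222) (nat_lit 162)) (PT.nd (nat_lit 78) (PT.lf (nat_lit 13832) (nat_lit 6) (nat_lit 182) (nat_lit 2) (nat_lit 217) (nat_lit 222) (nat_lit 161)) (PT.lf (nat_lit 13528) (nat_lit 6) (nat_lit 178) (nat_lit 2) (nat_lit 218) (nat_lit 222) (nat_lit 160)))))) (PT.nd (nat_lit 390) (PT.nd (nat_lit 156) (PT.nd (nat_lit 78) (PT.lf (nat_lit 13300) (nat_lit 6) (nat_lit 175) (nat_lit 2) (nat_lit 219) (nat_lit 222) (nat_lit 159)) (PT.lf (nat_lit 12996) (nat_lit 6) (nat_lit 171) (nat_lit 2) (nat_lit 220) (nat_lit 222) (nat_lit 158))) (PT.nd (nat_lit 78) (PT.lf (nat_lit 12768) (nat_lit 6) (nat_lit 168) (nat_lit 2) (nat_lit 221) (nat_lit 222) (nat_lit 157)) (PT.nd (nat_lit 78) (PT.lf (nat_lit 12540) (nat_lit 3) (nat_lit 165) (nat_lit 0) (nat_lit 222) (nat_lit 222) (nat_lit 156)) (PT.lf (nat_lit 12236) (nat_lit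 6) (nat_lit 161) (nat_lit 0) (nat_lit 223) (nat_lit 222) (nat_lit 155))))) (PT.nd (nat_lit 156) (PT.nd (nat_lit 78) (PT.lf (nat_lit 11932) (nat_lit 6) (nat_lit 157) (nat_lit 0) (nat_lit 224) (nat_lit 222) (nat_lit 154)) (PT.lf (nat_lit 11628) (nat_lit 6) (nat_lit 153) (nat_lit 0) (nat_lit 225) (nat_lit 222) (nat_lit 153))) (PT.nd (nat_lit 78) (PT.lf (nat_lit 11324) (nat_lit 6) (nat_lit 149) (nat_lit 0) (nat_lit 226) (nat_lit 222) (nat_lit 152)) (PT.nd (nat_lit 56394) (PT.lf (nat_lit 11096) (nat_lit 6) (nat_lit 146) (nat_lit 0) (nat_lit 227) (nat_lit 222) (nat_lit 151)) (PT.lf (nat_lit 10640) (nat_lit 6) (nat_lit 140) (nat_lit 5) (nat_lit 149) (nat_lit 223) (nat_lit 228))))))) (PT.nd (nat_lit 780) (PT.nd (nat_lit 390) (PT.nd (nat_lit 156) (PT.nd (nat_lit 78) (PT.lf (nat_lit 10868) (nat_lit 6) (nat_lit 143) (nat_lit 5) (nat_lit 150) (nat_lit 223) (nat_lit 227)) (PT.lf (nat_lit 11172) (nat_lit 6) (nat_lit 147) (nat_lit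 5) (nat_lit 151) (nat_lit 223) (nat_lit 226))) (PT.nd (nat_lit 78) (PT.lf (nat_lit 11400) (nat_lit 6) (nat_lit 150) (nat_lit 5) (nat_lit 152) (nat_lit 223) (nat_lit 225)) (PT.nd (nat_lit 78) (PT.lf (nat_lit 11704) (nat_lit 6) (nat_lit 154) (nat_lit 5) (nat_lit 153) (nat_lit 223) (nat_lit 224)) (PT.lf (nat_lit 12008) (nat_lit 3) (nat_lit 158) (nat_lit 4) (nat_lit 154) (nat_lit 223) (nat_lit 223))))) (PT.nd (nat_lit 156) (PT.nd (nat_lit 78) (PT.lf (nat_lit 12236) (nat_lit 6) (nat_lit 161) (nat_lit 4) (nat_lit 155) (nat_lit 223) (nat_lit 222)) (PT.lf (nat_lit 12464) (nat_lit 6) (nat_lit 164) (nat_lit 4) (nat_lit 156) (nat_lit 223) (nat_lit 221))) (PT.nd (nat_lit 78) (PT.lf (nat_lit 12692) (nat_lit 6) (nat_lit 167) (nat_lit 4) (nat_lit 157) (nat_lit 223) (nat_lit 220)) (PT.nd (nat_lit 78) (PT.lf (nat_lit 12920) (nat_lit 6) (nat_lit 170) (nat_lit 4) (nat_lit 158) (nat_lit 223) (nat_lit 219)) (PT.lf (nat_lit 13224) (nat_lit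 6) (nat_lit 174) (nat_lit 4) (nat_lit 159) (nat_lit 223) (nat_lit 218)))))) (PT.nd (nat_lit 4446) (PT.nd (nat_lit 156) (PT.nd (nat_lit 78) (PT.lf (nat_lit 13452) (nat_lit 6) (nat_lit 177) (nat_lit 4) (nat_lit 160) (nat_lit 223) (nat_lit 217)) (PT.lf (nat_lit 13756) (nat_lit 6) (nat_lit 181) (nat_lit 4) (nat_lit 161) (nat_lit 223) (nat_lit 216))) (PT.nd (nat_lit 4134) (PT.lf (nat_lit 14060) (nat_lit 6) (nat_lit 185) (nat_lit 4) (nat_lit 162) (nat_lit 223) (nat_lit 215)) (PT.nd (nat_lit 78) (PT.lf (nat_lit 14060) (nat_lit 6) (nat_lit 185) (nat_lit 2) (nat_lit 215) (nat_lit 223) (nat_lit 162)) (PT.lf (nat_lit 13756) (nat_lit 6) (nat_lit 181) (nat_lit 2) (nat_lit 216) (nat_lit 223) (nat_lit 161))))) (PT.nd (nat_lit 156) (PT.nd (nat_lit 78) (PT.lf (nat_lit 13452) (nat_lit 6) (nat_lit 177) (nat_lit 2) (nat_lit 217) (nat_lit 223) (nat_lit 160)) (PT.lf (nat_lit 13224) (nat_lit 6) (nat_lit 174) (nat_lit 2) (nat_lit 218)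 (nat_lit 223) (nat_lit 159))) (PT.nd (nat_lit 78) (PT.lf (nat_lit 12920) (nat_lit 6) (nat_lit 170) (nat_lit 2) (nat_lit 219) (nat_lit 223) (nat_lit 158)) (PT.nd (nat_lit 78) (PT.lf (nat_lit 12692) (nat_lit 6) (nat_lit 167) (nat_lit 2) (nat_lit 220) (nat_lit 223) (nat_lit 157)) (PT.lf (nat_lit 12464) (nat_lit 6) (nat_lit 164) (nat_lit 2) (nat_lit 221) (nat_lit 223) (nat_lit 156))))))))
noncomputable def pc51 : PT := (PT.nd (nat_lit 62088) (PT.nd (nat_lit 56862) (PT.nd (nat_lit 390) (PT.nd (nat_lit 156) (PT.nd (nat_lit 78) (PT.lf (nat_lit 12236) (nat_lit 6) (nat_lit 161) (nat_lit 2) (nat_lit 222) (nat_lit 223) (nat_lit 155)) (PT.lf (nat_lit 12008) (nat_lit 3) (nat_lit 158) (nat_lit 0) (nat_lit 223) (nat_lit 223) (nat_lit 154))) (PT.nd (nat_lit 78) (PT.lf (nat_lit 11704) (nat_lit 6) (nat_lit 154) (nat_lit 0) (nat_lit 224) (nat_lit 223) (nat_lit 153)) (PT.nd (nat_lit 78) (PT.lf (nat_lit 11400) (nat_lit 6) (nat_lit 150)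 (nat_lit 0) (nat_lit 225) (nat_lit 223) (nat_lit 152)) (PT.lf (nat_lit 11172) (nat_lit 6) (nat_lit 147) (nat_lit 0) (nat_lit 226) (nat_lit 223) (nat_lit 151))))) (PT.nd (nat_lit 56238) (PT.nd (nat_lit 78) (PT.lf (nat_lit 10868) (nat_lit 6) (nat_lit 143) (nat_lit 0) (nat_lit 227) (nat_lit 223) (nat_lit 150)) (PT.lf (nat_lit 10640) (nat_lit 6) (nat_lit 140) (nat_lit 0) (nat_lit 228) (nat_lit 223) (nat_lit 149))) (PT.nd (nat_lit 78) (PT.lf (nat_lit 10184) (nat_lit 6) (nat_lit 134) (nat_lit 5) (nat_lit 147) (nat_lit 224) (nat_lit 229)) (PT.nd (nat_lit 78) (PT.lf (nat_lit 10412) (nat_lit 6) (nat_lit 137) (nat_lit 5) (nat_lit 148) (nat_lit 224) (nat_lit 228)) (PT.lf (nat_lit 10716) (nat_lit 6) (nat_lit 141) (nat_lit 5) (nat_lit 149) (nat_lit 224) (nat_lit 227)))))) (PT.nd (nat_lit 390) (PT.nd (nat_lit 156) (PT.nd (nat_lit 78) (PT.lf (nat_lit 10944) (nat_lit 6) (nat_lit 144) (nat_lit 5) (nat_lit 150) (nat_lit 224) (nat_lit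 226)) (PT.lf (nat_lit 11248) (nat_lit 6) (nat_lit 148) (nat_lit 5) (nat_lit 151) (nat_lit 224) (nat_lit 225))) (PT.nd (nat_lit 78) (PT.lf (nat_lit 11476) (nat_lit 3) (nat_lit 151) (nat_lit 4) (nat_lit 152) (nat_lit 224) (nat_lit 224)) (PT.nd (nat_lit 78) (PT.lf (nat_lit 11704) (nat_lit 6) (nat_lit 154) (nat_lit 4) (nat_lit 153) (nat_lit 224) (nat_lit 223)) (PT.lf (nat_lit 11932) (nat_lit 6) (nat_lit 157) (nat_lit 4) (nat_lit 154) (nat_lit 224) (nat_lit 222))))) (PT.nd (nat_lit 156) (PT.nd (nat_lit 78) (PT.lf (nat_lit 12160) (nat_lit 6) (nat_lit 160) (nat_lit 4) (nat_lit 155) (nat_lit 224) (nat_lit 221)) (PT.lf (nat_lit 12388) (nat_lit 6) (nat_lit 163) (nat_lit 4) (nat_lit 156) (nat_lit 224) (nat_lit 220))) (PT.nd (nat_lit 78) (PT.lf (nat_lit 12616) (nat_lit 6) (nat_lit 166) (nat_lit 4) (nat_lit 157) (nat_lit 224) (nat_lit 219)) (PT.nd (nat_lit 78) (PT.lf (nat_lit 12844) (nat_lit 6) (nat_lit 169) (nat_lit 4) (nat_lit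 158) (nat_lit 224) (nat_lit 218)) (PT.lf (nat_lit 13148) (nat_lit 6) (nat_lit 173) (nat_lit 4) (nat_lit 159) (nat_lit 224) (nat_lit 217))))))) (PT.nd (nat_lit 780) (PT.nd (nat_lit 390) (PT.nd (nat_lit 156) (PT.nd (nat_lit 78) (PT.lf (nat_lit 13148) (nat_lit 6) (nat_lit 173) (nat_lit 2) (nat_lit 217) (nat_lit 224) (nat_lit 159)) (PT.lf (nat_lit 12844) (nat_lit 6) (nat_lit 169) (nat_lit 2) (nat_lit 218) (nat_lit 224) (nat_lit 158))) (PT.nd (nat_lit 78) (PT.lf (nat_lit 12616) (nat_lit 6) (nat_lit 166) (nat_lit 2) (nat_lit 219) (nat_lit 224) (nat_lit 157)) (PT.nd (nat_lit 78) (PT.lf (nat_lit 12388) (nat_lit 6) (nat_lit 163) (nat_lit 2) (nat_lit 220) (nat_lit 224) (nat_lit 156)) (PT.lf (nat_lit 12160) (nat_lit 6) (nat_lit 160) (nat_lit 2) (nat_lit 221) (nat_lit 224) (nat_lit 155))))) (PT.nd (nat_lit 156) (PT.nd (nat_lit 78) (PT.lf (nat_lit 11932) (nat_lit 6) (nat_lit 157) (nat_lit 2) (nat_lit 222) (nat_lit 224) (nat_lit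 154)) (PT.lf (nat_lit 11704) (nat_lit 6) (nat_lit 154) (nat_lit 2) (nat_lit 223) (nat_lit 224) (nat_lit 153))) (PT.nd (nat_lit 78) (PT.lf (nat_lit 11476) (nat_lit 3) (nat_lit 151) (nat_lit 0) (nat_lit 224) (nat_lit 224) (nat_lit 152)) (PT.nd (nat_lit 78) (PT.lf (nat_lit 11248) (nat_lit 6) (nat_lit 148) (nat_lit 0) (nat_lit 225) (nat_lit 224) (nat_lit 151)) (PT.lf (nat_lit 10944) (nat_lit 6) (nat_lit 144) (nat_lit 0) (nat_lit 226) (nat_lit 224) (nat_lit 150)))))) (PT.nd (nat_lit 56316) (PT.nd (nat_lit 156) (PT.nd (nat_lit 78) (PT.lf (nat_lit 10716) (nat_lit 6) (nat_lit 141) (nat_lit 0) (nat_lit 227) (nat_lit 224) (nat_lit 149)) (PT.lf (nat_lit 10412) (nat_lit 6) (nat_lit 137) (nat_lit 0) (nat_lit 228) (nat_lit 224) (nat_lit 148))) (PT.nd (nat_lit 56004) (PT.lf (nat_lit 10184) (nat_lit 6) (nat_lit 134) (nat_lit 0) (nat_lit 229) (nat_lit 224) (nat_lit 147)) (PT.nd (nat_lit 78) (PT.lf (nat_lit 9956) (nat_lit 6) (nat_lit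 131) (nat_lit 5) (nat_lit 146) (nat_lit 225) (nat_lit 229)) (PT.lf (nat_lit 10260) (nat_lit 6) (nat_lit 135) (nat_lit 5) (nat_lit 147) (nat_lit 225) (nat_lit 228))))) (PT.nd (nat_lit 234) (PT.nd (nat_lit 78) (PT.lf (nat_lit 10488) (nat_lit 6) (nat_lit 138) (nat_lit 5) (nat_lit 148) (nat_lit 225) (nat_lit 227)) (PT.nd (nat_lit 78) (PT.lf (nat_lit 10792) (nat_lit 6) (nat_lit 142) (nat_lit 5) (nat_lit 149) (nat_lit 225) (nat_lit 226)) (PT.lf (nat_lit 11020) (nat_lit 3) (nat_lit 145) (nat_lit 4) (nat_lit 150) (nat_lit 225) (nat_lit 225)))) (PT.nd (nat_lit 78) (PT.lf (nat_lit 11248) (nat_lit 6) (nat_lit 148) (nat_lit 4) (nat_lit 151) (nat_lit 225) (nat_lit 224)) (PT.nd (nat_lit 78) (PT.lf (nat_lit 11400) (nat_lit 6) (nat_lit 150) (nat_lit 4) (nat_lit 152) (nat_lit 225) (nat_lit 223)) (PT.lf (nat_lit 11628) (nat_lit 6) (nat_lit 153) (nat_lit 4) (nat_lit 153) (nat_lit 225) (nat_lit 222))))))))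
noncomputable def pc52 : PT := (PT.nd (nat_lit 62166) (PT.nd (nat_lit 5616) (PT.nd (nat_lit 5226) (PT.nd (nat_lit 156) (PT.nd (nat_lit 78) (PT.lf (nat_lit 11856) (nat_lit 6) (nat_lit 156) (nat_lit 4) (nat_lit 154) (nat_lit 225) (nat_lit 221)) (PT.lf (nat_lit 12084) (nat_lit 6) (nat_lit 159) (nat_lit 4) (nat_lit 155) (nat_lit 225) (nat_lit 220))) (PT.nd (nat_lit 4914) (PT.lf (nat_lit 12312) (nat_lit 6) (nat_lit 162) (nat_lit 4) (nat_lit 156) (nat_lit 225) (nat_lit 219)) (PT.nd (nat_lit 78) (PT.lf (nat_lit 12312) (nat_lit 6) (nat_lit 162) (nat_lit 2) (nat_lit 219) (nat_lit 225) (nat_lit 156)) (PT.lf (nat_lit 12084) (nat_lit 6) (nat_lit 159) (nat_lit 2) (nat_lit 220) (nat_lit 225) (nat_lit 155))))) (PT.nd (nat_lit 156) (PT.nd (nat_lit 78) (PT.lf (nat_lit 11856) (nat_lit 6) (nat_lit 156) (nat_lit 2) (nat_lit 221) (nat_lit 225) (nat_lit 154)) (PT.lf (nat_lit 11628) (nat_lit 6) (nat_lit 153) (nat_lit 2) (nat_lit 222)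 (nat_lit 225) (nat_lit 153))) (PT.nd (nat_lit 78) (PT.lf (nat_lit 11400) (nat_lit 6) (nat_lit 150) (nat_lit 2) (nat_lit 223) (nat_lit 225) (nat_lit 152)) (PT.nd (nat_lit 78) (PT.lf (nat_lit 11248) (nat_lit 6) (nat_lit 148) (nat_lit 2) (nat_lit 224) (nat_lit 225) (nat_lit 151)) (PT.lf (nat_lit 11020) (nat_lit 3) (nat_lit 145) (nat_lit 0) (nat_lit 225) (nat_lit 225) (nat_lit 150)))))) (PT.nd (nat_lit 56160) (PT.nd (nat_lit 156) (PT.nd (nat_lit 78) (PT.lf (nat_lit 10792) (nat_lit 6) (nat_lit 142) (nat_lit 0) (nat_lit 226) (nat_lit 225) (nat_lit 149)) (PT.lf (nat_lit 10488) (nat_lit 6) (nat_lit 138) (nat_lit 0) (nat_lit 227) (nat_lit 225) (nat_lit 148))) (PT.nd (nat_lit 78) (PT.lf (nat_lit 10260) (nat_lit 6) (nat_lit 135) (nat_lit 0) (nat_lit 228) (nat_lit 225) (nat_lit 147)) (PT.nd (nat_lit 55848) (PT.lf (nat_lit 9956) (nat_lit 6) (nat_lit 131) (nat_lit 0) (nat_lit 229) (nat_lit 225) (nat_lit 146)) (PT.lf (nat_lit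 9576) (nat_lit 6) (nat_lit 126) (nat_lit 5) (nat_lit 144) (nat_lit 226) (nat_lit 230))))) (PT.nd (nat_lit 156) (PT.nd (nat_lit 78) (PT.lf (nat_lit 9804) (nat_lit 6) (nat_lit 129) (nat_lit 5) (nat_lit 145) (nat_lit 226) (nat_lit 229)) (PT.lf (nat_lit 10032) (nat_lit 6) (nat_lit 132) (nat_lit 5) (nat_lit 146) (nat_lit 226) (nat_lit 228))) (PT.nd (nat_lit 78) (PT.lf (nat_lit 10336) (nat_lit 6) (nat_lit 136) (nat_lit 5) (nat_lit 147) (nat_lit 226) (nat_lit 227)) (PT.nd (nat_lit 78) (PT.lf (nat_lit 10564) (nat_lit 3) (nat_lit 139) (nat_lit 4) (nat_lit 148) (nat_lit 226) (nat_lit 226)) (PT.lf (nat_lit 10792) (nat_lit 6) (nat_lit 142) (nat_lit 4) (nat_lit 149) (nat_lit 226) (nat_lit 225))))))) (PT.nd (nat_lit 5850) (PT.nd (nat_lit 5460) (PT.nd (nat_lit 156) (PT.nd (nat_lit 78) (PT.lf (nat_lit 10944) (nat_lit 6) (nat_lit 144) (nat_lit 4) (nat_lit 150) (nat_lit 226) (nat_lit 224)) (PT.lf (nat_lit 11172) (nat_lit 6) (nat_lit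 147) (nat_lit 4) (nat_lit 151) (nat_lit 226) (nat_lit 223))) (PT.nd (nat_lit 78) (PT.lf (nat_lit 11324) (nat_lit 6) (nat_lit 149) (nat_lit 4) (nat_lit 152) (nat_lit 226) (nat_lit 222)) (PT.nd (nat_lit 78) (PT.lf (nat_lit 11552) (nat_lit 6) (nat_lit 152) (nat_lit 4) (nat_lit 153) (nat_lit 226) (nat_lit 221)) (PT.lf (nat_lit 11780) (nat_lit 6) (nat_lit 155) (nat_lit 4) (nat_lit 154) (nat_lit 226) (nat_lit 220))))) (PT.nd (nat_lit 156) (PT.nd (nat_lit 78) (PT.lf (nat_lit 11780) (nat_lit 6) (nat_lit 155) (nat_lit 2) (nat_lit 220) (nat_lit 226) (nat_lit 154)) (PT.lf (nat_lit 11552) (nat_lit 6) (nat_lit 152) (nat_lit 2) (nat_lit 221) (nat_lit 226) (nat_lit 153))) (PT.nd (nat_lit 78) (PT.lf (nat_lit 11324) (nat_lit 6) (nat_lit 149) (nat_lit 2) (nat_lit 222) (nat_lit 226) (nat_lit 152)) (PT.nd (nat_lit 78) (PT.lf (nat_lit 11172) (nat_lit 6) (nat_lit 147) (nat_lit 2) (nat_lit 223) (nat_lit 226) (nat_lit 151)) (PT.lf (nat_lit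 10944) (nat_lit 6) (nat_lit 144) (nat_lit 2) (nat_lit 224) (nat_lit 226) (nat_lit 150)))))) (PT.nd (nat_lit 390) (PT.nd (nat_lit 156) (PT.nd (nat_lit 78) (PT.lf (nat_lit 10792) (nat_lit 6) (nat_lit 142) (nat_lit 2) (nat_lit 225) (nat_lit 226) (nat_lit 149)) (PT.lf (nat_lit 10564) (nat_lit 3) (nat_lit 139) (nat_lit 0) (nat_lit 226) (nat_lit 226) (nat_lit 148))) (PT.nd (nat_lit 78) (PT.lf (nat_lit 10336) (nat_lit 6) (nat_lit 136) (nat_lit 0) (nat_lit 227) (nat_lit 226) (nat_lit 147)) (PT.nd (nat_lit 78) (PT.lf (nat_lit 10032) (nat_lit 6) (nat_lit 132) (nat_lit 0) (nat_lit 228) (nat_lit 226) (nat_lit 146)) (PT.lf (nat_lit 9804) (nat_lit 6) (nat_lit 129) (nat_lit 0) (nat_lit 229) (nat_lit 226) (nat_lit 145))))) (PT.nd (nat_lit 55692) (PT.nd (nat_lit 55614) (PT.lf (nat_lit 9576) (nat_lit 6) (nat_lit 126) (nat_lit 0) (nat_lit 230) (nat_lit 226) (nat_lit 144)) (PT.lf (nat_lit 9196) (nat_lit 6) (nat_lit 121) (nat_lit 5)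 (nat_lit 142) (nat_lit 227) (nat_lit 231))) (PT.nd (nat_lit 78) (PT.lf (nat_lit 9424) (nat_lit 6) (nat_lit 124) (nat_lit 5) (nat_lit 143) (nat_lit 227) (nat_lit 230)) (PT.nd (nat_lit 78) (PT.lf (nat_lit 9652) (nat_lit 6) (nat_lit 127) (nat_lit 5) (nat_lit 144) (nat_lit 227) (nat_lit 229)) (PT.lf (nat_lit 9880) (nat_lit 6) (nat_lit 130) (nat_lit 5) (nat_lit 145) (nat_lit 227) (nat_lit 228))))))))
noncomputable def pc53 : PT := (PT.nd (nat_lit 62322) (PT.nd (nat_lit 6240) (PT.nd (nat_lit 390) (PT.nd (nat_lit 156) (PT.nd (nat_lit 78) (PT.lf (nat_lit 10108) (nat_lit 3) (nat_lit 133) (nat_lit 4) (nat_lit 146) (nat_lit 227) (nat_lit 227)) (PT.lf (nat_lit 10336) (nat_lit 6) (nat_lit 136) (nat_lit 4) (nat_lit 147) (nat_lit 227) (nat_lit 226))) (PT.nd (nat_lit 78) (PT.lf (nat_lit 10488) (nat_lit 6) (nat_lit 138) (nat_lit 4) (nat_lit 148) (nat_lit 227) (nat_lit 225)) (PT.nd (nat_lit 78) (PT.lf (nat_lit 10716) (nat_lit 6)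 (nat_lit 141) (nat_lit 4) (nat_lit 149) (nat_lit 227) (nat_lit 224)) (PT.lf (nat_lit 10868) (nat_lit 6) (nat_lit 143) (nat_lit 4) (nat_lit 150) (nat_lit 227) (nat_lit 223))))) (PT.nd (nat_lit 5616) (PT.nd (nat_lit 5538) (PT.lf (nat_lit 11096) (nat_lit 6) (nat_lit 146) (nat_lit 4) (nat_lit 151) (nat_lit 227) (nat_lit 222)) (PT.lf (nat_lit 11096) (nat_lit 6) (nat_lit 146) (nat_lit 2) (nat_lit 222) (nat_lit 227) (nat_lit 151))) (PT.nd (nat_lit 78) (PT.lf (nat_lit 10868) (nat_lit 6) (nat_lit 143) (nat_lit 2) (nat_lit 223) (nat_lit 227) (nat_lit 150)) (PT.nd (nat_lit 78) (PT.lf (nat_lit 10716) (nat_lit 6) (nat_lit 141) (nat_lit 2) (nat_lit 224) (nat_lit 227) (nat_lit 149)) (PT.lf (nat_lit 10488) (nat_lit 6) (nat_lit 138) (nat_lit 2) (nat_lit 225) (nat_lit 227) (nat_lit 148)))))) (PT.nd (nat_lit 390) (PT.nd (nat_lit 156) (PT.nd (nat_lit 78) (PT.lf (nat_lit 10336) (nat_lit 6) (nat_lit 136) (nat_lit 2) (nat_lit 226) (nat_lit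 227) (nat_lit 147)) (PT.lf (nat_lit 10108) (nat_lit 3) (nat_lit 133) (nat_lit 0) (nat_lit 227) (nat_lit 227) (nat_lit 146))) (PT.nd (nat_lit 78) (PT.lf (nat_lit 9880) (nat_lit 6) (nat_lit 130) (nat_lit 0) (nat_lit 228) (nat_lit 227) (nat_lit 145)) (PT.nd (nat_lit 78) (PT.lf (nat_lit 9652) (nat_lit 6) (nat_lit 127) (nat_lit 0) (nat_lit 229) (nat_lit 227) (nat_lit 144)) (PT.lf (nat_lit 9424) (nat_lit 6) (nat_lit 124) (nat_lit 0) (nat_lit 230) (nat_lit 227) (nat_lit 143))))) (PT.nd (nat_lit 55458) (PT.nd (nat_lit 55380) (PT.lf (nat_lit 9196) (nat_lit 6) (nat_lit 121) (nat_lit 0) (nat_lit 231) (nat_lit 227) (nat_lit 142)) (PT.lf (nat_lit 8816) (nat_lit 6) (nat_lit 116) (nat_lit 5) (nat_lit 140) (nat_lit 228) (nat_lit 232))) (PT.nd (nat_lit 78) (PT.lf (nat_lit 9044) (nat_lit 6) (nat_lit 119) (nat_lit 5) (nat_lit 141) (nat_lit 228) (nat_lit 231)) (PT.nd (nat_lit 78) (PT.lf (nat_lit 9272) (nat_lit 6) (nat_lit 122) (nat_lit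 5) (nat_lit 142) (nat_lit 228) (nat_lit 230)) (PT.lf (nat_lit 9500) (nat_lit 6) (nat_lit 125) (nat_lit 5) (nat_lit 143) (nat_lit 228) (nat_lit 229))))))) (PT.nd (nat_lit 6474) (PT.nd (nat_lit 390) (PT.nd (nat_lit 156) (PT.nd (nat_lit 78) (PT.lf (nat_lit 9728) (nat_lit 3) (nat_lit 128) (nat_lit 4) (nat_lit 144) (nat_lit 228) (nat_lit 228)) (PT.lf (nat_lit 9880) (nat_lit 6) (nat_lit 130) (nat_lit 4) (nat_lit 145) (nat_lit 228) (nat_lit 227))) (PT.nd (nat_lit 78) (PT.lf (nat_lit 10032) (nat_lit 6) (nat_lit 132) (nat_lit 4) (nat_lit 146) (nat_lit 228) (nat_lit 226)) (PT.nd (nat_lit 78) (PT.lf (nat_lit 10260) (nat_lit 6) (nat_lit 135) (nat_lit 4) (nat_lit 147) (nat_lit 228) (nat_lit 225)) (PT.lf (nat_lit 10412) (nat_lit 6) (nat_lit 137) (nat_lit 4) (nat_lit 148) (nat_lit 228) (nat_lit 224))))) (PT.nd (nat_lit 5850) (PT.nd (nat_lit 5772) (PT.lf (nat_lit 10640) (nat_lit 6) (nat_lit 140) (nat_lit 4) (nat_lit 149) (nat_lit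 228) (nat_lit 223)) (PT.lf (nat_lit 10640) (nat_lit 6) (nat_lit 140) (nat_lit 2) (nat_lit 223) (nat_lit 228) (nat_lit 149))) (PT.nd (nat_lit 78) (PT.lf (nat_lit 10412) (nat_lit 6) (nat_lit 137) (nat_lit 2) (nat_lit 224) (nat_lit 228) (nat_lit 148)) (PT.nd (nat_lit 78) (PT.lf (nat_lit 10260) (nat_lit 6) (nat_lit 135) (nat_lit 2) (nat_lit 225) (nat_lit 228) (nat_lit 147)) (PT.lf (nat_lit 10032) (nat_lit 6) (nat_lit 132) (nat_lit 2) (nat_lit 226) (nat_lit 228) (nat_lit 146)))))) (PT.nd (nat_lit 390) (PT.nd (nat_lit 156) (PT.nd (nat_lit 78) (PT.lf (nat_lit 9880) (nat_lit 6) (nat_lit 130) (nat_lit 2) (nat_lit 227) (nat_lit 228) (nat_lit 145)) (PT.lf (nat_lit 9728) (nat_lit 3) (nat_lit 128) (nat_lit 0) (nat_lit 228) (nat_lit 228) (nat_lit 144))) (PT.nd (nat_lit 78) (PT.lf (nat_lit 9500) (nat_lit 6) (nat_lit 125) (nat_lit 0) (nat_lit 229) (nat_lit 228) (nat_lit 143)) (PT.nd (nat_lit 78) (PT.lf (nat_lit 9272) (nat_lit 6)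 (nat_lit 122) (nat_lit 0) (nat_lit 230) (nat_lit 228) (nat_lit 142)) (PT.lf (nat_lit 9044) (nat_lit 6) (nat_lit 119) (nat_lit 0) (nat_lit 231) (nat_lit 228) (nat_lit 141))))) (PT.nd (nat_lit 55224) (PT.nd (nat_lit 55146) (PT.lf (nat_lit 8816) (nat_lit 6) (nat_lit 116) (nat_lit 0) (nat_lit 232) (nat_lit 228) (nat_lit 140)) (PT.lf (nat_lit 8436) (nat_lit 6) (nat_lit 111) (nat_lit 5) (nat_lit 138) (nat_lit 229) (nat_lit 233))) (PT.nd (nat_lit 78) (PT.lf (nat_lit 8664) (nat_lit 6) (nat_lit 114) (nat_lit 5) (nat_lit 139) (nat_lit 229) (nat_lit 232)) (PT.nd (nat_lit 78) (PT.lf (nat_lit 8892) (nat_lit 6) (nat_lit 117) (nat_lit 5) (nat_lit 140) (nat_lit 229) (nat_lit 231)) (PT.lf (nat_lit 9120) (nat_lit 6) (nat_lit 120) (nat_lit 5) (nat_lit 141) (nat_lit 229) (nat_lit 230))))))))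
noncomputable def pc54 : PT := (PT.nd (nat_lit 62400) (PT.nd (nat_lit 6708) (PT.nd (nat_lit 390) (PT.nd (nat_lit 156) (PT.nd (nat_lit 78) (PT.lf (nat_lit 9348) (nat_lit 3) (nat_lit 123) (nat_lit 4) (nat_lit 142) (nat_lit 229) (nat_lit 229)) (PT.lf (nat_lit 9500) (nat_lit 6) (nat_lit 125) (nat_lit 4) (nat_lit 143) (nat_lit 229) (nat_lit 228))) (PT.nd (nat_lit 78) (PT.lf (nat_lit 9652) (nat_lit 6) (nat_lit 127) (nat_lit 4) (nat_lit 144) (nat_lit 229) (nat_lit 227)) (PT.nd (nat_lit 78) (PT.lf (nat_lit 9804) (nat_lit 6) (nat_lit 129) (nat_lit 4) (nat_lit 145) (nat_lit 229) (nat_lit 226)) (PT.lf (nat_lit 9956) (nat_lit 6) (nat_lit 131) (nat_lit 4) (nat_lit 146) (nat_lit 229) (nat_lit 225))))) (PT.nd (nat_lit 6084) (PT.nd (nat_lit 6006) (PT.lf (nat_lit 10184) (nat_lit 6) (nat_lit 134) (nat_lit 4) (nat_lit 147) (nat_lit 229) (nat_lit 224)) (PT.lf (nat_lit 10184) (nat_lit 6) (nat_lit 134) (nat_lit 2) (nat_lit 224) (nat_lit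 229) (nat_lit 147))) (PT.nd (nat_lit 78) (PT.lf (nat_lit 9956) (nat_lit 6) (nat_lit 131) (nat_lit 2) (nat_lit 225) (nat_lit 229) (nat_lit 146)) (PT.nd (nat_lit 78) (PT.lf (nat_lit 9804) (nat_lit 6) (nat_lit 129) (nat_lit 2) (nat_lit 226) (nat_lit 229) (nat_lit 145)) (PT.lf (nat_lit 9652) (nat_lit 6) (nat_lit 127) (nat_lit 2) (nat_lit 227) (nat_lit 229) (nat_lit 144)))))) (PT.nd (nat_lit 390) (PT.nd (nat_lit 156) (PT.nd (nat_lit 78) (PT.lf (nat_lit 9500) (nat_lit 6) (nat_lit 125) (nat_lit 2) (nat_lit 228) (nat_lit 229) (nat_lit 143)) (PT.lf (nat_lit 9348) (nat_lit 3) (nat_lit 123) (nat_lit 0) (nat_lit 229) (nat_lit 229) (nat_lit 142))) (PT.nd (nat_lit 78) (PT.lf (nat_lit 9120) (nat_lit 6) (nat_lit 120) (nat_lit 0) (nat_lit 230) (nat_lit 229) (nat_lit 141)) (PT.nd (nat_lit 78) (PT.lf (nat_lit 8892) (nat_lit 6) (nat_lit 117) (nat_lit 0) (nat_lit 231) (nat_lit 229) (nat_lit 140)) (PT.lf (nat_lit 8664) (nat_lit 6) (nat_lit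 114) (nat_lit 0) (nat_lit 232) (nat_lit 229) (nat_lit 139))))) (PT.nd (nat_lit 55068) (PT.nd (nat_lit 54990) (PT.lf (nat_lit 8436) (nat_lit 6) (nat_lit 111) (nat_lit 0) (nat_lit 233) (nat_lit 229) (nat_lit 138)) (PT.lf (nat_lit 8284) (nat_lit 6) (nat_lit 109) (nat_lit 5) (nat_lit 137) (nat_lit 230) (nat_lit 233))) (PT.nd (nat_lit 78) (PT.lf (nat_lit 8512) (nat_lit 6) (nat_lit 112) (nat_lit 5) (nat_lit 138) (nat_lit 230) (nat_lit 232)) (PT.nd (nat_lit 78) (PT.lf (nat_lit 8740) (nat_lit 6) (nat_lit 115) (nat_lit 5) (nat_lit 139) (nat_lit 230) (nat_lit 231)) (PT.lf (nat_lit 8968) (nat_lit 3) (nat_lit 118) (nat_lit 4) (nat_lit 140) (nat_lit 230) (nat_lit 230))))))) (PT.nd (nat_lit 7098) (PT.nd (nat_lit 6708) (PT.nd (nat_lit 156) (PT.nd (nat_lit 78) (PT.lf (nat_lit 9120) (nat_lit 6) (nat_lit 120) (nat_lit 4) (nat_lit 141) (nat_lit 230) (nat_lit 229)) (PT.lf (nat_lit 9272) (nat_lit 6) (nat_lit 122) (nat_lit 4) (nat_lit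 142) (nat_lit 230) (nat_lit 228))) (PT.nd (nat_lit 78) (PT.lf (nat_lit 9424) (nat_lit 6) (nat_lit 124) (nat_lit 4) (nat_lit 143) (nat_lit 230) (nat_lit 227)) (PT.nd (nat_lit 6396) (PT.lf (nat_lit 9576) (nat_lit 6) (nat_lit 126) (nat_lit 4) (nat_lit 144) (nat_lit 230) (nat_lit 226)) (PT.lf (nat_lit 9576) (nat_lit 6) (nat_lit 126) (nat_lit 2) (nat_lit 226) (nat_lit 230) (nat_lit 144))))) (PT.nd (nat_lit 156) (PT.nd (nat_lit 78) (PT.lf (nat_lit 9424) (nat_lit 6) (nat_lit 124) (nat_lit 2) (nat_lit 227) (nat_lit 230) (nat_lit 143)) (PT.lf (nat_lit 9272) (nat_lit 6) (nat_lit 122) (nat_lit 2) (nat_lit 228) (nat_lit 230) (nat_lit 142))) (PT.nd (nat_lit 78) (PT.lf (nat_lit 9120) (nat_lit 6) (nat_lit 120) (nat_lit 2) (nat_lit 229) (nat_lit 230) (nat_lit 141)) (PT.nd (nat_lit 78) (PT.lf (nat_lit 8968) (nat_lit 3) (nat_lit 118) (nat_lit 0) (nat_lit 230) (nat_lit 230) (nat_lit 140)) (PT.lf (nat_lit 8740) (nat_lit 6) (nat_lit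 115) (nat_lit 0) (nat_lit 231) (nat_lit 230) (nat_lit 139)))))) (PT.nd (nat_lit 55146) (PT.nd (nat_lit 54912) (PT.nd (nat_lit 78) (PT.lf (nat_lit 8512) (nat_lit 6) (nat_lit 112) (nat_lit 0) (nat_lit 232) (nat_lit 230) (nat_lit 138)) (PT.lf (nat_lit 8284) (nat_lit 6) (nat_lit 109) (nat_lit 0) (nat_lit 233) (nat_lit 230) (nat_lit 137))) (PT.nd (nat_lit 78) (PT.lf (nat_lit 7980) (nat_lit 6) (nat_lit 105) (nat_lit 5) (nat_lit 135) (nat_lit 231) (nat_lit 234)) (PT.nd (nat_lit 78) (PT.lf (nat_lit 8132) (nat_lit 6) (nat_lit 107) (nat_lit 5) (nat_lit 136) (nat_lit 231) (nat_lit 233)) (PT.lf (nat_lit 8360) (nat_lit 6) (nat_lit 110) (nat_lit 5) (nat_lit 137) (nat_lit 231) (nat_lit 232))))) (PT.nd (nat_lit 156) (PT.nd (nat_lit 78) (PT.lf (nat_lit 8588) (nat_lit 3) (nat_lit 113) (nat_lit 4) (nat_lit 138) (nat_lit 231) (nat_lit 231)) (PT.lf (nat_lit 8740) (nat_lit 6) (nat_lit 115) (nat_lit 4) (nat_lit 139) (nat_lit 231) (nat_lit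 230))) (PT.nd (nat_lit 78) (PT.lf (nat_lit 8892) (nat_lit 6) (nat_lit 117) (nat_lit 4) (nat_lit 140) (nat_lit 231) (nat_lit 229)) (PT.nd (nat_lit 78) (PT.lf (nat_lit 9044) (nat_lit 6) (nat_lit 119) (nat_lit 4) (nat_lit 141) (nat_lit 231) (nat_lit 228)) (PT.lf (nat_lit 9196) (nat_lit 6) (nat_lit 121) (nat_lit 4) (nat_lit 142) (nat_lit 231) (nat_lit 227))))))))
noncomputable def pc55 : PT := (PT.nd (nat_lit 62868) (PT.nd (nat_lit 55302) (PT.nd (nat_lit 390) (PT.nd (nat_lit 156) (PT.nd (nat_lit 78) (PT.lf (nat_lit 9196) (nat_lit 6) (nat_lit 121) (nat_lit 2) (nat_lit 227) (nat_lit 231) (nat_lit 142)) (PT.lf (nat_lit 9044) (nat_lit 6) (nat_lit 119) (nat_lit 2) (nat_lit 228) (nat_lit 231) (nat_lit 141))) (PT.nd (nat_lit 78) (PT.lf (nat_lit 8892) (nat_lit 6) (nat_lit 117) (nat_lit 2) (nat_lit 229) (nat_lit 231) (nat_lit 140)) (PT.nd (nat_lit 78) (PT.lf (nat_lit 8740) (nat_lit 6) (nat_lit 115) (nat_lit 2) (nat_lit 230)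 (nat_lit 231) (nat_lit 139)) (PT.lf (nat_lit 8588) (nat_lit 3) (nat_lit 113) (nat_lit 0) (nat_lit 231) (nat_lit 231) (nat_lit 138))))) (PT.nd (nat_lit 156) (PT.nd (nat_lit 78) (PT.lf (nat_lit 8360) (nat_lit 6) (nat_lit 110) (nat_lit 0) (nat_lit 232) (nat_lit 231) (nat_lit 137)) (PT.lf (nat_lit 8132) (nat_lit 6) (nat_lit 107) (nat_lit 0) (nat_lit 233) (nat_lit 231) (nat_lit 136))) (PT.nd (nat_lit 54600) (PT.lf (nat_lit 7980) (nat_lit 6) (nat_lit 105) (nat_lit 0) (nat_lit 234) (nat_lit 231) (nat_lit 135)) (PT.nd (nat_lit 78) (PT.lf (nat_lit 7676) (nat_lit 6) (nat_lit 101) (nat_lit 5) (nat_lit 133) (nat_lit 232) (nat_lit 235)) (PT.lf (nat_lit 7828) (nat_lit 6) (nat_lit 103) (nat_lit 5) (nat_lit 134) (nat_lit 232) (nat_lit 234)))))) (PT.nd (nat_lit 390) (PT.nd (nat_lit 156) (PT.nd (nat_lit 78) (PT.lf (nat_lit 8056) (nat_lit 6) (nat_lit 106) (nat_lit 5) (nat_lit 135) (nat_lit 232) (nat_lit 233)) (PT.lf (nat_lit 8208)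 (nat_lit 3) (nat_lit 108) (nat_lit 4) (nat_lit 136) (nat_lit 232) (nat_lit 232))) (PT.nd (nat_lit 78) (PT.lf (nat_lit 8360) (nat_lit 6) (nat_lit 110) (nat_lit 4) (nat_lit 137) (nat_lit 232) (nat_lit 231)) (PT.nd (nat_lit 78) (PT.lf (nat_lit 8512) (nat_lit 6) (nat_lit 112) (nat_lit 4) (nat_lit 138) (nat_lit 232) (nat_lit 230)) (PT.lf (nat_lit 8664) (nat_lit 6) (nat_lit 114) (nat_lit 4) (nat_lit 139) (nat_lit 232) (nat_lit 229))))) (PT.nd (nat_lit 6942) (PT.nd (nat_lit 6864) (PT.lf (nat_lit 8816) (nat_lit 6) (nat_lit 116) (nat_lit 4) (nat_lit 140) (nat_lit 232) (nat_lit 228)) (PT.lf (nat_lit 8816) (nat_lit 6) (nat_lit 116) (nat_lit 2) (nat_lit 228) (nat_lit 232) (nat_lit 140))) (PT.nd (nat_lit 78) (PT.lf (nat_lit 8664) (nat_lit 6) (nat_lit 114) (nat_lit 2) (nat_lit 229) (nat_lit 232) (nat_lit 139)) (PT.nd (nat_lit 78) (PT.lf (nat_lit 8512) (nat_lit 6) (nat_lit 112) (nat_lit 2) (nat_lit 230) (nat_lit 232) (nat_lit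 138)) (PT.lf (nat_lit 8360) (nat_lit 6) (nat_lit 110) (nat_lit 2) (nat_lit 231) (nat_lit 232) (nat_lit 137))))))) (PT.nd (nat_lit 55068) (PT.nd (nat_lit 54678) (PT.nd (nat_lit 156) (PT.nd (nat_lit 78) (PT.lf (nat_lit 8208) (nat_lit 3) (nat_lit 108) (nat_lit 0) (nat_lit 232) (nat_lit 232) (nat_lit 136)) (PT.lf (nat_lit 8056) (nat_lit 6) (nat_lit 106) (nat_lit 0) (nat_lit 233) (nat_lit 232) (nat_lit 135))) (PT.nd (nat_lit 78) (PT.lf (nat_lit 7828) (nat_lit 6) (nat_lit 103) (nat_lit 0) (nat_lit 234) (nat_lit 232) (nat_lit 134)) (PT.nd (nat_lit 54366) (PT.lf (nat_lit 7676) (nat_lit 6) (nat_lit 101) (nat_lit 0) (nat_lit 235) (nat_lit 232) (nat_lit 133)) (PT.lf (nat_lit 7372) (nat_lit 6) (nat_lit 97) (nat_lit 5) (nat_lit 131) (nat_lit 233) (nat_lit 236))))) (PT.nd (nat_lit 156) (PT.nd (nat_lit 78) (PT.lf (nat_lit 7524) (nat_lit 6) (nat_lit 99) (nat_lit 5) (nat_lit 132) (nat_lit 233) (nat_lit 235)) (PT.lf (nat_lit 7752)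 (nat_lit 6) (nat_lit 102) (nat_lit 5) (nat_lit 133) (nat_lit 233) (nat_lit 234))) (PT.nd (nat_lit 78) (PT.lf (nat_lit 7904) (nat_lit 3) (nat_lit 104) (nat_lit 4) (nat_lit 134) (nat_lit 233) (nat_lit 233)) (PT.nd (nat_lit 78) (PT.lf (nat_lit 8056) (nat_lit 6) (nat_lit 106) (nat_lit 4) (nat_lit 135) (nat_lit 233) (nat_lit 232)) (PT.lf (nat_lit 8132) (nat_lit 6) (nat_lit 107) (nat_lit 4) (nat_lit 136) (nat_lit 233) (nat_lit 231)))))) (PT.nd (nat_lit 7410) (PT.nd (nat_lit 7176) (PT.nd (nat_lit 78) (PT.lf (nat_lit 8284) (nat_lit 6) (nat_lit 109) (nat_lit 4) (nat_lit 137) (nat_lit 233) (nat_lit 230)) (PT.lf (nat_lit 8436) (nat_lit 6) (nat_lit 111) (nat_lit 4) (nat_lit 138) (nat_lit 233) (nat_lit 229))) (PT.nd (nat_lit 78) (PT.lf (nat_lit 8436) (nat_lit 6) (nat_lit 111) (nat_lit 2) (nat_lit 229) (nat_lit 233) (nat_lit 138)) (PT.nd (nat_lit 78) (PT.lf (nat_lit 8284) (nat_lit 6) (nat_lit 109) (nat_lit 2) (nat_lit 230) (nat_lit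 233) (nat_lit 137)) (PT.lf (nat_lit 8132) (nat_lit 6) (nat_lit 107) (nat_lit 2) (nat_lit 231) (nat_lit 233) (nat_lit 136))))) (PT.nd (nat_lit 234) (PT.nd (nat_lit 78) (PT.lf (nat_lit 8056) (nat_lit 6) (nat_lit 106) (nat_lit 2) (nat_lit 232) (nat_lit 233) (nat_lit 135)) (PT.nd (nat_lit 78) (PT.lf (nat_lit 7904) (nat_lit 3) (nat_lit 104) (nat_lit 0) (nat_lit 233) (nat_lit 233) (nat_lit 134)) (PT.lf (nat_lit 7752) (nat_lit 6) (nat_lit 102) (nat_lit 0) (nat_lit 234) (nat_lit 233) (nat_lit 133)))) (PT.nd (nat_lit 78) (PT.lf (nat_lit 7524) (nat_lit 6) (nat_lit 99) (nat_lit 0) (nat_lit 235) (nat_lit 233) (nat_lit 132)) (PT.nd (nat_lit 54132) (PT.lf (nat_lit 7372) (nat_lit 6) (nat_lit 97) (nat_lit 0) (nat_lit 236) (nat_lit 233) (nat_lit 131)) (PT.lf (nat_lit 7068) (nat_lit 6) (nat_lit 93) (nat_lit 5) (nat_lit 129) (nat_lit 234) (nat_lit 237))))))))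
noncomputable def pc56 : PT := (PT.nd (nat_lit 70434) (PT.nd (nat_lit 8190) (PT.nd (nat_lit 390) (PT.nd (nat_lit 156) (PT.nd (nat_lit 78) (PT.lf (nat_lit 7220) (nat_lit 6) (nat_lit 95) (nat_lit 5) (nat_lit 130) (nat_lit 234) (nat_lit 236)) (PT.lf (nat_lit 7448) (nat_lit 6) (nat_lit 98) (nat_lit 5) (nat_lit 131) (nat_lit 234) (nat_lit 235))) (PT.nd (nat_lit 78) (PT.lf (nat_lit 7600) (nat_lit 3) (nat_lit 100) (nat_lit 4) (nat_lit 132) (nat_lit 234) (nat_lit 234)) (PT.nd (nat_lit 78) (PT.lf (nat_lit 7752) (nat_lit 6) (nat_lit 102) (nat_lit 4) (nat_lit 133) (nat_lit 234) (nat_lit 233)) (PT.lf (nat_lit 7828) (nat_lit 6) (nat_lit 103) (nat_lit 4) (nat_lit 134) (nat_lit 234) (nat_lit 232))))) (PT.nd (nat_lit 7566) (PT.nd (nat_lit 7488) (PT.lf (nat_lit 7980) (nat_lit 6) (nat_lit 105) (nat_lit 4) (nat_lit 135) (nat_lit 234) (nat_lit 231)) (PT.lf (nat_lit 7980) (nat_lit 6) (nat_lit 105) (nat_lit 2) (nat_lit 231) (nat_lit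 234) (nat_lit 135))) (PT.nd (nat_lit 78) (PT.lf (nat_lit 7828) (nat_lit 6) (nat_lit 103) (nat_lit 2) (nat_lit 232) (nat_lit 234) (nat_lit 134)) (PT.nd (nat_lit 78) (PT.lf (nat_lit 7752) (nat_lit 6) (nat_lit 102) (nat_lit 2) (nat_lit 233) (nat_lit 234) (nat_lit 133)) (PT.lf (nat_lit 7600) (nat_lit 3) (nat_lit 100) (nat_lit 0) (nat_lit 234) (nat_lit 234) (nat_lit 132)))))) (PT.nd (nat_lit 54210) (PT.nd (nat_lit 156) (PT.nd (nat_lit 78) (PT.lf (nat_lit 7448) (nat_lit 6) (nat_lit 98) (nat_lit 0) (nat_lit 235) (nat_lit 234) (nat_lit 131)) (PT.lf (nat_lit 7220) (nat_lit 6) (nat_lit 95) (nat_lit 0) (nat_lit 236) (nat_lit 234) (nat_lit 130))) (PT.nd (nat_lit 53898) (PT.lf (nat_lit 7068) (nat_lit 6) (nat_lit 93) (nat_lit 0) (nat_lit 237) (nat_lit 234) (nat_lit 129)) (PT.nd (nat_lit 78) (PT.lf (nat_lit 6764) (nat_lit 6) (nat_lit 89) (nat_lit 5) (nat_lit 127) (nat_lit 235) (nat_lit 238)) (PT.lf (nat_lit 6916) (nat_lit 6) (nat_lit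 91) (nat_lit 5) (nat_lit 128) (nat_lit 235) (nat_lit 237))))) (PT.nd (nat_lit 156) (PT.nd (nat_lit 78) (PT.lf (nat_lit 7144) (nat_lit 6) (nat_lit 94) (nat_lit 5) (nat_lit 129) (nat_lit 235) (nat_lit 236)) (PT.lf (nat_lit 7296) (nat_lit 3) (nat_lit 96) (nat_lit 4) (nat_lit 130) (nat_lit 235) (nat_lit 235))) (PT.nd (nat_lit 78) (PT.lf (nat_lit 7448) (nat_lit 6) (nat_lit 98) (nat_lit 4) (nat_lit 131) (nat_lit 235) (nat_lit 234)) (PT.nd (nat_lit 78) (PT.lf (nat_lit 7524) (nat_lit 6) (nat_lit 99) (nat_lit 4) (nat_lit 132) (nat_lit 235) (nat_lit 233)) (PT.lf (nat_lit 7676) (nat_lit 6) (nat_lit 101) (nat_lit 4) (nat_lit 133) (nat_lit 235) (nat_lit 232))))))) (PT.nd (nat_lit 54366) (PT.nd (nat_lit 390) (PT.nd (nat_lit 156) (PT.nd (nat_lit 78) (PT.lf (nat_lit 7676) (nat_lit 6) (nat_lit 101) (nat_lit 2) (nat_lit 232) (nat_lit 235) (nat_lit 133)) (PT.lf (nat_lit 7524) (nat_lit 6) (nat_lit 99) (nat_lit 2) (nat_lit 233) (nat_lit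 235) (nat_lit 132))) (PT.nd (nat_lit 78) (PT.lf (nat_lit 7448) (nat_lit 6) (nat_lit 98) (nat_lit 2) (nat_lit 234) (nat_lit 235) (nat_lit 131)) (PT.nd (nat_lit 78) (PT.lf (nat_lit 7296) (nat_lit 3) (nat_lit 96) (nat_lit 0) (nat_lit 235) (nat_lit 235) (nat_lit 130)) (PT.lf (nat_lit 7144) (nat_lit 6) (nat_lit 94) (nat_lit 0) (nat_lit 236) (nat_lit 235) (nat_lit 129))))) (PT.nd (nat_lit 53742) (PT.nd (nat_lit 78) (PT.lf (nat_lit 6916) (nat_lit 6) (nat_lit 91) (nat_lit 0) (nat_lit 237) (nat_lit 235) (nat_lit 128)) (PT.lf (nat_lit 6764) (nat_lit 6) (nat_lit 89) (nat_lit 0) (nat_lit 238) (nat_lit 235) (nat_lit 127))) (PT.nd (nat_lit 78) (PT.lf (nat_lit 6460) (nat_lit 6) (nat_lit 85) (nat_lit 5) (nat_lit 125) (nat_lit 236) (nat_lit 239)) (PT.nd (nat_lit 78) (PT.lf (nat_lit 6612) (nat_lit 6) (nat_lit 87) (nat_lit 5) (nat_lit 126) (nat_lit 236) (nat_lit 238)) (PT.lf (nat_lit 6840) (nat_lit 6) (nat_lit 90) (nat_lit 5) (nat_lit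 127) (nat_lit 236) (nat_lit 237)))))) (PT.nd (nat_lit 8268) (PT.nd (nat_lit 156) (PT.nd (nat_lit 78) (PT.lf (nat_lit 6992) (nat_lit 3) (nat_lit 92) (nat_lit 4) (nat_lit 128) (nat_lit 236) (nat_lit 236)) (PT.lf (nat_lit 7144) (nat_lit 6) (nat_lit 94) (nat_lit 4) (nat_lit 129) (nat_lit 236) (nat_lit 235))) (PT.nd (nat_lit 78) (PT.lf (nat_lit 7220) (nat_lit 6) (nat_lit 95) (nat_lit 4) (nat_lit 130) (nat_lit 236) (nat_lit 234)) (PT.nd (nat_lit 7956) (PT.lf (nat_lit 7372) (nat_lit 6) (nat_lit 97) (nat_lit 4) (nat_lit 131) (nat_lit 236) (nat_lit 233)) (PT.lf (nat_lit 7372) (nat_lit 6) (nat_lit 97) (nat_lit 2) (nat_lit 233) (nat_lit 236) (nat_lit 131))))) (PT.nd (nat_lit 156) (PT.nd (nat_lit 78) (PT.lf (nat_lit 7220) (nat_lit 6) (nat_lit 95) (nat_lit 2) (nat_lit 234) (nat_lit 236) (nat_lit 130)) (PT.lf (nat_lit 7144) (nat_lit 6) (nat_lit 94) (nat_lit 2) (nat_lit 235) (nat_lit 236) (nat_lit 129))) (PT.nd (nat_lit 78) (PT.lf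 (nat_lit 6992) (nat_lit 3) (nat_lit 92) (nat_lit 0) (nat_lit 236) (nat_lit 236) (nat_lit 128)) (PT.nd (nat_lit 78) (PT.lf (nat_lit 6840) (nat_lit 6) (nat_lit 90) (nat_lit 0) (nat_lit 237) (nat_lit 236) (nat_lit 127)) (PT.lf (nat_lit 6612) (nat_lit 6) (nat_lit 87) (nat_lit 0) (nat_lit 238) (nat_lit 236) (nat_lit 126))))))))
noncomputable def pc57 : PT := (PT.nd (nat_lit 116220) (PT.nd (nat_lit 62244) (PT.nd (nat_lit 53742) (PT.nd (nat_lit 53508) (PT.nd (nat_lit 53430) (PT.lf (nat_lit 6460) (nat_lit 6) (nat_lit 85) (nat_lit 0) (nat_lit 239) (nat_lit 236) (nat_lit 125)) (PT.lf (nat_lit 6156) (nat_lit 6) (nat_lit 81) (nat_lit 5) (nat_lit 123) (nat_lit 237) (nat_lit 240))) (PT.nd (nat_lit 78) (PT.lf (nat_lit 6308) (nat_lit 6) (nat_lit 83) (nat_lit 5) (nat_lit 124) (nat_lit 237) (nat_lit 239)) (PT.nd (nat_lit 78) (PT.lf (nat_lit 6536) (nat_lit 6) (nat_lit 86) (nat_lit 5) (nat_lit 125) (nat_lit 237) (nat_lit 238)) (PT.lf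 (nat_lit 6688) (nat_lit 3) (nat_lit 88) (nat_lit 4) (nat_lit 126) (nat_lit 237) (nat_lit 237))))) (PT.nd (nat_lit 156) (PT.nd (nat_lit 78) (PT.lf (nat_lit 6840) (nat_lit 6) (nat_lit 90) (nat_lit 4) (nat_lit 127) (nat_lit 237) (nat_lit 236)) (PT.lf (nat_lit 6916) (nat_lit 6) (nat_lit 91) (nat_lit 4) (nat_lit 128) (nat_lit 237) (nat_lit 235))) (PT.nd (nat_lit 8190) (PT.lf (nat_lit 7068) (nat_lit 6) (nat_lit 93) (nat_lit 4) (nat_lit 129) (nat_lit 237) (nat_lit 234)) (PT.nd (nat_lit 78) (PT.lf (nat_lit 7068) (nat_lit 6) (nat_lit 93) (nat_lit 2) (nat_lit 234) (nat_lit 237) (nat_lit 129)) (PT.lf (nat_lit 6916) (nat_lit 6) (nat_lit 91) (nat_lit 2) (nat_lit 235) (nat_lit 237) (nat_lit 128)))))) (PT.nd (nat_lit 53586) (PT.nd (nat_lit 156) (PT.nd (nat_lit 78) (PT.lf (nat_lit 6840) (nat_lit 6) (nat_lit 90) (nat_lit 2) (nat_lit 236) (nat_lit 237) (nat_lit 127)) (PT.lf (nat_lit 6688) (nat_lit 3) (nat_lit 88) (nat_lit 0) (nat_lit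 237) (nat_lit 237) (nat_lit 126))) (PT.nd (nat_lit 78) (PT.lf (nat_lit 6536) (nat_lit 6) (nat_lit 86) (nat_lit 0) (nat_lit 238) (nat_lit 237) (nat_lit 125)) (PT.nd (nat_lit 78) (PT.lf (nat_lit 6308) (nat_lit 6) (nat_lit 83) (nat_lit 0) (nat_lit 239) (nat_lit 237) (nat_lit 124)) (PT.lf (nat_lit 6156) (nat_lit 6) (nat_lit 81) (nat_lit 0) (nat_lit 240) (nat_lit 237) (nat_lit 123))))) (PT.nd (nat_lit 156) (PT.nd (nat_lit 78) (PT.lf (nat_lit 6004) (nat_lit 6) (nat_lit 79) (nat_lit 5) (nat_lit 122) (nat_lit 238) (nat_lit 240)) (PT.lf (nat_lit 6232) (nat_lit 6) (nat_lit 82) (nat_lit 5) (nat_lit 123) (nat_lit 238) (nat_lit 239))) (PT.nd (nat_lit 78) (PT.lf (nat_lit 6384) (nat_lit 3) (nat_lit 84) (nat_lit 4) (nat_lit 124) (nat_lit 238) (nat_lit 238)) (PT.nd (nat_lit 78) (PT.lf (nat_lit 6536) (nat_lit 6) (nat_lit 86) (nat_lit 4) (nat_lit 125) (nat_lit 238) (nat_lit 237)) (PT.lf (nat_lit 6612) (nat_lit 6) (nat_lit 87) (nat_lit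 4) (nat_lit 126) (nat_lit 238) (nat_lit 236))))))) (PT.nd (nat_lit 62166) (PT.nd (nat_lit 8736) (PT.nd (nat_lit 8502) (PT.nd (nat_lit 8424) (PT.lf (nat_lit 6764) (nat_lit 6) (nat_lit 89) (nat_lit 4) (nat_lit 127) (nat_lit 238) (nat_lit 235)) (PT.lf (nat_lit 6764) (nat_lit 6) (nat_lit 89) (nat_lit 2) (nat_lit 235) (nat_lit 238) (nat_lit 127))) (PT.nd (nat_lit 78) (PT.lf (nat_lit 6612) (nat_lit 6) (nat_lit 87) (nat_lit 2) (nat_lit 236) (nat_lit 238) (nat_lit 126)) (PT.nd (nat_lit 78) (PT.lf (nat_lit 6536) (nat_lit 6) (nat_lit 86) (nat_lit 2) (nat_lit 237) (nat_lit 238) (nat_lit 125)) (PT.lf (nat_lit 6384) (nat_lit 3) (nat_lit 84) (nat_lit 0) (nat_lit 238) (nat_lit 238) (nat_lit 124))))) (PT.nd (nat_lit 53196) (PT.nd (nat_lit 78) (PT.lf (nat_lit 6232) (nat_lit 6) (nat_lit 82) (nat_lit 0) (nat_lit 239) (nat_lit 238) (nat_lit 123)) (PT.lf (nat_lit 6004) (nat_lit 6) (nat_lit 79) (nat_lit 0) (nat_lit 240) (nat_lit 238)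 (nat_lit 122))) (PT.nd (nat_lit 78) (PT.lf (nat_lit 5776) (nat_lit 6) (nat_lit 76) (nat_lit 5) (nat_lit 120) (nat_lit 239) (nat_lit 241)) (PT.nd (nat_lit 78) (PT.lf (nat_lit 5928) (nat_lit 6) (nat_lit 78) (nat_lit 5) (nat_lit 121) (nat_lit 239) (nat_lit 240)) (PT.lf (nat_lit 6080) (nat_lit 3) (nat_lit 80) (nat_lit 4) (nat_lit 122) (nat_lit 239) (nat_lit 239)))))) (PT.nd (nat_lit 8970) (PT.nd (nat_lit 156) (PT.nd (nat_lit 78) (PT.lf (nat_lit 6232) (nat_lit 6) (nat_lit 82) (nat_lit 4) (nat_lit 123) (nat_lit 239) (nat_lit 238)) (PT.lf (nat_lit 6308) (nat_lit 6) (nat_lit 83) (nat_lit 4) (nat_lit 124) (nat_lit 239) (nat_lit 237))) (PT.nd (nat_lit 8658) (PT.lf (nat_lit 6460) (nat_lit 6) (nat_lit 85) (nat_lit 4) (nat_lit 125) (nat_lit 239) (nat_lit 236)) (PT.nd (nat_lit 78) (PT.lf (nat_lit 6460) (nat_lit 6) (nat_lit 85) (nat_lit 2) (nat_lit 236) (nat_lit 239) (nat_lit 125)) (PT.lf (nat_lit 6308) (nat_lit 6) (nat_lit 83)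 (nat_lit 2) (nat_lit 237) (nat_lit 239) (nat_lit 124))))) (PT.nd (nat_lit 156) (PT.nd (nat_lit 78) (PT.lf (nat_lit 6232) (nat_lit 6) (nat_lit 82) (nat_lit 2) (nat_lit 238) (nat_lit 239) (nat_lit 123)) (PT.lf (nat_lit 6080) (nat_lit 3) (nat_lit 80) (nat_lit 0) (nat_lit 239) (nat_lit 239) (nat_lit 122))) (PT.nd (nat_lit 78) (PT.lf (nat_lit 5928) (nat_lit 6) (nat_lit 78) (nat_lit 0) (nat_lit 240) (nat_lit 239) (nat_lit 121)) (PT.nd (nat_lit 52884) (PT.lf (nat_lit 5776) (nat_lit 6) (nat_lit 76) (nat_lit 0) (nat_lit 241) (nat_lit 239) (nat_lit 120)) (PT.lf (nat_lit 5548) (nat_lit 6) (nat_lit 73) (nat_lit 5) (nat_lit 118) (nat_lit 240) (nat_lit 242))))))))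
noncomputable def pc58 : PT := (PT.nd (nat_lit 72150) (PT.nd (nat_lit 9594) (PT.nd (nat_lit 9204) (PT.nd (nat_lit 156) (PT.nd (nat_lit 78) (PT.lf (nat_lit 5700) (nat_lit 6) (nat_lit 75) (nat_lit 5) (nat_lit 119) (nat_lit 240) (nat_lit 241)) (PT.lf (nat_lit 5852) (nat_lit 3) (nat_lit 77) (nat_lit 4) (nat_lit 120) (nat_lit 240) (nat_lit 240))) (PT.nd (nat_lit 78) (PT.lf (nat_lit 5928) (nat_lit 6) (nat_lit 78) (nat_lit 4) (nat_lit 121) (nat_lit 240) (nat_lit 239)) (PT.nd (nat_lit 78) (PT.lf (nat_lit 6004) (nat_lit 6) (nat_lit 79) (nat_lit 4) (nat_lit 122) (nat_lit 240) (nat_lit 238)) (PT.lf (nat_lit 6156) (nat_lit 6) (nat_lit 81) (nat_lit 4) (nat_lit 123) (nat_lit 240) (nat_lit 237))))) (PT.nd (nat_lit 156) (PT.nd (nat_lit 78) (PT.lf (nat_lit 6156) (nat_lit 6) (nat_lit 81) (nat_lit 2) (nat_lit 237) (nat_lit 240) (nat_lit 123)) (PT.lf (nat_lit 6004) (nat_lit 6) (nat_lit 79) (nat_lit 2) (nat_lit 238) (nat_lit 240) (nat_lit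 122))) (PT.nd (nat_lit 78) (PT.lf (nat_lit 5928) (nat_lit 6) (nat_lit 78) (nat_lit 2) (nat_lit 239) (nat_lit 240) (nat_lit 121)) (PT.nd (nat_lit 78) (PT.lf (nat_lit 5852) (nat_lit 3) (nat_lit 77) (nat_lit 0) (nat_lit 240) (nat_lit 240) (nat_lit 120)) (PT.lf (nat_lit 5700) (nat_lit 6) (nat_lit 75) (nat_lit 0) (nat_lit 241) (nat_lit 240) (nat_lit 119)))))) (PT.nd (nat_lit 52962) (PT.nd (nat_lit 52728) (PT.nd (nat_lit 52650) (PT.lf (nat_lit 5548) (nat_lit 6) (nat_lit 73) (nat_lit 0) (nat_lit 242) (nat_lit 240) (nat_lit 118)) (PT.lf (nat_lit 5320) (nat_lit 6) (nat_lit 70) (nat_lit 5) (nat_lit 116) (nat_lit 241) (nat_lit 243))) (PT.nd (nat_lit 78) (PT.lf (nat_lit 5472) (nat_lit 6) (nat_lit 72) (nat_lit 5) (nat_lit 117) (nat_lit 241) (nat_lit 242)) (PT.nd (nat_lit 78) (PT.lf (nat_lit 5624) (nat_lit 3) (nat_lit 74) (nat_lit 4) (nat_lit 118) (nat_lit 241) (nat_lit 241)) (PT.lf (nat_lit 5700) (nat_lit 6) (nat_lit 75) (nat_lit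 4) (nat_lit 119) (nat_lit 241) (nat_lit 240))))) (PT.nd (nat_lit 9360) (PT.nd (nat_lit 9282) (PT.lf (nat_lit 5776) (nat_lit 6) (nat_lit 76) (nat_lit 4) (nat_lit 120) (nat_lit 241) (nat_lit 239)) (PT.lf (nat_lit 5776) (nat_lit 6) (nat_lit 76) (nat_lit 2) (nat_lit 239) (nat_lit 241) (nat_lit 120))) (PT.nd (nat_lit 78) (PT.lf (nat_lit 5700) (nat_lit 6) (nat_lit 75) (nat_lit 2) (nat_lit 240) (nat_lit 241) (nat_lit 119)) (PT.nd (nat_lit 78) (PT.lf (nat_lit 5624) (nat_lit 3) (nat_lit 74) (nat_lit 0) (nat_lit 241) (nat_lit 241) (nat_lit 118)) (PT.lf (nat_lit 5472) (nat_lit 6) (nat_lit 72) (nat_lit 0) (nat_lit 242) (nat_lit 241) (nat_lit 117))))))) (PT.nd (nat_lit 62556) (PT.nd (nat_lit 52728) (PT.nd (nat_lit 52494) (PT.nd (nat_lit 52416) (PT.lf (nat_lit 5320) (nat_lit 6) (nat_lit 70) (nat_lit 0) (nat_lit 243) (nat_lit 241) (nat_lit 116)) (PT.lf (nat_lit 5092) (nat_lit 6) (nat_lit 67) (nat_lit 5) (nat_lit 114) (nat_lit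 242) (nat_lit 244))) (PT.nd (nat_lit 78) (PT.lf (nat_lit 5244) (nat_lit 6) (nat_lit 69) (nat_lit 5) (nat_lit 115) (nat_lit 242) (nat_lit 243)) (PT.nd (nat_lit 78) (PT.lf (nat_lit 5396) (nat_lit 3) (nat_lit 71) (nat_lit 4) (nat_lit 116) (nat_lit 242) (nat_lit 242)) (PT.lf (nat_lit 5472) (nat_lit 6) (nat_lit 72) (nat_lit 4) (nat_lit 117) (nat_lit 242) (nat_lit 241))))) (PT.nd (nat_lit 9594) (PT.nd (nat_lit 9516) (PT.lf (nat_lit 5548) (nat_lit 6) (nat_lit 73) (nat_lit 4) (nat_lit 118) (nat_lit 242) (nat_lit 240)) (PT.lf (nat_lit 5548) (nat_lit 6) (nat_lit 73) (nat_lit 2) (nat_lit 240) (nat_lit 242) (nat_lit 118))) (PT.nd (nat_lit 78) (PT.lf (nat_lit 5472) (nat_lit 6) (nat_lit 72) (nat_lit 2) (nat_lit 241) (nat_lit 242) (nat_lit 117)) (PT.nd (nat_lit 78) (PT.lf (nat_lit 5396) (nat_lit 3) (nat_lit 71) (nat_lit 0) (nat_lit 242) (nat_lit 242) (nat_lit 116)) (PT.lf (nat_lit 5244) (nat_lit 6) (nat_lit 69) (nat_lit 0) (nat_lit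 243) (nat_lit 242) (nat_lit 115)))))) (PT.nd (nat_lit 52494) (PT.nd (nat_lit 52260) (PT.nd (nat_lit 52182) (PT.lf (nat_lit 5092) (nat_lit 6) (nat_lit 67) (nat_lit 0) (nat_lit 244) (nat_lit 242) (nat_lit 114)) (PT.lf (nat_lit 4864) (nat_lit 6) (nat_lit 64) (nat_lit 5) (nat_lit 112) (nat_lit 243) (nat_lit 245))) (PT.nd (nat_lit 78) (PT.lf (nat_lit 5016) (nat_lit 6) (nat_lit 66) (nat_lit 5) (nat_lit 113) (nat_lit 243) (nat_lit 244)) (PT.nd (nat_lit 78) (PT.lf (nat_lit 5168) (nat_lit 3) (nat_lit 68) (nat_lit 4) (nat_lit 114) (nat_lit 243) (nat_lit 243)) (PT.lf (nat_lit 5244) (nat_lit 6) (nat_lit 69) (nat_lit 4) (nat_lit 115) (nat_lit 243) (nat_lit 242))))) (PT.nd (nat_lit 9828) (PT.nd (nat_lit 9750) (PT.lf (nat_lit 5320) (nat_lit 6) (nat_lit 70) (nat_lit 4) (nat_lit 116) (nat_lit 243) (nat_lit 241)) (PT.lf (nat_lit 5320) (nat_lit 6) (nat_lit 70) (nat_lit 2) (nat_lit 241) (nat_lit 243) (nat_lit 116))) (PT.nd (nat_lit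 78) (PT.lf (nat_lit 5244) (nat_lit 6) (nat_lit 69) (nat_lit 2) (nat_lit 242) (nat_lit 243) (nat_lit 115)) (PT.nd (nat_lit 78) (PT.lf (nat_lit 5168) (nat_lit 3) (nat_lit 68) (nat_lit 0) (nat_lit 243) (nat_lit 243) (nat_lit 114)) (PT.lf (nat_lit 5016) (nat_lit 6) (nat_lit 66) (nat_lit 0) (nat_lit 244) (nat_lit 243) (nat_lit 113))))))))
noncomputable def pc59 : PT := (PT.nd (nat_lit 125112) (PT.nd (nat_lit 62556) (PT.nd (nat_lit 52260) (PT.nd (nat_lit 52026) (PT.nd (nat_lit 51948) (PT.lf (nat_lit 4864) (nat_lit 6) (nat_lit 64) (nat_lit 0) (nat_lit 245) (nat_lit 243) (nat_lit 112)) (PT.lf (nat_lit 4636) (nat_lit 6) (nat_lit 61) (nat_lit 5) (nat_lit 110) (nat_lit 244) (nat_lit 246))) (PT.nd (nat_lit 78) (PT.lf (nat_lit 4788) (nat_lit 6) (nat_lit 63) (nat_lit 5) (nat_lit 111) (nat_lit 244) (nat_lit 245)) (PT.nd (nat_lit 78) (PT.lf (nat_lit 4940) (nat_lit 3) (nat_lit 65) (nat_lit 4) (nat_lit 112) (nat_lit 244) (nat_lit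 244)) (PT.lf (nat_lit 5016) (nat_lit 6) (nat_lit 66) (nat_lit 4) (nat_lit 113) (nat_lit 244) (nat_lit 243))))) (PT.nd (nat_lit 10062) (PT.nd (nat_lit 9984) (PT.lf (nat_lit 5092) (nat_lit 6) (nat_lit 67) (nat_lit 4) (nat_lit 114) (nat_lit 244) (nat_lit 242)) (PT.lf (nat_lit 5092) (nat_lit 6) (nat_lit 67) (nat_lit 2) (nat_lit 242) (nat_lit 244) (nat_lit 114))) (PT.nd (nat_lit 78) (PT.lf (nat_lit 5016) (nat_lit 6) (nat_lit 66) (nat_lit 2) (nat_lit 243) (nat_lit 244) (nat_lit 113)) (PT.nd (nat_lit 78) (PT.lf (nat_lit 4940) (nat_lit 3) (nat_lit 65) (nat_lit 0) (nat_lit 244) (nat_lit 244) (nat_lit 112)) (PT.lf (nat_lit 4788) (nat_lit 6) (nat_lit 63) (nat_lit 0) (nat_lit 245) (nat_lit 244) (nat_lit 111)))))) (PT.nd (nat_lit 52026) (PT.nd (nat_lit 51792) (PT.nd (nat_lit 51714) (PT.lf (nat_lit 4636) (nat_lit 6) (nat_lit 61) (nat_lit 0) (nat_lit 246) (nat_lit 244) (nat_lit 110)) (PT.lf (nat_lit 4408) (nat_lit 6) (nat_lit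 58) (nat_lit 5) (nat_lit 108) (nat_lit 245) (nat_lit 247))) (PT.nd (nat_lit 78) (PT.lf (nat_lit 4560) (nat_lit 6) (nat_lit 60) (nat_lit 5) (nat_lit 109) (nat_lit 245) (nat_lit 246)) (PT.nd (nat_lit 78) (PT.lf (nat_lit 4712) (nat_lit 3) (nat_lit 62) (nat_lit 4) (nat_lit 110) (nat_lit 245) (nat_lit 245)) (PT.lf (nat_lit 4788) (nat_lit 6) (nat_lit 63) (nat_lit 4) (nat_lit 111) (nat_lit 245) (nat_lit 244))))) (PT.nd (nat_lit 10296) (PT.nd (nat_lit 10218) (PT.lf (nat_lit 4864) (nat_lit 6) (nat_lit 64) (nat_lit 4) (nat_lit 112) (nat_lit 245) (nat_lit 243)) (PT.lf (nat_lit 4864) (nat_lit 6) (nat_lit 64) (nat_lit 2) (nat_lit 243) (nat_lit 245) (nat_lit 112))) (PT.nd (nat_lit 78) (PT.lf (nat_lit 4788) (nat_lit 6) (nat_lit 63) (nat_lit 2) (nat_lit 244) (nat_lit 245) (nat_lit 111)) (PT.nd (nat_lit 78) (PT.lf (nat_lit 4712) (nat_lit 3) (nat_lit 62) (nat_lit 0) (nat_lit 245) (nat_lit 245) (nat_lit 110)) (PT.lf (nat_lit 4560)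 (nat_lit 6) (nat_lit 60) (nat_lit 0) (nat_lit 246) (nat_lit 245) (nat_lit 109))))))) (PT.nd (nat_lit 62556) (PT.nd (nat_lit 51792) (PT.nd (nat_lit 51558) (PT.nd (nat_lit 51480) (PT.lf (nat_lit 4408) (nat_lit 6) (nat_lit 58) (nat_lit 0) (nat_lit 247) (nat_lit 245) (nat_lit 108)) (PT.lf (nat_lit 4180) (nat_lit 6) (nat_lit 55) (nat_lit 5) (nat_lit 106) (nat_lit 246) (nat_lit 248))) (PT.nd (nat_lit 78) (PT.lf (nat_lit 4332) (nat_lit 6) (nat_lit 57) (nat_lit 5) (nat_lit 107) (nat_lit 246) (nat_lit 247)) (PT.nd (nat_lit 78) (PT.lf (nat_lit 4484) (nat_lit 3) (nat_lit 59) (nat_lit 4) (nat_lit 108) (nat_lit 246) (nat_lit 246)) (PT.lf (nat_lit 4560) (nat_lit 6) (nat_lit 60) (nat_lit 4) (nat_lit 109) (nat_lit 246) (nat_lit 245))))) (PT.nd (nat_lit 10530) (PT.nd (nat_lit 10452) (PT.lf (nat_lit 4636) (nat_lit 6) (nat_lit 61) (nat_lit 4) (nat_lit 110) (nat_lit 246) (nat_lit 244)) (PT.lf (nat_lit 4636) (nat_lit 6) (nat_lit 61)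 (nat_lit 2) (nat_lit 244) (nat_lit 246) (nat_lit 110))) (PT.nd (nat_lit 78) (PT.lf (nat_lit 4560) (nat_lit 6) (nat_lit 60) (nat_lit 2) (nat_lit 245) (nat_lit 246) (nat_lit 109)) (PT.nd (nat_lit 78) (PT.lf (nat_lit 4484) (nat_lit 3) (nat_lit 59) (nat_lit 0) (nat_lit 246) (nat_lit 246) (nat_lit 108)) (PT.lf (nat_lit 4332) (nat_lit 6) (nat_lit 57) (nat_lit 0) (nat_lit 247) (nat_lit 246) (nat_lit 107)))))) (PT.nd (nat_lit 51558) (PT.nd (nat_lit 51324) (PT.nd (nat_lit 51246) (PT.lf (nat_lit 4180) (nat_lit 6) (nat_lit 55) (nat_lit 0) (nat_lit 248) (nat_lit 246) (nat_lit 106)) (PT.lf (nat_lit 3952) (nat_lit 6) (nat_lit 52) (nat_lit 5) (nat_lit 104) (nat_lit 247) (nat_lit 249))) (PT.nd (nat_lit 78) (PT.lf (nat_lit 4104) (nat_lit 6) (nat_lit 54) (nat_lit 5) (nat_lit 105) (nat_lit 247) (nat_lit 248)) (PT.nd (nat_lit 78) (PT.lf (nat_lit 4256) (nat_lit 3) (nat_lit 56) (nat_lit 4) (nat_lit 106) (nat_lit 247) (nat_lit 247)) (PT.lf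 (nat_lit 4332) (nat_lit 6) (nat_lit 57) (nat_lit 4) (nat_lit 107) (nat_lit 247) (nat_lit 246))))) (PT.nd (nat_lit 10842) (PT.nd (nat_lit 10686) (PT.lf (nat_lit 4408) (nat_lit 6) (nat_lit 58) (nat_lit 4) (nat_lit 108) (nat_lit 247) (nat_lit 245)) (PT.nd (nat_lit 78) (PT.lf (nat_lit 4408) (nat_lit 6) (nat_lit 58) (nat_lit 2) (nat_lit 245) (nat_lit 247) (nat_lit 108)) (PT.lf (nat_lit 4332) (nat_lit 6) (nat_lit 57) (nat_lit 2) (nat_lit 246) (nat_lit 247) (nat_lit 107)))) (PT.nd (nat_lit 78) (PT.lf (nat_lit 4256) (nat_lit 3) (nat_lit 56) (nat_lit 0) (nat_lit 247) (nat_lit 247) (nat_lit 106)) (PT.nd (nat_lit 78) (PT.lf (nat_lit 4104) (nat_lit 6) (nat_lit 54) (nat_lit 0) (nat_lit 248) (nat_lit 247) (nat_lit 105)) (PT.lf (nat_lit 3952) (nat_lit 6) (nat_lit 52) (nat_lit 0) (nat_lit 249) (nat_lit 247) (nat_lit 104))))))))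
noncomputable def pc60 : PT := (PT.nd (nat_lit 124644) (PT.nd (nat_lit 62322) (PT.nd (nat_lit 11232) (PT.nd (nat_lit 156) (PT.nd (nat_lit 78) (PT.lf (nat_lit 3724) (nat_lit 6) (nat_lit 49) (nat_lit 5) (nat_lit 102) (nat_lit 248) (nat_lit 250)) (PT.lf (nat_lit 3876) (nat_lit 6) (nat_lit 51) (nat_lit 5) (nat_lit 103) (nat_lit 248) (nat_lit 249))) (PT.nd (nat_lit 78) (PT.lf (nat_lit 4028) (nat_lit 3) (nat_lit 53) (nat_lit 4) (nat_lit 104) (nat_lit 248) (nat_lit 248)) (PT.nd (nat_lit 78) (PT.lf (nat_lit 4104) (nat_lit 6) (nat_lit 54) (nat_lit 4) (nat_lit 105) (nat_lit 248) (nat_lit 247)) (PT.lf (nat_lit 4180) (nat_lit 6) (nat_lit 55) (nat_lit 4) (nat_lit 106) (nat_lit 248) (nat_lit 246))))) (PT.nd (nat_lit 156) (PT.nd (nat_lit 78) (PT.lf (nat_lit 4180) (nat_lit 6) (nat_lit 55) (nat_lit 2) (nat_lit 246) (nat_lit 248) (nat_lit 106)) (PT.lf (nat_lit 4104) (nat_lit 6) (nat_lit 54) (nat_lit 2) (nat_lit 247) (nat_lit 248)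 (nat_lit 105))) (PT.nd (nat_lit 78) (PT.lf (nat_lit 4028) (nat_lit 3) (nat_lit 53) (nat_lit 0) (nat_lit 248) (nat_lit 248) (nat_lit 104)) (PT.nd (nat_lit 78) (PT.lf (nat_lit 3876) (nat_lit 6) (nat_lit 51) (nat_lit 0) (nat_lit 249) (nat_lit 248) (nat_lit 103)) (PT.lf (nat_lit 3724) (nat_lit 6) (nat_lit 49) (nat_lit 0) (nat_lit 250) (nat_lit 248) (nat_lit 102)))))) (PT.nd (nat_lit 11466) (PT.nd (nat_lit 156) (PT.nd (nat_lit 78) (PT.lf (nat_lit 3496) (nat_lit 6) (nat_lit 46) (nat_lit 5) (nat_lit 100) (nat_lit 249) (nat_lit 251)) (PT.lf (nat_lit 3648) (nat_lit 6) (nat_lit 48) (nat_lit 5) (nat_lit 101) (nat_lit 249) (nat_lit 250))) (PT.nd (nat_lit 78) (PT.lf (nat_lit 3800) (nat_lit 3) (nat_lit 50) (nat_lit 4) (nat_lit 102) (nat_lit 249) (nat_lit 249)) (PT.nd (nat_lit 78) (PT.lf (nat_lit 3876) (nat_lit 6) (nat_lit 51) (nat_lit 4) (nat_lit 103) (nat_lit 249) (nat_lit 248)) (PT.lf (nat_lit 3952) (nat_lit 6) (nat_lit 52)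 (nat_lit 4) (nat_lit 104) (nat_lit 249) (nat_lit 247))))) (PT.nd (nat_lit 156) (PT.nd (nat_lit 78) (PT.lf (nat_lit 3952) (nat_lit 6) (nat_lit 52) (nat_lit 2) (nat_lit 247) (nat_lit 249) (nat_lit 104)) (PT.lf (nat_lit 3876) (nat_lit 6) (nat_lit 51) (nat_lit 2) (nat_lit 248) (nat_lit 249) (nat_lit 103))) (PT.nd (nat_lit 78) (PT.lf (nat_lit 3800) (nat_lit 3) (nat_lit 50) (nat_lit 0) (nat_lit 249) (nat_lit 249) (nat_lit 102)) (PT.nd (nat_lit 78) (PT.lf (nat_lit 3648) (nat_lit 6) (nat_lit 48) (nat_lit 0) (nat_lit 250) (nat_lit 249) (nat_lit 101)) (PT.lf (nat_lit 3496) (nat_lit 6) (nat_lit 46) (nat_lit 0) (nat_lit 251) (nat_lit 249) (nat_lit 100))))))) (PT.nd (nat_lit 62322) (PT.nd (nat_lit 11700) (PT.nd (nat_lit 156) (PT.nd (nat_lit 78) (PT.lf (nat_lit 3268) (nat_lit 6) (nat_lit 43) (nat_lit 5) (nat_lit 98) (nat_lit 250) (nat_lit 252)) (PT.lf (nat_lit 3420) (nat_lit 6) (nat_lit 45) (nat_lit 5) (nat_lit 99) (nat_lit 250)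 (nat_lit 251))) (PT.nd (nat_lit 78) (PT.lf (nat_lit 3572) (nat_lit 3) (nat_lit 47) (nat_lit 4) (nat_lit 100) (nat_lit 250) (nat_lit 250)) (PT.nd (nat_lit 78) (PT.lf (nat_lit 3648) (nat_lit 6) (nat_lit 48) (nat_lit 4) (nat_lit 101) (nat_lit 250) (nat_lit 249)) (PT.lf (nat_lit 3724) (nat_lit 6) (nat_lit 49) (nat_lit 4) (nat_lit 102) (nat_lit 250) (nat_lit 248))))) (PT.nd (nat_lit 156) (PT.nd (nat_lit 78) (PT.lf (nat_lit 3724) (nat_lit 6) (nat_lit 49) (nat_lit 2) (nat_lit 248) (nat_lit 250) (nat_lit 102)) (PT.lf (nat_lit 3648) (nat_lit 6) (nat_lit 48) (nat_lit 2) (nat_lit 249) (nat_lit 250) (nat_lit 101))) (PT.nd (nat_lit 78) (PT.lf (nat_lit 3572) (nat_lit 3) (nat_lit 47) (nat_lit 0) (nat_lit 250) (nat_lit 250) (nat_lit 100)) (PT.nd (nat_lit 78) (PT.lf (nat_lit 3420) (nat_lit 6) (nat_lit 45) (nat_lit 0) (nat_lit 251) (nat_lit 250) (nat_lit 99)) (PT.lf (nat_lit 3268) (nat_lit 6) (nat_lit 43) (nat_lit 0) (nat_lit 252)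 (nat_lit 250) (nat_lit 98)))))) (PT.nd (nat_lit 11934) (PT.nd (nat_lit 156) (PT.nd (nat_lit 78) (PT.lf (nat_lit 3040) (nat_lit 6) (nat_lit 40) (nat_lit 5) (nat_lit 96) (nat_lit 251) (nat_lit 253)) (PT.lf (nat_lit 3192) (nat_lit 6) (nat_lit 42) (nat_lit 5) (nat_lit 97) (nat_lit 251) (nat_lit 252))) (PT.nd (nat_lit 78) (PT.lf (nat_lit 3344) (nat_lit 3) (nat_lit 44) (nat_lit 4) (nat_lit 98) (nat_lit 251) (nat_lit 251)) (PT.nd (nat_lit 78) (PT.lf (nat_lit 3420) (nat_lit 6) (nat_lit 45) (nat_lit 4) (nat_lit 99) (nat_lit 251) (nat_lit 250)) (PT.lf (nat_lit 3496) (nat_lit 6) (nat_lit 46) (nat_lit 4) (nat_lit 100) (nat_lit 251) (nat_lit 249))))) (PT.nd (nat_lit 156) (PT.nd (nat_lit 78) (PT.lf (nat_lit 3496) (nat_lit 6) (nat_lit 46) (nat_lit 2) (nat_lit 249) (nat_lit 251) (nat_lit 100)) (PT.lf (nat_lit 3420) (nat_lit 6) (nat_lit 45) (nat_lit 2) (nat_lit 250) (nat_lit 251) (nat_lit 99))) (PT.nd (nat_lit 78) (PT.lf (nat_lit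 3344) (nat_lit 3) (nat_lit 44) (nat_lit 0) (nat_lit 251) (nat_lit 251) (nat_lit 98)) (PT.nd (nat_lit 78) (PT.lf (nat_lit 3192) (nat_lit 6) (nat_lit 42) (nat_lit 0) (nat_lit 252) (nat_lit 251) (nat_lit 97)) (PT.lf (nat_lit 3040) (nat_lit 6) (nat_lit 40) (nat_lit 0) (nat_lit 253) (nat_lit 251) (nat_lit 96))))))))
noncomputable def pc61 : PT := (PT.nd (nat_lit 124644) (PT.nd (nat_lit 62322) (PT.nd (nat_lit 12168) (PT.nd (nat_lit 156) (PT.nd (nat_lit 78) (PT.lf (nat_lit 2812) (nat_lit 6) (nat_lit 37) (nat_lit 5) (nat_lit 94) (nat_lit 252) (nat_lit 254)) (PT.lf (nat_lit 2964) (nat_lit 6) (nat_lit 39) (nat_lit 5) (nat_lit 95) (nat_lit 252) (nat_lit 253))) (PT.nd (nat_lit 78) (PT.lf (nat_lit 3116) (nat_lit 3) (nat_lit 41) (nat_lit 4) (nat_lit 96) (nat_lit 252) (nat_lit 252)) (PT.nd (nat_lit 78) (PT.lf (nat_lit 3192) (nat_lit 6) (nat_lit 42) (nat_lit 4) (nat_lit 97) (nat_lit 252) (nat_lit 251)) (PT.lf (nat_lit 3268) (nat_lit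 6) (nat_lit 43) (nat_lit 4) (nat_lit 98) (nat_lit 252) (nat_lit 250))))) (PT.nd (nat_lit 156) (PT.nd (nat_lit 78) (PT.lf (nat_lit 3268) (nat_lit 6) (nat_lit 43) (nat_lit 2) (nat_lit 250) (nat_lit 252) (nat_lit 98)) (PT.lf (nat_lit 3192) (nat_lit 6) (nat_lit 42) (nat_lit 2) (nat_lit 251) (nat_lit 252) (nat_lit 97))) (PT.nd (nat_lit 78) (PT.lf (nat_lit 3116) (nat_lit 3) (nat_lit 41) (nat_lit 0) (nat_lit 252) (nat_lit 252) (nat_lit 96)) (PT.nd (nat_lit 78) (PT.lf (nat_lit 2964) (nat_lit 6) (nat_lit 39) (nat_lit 0) (nat_lit 253) (nat_lit 252) (nat_lit 95)) (PT.lf (nat_lit 2812) (nat_lit 6) (nat_lit 37) (nat_lit 0) (nat_lit 254) (nat_lit 252) (nat_lit 94)))))) (PT.nd (nat_lit 12402) (PT.nd (nat_lit 156) (PT.nd (nat_lit 78) (PT.lf (nat_lit 2584) (nat_lit 6) (nat_lit 34) (nat_lit 5) (nat_lit 92) (nat_lit 253) (nat_lit 255)) (PT.lf (nat_lit 2736) (nat_lit 6) (nat_lit 36) (nat_lit 5) (nat_lit 93) (nat_lit 253) (nat_lit 254)))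 (PT.nd (nat_lit 78) (PT.lf (nat_lit 2888) (nat_lit 3) (nat_lit 38) (nat_lit 4) (nat_lit 94) (nat_lit 253) (nat_lit 253)) (PT.nd (nat_lit 78) (PT.lf (nat_lit 2964) (nat_lit 6) (nat_lit 39) (nat_lit 4) (nat_lit 95) (nat_lit 253) (nat_lit 252)) (PT.lf (nat_lit 3040) (nat_lit 6) (nat_lit 40) (nat_lit 4) (nat_lit 96) (nat_lit 253) (nat_lit 251))))) (PT.nd (nat_lit 156) (PT.nd (nat_lit 78) (PT.lf (nat_lit 3040) (nat_lit 6) (nat_lit 40) (nat_lit 2) (nat_lit 251) (nat_lit 253) (nat_lit 96)) (PT.lf (nat_lit 2964) (nat_lit 6) (nat_lit 39) (nat_lit 2) (nat_lit 252) (nat_lit 253) (nat_lit 95))) (PT.nd (nat_lit 78) (PT.lf (nat_lit 2888) (nat_lit 3) (nat_lit 38) (nat_lit 0) (nat_lit 253) (nat_lit 253) (nat_lit 94)) (PT.nd (nat_lit 78) (PT.lf (nat_lit 2736) (nat_lit 6) (nat_lit 36) (nat_lit 0) (nat_lit 254) (nat_lit 253) (nat_lit 93)) (PT.lf (nat_lit 2584) (nat_lit 6) (nat_lit 34) (nat_lit 0) (nat_lit 255) (nat_lit 253) (nat_lit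 92))))))) (PT.nd (nat_lit 62322) (PT.nd (nat_lit 12636) (PT.nd (nat_lit 156) (PT.nd (nat_lit 78) (PT.lf (nat_lit 2356) (nat_lit 6) (nat_lit 31) (nat_lit 5) (nat_lit 90) (nat_lit 254) (nat_lit 256)) (PT.lf (nat_lit 2508) (nat_lit 6) (nat_lit 33) (nat_lit 5) (nat_lit 91) (nat_lit 254) (nat_lit 255))) (PT.nd (nat_lit 78) (PT.lf (nat_lit 2660) (nat_lit 3) (nat_lit 35) (nat_lit 4) (nat_lit 92) (nat_lit 254) (nat_lit 254)) (PT.nd (nat_lit 78) (PT.lf (nat_lit 2736) (nat_lit 6) (nat_lit 36) (nat_lit 4) (nat_lit 93) (nat_lit 254) (nat_lit 253)) (PT.lf (nat_lit 2812) (nat_lit 6) (nat_lit 37) (nat_lit 4) (nat_lit 94) (nat_lit 254) (nat_lit 252))))) (PT.nd (nat_lit 156) (PT.nd (nat_lit 78) (PT.lf (nat_lit 2812) (nat_lit 6) (nat_lit 37) (nat_lit 2) (nat_lit 252) (nat_lit 254) (nat_lit 94)) (PT.lf (nat_lit 2736) (nat_lit 6) (nat_lit 36) (nat_lit 2) (nat_lit 253) (nat_lit 254) (nat_lit 93))) (PT.nd (nat_lit 78) (PT.lf (nat_lit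 2660) (nat_lit 3) (nat_lit 35) (nat_lit 0) (nat_lit 254) (nat_lit 254) (nat_lit 92)) (PT.nd (nat_lit 78) (PT.lf (nat_lit 2508) (nat_lit 6) (nat_lit 33) (nat_lit 0) (nat_lit 255) (nat_lit 254) (nat_lit 91)) (PT.lf (nat_lit 2356) (nat_lit 6) (nat_lit 31) (nat_lit 0) (nat_lit 256) (nat_lit 254) (nat_lit 90)))))) (PT.nd (nat_lit 12870) (PT.nd (nat_lit 156) (PT.nd (nat_lit 78) (PT.lf (nat_lit 2128) (nat_lit 6) (nat_lit 28) (nat_lit 5) (nat_lit 88) (nat_lit 255) (nat_lit 257)) (PT.lf (nat_lit 2280) (nat_lit 6) (nat_lit 30) (nat_lit 5) (nat_lit 89) (nat_lit 255) (nat_lit 256))) (PT.nd (nat_lit 78) (PT.lf (nat_lit 2432) (nat_lit 3) (nat_lit 32) (nat_lit 4) (nat_lit 90) (nat_lit 255) (nat_lit 255)) (PT.nd (nat_lit 78) (PT.lf (nat_lit 2508) (nat_lit 6) (nat_lit 33) (nat_lit 4) (nat_lit 91) (nat_lit 255) (nat_lit 254)) (PT.lf (nat_lit 2584) (nat_lit 6) (nat_lit 34) (nat_lit 4) (nat_lit 92) (nat_lit 255) (nat_lit 253))))) (PT.nd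 (nat_lit 234) (PT.nd (nat_lit 78) (PT.lf (nat_lit 2584) (nat_lit 6) (nat_lit 34) (nat_lit 2) (nat_lit 253) (nat_lit 255) (nat_lit 92)) (PT.nd (nat_lit 78) (PT.lf (nat_lit 2508) (nat_lit 6) (nat_lit 33) (nat_lit 2) (nat_lit 254) (nat_lit 255) (nat_lit 91)) (PT.lf (nat_lit 2432) (nat_lit 3) (nat_lit 32) (nat_lit 0) (nat_lit 255) (nat_lit 255) (nat_lit 90)))) (PT.nd (nat_lit 78) (PT.lf (nat_lit 2280) (nat_lit 6) (nat_lit 30) (nat_lit 0) (nat_lit 256) (nat_lit 255) (nat_lit 89)) (PT.nd (nat_lit 49140) (PT.lf (nat_lit 2128) (nat_lit 6) (nat_lit 28) (nat_lit 0) (nat_lit 257) (nat_lit 255) (nat_lit 88)) (PT.lf (nat_lit 1900) (nat_lit 6) (nat_lit 25) (nat_lit 5) (nat_lit 86) (nat_lit 256) (nat_lit 258))))))))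
noncomputable def pc62 : PT := (PT.nd (nat_lit 124644) (PT.nd (nat_lit 62322) (PT.nd (nat_lit 13104) (PT.nd (nat_lit 156) (PT.nd (nat_lit 78) (PT.lf (nat_lit 2052) (nat_lit 6) (nat_lit 27) (nat_lit 5) (nat_lit 87) (nat_lit 256) (nat_lit 257)) (PT.lf (nat_lit 2204) (nat_lit 3) (nat_lit 29) (nat_lit 4) (nat_lit 88) (nat_lit 256) (nat_lit 256))) (PT.nd (nat_lit 78) (PT.lf (nat_lit 2280) (nat_lit 6) (nat_lit 30) (nat_lit 4) (nat_lit 89) (nat_lit 256) (nat_lit 255)) (PT.nd (nat_lit 12792) (PT.lf (nat_lit 2356) (nat_lit 6) (nat_lit 31) (nat_lit 4) (nat_lit 90) (nat_lit 256) (nat_lit 254)) (PT.lf (nat_lit 2356) (nat_lit 6) (nat_lit 31) (nat_lit 2) (nat_lit 254) (nat_lit 256) (nat_lit 90))))) (PT.nd (nat_lit 156) (PT.nd (nat_lit 78) (PT.lf (nat_lit 2280) (nat_lit 6) (nat_lit 30) (nat_lit 2) (nat_lit 255) (nat_lit 256) (nat_lit 89)) (PT.lf (nat_lit 2204) (nat_lit 3) (nat_lit 29) (nat_lit 0) (nat_lit 256) (nat_lit 256) (nat_lit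 88))) (PT.nd (nat_lit 78) (PT.lf (nat_lit 2052) (nat_lit 6) (nat_lit 27) (nat_lit 0) (nat_lit 257) (nat_lit 256) (nat_lit 87)) (PT.nd (nat_lit 48906) (PT.lf (nat_lit 1900) (nat_lit 6) (nat_lit 25) (nat_lit 0) (nat_lit 258) (nat_lit 256) (nat_lit 86)) (PT.lf (nat_lit 1672) (nat_lit 6) (nat_lit 22) (nat_lit 5) (nat_lit 84) (nat_lit 257) (nat_lit 259)))))) (PT.nd (nat_lit 13338) (PT.nd (nat_lit 156) (PT.nd (nat_lit 78) (PT.lf (nat_lit 1824) (nat_lit 6) (nat_lit 24) (nat_lit 5) (nat_lit 85) (nat_lit 257) (nat_lit 258)) (PT.lf (nat_lit 1976) (nat_lit 3) (nat_lit 26) (nat_lit 4) (nat_lit 86) (nat_lit 257) (nat_lit 257))) (PT.nd (nat_lit 78) (PT.lf (nat_lit 2052) (nat_lit 6) (nat_lit 27) (nat_lit 4) (nat_lit 87) (nat_lit 257) (nat_lit 256)) (PT.nd (nat_lit 13026) (PT.lf (nat_lit 2128) (nat_lit 6) (nat_lit 28) (nat_lit 4) (nat_lit 88) (nat_lit 257) (nat_lit 255)) (PT.lf (nat_lit 2128) (nat_lit 6) (nat_lit 28) (nat_lit 2)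 (nat_lit 255) (nat_lit 257) (nat_lit 88))))) (PT.nd (nat_lit 156) (PT.nd (nat_lit 78) (PT.lf (nat_lit 2052) (nat_lit 6) (nat_lit 27) (nat_lit 2) (nat_lit 256) (nat_lit 257) (nat_lit 87)) (PT.lf (nat_lit 1976) (nat_lit 3) (nat_lit 26) (nat_lit 0) (nat_lit 257) (nat_lit 257) (nat_lit 86))) (PT.nd (nat_lit 78) (PT.lf (nat_lit 1824) (nat_lit 6) (nat_lit 24) (nat_lit 0) (nat_lit 258) (nat_lit 257) (nat_lit 85)) (PT.nd (nat_lit 48672) (PT.lf (nat_lit 1672) (nat_lit 6) (nat_lit 22) (nat_lit 0) (nat_lit 259) (nat_lit 257) (nat_lit 84)) (PT.lf (nat_lit 1444) (nat_lit 6) (nat_lit 19) (nat_lit 5) (nat_lit 82) (nat_lit 258) (nat_lit 260))))))) (PT.nd (nat_lit 62322) (PT.nd (nat_lit 13572) (PT.nd (nat_lit 156) (PT.nd (nat_lit 78) (PT.lf (nat_lit 1596) (nat_lit 6) (nat_lit 21) (nat_lit 5) (nat_lit 83) (nat_lit 258) (nat_lit 259)) (PT.lf (nat_lit 1748) (nat_lit 3) (nat_lit 23) (nat_lit 4) (nat_lit 84) (nat_lit 258) (nat_lit 258)))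 (PT.nd (nat_lit 78) (PT.lf (nat_lit 1824) (nat_lit 6) (nat_lit 24) (nat_lit 4) (nat_lit 85) (nat_lit 258) (nat_lit 257)) (PT.nd (nat_lit 13260) (PT.lf (nat_lit 1900) (nat_lit 6) (nat_lit 25) (nat_lit 4) (nat_lit 86) (nat_lit 258) (nat_lit 256)) (PT.lf (nat_lit 1900) (nat_lit 6) (nat_lit 25) (nat_lit 2) (nat_lit 256) (nat_lit 258) (nat_lit 86))))) (PT.nd (nat_lit 156) (PT.nd (nat_lit 78) (PT.lf (nat_lit 1824) (nat_lit 6) (nat_lit 24) (nat_lit 2) (nat_lit 257) (nat_lit 258) (nat_lit 85)) (PT.lf (nat_lit 1748) (nat_lit 3) (nat_lit 23) (nat_lit 0) (nat_lit 258) (nat_lit 258) (nat_lit 84))) (PT.nd (nat_lit 78) (PT.lf (nat_lit 1596) (nat_lit 6) (nat_lit 21) (nat_lit 0) (nat_lit 259) (nat_lit 258) (nat_lit 83)) (PT.nd (nat_lit 48438) (PT.lf (nat_lit 1444) (nat_lit 6) (nat_lit 19) (nat_lit 0) (nat_lit 260) (nat_lit 258) (nat_lit 82)) (PT.lf (nat_lit 1216) (nat_lit 6) (nat_lit 16) (nat_lit 5) (nat_lit 80) (nat_lit 259) (nat_lit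 261)))))) (PT.nd (nat_lit 13806) (PT.nd (nat_lit 156) (PT.nd (nat_lit 78) (PT.lf (nat_lit 1368) (nat_lit 6) (nat_lit 18) (nat_lit 5) (nat_lit 81) (nat_lit 259) (nat_lit 260)) (PT.lf (nat_lit 1520) (nat_lit 3) (nat_lit 20) (nat_lit 4) (nat_lit 82) (nat_lit 259) (nat_lit 259))) (PT.nd (nat_lit 78) (PT.lf (nat_lit 1596) (nat_lit 6) (nat_lit 21) (nat_lit 4) (nat_lit 83) (nat_lit 259) (nat_lit 258)) (PT.nd (nat_lit 13494) (PT.lf (nat_lit 1672) (nat_lit 6) (nat_lit 22) (nat_lit 4) (nat_lit 84) (nat_lit 259) (nat_lit 257)) (PT.lf (nat_lit 1672) (nat_lit 6) (nat_lit 22) (nat_lit 2) (nat_lit 257) (nat_lit 259) (nat_lit 84))))) (PT.nd (nat_lit 156) (PT.nd (nat_lit 78) (PT.lf (nat_lit 1596) (nat_lit 6) (nat_lit 21) (nat_lit 2) (nat_lit 258) (nat_lit 259) (nat_lit 83)) (PT.lf (nat_lit 1520) (nat_lit 3) (nat_lit 20) (nat_lit 0) (nat_lit 259) (nat_lit 259) (nat_lit 82))) (PT.nd (nat_lit 78) (PT.lf (nat_lit 1368) (nat_lit 6) (nat_lit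 18) (nat_lit 0) (nat_lit 260) (nat_lit 259) (nat_lit 81)) (PT.nd (nat_lit 48282) (PT.lf (nat_lit 1216) (nat_lit 6) (nat_lit 16) (nat_lit 0) (nat_lit 261) (nat_lit 259) (nat_lit 80)) (PT.lf (nat_lit 1140) (nat_lit 6) (nat_lit 15) (nat_lit 5) (nat_lit 79) (nat_lit 260) (nat_lit 261))))))))
noncomputable def pc63 : PT := (PT.nd (nat_lit 139230) (PT.nd (nat_lit 62478) (PT.nd (nat_lit 14040) (PT.nd (nat_lit 156) (PT.nd (nat_lit 78) (PT.lf (nat_lit 1292) (nat_lit 3) (nat_lit 17) (nat_lit 4) (nat_lit 80) (nat_lit 260) (nat_lit 260)) (PT.lf (nat_lit 1368) (nat_lit 6) (nat_lit 18) (nat_lit 4) (nat_lit 81) (nat_lit 260) (nat_lit 259))) (PT.nd (nat_lit 13728) (PT.lf (nat_lit 1444) (nat_lit 6) (nat_lit 19) (nat_lit 4) (nat_lit 82) (nat_lit 260) (nat_lit 258)) (PT.nd (nat_lit 78) (PT.lf (nat_lit 1444) (nat_lit 6) (nat_lit 19) (nat_lit 2) (nat_lit 258) (nat_lit 260) (nat_lit 82)) (PT.lf (nat_lit 1368) (nat_lit 6) (nat_lit 18)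 (nat_lit 2) (nat_lit 259) (nat_lit 260) (nat_lit 81))))) (PT.nd (nat_lit 48204) (PT.nd (nat_lit 78) (PT.lf (nat_lit 1292) (nat_lit 3) (nat_lit 17) (nat_lit 0) (nat_lit 260) (nat_lit 260) (nat_lit 80)) (PT.lf (nat_lit 1140) (nat_lit 6) (nat_lit 15) (nat_lit 0) (nat_lit 261) (nat_lit 260) (nat_lit 79))) (PT.nd (nat_lit 78) (PT.lf (nat_lit 912) (nat_lit 6) (nat_lit 12) (nat_lit 5) (nat_lit 77) (nat_lit 261) (nat_lit 262)) (PT.nd (nat_lit 78) (PT.lf (nat_lit 1064) (nat_lit 3) (nat_lit 14) (nat_lit 4) (nat_lit 78) (nat_lit 261) (nat_lit 261)) (PT.lf (nat_lit 1140) (nat_lit 6) (nat_lit 15) (nat_lit 4) (nat_lit 79) (nat_lit 261) (nat_lit 260)))))) (PT.nd (nat_lit 62088) (PT.nd (nat_lit 14040) (PT.nd (nat_lit 13962) (PT.lf (nat_lit 1216) (nat_lit 6) (nat_lit 16) (nat_lit 4) (nat_lit 80) (nat_lit 261) (nat_lit 259)) (PT.lf (nat_lit 1216) (nat_lit 6) (nat_lit 16) (nat_lit 2) (nat_lit 259) (nat_lit 261) (nat_lit 80))) (PT.nd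 (nat_lit 78) (PT.lf (nat_lit 1140) (nat_lit 6) (nat_lit 15) (nat_lit 2) (nat_lit 260) (nat_lit 261) (nat_lit 79)) (PT.nd (nat_lit 78) (PT.lf (nat_lit 1064) (nat_lit 3) (nat_lit 14) (nat_lit 0) (nat_lit 261) (nat_lit 261) (nat_lit 78)) (PT.lf (nat_lit 912) (nat_lit 6) (nat_lit 12) (nat_lit 0) (nat_lit 262) (nat_lit 261) (nat_lit 77))))) (PT.nd (nat_lit 156) (PT.nd (nat_lit 78) (PT.lf (nat_lit 684) (nat_lit 6) (nat_lit 9) (nat_lit 5) (nat_lit 75) (nat_lit 262) (nat_lit 263)) (PT.lf (nat_lit 836) (nat_lit 3) (nat_lit 11) (nat_lit 4) (nat_lit 76) (nat_lit 262) (nat_lit 262))) (PT.nd (nat_lit 14352) (PT.lf (nat_lit 912) (nat_lit 6) (nat_lit 12) (nat_lit 4) (nat_lit 77) (nat_lit 262) (nat_lit 261)) (PT.nd (nat_lit 78) (PT.lf (nat_lit 912) (nat_lit 6) (nat_lit 12) (nat_lit 2) (nat_lit 261) (nat_lit 262) (nat_lit 77)) (PT.lf (nat_lit 836) (nat_lit 3) (nat_lit 11) (nat_lit 0) (nat_lit 262) (nat_lit 262) (nat_lit 76)))))))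 (PT.nd (nat_lit 124956) (PT.nd (nat_lit 62478) (PT.nd (nat_lit 47736) (PT.nd (nat_lit 47658) (PT.lf (nat_lit 684) (nat_lit 6) (nat_lit 9) (nat_lit 0) (nat_lit 263) (nat_lit 262) (nat_lit 75)) (PT.lf (nat_lit 456) (nat_lit 6) (nat_lit 6) (nat_lit 5) (nat_lit 73) (nat_lit 263) (nat_lit 264))) (PT.nd (nat_lit 78) (PT.lf (nat_lit 608) (nat_lit 3) (nat_lit 8) (nat_lit 4) (nat_lit 74) (nat_lit 263) (nat_lit 263)) (PT.nd (nat_lit 14586) (PT.lf (nat_lit 684) (nat_lit 6) (nat_lit 9) (nat_lit 4) (nat_lit 75) (nat_lit 263) (nat_lit 262)) (PT.lf (nat_lit 684) (nat_lit 6) (nat_lit 9) (nat_lit 2) (nat_lit 262) (nat_lit 263) (nat_lit 75))))) (PT.nd (nat_lit 47502) (PT.nd (nat_lit 78) (PT.lf (nat_lit 608) (nat_lit 3) (nat_lit 8) (nat_lit 0) (nat_lit 263) (nat_lit 263) (nat_lit 74)) (PT.lf (nat_lit 456) (nat_lit 6) (nat_lit 6) (nat_lit 0) (nat_lit 264) (nat_lit 263) (nat_lit 73))) (PT.nd (nat_lit 78) (PT.lf (nat_lit 228) (nat_lit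 6) (nat_lit 3) (nat_lit 5) (nat_lit 71) (nat_lit 264) (nat_lit 265)) (PT.nd (nat_lit 78) (PT.lf (nat_lit 380) (nat_lit 3) (nat_lit 5) (nat_lit 4) (nat_lit 72) (nat_lit 264) (nat_lit 264)) (PT.lf (nat_lit 456) (nat_lit 6) (nat_lit 6) (nat_lit 4) (nat_lit 73) (nat_lit 264) (nat_lit 263)))))) (PT.nd (nat_lit 358956) (PT.nd (nat_lit 156) (PT.nd (nat_lit 78) (PT.lf (nat_lit 456) (nat_lit 6) (nat_lit 6) (nat_lit 2) (nat_lit 263) (nat_lit 264) (nat_lit 73)) (PT.lf (nat_lit 380) (nat_lit 3) (nat_lit 5) (nat_lit 0) (nat_lit 264) (nat_lit 264) (nat_lit 72))) (PT.nd (nat_lit 47346) (PT.lf (nat_lit 228) (nat_lit 6) (nat_lit 3) (nat_lit 0) (nat_lit 265) (nat_lit 264) (nat_lit 71)) (PT.nd (nat_lit 15054) (PT.lf (nat_lit 228) (nat_lit 6) (nat_lit 3) (nat_lit 4) (nat_lit 71) (nat_lit 265) (nat_lit 264)) (PT.lf (nat_lit 228) (nat_lit 6) (nat_lit 3) (nat_lit 2) (nat_lit 264) (nat_lit 265) (nat_lit 71))))) (PT.nd (nat_lit 16536) (PT.nd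 (nat_lit 78) (PT.lf (nat_lit 76) (nat_lit 6) (nat_lit 1) (nat_lit 5) (nat_lit 59) (nat_lit 270) (nat_lit 271)) (PT.nd (nat_lit 16380) (PT.lf (nat_lit 152) (nat_lit 3) (nat_lit 2) (nat_lit 4) (nat_lit 60) (nat_lit 270) (nat_lit 270)) (PT.lf (nat_lit 152) (nat_lit 3) (nat_lit 2) (nat_lit 0) (nat_lit 270) (nat_lit 270) (nat_lit 60)))) (PT.nd (nat_lit 45942) (PT.lf (nat_lit 76) (nat_lit 6) (nat_lit 1) (nat_lit 0) (nat_lit 271) (nat_lit 270) (nat_lit 59)) (PT.nd (nat_lit 16458) (PT.lf (nat_lit 76) (nat_lit 6) (nat_lit 1) (nat_lit 4) (nat_lit 59) (nat_lit 271) (nat_lit 270)) (PT.lf (nat_lit 76) (nat_lit 6) (nat_lit 1) (nat_lit 2) (nat_lit 270) (nat_lit 271) (nat_lit 59))))))))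
noncomputable def xc0 : XT := (XT.nd (nat_lit 249834) (nat_lit 0) (nat_lit 0) (XT.nd (nat_lit 186966) (nat_lit 0) (nat_lit 0) (XT.nd (nat_lit 124566) (nat_lit 0) (nat_lit 0) (XT.nd (nat_lit 62322) (nat_lit 0) (nat_lit 0) (XT.nd (nat_lit 78) (nat_lit 0) (nat_lit 0) (XT.lf (nat_lit 0) (nat_lit 4851299574) (nat_lit 76) (nat_lit 21642968910) (nat_lit 76) (nat_lit 21588621447) (nat_lit 11) (nat_lit 4) (nat_lit 12) (nat_lit 5) (nat_lit 12) (nat_lit 4) (nat_lit 553) (nat_lit 324) (nat_lit 323)) (XT.nd (nat_lit 62166) (nat_lit 0) (nat_lit 228) (XT.lf (nat_lit 0) (nat_lit 30643224699) (nat_lit 76) (nat_lit 9303916711) (nat_lit 76) (nat_lit 9196804722) (nat_lit 11) (nat_lit 4) (nat_lit 12) (nat_lit 5) (nat_lit 12) (nat_lit 4) (nat_lit 554) (nat_lit 324) (nat_lit 322)) (XT.lf (nat_lit 0) (nat_lit 10510949091) (nat_lit 76) (nat_lit 6016264521) (nat_lit 76) (nat_lit 6016264521) (nat_lit 14) (nat_lit 4) (nat_lit 15) (nat_lit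 5) (nat_lit 15) (nat_lit 4) (nat_lit 550) (nat_lit 325) (nat_lit 325)))) (XT.nd (nat_lit 156) (nat_lit 76) (nat_lit 0) (XT.nd (nat_lit 78) (nat_lit 0) (nat_lit 0) (XT.lf (nat_lit 0) (nat_lit 520665152) (nat_lit 152) (nat_lit 45075876690) (nat_lit 0) (nat_lit 464687265) (nat_lit 12) (nat_lit 5) (nat_lit 14) (nat_lit 4) (nat_lit 12) (nat_lit 4) (nat_lit 551) (nat_lit 325) (nat_lit 324)) (XT.lf (nat_lit 0) (nat_lit 13320146709) (nat_lit 152) (nat_lit 20527842238) (nat_lit 0) (nat_lit 13209821359) (nat_lit 12) (nat_lit 5) (nat_lit 14) (nat_lit 4) (nat_lit 12) (nat_lit 4) (nat_lit 552) (nat_lit 325) (nat_lit 323))) (XT.nd (nat_lit 78) (nat_lit 0) (nat_lit 0) (XT.lf (nat_lit 0) (nat_lit 4345988851) (nat_lit 76) (nat_lit 21953753141) (nat_lit 76) (nat_lit 21790663265) (nat_lit 11) (nat_lit 4) (nat_lit 12) (nat_lit 5) (nat_lit 12) (nat_lit 4) (nat_lit 553) (nat_lit 325) (nat_lit 322)) (XT.lf (nat_lit 0) (nat_lit 29896242578)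 (nat_lit 76) (nat_lit 9736565376) (nat_lit 76) (nat_lit 9522247804) (nat_lit 11) (nat_lit 4) (nat_lit 12) (nat_lit 5) (nat_lit 12) (nat_lit 4) (nat_lit 554) (nat_lit 325) (nat_lit 321))))) (XT.nd (nat_lit 312) (nat_lit 76) (nat_lit 0) (XT.nd (nat_lit 156) (nat_lit 228) (nat_lit 0) (XT.nd (nat_lit 78) (nat_lit 0) (nat_lit 0) (XT.lf (nat_lit 0) (nat_lit 3460558505) (nat_lit 152) (nat_lit 14694416764) (nat_lit 0) (nat_lit 3460558505) (nat_lit 15) (nat_lit 5) (nat_lit 17) (nat_lit 4) (nat_lit 15) (nat_lit 4) (nat_lit 548) (nat_lit 326) (nat_lit 326)) (XT.lf (nat_lit 0) (nat_lit 19785801858) (nat_lit 152) (nat_lit 4634225266) (nat_lit 0) (nat_lit 19726414918) (nat_lit 15) (nat_lit 5) (nat_lit 17) (nat_lit 4) (nat_lit 15) (nat_lit 4) (nat_lit 549) (nat_lit 326) (nat_lit 325))) (XT.nd (nat_lit 78) (nat_lit 152) (nat_lit 0) (XT.lf (nat_lit 0) (nat_lit 20773026249) (nat_lit 76) (nat_lit 12217338879) (nat_lit 76) (nat_lit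 12100294716) (nat_lit 14) (nat_lit 4) (nat_lit 15) (nat_lit 5) (nat_lit 15) (nat_lit 4) (nat_lit 550) (nat_lit 326) (nat_lit 324)) (XT.lf (nat_lit 0) (nat_lit 325305941) (nat_lit 152) (nat_lit 45586190490) (nat_lit 0) (nat_lit 157323368) (nat_lit 12) (nat_lit 5) (nat_lit 14) (nat_lit 4) (nat_lit 12) (nat_lit 4) (nat_lit 551) (nat_lit 326) (nat_lit 323)))) (XT.nd (nat_lit 156) (nat_lit 0) (nat_lit 0) (XT.nd (nat_lit 78) (nat_lit 76) (nat_lit 0) (XT.lf (nat_lit 0) (nat_lit 13003779112) (nat_lit 152) (nat_lit 21282220221) (nat_lit 0) (nat_lit 12783032012) (nat_lit 12) (nat_lit 5) (nat_lit 14) (nat_lit 4) (nat_lit 12) (nat_lit 4) (nat_lit 552) (nat_lit 326) (nat_lit 322)) (XT.lf (nat_lit 0) (nat_lit 3334925870) (nat_lit 76) (nat_lit 22521245699) (nat_lit 76) (nat_lit 22249270904) (nat_lit 11) (nat_lit 4) (nat_lit 12) (nat_lit 5) (nat_lit 12) (nat_lit 4) (nat_lit 553) (nat_lit 326) (nat_lit 321))) (XT.nd (nat_lit 61854)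 (nat_lit 0) (nat_lit 456) (XT.lf (nat_lit 0) (nat_lit 28650547173) (nat_lit 76) (nat_lit 10422372918) (nat_lit 76) (nat_lit 10100662495) (nat_lit 11) (nat_lit 4) (nat_lit 12) (nat_lit 5) (nat_lit 12) (nat_lit 4) (nat_lit 554) (nat_lit 326) (nat_lit 320)) (XT.lf (nat_lit 0) (nat_lit 2674255820) (nat_lit 76) (nat_lit 9032034002) (nat_lit 76) (nat_lit 9032034002) (nat_lit 17) (nat_lit 4) (nat_lit 18) (nat_lit 5) (nat_lit 18) (nat_lit 4) (nat_lit 546) (nat_lit 327) (nat_lit 327)))))) (XT.nd (nat_lit 62244) (nat_lit 0) (nat_lit 228) (XT.nd (nat_lit 312) (nat_lit 228) (nat_lit 0) (XT.nd (nat_lit 156) (nat_lit 76) (nat_lit 0) (XT.nd (nat_lit 78) (nat_lit 152) (nat_lit 0) (XT.lf (nat_lit 0) (nat_lit 30888375380) (nat_lit 76) (nat_lit 5758824798) (nat_lit 76) (nat_lit 5695821193) (nat_lit 17) (nat_lit 4) (nat_lit 18) (nat_lit 5) (nat_lit 18) (nat_lit 4) (nat_lit 547) (nat_lit 327) (nat_lit 326)) (XT.lf (nat_lit 0) (nat_lit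 6857597127) (nat_lit 152) (nat_lit 29640169541) (nat_lit 0) (nat_lit 6737041639) (nat_lit 15) (nat_lit 5) (nat_lit 17) (nat_lit 4) (nat_lit 15) (nat_lit 4) (nat_lit 548) (nat_lit 327) (nat_lit 325))) (XT.nd (nat_lit 78) (nat_lit 76) (nat_lit 0) (XT.lf (nat_lit 0) (nat_lit 19601225247) (nat_lit 152) (nat_lit 5129576824) (nat_lit 0) (nat_lit 19423012536) (nat_lit 15) (nat_lit 5) (nat_lit 17) (nat_lit 4) (nat_lit 15) (nat_lit 4) (nat_lit 549) (nat_lit 327) (nat_lit 324)) (XT.lf (nat_lit 0) (nat_lit 20026192987) (nat_lit 76) (nat_lit 12654885709) (nat_lit 76) (nat_lit 12420695111) (nat_lit 14) (nat_lit 4) (nat_lit 15) (nat_lit 5) (nat_lit 15) (nat_lit 4) (nat_lit 550) (nat_lit 327) (nat_lit 323)))) (XT.nd (nat_lit 156) (nat_lit 76) (nat_lit 0) (XT.nd (nat_lit 78) (nat_lit 152) (nat_lit 0) (XT.lf (nat_lit 0) (nat_lit 45565578286) (nat_lit 76) (nat_lit 403332138) (nat_lit 76) (nat_lit 114794077) (nat_lit 14) (nat_lit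 4) (nat_lit 15) (nat_lit 5) (nat_lit 15) (nat_lit 4) (nat_lit 551) (nat_lit 327) (nat_lit 322)) (XT.lf (nat_lit 0) (nat_lit 12439428231) (nat_lit 152) (nat_lit 22540249244) (nat_lit 0) (nat_lit 12108066495) (nat_lit 12) (nat_lit 5) (nat_lit 14) (nat_lit 4) (nat_lit 12) (nat_lit 4) (nat_lit 552) (nat_lit 327) (nat_lit 321))) (XT.nd (nat_lit 78) (nat_lit 0) (nat_lit 0) (XT.lf (nat_lit 0) (nat_lit 1817227178) (nat_lit 76) (nat_lit 23345942452) (nat_lit 76) (nat_lit 22964845089) (nat_lit 11) (nat_lit 4) (nat_lit 12) (nat_lit 5) (nat_lit 12) (nat_lit 4) (nat_lit 553) (nat_lit 327) (nat_lit 320)) (XT.lf (nat_lit 0) (nat_lit 26905050012) (nat_lit 76) (nat_lit 11361938588) (nat_lit 76) (nat_lit 10932554208) (nat_lit 11) (nat_lit 4) (nat_lit 12) (nat_lit 5) (nat_lit 12) (nat_lit 4) (nat_lit 554) (nat_lit 327) (nat_lit 319))))) (XT.nd (nat_lit 312) (nat_lit 228) (nat_lit 0) (XT.nd (nat_lit 156) (nat_lit 76) (nat_lit 0) (XT.nd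 (nat_lit 78) (nat_lit 152) (nat_lit 0) (XT.lf (nat_lit 0) (nat_lit 17910902962) (nat_lit 76) (nat_lit 999979118) (nat_lit 76) (nat_lit 999979118) (nat_lit 20) (nat_lit 4) (nat_lit 21) (nat_lit 5) (nat_lit 21) (nat_lit 4) (nat_lit 544) (nat_lit 328) (nat_lit 328)) (XT.lf (nat_lit 0) (nat_lit 10576576569) (nat_lit 152) (nat_lit 19548801433) (nat_lit 0) (nat_lit 10511682856) (nat_lit 18) (nat_lit 5) (nat_lit 20) (nat_lit 4) (nat_lit 18) (nat_lit 4) (nat_lit 545) (nat_lit 328) (nat_lit 327))) (XT.nd (nat_lit 78) (nat_lit 0) (nat_lit 0) (XT.lf (nat_lit 0) (nat_lit 5099693911) (nat_lit 76) (nat_lit 18254278105) (nat_lit 76) (nat_lit 18126380788) (nat_lit 17) (nat_lit 4) (nat_lit 18) (nat_lit 5) (nat_lit 18) (nat_lit 4) (nat_lit 546) (nat_lit 328) (nat_lit 326)) (XT.lf (nat_lit 0) (nat_lit 30397987040) (nat_lit 76) (nat_lit 6070701294) (nat_lit 76) (nat_lit 5881635428) (nat_lit 17) (nat_lit 4) (nat_lit 18) (nat_lit 5)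 (nat_lit 18) (nat_lit 4) (nat_lit 547) (nat_lit 328) (nat_lit 325)))) (XT.nd (nat_lit 156) (nat_lit 76) (nat_lit 0) (XT.nd (nat_lit 78) (nat_lit 0) (nat_lit 0) (XT.lf (nat_lit 0) (nat_lit 6546426490) (nat_lit 152) (nat_lit 30394397193) (nat_lit 0) (nat_lit 6305210174) (nat_lit 15) (nat_lit 5) (nat_lit 17) (nat_lit 4) (nat_lit 15) (nat_lit 4) (nat_lit 548) (nat_lit 328) (nat_lit 324)) (XT.lf (nat_lit 0) (nat_lit 19172523806) (nat_lit 152) (nat_lit 6120712773) (nat_lit 0) (nat_lit 18875329603) (nat_lit 15) (nat_lit 5) (nat_lit 17) (nat_lit 4) (nat_lit 15) (nat_lit 4) (nat_lit 549) (nat_lit 328) (nat_lit 323))) (XT.nd (nat_lit 78) (nat_lit 0) (nat_lit 0) (XT.lf (nat_lit 0) (nat_lit 18780745823) (nat_lit 76) (nat_lit 13345551854) (nat_lit 76) (nat_lit 12994010189) (nat_lit 14) (nat_lit 4) (nat_lit 15) (nat_lit 5) (nat_lit 15) (nat_lit 4) (nat_lit 550) (nat_lit 328) (nat_lit 322)) (XT.lf (nat_lit 0) (nat_lit 44092378047)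 (nat_lit 76) (nat_lit 1208778001) (nat_lit 76) (nat_lit 804471809) (nat_lit 14) (nat_lit 4) (nat_lit 15) (nat_lit 5) (nat_lit 15) (nat_lit 4) (nat_lit 551) (nat_lit 328) (nat_lit 321))))))) (XT.nd (nat_lit 62634) (nat_lit 0) (nat_lit 0) (XT.nd (nat_lit 62010) (nat_lit 0) (nat_lit 76) (XT.nd (nat_lit 61698) (nat_lit 0) (nat_lit 532) (XT.nd (nat_lit 78) (nat_lit 76) (nat_lit 0) (XT.lf (nat_lit 0) (nat_lit 11626600944) (nat_lit 152) (nat_lit 24303028556) (nat_lit 0) (nat_lit 11184335033) (nat_lit 12) (nat_lit 5) (nat_lit 14) (nat_lit 4) (nat_lit 12) (nat_lit 4) (nat_lit 552) (nat_lit 328) (nat_lit 320)) (XT.nd (nat_lit 78) (nat_lit 76) (nat_lit 0) (XT.lf (nat_lit 0) (nat_lit 24222134230) (nat_lit 152) (nat_lit 204366081) (nat_lit 0) (nat_lit 23731581302) (nat_lit 12) (nat_lit 5) (nat_lit 14) (nat_lit 4) (nat_lit 12) (nat_lit 4) (nat_lit 553) (nat_lit 328) (nat_lit 319)) (XT.lf (nat_lit 0) (nat_lit 24658225903) (nat_lit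 76) (nat_lit 12556083364) (nat_lit 76) (nat_lit 12018649838) (nat_lit 11) (nat_lit 4) (nat_lit 12) (nat_lit 5) (nat_lit 12) (nat_lit 4) (nat_lit 554) (nat_lit 328) (nat_lit 318)))) (XT.nd (nat_lit 156) (nat_lit 152) (nat_lit 0) (XT.nd (nat_lit 78) (nat_lit 76) (nat_lit 0) (XT.lf (nat_lit 0) (nat_lit 5996083167) (nat_lit 152) (nat_lit 7133627855) (nat_lit 0) (nat_lit 5996083167) (nat_lit 21) (nat_lit 5) (nat_lit 23) (nat_lit 4) (nat_lit 21) (nat_lit 4) (nat_lit 542) (nat_lit 329) (nat_lit 329)) (XT.lf (nat_lit 0) (nat_lit 10385628712) (nat_lit 76) (nat_lit 14354286763) (nat_lit 76) (nat_lit 14285441023) (nat_lit 20) (nat_lit 4) (nat_lit 21) (nat_lit 5) (nat_lit 21) (nat_lit 4) (nat_lit 543) (nat_lit 329) (nat_lit 328))) (XT.nd (nat_lit 78) (nat_lit 152) (nat_lit 0) (XT.lf (nat_lit 0) (nat_lit 35580292818) (nat_lit 76) (nat_lit 2190357377) (nat_lit 76) (nat_lit 2054671113) (nat_lit 20) (nat_lit 4) (nat_lit 21) (nat_lit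 5) (nat_lit 21) (nat_lit 4) (nat_lit 544) (nat_lit 329) (nat_lit 327)) (XT.lf (nat_lit 0) (nat_lit 10397564699) (nat_lit 152) (nat_lit 20044045103) (nat_lit 0) (nat_lit 10202826858) (nat_lit 18) (nat_lit 5) (nat_lit 20) (nat_lit 4) (nat_lit 18) (nat_lit 4) (nat_lit 545) (nat_lit 329) (nat_lit 326))))) (XT.nd (nat_lit 312) (nat_lit 228) (nat_lit 0) (XT.nd (nat_lit 156) (nat_lit 152) (nat_lit 0) (XT.nd (nat_lit 78) (nat_lit 0) (nat_lit 0) (XT.lf (nat_lit 0) (nat_lit 4353023310) (nat_lit 76) (nat_lit 18697177292) (nat_lit 76) (nat_lit 18441270902) (nat_lit 17) (nat_lit 4) (nat_lit 18) (nat_lit 5) (nat_lit 18) (nat_lit 4) (nat_lit 546) (nat_lit 329) (nat_lit 325)) (XT.lf (nat_lit 0) (nat_lit 29416781865) (nat_lit 76) (nat_lit 6631723195) (nat_lit 76) (nat_lit 6316429865) (nat_lit 17) (nat_lit 4) (nat_lit 18) (nat_lit 5) (nat_lit 18) (nat_lit 4) (nat_lit 547) (nat_lit 329) (nat_lit 324))) (XT.nd (nat_lit 78) (nat_lit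 0) (nat_lit 0) (XT.lf (nat_lit 0) (nat_lit 5987333201) (nat_lit 152) (nat_lit 31652175517) (nat_lit 0) (nat_lit 5625245286) (nat_lit 15) (nat_lit 5) (nat_lit 17) (nat_lit 4) (nat_lit 15) (nat_lit 4) (nat_lit 548) (nat_lit 329) (nat_lit 323)) (XT.lf (nat_lit 0) (nat_lit 18499322940) (nat_lit 152) (nat_lit 7608499152) (nat_lit 0) (nat_lit 18082887562) (nat_lit 15) (nat_lit 5) (nat_lit 17) (nat_lit 4) (nat_lit 15) (nat_lit 4) (nat_lit 549) (nat_lit 329) (nat_lit 322)))) (XT.nd (nat_lit 156) (nat_lit 152) (nat_lit 0) (XT.nd (nat_lit 78) (nat_lit 0) (nat_lit 0) (XT.lf (nat_lit 0) (nat_lit 17035596503) (nat_lit 76) (nat_lit 14289940810) (nat_lit 76) (nat_lit 13820740906) (nat_lit 14) (nat_lit 4) (nat_lit 15) (nat_lit 5) (nat_lit 15) (nat_lit 4) (nat_lit 550) (nat_lit 329) (nat_lit 321)) (XT.lf (nat_lit 0) (nat_lit 42126109237) (nat_lit 76) (nat_lit 2264603576) (nat_lit 76) (nat_lit 1744175975) (nat_lit 14) (nat_lit 4)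 (nat_lit 15) (nat_lit 5) (nat_lit 15) (nat_lit 4) (nat_lit 551) (nat_lit 329) (nat_lit 320))) (XT.nd (nat_lit 78) (nat_lit 0) (nat_lit 0) (XT.lf (nat_lit 0) (nat_lit 10564587015) (nat_lit 152) (nat_lit 26572098449) (nat_lit 0) (nat_lit 10011030482) (nat_lit 12) (nat_lit 5) (nat_lit 14) (nat_lit 4) (nat_lit 12) (nat_lit 4) (nat_lit 552) (nat_lit 329) (nat_lit 319)) (XT.lf (nat_lit 0) (nat_lit 23052605917) (nat_lit 152) (nat_lit 2690283839) (nat_lit 0) (nat_lit 22452168785) (nat_lit 12) (nat_lit 5) (nat_lit 14) (nat_lit 4) (nat_lit 12) (nat_lit 4) (nat_lit 553) (nat_lit 329) (nat_lit 318)))))) (XT.nd (nat_lit 61932) (nat_lit 0) (nat_lit 0) (XT.nd (nat_lit 61620) (nat_lit 0) (nat_lit 456) (XT.nd (nat_lit 61464) (nat_lit 0) (nat_lit 760) (XT.nd (nat_lit 61386) (nat_lit 0) (nat_lit 912) (XT.lf (nat_lit 0) (nat_lit 21908111601) (nat_lit 76) (nat_lit 14005850675) (nat_lit 76) (nat_lit 13359898399) (nat_lit 11) (nat_lit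 4) (nat_lit 12) (nat_lit 5) (nat_lit 12) (nat_lit 4) (nat_lit 554) (nat_lit 329) (nat_lit 317)) (XT.lf (nat_lit 0) (nat_lit 5778792254) (nat_lit 76) (nat_lit 6302671989) (nat_lit 76) (nat_lit 6302671989) (nat_lit 23) (nat_lit 4) (nat_lit 24) (nat_lit 5) (nat_lit 24) (nat_lit 4) (nat_lit 540) (nat_lit 330) (nat_lit 330))) (XT.nd (nat_lit 78) (nat_lit 152) (nat_lit 0) (XT.lf (nat_lit 0) (nat_lit 36532239318) (nat_lit 76) (nat_lit 522422037) (nat_lit 76) (nat_lit 449383592) (nat_lit 23) (nat_lit 4) (nat_lit 24) (nat_lit 5) (nat_lit 24) (nat_lit 4) (nat_lit 541) (nat_lit 330) (nat_lit 329)) (XT.lf (nat_lit 0) (nat_lit 11941910170) (nat_lit 152) (nat_lit 14511160035) (nat_lit 0) (nat_lit 11802153319) (nat_lit 21) (nat_lit 5) (nat_lit 23) (nat_lit 4) (nat_lit 21) (nat_lit 4) (nat_lit 542) (nat_lit 330) (nat_lit 328)))) (XT.nd (nat_lit 156) (nat_lit 228) (nat_lit 0) (XT.nd (nat_lit 78) (nat_lit 0) (nat_lit 0) (XT.lf (nat_lit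 0) (nat_lit 9895357108) (nat_lit 76) (nat_lit 14671951278) (nat_lit 76) (nat_lit 14465353902) (nat_lit 20) (nat_lit 4) (nat_lit 21) (nat_lit 5) (nat_lit 21) (nat_lit 4) (nat_lit 543) (nat_lit 330) (nat_lit 327)) (XT.lf (nat_lit 0) (nat_lit 34855542471) (nat_lit 76) (nat_lit 2626034903) (nat_lit 76) (nat_lit 2354543814) (nat_lit 20) (nat_lit 4) (nat_lit 21) (nat_lit 5) (nat_lit 21) (nat_lit 4) (nat_lit 544) (nat_lit 330) (nat_lit 326))) (XT.nd (nat_lit 78) (nat_lit 76) (nat_lit 0) (XT.lf (nat_lit 0) (nat_lit 9974490829) (nat_lit 152) (nat_lit 21034965181) (nat_lit 0) (nat_lit 9649738700) (nat_lit 18) (nat_lit 5) (nat_lit 20) (nat_lit 4) (nat_lit 18) (nat_lit 4) (nat_lit 545) (nat_lit 330) (nat_lit 325)) (XT.lf (nat_lit 0) (nat_lit 3107847405) (nat_lit 76) (nat_lit 19393152564) (nat_lit 76) (nat_lit 19009013494) (nat_lit 17) (nat_lit 4) (nat_lit 18) (nat_lit 5) (nat_lit 18) (nat_lit 4) (nat_lit 546) (nat_lit 330)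 (nat_lit 324))))) (XT.nd (nat_lit 312) (nat_lit 228) (nat_lit 0) (XT.nd (nat_lit 156) (nat_lit 76) (nat_lit 0) (XT.nd (nat_lit 78) (nat_lit 152) (nat_lit 0) (XT.lf (nat_lit 0) (nat_lit 27943902491) (nat_lit 76) (nat_lit 7442380714) (nat_lit 76) (nat_lit 7000584421) (nat_lit 17) (nat_lit 4) (nat_lit 18) (nat_lit 5) (nat_lit 18) (nat_lit 4) (nat_lit 547) (nat_lit 330) (nat_lit 323)) (XT.lf (nat_lit 0) (nat_lit 5179828732) (nat_lit 152) (nat_lit 33414603543) (nat_lit 0) (nat_lit 4696552830) (nat_lit 15) (nat_lit 5) (nat_lit 17) (nat_lit 4) (nat_lit 15) (nat_lit 4) (nat_lit 548) (nat_lit 330) (nat_lit 322))) (XT.nd (nat_lit 78) (nat_lit 76) (nat_lit 0) (XT.lf (nat_lit 0) (nat_lit 17581034416) (nat_lit 152) (nat_lit 9594235970) (nat_lit 0) (nat_lit 17044993987) (nat_lit 15) (nat_lit 5) (nat_lit 17) (nat_lit 4) (nat_lit 15) (nat_lit 4) (nat_lit 549) (nat_lit 330) (nat_lit 321)) (XT.lf (nat_lit 0) (nat_lit 14789220138)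 (nat_lit 76) (nat_lit 15488877771) (nat_lit 76) (nat_lit 14901609646) (nat_lit 14) (nat_lit 4) (nat_lit 15) (nat_lit 5) (nat_lit 15) (nat_lit 4) (nat_lit 550) (nat_lit 330) (nat_lit 320)))) (XT.nd (nat_lit 156) (nat_lit 76) (nat_lit 0) (XT.nd (nat_lit 78) (nat_lit 152) (nat_lit 0) (XT.lf (nat_lit 0) (nat_lit 39665053756) (nat_lit 76) (nat_lit 3571731429) (nat_lit 76) (nat_lit 2934727676) (nat_lit 14) (nat_lit 4) (nat_lit 15) (nat_lit 5) (nat_lit 15) (nat_lit 4) (nat_lit 551) (nat_lit 330) (nat_lit 319)) (XT.lf (nat_lit 0) (nat_lit 9252458468) (nat_lit 152) (nat_lit 29349441605) (nat_lit 0) (nat_lit 8587127624) (nat_lit 12) (nat_lit 5) (nat_lit 14) (nat_lit 4) (nat_lit 12) (nat_lit 4) (nat_lit 552) (nat_lit 330) (nat_lit 318))) (XT.nd (nat_lit 78) (nat_lit 76) (nat_lit 0) (XT.lf (nat_lit 0) (nat_lit 21636094473) (nat_lit 152) (nat_lit 5678158904) (nat_lit 0) (nat_lit 20925248485) (nat_lit 12) (nat_lit 5) (nat_lit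 14) (nat_lit 4) (nat_lit 12) (nat_lit 4) (nat_lit 553) (nat_lit 330) (nat_lit 317)) (XT.lf (nat_lit 0) (nat_lit 18652304094) (nat_lit 76) (nat_lit 15712507307) (nat_lit 76) (nat_lit 14957471858) (nat_lit 11) (nat_lit 4) (nat_lit 12) (nat_lit 5) (nat_lit 12) (nat_lit 4) (nat_lit 554) (nat_lit 330) (nat_lit 316))))))))
noncomputable def xc1 : XT := (XT.nd (nat_lit 63414) (nat_lit 0) (nat_lit 0) (XT.nd (nat_lit 1170) (nat_lit 76) (nat_lit 0) (XT.nd (nat_lit 546) (nat_lit 608) (nat_lit 0) (XT.nd (nat_lit 234) (nat_lit 228) (nat_lit 0) (XT.nd (nat_lit 78) (nat_lit 228) (nat_lit 0) (XT.lf (nat_lit 0) (nat_lit 17033256352) (nat_lit 76) (nat_lit 324979863) (nat_lit 76) (nat_lit 324979863) (nat_lit 26) (nat_lit 4) (nat_lit 27) (nat_lit 5) (nat_lit 27) (nat_lit 4) (nat_lit 538) (nat_lit 331) (nat_lit 331)) (XT.nd (nat_lit 78) (nat_lit 76) (nat_lit 0) (XT.lf (nat_lit 0) (nat_lit 11611922682) (nat_lit 152) (nat_lit 12908614436)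 (nat_lit 0) (nat_lit 11536693083) (nat_lit 24) (nat_lit 5) (nat_lit 26) (nat_lit 4) (nat_lit 24) (nat_lit 4) (nat_lit 539) (nat_lit 331) (nat_lit 330)) (XT.lf (nat_lit 0) (nat_lit 11316134240) (nat_lit 76) (nat_lit 12802003504) (nat_lit 76) (nat_lit 12653735460) (nat_lit 23) (nat_lit 4) (nat_lit 24) (nat_lit 5) (nat_lit 24) (nat_lit 4) (nat_lit 540) (nat_lit 331) (nat_lit 329)))) (XT.nd (nat_lit 156) (nat_lit 76) (nat_lit 0) (XT.nd (nat_lit 78) (nat_lit 152) (nat_lit 0) (XT.lf (nat_lit 0) (nat_lit 36056371316) (nat_lit 76) (nat_lit 836974698) (nat_lit 76) (nat_lit 617795542) (nat_lit 23) (nat_lit 4) (nat_lit 24) (nat_lit 5) (nat_lit 24) (nat_lit 4) (nat_lit 541) (nat_lit 331) (nat_lit 328)) (XT.lf (nat_lit 0) (nat_lit 11651340911) (nat_lit 152) (nat_lit 15243086128) (nat_lit 0) (nat_lit 11371705089) (nat_lit 21) (nat_lit 5) (nat_lit 23) (nat_lit 4) (nat_lit 21) (nat_lit 4) (nat_lit 542) (nat_lit 331) (nat_lit 327)))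 (XT.nd (nat_lit 78) (nat_lit 0) (nat_lit 0) (XT.lf (nat_lit 0) (nat_lit 8914385507) (nat_lit 76) (nat_lit 15238712140) (nat_lit 76) (nat_lit 14894182606) (nat_lit 20) (nat_lit 4) (nat_lit 21) (nat_lit 5) (nat_lit 21) (nat_lit 4) (nat_lit 543) (nat_lit 331) (nat_lit 326)) (XT.lf (nat_lit 0) (nat_lit 33646921606) (nat_lit 76) (nat_lit 3307371503) (nat_lit 76) (nat_lit 2899838364) (nat_lit 20) (nat_lit 4) (nat_lit 21) (nat_lit 5) (nat_lit 21) (nat_lit 4) (nat_lit 544) (nat_lit 331) (nat_lit 325))))) (XT.nd (nat_lit 312) (nat_lit 228) (nat_lit 0) (XT.nd (nat_lit 156) (nat_lit 152) (nat_lit 0) (XT.nd (nat_lit 78) (nat_lit 76) (nat_lit 0) (XT.lf (nat_lit 0) (nat_lit 9306985283) (nat_lit 152) (nat_lit 22522427519) (nat_lit 0) (nat_lit 8851935102) (nat_lit 18) (nat_lit 5) (nat_lit 20) (nat_lit 4) (nat_lit 18) (nat_lit 4) (nat_lit 545) (nat_lit 331) (nat_lit 324)) (XT.lf (nat_lit 0) (nat_lit 1363078180) (nat_lit 76) (nat_lit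 20342812055) (nat_lit 76) (nat_lit 19830104651) (nat_lit 17) (nat_lit 4) (nat_lit 18) (nat_lit 5) (nat_lit 18) (nat_lit 4) (nat_lit 546) (nat_lit 331) (nat_lit 323))) (XT.nd (nat_lit 78) (nat_lit 152) (nat_lit 0) (XT.lf (nat_lit 0) (nat_lit 25978061936) (nat_lit 76) (nat_lit 8503382193) (nat_lit 76) (nat_lit 7934696902) (nat_lit 17) (nat_lit 4) (nat_lit 18) (nat_lit 5) (nat_lit 18) (nat_lit 4) (nat_lit 547) (nat_lit 331) (nat_lit 322)) (XT.lf (nat_lit 0) (nat_lit 4123207497) (nat_lit 152) (nat_lit 35683221257) (nat_lit 0) (nat_lit 3518321328) (nat_lit 15) (nat_lit 5) (nat_lit 17) (nat_lit 4) (nat_lit 15) (nat_lit 4) (nat_lit 548) (nat_lit 331) (nat_lit 321)))) (XT.nd (nat_lit 156) (nat_lit 152) (nat_lit 0) (XT.nd (nat_lit 78) (nat_lit 76) (nat_lit 0) (XT.lf (nat_lit 0) (nat_lit 16416855845) (nat_lit 152) (nat_lit 12079658337) (nat_lit 0) (nat_lit 15760741980) (nat_lit 15) (nat_lit 5) (nat_lit 17) (nat_lit 4) (nat_lit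 15) (nat_lit 4) (nat_lit 549) (nat_lit 331) (nat_lit 320)) (XT.lf (nat_lit 0) (nat_lit 12039653877) (nat_lit 76) (nat_lit 16943410352) (nat_lit 76) (nat_lit 16237560860) (nat_lit 14) (nat_lit 4) (nat_lit 15) (nat_lit 5) (nat_lit 15) (nat_lit 4) (nat_lit 550) (nat_lit 331) (nat_lit 319))) (XT.nd (nat_lit 78) (nat_lit 152) (nat_lit 0) (XT.lf (nat_lit 0) (nat_lit 36707061168) (nat_lit 76) (nat_lit 5131303710) (nat_lit 76) (nat_lit 4377167201) (nat_lit 14) (nat_lit 4) (nat_lit 15) (nat_lit 5) (nat_lit 15) (nat_lit 4) (nat_lit 551) (nat_lit 331) (nat_lit 318)) (XT.lf (nat_lit 0) (nat_lit 7689068785) (nat_lit 152) (nat_lit 32637484829) (nat_lit 0) (nat_lit 6911382273) (nat_lit 12) (nat_lit 5) (nat_lit 14) (nat_lit 4) (nat_lit 12) (nat_lit 4) (nat_lit 552) (nat_lit 331) (nat_lit 317)))))) (XT.nd (nat_lit 61620) (nat_lit 0) (nat_lit 304) (XT.nd (nat_lit 61308) (nat_lit 0) (nat_lit 912) (XT.nd (nat_lit 61152) (nat_lit 0)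 (nat_lit 1140) (XT.nd (nat_lit 78) (nat_lit 76) (nat_lit 0) (XT.lf (nat_lit 0) (nat_lit 19971362172) (nat_lit 152) (nat_lit 9170602039) (nat_lit 0) (nat_lit 19149486199) (nat_lit 12) (nat_lit 5) (nat_lit 14) (nat_lit 4) (nat_lit 12) (nat_lit 4) (nat_lit 553) (nat_lit 331) (nat_lit 316)) (XT.lf (nat_lit 0) (nat_lit 14887958503) (nat_lit 76) (nat_lit 17677544513) (nat_lit 76) (nat_lit 16812766151) (nat_lit 11) (nat_lit 4) (nat_lit 12) (nat_lit 5) (nat_lit 12) (nat_lit 4) (nat_lit 554) (nat_lit 331) (nat_lit 315))) (XT.nd (nat_lit 78) (nat_lit 76) (nat_lit 0) (XT.lf (nat_lit 0) (nat_lit 4886780490) (nat_lit 152) (nat_lit 7242318715) (nat_lit 0) (nat_lit 4886780490) (nat_lit 27) (nat_lit 5) (nat_lit 29) (nat_lit 4) (nat_lit 27) (nat_lit 4) (nat_lit 536) (nat_lit 332) (nat_lit 332)) (XT.lf (nat_lit 0) (nat_lit 9404826052) (nat_lit 76) (nat_lit 12682302756) (nat_lit 76) (nat_lit 12602491675) (nat_lit 26) (nat_lit 4) (nat_lit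 27) (nat_lit 5) (nat_lit 27) (nat_lit 4) (nat_lit 537) (nat_lit 332) (nat_lit 331)))) (XT.nd (nat_lit 156) (nat_lit 76) (nat_lit 0) (XT.nd (nat_lit 78) (nat_lit 152) (nat_lit 0) (XT.lf (nat_lit 0) (nat_lit 33832161634) (nat_lit 76) (nat_lit 847532949) (nat_lit 76) (nat_lit 690235381) (nat_lit 26) (nat_lit 4) (nat_lit 27) (nat_lit 5) (nat_lit 27) (nat_lit 4) (nat_lit 538) (nat_lit 332) (nat_lit 330)) (XT.lf (nat_lit 0) (nat_lit 11450479444) (nat_lit 152) (nat_lit 13389194004) (nat_lit 0) (nat_lit 11224724913) (nat_lit 24) (nat_lit 5) (nat_lit 26) (nat_lit 4) (nat_lit 24) (nat_lit 4) (nat_lit 539) (nat_lit 332) (nat_lit 329))) (XT.nd (nat_lit 78) (nat_lit 0) (nat_lit 0) (XT.lf (nat_lit 0) (nat_lit 10591572462) (nat_lit 76) (nat_lit 13243885879) (nat_lit 76) (nat_lit 12947220236) (nat_lit 23) (nat_lit 4) (nat_lit 24) (nat_lit 5) (nat_lit 24) (nat_lit 4) (nat_lit 540) (nat_lit 332) (nat_lit 328)) (XT.lf (nat_lit 0)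 (nat_lit 35104219503) (nat_lit 76) (nat_lit 1393316426) (nat_lit 76) (nat_lit 1027805044) (nat_lit 23) (nat_lit 4) (nat_lit 24) (nat_lit 5) (nat_lit 24) (nat_lit 4) (nat_lit 541) (nat_lit 332) (nat_lit 327))))) (XT.nd (nat_lit 312) (nat_lit 228) (nat_lit 0) (XT.nd (nat_lit 156) (nat_lit 152) (nat_lit 0) (XT.nd (nat_lit 78) (nat_lit 76) (nat_lit 0) (XT.lf (nat_lit 0) (nat_lit 11120204661) (nat_lit 152) (nat_lit 16463673537) (nat_lit 0) (nat_lit 10700445528) (nat_lit 21) (nat_lit 5) (nat_lit 23) (nat_lit 4) (nat_lit 21) (nat_lit 4) (nat_lit 542) (nat_lit 332) (nat_lit 326)) (XT.lf (nat_lit 0) (nat_lit 7441856751) (nat_lit 76) (nat_lit 16055064577) (nat_lit 76) (nat_lit 15572301839) (nat_lit 20) (nat_lit 4) (nat_lit 21) (nat_lit 5) (nat_lit 21) (nat_lit 4) (nat_lit 543) (nat_lit 332) (nat_lit 325))) (XT.nd (nat_lit 78) (nat_lit 152) (nat_lit 0) (XT.lf (nat_lit 0) (nat_lit 31953374145) (nat_lit 76) (nat_lit 4234962520)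 (nat_lit 76) (nat_lit 3691031235) (nat_lit 20) (nat_lit 4) (nat_lit 21) (nat_lit 5) (nat_lit 21) (nat_lit 4) (nat_lit 544) (nat_lit 332) (nat_lit 324)) (XT.lf (nat_lit 0) (nat_lit 8394464803) (nat_lit 152) (nat_lit 24507731842) (nat_lit 0) (nat_lit 7808718953) (nat_lit 18) (nat_lit 5) (nat_lit 20) (nat_lit 4) (nat_lit 18) (nat_lit 4) (nat_lit 545) (nat_lit 332) (nat_lit 323)))) (XT.nd (nat_lit 156) (nat_lit 152) (nat_lit 0) (XT.nd (nat_lit 78) (nat_lit 76) (nat_lit 0) (XT.lf (nat_lit 0) (nat_lit 20672662745) (nat_lit 152) (nat_lit 865582138) (nat_lit 0) (nat_lit 20030939008) (nat_lit 18) (nat_lit 5) (nat_lit 20) (nat_lit 4) (nat_lit 18) (nat_lit 4) (nat_lit 546) (nat_lit 332) (nat_lit 322)) (XT.lf (nat_lit 0) (nat_lit 23517542476) (nat_lit 76) (nat_lit 9815654720) (nat_lit 76) (nat_lit 9119583521) (nat_lit 17) (nat_lit 4) (nat_lit 18) (nat_lit 5) (nat_lit 18) (nat_lit 4) (nat_lit 547) (nat_lit 332) (nat_lit 321)))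 (XT.nd (nat_lit 78) (nat_lit 0) (nat_lit 0) (XT.lf (nat_lit 0) (nat_lit 2816546234) (nat_lit 152) (nat_lit 38460010947) (nat_lit 0) (nat_lit 2089521257) (nat_lit 15) (nat_lit 5) (nat_lit 17) (nat_lit 4) (nat_lit 15) (nat_lit 4) (nat_lit 548) (nat_lit 332) (nat_lit 320)) (XT.lf (nat_lit 0) (nat_lit 15005769985) (nat_lit 152) (nat_lit 15066937980) (nat_lit 0) (nat_lit 14229009381) (nat_lit 15) (nat_lit 5) (nat_lit 17) (nat_lit 4) (nat_lit 15) (nat_lit 4) (nat_lit 549) (nat_lit 332) (nat_lit 319))))))) (XT.nd (nat_lit 62088) (nat_lit 0) (nat_lit 0) (XT.nd (nat_lit 61464) (nat_lit 0) (nat_lit 684) (XT.nd (nat_lit 312) (nat_lit 76) (nat_lit 0) (XT.nd (nat_lit 156) (nat_lit 152) (nat_lit 0) (XT.nd (nat_lit 78) (nat_lit 0) (nat_lit 0) (XT.lf (nat_lit 0) (nat_lit 8784495185) (nat_lit 76) (nat_lit 18654809503) (nat_lit 76) (nat_lit 17829761882) (nat_lit 14) (nat_lit 4) (nat_lit 15) (nat_lit 5) (nat_lit 15) (nat_lit 4) (nat_lit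 550) (nat_lit 332) (nat_lit 318)) (XT.lf (nat_lit 0) (nat_lit 33249546819) (nat_lit 76) (nat_lit 6944683154) (nat_lit 76) (nat_lit 6072754934) (nat_lit 14) (nat_lit 4) (nat_lit 15) (nat_lit 5) (nat_lit 15) (nat_lit 4) (nat_lit 551) (nat_lit 332) (nat_lit 317))) (XT.nd (nat_lit 78) (nat_lit 0) (nat_lit 0) (XT.lf (nat_lit 0) (nat_lit 5873051897) (nat_lit 152) (nat_lit 36439101169) (nat_lit 0) (nat_lit 4982330184) (nat_lit 12) (nat_lit 5) (nat_lit 14) (nat_lit 4) (nat_lit 12) (nat_lit 4) (nat_lit 552) (nat_lit 332) (nat_lit 316)) (XT.lf (nat_lit 0) (nat_lit 18056954392) (nat_lit 152) (nat_lit 13170664894) (nat_lit 0) (nat_lit 17123330290) (nat_lit 12) (nat_lit 5) (nat_lit 14) (nat_lit 4) (nat_lit 12) (nat_lit 4) (nat_lit 553) (nat_lit 332) (nat_lit 315)))) (XT.nd (nat_lit 60996) (nat_lit 0) (nat_lit 1216) (XT.nd (nat_lit 60918) (nat_lit 0) (nat_lit 1368) (XT.lf (nat_lit 0) (nat_lit 10611785592) (nat_lit 76) (nat_lit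 19902679317) (nat_lit 76) (nat_lit 18927402410) (nat_lit 11) (nat_lit 4) (nat_lit 12) (nat_lit 5) (nat_lit 12) (nat_lit 4) (nat_lit 554) (nat_lit 332) (nat_lit 314)) (XT.lf (nat_lit 0) (nat_lit 2414555042) (nat_lit 76) (nat_lit 6984890854) (nat_lit 76) (nat_lit 6984890854) (nat_lit 29) (nat_lit 4) (nat_lit 30) (nat_lit 5) (nat_lit 30) (nat_lit 4) (nat_lit 534) (nat_lit 333) (nat_lit 333))) (XT.nd (nat_lit 78) (nat_lit 152) (nat_lit 0) (XT.lf (nat_lit 0) (nat_lit 28870362252) (nat_lit 76) (nat_lit 2304525112) (nat_lit 76) (nat_lit 2219853536) (nat_lit 29) (nat_lit 4) (nat_lit 30) (nat_lit 5) (nat_lit 30) (nat_lit 4) (nat_lit 535) (nat_lit 333) (nat_lit 332)) (XT.lf (nat_lit 0) (nat_lit 9738000105) (nat_lit 152) (nat_lit 14721308809) (nat_lit 0) (nat_lit 9575983610) (nat_lit 27) (nat_lit 5) (nat_lit 29) (nat_lit 4) (nat_lit 27) (nat_lit 4) (nat_lit 536) (nat_lit 333) (nat_lit 331))))) (XT.nd (nat_lit 312) (nat_lit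 228) (nat_lit 0) (XT.nd (nat_lit 156) (nat_lit 228) (nat_lit 0) (XT.nd (nat_lit 78) (nat_lit 0) (nat_lit 0) (XT.lf (nat_lit 0) (nat_lit 8929093379) (nat_lit 76) (nat_lit 13003565318) (nat_lit 76) (nat_lit 12764062336) (nat_lit 26) (nat_lit 4) (nat_lit 27) (nat_lit 5) (nat_lit 27) (nat_lit 4) (nat_lit 537) (nat_lit 333) (nat_lit 330)) (XT.lf (nat_lit 0) (nat_lit 33128903650) (nat_lit 76) (nat_lit 1283127687) (nat_lit 76) (nat_lit 968395107) (nat_lit 26) (nat_lit 4) (nat_lit 27) (nat_lit 5) (nat_lit 27) (nat_lit 4) (nat_lit 538) (nat_lit 333) (nat_lit 329))) (XT.nd (nat_lit 78) (nat_lit 76) (nat_lit 0) (XT.lf (nat_lit 0) (nat_lit 11052222302) (nat_lit 152) (nat_lit 14350773062) (nat_lit 0) (nat_lit 10675745578) (nat_lit 24) (nat_lit 5) (nat_lit 26) (nat_lit 4) (nat_lit 24) (nat_lit 4) (nat_lit 539) (nat_lit 333) (nat_lit 328)) (XT.lf (nat_lit 0) (nat_lit 9383266061) (nat_lit 76) (nat_lit 13931377212) (nat_lit 76)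 (nat_lit 13486054748) (nat_lit 23) (nat_lit 4) (nat_lit 24) (nat_lit 5) (nat_lit 24) (nat_lit 4) (nat_lit 540) (nat_lit 333) (nat_lit 327)))) (XT.nd (nat_lit 156) (nat_lit 76) (nat_lit 0) (XT.nd (nat_lit 78) (nat_lit 152) (nat_lit 0) (XT.lf (nat_lit 0) (nat_lit 33674951904) (nat_lit 76) (nat_lit 2191933346) (nat_lit 76) (nat_lit 1679770358) (nat_lit 23) (nat_lit 4) (nat_lit 24) (nat_lit 5) (nat_lit 24) (nat_lit 4) (nat_lit 541) (nat_lit 333) (nat_lit 326)) (XT.lf (nat_lit 0) (nat_lit 10348037321) (nat_lit 152) (nat_lit 18173988794) (nat_lit 0) (nat_lit 9787788097) (nat_lit 21) (nat_lit 5) (nat_lit 23) (nat_lit 4) (nat_lit 21) (nat_lit 4) (nat_lit 542) (nat_lit 333) (nat_lit 325))) (XT.nd (nat_lit 78) (nat_lit 0) (nat_lit 0) (XT.lf (nat_lit 0) (nat_lit 5476484162) (nat_lit 76) (nat_lit 17121721906) (nat_lit 76) (nat_lit 16500304133) (nat_lit 20) (nat_lit 4) (nat_lit 21) (nat_lit 5) (nat_lit 21) (nat_lit 4) (nat_lit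 543) (nat_lit 333) (nat_lit 324)) (XT.lf (nat_lit 0) (nat_lit 29773420291) (nat_lit 76) (nat_lit 5409618471) (nat_lit 76) (nat_lit 4728813759) (nat_lit 20) (nat_lit 4) (nat_lit 21) (nat_lit 5) (nat_lit 21) (nat_lit 4) (nat_lit 544) (nat_lit 333) (nat_lit 323)))))) (XT.nd (nat_lit 624) (nat_lit 76) (nat_lit 0) (XT.nd (nat_lit 312) (nat_lit 228) (nat_lit 0) (XT.nd (nat_lit 156) (nat_lit 228) (nat_lit 0) (XT.nd (nat_lit 78) (nat_lit 0) (nat_lit 0) (XT.lf (nat_lit 0) (nat_lit 7236132041) (nat_lit 152) (nat_lit 26992612881) (nat_lit 0) (nat_lit 6519178705) (nat_lit 18) (nat_lit 5) (nat_lit 20) (nat_lit 4) (nat_lit 18) (nat_lit 4) (nat_lit 545) (nat_lit 333) (nat_lit 322)) (XT.lf (nat_lit 0) (nat_lit 19409859818) (nat_lit 152) (nat_lit 3560907286) (nat_lit 0) (nat_lit 18638559020) (nat_lit 18) (nat_lit 5) (nat_lit 20) (nat_lit 4) (nat_lit 18) (nat_lit 4) (nat_lit 546) (nat_lit 333) (nat_lit 321))) (XT.nd (nat_lit 78)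 (nat_lit 152) (nat_lit 0) (XT.lf (nat_lit 0) (nat_lit 20560194142) (nat_lit 76) (nat_lit 11380344941) (nat_lit 76) (nat_lit 10556279616) (nat_lit 17) (nat_lit 4) (nat_lit 18) (nat_lit 5) (nat_lit 18) (nat_lit 4) (nat_lit 547) (nat_lit 333) (nat_lit 320)) (XT.lf (nat_lit 0) (nat_lit 1258703201) (nat_lit 152) (nat_lit 41747398933) (nat_lit 0) (nat_lit 408904151) (nat_lit 15) (nat_lit 5) (nat_lit 17) (nat_lit 4) (nat_lit 15) (nat_lit 4) (nat_lit 548) (nat_lit 333) (nat_lit 319)))) (XT.nd (nat_lit 156) (nat_lit 152) (nat_lit 0) (XT.nd (nat_lit 78) (nat_lit 76) (nat_lit 0) (XT.lf (nat_lit 0) (nat_lit 13346543847) (nat_lit 152) (nat_lit 18558685144) (nat_lit 0) (nat_lit 12448457781) (nat_lit 15) (nat_lit 5) (nat_lit 17) (nat_lit 4) (nat_lit 15) (nat_lit 4) (nat_lit 549) (nat_lit 333) (nat_lit 318)) (XT.lf (nat_lit 0) (nat_lit 5020899748) (nat_lit 76) (nat_lit 20624570622) (nat_lit 76) (nat_lit 19679603957) (nat_lit 14)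 (nat_lit 4) (nat_lit 15) (nat_lit 5) (nat_lit 15) (nat_lit 4) (nat_lit 550) (nat_lit 333) (nat_lit 317))) (XT.nd (nat_lit 78) (nat_lit 152) (nat_lit 0) (XT.lf (nat_lit 0) (nat_lit 29289489580) (nat_lit 76) (nat_lit 9013454265) (nat_lit 76) (nat_lit 8022972455) (nat_lit 14) (nat_lit 4) (nat_lit 15) (nat_lit 5) (nat_lit 15) (nat_lit 4) (nat_lit 551) (nat_lit 333) (nat_lit 316)) (XT.lf (nat_lit 0) (nat_lit 3802820992) (nat_lit 152) (nat_lit 40757612426) (nat_lit 0) (nat_lit 2798285778) (nat_lit 12) (nat_lit 5) (nat_lit 14) (nat_lit 4) (nat_lit 12) (nat_lit 4) (nat_lit 552) (nat_lit 333) (nat_lit 315))))) (XT.nd (nat_lit 60996) (nat_lit 0) (nat_lit 1140) (XT.nd (nat_lit 60840) (nat_lit 0) (nat_lit 1444) (XT.nd (nat_lit 78) (nat_lit 76) (nat_lit 0) (XT.lf (nat_lit 0) (nat_lit 15891198350) (nat_lit 152) (nat_lit 17681842671) (nat_lit 0) (nat_lit 14845010331) (nat_lit 12) (nat_lit 5) (nat_lit 14) (nat_lit 4) (nat_lit 12)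 (nat_lit 4) (nat_lit 553) (nat_lit 333) (nat_lit 314)) (XT.lf (nat_lit 0) (nat_lit 5820048900) (nat_lit 76) (nat_lit 22389856010) (nat_lit 76) (nat_lit 21303228375) (nat_lit 11) (nat_lit 4) (nat_lit 12) (nat_lit 5) (nat_lit 12) (nat_lit 4) (nat_lit 554) (nat_lit 333) (nat_lit 313))) (XT.nd (nat_lit 78) (nat_lit 152) (nat_lit 0) (XT.lf (nat_lit 0) (nat_lit 10875523936) (nat_lit 76) (nat_lit 2454702017) (nat_lit 76) (nat_lit 2454702017) (nat_lit 32) (nat_lit 4) (nat_lit 33) (nat_lit 5) (nat_lit 33) (nat_lit 4) (nat_lit 532) (nat_lit 334) (nat_lit 334)) (XT.lf (nat_lit 0) (nat_lit 6823039514) (nat_lit 152) (nat_lit 18603400106) (nat_lit 0) (nat_lit 6735827790) (nat_lit 30) (nat_lit 5) (nat_lit 32) (nat_lit 4) (nat_lit 30) (nat_lit 4) (nat_lit 533) (nat_lit 334) (nat_lit 333)))) (XT.nd (nat_lit 156) (nat_lit 228) (nat_lit 0) (XT.nd (nat_lit 78) (nat_lit 0) (nat_lit 0) (XT.lf (nat_lit 0) (nat_lit 4594831861) (nat_lit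 76) (nat_lit 14174612435) (nat_lit 76) (nat_lit 14002729136) (nat_lit 29) (nat_lit 4) (nat_lit 30) (nat_lit 5) (nat_lit 30) (nat_lit 4) (nat_lit 534) (nat_lit 334) (nat_lit 332)) (XT.lf (nat_lit 0) (nat_lit 28408629441) (nat_lit 76) (nat_lit 2623549045) (nat_lit 76) (nat_lit 2369460332) (nat_lit 29) (nat_lit 4) (nat_lit 30) (nat_lit 5) (nat_lit 30) (nat_lit 4) (nat_lit 535) (nat_lit 334) (nat_lit 331))) (XT.nd (nat_lit 78) (nat_lit 76) (nat_lit 0) (XT.lf (nat_lit 0) (nat_lit 9469269912) (nat_lit 152) (nat_lit 15431529744) (nat_lit 0) (nat_lit 9145095354) (nat_lit 27) (nat_lit 5) (nat_lit 29) (nat_lit 4) (nat_lit 27) (nat_lit 4) (nat_lit 536) (nat_lit 334) (nat_lit 330)) (XT.lf (nat_lit 0) (nat_lit 7977212344) (nat_lit 76) (nat_lit 13566560075) (nat_lit 76) (nat_lit 13167155918) (nat_lit 26) (nat_lit 4) (nat_lit 27) (nat_lit 5) (nat_lit 27) (nat_lit 4) (nat_lit 537) (nat_lit 334) (nat_lit 329))))))))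
noncomputable def xc2 : XT := (XT.nd (nat_lit 62946) (nat_lit 0) (nat_lit 76) (XT.nd (nat_lit 1170) (nat_lit 76) (nat_lit 0) (XT.nd (nat_lit 546) (nat_lit 608) (nat_lit 0) (XT.nd (nat_lit 234) (nat_lit 228) (nat_lit 0) (XT.nd (nat_lit 78) (nat_lit 228) (nat_lit 0) (XT.lf (nat_lit 0) (nat_lit 31956124254) (nat_lit 76) (nat_lit 1957124558) (nat_lit 76) (nat_lit 1484681956) (nat_lit 26) (nat_lit 4) (nat_lit 27) (nat_lit 5) (nat_lit 27) (nat_lit 4) (nat_lit 538) (nat_lit 334) (nat_lit 328)) (XT.nd (nat_lit 78) (nat_lit 76) (nat_lit 0) (XT.lf (nat_lit 0) (nat_lit 10416803266) (nat_lit 152) (nat_lit 15794191826) (nat_lit 0) (nat_lit 9889275388) (nat_lit 24) (nat_lit 5) (nat_lit 26) (nat_lit 4) (nat_lit 24) (nat_lit 4) (nat_lit 539) (nat_lit 334) (nat_lit 327)) (XT.lf (nat_lit 0) (nat_lit 7690159235) (nat_lit 76) (nat_lit 14865078225) (nat_lit 76) (nat_lit 14270709823) (nat_lit 23) (nat_lit 4) (nat_lit 24) (nat_lit 5)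 (nat_lit 24) (nat_lit 4) (nat_lit 540) (nat_lit 334) (nat_lit 326)))) (XT.nd (nat_lit 156) (nat_lit 76) (nat_lit 0) (XT.nd (nat_lit 78) (nat_lit 152) (nat_lit 0) (XT.lf (nat_lit 0) (nat_lit 31767319642) (nat_lit 76) (nat_lit 3233523276) (nat_lit 76) (nat_lit 2574261162) (nat_lit 23) (nat_lit 4) (nat_lit 24) (nat_lit 5) (nat_lit 24) (nat_lit 4) (nat_lit 541) (nat_lit 334) (nat_lit 325)) (XT.lf (nat_lit 0) (nat_lit 9334164182) (nat_lit 152) (nat_lit 20375526350) (nat_lit 0) (nat_lit 8632935329) (nat_lit 21) (nat_lit 5) (nat_lit 23) (nat_lit 4) (nat_lit 21) (nat_lit 4) (nat_lit 542) (nat_lit 334) (nat_lit 324))) (XT.nd (nat_lit 78) (nat_lit 0) (nat_lit 0) (XT.lf (nat_lit 0) (nat_lit 3016550426) (nat_lit 76) (nat_lit 18439616157) (nat_lit 76) (nat_lit 17679000364) (nat_lit 20) (nat_lit 4) (nat_lit 21) (nat_lit 5) (nat_lit 21) (nat_lit 4) (nat_lit 543) (nat_lit 334) (nat_lit 323)) (XT.lf (nat_lit 0) (nat_lit 27105155228)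 (nat_lit 76) (nat_lit 6832365754) (nat_lit 76) (nat_lit 6014092738) (nat_lit 20) (nat_lit 4) (nat_lit 21) (nat_lit 5) (nat_lit 21) (nat_lit 4) (nat_lit 544) (nat_lit 334) (nat_lit 322))))) (XT.nd (nat_lit 312) (nat_lit 380) (nat_lit 0) (XT.nd (nat_lit 156) (nat_lit 76) (nat_lit 0) (XT.nd (nat_lit 78) (nat_lit 0) (nat_lit 0) (XT.lf (nat_lit 0) (nat_lit 5830974861) (nat_lit 152) (nat_lit 29979241891) (nat_lit 0) (nat_lit 4982187576) (nat_lit 18) (nat_lit 5) (nat_lit 20) (nat_lit 4) (nat_lit 18) (nat_lit 4) (nat_lit 545) (nat_lit 334) (nat_lit 321)) (XT.lf (nat_lit 0) (nat_lit 17903275294) (nat_lit 152) (nat_lit 6751850965) (nat_lit 0) (nat_lit 17001723483) (nat_lit 18) (nat_lit 5) (nat_lit 20) (nat_lit 4) (nat_lit 18) (nat_lit 4) (nat_lit 546) (nat_lit 334) (nat_lit 320))) (XT.nd (nat_lit 78) (nat_lit 0) (nat_lit 0) (XT.lf (nat_lit 0) (nat_lit 17103432843) (nat_lit 76) (nat_lit 13198820062) (nat_lit 76) (nat_lit 12246040555)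 (nat_lit 17) (nat_lit 4) (nat_lit 18) (nat_lit 5) (nat_lit 18) (nat_lit 4) (nat_lit 547) (nat_lit 334) (nat_lit 319)) (XT.lf (nat_lit 0) (nat_lit 41414050894) (nat_lit 76) (nat_lit 1529418414) (nat_lit 76) (nat_lit 526903279) (nat_lit 17) (nat_lit 4) (nat_lit 18) (nat_lit 5) (nat_lit 18) (nat_lit 4) (nat_lit 548) (nat_lit 334) (nat_lit 318)))) (XT.nd (nat_lit 156) (nat_lit 152) (nat_lit 0) (XT.nd (nat_lit 78) (nat_lit 76) (nat_lit 0) (XT.lf (nat_lit 0) (nat_lit 11437727623) (nat_lit 152) (nat_lit 22557950871) (nat_lit 0) (nat_lit 10417531359) (nat_lit 15) (nat_lit 5) (nat_lit 17) (nat_lit 4) (nat_lit 15) (nat_lit 4) (nat_lit 549) (nat_lit 334) (nat_lit 317)) (XT.lf (nat_lit 0) (nat_lit 745578989) (nat_lit 76) (nat_lit 22854414859) (nat_lit 76) (nat_lit 21788703451) (nat_lit 14) (nat_lit 4) (nat_lit 15) (nat_lit 5) (nat_lit 15) (nat_lit 4) (nat_lit 550) (nat_lit 334) (nat_lit 316))) (XT.nd (nat_lit 78) (nat_lit 152)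 (nat_lit 0) (XT.lf (nat_lit 0) (nat_lit 24823429207) (nat_lit 76) (nat_lit 11339424708) (nat_lit 76) (nat_lit 10229523839) (nat_lit 14) (nat_lit 4) (nat_lit 15) (nat_lit 5) (nat_lit 15) (nat_lit 4) (nat_lit 551) (nat_lit 334) (nat_lit 315)) (XT.lf (nat_lit 0) (nat_lit 1476567131) (nat_lit 152) (nat_lit 45596792056) (nat_lit 0) (nat_lit 357340667) (nat_lit 12) (nat_lit 5) (nat_lit 14) (nat_lit 4) (nat_lit 12) (nat_lit 4) (nat_lit 552) (nat_lit 334) (nat_lit 314)))))) (XT.nd (nat_lit 61152) (nat_lit 0) (nat_lit 684) (XT.nd (nat_lit 60840) (nat_lit 0) (nat_lit 1368) (XT.nd (nat_lit 60684) (nat_lit 0) (nat_lit 1672) (XT.nd (nat_lit 78) (nat_lit 76) (nat_lit 0) (XT.lf (nat_lit 0) (nat_lit 13472201638) (nat_lit 152) (nat_lit 22708077174) (nat_lit 0) (nat_lit 12312535557) (nat_lit 12) (nat_lit 5) (nat_lit 14) (nat_lit 4) (nat_lit 12) (nat_lit 4) (nat_lit 553) (nat_lit 334) (nat_lit 313)) (XT.lf (nat_lit 0) (nat_lit 508561472)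 (nat_lit 76) (nat_lit 25141247855) (nat_lit 76) (nat_lit 23942320011) (nat_lit 11) (nat_lit 4) (nat_lit 12) (nat_lit 5) (nat_lit 12) (nat_lit 4) (nat_lit 554) (nat_lit 334) (nat_lit 312))) (XT.nd (nat_lit 78) (nat_lit 0) (nat_lit 0) (XT.lf (nat_lit 0) (nat_lit 1482993092) (nat_lit 152) (nat_lit 12249342709) (nat_lit 0) (nat_lit 1482993092) (nat_lit 33) (nat_lit 5) (nat_lit 35) (nat_lit 4) (nat_lit 33) (nat_lit 4) (nat_lit 530) (nat_lit 335) (nat_lit 335)) (XT.lf (nat_lit 0) (nat_lit 14637113787) (nat_lit 152) (nat_lit 1811532429) (nat_lit 0) (nat_lit 14544590870) (nat_lit 33) (nat_lit 5) (nat_lit 35) (nat_lit 4) (nat_lit 33) (nat_lit 4) (nat_lit 531) (nat_lit 335) (nat_lit 334)))) (XT.nd (nat_lit 156) (nat_lit 76) (nat_lit 0) (XT.nd (nat_lit 78) (nat_lit 152) (nat_lit 0) (XT.lf (nat_lit 0) (nat_lit 21523670569) (nat_lit 76) (nat_lit 5115968303) (nat_lit 76) (nat_lit 4933617310) (nat_lit 32) (nat_lit 4) (nat_lit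 33) (nat_lit 5) (nat_lit 33) (nat_lit 4) (nat_lit 532) (nat_lit 335) (nat_lit 333)) (XT.lf (nat_lit 0) (nat_lit 6680620982) (nat_lit 152) (nat_lit 19069704528) (nat_lit 0) (nat_lit 6418909608) (nat_lit 30) (nat_lit 5) (nat_lit 32) (nat_lit 4) (nat_lit 30) (nat_lit 4) (nat_lit 533) (nat_lit 335) (nat_lit 332))) (XT.nd (nat_lit 78) (nat_lit 0) (nat_lit 0) (XT.lf (nat_lit 0) (nat_lit 3891792480) (nat_lit 76) (nat_lit 14617400294) (nat_lit 76) (nat_lit 14273483505) (nat_lit 29) (nat_lit 4) (nat_lit 30) (nat_lit 5) (nat_lit 30) (nat_lit 4) (nat_lit 534) (nat_lit 335) (nat_lit 331)) (XT.lf (nat_lit 0) (nat_lit 27484760364) (nat_lit 76) (nat_lit 3177204095) (nat_lit 76) (nat_lit 2753476225) (nat_lit 29) (nat_lit 4) (nat_lit 30) (nat_lit 5) (nat_lit 30) (nat_lit 4) (nat_lit 535) (nat_lit 335) (nat_lit 330))))) (XT.nd (nat_lit 312) (nat_lit 304) (nat_lit 0) (XT.nd (nat_lit 156) (nat_lit 152) (nat_lit 0) (XT.nd (nat_lit 78)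 (nat_lit 76) (nat_lit 0) (XT.lf (nat_lit 0) (nat_lit 8967135588) (nat_lit 152) (nat_lit 16615920816) (nat_lit 0) (nat_lit 8480519708) (nat_lit 27) (nat_lit 5) (nat_lit 29) (nat_lit 4) (nat_lit 27) (nat_lit 4) (nat_lit 536) (nat_lit 335) (nat_lit 329)) (XT.lf (nat_lit 0) (nat_lit 6548351206) (nat_lit 76) (nat_lit 14371778964) (nat_lit 76) (nat_lit 13812124639) (nat_lit 26) (nat_lit 4) (nat_lit 27) (nat_lit 5) (nat_lit 27) (nat_lit 4) (nat_lit 537) (nat_lit 335) (nat_lit 328))) (XT.nd (nat_lit 78) (nat_lit 152) (nat_lit 0) (XT.lf (nat_lit 0) (nat_lit 30312798688) (nat_lit 76) (nat_lit 2870112489) (nat_lit 76) (nat_lit 2239547051) (nat_lit 26) (nat_lit 4) (nat_lit 27) (nat_lit 5) (nat_lit 27) (nat_lit 4) (nat_lit 538) (nat_lit 335) (nat_lit 327)) (XT.lf (nat_lit 0) (nat_lit 9543667114) (nat_lit 152) (nat_lit 17720711535) (nat_lit 0) (nat_lit 8864627136) (nat_lit 24) (nat_lit 5) (nat_lit 26) (nat_lit 4) (nat_lit 24)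 (nat_lit 4) (nat_lit 539) (nat_lit 335) (nat_lit 326)))) (XT.nd (nat_lit 156) (nat_lit 228) (nat_lit 0) (XT.nd (nat_lit 78) (nat_lit 0) (nat_lit 0) (XT.lf (nat_lit 0) (nat_lit 5510772570) (nat_lit 76) (nat_lit 16045804772) (nat_lit 76) (nat_lit 15301871081) (nat_lit 23) (nat_lit 4) (nat_lit 24) (nat_lit 5) (nat_lit 24) (nat_lit 4) (nat_lit 540) (nat_lit 335) (nat_lit 325)) (XT.lf (nat_lit 0) (nat_lit 29379655856) (nat_lit 76) (nat_lit 4518996346) (nat_lit 76) (nat_lit 3712059051) (nat_lit 23) (nat_lit 4) (nat_lit 24) (nat_lit 5) (nat_lit 24) (nat_lit 4) (nat_lit 541) (nat_lit 335) (nat_lit 324))) (XT.nd (nat_lit 78) (nat_lit 76) (nat_lit 0) (XT.lf (nat_lit 0) (nat_lit 8077699335) (nat_lit 152) (nat_lit 23070209878) (nat_lit 0) (nat_lit 7234878128) (nat_lit 21) (nat_lit 5) (nat_lit 23) (nat_lit 4) (nat_lit 21) (nat_lit 4) (nat_lit 542) (nat_lit 335) (nat_lit 323)) (XT.lf (nat_lit 0) (nat_lit 59906086) (nat_lit 76)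 (nat_lit 20009898890) (nat_lit 76) (nat_lit 19109420460) (nat_lit 20) (nat_lit 4) (nat_lit 21) (nat_lit 5) (nat_lit 21) (nat_lit 4) (nat_lit 543) (nat_lit 335) (nat_lit 322))))))) (XT.nd (nat_lit 61542) (nat_lit 0) (nat_lit 380) (XT.nd (nat_lit 546) (nat_lit 228) (nat_lit 0) (XT.nd (nat_lit 234) (nat_lit 228) (nat_lit 0) (XT.nd (nat_lit 78) (nat_lit 152) (nat_lit 0) (XT.lf (nat_lit 0) (nat_lit 23946247464) (nat_lit 76) (nat_lit 8504447547) (nat_lit 76) (nat_lit 7547991229) (nat_lit 20) (nat_lit 4) (nat_lit 21) (nat_lit 5) (nat_lit 21) (nat_lit 4) (nat_lit 544) (nat_lit 335) (nat_lit 321)) (XT.nd (nat_lit 78) (nat_lit 0) (nat_lit 0) (XT.lf (nat_lit 0) (nat_lit 4177765457) (nat_lit 152) (nat_lit 33470228550) (nat_lit 0) (nat_lit 3196402564) (nat_lit 18) (nat_lit 5) (nat_lit 20) (nat_lit 4) (nat_lit 18) (nat_lit 4) (nat_lit 545) (nat_lit 335) (nat_lit 320)) (XT.lf (nat_lit 0) (nat_lit 16151592741) (nat_lit 152) (nat_lit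 10441201379) (nat_lit 0) (nat_lit 15119002152) (nat_lit 18) (nat_lit 5) (nat_lit 20) (nat_lit 4) (nat_lit 18) (nat_lit 4) (nat_lit 546) (nat_lit 335) (nat_lit 319)))) (XT.nd (nat_lit 156) (nat_lit 152) (nat_lit 0) (XT.nd (nat_lit 78) (nat_lit 0) (nat_lit 0) (XT.lf (nat_lit 0) (nat_lit 13144238108) (nat_lit 76) (nat_lit 15272669041) (nat_lit 76) (nat_lit 14190342825) (nat_lit 17) (nat_lit 4) (nat_lit 18) (nat_lit 5) (nat_lit 18) (nat_lit 4) (nat_lit 547) (nat_lit 335) (nat_lit 318)) (XT.lf (nat_lit 0) (nat_lit 37264158089) (nat_lit 76) (nat_lit 3699311969) (nat_lit 76) (nat_lit 2568698736) (nat_lit 17) (nat_lit 4) (nat_lit 18) (nat_lit 5) (nat_lit 18) (nat_lit 4) (nat_lit 548) (nat_lit 335) (nat_lit 317))) (XT.nd (nat_lit 78) (nat_lit 0) (nat_lit 0) (XT.lf (nat_lit 0) (nat_lit 9277653415) (nat_lit 152) (nat_lit 27068229664) (nat_lit 0) (nat_lit 8134455519) (nat_lit 15) (nat_lit 5) (nat_lit 17) (nat_lit 4) (nat_lit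 15) (nat_lit 4) (nat_lit 549) (nat_lit 335) (nat_lit 316)) (XT.lf (nat_lit 0) (nat_lit 21339972777) (nat_lit 152) (nat_lit 3966266332) (nat_lit 0) (nat_lit 20152585421) (nat_lit 15) (nat_lit 5) (nat_lit 17) (nat_lit 4) (nat_lit 15) (nat_lit 4) (nat_lit 550) (nat_lit 335) (nat_lit 315))))) (XT.nd (nat_lit 60684) (nat_lit 0) (nat_lit 1596) (XT.nd (nat_lit 156) (nat_lit 152) (nat_lit 0) (XT.nd (nat_lit 78) (nat_lit 0) (nat_lit 0) (XT.lf (nat_lit 0) (nat_lit 19847463316) (nat_lit 76) (nat_lit 13924626885) (nat_lit 76) (nat_lit 12694337140) (nat_lit 14) (nat_lit 4) (nat_lit 15) (nat_lit 5) (nat_lit 15) (nat_lit 4) (nat_lit 551) (nat_lit 335) (nat_lit 314)) (XT.lf (nat_lit 0) (nat_lit 44091934954) (nat_lit 76) (nat_lit 2344247819) (nat_lit 76) (nat_lit 1072305269) (nat_lit 14) (nat_lit 4) (nat_lit 15) (nat_lit 5) (nat_lit 15) (nat_lit 4) (nat_lit 552) (nat_lit 335) (nat_lit 313))) (XT.nd (nat_lit 78) (nat_lit 0) (nat_lit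 0) (XT.lf (nat_lit 0) (nat_lit 10797850568) (nat_lit 152) (nat_lit 28253760259) (nat_lit 0) (nat_lit 9523693126) (nat_lit 12) (nat_lit 5) (nat_lit 14) (nat_lit 4) (nat_lit 12) (nat_lit 4) (nat_lit 553) (nat_lit 335) (nat_lit 312)) (XT.lf (nat_lit 0) (nat_lit 22883150622) (nat_lit 152) (nat_lit 5223362637) (nat_lit 0) (nat_lit 21570874963) (nat_lit 12) (nat_lit 5) (nat_lit 14) (nat_lit 4) (nat_lit 12) (nat_lit 4) (nat_lit 554) (nat_lit 335) (nat_lit 311)))) (XT.nd (nat_lit 156) (nat_lit 152) (nat_lit 0) (XT.nd (nat_lit 78) (nat_lit 76) (nat_lit 0) (XT.lf (nat_lit 0) (nat_lit 4903762721) (nat_lit 152) (nat_lit 4865026522) (nat_lit 0) (nat_lit 4903762721) (nat_lit 36) (nat_lit 5) (nat_lit 38) (nat_lit 4) (nat_lit 36) (nat_lit 4) (nat_lit 528) (nat_lit 336) (nat_lit 336)) (XT.lf (nat_lit 0) (nat_lit 12962460009) (nat_lit 76) (nat_lit 8508513394) (nat_lit 76) (nat_lit 8410355831) (nat_lit 35) (nat_lit 4) (nat_lit 36)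 (nat_lit 5) (nat_lit 36) (nat_lit 4) (nat_lit 529) (nat_lit 336) (nat_lit 335))) (XT.nd (nat_lit 78) (nat_lit 0) (nat_lit 0) (XT.lf (nat_lit 0) (nat_lit 2946800019) (nat_lit 152) (nat_lit 24728313983) (nat_lit 0) (nat_lit 2758978497) (nat_lit 33) (nat_lit 5) (nat_lit 35) (nat_lit 4) (nat_lit 33) (nat_lit 4) (nat_lit 530) (nat_lit 336) (nat_lit 334)) (XT.lf (nat_lit 0) (nat_lit 14506777358) (nat_lit 152) (nat_lit 2264101347) (nat_lit 0) (nat_lit 14229127761) (nat_lit 33) (nat_lit 5) (nat_lit 35) (nat_lit 4) (nat_lit 33) (nat_lit 4) (nat_lit 531) (nat_lit 336) (nat_lit 333)))))) (XT.nd (nat_lit 624) (nat_lit 532) (nat_lit 0) (XT.nd (nat_lit 312) (nat_lit 380) (nat_lit 0) (XT.nd (nat_lit 156) (nat_lit 76) (nat_lit 0) (XT.nd (nat_lit 78) (nat_lit 152) (nat_lit 0) (XT.lf (nat_lit 0) (nat_lit 20841339978) (nat_lit 76) (nat_lit 5553490609) (nat_lit 76) (nat_lit 5188629288) (nat_lit 32) (nat_lit 4) (nat_lit 33) (nat_lit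 5) (nat_lit 33) (nat_lit 4) (nat_lit 532) (nat_lit 336) (nat_lit 332)) (XT.lf (nat_lit 0) (nat_lit 6308447753) (nat_lit 152) (nat_lit 20002720824) (nat_lit 0) (nat_lit 5872008047) (nat_lit 30) (nat_lit 5) (nat_lit 32) (nat_lit 4) (nat_lit 30) (nat_lit 4) (nat_lit 533) (nat_lit 336) (nat_lit 331))) (XT.nd (nat_lit 78) (nat_lit 0) (nat_lit 0) (XT.lf (nat_lit 0) (nat_lit 2719377634) (nat_lit 76) (nat_lit 15298532186) (nat_lit 76) (nat_lit 14782281399) (nat_lit 29) (nat_lit 4) (nat_lit 30) (nat_lit 5) (nat_lit 30) (nat_lit 4) (nat_lit 534) (nat_lit 336) (nat_lit 330)) (XT.lf (nat_lit 0) (nat_lit 26097947756) (nat_lit 76) (nat_lit 3965974037) (nat_lit 76) (nat_lit 3372236764) (nat_lit 29) (nat_lit 4) (nat_lit 30) (nat_lit 5) (nat_lit 30) (nat_lit 4) (nat_lit 535) (nat_lit 336) (nat_lit 329)))) (XT.nd (nat_lit 156) (nat_lit 152) (nat_lit 0) (XT.nd (nat_lit 78) (nat_lit 76) (nat_lit 0) (XT.lf (nat_lit 0) (nat_lit 8231158375)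 (nat_lit 152) (nat_lit 18275516932) (nat_lit 0) (nat_lit 7581675974) (nat_lit 27) (nat_lit 5) (nat_lit 29) (nat_lit 4) (nat_lit 27) (nat_lit 4) (nat_lit 536) (nat_lit 336) (nat_lit 328)) (XT.lf (nat_lit 0) (nat_lit 4641261446) (nat_lit 76) (nat_lit 15419925575) (nat_lit 76) (nat_lit 14699532063) (nat_lit 26) (nat_lit 4) (nat_lit 27) (nat_lit 5) (nat_lit 27) (nat_lit 4) (nat_lit 537) (nat_lit 336) (nat_lit 327))) (XT.nd (nat_lit 78) (nat_lit 152) (nat_lit 0) (XT.lf (nat_lit 0) (nat_lit 28197491037) (nat_lit 76) (nat_lit 4022889238) (nat_lit 76) (nat_lit 3233649985) (nat_lit 26) (nat_lit 4) (nat_lit 27) (nat_lit 5) (nat_lit 27) (nat_lit 4) (nat_lit 538) (nat_lit 336) (nat_lit 326)) (XT.lf (nat_lit 0) (nat_lit 8432050912) (nat_lit 152) (nat_lit 20132015557) (nat_lit 0) (nat_lit 7600905498) (nat_lit 24) (nat_lit 5) (nat_lit 26) (nat_lit 4) (nat_lit 24) (nat_lit 4) (nat_lit 539) (nat_lit 336) (nat_lit 325))))) (XT.nd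 (nat_lit 312) (nat_lit 304) (nat_lit 0) (XT.nd (nat_lit 156) (nat_lit 152) (nat_lit 0) (XT.nd (nat_lit 78) (nat_lit 0) (nat_lit 0) (XT.lf (nat_lit 0) (nat_lit 2843201749) (nat_lit 76) (nat_lit 17474588557) (nat_lit 76) (nat_lit 16580439538) (nat_lit 23) (nat_lit 4) (nat_lit 24) (nat_lit 5) (nat_lit 24) (nat_lit 4) (nat_lit 540) (nat_lit 336) (nat_lit 324)) (XT.lf (nat_lit 0) (nat_lit 26509874237) (nat_lit 76) (nat_lit 6049475784) (nat_lit 76) (nat_lit 5094158217) (nat_lit 23) (nat_lit 4) (nat_lit 24) (nat_lit 5) (nat_lit 24) (nat_lit 4) (nat_lit 541) (nat_lit 336) (nat_lit 323))) (XT.nd (nat_lit 78) (nat_lit 0) (nat_lit 0) (XT.lf (nat_lit 0) (nat_lit 6577544899) (nat_lit 152) (nat_lit 26260393957) (nat_lit 0) (nat_lit 5592394892) (nat_lit 21) (nat_lit 5) (nat_lit 23) (nat_lit 4) (nat_lit 21) (nat_lit 4) (nat_lit 542) (nat_lit 336) (nat_lit 322)) (XT.lf (nat_lit 0) (nat_lit 18470554602) (nat_lit 152) (nat_lit 3329763511)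 (nat_lit 0) (nat_lit 17429426708) (nat_lit 21) (nat_lit 5) (nat_lit 23) (nat_lit 4) (nat_lit 21) (nat_lit 4) (nat_lit 543) (nat_lit 336) (nat_lit 321)))) (XT.nd (nat_lit 156) (nat_lit 76) (nat_lit 0) (XT.nd (nat_lit 78) (nat_lit 152) (nat_lit 0) (XT.lf (nat_lit 0) (nat_lit 20293936788) (nat_lit 76) (nat_lit 10427324890) (nat_lit 76) (nat_lit 9331849534) (nat_lit 20) (nat_lit 4) (nat_lit 21) (nat_lit 5) (nat_lit 21) (nat_lit 4) (nat_lit 544) (nat_lit 336) (nat_lit 320)) (XT.lf (nat_lit 0) (nat_lit 2275059277) (nat_lit 152) (nat_lit 37468623232) (nat_lit 0) (nat_lit 1160263274) (nat_lit 18) (nat_lit 5) (nat_lit 20) (nat_lit 4) (nat_lit 18) (nat_lit 4) (nat_lit 545) (nat_lit 336) (nat_lit 319))) (XT.nd (nat_lit 78) (nat_lit 76) (nat_lit 0) (XT.lf (nat_lit 0) (nat_lit 14153281561) (nat_lit 152) (nat_lit 14632182232) (nat_lit 0) (nat_lit 12988749930) (nat_lit 18) (nat_lit 5) (nat_lit 20) (nat_lit 4) (nat_lit 18) (nat_lit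 4) (nat_lit 546) (nat_lit 336) (nat_lit 318)) (XT.lf (nat_lit 0) (nat_lit 8679150448) (nat_lit 76) (nat_lit 17603703980) (nat_lit 76) (nat_lit 16390885333) (nat_lit 17) (nat_lit 4) (nat_lit 18) (nat_lit 5) (nat_lit 18) (nat_lit 4) (nat_lit 547) (nat_lit 336) (nat_lit 317))))))))
noncomputable def xc3 : XT := (XT.nd (nat_lit 62634) (nat_lit 0) (nat_lit 0) (XT.nd (nat_lit 61386) (nat_lit 0) (nat_lit 228) (XT.nd (nat_lit 60762) (nat_lit 0) (nat_lit 1368) (XT.nd (nat_lit 234) (nat_lit 228) (nat_lit 0) (XT.nd (nat_lit 78) (nat_lit 152) (nat_lit 0) (XT.lf (nat_lit 0) (nat_lit 32613926670) (nat_lit 76) (nat_lit 6123594069) (nat_lit 76) (nat_lit 4863894824) (nat_lit 17) (nat_lit 4) (nat_lit 18) (nat_lit 5) (nat_lit 18) (nat_lit 4) (nat_lit 548) (nat_lit 336) (nat_lit 316)) (XT.nd (nat_lit 78) (nat_lit 0) (nat_lit 0) (XT.lf (nat_lit 0) (nat_lit 6864433778) (nat_lit 152) (nat_lit 32093462544) (nat_lit 0) (nat_lit 5597235341)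 (nat_lit 15) (nat_lit 5) (nat_lit 17) (nat_lit 4) (nat_lit 15) (nat_lit 4) (nat_lit 549) (nat_lit 336) (nat_lit 315)) (XT.lf (nat_lit 0) (nat_lit 18836675566) (nat_lit 152) (nat_lit 9173069694) (nat_lit 0) (nat_lit 17526574740) (nat_lit 15) (nat_lit 5) (nat_lit 17) (nat_lit 4) (nat_lit 15) (nat_lit 4) (nat_lit 550) (nat_lit 336) (nat_lit 314)))) (XT.nd (nat_lit 156) (nat_lit 152) (nat_lit 0) (XT.nd (nat_lit 78) (nat_lit 0) (nat_lit 0) (XT.lf (nat_lit 0) (nat_lit 14357243977) (nat_lit 76) (nat_lit 16771319710) (nat_lit 76) (nat_lit 15419566079) (nat_lit 14) (nat_lit 4) (nat_lit 15) (nat_lit 5) (nat_lit 15) (nat_lit 4) (nat_lit 551) (nat_lit 336) (nat_lit 313)) (XT.lf (nat_lit 0) (nat_lit 38427161848) (nat_lit 76) (nat_lit 5278909739) (nat_lit 76) (nat_lit 3886716492) (nat_lit 14) (nat_lit 4) (nat_lit 15) (nat_lit 5) (nat_lit 15) (nat_lit 4) (nat_lit 552) (nat_lit 336) (nat_lit 312))) (XT.nd (nat_lit 78) (nat_lit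 0) (nat_lit 0) (XT.lf (nat_lit 0) (nat_lit 7865808331) (nat_lit 152) (nat_lit 34323737669) (nat_lit 0) (nat_lit 6476046185) (nat_lit 12) (nat_lit 5) (nat_lit 14) (nat_lit 4) (nat_lit 12) (nat_lit 4) (nat_lit 553) (nat_lit 336) (nat_lit 311)) (XT.lf (nat_lit 0) (nat_lit 19866235537) (nat_lit 152) (nat_lit 11464521754) (nat_lit 0) (nat_lit 18439465414) (nat_lit 12) (nat_lit 5) (nat_lit 14) (nat_lit 4) (nat_lit 12) (nat_lit 4) (nat_lit 554) (nat_lit 336) (nat_lit 310))))) (XT.nd (nat_lit 312) (nat_lit 380) (nat_lit 0) (XT.nd (nat_lit 156) (nat_lit 228) (nat_lit 0) (XT.nd (nat_lit 78) (nat_lit 0) (nat_lit 0) (XT.lf (nat_lit 0) (nat_lit 1567476011) (nat_lit 76) (nat_lit 6294627102) (nat_lit 76) (nat_lit 6294627102) (nat_lit 38) (nat_lit 4) (nat_lit 39) (nat_lit 5) (nat_lit 39) (nat_lit 4) (nat_lit 526) (nat_lit 337) (nat_lit 337)) (XT.lf (nat_lit 0) (nat_lit 25728475021) (nat_lit 76) (nat_lit 1600645982) (nat_lit 76)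 (nat_lit 1496510624) (nat_lit 38) (nat_lit 4) (nat_lit 39) (nat_lit 5) (nat_lit 39) (nat_lit 4) (nat_lit 527) (nat_lit 337) (nat_lit 336))) (XT.nd (nat_lit 78) (nat_lit 76) (nat_lit 0) (XT.lf (nat_lit 0) (nat_lit 9797395169) (nat_lit 152) (nat_lit 9952910597) (nat_lit 0) (nat_lit 9598135316) (nat_lit 36) (nat_lit 5) (nat_lit 38) (nat_lit 4) (nat_lit 36) (nat_lit 4) (nat_lit 528) (nat_lit 337) (nat_lit 335)) (XT.lf (nat_lit 0) (nat_lit 12514494480) (nat_lit 76) (nat_lit 8834049753) (nat_lit 76) (nat_lit 8539491295) (nat_lit 35) (nat_lit 4) (nat_lit 36) (nat_lit 5) (nat_lit 36) (nat_lit 4) (nat_lit 529) (nat_lit 337) (nat_lit 334)))) (XT.nd (nat_lit 156) (nat_lit 228) (nat_lit 0) (XT.nd (nat_lit 78) (nat_lit 0) (nat_lit 0) (XT.lf (nat_lit 0) (nat_lit 2701403235) (nat_lit 152) (nat_lit 25417400322) (nat_lit 0) (nat_lit 2325596074) (nat_lit 33) (nat_lit 5) (nat_lit 35) (nat_lit 4) (nat_lit 33) (nat_lit 4) (nat_lit 530)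 (nat_lit 337) (nat_lit 333)) (XT.lf (nat_lit 0) (nat_lit 14153467697) (nat_lit 152) (nat_lit 3169634631) (nat_lit 0) (nat_lit 13690448813) (nat_lit 33) (nat_lit 5) (nat_lit 35) (nat_lit 4) (nat_lit 33) (nat_lit 4) (nat_lit 531) (nat_lit 337) (nat_lit 332))) (XT.nd (nat_lit 78) (nat_lit 152) (nat_lit 0) (XT.lf (nat_lit 0) (nat_lit 19703459889) (nat_lit 76) (nat_lit 6222353254) (nat_lit 76) (nat_lit 5674662793) (nat_lit 32) (nat_lit 4) (nat_lit 33) (nat_lit 5) (nat_lit 33) (nat_lit 4) (nat_lit 532) (nat_lit 337) (nat_lit 331)) (XT.lf (nat_lit 0) (nat_lit 5706194625) (nat_lit 152) (nat_lit 21403264250) (nat_lit 0) (nat_lit 5094645233) (nat_lit 30) (nat_lit 5) (nat_lit 32) (nat_lit 4) (nat_lit 30) (nat_lit 4) (nat_lit 533) (nat_lit 337) (nat_lit 330)))))) (XT.nd (nat_lit 624) (nat_lit 608) (nat_lit 0) (XT.nd (nat_lit 312) (nat_lit 228) (nat_lit 0) (XT.nd (nat_lit 156) (nat_lit 228) (nat_lit 0) (XT.nd (nat_lit 78) (nat_lit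 0) (nat_lit 0) (XT.lf (nat_lit 0) (nat_lit 1076562885) (nat_lit 76) (nat_lit 16218603277) (nat_lit 76) (nat_lit 15529567398) (nat_lit 29) (nat_lit 4) (nat_lit 30) (nat_lit 5) (nat_lit 30) (nat_lit 4) (nat_lit 534) (nat_lit 337) (nat_lit 329)) (XT.lf (nat_lit 0) (nat_lit 24246979839) (nat_lit 76) (nat_lit 4990548089) (nat_lit 76) (nat_lit 4226282611) (nat_lit 29) (nat_lit 4) (nat_lit 30) (nat_lit 5) (nat_lit 30) (nat_lit 4) (nat_lit 535) (nat_lit 337) (nat_lit 328))) (XT.nd (nat_lit 78) (nat_lit 76) (nat_lit 0) (XT.lf (nat_lit 0) (nat_lit 7260695186) (nat_lit 152) (nat_lit 20411768223) (nat_lit 0) (nat_lit 6447778756) (nat_lit 27) (nat_lit 5) (nat_lit 29) (nat_lit 4) (nat_lit 27) (nat_lit 4) (nat_lit 536) (nat_lit 337) (nat_lit 327)) (XT.lf (nat_lit 0) (nat_lit 2254276674) (nat_lit 76) (nat_lit 16711915765) (nat_lit 76) (nat_lit 15830153595) (nat_lit 26) (nat_lit 4) (nat_lit 27) (nat_lit 5) (nat_lit 27) (nat_lit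 4) (nat_lit 537) (nat_lit 337) (nat_lit 326)))) (XT.nd (nat_lit 156) (nat_lit 76) (nat_lit 0) (XT.nd (nat_lit 78) (nat_lit 152) (nat_lit 0) (XT.lf (nat_lit 0) (nat_lit 25608352974) (nat_lit 76) (nat_lit 5416462085) (nat_lit 76) (nat_lit 4467859391) (nat_lit 26) (nat_lit 4) (nat_lit 27) (nat_lit 5) (nat_lit 27) (nat_lit 4) (nat_lit 538) (nat_lit 337) (nat_lit 325)) (XT.lf (nat_lit 0) (nat_lit 7080983344) (nat_lit 152) (nat_lit 23030210855) (nat_lit 0) (nat_lit 6097006250) (nat_lit 24) (nat_lit 5) (nat_lit 26) (nat_lit 4) (nat_lit 24) (nat_lit 4) (nat_lit 539) (nat_lit 337) (nat_lit 324))) (XT.nd (nat_lit 78) (nat_lit 76) (nat_lit 0) (XT.lf (nat_lit 0) (nat_lit 18840820773) (nat_lit 152) (nat_lit 308739592) (nat_lit 0) (nat_lit 17795675131) (nat_lit 24) (nat_lit 5) (nat_lit 26) (nat_lit 4) (nat_lit 24) (nat_lit 4) (nat_lit 540) (nat_lit 337) (nat_lit 323)) (XT.lf (nat_lit 0) (nat_lit 23155467209) (nat_lit 76) (nat_lit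 7826298901) (nat_lit 76) (nat_lit 6721766319) (nat_lit 23) (nat_lit 4) (nat_lit 24) (nat_lit 5) (nat_lit 24) (nat_lit 4) (nat_lit 541) (nat_lit 337) (nat_lit 322))))) (XT.nd (nat_lit 312) (nat_lit 304) (nat_lit 0) (XT.nd (nat_lit 156) (nat_lit 152) (nat_lit 0) (XT.nd (nat_lit 78) (nat_lit 0) (nat_lit 0) (XT.lf (nat_lit 0) (nat_lit 4832390058) (nat_lit 152) (nat_lit 29948866125) (nat_lit 0) (nat_lit 3704050441) (nat_lit 21) (nat_lit 5) (nat_lit 23) (nat_lit 4) (nat_lit 21) (nat_lit 4) (nat_lit 542) (nat_lit 337) (nat_lit 321)) (XT.lf (nat_lit 0) (nat_lit 16629749194) (nat_lit 152) (nat_lit 7210776005) (nat_lit 0) (nat_lit 15447062114) (nat_lit 21) (nat_lit 5) (nat_lit 23) (nat_lit 4) (nat_lit 21) (nat_lit 4) (nat_lit 543) (nat_lit 337) (nat_lit 320))) (XT.nd (nat_lit 78) (nat_lit 76) (nat_lit 0) (XT.lf (nat_lit 0) (nat_lit 16145031860) (nat_lit 76) (nat_lit 12602677969) (nat_lit 76) (nat_lit 11367226363) (nat_lit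 20) (nat_lit 4) (nat_lit 21) (nat_lit 5) (nat_lit 21) (nat_lit 4) (nat_lit 544) (nat_lit 337) (nat_lit 319)) (XT.lf (nat_lit 0) (nat_lit 142040300) (nat_lit 152) (nat_lit 998337491) (nat_lit 76) (nat_lit 39830100811) (nat_lit 19) (nat_lit 5) (nat_lit 21) (nat_lit 5) (nat_lit 20) (nat_lit 4) (nat_lit 545) (nat_lit 337) (nat_lit 318)))) (XT.nd (nat_lit 156) (nat_lit 152) (nat_lit 0) (XT.nd (nat_lit 78) (nat_lit 76) (nat_lit 0) (XT.lf (nat_lit 0) (nat_lit 11906595657) (nat_lit 152) (nat_lit 19328455546) (nat_lit 0) (nat_lit 10609105434) (nat_lit 18) (nat_lit 5) (nat_lit 20) (nat_lit 4) (nat_lit 18) (nat_lit 4) (nat_lit 546) (nat_lit 337) (nat_lit 317)) (XT.lf (nat_lit 0) (nat_lit 3704268328) (nat_lit 76) (nat_lit 20193961704) (nat_lit 76) (nat_lit 18849590882) (nat_lit 17) (nat_lit 4) (nat_lit 18) (nat_lit 5) (nat_lit 18) (nat_lit 4) (nat_lit 547) (nat_lit 337) (nat_lit 316))) (XT.nd (nat_lit 78) (nat_lit 152) (nat_lit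 0) (XT.lf (nat_lit 0) (nat_lit 27459293328) (nat_lit 76) (nat_lit 8804383018) (nat_lit 76) (nat_lit 7414497052) (nat_lit 17) (nat_lit 4) (nat_lit 18) (nat_lit 5) (nat_lit 18) (nat_lit 4) (nat_lit 548) (nat_lit 337) (nat_lit 315)) (XT.lf (nat_lit 0) (nat_lit 4195960076) (nat_lit 152) (nat_lit 37638040490) (nat_lit 0) (nat_lit 2803653836) (nat_lit 15) (nat_lit 5) (nat_lit 17) (nat_lit 4) (nat_lit 15) (nat_lit 4) (nat_lit 549) (nat_lit 337) (nat_lit 314))))))) (XT.nd (nat_lit 61308) (nat_lit 0) (nat_lit 228) (XT.nd (nat_lit 60684) (nat_lit 0) (nat_lit 1368) (XT.nd (nat_lit 312) (nat_lit 0) (nat_lit 0) (XT.nd (nat_lit 156) (nat_lit 152) (nat_lit 0) (XT.nd (nat_lit 78) (nat_lit 76) (nat_lit 0) (XT.lf (nat_lit 0) (nat_lit 16080747907) (nat_lit 152) (nat_lit 14893929663) (nat_lit 0) (nat_lit 14646788862) (nat_lit 15) (nat_lit 5) (nat_lit 17) (nat_lit 4) (nat_lit 15) (nat_lit 4) (nat_lit 550) (nat_lit 337) (nat_lit 313))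 (XT.lf (nat_lit 0) (nat_lit 8347973910) (nat_lit 76) (nat_lit 19881990584) (nat_lit 76) (nat_lit 18407591923) (nat_lit 14) (nat_lit 4) (nat_lit 15) (nat_lit 5) (nat_lit 15) (nat_lit 4) (nat_lit 551) (nat_lit 337) (nat_lit 312))) (XT.nd (nat_lit 78) (nat_lit 152) (nat_lit 0) (XT.lf (nat_lit 0) (nat_lit 32248422104) (nat_lit 76) (nat_lit 8474987503) (nat_lit 76) (nat_lit 6961327078) (nat_lit 14) (nat_lit 4) (nat_lit 15) (nat_lit 5) (nat_lit 15) (nat_lit 4) (nat_lit 552) (nat_lit 337) (nat_lit 311)) (XT.lf (nat_lit 0) (nat_lit 4673512946) (nat_lit 152) (nat_lit 40923313267) (nat_lit 0) (nat_lit 3166931741) (nat_lit 12) (nat_lit 5) (nat_lit 14) (nat_lit 4) (nat_lit 12) (nat_lit 4) (nat_lit 553) (nat_lit 337) (nat_lit 310)))) (XT.nd (nat_lit 60216) (nat_lit 0) (nat_lit 1976) (XT.nd (nat_lit 60138) (nat_lit 0) (nat_lit 2204) (XT.lf (nat_lit 0) (nat_lit 16591539330) (nat_lit 152) (nat_lit 18230293184) (nat_lit 0) (nat_lit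 15049028050) (nat_lit 12) (nat_lit 5) (nat_lit 14) (nat_lit 4) (nat_lit 12) (nat_lit 4) (nat_lit 554) (nat_lit 337) (nat_lit 309)) (XT.lf (nat_lit 0) (nat_lit 7212316987) (nat_lit 76) (nat_lit 3226380549) (nat_lit 76) (nat_lit 3226380549) (nat_lit 41) (nat_lit 4) (nat_lit 42) (nat_lit 5) (nat_lit 42) (nat_lit 4) (nat_lit 524) (nat_lit 338) (nat_lit 338))) (XT.nd (nat_lit 78) (nat_lit 76) (nat_lit 0) (XT.lf (nat_lit 0) (nat_lit 4532267855) (nat_lit 152) (nat_lit 18859899629) (nat_lit 0) (nat_lit 4425008436) (nat_lit 39) (nat_lit 5) (nat_lit 41) (nat_lit 4) (nat_lit 39) (nat_lit 4) (nat_lit 525) (nat_lit 338) (nat_lit 337)) (XT.lf (nat_lit 0) (nat_lit 2914368940) (nat_lit 76) (nat_lit 12806896235) (nat_lit 76) (nat_lit 12595501457) (nat_lit 38) (nat_lit 4) (nat_lit 39) (nat_lit 5) (nat_lit 39) (nat_lit 4) (nat_lit 526) (nat_lit 338) (nat_lit 336))))) (XT.nd (nat_lit 312) (nat_lit 228) (nat_lit 0) (XT.nd (nat_lit 156)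 (nat_lit 228) (nat_lit 0) (XT.nd (nat_lit 78) (nat_lit 152) (nat_lit 0) (XT.lf (nat_lit 0) (nat_lit 25293733605) (nat_lit 76) (nat_lit 1925455598) (nat_lit 76) (nat_lit 1612958530) (nat_lit 38) (nat_lit 4) (nat_lit 39) (nat_lit 5) (nat_lit 39) (nat_lit 4) (nat_lit 527) (nat_lit 338) (nat_lit 335)) (XT.lf (nat_lit 0) (nat_lit 9567735646) (nat_lit 152) (nat_lit 10621677985) (nat_lit 0) (nat_lit 9169041829) (nat_lit 36) (nat_lit 5) (nat_lit 38) (nat_lit 4) (nat_lit 36) (nat_lit 4) (nat_lit 528) (nat_lit 338) (nat_lit 334))) (XT.nd (nat_lit 78) (nat_lit 152) (nat_lit 0) (XT.lf (nat_lit 0) (nat_lit 11618171995) (nat_lit 76) (nat_lit 9387249357) (nat_lit 76) (nat_lit 8896032623) (nat_lit 35) (nat_lit 4) (nat_lit 36) (nat_lit 5) (nat_lit 36) (nat_lit 4) (nat_lit 529) (nat_lit 338) (nat_lit 333)) (XT.lf (nat_lit 0) (nat_lit 2229581407) (nat_lit 152) (nat_lit 26566546550) (nat_lit 0) (nat_lit 1665460233) (nat_lit 33) (nat_lit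 5) (nat_lit 35) (nat_lit 4) (nat_lit 33) (nat_lit 4) (nat_lit 530) (nat_lit 338) (nat_lit 332)))) (XT.nd (nat_lit 156) (nat_lit 152) (nat_lit 0) (XT.nd (nat_lit 78) (nat_lit 76) (nat_lit 0) (XT.lf (nat_lit 0) (nat_lit 13576876086) (nat_lit 152) (nat_lit 4528923525) (nat_lit 0) (nat_lit 12928083336) (nat_lit 33) (nat_lit 5) (nat_lit 35) (nat_lit 4) (nat_lit 33) (nat_lit 4) (nat_lit 531) (nat_lit 338) (nat_lit 331)) (XT.lf (nat_lit 0) (nat_lit 18109036039) (nat_lit 76) (nat_lit 7123140680) (nat_lit 76) (nat_lit 6392142516) (nat_lit 32) (nat_lit 4) (nat_lit 33) (nat_lit 5) (nat_lit 33) (nat_lit 4) (nat_lit 532) (nat_lit 338) (nat_lit 330))) (XT.nd (nat_lit 78) (nat_lit 0) (nat_lit 0) (XT.lf (nat_lit 0) (nat_lit 4873335358) (nat_lit 152) (nat_lit 23272558582) (nat_lit 0) (nat_lit 4086141916) (nat_lit 30) (nat_lit 5) (nat_lit 32) (nat_lit 4) (nat_lit 30) (nat_lit 4) (nat_lit 533) (nat_lit 338) (nat_lit 329)) (XT.lf (nat_lit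 0) (nat_lit 16350309003) (nat_lit 152) (nat_lit 1017830415) (nat_lit 0) (nat_lit 15487885963) (nat_lit 30) (nat_lit 5) (nat_lit 32) (nat_lit 4) (nat_lit 30) (nat_lit 4) (nat_lit 534) (nat_lit 338) (nat_lit 328)))))) (XT.nd (nat_lit 624) (nat_lit 456) (nat_lit 0) (XT.nd (nat_lit 312) (nat_lit 380) (nat_lit 0) (XT.nd (nat_lit 156) (nat_lit 76) (nat_lit 0) (XT.nd (nat_lit 78) (nat_lit 152) (nat_lit 0) (XT.lf (nat_lit 0) (nat_lit 21930239262) (nat_lit 76) (nat_lit 6251821508) (nat_lit 76) (nat_lit 5316360022) (nat_lit 29) (nat_lit 4) (nat_lit 30) (nat_lit 5) (nat_lit 30) (nat_lit 4) (nat_lit 535) (nat_lit 338) (nat_lit 327)) (XT.lf (nat_lit 0) (nat_lit 6054898043) (nat_lit 152) (nat_lit 23026541317) (nat_lit 0) (nat_lit 5077837269) (nat_lit 27) (nat_lit 5) (nat_lit 29) (nat_lit 4) (nat_lit 27) (nat_lit 4) (nat_lit 536) (nat_lit 338) (nat_lit 326))) (XT.nd (nat_lit 78) (nat_lit 76) (nat_lit 0) (XT.lf (nat_lit 0) (nat_lit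 17640098398) (nat_lit 152) (nat_lit 602694029) (nat_lit 0) (nat_lit 16596197099) (nat_lit 27) (nat_lit 5) (nat_lit 29) (nat_lit 4) (nat_lit 27) (nat_lit 4) (nat_lit 537) (nat_lit 338) (nat_lit 325)) (XT.lf (nat_lit 0) (nat_lit 22543122144) (nat_lit 76) (nat_lit 7052048716) (nat_lit 76) (nat_lit 5943253704) (nat_lit 26) (nat_lit 4) (nat_lit 27) (nat_lit 5) (nat_lit 27) (nat_lit 4) (nat_lit 538) (nat_lit 338) (nat_lit 324)))) (XT.nd (nat_lit 156) (nat_lit 228) (nat_lit 0) (XT.nd (nat_lit 78) (nat_lit 0) (nat_lit 0) (XT.lf (nat_lit 0) (nat_lit 5489283867) (nat_lit 152) (nat_lit 26417829834) (nat_lit 0) (nat_lit 4351615307) (nat_lit 24) (nat_lit 5) (nat_lit 26) (nat_lit 4) (nat_lit 24) (nat_lit 4) (nat_lit 539) (nat_lit 338) (nat_lit 323)) (XT.lf (nat_lit 0) (nat_lit 17153420936) (nat_lit 152) (nat_lit 3888848801) (nat_lit 0) (nat_lit 15956365437) (nat_lit 24) (nat_lit 5) (nat_lit 26) (nat_lit 4) (nat_lit 24) (nat_lit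 4) (nat_lit 540) (nat_lit 338) (nat_lit 322))) (XT.nd (nat_lit 78) (nat_lit 152) (nat_lit 0) (XT.lf (nat_lit 0) (nat_lit 19313503737) (nat_lit 76) (nat_lit 9851018262) (nat_lit 76) (nat_lit 8596305540) (nat_lit 23) (nat_lit 4) (nat_lit 24) (nat_lit 5) (nat_lit 24) (nat_lit 4) (nat_lit 541) (nat_lit 338) (nat_lit 321)) (XT.lf (nat_lit 0) (nat_lit 2840709921) (nat_lit 152) (nat_lit 34138849319) (nat_lit 0) (nat_lit 1568194766) (nat_lit 21) (nat_lit 5) (nat_lit 23) (nat_lit 4) (nat_lit 21) (nat_lit 4) (nat_lit 542) (nat_lit 338) (nat_lit 320))))) (XT.nd (nat_lit 312) (nat_lit 228) (nat_lit 0) (XT.nd (nat_lit 156) (nat_lit 152) (nat_lit 0) (XT.nd (nat_lit 78) (nat_lit 76) (nat_lit 0) (XT.lf (nat_lit 0) (nat_lit 14545204428) (nat_lit 152) (nat_lit 11587691555) (nat_lit 0) (nat_lit 13219924746) (nat_lit 21) (nat_lit 5) (nat_lit 23) (nat_lit 4) (nat_lit 21) (nat_lit 4) (nat_lit 543) (nat_lit 338) (nat_lit 319)) (XT.lf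 (nat_lit 0) (nat_lit 11495907424) (nat_lit 76) (nat_lit 15032407578) (nat_lit 76) (nat_lit 13655900201) (nat_lit 20) (nat_lit 4) (nat_lit 21) (nat_lit 5) (nat_lit 21) (nat_lit 4) (nat_lit 544) (nat_lit 338) (nat_lit 318))) (XT.nd (nat_lit 78) (nat_lit 152) (nat_lit 0) (XT.lf (nat_lit 0) (nat_lit 35144742572) (nat_lit 76) (nat_lit 3661988875) (nat_lit 76) (nat_lit 2235745870) (nat_lit 20) (nat_lit 4) (nat_lit 21) (nat_lit 5) (nat_lit 21) (nat_lit 4) (nat_lit 545) (nat_lit 338) (nat_lit 317)) (XT.lf (nat_lit 0) (nat_lit 9409571906) (nat_lit 152) (nat_lit 24534124862) (nat_lit 0) (nat_lit 7977989361) (nat_lit 18) (nat_lit 5) (nat_lit 20) (nat_lit 4) (nat_lit 18) (nat_lit 4) (nat_lit 546) (nat_lit 338) (nat_lit 316)))) (XT.nd (nat_lit 156) (nat_lit 152) (nat_lit 0) (XT.nd (nat_lit 78) (nat_lit 76) (nat_lit 0) (XT.lf (nat_lit 0) (nat_lit 21278106470) (nat_lit 152) (nat_lit 1749928232) (nat_lit 0) (nat_lit 19801008780)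 (nat_lit 18) (nat_lit 5) (nat_lit 20) (nat_lit 4) (nat_lit 18) (nat_lit 4) (nat_lit 547) (nat_lit 338) (nat_lit 315)) (XT.lf (nat_lit 0) (nat_lit 21795754016) (nat_lit 76) (nat_lit 11744021253) (nat_lit 76) (nat_lit 10222734103) (nat_lit 17) (nat_lit 4) (nat_lit 18) (nat_lit 5) (nat_lit 18) (nat_lit 4) (nat_lit 548) (nat_lit 338) (nat_lit 314))) (XT.nd (nat_lit 78) (nat_lit 0) (nat_lit 0) (XT.lf (nat_lit 0) (nat_lit 1018658957) (nat_lit 76) (nat_lit 253680203) (nat_lit 152) (nat_lit 43455566606) (nat_lit 15) (nat_lit 5) (nat_lit 16) (nat_lit 5) (nat_lit 17) (nat_lit 4) (nat_lit 549) (nat_lit 338) (nat_lit 313)) (XT.lf (nat_lit 0) (nat_lit 13069781708) (nat_lit 152) (nat_lit 21133845047) (nat_lit 0) (nat_lit 11510711471) (nat_lit 15) (nat_lit 5) (nat_lit 17) (nat_lit 4) (nat_lit 15) (nat_lit 4) (nat_lit 550) (nat_lit 338) (nat_lit 312))))))))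
noncomputable def xc4 : XT := (XT.nd (nat_lit 62322) (nat_lit 0) (nat_lit 0) (XT.nd (nat_lit 61074) (nat_lit 0) (nat_lit 380) (XT.nd (nat_lit 60450) (nat_lit 0) (nat_lit 1520) (XT.nd (nat_lit 234) (nat_lit 0) (nat_lit 0) (XT.nd (nat_lit 78) (nat_lit 152) (nat_lit 0) (XT.lf (nat_lit 0) (nat_lit 1814402298) (nat_lit 76) (nat_lit 23259357569) (nat_lit 76) (nat_lit 21661025569) (nat_lit 14) (nat_lit 4) (nat_lit 15) (nat_lit 5) (nat_lit 15) (nat_lit 4) (nat_lit 551) (nat_lit 338) (nat_lit 311)) (XT.nd (nat_lit 78) (nat_lit 152) (nat_lit 0) (XT.lf (nat_lit 0) (nat_lit 25550316825) (nat_lit 76) (nat_lit 11935273798) (nat_lit 76) (nat_lit 10298823581) (nat_lit 14) (nat_lit 4) (nat_lit 15) (nat_lit 5) (nat_lit 15) (nat_lit 4) (nat_lit 552) (nat_lit 338) (nat_lit 310)) (XT.lf (nat_lit 0) (nat_lit 807528093) (nat_lit 76) (nat_lit 414632639) (nat_lit 152) (nat_lit 47647606735) (nat_lit 12) (nat_lit 5) (nat_lit 13) (nat_lit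 5) (nat_lit 14) (nat_lit 4) (nat_lit 553) (nat_lit 338) (nat_lit 309)))) (XT.nd (nat_lit 60060) (nat_lit 0) (nat_lit 2204) (XT.nd (nat_lit 59982) (nat_lit 0) (nat_lit 2432) (XT.lf (nat_lit 0) (nat_lit 13056200616) (nat_lit 152) (nat_lit 25526588767) (nat_lit 0) (nat_lit 11396600353) (nat_lit 12) (nat_lit 5) (nat_lit 14) (nat_lit 4) (nat_lit 12) (nat_lit 4) (nat_lit 554) (nat_lit 338) (nat_lit 308)) (XT.lf (nat_lit 0) (nat_lit 12076935752) (nat_lit 76) (nat_lit 560100823) (nat_lit 76) (nat_lit 560100823) (nat_lit 44) (nat_lit 4) (nat_lit 45) (nat_lit 5) (nat_lit 45) (nat_lit 4) (nat_lit 522) (nat_lit 339) (nat_lit 339))) (XT.nd (nat_lit 78) (nat_lit 76) (nat_lit 0) (XT.lf (nat_lit 0) (nat_lit 9751464112) (nat_lit 152) (nat_lit 7467279250) (nat_lit 0) (nat_lit 9637672594) (nat_lit 42) (nat_lit 5) (nat_lit 44) (nat_lit 4) (nat_lit 42) (nat_lit 4) (nat_lit 523) (nat_lit 339) (nat_lit 338)) (XT.lf (nat_lit 0) (nat_lit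 14210570689) (nat_lit 76) (nat_lit 6673533438) (nat_lit 76) (nat_lit 6449264718) (nat_lit 41) (nat_lit 4) (nat_lit 42) (nat_lit 5) (nat_lit 42) (nat_lit 4) (nat_lit 524) (nat_lit 339) (nat_lit 337))))) (XT.nd (nat_lit 312) (nat_lit 304) (nat_lit 0) (XT.nd (nat_lit 156) (nat_lit 152) (nat_lit 0) (XT.nd (nat_lit 78) (nat_lit 76) (nat_lit 0) (XT.lf (nat_lit 0) (nat_lit 4423342472) (nat_lit 152) (nat_lit 19298945415) (nat_lit 0) (nat_lit 4101470492) (nat_lit 39) (nat_lit 5) (nat_lit 41) (nat_lit 4) (nat_lit 39) (nat_lit 4) (nat_lit 525) (nat_lit 339) (nat_lit 336)) (XT.lf (nat_lit 0) (nat_lit 2252426950) (nat_lit 76) (nat_lit 13248617724) (nat_lit 76) (nat_lit 12825643454) (nat_lit 38) (nat_lit 4) (nat_lit 39) (nat_lit 5) (nat_lit 39) (nat_lit 4) (nat_lit 526) (nat_lit 339) (nat_lit 335))) (XT.nd (nat_lit 78) (nat_lit 152) (nat_lit 0) (XT.lf (nat_lit 0) (nat_lit 24423870903) (nat_lit 76) (nat_lit 2471223286) (nat_lit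 76) (nat_lit 1950091453) (nat_lit 38) (nat_lit 4) (nat_lit 39) (nat_lit 5) (nat_lit 39) (nat_lit 4) (nat_lit 527) (nat_lit 339) (nat_lit 334)) (XT.lf (nat_lit 0) (nat_lit 9118346200) (nat_lit 152) (nat_lit 11736939567) (nat_lit 0) (nat_lit 8519870046) (nat_lit 36) (nat_lit 5) (nat_lit 38) (nat_lit 4) (nat_lit 36) (nat_lit 4) (nat_lit 528) (nat_lit 339) (nat_lit 333)))) (XT.nd (nat_lit 156) (nat_lit 76) (nat_lit 0) (XT.nd (nat_lit 78) (nat_lit 152) (nat_lit 0) (XT.lf (nat_lit 0) (nat_lit 10272709360) (nat_lit 76) (nat_lit 10168595584) (nat_lit 76) (nat_lit 9480291355) (nat_lit 35) (nat_lit 4) (nat_lit 36) (nat_lit 5) (nat_lit 36) (nat_lit 4) (nat_lit 529) (nat_lit 339) (nat_lit 332)) (XT.lf (nat_lit 0) (nat_lit 1530922265) (nat_lit 152) (nat_lit 28176756776) (nat_lit 0) (nat_lit 777994156) (nat_lit 33) (nat_lit 5) (nat_lit 35) (nat_lit 4) (nat_lit 33) (nat_lit 4) (nat_lit 530) (nat_lit 339) (nat_lit 331))) (XT.nd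 (nat_lit 78) (nat_lit 76) (nat_lit 0) (XT.lf (nat_lit 0) (nat_lit 12776498708) (nat_lit 152) (nat_lit 6343155755) (nat_lit 0) (nat_lit 11941365186) (nat_lit 33) (nat_lit 5) (nat_lit 35) (nat_lit 4) (nat_lit 33) (nat_lit 4) (nat_lit 531) (nat_lit 339) (nat_lit 330)) (XT.lf (nat_lit 0) (nat_lit 16056675240) (nat_lit 76) (nat_lit 8256639984) (nat_lit 76) (nat_lit 7341695380) (nat_lit 32) (nat_lit 4) (nat_lit 33) (nat_lit 5) (nat_lit 33) (nat_lit 4) (nat_lit 532) (nat_lit 339) (nat_lit 329)))))) (XT.nd (nat_lit 624) (nat_lit 532) (nat_lit 0) (XT.nd (nat_lit 312) (nat_lit 228) (nat_lit 0) (XT.nd (nat_lit 156) (nat_lit 228) (nat_lit 0) (XT.nd (nat_lit 78) (nat_lit 0) (nat_lit 0) (XT.lf (nat_lit 0) (nat_lit 3809142212) (nat_lit 152) (nat_lit 25612237184) (nat_lit 0) (nat_lit 2845616881) (nat_lit 30) (nat_lit 5) (nat_lit 32) (nat_lit 4) (nat_lit 30) (nat_lit 4) (nat_lit 533) (nat_lit 339) (nat_lit 328)) (XT.lf (nat_lit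 0) (nat_lit 15187427205) (nat_lit 152) (nat_lit 3555655958) (nat_lit 0) (nat_lit 14150863429) (nat_lit 30) (nat_lit 5) (nat_lit 32) (nat_lit 4) (nat_lit 30) (nat_lit 4) (nat_lit 534) (nat_lit 339) (nat_lit 327))) (XT.nd (nat_lit 78) (nat_lit 152) (nat_lit 0) (XT.lf (nat_lit 0) (nat_lit 19145701690) (nat_lit 76) (nat_lit 7750896378) (nat_lit 76) (nat_lit 6643421490) (nat_lit 29) (nat_lit 4) (nat_lit 30) (nat_lit 5) (nat_lit 30) (nat_lit 4) (nat_lit 535) (nat_lit 339) (nat_lit 326)) (XT.lf (nat_lit 0) (nat_lit 4612713339) (nat_lit 152) (nat_lit 26122120966) (nat_lit 0) (nat_lit 3470654477) (nat_lit 27) (nat_lit 5) (nat_lit 29) (nat_lit 4) (nat_lit 27) (nat_lit 4) (nat_lit 536) (nat_lit 339) (nat_lit 325)))) (XT.nd (nat_lit 156) (nat_lit 152) (nat_lit 0) (XT.nd (nat_lit 78) (nat_lit 76) (nat_lit 0) (XT.lf (nat_lit 0) (nat_lit 16102158923) (nat_lit 152) (nat_lit 3890709167) (nat_lit 0) (nat_lit 14895206348) (nat_lit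 27) (nat_lit 5) (nat_lit 29) (nat_lit 4) (nat_lit 27) (nat_lit 4) (nat_lit 537) (nat_lit 339) (nat_lit 324)) (XT.lf (nat_lit 0) (nat_lit 18999120192) (nat_lit 76) (nat_lit 8931078283) (nat_lit 76) (nat_lit 7661122104) (nat_lit 26) (nat_lit 4) (nat_lit 27) (nat_lit 5) (nat_lit 27) (nat_lit 4) (nat_lit 538) (nat_lit 339) (nat_lit 323))) (XT.nd (nat_lit 78) (nat_lit 0) (nat_lit 0) (XT.lf (nat_lit 0) (nat_lit 3655561674) (nat_lit 152) (nat_lit 30297832549) (nat_lit 0) (nat_lit 2363207570) (nat_lit 24) (nat_lit 5) (nat_lit 26) (nat_lit 4) (nat_lit 24) (nat_lit 4) (nat_lit 539) (nat_lit 339) (nat_lit 322)) (XT.lf (nat_lit 0) (nat_lit 15226785773) (nat_lit 152) (nat_lit 7955735234) (nat_lit 0) (nat_lit 13876774445) (nat_lit 24) (nat_lit 5) (nat_lit 26) (nat_lit 4) (nat_lit 24) (nat_lit 4) (nat_lit 540) (nat_lit 339) (nat_lit 321))))) (XT.nd (nat_lit 312) (nat_lit 228) (nat_lit 0) (XT.nd (nat_lit 156) (nat_lit 152) (nat_lit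 0) (XT.nd (nat_lit 78) (nat_lit 76) (nat_lit 0) (XT.lf (nat_lit 0) (nat_lit 14980626764) (nat_lit 76) (nat_lit 12125403039) (nat_lit 76) (nat_lit 10719413825) (nat_lit 23) (nat_lit 4) (nat_lit 24) (nat_lit 5) (nat_lit 24) (nat_lit 4) (nat_lit 541) (nat_lit 339) (nat_lit 320)) (XT.lf (nat_lit 0) (nat_lit 610932633) (nat_lit 152) (nat_lit 220143431) (nat_lit 76) (nat_lit 37786349341) (nat_lit 22) (nat_lit 5) (nat_lit 24) (nat_lit 5) (nat_lit 23) (nat_lit 4) (nat_lit 542) (nat_lit 339) (nat_lit 319))) (XT.nd (nat_lit 78) (nat_lit 76) (nat_lit 0) (XT.lf (nat_lit 0) (nat_lit 12215098857) (nat_lit 152) (nat_lit 16464334649) (nat_lit 0) (nat_lit 10746068562) (nat_lit 21) (nat_lit 5) (nat_lit 23) (nat_lit 4) (nat_lit 21) (nat_lit 4) (nat_lit 543) (nat_lit 339) (nat_lit 318)) (XT.lf (nat_lit 0) (nat_lit 6342501137) (nat_lit 76) (nat_lit 17718636781) (nat_lit 76) (nat_lit 16199870859) (nat_lit 20) (nat_lit 4) (nat_lit 21)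 (nat_lit 5) (nat_lit 21) (nat_lit 4) (nat_lit 544) (nat_lit 339) (nat_lit 317)))) (XT.nd (nat_lit 156) (nat_lit 76) (nat_lit 0) (XT.nd (nat_lit 78) (nat_lit 152) (nat_lit 0) (XT.lf (nat_lit 0) (nat_lit 29816862079) (nat_lit 76) (nat_lit 6436030841) (nat_lit 76) (nat_lit 4868977902) (nat_lit 20) (nat_lit 4) (nat_lit 21) (nat_lit 5) (nat_lit 21) (nat_lit 4) (nat_lit 545) (nat_lit 339) (nat_lit 316)) (XT.lf (nat_lit 0) (nat_lit 6660028443) (nat_lit 152) (nat_lit 30253738821) (nat_lit 0) (nat_lit 5093102678) (nat_lit 18) (nat_lit 5) (nat_lit 20) (nat_lit 4) (nat_lit 18) (nat_lit 4) (nat_lit 546) (nat_lit 339) (nat_lit 315))) (XT.nd (nat_lit 78) (nat_lit 76) (nat_lit 0) (XT.lf (nat_lit 0) (nat_lit 18443619202) (nat_lit 152) (nat_lit 7640652509) (nat_lit 0) (nat_lit 16832503977) (nat_lit 18) (nat_lit 5) (nat_lit 20) (nat_lit 4) (nat_lit 18) (nat_lit 4) (nat_lit 547) (nat_lit 339) (nat_lit 314)) (XT.lf (nat_lit 0) (nat_lit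 15618360008) (nat_lit 76) (nat_lit 14945077390) (nat_lit 76) (nat_lit 13291059776) (nat_lit 17) (nat_lit 4) (nat_lit 18) (nat_lit 5) (nat_lit 18) (nat_lit 4) (nat_lit 548) (nat_lit 339) (nat_lit 313))))))) (XT.nd (nat_lit 60918) (nat_lit 0) (nat_lit 608) (XT.nd (nat_lit 60294) (nat_lit 0) (nat_lit 1824) (XT.nd (nat_lit 234) (nat_lit 228) (nat_lit 0) (XT.nd (nat_lit 78) (nat_lit 152) (nat_lit 0) (XT.lf (nat_lit 0) (nat_lit 39397838190) (nat_lit 76) (nat_lit 3560420218) (nat_lit 76) (nat_lit 1864749799) (nat_lit 17) (nat_lit 4) (nat_lit 18) (nat_lit 5) (nat_lit 18) (nat_lit 4) (nat_lit 549) (nat_lit 339) (nat_lit 312)) (XT.nd (nat_lit 78) (nat_lit 0) (nat_lit 0) (XT.lf (nat_lit 0) (nat_lit 9801146029) (nat_lit 152) (nat_lit 27898268201) (nat_lit 0) (nat_lit 8115602305) (nat_lit 15) (nat_lit 5) (nat_lit 17) (nat_lit 4) (nat_lit 15) (nat_lit 4) (nat_lit 550) (nat_lit 339) (nat_lit 311)) (XT.lf (nat_lit 0) (nat_lit 21707650285)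 (nat_lit 152) (nat_lit 5146749401) (nat_lit 0) (nat_lit 19983988344) (nat_lit 15) (nat_lit 5) (nat_lit 17) (nat_lit 4) (nat_lit 15) (nat_lit 4) (nat_lit 551) (nat_lit 339) (nat_lit 310)))) (XT.nd (nat_lit 156) (nat_lit 152) (nat_lit 0) (XT.nd (nat_lit 78) (nat_lit 0) (nat_lit 0) (XT.lf (nat_lit 0) (nat_lit 18326993296) (nat_lit 76) (nat_lit 15662792177) (nat_lit 76) (nat_lit 13902122258) (nat_lit 14) (nat_lit 4) (nat_lit 15) (nat_lit 5) (nat_lit 15) (nat_lit 4) (nat_lit 552) (nat_lit 339) (nat_lit 309)) (XT.lf (nat_lit 0) (nat_lit 42295621406) (nat_lit 76) (nat_lit 4240568789) (nat_lit 76) (nat_lit 2443968795) (nat_lit 14) (nat_lit 4) (nat_lit 15) (nat_lit 5) (nat_lit 15) (nat_lit 4) (nat_lit 553) (nat_lit 339) (nat_lit 308))) (XT.nd (nat_lit 59826) (nat_lit 0) (nat_lit 2508) (XT.lf (nat_lit 0) (nat_lit 9257130263) (nat_lit 152) (nat_lit 33359783906) (nat_lit 0) (nat_lit 7478990882) (nat_lit 12) (nat_lit 5) (nat_lit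 14) (nat_lit 4) (nat_lit 12) (nat_lit 4) (nat_lit 554) (nat_lit 339) (nat_lit 307)) (XT.lf (nat_lit 0) (nat_lit 1768673220) (nat_lit 152) (nat_lit 9211806596) (nat_lit 0) (nat_lit 1768673220) (nat_lit 45) (nat_lit 5) (nat_lit 47) (nat_lit 4) (nat_lit 45) (nat_lit 4) (nat_lit 520) (nat_lit 340) (nat_lit 340))))) (XT.nd (nat_lit 312) (nat_lit 380) (nat_lit 0) (XT.nd (nat_lit 156) (nat_lit 228) (nat_lit 0) (XT.nd (nat_lit 78) (nat_lit 0) (nat_lit 0) (XT.lf (nat_lit 0) (nat_lit 2469873561) (nat_lit 76) (nat_lit 11795841572) (nat_lit 76) (nat_lit 11675120151) (nat_lit 44) (nat_lit 4) (nat_lit 45) (nat_lit 5) (nat_lit 45) (nat_lit 4) (nat_lit 521) (nat_lit 340) (nat_lit 339)) (XT.lf (nat_lit 0) (nat_lit 23946143909) (nat_lit 76) (nat_lit 1344589806) (nat_lit 76) (nat_lit 1106663121) (nat_lit 44) (nat_lit 4) (nat_lit 45) (nat_lit 5) (nat_lit 45) (nat_lit 4) (nat_lit 522) (nat_lit 340) (nat_lit 338))) (XT.nd (nat_lit 78)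 (nat_lit 76) (nat_lit 0) (XT.lf (nat_lit 0) (nat_lit 9655469120) (nat_lit 152) (nat_lit 7893348112) (nat_lit 0) (nat_lit 9313995137) (nat_lit 42) (nat_lit 5) (nat_lit 44) (nat_lit 4) (nat_lit 42) (nat_lit 4) (nat_lit 523) (nat_lit 340) (nat_lit 337)) (XT.lf (nat_lit 0) (nat_lit 13568193789) (nat_lit 76) (nat_lit 7111774643) (nat_lit 76) (nat_lit 6663041240) (nat_lit 41) (nat_lit 4) (nat_lit 42) (nat_lit 5) (nat_lit 42) (nat_lit 4) (nat_lit 524) (nat_lit 340) (nat_lit 336)))) (XT.nd (nat_lit 156) (nat_lit 152) (nat_lit 0) (XT.nd (nat_lit 78) (nat_lit 76) (nat_lit 0) (XT.lf (nat_lit 0) (nat_lit 4098137109) (nat_lit 152) (nat_lit 20177420619) (nat_lit 0) (nat_lit 3561371321) (nat_lit 39) (nat_lit 5) (nat_lit 41) (nat_lit 4) (nat_lit 39) (nat_lit 4) (nat_lit 525) (nat_lit 340) (nat_lit 335)) (XT.lf (nat_lit 0) (nat_lit 1148547655) (nat_lit 76) (nat_lit 13914804641) (nat_lit 76) (nat_lit 13279881290) (nat_lit 38) (nat_lit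 4) (nat_lit 39) (nat_lit 5) (nat_lit 39) (nat_lit 4) (nat_lit 526) (nat_lit 340) (nat_lit 334))) (XT.nd (nat_lit 78) (nat_lit 152) (nat_lit 0) (XT.lf (nat_lit 0) (nat_lit 23118126840) (nat_lit 76) (nat_lit 3238425929) (nat_lit 76) (nat_lit 2508203973) (nat_lit 38) (nat_lit 4) (nat_lit 39) (nat_lit 5) (nat_lit 39) (nat_lit 4) (nat_lit 527) (nat_lit 340) (nat_lit 333)) (XT.lf (nat_lit 0) (nat_lit 8448834159) (nat_lit 152) (nat_lit 13299669845) (nat_lit 0) (nat_lit 7650052729) (nat_lit 36) (nat_lit 5) (nat_lit 38) (nat_lit 4) (nat_lit 36) (nat_lit 4) (nat_lit 528) (nat_lit 340) (nat_lit 332)))))) (XT.nd (nat_lit 624) (nat_lit 532) (nat_lit 0) (XT.nd (nat_lit 312) (nat_lit 380) (nat_lit 0) (XT.nd (nat_lit 156) (nat_lit 76) (nat_lit 0) (XT.nd (nat_lit 78) (nat_lit 152) (nat_lit 0) (XT.lf (nat_lit 0) (nat_lit 8476930927) (nat_lit 76) (nat_lit 11178771163) (nat_lit 76) (nat_lit 10292778009) (nat_lit 35) (nat_lit 4) (nat_lit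 36) (nat_lit 5) (nat_lit 36) (nat_lit 4) (nat_lit 529) (nat_lit 340) (nat_lit 331)) (XT.lf (nat_lit 0) (nat_lit 263828846) (nat_lit 76) (nat_lit 344296068) (nat_lit 152) (nat_lit 29908451494) (nat_lit 33) (nat_lit 5) (nat_lit 34) (nat_lit 5) (nat_lit 35) (nat_lit 4) (nat_lit 530) (nat_lit 340) (nat_lit 330))) (XT.nd (nat_lit 78) (nat_lit 76) (nat_lit 0) (XT.lf (nat_lit 0) (nat_lit 11751636204) (nat_lit 152) (nat_lit 8613916575) (nat_lit 0) (nat_lit 10729432180) (nat_lit 33) (nat_lit 5) (nat_lit 35) (nat_lit 4) (nat_lit 33) (nat_lit 4) (nat_lit 531) (nat_lit 340) (nat_lit 329)) (XT.lf (nat_lit 0) (nat_lit 13544584168) (nat_lit 76) (nat_lit 9623841602) (nat_lit 76) (nat_lit 8524151092) (nat_lit 32) (nat_lit 4) (nat_lit 33) (nat_lit 5) (nat_lit 33) (nat_lit 4) (nat_lit 532) (nat_lit 340) (nat_lit 328)))) (XT.nd (nat_lit 156) (nat_lit 228) (nat_lit 0) (XT.nd (nat_lit 78) (nat_lit 0) (nat_lit 0) (XT.lf (nat_lit 0) (nat_lit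 2512685308) (nat_lit 152) (nat_lit 28424344435) (nat_lit 0) (nat_lit 1371986173) (nat_lit 30) (nat_lit 5) (nat_lit 32) (nat_lit 4) (nat_lit 30) (nat_lit 4) (nat_lit 533) (nat_lit 340) (nat_lit 327)) (XT.lf (nat_lit 0) (nat_lit 13795156076) (nat_lit 152) (nat_lit 6560138881) (nat_lit 0) (nat_lit 12583545830) (nat_lit 30) (nat_lit 5) (nat_lit 32) (nat_lit 4) (nat_lit 30) (nat_lit 4) (nat_lit 534) (nat_lit 340) (nat_lit 326))) (XT.nd (nat_lit 78) (nat_lit 152) (nat_lit 0) (XT.lf (nat_lit 0) (nat_lit 15890934031) (nat_lit 76) (nat_lit 9489082571) (nat_lit 76) (nat_lit 8208626585) (nat_lit 29) (nat_lit 4) (nat_lit 30) (nat_lit 5) (nat_lit 30) (nat_lit 4) (nat_lit 535) (nat_lit 340) (nat_lit 325)) (XT.lf (nat_lit 0) (nat_lit 2932880910) (nat_lit 152) (nat_lit 29701212047) (nat_lit 0) (nat_lit 1624826045) (nat_lit 27) (nat_lit 5) (nat_lit 29) (nat_lit 4) (nat_lit 27) (nat_lit 4) (nat_lit 536) (nat_lit 340) (nat_lit 324)))))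 (XT.nd (nat_lit 312) (nat_lit 304) (nat_lit 0) (XT.nd (nat_lit 156) (nat_lit 152) (nat_lit 0) (XT.nd (nat_lit 78) (nat_lit 76) (nat_lit 0) (XT.lf (nat_lit 0) (nat_lit 14329360698) (nat_lit 152) (nat_lit 7656630820) (nat_lit 0) (nat_lit 12958302229) (nat_lit 27) (nat_lit 5) (nat_lit 29) (nat_lit 4) (nat_lit 27) (nat_lit 4) (nat_lit 537) (nat_lit 340) (nat_lit 323)) (XT.lf (nat_lit 0) (nat_lit 14973250415) (nat_lit 76) (nat_lit 11055192657) (nat_lit 76) (nat_lit 9622965640) (nat_lit 26) (nat_lit 4) (nat_lit 27) (nat_lit 5) (nat_lit 27) (nat_lit 4) (nat_lit 538) (nat_lit 340) (nat_lit 322))) (XT.nd (nat_lit 78) (nat_lit 0) (nat_lit 0) (XT.lf (nat_lit 0) (nat_lit 1578214485) (nat_lit 152) (nat_lit 34673609293) (nat_lit 0) (nat_lit 130045595) (nat_lit 24) (nat_lit 5) (nat_lit 26) (nat_lit 4) (nat_lit 24) (nat_lit 4) (nat_lit 539) (nat_lit 340) (nat_lit 321)) (XT.lf (nat_lit 0) (nat_lit 13059231816) (nat_lit 152) (nat_lit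 12512952481) (nat_lit 0) (nat_lit 11555085039) (nat_lit 24) (nat_lit 5) (nat_lit 26) (nat_lit 4) (nat_lit 24) (nat_lit 4) (nat_lit 540) (nat_lit 340) (nat_lit 320)))) (XT.nd (nat_lit 156) (nat_lit 228) (nat_lit 0) (XT.nd (nat_lit 78) (nat_lit 0) (nat_lit 0) (XT.lf (nat_lit 0) (nat_lit 10153050283) (nat_lit 76) (nat_lit 14651440559) (nat_lit 76) (nat_lit 13092946319) (nat_lit 23) (nat_lit 4) (nat_lit 24) (nat_lit 5) (nat_lit 24) (nat_lit 4) (nat_lit 541) (nat_lit 340) (nat_lit 319)) (XT.lf (nat_lit 0) (nat_lit 33401445904) (nat_lit 76) (nat_lit 3451006369) (nat_lit 76) (nat_lit 1839747602) (nat_lit 23) (nat_lit 4) (nat_lit 24) (nat_lit 5) (nat_lit 24) (nat_lit 4) (nat_lit 542) (nat_lit 340) (nat_lit 318))) (XT.nd (nat_lit 78) (nat_lit 76) (nat_lit 0) (XT.lf (nat_lit 0) (nat_lit 9637396467) (nat_lit 152) (nat_lit 21844966434) (nat_lit 0) (nat_lit 8023331939) (nat_lit 21) (nat_lit 5) (nat_lit 23) (nat_lit 4) (nat_lit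 21) (nat_lit 4) (nat_lit 543) (nat_lit 340) (nat_lit 317)) (XT.lf (nat_lit 0) (nat_lit 680310024) (nat_lit 76) (nat_lit 20663712769) (nat_lit 76) (nat_lit 19001361225) (nat_lit 20) (nat_lit 4) (nat_lit 21) (nat_lit 5) (nat_lit 21) (nat_lit 4) (nat_lit 544) (nat_lit 340) (nat_lit 316))))))))
noncomputable def xc5 : XT := (XT.nd (nat_lit 62010) (nat_lit 0) (nat_lit 76) (XT.nd (nat_lit 60762) (nat_lit 0) (nat_lit 1064) (XT.nd (nat_lit 546) (nat_lit 228) (nat_lit 0) (XT.nd (nat_lit 234) (nat_lit 228) (nat_lit 0) (XT.nd (nat_lit 78) (nat_lit 152) (nat_lit 0) (XT.lf (nat_lit 0) (nat_lit 23985278533) (nat_lit 76) (nat_lit 9466361939) (nat_lit 76) (nat_lit 7757129796) (nat_lit 20) (nat_lit 4) (nat_lit 21) (nat_lit 5) (nat_lit 21) (nat_lit 4) (nat_lit 545) (nat_lit 340) (nat_lit 315)) (XT.nd (nat_lit 78) (nat_lit 0) (nat_lit 0) (XT.lf (nat_lit 0) (nat_lit 3655562753) (nat_lit 152) (nat_lit 36492295145) (nat_lit 0) (nat_lit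 1951924610) (nat_lit 18) (nat_lit 5) (nat_lit 20) (nat_lit 4) (nat_lit 18) (nat_lit 4) (nat_lit 546) (nat_lit 340) (nat_lit 314)) (XT.lf (nat_lit 0) (nat_lit 15356683800) (nat_lit 152) (nat_lit 14045335356) (nat_lit 0) (nat_lit 13610143268) (nat_lit 18) (nat_lit 5) (nat_lit 20) (nat_lit 4) (nat_lit 18) (nat_lit 4) (nat_lit 547) (nat_lit 340) (nat_lit 313)))) (XT.nd (nat_lit 156) (nat_lit 152) (nat_lit 0) (XT.nd (nat_lit 78) (nat_lit 0) (nat_lit 0) (XT.lf (nat_lit 0) (nat_lit 8921713583) (nat_lit 76) (nat_lit 18410348468) (nat_lit 76) (nat_lit 16622155132) (nat_lit 17) (nat_lit 4) (nat_lit 18) (nat_lit 5) (nat_lit 18) (nat_lit 4) (nat_lit 548) (nat_lit 340) (nat_lit 312)) (XT.lf (nat_lit 0) (nat_lit 32541485133) (nat_lit 76) (nat_lit 7106127117) (nat_lit 76) (nat_lit 5277494164) (nat_lit 17) (nat_lit 4) (nat_lit 18) (nat_lit 5) (nat_lit 18) (nat_lit 4) (nat_lit 549) (nat_lit 340) (nat_lit 311))) (XT.nd (nat_lit 78)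 (nat_lit 0) (nat_lit 0) (XT.lf (nat_lit 0) (nat_lit 6271984779) (nat_lit 152) (nat_lit 35193109785) (nat_lit 0) (nat_lit 4458494763) (nat_lit 15) (nat_lit 5) (nat_lit 17) (nat_lit 4) (nat_lit 15) (nat_lit 4) (nat_lit 550) (nat_lit 340) (nat_lit 310)) (XT.lf (nat_lit 0) (nat_lit 18100787327) (nat_lit 152) (nat_lit 12598215279) (nat_lit 0) (nat_lit 16250289334) (nat_lit 15) (nat_lit 5) (nat_lit 17) (nat_lit 4) (nat_lit 15) (nat_lit 4) (nat_lit 551) (nat_lit 340) (nat_lit 309))))) (XT.nd (nat_lit 59904) (nat_lit 0) (nat_lit 2432) (XT.nd (nat_lit 156) (nat_lit 152) (nat_lit 0) (XT.nd (nat_lit 78) (nat_lit 0) (nat_lit 0) (XT.lf (nat_lit 0) (nat_lit 10572139875) (nat_lit 76) (nat_lit 19660799694) (nat_lit 76) (nat_lit 17774371625) (nat_lit 14) (nat_lit 4) (nat_lit 15) (nat_lit 5) (nat_lit 15) (nat_lit 4) (nat_lit 552) (nat_lit 340) (nat_lit 308)) (XT.lf (nat_lit 0) (nat_lit 34390196373) (nat_lit 76) (nat_lit 8314459221)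 (nat_lit 76) (nat_lit 6393147584) (nat_lit 14) (nat_lit 4) (nat_lit 15) (nat_lit 5) (nat_lit 15) (nat_lit 4) (nat_lit 553) (nat_lit 340) (nat_lit 307))) (XT.nd (nat_lit 59670) (nat_lit 0) (nat_lit 2736) (XT.lf (nat_lit 0) (nat_lit 5191008696) (nat_lit 152) (nat_lit 41736723141) (nat_lit 0) (nat_lit 3292776483) (nat_lit 12) (nat_lit 5) (nat_lit 14) (nat_lit 4) (nat_lit 12) (nat_lit 4) (nat_lit 554) (nat_lit 340) (nat_lit 306)) (XT.lf (nat_lit 0) (nat_lit 3786881530) (nat_lit 152) (nat_lit 4747583253) (nat_lit 0) (nat_lit 3786881530) (nat_lit 48) (nat_lit 5) (nat_lit 50) (nat_lit 4) (nat_lit 48) (nat_lit 4) (nat_lit 518) (nat_lit 341) (nat_lit 341)))) (XT.nd (nat_lit 156) (nat_lit 76) (nat_lit 0) (XT.nd (nat_lit 78) (nat_lit 152) (nat_lit 0) (XT.lf (nat_lit 0) (nat_lit 11202312563) (nat_lit 76) (nat_lit 6995917759) (nat_lit 76) (nat_lit 6867844403) (nat_lit 47) (nat_lit 4) (nat_lit 48) (nat_lit 5) (nat_lit 48) (nat_lit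 4) (nat_lit 519) (nat_lit 341) (nat_lit 340)) (XT.lf (nat_lit 0) (nat_lit 3556563530) (nat_lit 152) (nat_lit 18633397497) (nat_lit 0) (nat_lit 3311499045) (nat_lit 45) (nat_lit 5) (nat_lit 47) (nat_lit 4) (nat_lit 45) (nat_lit 4) (nat_lit 520) (nat_lit 341) (nat_lit 339))) (XT.nd (nat_lit 78) (nat_lit 0) (nat_lit 0) (XT.lf (nat_lit 0) (nat_lit 2048186543) (nat_lit 76) (nat_lit 12130628113) (nat_lit 76) (nat_lit 11768358364) (nat_lit 44) (nat_lit 4) (nat_lit 45) (nat_lit 5) (nat_lit 45) (nat_lit 4) (nat_lit 521) (nat_lit 341) (nat_lit 338)) (XT.lf (nat_lit 0) (nat_lit 23322779614) (nat_lit 76) (nat_lit 1780023665) (nat_lit 76) (nat_lit 1303962398) (nat_lit 44) (nat_lit 4) (nat_lit 45) (nat_lit 5) (nat_lit 45) (nat_lit 4) (nat_lit 522) (nat_lit 341) (nat_lit 337)))))) (XT.nd (nat_lit 624) (nat_lit 684) (nat_lit 0) (XT.nd (nat_lit 312) (nat_lit 304) (nat_lit 0) (XT.nd (nat_lit 156) (nat_lit 152) (nat_lit 0) (XT.nd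 (nat_lit 78) (nat_lit 76) (nat_lit 0) (XT.lf (nat_lit 0) (nat_lit 9349603739) (nat_lit 152) (nat_lit 8745858130) (nat_lit 0) (nat_lit 8780148915) (nat_lit 42) (nat_lit 5) (nat_lit 44) (nat_lit 4) (nat_lit 42) (nat_lit 4) (nat_lit 523) (nat_lit 341) (nat_lit 336)) (XT.lf (nat_lit 0) (nat_lit 12496941975) (nat_lit 76) (nat_lit 7767867643) (nat_lit 76) (nat_lit 7094277460) (nat_lit 41) (nat_lit 4) (nat_lit 42) (nat_lit 5) (nat_lit 42) (nat_lit 4) (nat_lit 524) (nat_lit 341) (nat_lit 335))) (XT.nd (nat_lit 78) (nat_lit 0) (nat_lit 0) (XT.lf (nat_lit 0) (nat_lit 3556367606) (nat_lit 152) (nat_lit 21496092841) (nat_lit 0) (nat_lit 2804238991) (nat_lit 39) (nat_lit 5) (nat_lit 41) (nat_lit 4) (nat_lit 39) (nat_lit 4) (nat_lit 525) (nat_lit 341) (nat_lit 334)) (XT.lf (nat_lit 0) (nat_lit 14411633657) (nat_lit 152) (nat_lit 390462527) (nat_lit 0) (nat_lit 13564206437) (nat_lit 39) (nat_lit 5) (nat_lit 41) (nat_lit 4) (nat_lit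 39) (nat_lit 4) (nat_lit 526) (nat_lit 341) (nat_lit 333)))) (XT.nd (nat_lit 156) (nat_lit 76) (nat_lit 0) (XT.nd (nat_lit 78) (nat_lit 152) (nat_lit 0) (XT.lf (nat_lit 0) (nat_lit 21375360475) (nat_lit 76) (nat_lit 4227733900) (nat_lit 76) (nat_lit 3287783763) (nat_lit 38) (nat_lit 4) (nat_lit 39) (nat_lit 5) (nat_lit 39) (nat_lit 4) (nat_lit 527) (nat_lit 341) (nat_lit 332)) (XT.lf (nat_lit 0) (nat_lit 7558614514) (nat_lit 152) (nat_lit 15311234311) (nat_lit 0) (nat_lit 6558829842) (nat_lit 36) (nat_lit 5) (nat_lit 38) (nat_lit 4) (nat_lit 36) (nat_lit 4) (nat_lit 528) (nat_lit 341) (nat_lit 331))) (XT.nd (nat_lit 78) (nat_lit 0) (nat_lit 0) (XT.lf (nat_lit 0) (nat_lit 6229267572) (nat_lit 76) (nat_lit 12418658774) (nat_lit 76) (nat_lit 11334202525) (nat_lit 35) (nat_lit 4) (nat_lit 36) (nat_lit 5) (nat_lit 36) (nat_lit 4) (nat_lit 529) (nat_lit 341) (nat_lit 330)) (XT.lf (nat_lit 0) (nat_lit 28343430803) (nat_lit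 76) (nat_lit 1688279971) (nat_lit 76) (nat_lit 521618309) (nat_lit 35) (nat_lit 4) (nat_lit 36) (nat_lit 5) (nat_lit 36) (nat_lit 4) (nat_lit 530) (nat_lit 341) (nat_lit 329))))) (XT.nd (nat_lit 312) (nat_lit 304) (nat_lit 0) (XT.nd (nat_lit 156) (nat_lit 152) (nat_lit 0) (XT.nd (nat_lit 78) (nat_lit 76) (nat_lit 0) (XT.lf (nat_lit 0) (nat_lit 10501393062) (nat_lit 152) (nat_lit 11343190143) (nat_lit 0) (nat_lit 9291225350) (nat_lit 33) (nat_lit 5) (nat_lit 35) (nat_lit 4) (nat_lit 33) (nat_lit 4) (nat_lit 531) (nat_lit 341) (nat_lit 328)) (XT.lf (nat_lit 0) (nat_lit 10570567792) (nat_lit 76) (nat_lit 11225940176) (nat_lit 76) (nat_lit 9940542865) (nat_lit 32) (nat_lit 4) (nat_lit 33) (nat_lit 5) (nat_lit 33) (nat_lit 4) (nat_lit 532) (nat_lit 341) (nat_lit 327))) (XT.nd (nat_lit 78) (nat_lit 0) (nat_lit 0) (XT.lf (nat_lit 0) (nat_lit 643400651) (nat_lit 76) (nat_lit 342725657) (nat_lit 152) (nat_lit 31371906348)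 (nat_lit 30) (nat_lit 5) (nat_lit 31) (nat_lit 5) (nat_lit 32) (nat_lit 4) (nat_lit 533) (nat_lit 341) (nat_lit 326)) (XT.lf (nat_lit 0) (nat_lit 12172279069) (nat_lit 152) (nat_lit 10033904459) (nat_lit 0) (nat_lit 10784563663) (nat_lit 30) (nat_lit 5) (nat_lit 32) (nat_lit 4) (nat_lit 30) (nat_lit 4) (nat_lit 534) (nat_lit 341) (nat_lit 325)))) (XT.nd (nat_lit 156) (nat_lit 76) (nat_lit 0) (XT.nd (nat_lit 78) (nat_lit 152) (nat_lit 0) (XT.lf (nat_lit 0) (nat_lit 12163092313) (nat_lit 76) (nat_lit 11467898890) (nat_lit 76) (nat_lit 10013342960) (nat_lit 29) (nat_lit 4) (nat_lit 30) (nat_lit 5) (nat_lit 30) (nat_lit 4) (nat_lit 535) (nat_lit 341) (nat_lit 324)) (XT.lf (nat_lit 0) (nat_lit 548014227) (nat_lit 76) (nat_lit 470440881) (nat_lit 152) (nat_lit 33301023205) (nat_lit 27) (nat_lit 5) (nat_lit 28) (nat_lit 5) (nat_lit 29) (nat_lit 4) (nat_lit 536) (nat_lit 341) (nat_lit 323))) (XT.nd (nat_lit 78) (nat_lit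 76) (nat_lit 0) (XT.lf (nat_lit 0) (nat_lit 12320154676) (nat_lit 152) (nat_lit 11903749597) (nat_lit 0) (nat_lit 10783792300) (nat_lit 27) (nat_lit 5) (nat_lit 29) (nat_lit 4) (nat_lit 27) (nat_lit 4) (nat_lit 537) (nat_lit 341) (nat_lit 322)) (XT.lf (nat_lit 0) (nat_lit 10461995064) (nat_lit 76) (nat_lit 13426247861) (nat_lit 76) (nat_lit 11830498545) (nat_lit 26) (nat_lit 4) (nat_lit 27) (nat_lit 5) (nat_lit 27) (nat_lit 4) (nat_lit 538) (nat_lit 341) (nat_lit 321))))))) (XT.nd (nat_lit 60684) (nat_lit 0) (nat_lit 1520) (XT.nd (nat_lit 624) (nat_lit 456) (nat_lit 0) (XT.nd (nat_lit 312) (nat_lit 304) (nat_lit 0) (XT.nd (nat_lit 156) (nat_lit 76) (nat_lit 0) (XT.nd (nat_lit 78) (nat_lit 152) (nat_lit 0) (XT.lf (nat_lit 0) (nat_lit 33388737476) (nat_lit 76) (nat_lit 2358732058) (nat_lit 76) (nat_lit 705325519) (nat_lit 26) (nat_lit 4) (nat_lit 27) (nat_lit 5) (nat_lit 27) (nat_lit 4) (nat_lit 539) (nat_lit 341)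 (nat_lit 320)) (XT.lf (nat_lit 0) (nat_lit 10648865086) (nat_lit 152) (nat_lit 17564482578) (nat_lit 0) (nat_lit 8989268556) (nat_lit 24) (nat_lit 5) (nat_lit 26) (nat_lit 4) (nat_lit 24) (nat_lit 4) (nat_lit 540) (nat_lit 341) (nat_lit 319))) (XT.nd (nat_lit 78) (nat_lit 0) (nat_lit 0) (XT.lf (nat_lit 0) (nat_lit 4826556022) (nat_lit 76) (nat_lit 17431338039) (nat_lit 76) (nat_lit 15718976982) (nat_lit 23) (nat_lit 4) (nat_lit 24) (nat_lit 5) (nat_lit 24) (nat_lit 4) (nat_lit 541) (nat_lit 341) (nat_lit 318)) (XT.lf (nat_lit 0) (nat_lit 27905603284) (nat_lit 76) (nat_lit 6316072357) (nat_lit 76) (nat_lit 4552483604) (nat_lit 23) (nat_lit 4) (nat_lit 24) (nat_lit 5) (nat_lit 24) (nat_lit 4) (nat_lit 542) (nat_lit 341) (nat_lit 317)))) (XT.nd (nat_lit 156) (nat_lit 152) (nat_lit 0) (XT.nd (nat_lit 78) (nat_lit 0) (nat_lit 0) (XT.lf (nat_lit 0) (nat_lit 6809844896) (nat_lit 152) (nat_lit 27734288431) (nat_lit 0) (nat_lit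 5049335789) (nat_lit 21) (nat_lit 5) (nat_lit 23) (nat_lit 4) (nat_lit 21) (nat_lit 4) (nat_lit 543) (nat_lit 341) (nat_lit 316)) (XT.lf (nat_lit 0) (nat_lit 18427422647) (nat_lit 152) (nat_lit 5388374247) (nat_lit 0) (nat_lit 16620032942) (nat_lit 21) (nat_lit 5) (nat_lit 23) (nat_lit 4) (nat_lit 21) (nat_lit 4) (nat_lit 544) (nat_lit 341) (nat_lit 315))) (XT.nd (nat_lit 78) (nat_lit 76) (nat_lit 0) (XT.lf (nat_lit 0) (nat_lit 17644896375) (nat_lit 76) (nat_lit 12755630030) (nat_lit 76) (nat_lit 10902725180) (nat_lit 20) (nat_lit 4) (nat_lit 21) (nat_lit 5) (nat_lit 21) (nat_lit 4) (nat_lit 545) (nat_lit 341) (nat_lit 314)) (XT.lf (nat_lit 0) (nat_lit 418027882) (nat_lit 152) (nat_lit 1048497708) (nat_lit 76) (nat_lit 40733245075) (nat_lit 19) (nat_lit 5) (nat_lit 21) (nat_lit 5) (nat_lit 20) (nat_lit 4) (nat_lit 546) (nat_lit 341) (nat_lit 313))))) (XT.nd (nat_lit 312) (nat_lit 152) (nat_lit 0) (XT.nd (nat_lit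 156) (nat_lit 152) (nat_lit 0) (XT.nd (nat_lit 78) (nat_lit 76) (nat_lit 0) (XT.lf (nat_lit 0) (nat_lit 12014602940) (nat_lit 152) (nat_lit 20969573098) (nat_lit 0) (nat_lit 10131110999) (nat_lit 18) (nat_lit 5) (nat_lit 20) (nat_lit 4) (nat_lit 18) (nat_lit 4) (nat_lit 547) (nat_lit 341) (nat_lit 312)) (XT.lf (nat_lit 0) (nat_lit 1699963302) (nat_lit 76) (nat_lit 22142862395) (nat_lit 76) (nat_lit 20218930837) (nat_lit 17) (nat_lit 4) (nat_lit 18) (nat_lit 5) (nat_lit 18) (nat_lit 4) (nat_lit 548) (nat_lit 341) (nat_lit 311))) (XT.nd (nat_lit 78) (nat_lit 152) (nat_lit 0) (XT.lf (nat_lit 0) (nat_lit 25164679869) (nat_lit 76) (nat_lit 10916734074) (nat_lit 76) (nat_lit 8953540752) (nat_lit 17) (nat_lit 4) (nat_lit 18) (nat_lit 5) (nat_lit 18) (nat_lit 4) (nat_lit 549) (nat_lit 341) (nat_lit 310)) (XT.lf (nat_lit 0) (nat_lit 2479214225) (nat_lit 152) (nat_lit 43024743932) (nat_lit 0) (nat_lit 536193314) (nat_lit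 15) (nat_lit 5) (nat_lit 17) (nat_lit 4) (nat_lit 15) (nat_lit 4) (nat_lit 550) (nat_lit 341) (nat_lit 309)))) (XT.nd (nat_lit 156) (nat_lit 76) (nat_lit 0) (XT.nd (nat_lit 78) (nat_lit 76) (nat_lit 0) (XT.lf (nat_lit 0) (nat_lit 14232578223) (nat_lit 152) (nat_lit 20581911847) (nat_lit 0) (nat_lit 12253627237) (nat_lit 15) (nat_lit 5) (nat_lit 17) (nat_lit 4) (nat_lit 15) (nat_lit 4) (nat_lit 551) (nat_lit 341) (nat_lit 308)) (XT.lf (nat_lit 0) (nat_lit 2278980478) (nat_lit 76) (nat_lit 23932789753) (nat_lit 76) (nat_lit 21918955199) (nat_lit 14) (nat_lit 4) (nat_lit 15) (nat_lit 5) (nat_lit 15) (nat_lit 4) (nat_lit 552) (nat_lit 341) (nat_lit 307))) (XT.nd (nat_lit 78) (nat_lit 76) (nat_lit 0) (XT.lf (nat_lit 0) (nat_lit 25950850944) (nat_lit 76) (nat_lit 12660122013) (nat_lit 76) (nat_lit 10612419917) (nat_lit 14) (nat_lit 4) (nat_lit 15) (nat_lit 5) (nat_lit 15) (nat_lit 4) (nat_lit 553) (nat_lit 341) (nat_lit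 306)) (XT.lf (nat_lit 0) (nat_lit 868818121) (nat_lit 152) (nat_lit 316882419) (nat_lit 76) (nat_lit 49167171824) (nat_lit 13) (nat_lit 5) (nat_lit 15) (nat_lit 5) (nat_lit 14) (nat_lit 4) (nat_lit 554) (nat_lit 341) (nat_lit 305)))))) (XT.nd (nat_lit 624) (nat_lit 684) (nat_lit 0) (XT.nd (nat_lit 312) (nat_lit 380) (nat_lit 0) (XT.nd (nat_lit 156) (nat_lit 228) (nat_lit 0) (XT.nd (nat_lit 78) (nat_lit 76) (nat_lit 0) (XT.lf (nat_lit 0) (nat_lit 5526484637) (nat_lit 152) (nat_lit 859967608) (nat_lit 0) (nat_lit 5526484637) (nat_lit 51) (nat_lit 5) (nat_lit 53) (nat_lit 4) (nat_lit 51) (nat_lit 4) (nat_lit 516) (nat_lit 342) (nat_lit 342)) (XT.lf (nat_lit 0) (nat_lit 18741456789) (nat_lit 76) (nat_lit 2812874760) (nat_lit 76) (nat_lit 2677001736) (nat_lit 50) (nat_lit 4) (nat_lit 51) (nat_lit 5) (nat_lit 51) (nat_lit 4) (nat_lit 517) (nat_lit 342) (nat_lit 341))) (XT.nd (nat_lit 78) (nat_lit 76) (nat_lit 0) (XT.lf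 (nat_lit 0) (nat_lit 7603507181) (nat_lit 152) (nat_lit 9698732552) (nat_lit 0) (nat_lit 7343518269) (nat_lit 48) (nat_lit 5) (nat_lit 50) (nat_lit 4) (nat_lit 48) (nat_lit 4) (nat_lit 518) (nat_lit 342) (nat_lit 340)) (XT.lf (nat_lit 0) (nat_lit 10793124855) (nat_lit 76) (nat_lit 7331720656) (nat_lit 76) (nat_lit 6947388679) (nat_lit 47) (nat_lit 4) (nat_lit 48) (nat_lit 5) (nat_lit 48) (nat_lit 4) (nat_lit 519) (nat_lit 342) (nat_lit 339)))) (XT.nd (nat_lit 156) (nat_lit 152) (nat_lit 0) (XT.nd (nat_lit 78) (nat_lit 76) (nat_lit 0) (XT.lf (nat_lit 0) (nat_lit 3369167104) (nat_lit 152) (nat_lit 19262933716) (nat_lit 0) (nat_lit 2878823999) (nat_lit 45) (nat_lit 5) (nat_lit 47) (nat_lit 4) (nat_lit 45) (nat_lit 4) (nat_lit 520) (nat_lit 342) (nat_lit 338)) (XT.lf (nat_lit 0) (nat_lit 1204444042) (nat_lit 76) (nat_lit 12679772306) (nat_lit 76) (nat_lit 12075637682) (nat_lit 44) (nat_lit 4) (nat_lit 45) (nat_lit 5)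 (nat_lit 45) (nat_lit 4) (nat_lit 521) (nat_lit 342) (nat_lit 337))) (XT.nd (nat_lit 78) (nat_lit 152) (nat_lit 0) (XT.lf (nat_lit 0) (nat_lit 22283233931) (nat_lit 76) (nat_lit 2426883700) (nat_lit 76) (nat_lit 1712271874) (nat_lit 44) (nat_lit 4) (nat_lit 45) (nat_lit 5) (nat_lit 45) (nat_lit 4) (nat_lit 522) (nat_lit 342) (nat_lit 336)) (XT.lf (nat_lit 0) (nat_lit 8833600708) (nat_lit 152) (nat_lit 10025554214) (nat_lit 0) (nat_lit 8035667461) (nat_lit 42) (nat_lit 5) (nat_lit 44) (nat_lit 4) (nat_lit 42) (nat_lit 4) (nat_lit 523) (nat_lit 342) (nat_lit 335))))) (XT.nd (nat_lit 312) (nat_lit 380) (nat_lit 0) (XT.nd (nat_lit 156) (nat_lit 76) (nat_lit 0) (XT.nd (nat_lit 78) (nat_lit 152) (nat_lit 0) (XT.lf (nat_lit 0) (nat_lit 10995879199) (nat_lit 76) (nat_lit 8642385723) (nat_lit 76) (nat_lit 7743350186) (nat_lit 41) (nat_lit 4) (nat_lit 42) (nat_lit 5) (nat_lit 42) (nat_lit 4) (nat_lit 524) (nat_lit 342) (nat_lit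 334)) (XT.lf (nat_lit 0) (nat_lit 2797560572) (nat_lit 152) (nat_lit 23256114319) (nat_lit 0) (nat_lit 1829411931) (nat_lit 39) (nat_lit 5) (nat_lit 41) (nat_lit 4) (nat_lit 39) (nat_lit 4) (nat_lit 525) (nat_lit 342) (nat_lit 333))) (XT.nd (nat_lit 78) (nat_lit 76) (nat_lit 0) (XT.lf (nat_lit 0) (nat_lit 13556798862) (nat_lit 152) (nat_lit 2342644839) (nat_lit 0) (nat_lit 12496127303) (nat_lit 39) (nat_lit 5) (nat_lit 41) (nat_lit 4) (nat_lit 39) (nat_lit 4) (nat_lit 526) (nat_lit 342) (nat_lit 332)) (XT.lf (nat_lit 0) (nat_lit 19194049002) (nat_lit 76) (nat_lit 5440011641) (nat_lit 76) (nat_lit 4289512008) (nat_lit 38) (nat_lit 4) (nat_lit 39) (nat_lit 5) (nat_lit 39) (nat_lit 4) (nat_lit 527) (nat_lit 342) (nat_lit 331)))) (XT.nd (nat_lit 156) (nat_lit 152) (nat_lit 0) (XT.nd (nat_lit 78) (nat_lit 76) (nat_lit 0) (XT.lf (nat_lit 0) (nat_lit 6446909403) (nat_lit 152) (nat_lit 17773390642) (nat_lit 0) (nat_lit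 5245247892) (nat_lit 36) (nat_lit 5) (nat_lit 38) (nat_lit 4) (nat_lit 36) (nat_lit 4) (nat_lit 528) (nat_lit 342) (nat_lit 330)) (XT.lf (nat_lit 0) (nat_lit 3527755314) (nat_lit 76) (nat_lit 13889341811) (nat_lit 76) (nat_lit 12605474886) (nat_lit 35) (nat_lit 4) (nat_lit 36) (nat_lit 5) (nat_lit 36) (nat_lit 4) (nat_lit 529) (nat_lit 342) (nat_lit 329))) (XT.nd (nat_lit 78) (nat_lit 152) (nat_lit 0) (XT.lf (nat_lit 0) (nat_lit 25457108655) (nat_lit 76) (nat_lit 3251554142) (nat_lit 76) (nat_lit 1887876135) (nat_lit 35) (nat_lit 4) (nat_lit 36) (nat_lit 5) (nat_lit 36) (nat_lit 4) (nat_lit 530) (nat_lit 342) (nat_lit 328)) (XT.lf (nat_lit 0) (nat_lit 9024676837) (nat_lit 152) (nat_lit 14533361262) (nat_lit 0) (nat_lit 7625488009) (nat_lit 33) (nat_lit 5) (nat_lit 35) (nat_lit 4) (nat_lit 33) (nat_lit 4) (nat_lit 531) (nat_lit 342) (nat_lit 327))))))))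
noncomputable def xc6 : XT := (XT.nd (nat_lit 61698) (nat_lit 0) (nat_lit 0) (XT.nd (nat_lit 1170) (nat_lit 456) (nat_lit 0) (XT.nd (nat_lit 546) (nat_lit 456) (nat_lit 0) (XT.nd (nat_lit 234) (nat_lit 304) (nat_lit 0) (XT.nd (nat_lit 78) (nat_lit 152) (nat_lit 0) (XT.lf (nat_lit 0) (nat_lit 7132027457) (nat_lit 76) (nat_lit 13064335598) (nat_lit 76) (nat_lit 11592108324) (nat_lit 32) (nat_lit 4) (nat_lit 33) (nat_lit 5) (nat_lit 33) (nat_lit 4) (nat_lit 532) (nat_lit 342) (nat_lit 326)) (XT.nd (nat_lit 78) (nat_lit 152) (nat_lit 0) (XT.lf (nat_lit 0) (nat_lit 29380925198) (nat_lit 76) (nat_lit 2287412166) (nat_lit 76) (nat_lit 744273780) (nat_lit 32) (nat_lit 4) (nat_lit 33) (nat_lit 5) (nat_lit 33) (nat_lit 4) (nat_lit 533) (nat_lit 342) (nat_lit 325)) (XT.lf (nat_lit 0) (nat_lit 10317378136) (nat_lit 152) (nat_lit 13979988021) (nat_lit 0) (nat_lit 8752345004) (nat_lit 30) (nat_lit 5) (nat_lit 32) (nat_lit 4)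 (nat_lit 30) (nat_lit 4) (nat_lit 534) (nat_lit 342) (nat_lit 324)))) (XT.nd (nat_lit 156) (nat_lit 228) (nat_lit 0) (XT.nd (nat_lit 78) (nat_lit 0) (nat_lit 0) (XT.lf (nat_lit 0) (nat_lit 7958919200) (nat_lit 76) (nat_lit 13689074398) (nat_lit 76) (nat_lit 12059147554) (nat_lit 29) (nat_lit 4) (nat_lit 30) (nat_lit 5) (nat_lit 30) (nat_lit 4) (nat_lit 535) (nat_lit 342) (nat_lit 323)) (XT.lf (nat_lit 0) (nat_lit 30488689934) (nat_lit 76) (nat_lit 2794793061) (nat_lit 76) (nat_lit 1101862612) (nat_lit 29) (nat_lit 4) (nat_lit 30) (nat_lit 5) (nat_lit 30) (nat_lit 4) (nat_lit 536) (nat_lit 342) (nat_lit 322))) (XT.nd (nat_lit 78) (nat_lit 76) (nat_lit 0) (XT.lf (nat_lit 0) (nat_lit 10072785241) (nat_lit 152) (nat_lit 16635776575) (nat_lit 0) (nat_lit 8369776505) (nat_lit 27) (nat_lit 5) (nat_lit 29) (nat_lit 4) (nat_lit 27) (nat_lit 4) (nat_lit 537) (nat_lit 342) (nat_lit 321)) (XT.lf (nat_lit 0) (nat_lit 5461412266)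 (nat_lit 76) (nat_lit 16046315690) (nat_lit 76) (nat_lit 14285649732) (nat_lit 26) (nat_lit 4) (nat_lit 27) (nat_lit 5) (nat_lit 27) (nat_lit 4) (nat_lit 538) (nat_lit 342) (nat_lit 320))))) (XT.nd (nat_lit 312) (nat_lit 228) (nat_lit 0) (XT.nd (nat_lit 156) (nat_lit 76) (nat_lit 0) (XT.nd (nat_lit 78) (nat_lit 152) (nat_lit 0) (XT.lf (nat_lit 0) (nat_lit 28218854478) (nat_lit 76) (nat_lit 5063873764) (nat_lit 76) (nat_lit 3247229919) (nat_lit 26) (nat_lit 4) (nat_lit 27) (nat_lit 5) (nat_lit 27) (nat_lit 4) (nat_lit 539) (nat_lit 342) (nat_lit 319)) (XT.lf (nat_lit 0) (nat_lit 7993579438) (nat_lit 152) (nat_lit 23114739482) (nat_lit 0) (nat_lit 6177083022) (nat_lit 24) (nat_lit 5) (nat_lit 26) (nat_lit 4) (nat_lit 24) (nat_lit 4) (nat_lit 540) (nat_lit 342) (nat_lit 318))) (XT.nd (nat_lit 78) (nat_lit 76) (nat_lit 0) (XT.lf (nat_lit 0) (nat_lit 19473660633) (nat_lit 152) (nat_lit 983928136) (nat_lit 0) (nat_lit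 17605936521) (nat_lit 24) (nat_lit 5) (nat_lit 26) (nat_lit 4) (nat_lit 24) (nat_lit 4) (nat_lit 541) (nat_lit 342) (nat_lit 317)) (XT.lf (nat_lit 0) (nat_lit 21911121142) (nat_lit 76) (nat_lit 9434946705) (nat_lit 76) (nat_lit 7517486966) (nat_lit 23) (nat_lit 4) (nat_lit 24) (nat_lit 5) (nat_lit 24) (nat_lit 4) (nat_lit 542) (nat_lit 342) (nat_lit 316)))) (XT.nd (nat_lit 156) (nat_lit 76) (nat_lit 0) (XT.nd (nat_lit 78) (nat_lit 0) (nat_lit 0) (XT.lf (nat_lit 0) (nat_lit 3729973468) (nat_lit 152) (nat_lit 34137446650) (nat_lit 0) (nat_lit 1821481472) (nat_lit 21) (nat_lit 5) (nat_lit 23) (nat_lit 4) (nat_lit 21) (nat_lit 4) (nat_lit 543) (nat_lit 342) (nat_lit 315)) (XT.lf (nat_lit 0) (nat_lit 15267445375) (nat_lit 152) (nat_lit 11952781958) (nat_lit 0) (nat_lit 13313438235) (nat_lit 21) (nat_lit 5) (nat_lit 23) (nat_lit 4) (nat_lit 21) (nat_lit 4) (nat_lit 544) (nat_lit 342) (nat_lit 314))) (XT.nd (nat_lit 78)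 (nat_lit 0) (nat_lit 0) (XT.lf (nat_lit 0) (nat_lit 10790175466) (nat_lit 76) (nat_lit 16306709233) (nat_lit 76) (nat_lit 14308512632) (nat_lit 20) (nat_lit 4) (nat_lit 21) (nat_lit 5) (nat_lit 21) (nat_lit 4) (nat_lit 545) (nat_lit 342) (nat_lit 313)) (XT.lf (nat_lit 0) (nat_lit 34145755238) (nat_lit 76) (nat_lit 5099846558) (nat_lit 76) (nat_lit 3058747568) (nat_lit 20) (nat_lit 4) (nat_lit 21) (nat_lit 5) (nat_lit 21) (nat_lit 4) (nat_lit 546) (nat_lit 342) (nat_lit 312)))))) (XT.nd (nat_lit 59904) (nat_lit 0) (nat_lit 2356) (XT.nd (nat_lit 312) (nat_lit 228) (nat_lit 0) (XT.nd (nat_lit 156) (nat_lit 76) (nat_lit 0) (XT.nd (nat_lit 78) (nat_lit 0) (nat_lit 0) (XT.lf (nat_lit 0) (nat_lit 8414456359) (nat_lit 152) (nat_lit 28419416038) (nat_lit 0) (nat_lit 6392367238) (nat_lit 18) (nat_lit 5) (nat_lit 20) (nat_lit 4) (nat_lit 18) (nat_lit 4) (nat_lit 547) (nat_lit 342) (nat_lit 311)) (XT.lf (nat_lit 0) (nat_lit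 20150866558) (nat_lit 152) (nat_lit 5935081346) (nat_lit 0) (nat_lit 18089515674) (nat_lit 18) (nat_lit 5) (nat_lit 20) (nat_lit 4) (nat_lit 18) (nat_lit 4) (nat_lit 548) (nat_lit 342) (nat_lit 310))) (XT.nd (nat_lit 78) (nat_lit 0) (nat_lit 0) (XT.lf (nat_lit 0) (nat_lit 17260976646) (nat_lit 76) (nat_lit 14995570743) (nat_lit 76) (nat_lit 12896101642) (nat_lit 17) (nat_lit 4) (nat_lit 18) (nat_lit 5) (nat_lit 18) (nat_lit 4) (nat_lit 549) (nat_lit 342) (nat_lit 309)) (XT.lf (nat_lit 0) (nat_lit 40977886716) (nat_lit 76) (nat_lit 3660180248) (nat_lit 76) (nat_lit 1523703169) (nat_lit 17) (nat_lit 4) (nat_lit 18) (nat_lit 5) (nat_lit 18) (nat_lit 4) (nat_lit 550) (nat_lit 342) (nat_lit 308)))) (XT.nd (nat_lit 156) (nat_lit 76) (nat_lit 0) (XT.nd (nat_lit 78) (nat_lit 0) (nat_lit 0) (XT.lf (nat_lit 0) (nat_lit 10099642983) (nat_lit 152) (nat_lit 29104815151) (nat_lit 0) (nat_lit 7990509823) (nat_lit 15) (nat_lit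 5) (nat_lit 17) (nat_lit 4) (nat_lit 15) (nat_lit 4) (nat_lit 551) (nat_lit 342) (nat_lit 307)) (XT.lf (nat_lit 0) (nat_lit 21985819968) (nat_lit 152) (nat_lit 6431727359) (nat_lit 0) (nat_lit 19842819267) (nat_lit 15) (nat_lit 5) (nat_lit 17) (nat_lit 4) (nat_lit 15) (nat_lit 4) (nat_lit 552) (nat_lit 342) (nat_lit 306))) (XT.nd (nat_lit 78) (nat_lit 0) (nat_lit 0) (XT.lf (nat_lit 0) (nat_lit 16970210934) (nat_lit 76) (nat_lit 17281354348) (nat_lit 76) (nat_lit 15105472537) (nat_lit 14) (nat_lit 4) (nat_lit 15) (nat_lit 5) (nat_lit 15) (nat_lit 4) (nat_lit 553) (nat_lit 342) (nat_lit 305)) (XT.lf (nat_lit 0) (nat_lit 40926328939) (nat_lit 76) (nat_lit 5885149850) (nat_lit 76) (nat_lit 3677344633) (nat_lit 14) (nat_lit 4) (nat_lit 15) (nat_lit 5) (nat_lit 15) (nat_lit 4) (nat_lit 554) (nat_lit 342) (nat_lit 304))))) (XT.nd (nat_lit 312) (nat_lit 380) (nat_lit 0) (XT.nd (nat_lit 156) (nat_lit 76) (nat_lit 0) (XT.nd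 (nat_lit 78) (nat_lit 152) (nat_lit 0) (XT.lf (nat_lit 0) (nat_lit 2569064321) (nat_lit 76) (nat_lit 4476409991) (nat_lit 76) (nat_lit 4476409991) (nat_lit 53) (nat_lit 4) (nat_lit 54) (nat_lit 5) (nat_lit 54) (nat_lit 4) (nat_lit 514) (nat_lit 343) (nat_lit 343)) (XT.lf (nat_lit 0) (nat_lit 976601795) (nat_lit 152) (nat_lit 21619594434) (nat_lit 0) (nat_lit 836652581) (nat_lit 51) (nat_lit 5) (nat_lit 53) (nat_lit 4) (nat_lit 51) (nat_lit 4) (nat_lit 515) (nat_lit 343) (nat_lit 342))) (XT.nd (nat_lit 78) (nat_lit 76) (nat_lit 0) (XT.lf (nat_lit 0) (nat_lit 11093608998) (nat_lit 152) (nat_lit 1917457538) (nat_lit 0) (nat_lit 10817786760) (nat_lit 51) (nat_lit 5) (nat_lit 53) (nat_lit 4) (nat_lit 51) (nat_lit 4) (nat_lit 516) (nat_lit 343) (nat_lit 341)) (XT.lf (nat_lit 0) (nat_lit 18344417559) (nat_lit 76) (nat_lit 3150320148) (nat_lit 76) (nat_lit 2742582353) (nat_lit 50) (nat_lit 4) (nat_lit 51) (nat_lit 5) (nat_lit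 51) (nat_lit 4) (nat_lit 517) (nat_lit 343) (nat_lit 340)))) (XT.nd (nat_lit 156) (nat_lit 152) (nat_lit 0) (XT.nd (nat_lit 78) (nat_lit 76) (nat_lit 0) (XT.lf (nat_lit 0) (nat_lit 7432776622) (nat_lit 152) (nat_lit 10309608561) (nat_lit 0) (nat_lit 6912571621) (nat_lit 48) (nat_lit 5) (nat_lit 50) (nat_lit 4) (nat_lit 48) (nat_lit 4) (nat_lit 518) (nat_lit 343) (nat_lit 339)) (XT.lf (nat_lit 0) (nat_lit 9974391896) (nat_lit 76) (nat_lit 7875546516) (nat_lit 76) (nat_lit 7234620094) (nat_lit 47) (nat_lit 4) (nat_lit 48) (nat_lit 5) (nat_lit 48) (nat_lit 4) (nat_lit 519) (nat_lit 343) (nat_lit 338))) (XT.nd (nat_lit 78) (nat_lit 0) (nat_lit 0) (XT.lf (nat_lit 0) (nat_lit 2974993419) (nat_lit 152) (nat_lit 20312771930) (nat_lit 0) (nat_lit 2238943238) (nat_lit 45) (nat_lit 5) (nat_lit 47) (nat_lit 4) (nat_lit 45) (nat_lit 4) (nat_lit 520) (nat_lit 343) (nat_lit 337)) (XT.lf (nat_lit 0) (nat_lit 13382259650) (nat_lit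 152) (nat_lit 60879569) (nat_lit 0) (nat_lit 12535732268) (nat_lit 45) (nat_lit 5) (nat_lit 47) (nat_lit 4) (nat_lit 45) (nat_lit 4) (nat_lit 521) (nat_lit 343) (nat_lit 336))))))) (XT.nd (nat_lit 1248) (nat_lit 988) (nat_lit 0) (XT.nd (nat_lit 624) (nat_lit 608) (nat_lit 0) (XT.nd (nat_lit 312) (nat_lit 304) (nat_lit 0) (XT.nd (nat_lit 156) (nat_lit 228) (nat_lit 0) (XT.nd (nat_lit 78) (nat_lit 152) (nat_lit 0) (XT.lf (nat_lit 0) (nat_lit 20826598520) (nat_lit 76) (nat_lit 3285735128) (nat_lit 76) (nat_lit 2331948327) (nat_lit 44) (nat_lit 4) (nat_lit 45) (nat_lit 5) (nat_lit 45) (nat_lit 4) (nat_lit 522) (nat_lit 343) (nat_lit 335)) (XT.lf (nat_lit 0) (nat_lit 8107009150) (nat_lit 152) (nat_lit 11733554547) (nat_lit 0) (nat_lit 7079900257) (nat_lit 42) (nat_lit 5) (nat_lit 44) (nat_lit 4) (nat_lit 42) (nat_lit 4) (nat_lit 523) (nat_lit 343) (nat_lit 334))) (XT.nd (nat_lit 78) (nat_lit 152) (nat_lit 0) (XT.lf (nat_lit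 0) (nat_lit 9063693855) (nat_lit 76) (nat_lit 9736093026) (nat_lit 76) (nat_lit 8610826570) (nat_lit 41) (nat_lit 4) (nat_lit 42) (nat_lit 5) (nat_lit 42) (nat_lit 4) (nat_lit 524) (nat_lit 343) (nat_lit 333)) (XT.lf (nat_lit 0) (nat_lit 1821052972) (nat_lit 152) (nat_lit 25459022935) (nat_lit 0) (nat_lit 636038350) (nat_lit 39) (nat_lit 5) (nat_lit 41) (nat_lit 4) (nat_lit 39) (nat_lit 4) (nat_lit 525) (nat_lit 343) (nat_lit 332)))) (XT.nd (nat_lit 156) (nat_lit 228) (nat_lit 0) (XT.nd (nat_lit 78) (nat_lit 76) (nat_lit 0) (XT.lf (nat_lit 0) (nat_lit 12487060426) (nat_lit 152) (nat_lit 4732117372) (nat_lit 0) (nat_lit 11212217728) (nat_lit 39) (nat_lit 5) (nat_lit 41) (nat_lit 4) (nat_lit 39) (nat_lit 4) (nat_lit 526) (nat_lit 343) (nat_lit 331)) (XT.lf (nat_lit 0) (nat_lit 16572286422) (nat_lit 76) (nat_lit 6876318426) (nat_lit 76) (nat_lit 5514264004) (nat_lit 38) (nat_lit 4) (nat_lit 39) (nat_lit 5) (nat_lit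 39) (nat_lit 4) (nat_lit 527) (nat_lit 343) (nat_lit 330))) (XT.nd (nat_lit 78) (nat_lit 76) (nat_lit 0) (XT.lf (nat_lit 0) (nat_lit 5112747433) (nat_lit 152) (nat_lit 20688290237) (nat_lit 0) (nat_lit 3708159086) (nat_lit 36) (nat_lit 5) (nat_lit 38) (nat_lit 4) (nat_lit 36) (nat_lit 4) (nat_lit 528) (nat_lit 343) (nat_lit 329)) (XT.lf (nat_lit 0) (nat_lit 370033610) (nat_lit 76) (nat_lit 15592105340) (nat_lit 76) (nat_lit 14107705911) (nat_lit 35) (nat_lit 4) (nat_lit 36) (nat_lit 5) (nat_lit 36) (nat_lit 4) (nat_lit 529) (nat_lit 343) (nat_lit 328))))) (XT.nd (nat_lit 312) (nat_lit 380) (nat_lit 0) (XT.nd (nat_lit 156) (nat_lit 76) (nat_lit 0) (XT.nd (nat_lit 78) (nat_lit 152) (nat_lit 0) (XT.lf (nat_lit 0) (nat_lit 22119959872) (nat_lit 76) (nat_lit 5044211973) (nat_lit 76) (nat_lit 3482326058) (nat_lit 35) (nat_lit 4) (nat_lit 36) (nat_lit 5) (nat_lit 36) (nat_lit 4) (nat_lit 530) (nat_lit 343) (nat_lit 327))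 (XT.lf (nat_lit 0) (nat_lit 7320197195) (nat_lit 152) (nat_lit 18187217460) (nat_lit 0) (nat_lit 5730764658) (nat_lit 33) (nat_lit 5) (nat_lit 35) (nat_lit 4) (nat_lit 33) (nat_lit 4) (nat_lit 531) (nat_lit 343) (nat_lit 326))) (XT.nd (nat_lit 78) (nat_lit 0) (nat_lit 0) (XT.lf (nat_lit 0) (nat_lit 3225958613) (nat_lit 76) (nat_lit 15140634233) (nat_lit 76) (nat_lit 13480290583) (nat_lit 32) (nat_lit 4) (nat_lit 33) (nat_lit 5) (nat_lit 33) (nat_lit 4) (nat_lit 532) (nat_lit 343) (nat_lit 325)) (XT.lf (nat_lit 0) (nat_lit 25300590584) (nat_lit 76) (nat_lit 4451114001) (nat_lit 76) (nat_lit 2721924611) (nat_lit 32) (nat_lit 4) (nat_lit 33) (nat_lit 5) (nat_lit 33) (nat_lit 4) (nat_lit 533) (nat_lit 343) (nat_lit 324)))) (XT.nd (nat_lit 156) (nat_lit 152) (nat_lit 0) (XT.nd (nat_lit 78) (nat_lit 76) (nat_lit 0) (XT.lf (nat_lit 0) (nat_lit 8228832490) (nat_lit 152) (nat_lit 18401837602) (nat_lit 0) (nat_lit 6485114127)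 (nat_lit 30) (nat_lit 5) (nat_lit 32) (nat_lit 4) (nat_lit 30) (nat_lit 4) (nat_lit 534) (nat_lit 343) (nat_lit 323)) (XT.lf (nat_lit 0) (nat_lit 3274741140) (nat_lit 76) (nat_lit 16154549928) (nat_lit 76) (nat_lit 14347827961) (nat_lit 29) (nat_lit 4) (nat_lit 30) (nat_lit 5) (nat_lit 30) (nat_lit 4) (nat_lit 535) (nat_lit 343) (nat_lit 322))) (XT.nd (nat_lit 78) (nat_lit 152) (nat_lit 0) (XT.lf (nat_lit 0) (nat_lit 25635264301) (nat_lit 76) (nat_lit 5345239062) (nat_lit 76) (nat_lit 3477348546) (nat_lit 29) (nat_lit 4) (nat_lit 30) (nat_lit 5) (nat_lit 30) (nat_lit 4) (nat_lit 536) (nat_lit 343) (nat_lit 321)) (XT.lf (nat_lit 0) (nat_lit 7585288670) (nat_lit 152) (nat_lit 21856846534) (nat_lit 0) (nat_lit 5714145509) (nat_lit 27) (nat_lit 5) (nat_lit 29) (nat_lit 4) (nat_lit 27) (nat_lit 4) (nat_lit 537) (nat_lit 343) (nat_lit 320)))))) (XT.nd (nat_lit 624) (nat_lit 456) (nat_lit 0) (XT.nd (nat_lit 312) (nat_lit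 304) (nat_lit 0) (XT.nd (nat_lit 156) (nat_lit 152) (nat_lit 0) (XT.nd (nat_lit 78) (nat_lit 76) (nat_lit 0) (XT.lf (nat_lit 0) (nat_lit 18885134044) (nat_lit 152) (nat_lit 32226059) (nat_lit 0) (nat_lit 16958012997) (nat_lit 27) (nat_lit 5) (nat_lit 29) (nat_lit 4) (nat_lit 27) (nat_lit 4) (nat_lit 538) (nat_lit 343) (nat_lit 319)) (XT.lf (nat_lit 0) (nat_lit 22560205664) (nat_lit 76) (nat_lit 8017839595) (nat_lit 76) (nat_lit 6036371085) (nat_lit 26) (nat_lit 4) (nat_lit 27) (nat_lit 5) (nat_lit 27) (nat_lit 4) (nat_lit 539) (nat_lit 343) (nat_lit 318))) (XT.nd (nat_lit 78) (nat_lit 0) (nat_lit 0) (XT.lf (nat_lit 0) (nat_lit 5091054719) (nat_lit 152) (nat_lit 29168572932) (nat_lit 0) (nat_lit 3116071188) (nat_lit 24) (nat_lit 5) (nat_lit 26) (nat_lit 4) (nat_lit 24) (nat_lit 4) (nat_lit 540) (nat_lit 343) (nat_lit 317)) (XT.lf (nat_lit 0) (nat_lit 16490988368) (nat_lit 152) (nat_lit 7198969124) (nat_lit 0) (nat_lit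 14466269210) (nat_lit 24) (nat_lit 5) (nat_lit 26) (nat_lit 4) (nat_lit 24) (nat_lit 4) (nat_lit 541) (nat_lit 343) (nat_lit 316)))) (XT.nd (nat_lit 156) (nat_lit 152) (nat_lit 0) (XT.nd (nat_lit 78) (nat_lit 76) (nat_lit 0) (XT.lf (nat_lit 0) (nat_lit 15412761582) (nat_lit 76) (nat_lit 12810354643) (nat_lit 76) (nat_lit 10737348468) (nat_lit 23) (nat_lit 4) (nat_lit 24) (nat_lit 5) (nat_lit 24) (nat_lit 4) (nat_lit 542) (nat_lit 343) (nat_lit 315)) (XT.lf (nat_lit 0) (nat_lit 423745301) (nat_lit 152) (nat_lit 1259683812) (nat_lit 76) (nat_lit 38107786911) (nat_lit 22) (nat_lit 5) (nat_lit 24) (nat_lit 5) (nat_lit 23) (nat_lit 4) (nat_lit 543) (nat_lit 343) (nat_lit 314))) (XT.nd (nat_lit 78) (nat_lit 76) (nat_lit 0) (XT.lf (nat_lit 0) (nat_lit 11854790277) (nat_lit 152) (nat_lit 19031924296) (nat_lit 0) (nat_lit 9752458317) (nat_lit 21) (nat_lit 5) (nat_lit 23) (nat_lit 4) (nat_lit 21) (nat_lit 4) (nat_lit 544)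 (nat_lit 343) (nat_lit 313)) (XT.lf (nat_lit 0) (nat_lit 3415126242) (nat_lit 76) (nat_lit 20122702432) (nat_lit 76) (nat_lit 17977468083) (nat_lit 20) (nat_lit 4) (nat_lit 21) (nat_lit 5) (nat_lit 21) (nat_lit 4) (nat_lit 545) (nat_lit 343) (nat_lit 312))))) (XT.nd (nat_lit 312) (nat_lit 228) (nat_lit 0) (XT.nd (nat_lit 156) (nat_lit 76) (nat_lit 0) (XT.nd (nat_lit 78) (nat_lit 152) (nat_lit 0) (XT.lf (nat_lit 0) (nat_lit 26620203032) (nat_lit 76) (nat_lit 8991587818) (nat_lit 76) (nat_lit 6804700664) (nat_lit 20) (nat_lit 4) (nat_lit 21) (nat_lit 5) (nat_lit 21) (nat_lit 4) (nat_lit 546) (nat_lit 343) (nat_lit 311)) (XT.lf (nat_lit 0) (nat_lit 4553098296) (nat_lit 152) (nat_lit 36401373748) (nat_lit 0) (nat_lit 2390645122) (nat_lit 18) (nat_lit 5) (nat_lit 20) (nat_lit 4) (nat_lit 18) (nat_lit 4) (nat_lit 547) (nat_lit 343) (nat_lit 310))) (XT.nd (nat_lit 78) (nat_lit 76) (nat_lit 0) (XT.lf (nat_lit 0) (nat_lit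 16216235224) (nat_lit 152) (nat_lit 14064640320) (nat_lit 0) (nat_lit 14015663833) (nat_lit 18) (nat_lit 5) (nat_lit 20) (nat_lit 4) (nat_lit 18) (nat_lit 4) (nat_lit 548) (nat_lit 343) (nat_lit 309)) (XT.lf (nat_lit 0) (nat_lit 8823469315) (nat_lit 76) (nat_lit 19346201159) (nat_lit 76) (nat_lit 17108621790) (nat_lit 17) (nat_lit 4) (nat_lit 18) (nat_lit 5) (nat_lit 18) (nat_lit 4) (nat_lit 549) (nat_lit 343) (nat_lit 308)))) (XT.nd (nat_lit 156) (nat_lit 76) (nat_lit 0) (XT.nd (nat_lit 78) (nat_lit 152) (nat_lit 0) (XT.lf (nat_lit 0) (nat_lit 32398482111) (nat_lit 76) (nat_lit 8082276849) (nat_lit 76) (nat_lit 5808767404) (nat_lit 17) (nat_lit 4) (nat_lit 18) (nat_lit 5) (nat_lit 18) (nat_lit 4) (nat_lit 550) (nat_lit 343) (nat_lit 307)) (XT.lf (nat_lit 0) (nat_lit 5698370304) (nat_lit 152) (nat_lit 38174372389) (nat_lit 0) (nat_lit 3457212040) (nat_lit 15) (nat_lit 5) (nat_lit 17) (nat_lit 4) (nat_lit 15) (nat_lit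 4) (nat_lit 551) (nat_lit 343) (nat_lit 306))) (XT.nd (nat_lit 78) (nat_lit 76) (nat_lit 0) (XT.lf (nat_lit 0) (nat_lit 17515510329) (nat_lit 152) (nat_lit 15640443253) (nat_lit 0) (nat_lit 15241470956) (nat_lit 15) (nat_lit 5) (nat_lit 17) (nat_lit 4) (nat_lit 15) (nat_lit 4) (nat_lit 552) (nat_lit 343) (nat_lit 305)) (XT.lf (nat_lit 0) (nat_lit 7440429181) (nat_lit 76) (nat_lit 22182194194) (nat_lit 76) (nat_lit 19876231414) (nat_lit 14) (nat_lit 4) (nat_lit 15) (nat_lit 5) (nat_lit 15) (nat_lit 4) (nat_lit 553) (nat_lit 343) (nat_lit 304))))))))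
noncomputable def xc7 : XT := (XT.nd (nat_lit 61542) (nat_lit 0) (nat_lit 0) (XT.nd (nat_lit 60294) (nat_lit 0) (nat_lit 760) (XT.nd (nat_lit 59670) (nat_lit 0) (nat_lit 1976) (XT.nd (nat_lit 59358) (nat_lit 0) (nat_lit 2736) (XT.nd (nat_lit 59202) (nat_lit 0) (nat_lit 3040) (XT.lf (nat_lit 0) (nat_lit 31262766259) (nat_lit 76) (nat_lit 10853410683) (nat_lit 76) (nat_lit 8516454305) (nat_lit 14) (nat_lit 4) (nat_lit 15) (nat_lit 5) (nat_lit 15) (nat_lit 4) (nat_lit 554) (nat_lit 343) (nat_lit 303)) (XT.nd (nat_lit 78) (nat_lit 152) (nat_lit 0) (XT.lf (nat_lit 0) (nat_lit 5557867276) (nat_lit 76) (nat_lit 2794881843) (nat_lit 76) (nat_lit 2794881843) (nat_lit 56) (nat_lit 4) (nat_lit 57) (nat_lit 5) (nat_lit 57) (nat_lit 4) (nat_lit 512) (nat_lit 344) (nat_lit 344)) (XT.lf (nat_lit 0) (nat_lit 4174878212) (nat_lit 152) (nat_lit 14465281092) (nat_lit 0) (nat_lit 4026406090) (nat_lit 54) (nat_lit 5) (nat_lit 56) (nat_lit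 4) (nat_lit 54) (nat_lit 4) (nat_lit 513) (nat_lit 344) (nat_lit 343)))) (XT.nd (nat_lit 156) (nat_lit 76) (nat_lit 0) (XT.nd (nat_lit 78) (nat_lit 152) (nat_lit 0) (XT.lf (nat_lit 0) (nat_lit 4942666831) (nat_lit 76) (nat_lit 9198337176) (nat_lit 76) (nat_lit 8905717364) (nat_lit 53) (nat_lit 4) (nat_lit 54) (nat_lit 5) (nat_lit 54) (nat_lit 4) (nat_lit 514) (nat_lit 344) (nat_lit 342)) (XT.lf (nat_lit 0) (nat_lit 919151220) (nat_lit 152) (nat_lit 22020564746) (nat_lit 0) (nat_lit 499181291) (nat_lit 51) (nat_lit 5) (nat_lit 53) (nat_lit 4) (nat_lit 51) (nat_lit 4) (nat_lit 515) (nat_lit 344) (nat_lit 341))) (XT.nd (nat_lit 78) (nat_lit 76) (nat_lit 0) (XT.lf (nat_lit 0) (nat_lit 10939741441) (nat_lit 152) (nat_lit 2510197093) (nat_lit 0) (nat_lit 10387855956) (nat_lit 51) (nat_lit 5) (nat_lit 53) (nat_lit 4) (nat_lit 51) (nat_lit 4) (nat_lit 516) (nat_lit 344) (nat_lit 340)) (XT.lf (nat_lit 0) (nat_lit 17549992172)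 (nat_lit 76) (nat_lit 3689632756) (nat_lit 76) (nat_lit 3009673915) (nat_lit 50) (nat_lit 4) (nat_lit 51) (nat_lit 5) (nat_lit 51) (nat_lit 4) (nat_lit 517) (nat_lit 344) (nat_lit 339))))) (XT.nd (nat_lit 312) (nat_lit 380) (nat_lit 0) (XT.nd (nat_lit 156) (nat_lit 152) (nat_lit 0) (XT.nd (nat_lit 78) (nat_lit 76) (nat_lit 0) (XT.lf (nat_lit 0) (nat_lit 7061422199) (nat_lit 152) (nat_lit 11328328308) (nat_lit 0) (nat_lit 6280546563) (nat_lit 48) (nat_lit 5) (nat_lit 50) (nat_lit 4) (nat_lit 48) (nat_lit 4) (nat_lit 518) (nat_lit 344) (nat_lit 338)) (XT.lf (nat_lit 0) (nat_lit 8745398289) (nat_lit 76) (nat_lit 8627870525) (nat_lit 76) (nat_lit 7729789626) (nat_lit 47) (nat_lit 4) (nat_lit 48) (nat_lit 5) (nat_lit 48) (nat_lit 4) (nat_lit 519) (nat_lit 344) (nat_lit 337))) (XT.nd (nat_lit 78) (nat_lit 0) (nat_lit 0) (XT.lf (nat_lit 0) (nat_lit 2373698049) (nat_lit 152) (nat_lit 21783829474) (nat_lit 0) (nat_lit 1391297644)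 (nat_lit 45) (nat_lit 5) (nat_lit 47) (nat_lit 4) (nat_lit 45) (nat_lit 4) (nat_lit 520) (nat_lit 344) (nat_lit 336)) (XT.lf (nat_lit 0) (nat_lit 12687561214) (nat_lit 152) (nat_lit 1718327750) (nat_lit 0) (nat_lit 11597901389) (nat_lit 45) (nat_lit 5) (nat_lit 47) (nat_lit 4) (nat_lit 45) (nat_lit 4) (nat_lit 521) (nat_lit 344) (nat_lit 335)))) (XT.nd (nat_lit 156) (nat_lit 152) (nat_lit 0) (XT.nd (nat_lit 78) (nat_lit 152) (nat_lit 0) (XT.lf (nat_lit 0) (nat_lit 18951600593) (nat_lit 76) (nat_lit 4357328403) (nat_lit 76) (nat_lit 3163533219) (nat_lit 44) (nat_lit 4) (nat_lit 45) (nat_lit 5) (nat_lit 45) (nat_lit 4) (nat_lit 522) (nat_lit 344) (nat_lit 334)) (XT.lf (nat_lit 0) (nat_lit 7169194180) (nat_lit 152) (nat_lit 13871351555) (nat_lit 0) (nat_lit 5912012166) (nat_lit 42) (nat_lit 5) (nat_lit 44) (nat_lit 4) (nat_lit 42) (nat_lit 4) (nat_lit 523) (nat_lit 344) (nat_lit 333))) (XT.nd (nat_lit 78) (nat_lit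 76) (nat_lit 0) (XT.lf (nat_lit 0) (nat_lit 6698697625) (nat_lit 76) (nat_lit 11049945218) (nat_lit 76) (nat_lit 9697464599) (nat_lit 41) (nat_lit 4) (nat_lit 42) (nat_lit 5) (nat_lit 42) (nat_lit 4) (nat_lit 524) (nat_lit 344) (nat_lit 332)) (XT.lf (nat_lit 0) (nat_lit 635134729) (nat_lit 152) (nat_lit 155680034) (nat_lit 76) (nat_lit 27164721544) (nat_lit 40) (nat_lit 5) (nat_lit 42) (nat_lit 5) (nat_lit 41) (nat_lit 4) (nat_lit 525) (nat_lit 344) (nat_lit 331)))))) (XT.nd (nat_lit 624) (nat_lit 608) (nat_lit 0) (XT.nd (nat_lit 312) (nat_lit 304) (nat_lit 0) (XT.nd (nat_lit 156) (nat_lit 152) (nat_lit 0) (XT.nd (nat_lit 78) (nat_lit 76) (nat_lit 0) (XT.lf (nat_lit 0) (nat_lit 11201483626) (nat_lit 152) (nat_lit 7560968015) (nat_lit 0) (nat_lit 9711355849) (nat_lit 39) (nat_lit 5) (nat_lit 41) (nat_lit 4) (nat_lit 39) (nat_lit 4) (nat_lit 526) (nat_lit 344) (nat_lit 330)) (XT.lf (nat_lit 0) (nat_lit 13507781872)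 (nat_lit 76) (nat_lit 8537909278) (nat_lit 76) (nat_lit 6963109925) (nat_lit 38) (nat_lit 4) (nat_lit 39) (nat_lit 5) (nat_lit 39) (nat_lit 4) (nat_lit 527) (nat_lit 344) (nat_lit 329))) (XT.nd (nat_lit 78) (nat_lit 0) (nat_lit 0) (XT.lf (nat_lit 0) (nat_lit 3554962831) (nat_lit 152) (nat_lit 24058480096) (nat_lit 0) (nat_lit 1946220339) (nat_lit 36) (nat_lit 5) (nat_lit 38) (nat_lit 4) (nat_lit 36) (nat_lit 4) (nat_lit 528) (nat_lit 344) (nat_lit 328)) (XT.lf (nat_lit 0) (nat_lit 14312989347) (nat_lit 152) (nat_lit 3183302746) (nat_lit 0) (nat_lit 12626760368) (nat_lit 36) (nat_lit 5) (nat_lit 38) (nat_lit 4) (nat_lit 36) (nat_lit 4) (nat_lit 529) (nat_lit 344) (nat_lit 327)))) (XT.nd (nat_lit 156) (nat_lit 76) (nat_lit 0) (XT.nd (nat_lit 78) (nat_lit 152) (nat_lit 0) (XT.lf (nat_lit 0) (nat_lit 18329068501) (nat_lit 76) (nat_lit 7067819866) (nat_lit 76) (nat_lit 5306361288) (nat_lit 35) (nat_lit 4) (nat_lit 36)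 (nat_lit 5) (nat_lit 36) (nat_lit 4) (nat_lit 530) (nat_lit 344) (nat_lit 326)) (XT.lf (nat_lit 0) (nat_lit 5386464785) (nat_lit 152) (nat_lit 22307951426) (nat_lit 0) (nat_lit 3605399714) (nat_lit 33) (nat_lit 5) (nat_lit 35) (nat_lit 4) (nat_lit 33) (nat_lit 4) (nat_lit 531) (nat_lit 344) (nat_lit 325))) (XT.nd (nat_lit 78) (nat_lit 76) (nat_lit 0) (XT.lf (nat_lit 0) (nat_lit 16316663128) (nat_lit 152) (nat_lit 1128590642) (nat_lit 0) (nat_lit 14466752317) (nat_lit 33) (nat_lit 5) (nat_lit 35) (nat_lit 4) (nat_lit 33) (nat_lit 4) (nat_lit 532) (nat_lit 344) (nat_lit 324)) (XT.lf (nat_lit 0) (nat_lit 20754390093) (nat_lit 76) (nat_lit 6851987565) (nat_lit 76) (nat_lit 4935236230) (nat_lit 32) (nat_lit 4) (nat_lit 33) (nat_lit 5) (nat_lit 33) (nat_lit 4) (nat_lit 533) (nat_lit 344) (nat_lit 323))))) (XT.nd (nat_lit 312) (nat_lit 228) (nat_lit 0) (XT.nd (nat_lit 156) (nat_lit 228) (nat_lit 0) (XT.nd (nat_lit 78)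 (nat_lit 0) (nat_lit 0) (XT.lf (nat_lit 0) (nat_lit 5904817187) (nat_lit 152) (nat_lit 23303316955) (nat_lit 0) (nat_lit 3980889956) (nat_lit 30) (nat_lit 5) (nat_lit 32) (nat_lit 4) (nat_lit 30) (nat_lit 4) (nat_lit 534) (nat_lit 344) (nat_lit 322)) (XT.lf (nat_lit 0) (nat_lit 16991146759) (nat_lit 152) (nat_lit 1856585150) (nat_lit 0) (nat_lit 15006050980) (nat_lit 30) (nat_lit 5) (nat_lit 32) (nat_lit 4) (nat_lit 30) (nat_lit 4) (nat_lit 535) (nat_lit 344) (nat_lit 321))) (XT.nd (nat_lit 78) (nat_lit 152) (nat_lit 0) (XT.lf (nat_lit 0) (nat_lit 20302670293) (nat_lit 76) (nat_lit 8139664515) (nat_lit 76) (nat_lit 6095181796) (nat_lit 29) (nat_lit 4) (nat_lit 30) (nat_lit 5) (nat_lit 30) (nat_lit 4) (nat_lit 536) (nat_lit 344) (nat_lit 320)) (XT.lf (nat_lit 0) (nat_lit 4855491424) (nat_lit 152) (nat_lit 27571521573) (nat_lit 0) (nat_lit 2814578858) (nat_lit 27) (nat_lit 5) (nat_lit 29) (nat_lit 4) (nat_lit 27)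 (nat_lit 4) (nat_lit 537) (nat_lit 344) (nat_lit 319)))) (XT.nd (nat_lit 156) (nat_lit 152) (nat_lit 0) (XT.nd (nat_lit 78) (nat_lit 76) (nat_lit 0) (XT.lf (nat_lit 0) (nat_lit 16075143686) (nat_lit 152) (nat_lit 5908062791) (nat_lit 0) (nat_lit 13979883658) (nat_lit 27) (nat_lit 5) (nat_lit 29) (nat_lit 4) (nat_lit 27) (nat_lit 4) (nat_lit 538) (nat_lit 344) (nat_lit 318)) (XT.lf (nat_lit 0) (nat_lit 16407846585) (nat_lit 76) (nat_lit 11223210686) (nat_lit 76) (nat_lit 9075186131) (nat_lit 26) (nat_lit 4) (nat_lit 27) (nat_lit 5) (nat_lit 27) (nat_lit 4) (nat_lit 539) (nat_lit 344) (nat_lit 317))) (XT.nd (nat_lit 78) (nat_lit 0) (nat_lit 0) (XT.lf (nat_lit 0) (nat_lit 1740329448) (nat_lit 76) (nat_lit 200351191) (nat_lit 152) (nat_lit 35532847393) (nat_lit 24) (nat_lit 5) (nat_lit 25) (nat_lit 5) (nat_lit 26) (nat_lit 4) (nat_lit 540) (nat_lit 344) (nat_lit 316)) (XT.lf (nat_lit 0) (nat_lit 13260875241) (nat_lit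 152) (nat_lit 13918181050) (nat_lit 0) (nat_lit 11077391864) (nat_lit 24) (nat_lit 5) (nat_lit 26) (nat_lit 4) (nat_lit 24) (nat_lit 4) (nat_lit 541) (nat_lit 344) (nat_lit 315))))))) (XT.nd (nat_lit 60216) (nat_lit 0) (nat_lit 1672) (XT.nd (nat_lit 624) (nat_lit 304) (nat_lit 0) (XT.nd (nat_lit 312) (nat_lit 228) (nat_lit 0) (XT.nd (nat_lit 156) (nat_lit 152) (nat_lit 0) (XT.nd (nat_lit 78) (nat_lit 0) (nat_lit 0) (XT.lf (nat_lit 0) (nat_lit 8404846425) (nat_lit 76) (nat_lit 16445245558) (nat_lit 76) (nat_lit 14214881582) (nat_lit 23) (nat_lit 4) (nat_lit 24) (nat_lit 5) (nat_lit 24) (nat_lit 4) (nat_lit 542) (nat_lit 344) (nat_lit 314)) (XT.lf (nat_lit 0) (nat_lit 31377432228) (nat_lit 76) (nat_lit 5398270140) (nat_lit 76) (nat_lit 3122391020) (nat_lit 23) (nat_lit 4) (nat_lit 24) (nat_lit 5) (nat_lit 24) (nat_lit 4) (nat_lit 543) (nat_lit 344) (nat_lit 313))) (XT.nd (nat_lit 78) (nat_lit 0) (nat_lit 0) (XT.lf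 (nat_lit 0) (nat_lit 8186475419) (nat_lit 152) (nat_lit 26631986920) (nat_lit 0) (nat_lit 5933981651) (nat_lit 21) (nat_lit 5) (nat_lit 23) (nat_lit 4) (nat_lit 21) (nat_lit 4) (nat_lit 544) (nat_lit 344) (nat_lit 312)) (XT.lf (nat_lit 0) (nat_lit 19763377339) (nat_lit 152) (nat_lit 4399143922) (nat_lit 0) (nat_lit 17469230766) (nat_lit 21) (nat_lit 5) (nat_lit 23) (nat_lit 4) (nat_lit 21) (nat_lit 4) (nat_lit 545) (nat_lit 344) (nat_lit 311)))) (XT.nd (nat_lit 156) (nat_lit 76) (nat_lit 0) (XT.nd (nat_lit 78) (nat_lit 76) (nat_lit 0) (XT.lf (nat_lit 0) (nat_lit 18572261876) (nat_lit 76) (nat_lit 13149371182) (nat_lit 76) (nat_lit 10814784993) (nat_lit 20) (nat_lit 4) (nat_lit 21) (nat_lit 5) (nat_lit 21) (nat_lit 4) (nat_lit 546) (nat_lit 344) (nat_lit 310)) (XT.lf (nat_lit 0) (nat_lit 459686480) (nat_lit 152) (nat_lit 1440684397) (nat_lit 76) (nat_lit 41570676678) (nat_lit 19) (nat_lit 5) (nat_lit 21) (nat_lit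 5) (nat_lit 20) (nat_lit 4) (nat_lit 547) (nat_lit 344) (nat_lit 309))) (XT.nd (nat_lit 78) (nat_lit 0) (nat_lit 0) (XT.lf (nat_lit 0) (nat_lit 12019152580) (nat_lit 152) (nat_lit 22728989525) (nat_lit 0) (nat_lit 9677437852) (nat_lit 18) (nat_lit 5) (nat_lit 20) (nat_lit 4) (nat_lit 18) (nat_lit 4) (nat_lit 548) (nat_lit 344) (nat_lit 308)) (XT.lf (nat_lit 0) (nat_lit 23818704159) (nat_lit 152) (nat_lit 152185903) (nat_lit 0) (nat_lit 21441059357) (nat_lit 18) (nat_lit 5) (nat_lit 20) (nat_lit 4) (nat_lit 18) (nat_lit 4) (nat_lit 549) (nat_lit 344) (nat_lit 307))))) (XT.nd (nat_lit 312) (nat_lit 76) (nat_lit 0) (XT.nd (nat_lit 156) (nat_lit 76) (nat_lit 0) (XT.nd (nat_lit 78) (nat_lit 76) (nat_lit 0) (XT.lf (nat_lit 0) (nat_lit 23282033750) (nat_lit 76) (nat_lit 12777887177) (nat_lit 76) (nat_lit 10365358806) (nat_lit 17) (nat_lit 4) (nat_lit 18) (nat_lit 5) (nat_lit 18) (nat_lit 4) (nat_lit 550) (nat_lit 344)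 (nat_lit 306)) (XT.lf (nat_lit 0) (nat_lit 1041410108) (nat_lit 152) (nat_lit 332333392) (nat_lit 76) (nat_lit 46098957213) (nat_lit 16) (nat_lit 5) (nat_lit 18) (nat_lit 5) (nat_lit 17) (nat_lit 4) (nat_lit 551) (nat_lit 344) (nat_lit 305))) (XT.nd (nat_lit 78) (nat_lit 0) (nat_lit 0) (XT.lf (nat_lit 0) (nat_lit 12775028265) (nat_lit 152) (nat_lit 25399684772) (nat_lit 0) (nat_lit 10367963195) (nat_lit 15) (nat_lit 5) (nat_lit 17) (nat_lit 4) (nat_lit 15) (nat_lit 4) (nat_lit 552) (nat_lit 344) (nat_lit 304)) (XT.lf (nat_lit 0) (nat_lit 24745545398) (nat_lit 152) (nat_lit 2595172289) (nat_lit 0) (nat_lit 22307486729) (nat_lit 15) (nat_lit 5) (nat_lit 17) (nat_lit 4) (nat_lit 15) (nat_lit 4) (nat_lit 553) (nat_lit 344) (nat_lit 303)))) (XT.nd (nat_lit 59124) (nat_lit 0) (nat_lit 3192) (XT.nd (nat_lit 59046) (nat_lit 0) (nat_lit 3420) (XT.lf (nat_lit 0) (nat_lit 21045631374) (nat_lit 76) (nat_lit 16103597598) (nat_lit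 76) (nat_lit 13635448057) (nat_lit 14) (nat_lit 4) (nat_lit 15) (nat_lit 5) (nat_lit 15) (nat_lit 4) (nat_lit 554) (nat_lit 344) (nat_lit 302)) (XT.lf (nat_lit 0) (nat_lit 8143944035) (nat_lit 76) (nat_lit 1322700948) (nat_lit 76) (nat_lit 1322700948) (nat_lit 59) (nat_lit 4) (nat_lit 60) (nat_lit 5) (nat_lit 60) (nat_lit 4) (nat_lit 510) (nat_lit 345) (nat_lit 345))) (XT.nd (nat_lit 78) (nat_lit 76) (nat_lit 0) (XT.lf (nat_lit 0) (nat_lit 6946349343) (nat_lit 152) (nat_lit 8198219277) (nat_lit 0) (nat_lit 6788835269) (nat_lit 57) (nat_lit 5) (nat_lit 59) (nat_lit 4) (nat_lit 57) (nat_lit 4) (nat_lit 511) (nat_lit 345) (nat_lit 344)) (XT.lf (nat_lit 0) (nat_lit 10926097372) (nat_lit 76) (nat_lit 5841237751) (nat_lit 76) (nat_lit 5530797393) (nat_lit 56) (nat_lit 4) (nat_lit 57) (nat_lit 5) (nat_lit 57) (nat_lit 4) (nat_lit 512) (nat_lit 345) (nat_lit 343)))))) (XT.nd (nat_lit 624) (nat_lit 684) (nat_lit 0) (XT.nd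 (nat_lit 312) (nat_lit 456) (nat_lit 0) (XT.nd (nat_lit 156) (nat_lit 152) (nat_lit 0) (XT.nd (nat_lit 78) (nat_lit 76) (nat_lit 0) (XT.lf (nat_lit 0) (nat_lit 4131832679) (nat_lit 152) (nat_lit 14854325817) (nat_lit 0) (nat_lit 3686286582) (nat_lit 54) (nat_lit 5) (nat_lit 56) (nat_lit 4) (nat_lit 54) (nat_lit 4) (nat_lit 513) (nat_lit 345) (nat_lit 342)) (XT.lf (nat_lit 0) (nat_lit 4356110604) (nat_lit 76) (nat_lit 9642483473) (nat_lit 76) (nat_lit 9056988162) (nat_lit 53) (nat_lit 4) (nat_lit 54) (nat_lit 5) (nat_lit 54) (nat_lit 4) (nat_lit 514) (nat_lit 345) (nat_lit 341))) (XT.nd (nat_lit 78) (nat_lit 0) (nat_lit 0) (XT.lf (nat_lit 0) (nat_lit 627779094) (nat_lit 76) (nat_lit 36825550) (nat_lit 152) (nat_lit 22786384170) (nat_lit 51) (nat_lit 5) (nat_lit 52) (nat_lit 5) (nat_lit 53) (nat_lit 4) (nat_lit 515) (nat_lit 345) (nat_lit 340)) (XT.lf (nat_lit 0) (nat_lit 10591232156) (nat_lit 152) (nat_lit 3498671811)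 (nat_lit 0) (nat_lit 9762801193) (nat_lit 51) (nat_lit 5) (nat_lit 53) (nat_lit 4) (nat_lit 51) (nat_lit 4) (nat_lit 516) (nat_lit 345) (nat_lit 339)))) (XT.nd (nat_lit 156) (nat_lit 228) (nat_lit 0) (XT.nd (nat_lit 78) (nat_lit 152) (nat_lit 0) (XT.lf (nat_lit 0) (nat_lit 16357486469) (nat_lit 76) (nat_lit 4431283827) (nat_lit 76) (nat_lit 3478509801) (nat_lit 50) (nat_lit 4) (nat_lit 51) (nat_lit 5) (nat_lit 51) (nat_lit 4) (nat_lit 517) (nat_lit 345) (nat_lit 338)) (XT.lf (nat_lit 0) (nat_lit 6489119429) (nat_lit 152) (nat_lit 12755781937) (nat_lit 0) (nat_lit 5446890839) (nat_lit 48) (nat_lit 5) (nat_lit 50) (nat_lit 4) (nat_lit 48) (nat_lit 4) (nat_lit 518) (nat_lit 345) (nat_lit 337))) (XT.nd (nat_lit 78) (nat_lit 152) (nat_lit 0) (XT.lf (nat_lit 0) (nat_lit 7105070155) (nat_lit 76) (nat_lit 9589350054) (nat_lit 76) (nat_lit 8433329946) (nat_lit 47) (nat_lit 4) (nat_lit 48) (nat_lit 5) (nat_lit 48) (nat_lit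 4) (nat_lit 519) (nat_lit 345) (nat_lit 336)) (XT.lf (nat_lit 0) (nat_lit 1564755593) (nat_lit 152) (nat_lit 23677391737) (nat_lit 0) (nat_lit 335146554) (nat_lit 45) (nat_lit 5) (nat_lit 47) (nat_lit 4) (nat_lit 45) (nat_lit 4) (nat_lit 520) (nat_lit 345) (nat_lit 335))))) (XT.nd (nat_lit 312) (nat_lit 380) (nat_lit 0) (XT.nd (nat_lit 156) (nat_lit 228) (nat_lit 0) (XT.nd (nat_lit 78) (nat_lit 76) (nat_lit 0) (XT.lf (nat_lit 0) (nat_lit 11787936169) (nat_lit 152) (nat_lit 3792851797) (nat_lit 0) (nat_lit 10454191771) (nat_lit 45) (nat_lit 5) (nat_lit 47) (nat_lit 4) (nat_lit 45) (nat_lit 4) (nat_lit 521) (nat_lit 345) (nat_lit 334)) (XT.lf (nat_lit 0) (nat_lit 16656601801) (nat_lit 76) (nat_lit 5642599868) (nat_lit 76) (nat_lit 4207753180) (nat_lit 44) (nat_lit 4) (nat_lit 45) (nat_lit 5) (nat_lit 45) (nat_lit 4) (nat_lit 522) (nat_lit 345) (nat_lit 333))) (XT.nd (nat_lit 78) (nat_lit 76) (nat_lit 0) (XT.lf (nat_lit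 0) (nat_lit 6019336347) (nat_lit 152) (nat_lit 16440813216) (nat_lit 0) (nat_lit 4530982705) (nat_lit 42) (nat_lit 5) (nat_lit 44) (nat_lit 4) (nat_lit 42) (nat_lit 4) (nat_lit 523) (nat_lit 345) (nat_lit 332)) (XT.lf (nat_lit 0) (nat_lit 3898824008) (nat_lit 76) (nat_lit 12585090324) (nat_lit 76) (nat_lit 11004213765) (nat_lit 41) (nat_lit 4) (nat_lit 42) (nat_lit 5) (nat_lit 42) (nat_lit 4) (nat_lit 524) (nat_lit 345) (nat_lit 331)))) (XT.nd (nat_lit 156) (nat_lit 228) (nat_lit 0) (XT.nd (nat_lit 78) (nat_lit 152) (nat_lit 0) (XT.lf (nat_lit 0) (nat_lit 24832343232) (nat_lit 76) (nat_lit 2419358683) (nat_lit 76) (nat_lit 748654049) (nat_lit 41) (nat_lit 4) (nat_lit 42) (nat_lit 5) (nat_lit 42) (nat_lit 4) (nat_lit 525) (nat_lit 345) (nat_lit 330)) (XT.lf (nat_lit 0) (nat_lit 9698945143) (nat_lit 152) (nat_lit 10831668579) (nat_lit 0) (nat_lit 7992230233) (nat_lit 39) (nat_lit 5) (nat_lit 41) (nat_lit 4) (nat_lit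 39) (nat_lit 4) (nat_lit 526) (nat_lit 345) (nat_lit 329))) (XT.nd (nat_lit 78) (nat_lit 152) (nat_lit 0) (XT.lf (nat_lit 0) (nat_lit 9997857632) (nat_lit 76) (nat_lit 10426236075) (nat_lit 76) (nat_lit 8637315751) (nat_lit 38) (nat_lit 4) (nat_lit 39) (nat_lit 5) (nat_lit 39) (nat_lit 4) (nat_lit 527) (nat_lit 345) (nat_lit 328)) (XT.lf (nat_lit 0) (nat_lit 1729661311) (nat_lit 76) (nat_lit 42945938) (nat_lit 152) (nat_lit 27844371930) (nat_lit 36) (nat_lit 5) (nat_lit 37) (nat_lit 5) (nat_lit 38) (nat_lit 4) (nat_lit 528) (nat_lit 345) (nat_lit 327))))))))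
noncomputable def xc8 : XT := (XT.nd (nat_lit 61230) (nat_lit 0) (nat_lit 684) (XT.nd (nat_lit 1170) (nat_lit 684) (nat_lit 0) (XT.nd (nat_lit 546) (nat_lit 532) (nat_lit 0) (XT.nd (nat_lit 234) (nat_lit 228) (nat_lit 0) (XT.nd (nat_lit 78) (nat_lit 228) (nat_lit 0) (XT.lf (nat_lit 0) (nat_lit 12444970445) (nat_lit 152) (nat_lit 7182529453) (nat_lit 0) (nat_lit 10555438511) (nat_lit 36) (nat_lit 5) (nat_lit 38) (nat_lit 4) (nat_lit 36) (nat_lit 4) (nat_lit 529) (nat_lit 345) (nat_lit 326)) (XT.nd (nat_lit 78) (nat_lit 152) (nat_lit 0) (XT.lf (nat_lit 0) (nat_lit 14081122112) (nat_lit 76) (nat_lit 9324146022) (nat_lit 76) (nat_lit 7361575642) (nat_lit 35) (nat_lit 4) (nat_lit 36) (nat_lit 5) (nat_lit 36) (nat_lit 4) (nat_lit 530) (nat_lit 345) (nat_lit 325)) (XT.lf (nat_lit 0) (nat_lit 3221789937) (nat_lit 152) (nat_lit 26899163803) (nat_lit 0) (nat_lit 1247536062) (nat_lit 33) (nat_lit 5) (nat_lit 35) (nat_lit 4)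 (nat_lit 33) (nat_lit 4) (nat_lit 531) (nat_lit 345) (nat_lit 324)))) (XT.nd (nat_lit 156) (nat_lit 152) (nat_lit 0) (XT.nd (nat_lit 78) (nat_lit 76) (nat_lit 0) (XT.lf (nat_lit 0) (nat_lit 14069282045) (nat_lit 152) (nat_lit 5885691579) (nat_lit 0) (nat_lit 12028187646) (nat_lit 33) (nat_lit 5) (nat_lit 35) (nat_lit 4) (nat_lit 33) (nat_lit 4) (nat_lit 532) (nat_lit 345) (nat_lit 323)) (XT.lf (nat_lit 0) (nat_lit 15738351317) (nat_lit 76) (nat_lit 9492130711) (nat_lit 76) (nat_lit 7386142599) (nat_lit 32) (nat_lit 4) (nat_lit 33) (nat_lit 5) (nat_lit 33) (nat_lit 4) (nat_lit 533) (nat_lit 345) (nat_lit 322))) (XT.nd (nat_lit 78) (nat_lit 0) (nat_lit 0) (XT.lf (nat_lit 0) (nat_lit 3343301536) (nat_lit 152) (nat_lit 28688708924) (nat_lit 0) (nat_lit 1237484335) (nat_lit 30) (nat_lit 5) (nat_lit 32) (nat_lit 4) (nat_lit 30) (nat_lit 4) (nat_lit 534) (nat_lit 345) (nat_lit 321)) (XT.lf (nat_lit 0) (nat_lit 14349388202)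 (nat_lit 152) (nat_lit 7403088715) (nat_lit 0) (nat_lit 12184184062) (nat_lit 30) (nat_lit 5) (nat_lit 32) (nat_lit 4) (nat_lit 30) (nat_lit 4) (nat_lit 535) (nat_lit 345) (nat_lit 320))))) (XT.nd (nat_lit 312) (nat_lit 228) (nat_lit 0) (XT.nd (nat_lit 156) (nat_lit 76) (nat_lit 0) (XT.nd (nat_lit 78) (nat_lit 152) (nat_lit 0) (XT.lf (nat_lit 0) (nat_lit 14486248360) (nat_lit 76) (nat_lit 11180511152) (nat_lit 76) (nat_lit 8957649788) (nat_lit 29) (nat_lit 4) (nat_lit 30) (nat_lit 5) (nat_lit 30) (nat_lit 4) (nat_lit 536) (nat_lit 345) (nat_lit 319)) (XT.lf (nat_lit 0) (nat_lit 1546204127) (nat_lit 76) (nat_lit 338053694) (nat_lit 152) (nat_lit 33449990983) (nat_lit 27) (nat_lit 5) (nat_lit 28) (nat_lit 5) (nat_lit 29) (nat_lit 4) (nat_lit 537) (nat_lit 345) (nat_lit 318))) (XT.nd (nat_lit 78) (nat_lit 76) (nat_lit 0) (XT.lf (nat_lit 0) (nat_lit 13022803114) (nat_lit 152) (nat_lit 12277803979) (nat_lit 0) (nat_lit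 10757573295) (nat_lit 27) (nat_lit 5) (nat_lit 29) (nat_lit 4) (nat_lit 27) (nat_lit 4) (nat_lit 538) (nat_lit 345) (nat_lit 317)) (XT.lf (nat_lit 0) (nat_lit 9756401392) (nat_lit 76) (nat_lit 14682787847) (nat_lit 76) (nat_lit 12366330332) (nat_lit 26) (nat_lit 4) (nat_lit 27) (nat_lit 5) (nat_lit 27) (nat_lit 4) (nat_lit 539) (nat_lit 345) (nat_lit 316)))) (XT.nd (nat_lit 156) (nat_lit 76) (nat_lit 0) (XT.nd (nat_lit 78) (nat_lit 152) (nat_lit 0) (XT.lf (nat_lit 0) (nat_lit 32397961170) (nat_lit 76) (nat_lit 3772174512) (nat_lit 76) (nat_lit 1405981370) (nat_lit 26) (nat_lit 4) (nat_lit 27) (nat_lit 5) (nat_lit 27) (nat_lit 4) (nat_lit 540) (nat_lit 345) (nat_lit 315)) (XT.lf (nat_lit 0) (nat_lit 9780498822) (nat_lit 152) (nat_lit 21147435070) (nat_lit 0) (nat_lit 7436343328) (nat_lit 24) (nat_lit 5) (nat_lit 26) (nat_lit 4) (nat_lit 24) (nat_lit 4) (nat_lit 541) (nat_lit 345) (nat_lit 314))) (XT.nd (nat_lit 78)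 (nat_lit 0) (nat_lit 0) (XT.lf (nat_lit 0) (nat_lit 881252250) (nat_lit 76) (nat_lit 20342795566) (nat_lit 76) (nat_lit 17953124927) (nat_lit 23) (nat_lit 4) (nat_lit 24) (nat_lit 5) (nat_lit 24) (nat_lit 4) (nat_lit 542) (nat_lit 345) (nat_lit 313)) (XT.lf (nat_lit 0) (nat_lit 23707756671) (nat_lit 76) (nat_lit 9369287252) (nat_lit 76) (nat_lit 6935427153) (nat_lit 23) (nat_lit 4) (nat_lit 24) (nat_lit 5) (nat_lit 24) (nat_lit 4) (nat_lit 543) (nat_lit 345) (nat_lit 312)))))) (XT.nd (nat_lit 624) (nat_lit 228) (nat_lit 0) (XT.nd (nat_lit 312) (nat_lit 228) (nat_lit 0) (XT.nd (nat_lit 156) (nat_lit 76) (nat_lit 0) (XT.nd (nat_lit 78) (nat_lit 0) (nat_lit 0) (XT.lf (nat_lit 0) (nat_lit 4259295480) (nat_lit 152) (nat_lit 34759610661) (nat_lit 0) (nat_lit 1854671705) (nat_lit 21) (nat_lit 5) (nat_lit 23) (nat_lit 4) (nat_lit 21) (nat_lit 4) (nat_lit 544) (nat_lit 345) (nat_lit 311)) (XT.lf (nat_lit 0) (nat_lit 15765024395)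 (nat_lit 152) (nat_lit 12670035748) (nat_lit 0) (nat_lit 13319961004) (nat_lit 21) (nat_lit 5) (nat_lit 23) (nat_lit 4) (nat_lit 21) (nat_lit 4) (nat_lit 545) (nat_lit 345) (nat_lit 310))) (XT.nd (nat_lit 78) (nat_lit 0) (nat_lit 0) (XT.lf (nat_lit 0) (nat_lit 9994899590) (nat_lit 76) (nat_lit 17576829666) (nat_lit 76) (nat_lit 15092504512) (nat_lit 20) (nat_lit 4) (nat_lit 21) (nat_lit 5) (nat_lit 21) (nat_lit 4) (nat_lit 546) (nat_lit 345) (nat_lit 309)) (XT.lf (nat_lit 0) (nat_lit 33319911255) (nat_lit 76) (nat_lit 6401791499) (nat_lit 76) (nat_lit 3879348128) (nat_lit 20) (nat_lit 4) (nat_lit 21) (nat_lit 5) (nat_lit 21) (nat_lit 4) (nat_lit 547) (nat_lit 345) (nat_lit 308)))) (XT.nd (nat_lit 156) (nat_lit 76) (nat_lit 0) (XT.nd (nat_lit 78) (nat_lit 0) (nat_lit 0) (XT.lf (nat_lit 0) (nat_lit 7555951271) (nat_lit 152) (nat_lit 31935699751) (nat_lit 0) (nat_lit 5071047049) (nat_lit 18) (nat_lit 5) (nat_lit 20)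 (nat_lit 4) (nat_lit 18) (nat_lit 4) (nat_lit 548) (nat_lit 345) (nat_lit 307)) (XT.lf (nat_lit 0) (nat_lit 19288447428) (nat_lit 152) (nat_lit 9493972195) (nat_lit 0) (nat_lit 16768659637) (nat_lit 18) (nat_lit 5) (nat_lit 20) (nat_lit 4) (nat_lit 18) (nat_lit 4) (nat_lit 549) (nat_lit 345) (nat_lit 306))) (XT.nd (nat_lit 78) (nat_lit 0) (nat_lit 0) (XT.lf (nat_lit 0) (nat_lit 13620575804) (nat_lit 76) (nat_lit 17751114195) (nat_lit 76) (nat_lit 15197458862) (nat_lit 17) (nat_lit 4) (nat_lit 18) (nat_lit 5) (nat_lit 18) (nat_lit 4) (nat_lit 550) (nat_lit 345) (nat_lit 305)) (XT.lf (nat_lit 0) (nat_lit 37359569469) (nat_lit 76) (nat_lit 6422888401) (nat_lit 76) (nat_lit 3836351960) (nat_lit 17) (nat_lit 4) (nat_lit 18) (nat_lit 5) (nat_lit 18) (nat_lit 4) (nat_lit 551) (nat_lit 345) (nat_lit 304))))) (XT.nd (nat_lit 59124) (nat_lit 0) (nat_lit 3192) (XT.nd (nat_lit 156) (nat_lit 76) (nat_lit 0) (XT.nd (nat_lit 78)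 (nat_lit 0) (nat_lit 0) (XT.lf (nat_lit 0) (nat_lit 7760231607) (nat_lit 152) (nat_lit 35717979408) (nat_lit 0) (nat_lit 5218037580) (nat_lit 15) (nat_lit 5) (nat_lit 17) (nat_lit 4) (nat_lit 15) (nat_lit 4) (nat_lit 552) (nat_lit 345) (nat_lit 303)) (XT.lf (nat_lit 0) (nat_lit 19667570141) (nat_lit 152) (nat_lit 13040816809) (nat_lit 0) (nat_lit 17095285241) (nat_lit 15) (nat_lit 5) (nat_lit 17) (nat_lit 4) (nat_lit 15) (nat_lit 4) (nat_lit 553) (nat_lit 345) (nat_lit 302))) (XT.nd (nat_lit 58890) (nat_lit 0) (nat_lit 3648) (XT.lf (nat_lit 0) (nat_lit 10265996692) (nat_lit 76) (nat_lit 21640298135) (nat_lit 76) (nat_lit 19038798796) (nat_lit 14) (nat_lit 4) (nat_lit 15) (nat_lit 5) (nat_lit 15) (nat_lit 4) (nat_lit 554) (nat_lit 345) (nat_lit 301)) (XT.lf (nat_lit 0) (nat_lit 10375807202) (nat_lit 76) (nat_lit 35118922) (nat_lit 76) (nat_lit 35118922) (nat_lit 62) (nat_lit 4) (nat_lit 63) (nat_lit 5) (nat_lit 63)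 (nat_lit 4) (nat_lit 508) (nat_lit 346) (nat_lit 346)))) (XT.nd (nat_lit 156) (nat_lit 228) (nat_lit 0) (XT.nd (nat_lit 78) (nat_lit 76) (nat_lit 0) (XT.lf (nat_lit 0) (nat_lit 9342246613) (nat_lit 152) (nat_lit 2713897345) (nat_lit 0) (nat_lit 9175139933) (nat_lit 60) (nat_lit 5) (nat_lit 62) (nat_lit 4) (nat_lit 60) (nat_lit 4) (nat_lit 509) (nat_lit 346) (nat_lit 345)) (XT.lf (nat_lit 0) (nat_lit 16103913884) (nat_lit 76) (nat_lit 2903457601) (nat_lit 76) (nat_lit 2574111424) (nat_lit 59) (nat_lit 4) (nat_lit 60) (nat_lit 5) (nat_lit 60) (nat_lit 4) (nat_lit 510) (nat_lit 346) (nat_lit 344))) (XT.nd (nat_lit 78) (nat_lit 76) (nat_lit 0) (XT.lf (nat_lit 0) (nat_lit 6918064650) (nat_lit 152) (nat_lit 8575670729) (nat_lit 0) (nat_lit 6445384796) (nat_lit 57) (nat_lit 5) (nat_lit 59) (nat_lit 4) (nat_lit 57) (nat_lit 4) (nat_lit 511) (nat_lit 346) (nat_lit 343)) (XT.lf (nat_lit 0) (nat_lit 10357020128) (nat_lit 76)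 (nat_lit 6285439323) (nat_lit 76) (nat_lit 5664287348) (nat_lit 56) (nat_lit 4) (nat_lit 57) (nat_lit 5) (nat_lit 57) (nat_lit 4) (nat_lit 512) (nat_lit 346) (nat_lit 342))))))) (XT.nd (nat_lit 1170) (nat_lit 1140) (nat_lit 0) (XT.nd (nat_lit 546) (nat_lit 684) (nat_lit 0) (XT.nd (nat_lit 234) (nat_lit 380) (nat_lit 0) (XT.nd (nat_lit 78) (nat_lit 152) (nat_lit 0) (XT.lf (nat_lit 0) (nat_lit 3897231879) (nat_lit 152) (nat_lit 15632755208) (nat_lit 0) (nat_lit 3154222494) (nat_lit 54) (nat_lit 5) (nat_lit 56) (nat_lit 4) (nat_lit 54) (nat_lit 4) (nat_lit 513) (nat_lit 346) (nat_lit 341)) (XT.nd (nat_lit 78) (nat_lit 76) (nat_lit 0) (XT.lf (nat_lit 0) (nat_lit 3377947438) (nat_lit 76) (nat_lit 10285646962) (nat_lit 76) (nat_lit 9406764554) (nat_lit 53) (nat_lit 4) (nat_lit 54) (nat_lit 5) (nat_lit 54) (nat_lit 4) (nat_lit 514) (nat_lit 346) (nat_lit 340)) (XT.lf (nat_lit 0) (nat_lit 224661825) (nat_lit 152) (nat_lit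 554734458) (nat_lit 76) (nat_lit 22689380100) (nat_lit 52) (nat_lit 5) (nat_lit 54) (nat_lit 5) (nat_lit 53) (nat_lit 4) (nat_lit 515) (nat_lit 346) (nat_lit 339)))) (XT.nd (nat_lit 156) (nat_lit 228) (nat_lit 0) (XT.nd (nat_lit 78) (nat_lit 76) (nat_lit 0) (XT.lf (nat_lit 0) (nat_lit 10047776620) (nat_lit 152) (nat_lit 4883745406) (nat_lit 0) (nat_lit 8942076309) (nat_lit 51) (nat_lit 5) (nat_lit 53) (nat_lit 4) (nat_lit 51) (nat_lit 4) (nat_lit 516) (nat_lit 346) (nat_lit 338)) (XT.lf (nat_lit 0) (nat_lit 14765858454) (nat_lit 76) (nat_lit 5375921408) (nat_lit 76) (nat_lit 4149499675) (nat_lit 50) (nat_lit 4) (nat_lit 51) (nat_lit 5) (nat_lit 51) (nat_lit 4) (nat_lit 517) (nat_lit 346) (nat_lit 337))) (XT.nd (nat_lit 78) (nat_lit 76) (nat_lit 0) (XT.lf (nat_lit 0) (nat_lit 5715368242) (nat_lit 152) (nat_lit 14593216738) (nat_lit 0) (nat_lit 4410876012) (nat_lit 48) (nat_lit 5) (nat_lit 50) (nat_lit 4) (nat_lit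 48) (nat_lit 4) (nat_lit 518) (nat_lit 346) (nat_lit 336)) (XT.lf (nat_lit 0) (nat_lit 5051974199) (nat_lit 76) (nat_lit 10760825231) (nat_lit 76) (nat_lit 9345855799) (nat_lit 47) (nat_lit 4) (nat_lit 48) (nat_lit 5) (nat_lit 48) (nat_lit 4) (nat_lit 519) (nat_lit 346) (nat_lit 335))))) (XT.nd (nat_lit 312) (nat_lit 304) (nat_lit 0) (XT.nd (nat_lit 156) (nat_lit 228) (nat_lit 0) (XT.nd (nat_lit 78) (nat_lit 76) (nat_lit 0) (XT.lf (nat_lit 0) (nat_lit 560352791) (nat_lit 152) (nat_lit 384712684) (nat_lit 76) (nat_lit 24666687333) (nat_lit 46) (nat_lit 5) (nat_lit 48) (nat_lit 5) (nat_lit 47) (nat_lit 4) (nat_lit 520) (nat_lit 346) (nat_lit 334)) (XT.lf (nat_lit 0) (nat_lit 10682598434) (nat_lit 152) (nat_lit 6286264401) (nat_lit 0) (nat_lit 9103604055) (nat_lit 45) (nat_lit 5) (nat_lit 47) (nat_lit 4) (nat_lit 45) (nat_lit 4) (nat_lit 521) (nat_lit 346) (nat_lit 333))) (XT.nd (nat_lit 78) (nat_lit 152) (nat_lit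 0) (XT.lf (nat_lit 0) (nat_lit 13939596807) (nat_lit 76) (nat_lit 7142672576) (nat_lit 76) (nat_lit 5465520634) (nat_lit 44) (nat_lit 4) (nat_lit 45) (nat_lit 5) (nat_lit 45) (nat_lit 4) (nat_lit 522) (nat_lit 346) (nat_lit 332)) (XT.lf (nat_lit 0) (nat_lit 4656430922) (nat_lit 152) (nat_lit 19444184692) (nat_lit 0) (nat_lit 2935605148) (nat_lit 42) (nat_lit 5) (nat_lit 44) (nat_lit 4) (nat_lit 42) (nat_lit 4) (nat_lit 523) (nat_lit 346) (nat_lit 331)))) (XT.nd (nat_lit 156) (nat_lit 228) (nat_lit 0) (XT.nd (nat_lit 78) (nat_lit 0) (nat_lit 0) (XT.lf (nat_lit 0) (nat_lit 661626511) (nat_lit 76) (nat_lit 14342869735) (nat_lit 76) (nat_lit 12532215887) (nat_lit 41) (nat_lit 4) (nat_lit 42) (nat_lit 5) (nat_lit 42) (nat_lit 4) (nat_lit 524) (nat_lit 346) (nat_lit 330)) (XT.lf (nat_lit 0) (nat_lit 21426162201) (nat_lit 76) (nat_lit 4261589742) (nat_lit 76) (nat_lit 2363724170) (nat_lit 41) (nat_lit 4) (nat_lit 42) (nat_lit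 5) (nat_lit 42) (nat_lit 4) (nat_lit 525) (nat_lit 346) (nat_lit 329))) (XT.nd (nat_lit 78) (nat_lit 76) (nat_lit 0) (XT.lf (nat_lit 0) (nat_lit 7978132079) (nat_lit 152) (nat_lit 14547076957) (nat_lit 0) (nat_lit 6053338731) (nat_lit 39) (nat_lit 5) (nat_lit 41) (nat_lit 4) (nat_lit 39) (nat_lit 4) (nat_lit 526) (nat_lit 346) (nat_lit 328)) (XT.lf (nat_lit 0) (nat_lit 6039446776) (nat_lit 76) (nat_lit 12542948809) (nat_lit 76) (nat_lit 10538344380) (nat_lit 38) (nat_lit 4) (nat_lit 39) (nat_lit 5) (nat_lit 39) (nat_lit 4) (nat_lit 527) (nat_lit 346) (nat_lit 327)))))) (XT.nd (nat_lit 624) (nat_lit 532) (nat_lit 0) (XT.nd (nat_lit 312) (nat_lit 304) (nat_lit 0) (XT.nd (nat_lit 156) (nat_lit 152) (nat_lit 0) (XT.nd (nat_lit 78) (nat_lit 152) (nat_lit 0) (XT.lf (nat_lit 0) (nat_lit 27208573943) (nat_lit 76) (nat_lit 2276651023) (nat_lit 76) (nat_lit 194560108) (nat_lit 38) (nat_lit 4) (nat_lit 39) (nat_lit 5) (nat_lit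 39) (nat_lit 4) (nat_lit 528) (nat_lit 346) (nat_lit 326)) (XT.lf (nat_lit 0) (nat_lit 10352893006) (nat_lit 152) (nat_lit 11638361666) (nat_lit 0) (nat_lit 8258407070) (nat_lit 36) (nat_lit 5) (nat_lit 38) (nat_lit 4) (nat_lit 36) (nat_lit 4) (nat_lit 529) (nat_lit 346) (nat_lit 325))) (XT.nd (nat_lit 78) (nat_lit 76) (nat_lit 0) (XT.lf (nat_lit 0) (nat_lit 9372408906) (nat_lit 76) (nat_lit 11815161987) (nat_lit 76) (nat_lit 9649764938) (nat_lit 35) (nat_lit 4) (nat_lit 36) (nat_lit 5) (nat_lit 36) (nat_lit 4) (nat_lit 530) (nat_lit 346) (nat_lit 324)) (XT.lf (nat_lit 0) (nat_lit 842601274) (nat_lit 152) (nat_lit 523762199) (nat_lit 76) (nat_lit 30077347874) (nat_lit 34) (nat_lit 5) (nat_lit 36) (nat_lit 5) (nat_lit 35) (nat_lit 4) (nat_lit 531) (nat_lit 346) (nat_lit 323)))) (XT.nd (nat_lit 156) (nat_lit 152) (nat_lit 0) (XT.nd (nat_lit 78) (nat_lit 76) (nat_lit 0) (XT.lf (nat_lit 0) (nat_lit 11591475982) (nat_lit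 152) (nat_lit 11112450960) (nat_lit 0) (nat_lit 9357414514) (nat_lit 33) (nat_lit 5) (nat_lit 35) (nat_lit 4) (nat_lit 33) (nat_lit 4) (nat_lit 532) (nat_lit 346) (nat_lit 322)) (XT.lf (nat_lit 0) (nat_lit 10248091310) (nat_lit 76) (nat_lit 12373850359) (nat_lit 76) (nat_lit 10076785286) (nat_lit 32) (nat_lit 4) (nat_lit 33) (nat_lit 5) (nat_lit 33) (nat_lit 4) (nat_lit 533) (nat_lit 346) (nat_lit 321))) (XT.nd (nat_lit 78) (nat_lit 76) (nat_lit 0) (XT.lf (nat_lit 0) (nat_lit 570936844) (nat_lit 152) (nat_lit 1199231826) (nat_lit 76) (nat_lit 31586231266) (nat_lit 31) (nat_lit 5) (nat_lit 33) (nat_lit 5) (nat_lit 32) (nat_lit 4) (nat_lit 534) (nat_lit 346) (nat_lit 320)) (XT.lf (nat_lit 0) (nat_lit 11470228251) (nat_lit 152) (nat_lit 13433518009) (nat_lit 0) (nat_lit 9123023823) (nat_lit 30) (nat_lit 5) (nat_lit 32) (nat_lit 4) (nat_lit 30) (nat_lit 4) (nat_lit 535) (nat_lit 346) (nat_lit 319))))) (XT.nd (nat_lit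 312) (nat_lit 228) (nat_lit 0) (XT.nd (nat_lit 156) (nat_lit 228) (nat_lit 0) (XT.nd (nat_lit 78) (nat_lit 0) (nat_lit 0) (XT.lf (nat_lit 0) (nat_lit 8180916194) (nat_lit 76) (nat_lit 14470436023) (nat_lit 76) (nat_lit 12067253708) (nat_lit 29) (nat_lit 4) (nat_lit 30) (nat_lit 5) (nat_lit 30) (nat_lit 4) (nat_lit 536) (nat_lit 346) (nat_lit 318)) (XT.lf (nat_lit 0) (nat_lit 30413897590) (nat_lit 76) (nat_lit 3737659901) (nat_lit 76) (nat_lit 1280130123) (nat_lit 29) (nat_lit 4) (nat_lit 30) (nat_lit 5) (nat_lit 30) (nat_lit 4) (nat_lit 537) (nat_lit 346) (nat_lit 317))) (XT.nd (nat_lit 78) (nat_lit 76) (nat_lit 0) (XT.lf (nat_lit 0) (nat_lit 9725445234) (nat_lit 152) (nat_lit 19147015416) (nat_lit 0) (nat_lit 7288266298) (nat_lit 27) (nat_lit 5) (nat_lit 29) (nat_lit 4) (nat_lit 27) (nat_lit 4) (nat_lit 538) (nat_lit 346) (nat_lit 316)) (XT.lf (nat_lit 0) (nat_lit 2600058144) (nat_lit 76) (nat_lit 18399594009)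 (nat_lit 76) (nat_lit 15912679446) (nat_lit 26) (nat_lit 4) (nat_lit 27) (nat_lit 5) (nat_lit 27) (nat_lit 4) (nat_lit 539) (nat_lit 346) (nat_lit 315)))) (XT.nd (nat_lit 156) (nat_lit 76) (nat_lit 0) (XT.nd (nat_lit 78) (nat_lit 152) (nat_lit 0) (XT.lf (nat_lit 0) (nat_lit 25095578082) (nat_lit 76) (nat_lit 7562366148) (nat_lit 76) (nat_lit 5027164568) (nat_lit 26) (nat_lit 4) (nat_lit 27) (nat_lit 5) (nat_lit 27) (nat_lit 4) (nat_lit 540) (nat_lit 346) (nat_lit 314)) (XT.lf (nat_lit 0) (nat_lit 6046818005) (nat_lit 152) (nat_lit 28893048009) (nat_lit 0) (nat_lit 3539942103) (nat_lit 24) (nat_lit 5) (nat_lit 26) (nat_lit 4) (nat_lit 24) (nat_lit 4) (nat_lit 541) (nat_lit 346) (nat_lit 313))) (XT.nd (nat_lit 78) (nat_lit 76) (nat_lit 0) (XT.lf (nat_lit 0) (nat_lit 17410685808) (nat_lit 152) (nat_lit 7024787902) (nat_lit 0) (nat_lit 14859620446) (nat_lit 24) (nat_lit 5) (nat_lit 26) (nat_lit 4) (nat_lit 24) (nat_lit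 4) (nat_lit 542) (nat_lit 346) (nat_lit 312)) (XT.lf (nat_lit 0) (nat_lit 15520082879) (nat_lit 76) (nat_lit 13604229266) (nat_lit 76) (nat_lit 11010261514) (nat_lit 23) (nat_lit 4) (nat_lit 24) (nat_lit 5) (nat_lit 24) (nat_lit 4) (nat_lit 543) (nat_lit 346) (nat_lit 311))))))))
noncomputable def xc9 : XT := (XT.nd (nat_lit 61074) (nat_lit 0) (nat_lit 0) (XT.nd (nat_lit 59826) (nat_lit 0) (nat_lit 1976) (XT.nd (nat_lit 546) (nat_lit 152) (nat_lit 0) (XT.nd (nat_lit 234) (nat_lit 228) (nat_lit 0) (XT.nd (nat_lit 78) (nat_lit 152) (nat_lit 0) (XT.lf (nat_lit 0) (nat_lit 117717857) (nat_lit 152) (nat_lit 2396653305) (nat_lit 76) (nat_lit 38486872173) (nat_lit 22) (nat_lit 5) (nat_lit 24) (nat_lit 5) (nat_lit 23) (nat_lit 4) (nat_lit 544) (nat_lit 346) (nat_lit 310)) (XT.nd (nat_lit 78) (nat_lit 76) (nat_lit 0) (XT.lf (nat_lit 0) (nat_lit 11506447852) (nat_lit 152) (nat_lit 21471417642) (nat_lit 0) (nat_lit 8908331180)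 (nat_lit 21) (nat_lit 5) (nat_lit 23) (nat_lit 4) (nat_lit 21) (nat_lit 4) (nat_lit 545) (nat_lit 346) (nat_lit 309)) (XT.lf (nat_lit 0) (nat_lit 880621389) (nat_lit 76) (nat_lit 22277831923) (nat_lit 76) (nat_lit 19641597033) (nat_lit 20) (nat_lit 4) (nat_lit 21) (nat_lit 5) (nat_lit 21) (nat_lit 4) (nat_lit 546) (nat_lit 346) (nat_lit 308)))) (XT.nd (nat_lit 156) (nat_lit 76) (nat_lit 0) (XT.nd (nat_lit 78) (nat_lit 152) (nat_lit 0) (XT.lf (nat_lit 0) (nat_lit 24071913104) (nat_lit 76) (nat_lit 11170094927) (nat_lit 76) (nat_lit 8496852060) (nat_lit 20) (nat_lit 4) (nat_lit 21) (nat_lit 5) (nat_lit 21) (nat_lit 4) (nat_lit 547) (nat_lit 346) (nat_lit 307)) (XT.lf (nat_lit 0) (nat_lit 2822731414) (nat_lit 152) (nat_lit 41692815697) (nat_lit 0) (nat_lit 192466422) (nat_lit 18) (nat_lit 5) (nat_lit 20) (nat_lit 4) (nat_lit 18) (nat_lit 4) (nat_lit 548) (nat_lit 346) (nat_lit 306))) (XT.nd (nat_lit 78) (nat_lit 76)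 (nat_lit 0) (XT.lf (nat_lit 0) (nat_lit 14490125218) (nat_lit 152) (nat_lit 19382229952) (nat_lit 0) (nat_lit 11825992683) (nat_lit 18) (nat_lit 5) (nat_lit 20) (nat_lit 4) (nat_lit 18) (nat_lit 4) (nat_lit 549) (nat_lit 346) (nat_lit 305)) (XT.lf (nat_lit 0) (nat_lit 3405666222) (nat_lit 76) (nat_lit 23006303439) (nat_lit 76) (nat_lit 20309289796) (nat_lit 17) (nat_lit 4) (nat_lit 18) (nat_lit 5) (nat_lit 18) (nat_lit 4) (nat_lit 550) (nat_lit 346) (nat_lit 304))))) (XT.nd (nat_lit 58968) (nat_lit 0) (nat_lit 3420) (XT.nd (nat_lit 156) (nat_lit 0) (nat_lit 0) (XT.nd (nat_lit 78) (nat_lit 152) (nat_lit 0) (XT.lf (nat_lit 0) (nat_lit 27018585997) (nat_lit 76) (nat_lit 11741574425) (nat_lit 76) (nat_lit 9012637375) (nat_lit 17) (nat_lit 4) (nat_lit 18) (nat_lit 5) (nat_lit 18) (nat_lit 4) (nat_lit 551) (nat_lit 346) (nat_lit 303)) (XT.lf (nat_lit 0) (nat_lit 2251783746) (nat_lit 76) (nat_lit 217041078) (nat_lit 152)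 (nat_lit 46389388400) (nat_lit 15) (nat_lit 5) (nat_lit 16) (nat_lit 5) (nat_lit 17) (nat_lit 4) (nat_lit 552) (nat_lit 346) (nat_lit 302))) (XT.nd (nat_lit 78) (nat_lit 0) (nat_lit 0) (XT.lf (nat_lit 0) (nat_lit 14312738582) (nat_lit 152) (nat_lit 24050821211) (nat_lit 0) (nat_lit 11603979824) (nat_lit 15) (nat_lit 5) (nat_lit 17) (nat_lit 4) (nat_lit 15) (nat_lit 4) (nat_lit 553) (nat_lit 346) (nat_lit 301)) (XT.lf (nat_lit 0) (nat_lit 26393228339) (nat_lit 152) (nat_lit 1064373761) (nat_lit 0) (nat_lit 23656106048) (nat_lit 15) (nat_lit 5) (nat_lit 17) (nat_lit 4) (nat_lit 15) (nat_lit 4) (nat_lit 554) (nat_lit 346) (nat_lit 300)))) (XT.nd (nat_lit 156) (nat_lit 152) (nat_lit 0) (XT.nd (nat_lit 78) (nat_lit 76) (nat_lit 0) (XT.lf (nat_lit 0) (nat_lit 1100649395) (nat_lit 152) (nat_lit 7914258681) (nat_lit 0) (nat_lit 1100649395) (nat_lit 63) (nat_lit 5) (nat_lit 65) (nat_lit 4) (nat_lit 63) (nat_lit 4) (nat_lit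 506) (nat_lit 347) (nat_lit 347)) (XT.lf (nat_lit 0) (nat_lit 2121967534) (nat_lit 76) (nat_lit 9306509721) (nat_lit 76) (nat_lit 9129226243) (nat_lit 62) (nat_lit 4) (nat_lit 63) (nat_lit 5) (nat_lit 63) (nat_lit 4) (nat_lit 507) (nat_lit 347) (nat_lit 346))) (XT.nd (nat_lit 78) (nat_lit 76) (nat_lit 0) (XT.lf (nat_lit 0) (nat_lit 13602272) (nat_lit 152) (nat_lit 321790745) (nat_lit 76) (nat_lit 20559407142) (nat_lit 61) (nat_lit 5) (nat_lit 63) (nat_lit 5) (nat_lit 62) (nat_lit 4) (nat_lit 508) (nat_lit 347) (nat_lit 345)) (XT.lf (nat_lit 0) (nat_lit 9329115415) (nat_lit 152) (nat_lit 3080077245) (nat_lit 0) (nat_lit 8827649358) (nat_lit 60) (nat_lit 5) (nat_lit 62) (nat_lit 4) (nat_lit 60) (nat_lit 4) (nat_lit 509) (nat_lit 347) (nat_lit 344)))))) (XT.nd (nat_lit 624) (nat_lit 684) (nat_lit 0) (XT.nd (nat_lit 312) (nat_lit 304) (nat_lit 0) (XT.nd (nat_lit 156) (nat_lit 228) (nat_lit 0) (XT.nd (nat_lit 78) (nat_lit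 152) (nat_lit 0) (XT.lf (nat_lit 0) (nat_lit 15551830572) (nat_lit 76) (nat_lit 3348504025) (nat_lit 76) (nat_lit 2689523894) (nat_lit 59) (nat_lit 4) (nat_lit 60) (nat_lit 5) (nat_lit 60) (nat_lit 4) (nat_lit 510) (nat_lit 347) (nat_lit 343)) (XT.lf (nat_lit 0) (nat_lit 6703956476) (nat_lit 152) (nat_lit 9330903445) (nat_lit 0) (nat_lit 5915697820) (nat_lit 57) (nat_lit 5) (nat_lit 59) (nat_lit 4) (nat_lit 57) (nat_lit 4) (nat_lit 511) (nat_lit 347) (nat_lit 342))) (XT.nd (nat_lit 78) (nat_lit 152) (nat_lit 0) (XT.lf (nat_lit 0) (nat_lit 9408005570) (nat_lit 76) (nat_lit 6922756539) (nat_lit 76) (nat_lit 5990350192) (nat_lit 56) (nat_lit 4) (nat_lit 57) (nat_lit 5) (nat_lit 57) (nat_lit 4) (nat_lit 512) (nat_lit 347) (nat_lit 341)) (XT.lf (nat_lit 0) (nat_lit 3470870821) (nat_lit 152) (nat_lit 16801249446) (nat_lit 0) (nat_lit 2429748917) (nat_lit 54) (nat_lit 5) (nat_lit 56) (nat_lit 4) (nat_lit 54) (nat_lit 4)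 (nat_lit 513) (nat_lit 347) (nat_lit 340)))) (XT.nd (nat_lit 156) (nat_lit 228) (nat_lit 0) (XT.nd (nat_lit 78) (nat_lit 0) (nat_lit 0) (XT.lf (nat_lit 0) (nat_lit 2007322627) (nat_lit 76) (nat_lit 11128389631) (nat_lit 76) (nat_lit 9955352170) (nat_lit 53) (nat_lit 4) (nat_lit 54) (nat_lit 5) (nat_lit 54) (nat_lit 4) (nat_lit 514) (nat_lit 347) (nat_lit 339)) (XT.lf (nat_lit 0) (nat_lit 21372020470) (nat_lit 76) (nat_lit 1710630886) (nat_lit 76) (nat_lit 409520069) (nat_lit 53) (nat_lit 4) (nat_lit 54) (nat_lit 5) (nat_lit 54) (nat_lit 4) (nat_lit 515) (nat_lit 347) (nat_lit 338))) (XT.nd (nat_lit 78) (nat_lit 76) (nat_lit 0) (XT.lf (nat_lit 0) (nat_lit 9308899970) (nat_lit 152) (nat_lit 6666628137) (nat_lit 0) (nat_lit 7924964163) (nat_lit 51) (nat_lit 5) (nat_lit 53) (nat_lit 4) (nat_lit 51) (nat_lit 4) (nat_lit 516) (nat_lit 347) (nat_lit 337)) (XT.lf (nat_lit 0) (nat_lit 12773717386) (nat_lit 76) (nat_lit 6524370908)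 (nat_lit 76) (nat_lit 5023229838) (nat_lit 50) (nat_lit 4) (nat_lit 51) (nat_lit 5) (nat_lit 51) (nat_lit 4) (nat_lit 517) (nat_lit 347) (nat_lit 336))))) (XT.nd (nat_lit 312) (nat_lit 304) (nat_lit 0) (XT.nd (nat_lit 156) (nat_lit 152) (nat_lit 0) (XT.nd (nat_lit 78) (nat_lit 76) (nat_lit 0) (XT.lf (nat_lit 0) (nat_lit 4739492543) (nat_lit 152) (nat_lit 16842238236) (nat_lit 0) (nat_lit 3171596827) (nat_lit 48) (nat_lit 5) (nat_lit 50) (nat_lit 4) (nat_lit 48) (nat_lit 4) (nat_lit 518) (nat_lit 347) (nat_lit 335)) (XT.lf (nat_lit 0) (nat_lit 2584316452) (nat_lit 76) (nat_lit 12143319674) (nat_lit 76) (nat_lit 10468164538) (nat_lit 47) (nat_lit 4) (nat_lit 48) (nat_lit 5) (nat_lit 48) (nat_lit 4) (nat_lit 519) (nat_lit 347) (nat_lit 334))) (XT.nd (nat_lit 78) (nat_lit 152) (nat_lit 0) (XT.lf (nat_lit 0) (nat_lit 22596228890) (nat_lit 76) (nat_lit 2417332885) (nat_lit 76) (nat_lit 638042390) (nat_lit 47) (nat_lit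 4) (nat_lit 48) (nat_lit 5) (nat_lit 48) (nat_lit 4) (nat_lit 520) (nat_lit 347) (nat_lit 333)) (XT.lf (nat_lit 0) (nat_lit 9370582180) (nat_lit 152) (nat_lit 9200744271) (nat_lit 0) (nat_lit 7544958117) (nat_lit 45) (nat_lit 5) (nat_lit 47) (nat_lit 4) (nat_lit 45) (nat_lit 4) (nat_lit 521) (nat_lit 347) (nat_lit 332)))) (XT.nd (nat_lit 156) (nat_lit 76) (nat_lit 0) (XT.nd (nat_lit 78) (nat_lit 152) (nat_lit 0) (XT.lf (nat_lit 0) (nat_lit 10798211527) (nat_lit 76) (nat_lit 8858857269) (nat_lit 76) (nat_lit 6937934601) (nat_lit 44) (nat_lit 4) (nat_lit 45) (nat_lit 5) (nat_lit 45) (nat_lit 4) (nat_lit 522) (nat_lit 347) (nat_lit 331)) (XT.lf (nat_lit 0) (nat_lit 3079287015) (nat_lit 152) (nat_lit 22884090286) (nat_lit 0) (nat_lit 1124485476) (nat_lit 42) (nat_lit 5) (nat_lit 44) (nat_lit 4) (nat_lit 42) (nat_lit 4) (nat_lit 523) (nat_lit 347) (nat_lit 330))) (XT.nd (nat_lit 78) (nat_lit 76) (nat_lit 0) (XT.lf (nat_lit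 0) (nat_lit 13338084869) (nat_lit 152) (nat_lit 2956875855) (nat_lit 0) (nat_lit 11296071607) (nat_lit 42) (nat_lit 5) (nat_lit 44) (nat_lit 4) (nat_lit 42) (nat_lit 4) (nat_lit 524) (nat_lit 347) (nat_lit 329)) (XT.lf (nat_lit 0) (nat_lit 17584750523) (nat_lit 76) (nat_lit 6325531271) (nat_lit 76) (nat_lit 4198846433) (nat_lit 41) (nat_lit 4) (nat_lit 42) (nat_lit 5) (nat_lit 42) (nat_lit 4) (nat_lit 525) (nat_lit 347) (nat_lit 328))))))) (XT.nd (nat_lit 1248) (nat_lit 684) (nat_lit 0) (XT.nd (nat_lit 624) (nat_lit 608) (nat_lit 0) (XT.nd (nat_lit 312) (nat_lit 304) (nat_lit 0) (XT.nd (nat_lit 156) (nat_lit 152) (nat_lit 0) (XT.nd (nat_lit 78) (nat_lit 76) (nat_lit 0) (XT.lf (nat_lit 0) (nat_lit 6037540810) (nat_lit 152) (nat_lit 18710439623) (nat_lit 0) (nat_lit 3892987167) (nat_lit 39) (nat_lit 5) (nat_lit 41) (nat_lit 4) (nat_lit 39) (nat_lit 4) (nat_lit 526) (nat_lit 347) (nat_lit 327)) (XT.lf (nat_lit 0) (nat_lit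 1629090500) (nat_lit 76) (nat_lit 14889897036) (nat_lit 76) (nat_lit 12667856906) (nat_lit 38) (nat_lit 4) (nat_lit 39) (nat_lit 5) (nat_lit 39) (nat_lit 4) (nat_lit 527) (nat_lit 347) (nat_lit 326))) (XT.nd (nat_lit 78) (nat_lit 152) (nat_lit 0) (XT.lf (nat_lit 0) (nat_lit 22638863754) (nat_lit 76) (nat_lit 4703341998) (nat_lit 76) (nat_lit 2406072269) (nat_lit 38) (nat_lit 4) (nat_lit 39) (nat_lit 5) (nat_lit 39) (nat_lit 4) (nat_lit 528) (nat_lit 347) (nat_lit 325)) (XT.lf (nat_lit 0) (nat_lit 8034929001) (nat_lit 152) (nat_lit 16554692833) (nat_lit 0) (nat_lit 5733658929) (nat_lit 36) (nat_lit 5) (nat_lit 38) (nat_lit 4) (nat_lit 36) (nat_lit 4) (nat_lit 529) (nat_lit 347) (nat_lit 324)))) (XT.nd (nat_lit 156) (nat_lit 228) (nat_lit 0) (XT.nd (nat_lit 78) (nat_lit 0) (nat_lit 0) (XT.lf (nat_lit 0) (nat_lit 4198814474) (nat_lit 76) (nat_lit 14543044377) (nat_lit 76) (nat_lit 12172928566) (nat_lit 35) (nat_lit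 4) (nat_lit 36) (nat_lit 5) (nat_lit 36) (nat_lit 4) (nat_lit 530) (nat_lit 347) (nat_lit 323)) (XT.lf (nat_lit 0) (nat_lit 25600087964) (nat_lit 76) (nat_lit 4180298101) (nat_lit 76) (nat_lit 1743341766) (nat_lit 35) (nat_lit 4) (nat_lit 36) (nat_lit 5) (nat_lit 36) (nat_lit 4) (nat_lit 531) (nat_lit 347) (nat_lit 322))) (XT.nd (nat_lit 78) (nat_lit 76) (nat_lit 0) (XT.lf (nat_lit 0) (nat_lit 8881079863) (nat_lit 152) (nat_lit 16813435856) (nat_lit 0) (nat_lit 6452099234) (nat_lit 33) (nat_lit 5) (nat_lit 35) (nat_lit 4) (nat_lit 33) (nat_lit 4) (nat_lit 532) (nat_lit 347) (nat_lit 321)) (XT.lf (nat_lit 0) (nat_lit 4278812756) (nat_lit 76) (nat_lit 15499664516) (nat_lit 76) (nat_lit 13009515338) (nat_lit 32) (nat_lit 4) (nat_lit 33) (nat_lit 5) (nat_lit 33) (nat_lit 4) (nat_lit 533) (nat_lit 347) (nat_lit 320))))) (XT.nd (nat_lit 312) (nat_lit 380) (nat_lit 0) (XT.nd (nat_lit 156) (nat_lit 76) (nat_lit 0) (XT.nd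 (nat_lit 78) (nat_lit 152) (nat_lit 0) (XT.lf (nat_lit 0) (nat_lit 26043331715) (nat_lit 76) (nat_lit 4977142938) (nat_lit 76) (nat_lit 2427606821) (nat_lit 32) (nat_lit 4) (nat_lit 33) (nat_lit 5) (nat_lit 33) (nat_lit 4) (nat_lit 534) (nat_lit 347) (nat_lit 319)) (XT.lf (nat_lit 0) (nat_lit 8351151134) (nat_lit 152) (nat_lit 19953142338) (nat_lit 0) (nat_lit 5819895464) (nat_lit 30) (nat_lit 5) (nat_lit 32) (nat_lit 4) (nat_lit 30) (nat_lit 4) (nat_lit 535) (nat_lit 347) (nat_lit 318))) (XT.nd (nat_lit 78) (nat_lit 0) (nat_lit 0) (XT.lf (nat_lit 0) (nat_lit 1381164280) (nat_lit 76) (nat_lit 18012313820) (nat_lit 76) (nat_lit 15426710687) (nat_lit 29) (nat_lit 4) (nat_lit 30) (nat_lit 5) (nat_lit 30) (nat_lit 4) (nat_lit 536) (nat_lit 347) (nat_lit 317)) (XT.lf (nat_lit 0) (nat_lit 23468151232) (nat_lit 76) (nat_lit 7352833972) (nat_lit 76) (nat_lit 4714466312) (nat_lit 29) (nat_lit 4) (nat_lit 30) (nat_lit 5)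 (nat_lit 30) (nat_lit 4) (nat_lit 537) (nat_lit 347) (nat_lit 316)))) (XT.nd (nat_lit 156) (nat_lit 228) (nat_lit 0) (XT.nd (nat_lit 78) (nat_lit 0) (nat_lit 0) (XT.lf (nat_lit 0) (nat_lit 6180188861) (nat_lit 152) (nat_lit 26521699327) (nat_lit 0) (nat_lit 3568931234) (nat_lit 27) (nat_lit 5) (nat_lit 29) (nat_lit 4) (nat_lit 27) (nat_lit 4) (nat_lit 538) (nat_lit 347) (nat_lit 315)) (XT.lf (nat_lit 0) (nat_lit 17358151890) (nat_lit 152) (nat_lit 4968552341) (nat_lit 0) (nat_lit 14698607245) (nat_lit 27) (nat_lit 5) (nat_lit 29) (nat_lit 4) (nat_lit 27) (nat_lit 4) (nat_lit 539) (nat_lit 347) (nat_lit 314))) (XT.nd (nat_lit 78) (nat_lit 152) (nat_lit 0) (XT.lf (nat_lit 0) (nat_lit 17286297410) (nat_lit 76) (nat_lit 11610897039) (nat_lit 76) (nat_lit 8904471796) (nat_lit 26) (nat_lit 4) (nat_lit 27) (nat_lit 5) (nat_lit 27) (nat_lit 4) (nat_lit 540) (nat_lit 347) (nat_lit 313)) (XT.lf (nat_lit 0) (nat_lit 1435141438)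 (nat_lit 76) (nat_lit 627460446) (nat_lit 152) (nat_lit 36540358965) (nat_lit 24) (nat_lit 5) (nat_lit 25) (nat_lit 5) (nat_lit 26) (nat_lit 4) (nat_lit 541) (nat_lit 347) (nat_lit 312)))))) (XT.nd (nat_lit 624) (nat_lit 228) (nat_lit 0) (XT.nd (nat_lit 312) (nat_lit 228) (nat_lit 0) (XT.nd (nat_lit 156) (nat_lit 152) (nat_lit 0) (XT.nd (nat_lit 78) (nat_lit 76) (nat_lit 0) (XT.lf (nat_lit 0) (nat_lit 13351302178) (nat_lit 152) (nat_lit 15432586808) (nat_lit 0) (nat_lit 10636613005) (nat_lit 24) (nat_lit 5) (nat_lit 26) (nat_lit 4) (nat_lit 24) (nat_lit 4) (nat_lit 542) (nat_lit 347) (nat_lit 311)) (XT.lf (nat_lit 0) (nat_lit 6807256575) (nat_lit 76) (nat_lit 18106796616) (nat_lit 76) (nat_lit 15350454638) (nat_lit 23) (nat_lit 4) (nat_lit 24) (nat_lit 5) (nat_lit 24) (nat_lit 4) (nat_lit 543) (nat_lit 347) (nat_lit 310))) (XT.nd (nat_lit 78) (nat_lit 152) (nat_lit 0) (XT.lf (nat_lit 0) (nat_lit 29759267287) (nat_lit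 76) (nat_lit 7085360039) (nat_lit 76) (nat_lit 4288578445) (nat_lit 23) (nat_lit 4) (nat_lit 24) (nat_lit 5) (nat_lit 24) (nat_lit 4) (nat_lit 544) (nat_lit 347) (nat_lit 309)) (XT.lf (nat_lit 0) (nat_lit 6983926625) (nat_lit 152) (nat_lit 30810980131) (nat_lit 0) (nat_lit 4230486472) (nat_lit 21) (nat_lit 5) (nat_lit 23) (nat_lit 4) (nat_lit 21) (nat_lit 4) (nat_lit 545) (nat_lit 347) (nat_lit 308)))) (XT.nd (nat_lit 156) (nat_lit 152) (nat_lit 0) (XT.nd (nat_lit 78) (nat_lit 76) (nat_lit 0) (XT.lf (nat_lit 0) (nat_lit 18562333632) (nat_lit 152) (nat_lit 8607235787) (nat_lit 0) (nat_lit 15771885501) (nat_lit 21) (nat_lit 5) (nat_lit 23) (nat_lit 4) (nat_lit 21) (nat_lit 4) (nat_lit 546) (nat_lit 347) (nat_lit 307)) (XT.lf (nat_lit 0) (nat_lit 14282929862) (nat_lit 76) (nat_lit 16214089570) (nat_lit 76) (nat_lit 13387711364) (nat_lit 20) (nat_lit 4) (nat_lit 21) (nat_lit 5) (nat_lit 21) (nat_lit 4) (nat_lit 547)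 (nat_lit 347) (nat_lit 306))) (XT.nd (nat_lit 78) (nat_lit 152) (nat_lit 0) (XT.lf (nat_lit 0) (nat_lit 37780371304) (nat_lit 76) (nat_lit 4969200386) (nat_lit 76) (nat_lit 2107938611) (nat_lit 20) (nat_lit 4) (nat_lit 21) (nat_lit 5) (nat_lit 21) (nat_lit 4) (nat_lit 548) (nat_lit 347) (nat_lit 305)) (XT.lf (nat_lit 0) (nat_lit 9419544821) (nat_lit 152) (nat_lit 29825599399) (nat_lit 0) (nat_lit 6608739659) (nat_lit 18) (nat_lit 5) (nat_lit 20) (nat_lit 4) (nat_lit 18) (nat_lit 4) (nat_lit 549) (nat_lit 347) (nat_lit 304))))) (XT.nd (nat_lit 312) (nat_lit 0) (nat_lit 0) (XT.nd (nat_lit 156) (nat_lit 152) (nat_lit 0) (XT.nd (nat_lit 78) (nat_lit 76) (nat_lit 0) (XT.lf (nat_lit 0) (nat_lit 21247286706) (nat_lit 152) (nat_lit 7227773773) (nat_lit 0) (nat_lit 18404558138) (nat_lit 18) (nat_lit 5) (nat_lit 20) (nat_lit 4) (nat_lit 18) (nat_lit 4) (nat_lit 550) (nat_lit 347) (nat_lit 303)) (XT.lf (nat_lit 0) (nat_lit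 16118897295) (nat_lit 76) (nat_lit 17344965168) (nat_lit 76) (nat_lit 14471243001) (nat_lit 17) (nat_lit 4) (nat_lit 18) (nat_lit 5) (nat_lit 18) (nat_lit 4) (nat_lit 551) (nat_lit 347) (nat_lit 302))) (XT.nd (nat_lit 78) (nat_lit 152) (nat_lit 0) (XT.lf (nat_lit 0) (nat_lit 40072892204) (nat_lit 76) (nat_lit 5927290227) (nat_lit 76) (nat_lit 3023477188) (nat_lit 17) (nat_lit 4) (nat_lit 18) (nat_lit 5) (nat_lit 18) (nat_lit 4) (nat_lit 552) (nat_lit 347) (nat_lit 301)) (XT.lf (nat_lit 0) (nat_lit 8676371742) (nat_lit 152) (nat_lit 35634805889) (nat_lit 0) (nat_lit 5828772249) (nat_lit 15) (nat_lit 5) (nat_lit 17) (nat_lit 4) (nat_lit 15) (nat_lit 4) (nat_lit 553) (nat_lit 347) (nat_lit 300)))) (XT.nd (nat_lit 58656) (nat_lit 0) (nat_lit 3648) (XT.nd (nat_lit 58578) (nat_lit 0) (nat_lit 3876) (XT.lf (nat_lit 0) (nat_lit 20699044132) (nat_lit 152) (nat_lit 12764901622) (nat_lit 0) (nat_lit 17823907227) (nat_lit 15)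 (nat_lit 5) (nat_lit 17) (nat_lit 4) (nat_lit 15) (nat_lit 4) (nat_lit 554) (nat_lit 347) (nat_lit 299)) (XT.lf (nat_lit 0) (nat_lit 2092295009) (nat_lit 152) (nat_lit 5613880924) (nat_lit 0) (nat_lit 2092295009) (nat_lit 66) (nat_lit 5) (nat_lit 68) (nat_lit 4) (nat_lit 66) (nat_lit 4) (nat_lit 504) (nat_lit 348) (nat_lit 348))) (XT.nd (nat_lit 78) (nat_lit 152) (nat_lit 0) (XT.lf (nat_lit 0) (nat_lit 6392440815) (nat_lit 76) (nat_lit 6853287519) (nat_lit 76) (nat_lit 6665207478) (nat_lit 65) (nat_lit 4) (nat_lit 66) (nat_lit 5) (nat_lit 66) (nat_lit 4) (nat_lit 505) (nat_lit 348) (nat_lit 347)) (XT.lf (nat_lit 0) (nat_lit 2292495440) (nat_lit 152) (nat_lit 16008752001) (nat_lit 0) (nat_lit 1932609981) (nat_lit 63) (nat_lit 5) (nat_lit 65) (nat_lit 4) (nat_lit 63) (nat_lit 4) (nat_lit 506) (nat_lit 348) (nat_lit 346))))))))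
noncomputable def xc10 : XT := (XT.nd (nat_lit 2418) (nat_lit 1064) (nat_lit 0) (XT.nd (nat_lit 1170) (nat_lit 1216) (nat_lit 0) (XT.nd (nat_lit 546) (nat_lit 684) (nat_lit 0) (XT.nd (nat_lit 234) (nat_lit 456) (nat_lit 0) (XT.nd (nat_lit 78) (nat_lit 152) (nat_lit 0) (XT.lf (nat_lit 0) (nat_lit 1759678239) (nat_lit 76) (nat_lit 9667770079) (nat_lit 76) (nat_lit 9135764739) (nat_lit 62) (nat_lit 4) (nat_lit 63) (nat_lit 5) (nat_lit 63) (nat_lit 4) (nat_lit 507) (nat_lit 348) (nat_lit 345)) (XT.nd (nat_lit 78) (nat_lit 152) (nat_lit 0) (XT.lf (nat_lit 0) (nat_lit 20037587930) (nat_lit 76) (nat_lit 782236414) (nat_lit 76) (nat_lit 83124393) (nat_lit 62) (nat_lit 4) (nat_lit 63) (nat_lit 5) (nat_lit 63) (nat_lit 4) (nat_lit 508) (nat_lit 348) (nat_lit 344)) (XT.lf (nat_lit 0) (nat_lit 9135734865) (nat_lit 152) (nat_lit 3812757007) (nat_lit 0) (nat_lit 8299471257) (nat_lit 60) (nat_lit 5) (nat_lit 62) (nat_lit 4) (nat_lit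 60) (nat_lit 4) (nat_lit 509) (nat_lit 348) (nat_lit 343)))) (XT.nd (nat_lit 156) (nat_lit 228) (nat_lit 0) (XT.nd (nat_lit 78) (nat_lit 152) (nat_lit 0) (XT.lf (nat_lit 0) (nat_lit 14631155731) (nat_lit 76) (nat_lit 3980930044) (nat_lit 76) (nat_lit 2991740151) (nat_lit 59) (nat_lit 4) (nat_lit 60) (nat_lit 5) (nat_lit 60) (nat_lit 4) (nat_lit 510) (nat_lit 348) (nat_lit 342)) (XT.lf (nat_lit 0) (nat_lit 6303837737) (nat_lit 152) (nat_lit 10464577337) (nat_lit 0) (nat_lit 5199311510) (nat_lit 57) (nat_lit 5) (nat_lit 59) (nat_lit 4) (nat_lit 57) (nat_lit 4) (nat_lit 511) (nat_lit 348) (nat_lit 341))) (XT.nd (nat_lit 78) (nat_lit 152) (nat_lit 0) (XT.lf (nat_lit 0) (nat_lit 8078224461) (nat_lit 76) (nat_lit 7753746278) (nat_lit 76) (nat_lit 6509270836) (nat_lit 56) (nat_lit 4) (nat_lit 57) (nat_lit 5) (nat_lit 57) (nat_lit 4) (nat_lit 512) (nat_lit 348) (nat_lit 340)) (XT.lf (nat_lit 0) (nat_lit 2852376956) (nat_lit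 152) (nat_lit 18360829546) (nat_lit 0) (nat_lit 1512232815) (nat_lit 54) (nat_lit 5) (nat_lit 56) (nat_lit 4) (nat_lit 54) (nat_lit 4) (nat_lit 513) (nat_lit 348) (nat_lit 339))))) (XT.nd (nat_lit 312) (nat_lit 380) (nat_lit 0) (XT.nd (nat_lit 156) (nat_lit 228) (nat_lit 0) (XT.nd (nat_lit 78) (nat_lit 0) (nat_lit 0) (XT.lf (nat_lit 0) (nat_lit 243038537) (nat_lit 76) (nat_lit 12171447857) (nat_lit 76) (nat_lit 10703230360) (nat_lit 53) (nat_lit 4) (nat_lit 54) (nat_lit 5) (nat_lit 54) (nat_lit 4) (nat_lit 514) (nat_lit 348) (nat_lit 338)) (XT.lf (nat_lit 0) (nat_lit 19439129305) (nat_lit 76) (nat_lit 2837401043) (nat_lit 76) (nat_lit 1244840482) (nat_lit 53) (nat_lit 4) (nat_lit 54) (nat_lit 5) (nat_lit 54) (nat_lit 4) (nat_lit 515) (nat_lit 348) (nat_lit 337))) (XT.nd (nat_lit 78) (nat_lit 76) (nat_lit 0) (XT.lf (nat_lit 0) (nat_lit 8373956585) (nat_lit 152) (nat_lit 8848877863) (nat_lit 0) (nat_lit 6710576019)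 (nat_lit 51) (nat_lit 5) (nat_lit 53) (nat_lit 4) (nat_lit 51) (nat_lit 4) (nat_lit 516) (nat_lit 348) (nat_lit 336)) (XT.lf (nat_lit 0) (nat_lit 10379322558) (nat_lit 76) (nat_lit 7877635827) (nat_lit 76) (nat_lit 6100463743) (nat_lit 50) (nat_lit 4) (nat_lit 51) (nat_lit 5) (nat_lit 51) (nat_lit 4) (nat_lit 517) (nat_lit 348) (nat_lit 335)))) (XT.nd (nat_lit 156) (nat_lit 228) (nat_lit 0) (XT.nd (nat_lit 78) (nat_lit 0) (nat_lit 0) (XT.lf (nat_lit 0) (nat_lit 3560639627) (nat_lit 152) (nat_lit 19504811595) (nat_lit 0) (nat_lit 1727970417) (nat_lit 48) (nat_lit 5) (nat_lit 50) (nat_lit 4) (nat_lit 48) (nat_lit 4) (nat_lit 518) (nat_lit 348) (nat_lit 334)) (XT.lf (nat_lit 0) (nat_lit 13440866453) (nat_lit 152) (nat_lit 294204052) (nat_lit 0) (nat_lit 11504061885) (nat_lit 48) (nat_lit 5) (nat_lit 50) (nat_lit 4) (nat_lit 48) (nat_lit 4) (nat_lit 519) (nat_lit 348) (nat_lit 333))) (XT.nd (nat_lit 78) (nat_lit 152)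 (nat_lit 0) (XT.lf (nat_lit 0) (nat_lit 19547958047) (nat_lit 76) (nat_lit 4093719165) (nat_lit 76) (nat_lit 2055812306) (nat_lit 47) (nat_lit 4) (nat_lit 48) (nat_lit 5) (nat_lit 48) (nat_lit 4) (nat_lit 520) (nat_lit 348) (nat_lit 332)) (XT.lf (nat_lit 0) (nat_lit 7850740986) (nat_lit 152) (nat_lit 12538838042) (nat_lit 0) (nat_lit 5776892033) (nat_lit 45) (nat_lit 5) (nat_lit 47) (nat_lit 4) (nat_lit 45) (nat_lit 4) (nat_lit 521) (nat_lit 348) (nat_lit 331)))))) (XT.nd (nat_lit 624) (nat_lit 532) (nat_lit 0) (XT.nd (nat_lit 312) (nat_lit 380) (nat_lit 0) (XT.nd (nat_lit 156) (nat_lit 76) (nat_lit 0) (XT.nd (nat_lit 78) (nat_lit 152) (nat_lit 0) (XT.lf (nat_lit 0) (nat_lit 7229701063) (nat_lit 76) (nat_lit 10792653527) (nat_lit 76) (nat_lit 8626281657) (nat_lit 44) (nat_lit 4) (nat_lit 45) (nat_lit 5) (nat_lit 45) (nat_lit 4) (nat_lit 522) (nat_lit 348) (nat_lit 330)) (XT.lf (nat_lit 0) (nat_lit 373439488) (nat_lit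 76) (nat_lit 921949395) (nat_lit 152) (nat_lit 25850448690) (nat_lit 42) (nat_lit 5) (nat_lit 43) (nat_lit 5) (nat_lit 44) (nat_lit 4) (nat_lit 523) (nat_lit 348) (nat_lit 329))) (XT.nd (nat_lit 78) (nat_lit 76) (nat_lit 0) (XT.lf (nat_lit 0) (nat_lit 11464831665) (nat_lit 152) (nat_lit 6997181561) (nat_lit 0) (nat_lit 9189674705) (nat_lit 42) (nat_lit 5) (nat_lit 44) (nat_lit 4) (nat_lit 42) (nat_lit 4) (nat_lit 524) (nat_lit 348) (nat_lit 328)) (XT.lf (nat_lit 0) (nat_lit 13304751624) (nat_lit 76) (nat_lit 8612986716) (nat_lit 76) (nat_lit 6255624342) (nat_lit 41) (nat_lit 4) (nat_lit 42) (nat_lit 5) (nat_lit 42) (nat_lit 4) (nat_lit 525) (nat_lit 348) (nat_lit 327)))) (XT.nd (nat_lit 156) (nat_lit 228) (nat_lit 0) (XT.nd (nat_lit 78) (nat_lit 0) (nat_lit 0) (XT.lf (nat_lit 0) (nat_lit 3875475675) (nat_lit 152) (nat_lit 23325394467) (nat_lit 0) (nat_lit 1509287855) (nat_lit 39) (nat_lit 5) (nat_lit 41) (nat_lit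 4) (nat_lit 39) (nat_lit 4) (nat_lit 526) (nat_lit 348) (nat_lit 326)) (XT.lf (nat_lit 0) (nat_lit 14263183229) (nat_lit 152) (nat_lit 3173898110) (nat_lit 0) (nat_lit 11821765810) (nat_lit 39) (nat_lit 5) (nat_lit 41) (nat_lit 4) (nat_lit 39) (nat_lit 4) (nat_lit 527) (nat_lit 348) (nat_lit 325))) (XT.nd (nat_lit 78) (nat_lit 152) (nat_lit 0) (XT.lf (nat_lit 0) (nat_lit 17617995812) (nat_lit 76) (nat_lit 7359996592) (nat_lit 76) (nat_lit 4845540728) (nat_lit 38) (nat_lit 4) (nat_lit 39) (nat_lit 5) (nat_lit 39) (nat_lit 4) (nat_lit 528) (nat_lit 348) (nat_lit 324)) (XT.lf (nat_lit 0) (nat_lit 5489053024) (nat_lit 152) (nat_lit 21935818775) (nat_lit 0) (nat_lit 2978987998) (nat_lit 36) (nat_lit 5) (nat_lit 38) (nat_lit 4) (nat_lit 36) (nat_lit 4) (nat_lit 529) (nat_lit 348) (nat_lit 323))))) (XT.nd (nat_lit 312) (nat_lit 304) (nat_lit 0) (XT.nd (nat_lit 156) (nat_lit 152) (nat_lit 0) (XT.nd (nat_lit 78) (nat_lit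 76) (nat_lit 0) (XT.lf (nat_lit 0) (nat_lit 16079877339) (nat_lit 152) (nat_lit 1416000611) (nat_lit 0) (nat_lit 13502971789) (nat_lit 36) (nat_lit 5) (nat_lit 38) (nat_lit 4) (nat_lit 36) (nat_lit 4) (nat_lit 530) (nat_lit 348) (nat_lit 322)) (XT.lf (nat_lit 0) (nat_lit 19806824337) (nat_lit 76) (nat_lit 7222715568) (nat_lit 76) (nat_lit 4580916305) (nat_lit 35) (nat_lit 4) (nat_lit 36) (nat_lit 5) (nat_lit 36) (nat_lit 4) (nat_lit 531) (nat_lit 348) (nat_lit 321))) (XT.nd (nat_lit 78) (nat_lit 0) (nat_lit 0) (XT.lf (nat_lit 0) (nat_lit 5935725383) (nat_lit 152) (nat_lit 22993627709) (nat_lit 0) (nat_lit 3309703182) (nat_lit 33) (nat_lit 5) (nat_lit 35) (nat_lit 4) (nat_lit 33) (nat_lit 4) (nat_lit 532) (nat_lit 348) (nat_lit 320)) (XT.lf (nat_lit 0) (nat_lit 16718508809) (nat_lit 152) (nat_lit 2132263982) (nat_lit 0) (nat_lit 14033099668) (nat_lit 33) (nat_lit 5) (nat_lit 35) (nat_lit 4) (nat_lit 33) (nat_lit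 4) (nat_lit 533) (nat_lit 348) (nat_lit 319)))) (XT.nd (nat_lit 156) (nat_lit 76) (nat_lit 0) (XT.nd (nat_lit 78) (nat_lit 152) (nat_lit 0) (XT.lf (nat_lit 0) (nat_lit 19443873902) (nat_lit 76) (nat_lit 8422981703) (nat_lit 76) (nat_lit 5679915338) (nat_lit 32) (nat_lit 4) (nat_lit 33) (nat_lit 5) (nat_lit 33) (nat_lit 4) (nat_lit 534) (nat_lit 348) (nat_lit 318)) (XT.lf (nat_lit 0) (nat_lit 4989431445) (nat_lit 152) (nat_lit 26967658462) (nat_lit 0) (nat_lit 2271912755) (nat_lit 30) (nat_lit 5) (nat_lit 32) (nat_lit 4) (nat_lit 30) (nat_lit 4) (nat_lit 535) (nat_lit 348) (nat_lit 317))) (XT.nd (nat_lit 78) (nat_lit 76) (nat_lit 0) (XT.lf (nat_lit 0) (nat_lit 15947187033) (nat_lit 152) (nat_lit 5803448899) (nat_lit 0) (nat_lit 13176903816) (nat_lit 30) (nat_lit 5) (nat_lit 32) (nat_lit 4) (nat_lit 30) (nat_lit 4) (nat_lit 536) (nat_lit 348) (nat_lit 316)) (XT.lf (nat_lit 0) (nat_lit 16026295861) (nat_lit 76) (nat_lit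 11220920971) (nat_lit 76) (nat_lit 8399410058) (nat_lit 29) (nat_lit 4) (nat_lit 30) (nat_lit 5) (nat_lit 30) (nat_lit 4) (nat_lit 537) (nat_lit 348) (nat_lit 315))))))) (XT.nd (nat_lit 1248) (nat_lit 0) (nat_lit 0) (XT.nd (nat_lit 624) (nat_lit 456) (nat_lit 0) (XT.nd (nat_lit 312) (nat_lit 380) (nat_lit 0) (XT.nd (nat_lit 156) (nat_lit 76) (nat_lit 0) (XT.nd (nat_lit 78) (nat_lit 0) (nat_lit 0) (XT.lf (nat_lit 0) (nat_lit 1976178001) (nat_lit 76) (nat_lit 411715861) (nat_lit 152) (nat_lit 34000541412) (nat_lit 27) (nat_lit 5) (nat_lit 28) (nat_lit 5) (nat_lit 29) (nat_lit 4) (nat_lit 538) (nat_lit 348) (nat_lit 314)) (XT.lf (nat_lit 0) (nat_lit 13492723943) (nat_lit 152) (nat_lit 12994172115) (nat_lit 0) (nat_lit 10658225344) (nat_lit 27) (nat_lit 5) (nat_lit 29) (nat_lit 4) (nat_lit 27) (nat_lit 4) (nat_lit 539) (nat_lit 348) (nat_lit 313))) (XT.nd (nat_lit 78) (nat_lit 0) (nat_lit 0) (XT.lf (nat_lit 0) (nat_lit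 8963295512) (nat_lit 76) (nat_lit 15921304736) (nat_lit 76) (nat_lit 13041290992) (nat_lit 26) (nat_lit 4) (nat_lit 27) (nat_lit 5) (nat_lit 27) (nat_lit 4) (nat_lit 540) (nat_lit 348) (nat_lit 312)) (XT.lf (nat_lit 0) (nat_lit 31574551261) (nat_lit 76) (nat_lit 5039924496) (nat_lit 76) (nat_lit 2115721292) (nat_lit 26) (nat_lit 4) (nat_lit 27) (nat_lit 5) (nat_lit 27) (nat_lit 4) (nat_lit 541) (nat_lit 348) (nat_lit 311)))) (XT.nd (nat_lit 156) (nat_lit 228) (nat_lit 0) (XT.nd (nat_lit 78) (nat_lit 0) (nat_lit 0) (XT.lf (nat_lit 0) (nat_lit 9033878755) (nat_lit 152) (nat_lit 24366687494) (nat_lit 0) (nat_lit 6153193713) (nat_lit 24) (nat_lit 5) (nat_lit 26) (nat_lit 4) (nat_lit 24) (nat_lit 4) (nat_lit 542) (nat_lit 348) (nat_lit 310)) (XT.lf (nat_lit 0) (nat_lit 20466026965) (nat_lit 152) (nat_lit 2390754684) (nat_lit 0) (nat_lit 17544902307) (nat_lit 24) (nat_lit 5) (nat_lit 26) (nat_lit 4) (nat_lit 24) (nat_lit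 4) (nat_lit 543) (nat_lit 348) (nat_lit 309))) (XT.nd (nat_lit 78) (nat_lit 152) (nat_lit 0) (XT.lf (nat_lit 0) (nat_lit 20383883905) (nat_lit 76) (nat_lit 11924761578) (nat_lit 76) (nat_lit 8964375156) (nat_lit 23) (nat_lit 4) (nat_lit 24) (nat_lit 5) (nat_lit 24) (nat_lit 4) (nat_lit 544) (nat_lit 348) (nat_lit 308)) (XT.lf (nat_lit 0) (nat_lit 1468601475) (nat_lit 76) (nat_lit 731943408) (nat_lit 152) (nat_lit 39971976478) (nat_lit 21) (nat_lit 5) (nat_lit 22) (nat_lit 5) (nat_lit 23) (nat_lit 4) (nat_lit 545) (nat_lit 348) (nat_lit 307))))) (XT.nd (nat_lit 312) (nat_lit 228) (nat_lit 0) (XT.nd (nat_lit 156) (nat_lit 152) (nat_lit 0) (XT.nd (nat_lit 78) (nat_lit 76) (nat_lit 0) (XT.lf (nat_lit 0) (nat_lit 13708679709) (nat_lit 152) (nat_lit 18620431492) (nat_lit 0) (nat_lit 10761580082) (nat_lit 21) (nat_lit 5) (nat_lit 23) (nat_lit 4) (nat_lit 21) (nat_lit 4) (nat_lit 546) (nat_lit 348) (nat_lit 306)) (XT.lf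 (nat_lit 0) (nat_lit 3944408050) (nat_lit 76) (nat_lit 21538182804) (nat_lit 76) (nat_lit 18556199608) (nat_lit 20) (nat_lit 4) (nat_lit 21) (nat_lit 5) (nat_lit 21) (nat_lit 4) (nat_lit 547) (nat_lit 348) (nat_lit 305))) (XT.nd (nat_lit 78) (nat_lit 152) (nat_lit 0) (XT.lf (nat_lit 0) (nat_lit 27319476795) (nat_lit 76) (nat_lit 10354883725) (nat_lit 76) (nat_lit 7339032987) (nat_lit 20) (nat_lit 4) (nat_lit 21) (nat_lit 5) (nat_lit 21) (nat_lit 4) (nat_lit 548) (nat_lit 348) (nat_lit 304)) (XT.lf (nat_lit 0) (nat_lit 4072275633) (nat_lit 152) (nat_lit 40833205811) (nat_lit 0) (nat_lit 1112341801) (nat_lit 18) (nat_lit 5) (nat_lit 20) (nat_lit 4) (nat_lit 18) (nat_lit 4) (nat_lit 549) (nat_lit 348) (nat_lit 303)))) (XT.nd (nat_lit 156) (nat_lit 152) (nat_lit 0) (XT.nd (nat_lit 78) (nat_lit 76) (nat_lit 0) (XT.lf (nat_lit 0) (nat_lit 15840439643) (nat_lit 152) (nat_lit 18355393520) (nat_lit 0) (nat_lit 12849512213)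 (nat_lit 18) (nat_lit 5) (nat_lit 20) (nat_lit 4) (nat_lit 18) (nat_lit 4) (nat_lit 550) (nat_lit 348) (nat_lit 302)) (XT.lf (nat_lit 0) (nat_lit 4650979363) (nat_lit 76) (nat_lit 23237956796) (nat_lit 76) (nat_lit 20216938494) (nat_lit 17) (nat_lit 4) (nat_lit 18) (nat_lit 5) (nat_lit 18) (nat_lit 4) (nat_lit 551) (nat_lit 348) (nat_lit 301))) (XT.nd (nat_lit 78) (nat_lit 152) (nat_lit 0) (XT.lf (nat_lit 0) (nat_lit 28489598803) (nat_lit 76) (nat_lit 11878390403) (nat_lit 76) (nat_lit 8828157661) (nat_lit 17) (nat_lit 4) (nat_lit 18) (nat_lit 5) (nat_lit 18) (nat_lit 4) (nat_lit 552) (nat_lit 348) (nat_lit 300)) (XT.lf (nat_lit 0) (nat_lit 2515783945) (nat_lit 76) (nat_lit 240068379) (nat_lit 152) (nat_lit 47565132074) (nat_lit 15) (nat_lit 5) (nat_lit 16) (nat_lit 5) (nat_lit 17) (nat_lit 4) (nat_lit 553) (nat_lit 348) (nat_lit 299)))))) (XT.nd (nat_lit 58968) (nat_lit 0) (nat_lit 2736) (XT.nd (nat_lit 58656)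 (nat_lit 0) (nat_lit 3572) (XT.nd (nat_lit 58500) (nat_lit 0) (nat_lit 3876) (XT.nd (nat_lit 58422) (nat_lit 0) (nat_lit 4104) (XT.lf (nat_lit 0) (nat_lit 14720083664) (nat_lit 152) (nat_lit 25046137225) (nat_lit 0) (nat_lit 11704419891) (nat_lit 15) (nat_lit 5) (nat_lit 17) (nat_lit 4) (nat_lit 15) (nat_lit 4) (nat_lit 554) (nat_lit 348) (nat_lit 298)) (XT.lf (nat_lit 0) (nat_lit 2957023842) (nat_lit 152) (nat_lit 3580015849) (nat_lit 0) (nat_lit 2957023842) (nat_lit 69) (nat_lit 5) (nat_lit 71) (nat_lit 4) (nat_lit 69) (nat_lit 4) (nat_lit 502) (nat_lit 349) (nat_lit 349))) (XT.nd (nat_lit 78) (nat_lit 152) (nat_lit 0) (XT.lf (nat_lit 0) (nat_lit 10118353196) (nat_lit 76) (nat_lit 4685686172) (nat_lit 76) (nat_lit 4486152057) (nat_lit 68) (nat_lit 4) (nat_lit 69) (nat_lit 5) (nat_lit 69) (nat_lit 4) (nat_lit 503) (nat_lit 349) (nat_lit 348)) (XT.lf (nat_lit 0) (nat_lit 4289411725) (nat_lit 152) (nat_lit 11402588280)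 (nat_lit 0) (nat_lit 3907609241) (nat_lit 66) (nat_lit 5) (nat_lit 68) (nat_lit 4) (nat_lit 66) (nat_lit 4) (nat_lit 504) (nat_lit 349) (nat_lit 347)))) (XT.nd (nat_lit 156) (nat_lit 76) (nat_lit 0) (XT.nd (nat_lit 78) (nat_lit 152) (nat_lit 0) (XT.lf (nat_lit 0) (nat_lit 6041022549) (nat_lit 76) (nat_lit 7219838052) (nat_lit 76) (nat_lit 6655433587) (nat_lit 65) (nat_lit 4) (nat_lit 66) (nat_lit 5) (nat_lit 66) (nat_lit 4) (nat_lit 505) (nat_lit 349) (nat_lit 346)) (XT.lf (nat_lit 0) (nat_lit 2206279617) (nat_lit 152) (nat_lit 16549613405) (nat_lit 0) (nat_lit 1486194236) (nat_lit 63) (nat_lit 5) (nat_lit 65) (nat_lit 4) (nat_lit 63) (nat_lit 4) (nat_lit 506) (nat_lit 349) (nat_lit 345))) (XT.nd (nat_lit 78) (nat_lit 0) (nat_lit 0) (XT.lf (nat_lit 0) (nat_lit 1034783086) (nat_lit 76) (nat_lit 10213322982) (nat_lit 76) (nat_lit 9326130920) (nat_lit 62) (nat_lit 4) (nat_lit 63) (nat_lit 5) (nat_lit 63) (nat_lit 4)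 (nat_lit 507) (nat_lit 349) (nat_lit 344)) (XT.lf (nat_lit 0) (nat_lit 19144469916) (nat_lit 76) (nat_lit 1410746289) (nat_lit 76) (nat_lit 361314731) (nat_lit 62) (nat_lit 4) (nat_lit 63) (nat_lit 5) (nat_lit 63) (nat_lit 4) (nat_lit 508) (nat_lit 349) (nat_lit 343))))) (XT.nd (nat_lit 312) (nat_lit 380) (nat_lit 0) (XT.nd (nat_lit 156) (nat_lit 228) (nat_lit 0) (XT.nd (nat_lit 78) (nat_lit 76) (nat_lit 0) (XT.lf (nat_lit 0) (nat_lit 8761935989) (nat_lit 152) (nat_lit 4912576838) (nat_lit 0) (nat_lit 7590144114) (nat_lit 60) (nat_lit 5) (nat_lit 62) (nat_lit 4) (nat_lit 60) (nat_lit 4) (nat_lit 509) (nat_lit 349) (nat_lit 342)) (XT.lf (nat_lit 0) (nat_lit 13341084887) (nat_lit 76) (nat_lit 4801288264) (nat_lit 76) (nat_lit 3481024267) (nat_lit 59) (nat_lit 4) (nat_lit 60) (nat_lit 5) (nat_lit 60) (nat_lit 4) (nat_lit 510) (nat_lit 349) (nat_lit 341))) (XT.nd (nat_lit 78) (nat_lit 76) (nat_lit 0) (XT.lf (nat_lit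 0) (nat_lit 5717358814) (nat_lit 152) (nat_lit 11977682994) (nat_lit 0) (nat_lit 4295599895) (nat_lit 57) (nat_lit 5) (nat_lit 59) (nat_lit 4) (nat_lit 57) (nat_lit 4) (nat_lit 511) (nat_lit 349) (nat_lit 340)) (XT.lf (nat_lit 0) (nat_lit 6366514856) (nat_lit 76) (nat_lit 8779134647) (nat_lit 76) (nat_lit 7221502705) (nat_lit 56) (nat_lit 4) (nat_lit 57) (nat_lit 5) (nat_lit 57) (nat_lit 4) (nat_lit 512) (nat_lit 349) (nat_lit 339)))) (XT.nd (nat_lit 156) (nat_lit 228) (nat_lit 0) (XT.nd (nat_lit 78) (nat_lit 0) (nat_lit 0) (XT.lf (nat_lit 0) (nat_lit 2041209854) (nat_lit 152) (nat_lit 20312858248) (nat_lit 0) (nat_lit 400872476) (nat_lit 54) (nat_lit 5) (nat_lit 56) (nat_lit 4) (nat_lit 54) (nat_lit 4) (nat_lit 513) (nat_lit 349) (nat_lit 338)) (XT.lf (nat_lit 0) (nat_lit 11517708666) (nat_lit 152) (nat_lit 1879049666) (nat_lit 0) (nat_lit 9753028224) (nat_lit 54) (nat_lit 5) (nat_lit 56) (nat_lit 4) (nat_lit 54)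 (nat_lit 4) (nat_lit 514) (nat_lit 349) (nat_lit 337))) (XT.nd (nat_lit 78) (nat_lit 152) (nat_lit 0) (XT.lf (nat_lit 0) (nat_lit 17115948138) (nat_lit 76) (nat_lit 4162959956) (nat_lit 76) (nat_lit 2277558092) (nat_lit 53) (nat_lit 4) (nat_lit 54) (nat_lit 5) (nat_lit 54) (nat_lit 4) (nat_lit 515) (nat_lit 349) (nat_lit 336)) (XT.lf (nat_lit 0) (nat_lit 7242129524) (nat_lit 152) (nat_lit 11432401404) (nat_lit 0) (nat_lit 5297850759) (nat_lit 51) (nat_lit 5) (nat_lit 53) (nat_lit 4) (nat_lit 51) (nat_lit 4) (nat_lit 516) (nat_lit 349) (nat_lit 335))))))))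
noncomputable def xc11 : XT := (XT.nd (nat_lit 2418) (nat_lit 456) (nat_lit 0) (XT.nd (nat_lit 1170) (nat_lit 1064) (nat_lit 0) (XT.nd (nat_lit 546) (nat_lit 684) (nat_lit 0) (XT.nd (nat_lit 234) (nat_lit 304) (nat_lit 0) (XT.nd (nat_lit 78) (nat_lit 152) (nat_lit 0) (XT.lf (nat_lit 0) (nat_lit 7580581781) (nat_lit 76) (nat_lit 9436898631) (nat_lit 76) (nat_lit 7382142664) (nat_lit 50) (nat_lit 4) (nat_lit 51) (nat_lit 5) (nat_lit 51) (nat_lit 4) (nat_lit 517) (nat_lit 349) (nat_lit 334)) (XT.nd (nat_lit 78) (nat_lit 0) (nat_lit 0) (XT.lf (nat_lit 0) (nat_lit 2177779427) (nat_lit 152) (nat_lit 22583263337) (nat_lit 0) (nat_lit 78735363) (nat_lit 48) (nat_lit 5) (nat_lit 50) (nat_lit 4) (nat_lit 48) (nat_lit 4) (nat_lit 518) (nat_lit 349) (nat_lit 333)) (XT.lf (nat_lit 0) (nat_lit 11977351178) (nat_lit 152) (nat_lit 3533352710) (nat_lit 0) (nat_lit 9777204824) (nat_lit 48) (nat_lit 5) (nat_lit 50) (nat_lit 4) (nat_lit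 48) (nat_lit 4) (nat_lit 519) (nat_lit 349) (nat_lit 332)))) (XT.nd (nat_lit 156) (nat_lit 76) (nat_lit 0) (XT.nd (nat_lit 78) (nat_lit 152) (nat_lit 0) (XT.lf (nat_lit 0) (nat_lit 16085222525) (nat_lit 76) (nat_lit 5981347583) (nat_lit 76) (nat_lit 3683043666) (nat_lit 47) (nat_lit 4) (nat_lit 48) (nat_lit 5) (nat_lit 48) (nat_lit 4) (nat_lit 520) (nat_lit 349) (nat_lit 331)) (XT.lf (nat_lit 0) (nat_lit 6121746835) (nat_lit 152) (nat_lit 16303462494) (nat_lit 0) (nat_lit 3797860891) (nat_lit 45) (nat_lit 5) (nat_lit 47) (nat_lit 4) (nat_lit 45) (nat_lit 4) (nat_lit 521) (nat_lit 349) (nat_lit 330))) (XT.nd (nat_lit 78) (nat_lit 0) (nat_lit 0) (XT.lf (nat_lit 0) (nat_lit 3230947299) (nat_lit 76) (nat_lit 12945751075) (nat_lit 76) (nat_lit 10532037056) (nat_lit 44) (nat_lit 4) (nat_lit 45) (nat_lit 5) (nat_lit 45) (nat_lit 4) (nat_lit 522) (nat_lit 349) (nat_lit 329)) (XT.lf (nat_lit 0) (nat_lit 23371819639) (nat_lit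 76) (nat_lit 3168926790) (nat_lit 76) (nat_lit 668001048) (nat_lit 44) (nat_lit 4) (nat_lit 45) (nat_lit 5) (nat_lit 45) (nat_lit 4) (nat_lit 523) (nat_lit 349) (nat_lit 328))))) (XT.nd (nat_lit 312) (nat_lit 304) (nat_lit 0) (XT.nd (nat_lit 156) (nat_lit 152) (nat_lit 0) (XT.nd (nat_lit 78) (nat_lit 76) (nat_lit 0) (XT.lf (nat_lit 0) (nat_lit 9376739851) (nat_lit 152) (nat_lit 11475731685) (nat_lit 0) (nat_lit 6866451193) (nat_lit 42) (nat_lit 5) (nat_lit 44) (nat_lit 4) (nat_lit 42) (nat_lit 4) (nat_lit 524) (nat_lit 349) (nat_lit 327)) (XT.lf (nat_lit 0) (nat_lit 8582425699) (nat_lit 76) (nat_lit 11125954823) (nat_lit 76) (nat_lit 8535855083) (nat_lit 41) (nat_lit 4) (nat_lit 42) (nat_lit 5) (nat_lit 42) (nat_lit 4) (nat_lit 525) (nat_lit 349) (nat_lit 326))) (XT.nd (nat_lit 78) (nat_lit 0) (nat_lit 0) (XT.lf (nat_lit 0) (nat_lit 379099193) (nat_lit 76) (nat_lit 1121731062) (nat_lit 152) (nat_lit 27285025676)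 (nat_lit 39) (nat_lit 5) (nat_lit 40) (nat_lit 5) (nat_lit 41) (nat_lit 4) (nat_lit 526) (nat_lit 349) (nat_lit 325)) (XT.lf (nat_lit 0) (nat_lit 11801949843) (nat_lit 152) (nat_lit 8396171153) (nat_lit 0) (nat_lit 9139021857) (nat_lit 39) (nat_lit 5) (nat_lit 41) (nat_lit 4) (nat_lit 39) (nat_lit 4) (nat_lit 527) (nat_lit 349) (nat_lit 324)))) (XT.nd (nat_lit 156) (nat_lit 76) (nat_lit 0) (XT.nd (nat_lit 78) (nat_lit 152) (nat_lit 0) (XT.lf (nat_lit 0) (nat_lit 12141582949) (nat_lit 76) (nat_lit 10248936155) (nat_lit 76) (nat_lit 7515097058) (nat_lit 38) (nat_lit 4) (nat_lit 39) (nat_lit 5) (nat_lit 39) (nat_lit 4) (nat_lit 528) (nat_lit 349) (nat_lit 323)) (XT.lf (nat_lit 0) (nat_lit 2704946895) (nat_lit 76) (nat_lit 8172185) (nat_lit 152) (nat_lit 27778347819) (nat_lit 36) (nat_lit 5) (nat_lit 37) (nat_lit 5) (nat_lit 38) (nat_lit 4) (nat_lit 529) (nat_lit 349) (nat_lit 322))) (XT.nd (nat_lit 78) (nat_lit 76)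 (nat_lit 0) (XT.lf (nat_lit 0) (nat_lit 13230327011) (nat_lit 152) (nat_lit 7413958380) (nat_lit 0) (nat_lit 10444380058) (nat_lit 36) (nat_lit 5) (nat_lit 38) (nat_lit 4) (nat_lit 36) (nat_lit 4) (nat_lit 530) (nat_lit 349) (nat_lit 321)) (XT.lf (nat_lit 0) (nat_lit 13543604812) (nat_lit 76) (nat_lit 10504782917) (nat_lit 76) (nat_lit 7655832359) (nat_lit 35) (nat_lit 4) (nat_lit 36) (nat_lit 5) (nat_lit 36) (nat_lit 4) (nat_lit 531) (nat_lit 349) (nat_lit 320)))))) (XT.nd (nat_lit 624) (nat_lit 456) (nat_lit 0) (XT.nd (nat_lit 312) (nat_lit 304) (nat_lit 0) (XT.nd (nat_lit 156) (nat_lit 152) (nat_lit 0) (XT.nd (nat_lit 78) (nat_lit 0) (nat_lit 0) (XT.lf (nat_lit 0) (nat_lit 2679587200) (nat_lit 76) (nat_lit 73962704) (nat_lit 152) (nat_lit 29585174959) (nat_lit 33) (nat_lit 5) (nat_lit 34) (nat_lit 5) (nat_lit 35) (nat_lit 4) (nat_lit 532) (nat_lit 349) (nat_lit 319)) (XT.lf (nat_lit 0) (nat_lit 13464279231) (nat_lit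 152) (nat_lit 8940159891) (nat_lit 0) (nat_lit 10581263653) (nat_lit 33) (nat_lit 5) (nat_lit 35) (nat_lit 4) (nat_lit 33) (nat_lit 4) (nat_lit 533) (nat_lit 349) (nat_lit 318))) (XT.nd (nat_lit 78) (nat_lit 76) (nat_lit 0) (XT.lf (nat_lit 0) (nat_lit 12358793498) (nat_lit 76) (nat_lit 12116461233) (nat_lit 76) (nat_lit 9177467768) (nat_lit 32) (nat_lit 4) (nat_lit 33) (nat_lit 5) (nat_lit 33) (nat_lit 4) (nat_lit 534) (nat_lit 349) (nat_lit 317)) (XT.lf (nat_lit 0) (nat_lit 1398585069) (nat_lit 152) (nat_lit 154213237) (nat_lit 76) (nat_lit 32788010939) (nat_lit 31) (nat_lit 5) (nat_lit 33) (nat_lit 5) (nat_lit 32) (nat_lit 4) (nat_lit 535) (nat_lit 349) (nat_lit 316)))) (XT.nd (nat_lit 156) (nat_lit 152) (nat_lit 0) (XT.nd (nat_lit 78) (nat_lit 76) (nat_lit 0) (XT.lf (nat_lit 0) (nat_lit 12270669111) (nat_lit 152) (nat_lit 13457962285) (nat_lit 0) (nat_lit 9313285174) (nat_lit 30) (nat_lit 5) (nat_lit 32) (nat_lit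 4) (nat_lit 30) (nat_lit 4) (nat_lit 536) (nat_lit 349) (nat_lit 315)) (XT.lf (nat_lit 0) (nat_lit 8081828884) (nat_lit 76) (nat_lit 15345300779) (nat_lit 76) (nat_lit 12338181215) (nat_lit 29) (nat_lit 4) (nat_lit 30) (nat_lit 5) (nat_lit 30) (nat_lit 4) (nat_lit 537) (nat_lit 349) (nat_lit 314))) (XT.nd (nat_lit 78) (nat_lit 152) (nat_lit 0) (XT.lf (nat_lit 0) (nat_lit 30272469459) (nat_lit 76) (nat_lit 4646659483) (nat_lit 76) (nat_lit 1591252903) (nat_lit 29) (nat_lit 4) (nat_lit 30) (nat_lit 5) (nat_lit 30) (nat_lit 4) (nat_lit 538) (nat_lit 349) (nat_lit 313)) (XT.lf (nat_lit 0) (nat_lit 9374997406) (nat_lit 152) (nat_lit 21534550353) (nat_lit 0) (nat_lit 6363068105) (nat_lit 27) (nat_lit 5) (nat_lit 29) (nat_lit 4) (nat_lit 27) (nat_lit 4) (nat_lit 539) (nat_lit 349) (nat_lit 312))))) (XT.nd (nat_lit 312) (nat_lit 228) (nat_lit 0) (XT.nd (nat_lit 156) (nat_lit 152) (nat_lit 0) (XT.nd (nat_lit 78) (nat_lit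 0) (nat_lit 0) (XT.lf (nat_lit 0) (nat_lit 119299860) (nat_lit 76) (nat_lit 20497355615) (nat_lit 76) (nat_lit 17441236854) (nat_lit 26) (nat_lit 4) (nat_lit 27) (nat_lit 5) (nat_lit 27) (nat_lit 4) (nat_lit 540) (nat_lit 349) (nat_lit 311)) (XT.lf (nat_lit 0) (nat_lit 22600801103) (nat_lit 76) (nat_lit 9681177418) (nat_lit 76) (nat_lit 6582156268) (nat_lit 26) (nat_lit 4) (nat_lit 27) (nat_lit 5) (nat_lit 27) (nat_lit 4) (nat_lit 541) (nat_lit 349) (nat_lit 310))) (XT.nd (nat_lit 78) (nat_lit 0) (nat_lit 0) (XT.lf (nat_lit 0) (nat_lit 4454643034) (nat_lit 152) (nat_lit 33834896454) (nat_lit 0) (nat_lit 1405445020) (nat_lit 24) (nat_lit 5) (nat_lit 26) (nat_lit 4) (nat_lit 24) (nat_lit 4) (nat_lit 542) (nat_lit 349) (nat_lit 309)) (XT.lf (nat_lit 0) (nat_lit 15823522032) (nat_lit 152) (nat_lit 11986222363) (nat_lit 0) (nat_lit 12735062255) (nat_lit 24) (nat_lit 5) (nat_lit 26) (nat_lit 4) (nat_lit 24) (nat_lit 4)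 (nat_lit 543) (nat_lit 349) (nat_lit 308)))) (XT.nd (nat_lit 156) (nat_lit 152) (nat_lit 0) (XT.nd (nat_lit 78) (nat_lit 0) (nat_lit 0) (XT.lf (nat_lit 0) (nat_lit 10471436521) (nat_lit 76) (nat_lit 17037993102) (nat_lit 76) (nat_lit 13911415107) (nat_lit 23) (nat_lit 4) (nat_lit 24) (nat_lit 5) (nat_lit 24) (nat_lit 4) (nat_lit 544) (nat_lit 349) (nat_lit 307)) (XT.lf (nat_lit 0) (nat_lit 33600179038) (nat_lit 76) (nat_lit 5943321716) (nat_lit 76) (nat_lit 2779735744) (nat_lit 23) (nat_lit 4) (nat_lit 24) (nat_lit 5) (nat_lit 24) (nat_lit 4) (nat_lit 545) (nat_lit 349) (nat_lit 306))) (XT.nd (nat_lit 78) (nat_lit 0) (nat_lit 0) (XT.lf (nat_lit 0) (nat_lit 8584785416) (nat_lit 152) (nat_lit 29184899215) (nat_lit 0) (nat_lit 5478459157) (nat_lit 21) (nat_lit 5) (nat_lit 23) (nat_lit 4) (nat_lit 21) (nat_lit 4) (nat_lit 546) (nat_lit 349) (nat_lit 305)) (XT.lf (nat_lit 0) (nat_lit 20261174228) (nat_lit 152) (nat_lit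 6817014045) (nat_lit 0) (nat_lit 17120980426) (nat_lit 21) (nat_lit 5) (nat_lit 23) (nat_lit 4) (nat_lit 21) (nat_lit 4) (nat_lit 547) (nat_lit 349) (nat_lit 304))))))) (XT.nd (nat_lit 59436) (nat_lit 0) (nat_lit 2052) (XT.nd (nat_lit 58812) (nat_lit 0) (nat_lit 3572) (XT.nd (nat_lit 312) (nat_lit 228) (nat_lit 0) (XT.nd (nat_lit 156) (nat_lit 152) (nat_lit 0) (XT.nd (nat_lit 78) (nat_lit 0) (nat_lit 0) (XT.lf (nat_lit 0) (nat_lit 16303574308) (nat_lit 76) (nat_lit 16023523887) (nat_lit 76) (nat_lit 12850448977) (nat_lit 20) (nat_lit 4) (nat_lit 21) (nat_lit 5) (nat_lit 21) (nat_lit 4) (nat_lit 548) (nat_lit 349) (nat_lit 303)) (XT.lf (nat_lit 0) (nat_lit 40023365968) (nat_lit 76) (nat_lit 4684166740) (nat_lit 76) (nat_lit 1479168423) (nat_lit 20) (nat_lit 4) (nat_lit 21) (nat_lit 5) (nat_lit 21) (nat_lit 4) (nat_lit 549) (nat_lit 349) (nat_lit 302))) (XT.nd (nat_lit 78) (nat_lit 0) (nat_lit 0) (XT.lf (nat_lit 0)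 (nat_lit 10153966696) (nat_lit 152) (nat_lit 30053372994) (nat_lit 0) (nat_lit 7012226972) (nat_lit 18) (nat_lit 5) (nat_lit 20) (nat_lit 4) (nat_lit 18) (nat_lit 4) (nat_lit 550) (nat_lit 349) (nat_lit 301)) (XT.lf (nat_lit 0) (nat_lit 22101597293) (nat_lit 152) (nat_lit 7250881547) (nat_lit 0) (nat_lit 18930643129) (nat_lit 18) (nat_lit 5) (nat_lit 20) (nat_lit 4) (nat_lit 18) (nat_lit 4) (nat_lit 551) (nat_lit 349) (nat_lit 300)))) (XT.nd (nat_lit 156) (nat_lit 152) (nat_lit 0) (XT.nd (nat_lit 78) (nat_lit 0) (nat_lit 0) (XT.lf (nat_lit 0) (nat_lit 16331416113) (nat_lit 76) (nat_lit 18122548200) (nat_lit 76) (nat_lit 14923230503) (nat_lit 17) (nat_lit 4) (nat_lit 18) (nat_lit 5) (nat_lit 18) (nat_lit 4) (nat_lit 552) (nat_lit 349) (nat_lit 299)) (XT.lf (nat_lit 0) (nat_lit 40549051202) (nat_lit 76) (nat_lit 6591492309) (nat_lit 76) (nat_lit 3364637201) (nat_lit 17) (nat_lit 4) (nat_lit 18) (nat_lit 5) (nat_lit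 18) (nat_lit 4) (nat_lit 553) (nat_lit 349) (nat_lit 298))) (XT.nd (nat_lit 58266) (nat_lit 0) (nat_lit 4332) (XT.lf (nat_lit 0) (nat_lit 8451122601) (nat_lit 152) (nat_lit 37918811747) (nat_lit 0) (nat_lit 5292296914) (nat_lit 15) (nat_lit 5) (nat_lit 17) (nat_lit 4) (nat_lit 15) (nat_lit 4) (nat_lit 554) (nat_lit 349) (nat_lit 297)) (XT.lf (nat_lit 0) (nat_lit 3710446398) (nat_lit 152) (nat_lit 1780746346) (nat_lit 0) (nat_lit 3710446398) (nat_lit 72) (nat_lit 5) (nat_lit 74) (nat_lit 4) (nat_lit 72) (nat_lit 4) (nat_lit 500) (nat_lit 350) (nat_lit 350))))) (XT.nd (nat_lit 312) (nat_lit 304) (nat_lit 0) (XT.nd (nat_lit 156) (nat_lit 228) (nat_lit 0) (XT.nd (nat_lit 78) (nat_lit 152) (nat_lit 0) (XT.lf (nat_lit 0) (nat_lit 13366253233) (nat_lit 76) (nat_lit 2769727618) (nat_lit 76) (nat_lit 2558041875) (nat_lit 71) (nat_lit 4) (nat_lit 72) (nat_lit 5) (nat_lit 72) (nat_lit 4) (nat_lit 501) (nat_lit 350) (nat_lit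 349)) (XT.lf (nat_lit 0) (nat_lit 6033089133) (nat_lit 152) (nat_lit 7329597780) (nat_lit 0) (nat_lit 5628034878) (nat_lit 69) (nat_lit 5) (nat_lit 71) (nat_lit 4) (nat_lit 69) (nat_lit 4) (nat_lit 502) (nat_lit 350) (nat_lit 348))) (XT.nd (nat_lit 78) (nat_lit 152) (nat_lit 0) (XT.lf (nat_lit 0) (nat_lit 9777508747) (nat_lit 76) (nat_lit 5058335767) (nat_lit 76) (nat_lit 4459559070) (nat_lit 68) (nat_lit 4) (nat_lit 69) (nat_lit 5) (nat_lit 69) (nat_lit 4) (nat_lit 503) (nat_lit 350) (nat_lit 347)) (XT.lf (nat_lit 0) (nat_lit 4222165954) (nat_lit 152) (nat_lit 11927220334) (nat_lit 0) (nat_lit 3458227373) (nat_lit 66) (nat_lit 5) (nat_lit 68) (nat_lit 4) (nat_lit 66) (nat_lit 4) (nat_lit 504) (nat_lit 350) (nat_lit 346)))) (XT.nd (nat_lit 156) (nat_lit 76) (nat_lit 0) (XT.nd (nat_lit 78) (nat_lit 152) (nat_lit 0) (XT.lf (nat_lit 0) (nat_lit 5337878951) (nat_lit 76) (nat_lit 7765179363) (nat_lit 76) (nat_lit 6823957304)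 (nat_lit 65) (nat_lit 4) (nat_lit 66) (nat_lit 5) (nat_lit 66) (nat_lit 4) (nat_lit 505) (nat_lit 350) (nat_lit 345)) (XT.lf (nat_lit 0) (nat_lit 1942575988) (nat_lit 152) (nat_lit 17451574171) (nat_lit 0) (nat_lit 861661483) (nat_lit 63) (nat_lit 5) (nat_lit 65) (nat_lit 4) (nat_lit 63) (nat_lit 4) (nat_lit 506) (nat_lit 350) (nat_lit 344))) (XT.nd (nat_lit 78) (nat_lit 76) (nat_lit 0) (XT.lf (nat_lit 0) (nat_lit 10890806644) (nat_lit 152) (nat_lit 52310250) (nat_lit 0) (nat_lit 9647652644) (nat_lit 63) (nat_lit 5) (nat_lit 65) (nat_lit 4) (nat_lit 63) (nat_lit 4) (nat_lit 507) (nat_lit 350) (nat_lit 343)) (XT.lf (nat_lit 0) (nat_lit 17893012336) (nat_lit 76) (nat_lit 2221609183) (nat_lit 76) (nat_lit 820941110) (nat_lit 62) (nat_lit 4) (nat_lit 63) (nat_lit 5) (nat_lit 63) (nat_lit 4) (nat_lit 508) (nat_lit 350) (nat_lit 342)))))) (XT.nd (nat_lit 624) (nat_lit 684) (nat_lit 0) (XT.nd (nat_lit 312) (nat_lit 380)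 (nat_lit 0) (XT.nd (nat_lit 156) (nat_lit 228) (nat_lit 0) (XT.nd (nat_lit 78) (nat_lit 76) (nat_lit 0) (XT.lf (nat_lit 0) (nat_lit 8207392167) (nat_lit 152) (nat_lit 6380497744) (nat_lit 0) (nat_lit 6699048129) (nat_lit 60) (nat_lit 5) (nat_lit 62) (nat_lit 4) (nat_lit 60) (nat_lit 4) (nat_lit 509) (nat_lit 350) (nat_lit 341)) (XT.lf (nat_lit 0) (nat_lit 11680490795) (nat_lit 76) (nat_lit 5810295501) (nat_lit 76) (nat_lit 4157803773) (nat_lit 59) (nat_lit 4) (nat_lit 60) (nat_lit 5) (nat_lit 60) (nat_lit 4) (nat_lit 510) (nat_lit 350) (nat_lit 340))) (XT.nd (nat_lit 78) (nat_lit 76) (nat_lit 0) (XT.lf (nat_lit 0) (nat_lit 4944007249) (nat_lit 152) (nat_lit 13871542547) (nat_lit 0) (nat_lit 3203773325) (nat_lit 57) (nat_lit 5) (nat_lit 59) (nat_lit 4) (nat_lit 57) (nat_lit 4) (nat_lit 511) (nat_lit 350) (nat_lit 339)) (XT.lf (nat_lit 0) (nat_lit 4271381087) (nat_lit 76) (nat_lit 9999817618) (nat_lit 76) (nat_lit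 8127668137) (nat_lit 56) (nat_lit 4) (nat_lit 57) (nat_lit 5) (nat_lit 57) (nat_lit 4) (nat_lit 512) (nat_lit 350) (nat_lit 338)))) (XT.nd (nat_lit 156) (nat_lit 228) (nat_lit 0) (XT.nd (nat_lit 78) (nat_lit 0) (nat_lit 0) (XT.lf (nat_lit 0) (nat_lit 122215747) (nat_lit 76) (nat_lit 923320500) (nat_lit 152) (nat_lit 21744596229) (nat_lit 54) (nat_lit 5) (nat_lit 55) (nat_lit 5) (nat_lit 56) (nat_lit 4) (nat_lit 513) (nat_lit 350) (nat_lit 337)) (XT.lf (nat_lit 0) (nat_lit 10432310617) (nat_lit 152) (nat_lit 4385734513) (nat_lit 0) (nat_lit 8369625276) (nat_lit 54) (nat_lit 5) (nat_lit 56) (nat_lit 4) (nat_lit 54) (nat_lit 4) (nat_lit 514) (nat_lit 350) (nat_lit 336))) (XT.nd (nat_lit 78) (nat_lit 152) (nat_lit 0) (XT.lf (nat_lit 0) (nat_lit 14400447008) (nat_lit 76) (nat_lit 5688465880) (nat_lit 76) (nat_lit 3508575275) (nat_lit 53) (nat_lit 4) (nat_lit 54) (nat_lit 5) (nat_lit 54) (nat_lit 4) (nat_lit 515) (nat_lit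 350) (nat_lit 335)) (XT.lf (nat_lit 0) (nat_lit 5912429812) (nat_lit 152) (nat_lit 14419456209) (nat_lit 0) (nat_lit 3685553964) (nat_lit 51) (nat_lit 5) (nat_lit 53) (nat_lit 4) (nat_lit 51) (nat_lit 4) (nat_lit 516) (nat_lit 350) (nat_lit 334))))) (XT.nd (nat_lit 312) (nat_lit 380) (nat_lit 0) (XT.nd (nat_lit 156) (nat_lit 152) (nat_lit 0) (XT.nd (nat_lit 78) (nat_lit 76) (nat_lit 0) (XT.lf (nat_lit 0) (nat_lit 4375049553) (nat_lit 76) (nat_lit 11203521781) (nat_lit 76) (nat_lit 8869386514) (nat_lit 50) (nat_lit 4) (nat_lit 51) (nat_lit 5) (nat_lit 51) (nat_lit 4) (nat_lit 517) (nat_lit 350) (nat_lit 333)) (XT.lf (nat_lit 0) (nat_lit 618721419) (nat_lit 152) (nat_lit 1182266143) (nat_lit 76) (nat_lit 23090579478) (nat_lit 49) (nat_lit 5) (nat_lit 51) (nat_lit 5) (nat_lit 50) (nat_lit 4) (nat_lit 518) (nat_lit 350) (nat_lit 332))) (XT.nd (nat_lit 78) (nat_lit 76) (nat_lit 0) (XT.lf (nat_lit 0) (nat_lit 10310969472)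 (nat_lit 152) (nat_lit 7186389166) (nat_lit 0) (nat_lit 7845558875) (nat_lit 48) (nat_lit 5) (nat_lit 50) (nat_lit 4) (nat_lit 48) (nat_lit 4) (nat_lit 519) (nat_lit 350) (nat_lit 331)) (XT.lf (nat_lit 0) (nat_lit 12204996630) (nat_lit 76) (nat_lit 8081867523) (nat_lit 76) (nat_lit 5521158320) (nat_lit 47) (nat_lit 4) (nat_lit 48) (nat_lit 5) (nat_lit 48) (nat_lit 4) (nat_lit 520) (nat_lit 350) (nat_lit 330)))) (XT.nd (nat_lit 156) (nat_lit 228) (nat_lit 0) (XT.nd (nat_lit 78) (nat_lit 0) (nat_lit 0) (XT.lf (nat_lit 0) (nat_lit 4182088954) (nat_lit 152) (nat_lit 20497907104) (nat_lit 0) (nat_lit 1606135440) (nat_lit 45) (nat_lit 5) (nat_lit 47) (nat_lit 4) (nat_lit 45) (nat_lit 4) (nat_lit 521) (nat_lit 350) (nat_lit 329)) (XT.lf (nat_lit 0) (nat_lit 14130037411) (nat_lit 152) (nat_lit 1178097375) (nat_lit 0) (nat_lit 11466872173) (nat_lit 45) (nat_lit 5) (nat_lit 47) (nat_lit 4) (nat_lit 45) (nat_lit 4) (nat_lit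 522) (nat_lit 350) (nat_lit 328))) (XT.nd (nat_lit 78) (nat_lit 152) (nat_lit 0) (XT.lf (nat_lit 0) (nat_lit 18789261682) (nat_lit 76) (nat_lit 5618098031) (nat_lit 76) (nat_lit 2870261217) (nat_lit 44) (nat_lit 4) (nat_lit 45) (nat_lit 5) (nat_lit 45) (nat_lit 4) (nat_lit 523) (nat_lit 350) (nat_lit 327)) (XT.lf (nat_lit 0) (nat_lit 7071984883) (nat_lit 152) (nat_lit 16396439525) (nat_lit 0) (nat_lit 4324371069) (nat_lit 42) (nat_lit 5) (nat_lit 44) (nat_lit 4) (nat_lit 42) (nat_lit 4) (nat_lit 524) (nat_lit 350) (nat_lit 326))))))))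
noncomputable def xc12 : XT := (XT.nd (nat_lit 60450) (nat_lit 0) (nat_lit 1748) (XT.nd (nat_lit 1170) (nat_lit 912) (nat_lit 0) (XT.nd (nat_lit 546) (nat_lit 608) (nat_lit 0) (XT.nd (nat_lit 234) (nat_lit 304) (nat_lit 0) (XT.nd (nat_lit 78) (nat_lit 152) (nat_lit 0) (XT.lf (nat_lit 0) (nat_lit 3413646444) (nat_lit 76) (nat_lit 13866631390) (nat_lit 76) (nat_lit 11041531090) (nat_lit 41) (nat_lit 4) (nat_lit 42) (nat_lit 5) (nat_lit 42) (nat_lit 4) (nat_lit 525) (nat_lit 350) (nat_lit 325)) (XT.nd (nat_lit 78) (nat_lit 152) (nat_lit 0) (XT.lf (nat_lit 0) (nat_lit 23858239568) (nat_lit 76) (nat_lit 3954128464) (nat_lit 76) (nat_lit 1053798565) (nat_lit 41) (nat_lit 4) (nat_lit 42) (nat_lit 5) (nat_lit 42) (nat_lit 4) (nat_lit 526) (nat_lit 350) (nat_lit 324)) (XT.lf (nat_lit 0) (nat_lit 9117476971) (nat_lit 152) (nat_lit 14074081205) (nat_lit 0) (nat_lit 6230711589) (nat_lit 39) (nat_lit 5) (nat_lit 41) (nat_lit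 4) (nat_lit 39) (nat_lit 4) (nat_lit 527) (nat_lit 350) (nat_lit 323)))) (XT.nd (nat_lit 156) (nat_lit 228) (nat_lit 0) (XT.nd (nat_lit 78) (nat_lit 0) (nat_lit 0) (XT.lf (nat_lit 0) (nat_lit 6204839951) (nat_lit 76) (nat_lit 13372685003) (nat_lit 76) (nat_lit 10417073881) (nat_lit 38) (nat_lit 4) (nat_lit 39) (nat_lit 5) (nat_lit 39) (nat_lit 4) (nat_lit 528) (nat_lit 350) (nat_lit 322)) (XT.lf (nat_lit 0) (nat_lit 27093218319) (nat_lit 76) (nat_lit 3256687701) (nat_lit 76) (nat_lit 234236054) (nat_lit 38) (nat_lit 4) (nat_lit 39) (nat_lit 5) (nat_lit 39) (nat_lit 4) (nat_lit 529) (nat_lit 350) (nat_lit 321))) (XT.nd (nat_lit 78) (nat_lit 76) (nat_lit 0) (XT.lf (nat_lit 0) (nat_lit 10150356396) (nat_lit 152) (nat_lit 13882233761) (nat_lit 0) (nat_lit 7152933717) (nat_lit 36) (nat_lit 5) (nat_lit 38) (nat_lit 4) (nat_lit 36) (nat_lit 4) (nat_lit 530) (nat_lit 350) (nat_lit 320)) (XT.lf (nat_lit 0) (nat_lit 6804956675)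 (nat_lit 76) (nat_lit 14029367975) (nat_lit 76) (nat_lit 10970776748) (nat_lit 35) (nat_lit 4) (nat_lit 36) (nat_lit 5) (nat_lit 36) (nat_lit 4) (nat_lit 531) (nat_lit 350) (nat_lit 319))))) (XT.nd (nat_lit 312) (nat_lit 380) (nat_lit 0) (XT.nd (nat_lit 156) (nat_lit 76) (nat_lit 0) (XT.nd (nat_lit 78) (nat_lit 152) (nat_lit 0) (XT.lf (nat_lit 0) (nat_lit 28118177700) (nat_lit 76) (nat_lit 3721520178) (nat_lit 76) (nat_lit 603542011) (nat_lit 35) (nat_lit 4) (nat_lit 36) (nat_lit 5) (nat_lit 36) (nat_lit 4) (nat_lit 532) (nat_lit 350) (nat_lit 318)) (XT.lf (nat_lit 0) (nat_lit 9971814473) (nat_lit 152) (nat_lit 16234318664) (nat_lit 0) (nat_lit 6888673317) (nat_lit 33) (nat_lit 5) (nat_lit 35) (nat_lit 4) (nat_lit 33) (nat_lit 4) (nat_lit 533) (nat_lit 350) (nat_lit 317))) (XT.nd (nat_lit 78) (nat_lit 0) (nat_lit 0) (XT.lf (nat_lit 0) (nat_lit 4781899654) (nat_lit 76) (nat_lit 16060808843) (nat_lit 76) (nat_lit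 12923320224) (nat_lit 32) (nat_lit 4) (nat_lit 33) (nat_lit 5) (nat_lit 33) (nat_lit 4) (nat_lit 534) (nat_lit 350) (nat_lit 316)) (XT.lf (nat_lit 0) (nat_lit 26490264930) (nat_lit 76) (nat_lit 5578256157) (nat_lit 76) (nat_lit 2388003012) (nat_lit 32) (nat_lit 4) (nat_lit 33) (nat_lit 5) (nat_lit 33) (nat_lit 4) (nat_lit 535) (nat_lit 350) (nat_lit 315)))) (XT.nd (nat_lit 156) (nat_lit 228) (nat_lit 0) (XT.nd (nat_lit 78) (nat_lit 0) (nat_lit 0) (XT.lf (nat_lit 0) (nat_lit 8347435247) (nat_lit 152) (nat_lit 21616015776) (nat_lit 0) (nat_lit 5200366469) (nat_lit 30) (nat_lit 5) (nat_lit 32) (nat_lit 4) (nat_lit 30) (nat_lit 4) (nat_lit 536) (nat_lit 350) (nat_lit 314)) (XT.lf (nat_lit 0) (nat_lit 19360963492) (nat_lit 152) (nat_lit 364928667) (nat_lit 0) (nat_lit 16165607697) (nat_lit 30) (nat_lit 5) (nat_lit 32) (nat_lit 4) (nat_lit 30) (nat_lit 4) (nat_lit 537) (nat_lit 350) (nat_lit 313))) (XT.nd (nat_lit 78)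 (nat_lit 152) (nat_lit 0) (XT.lf (nat_lit 0) (nat_lit 21688734938) (nat_lit 76) (nat_lit 9096058719) (nat_lit 76) (nat_lit 5853822325) (nat_lit 29) (nat_lit 4) (nat_lit 30) (nat_lit 5) (nat_lit 30) (nat_lit 4) (nat_lit 538) (nat_lit 350) (nat_lit 312)) (XT.lf (nat_lit 0) (nat_lit 5001374264) (nat_lit 152) (nat_lit 30597149522) (nat_lit 0) (nat_lit 1809382480) (nat_lit 27) (nat_lit 5) (nat_lit 29) (nat_lit 4) (nat_lit 27) (nat_lit 4) (nat_lit 539) (nat_lit 350) (nat_lit 311)))))) (XT.nd (nat_lit 624) (nat_lit 456) (nat_lit 0) (XT.nd (nat_lit 312) (nat_lit 228) (nat_lit 0) (XT.nd (nat_lit 156) (nat_lit 152) (nat_lit 0) (XT.nd (nat_lit 78) (nat_lit 76) (nat_lit 0) (XT.lf (nat_lit 0) (nat_lit 16178580368) (nat_lit 152) (nat_lit 9072849806) (nat_lit 0) (nat_lit 12943686194) (nat_lit 27) (nat_lit 5) (nat_lit 29) (nat_lit 4) (nat_lit 27) (nat_lit 4) (nat_lit 540) (nat_lit 350) (nat_lit 310)) (XT.lf (nat_lit 0) (nat_lit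 13102108687) (nat_lit 76) (nat_lit 14590172924) (nat_lit 76) (nat_lit 11313625946) (nat_lit 26) (nat_lit 4) (nat_lit 27) (nat_lit 5) (nat_lit 27) (nat_lit 4) (nat_lit 541) (nat_lit 350) (nat_lit 309))) (XT.nd (nat_lit 78) (nat_lit 152) (nat_lit 0) (XT.lf (nat_lit 0) (nat_lit 35880019147) (nat_lit 76) (nat_lit 3639473557) (nat_lit 76) (nat_lit 322486962) (nat_lit 26) (nat_lit 4) (nat_lit 27) (nat_lit 5) (nat_lit 27) (nat_lit 4) (nat_lit 542) (nat_lit 350) (nat_lit 308)) (XT.lf (nat_lit 0) (nat_lit 10917046320) (nat_lit 152) (nat_lit 22120364944) (nat_lit 0) (nat_lit 7658552769) (nat_lit 24) (nat_lit 5) (nat_lit 26) (nat_lit 4) (nat_lit 24) (nat_lit 4) (nat_lit 543) (nat_lit 350) (nat_lit 307)))) (XT.nd (nat_lit 156) (nat_lit 152) (nat_lit 0) (XT.nd (nat_lit 78) (nat_lit 0) (nat_lit 0) (XT.lf (nat_lit 0) (nat_lit 13263773) (nat_lit 76) (nat_lit 22429522482) (nat_lit 76) (nat_lit 19134020953) (nat_lit 23) (nat_lit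 4) (nat_lit 24) (nat_lit 5) (nat_lit 24) (nat_lit 4) (nat_lit 544) (nat_lit 350) (nat_lit 306)) (XT.lf (nat_lit 0) (nat_lit 23023228758) (nat_lit 76) (nat_lit 11394586575) (nat_lit 76) (nat_lit 8063154970) (nat_lit 23) (nat_lit 4) (nat_lit 24) (nat_lit 5) (nat_lit 24) (nat_lit 4) (nat_lit 545) (nat_lit 350) (nat_lit 305))) (XT.nd (nat_lit 78) (nat_lit 0) (nat_lit 0) (XT.lf (nat_lit 0) (nat_lit 3103250986) (nat_lit 76) (nat_lit 83727416) (nat_lit 152) (nat_lit 40226947465) (nat_lit 21) (nat_lit 5) (nat_lit 22) (nat_lit 5) (nat_lit 23) (nat_lit 4) (nat_lit 546) (nat_lit 350) (nat_lit 304)) (XT.lf (nat_lit 0) (nat_lit 14804692209) (nat_lit 152) (nat_lit 18058474937) (nat_lit 0) (nat_lit 11503543942) (nat_lit 21) (nat_lit 5) (nat_lit 23) (nat_lit 4) (nat_lit 21) (nat_lit 4) (nat_lit 547) (nat_lit 350) (nat_lit 303))))) (XT.nd (nat_lit 312) (nat_lit 228) (nat_lit 0) (XT.nd (nat_lit 156) (nat_lit 152) (nat_lit 0) (XT.nd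 (nat_lit 78) (nat_lit 0) (nat_lit 0) (XT.lf (nat_lit 0) (nat_lit 4723038298) (nat_lit 76) (nat_lit 21980074055) (nat_lit 76) (nat_lit 18647002381) (nat_lit 20) (nat_lit 4) (nat_lit 21) (nat_lit 5) (nat_lit 21) (nat_lit 4) (nat_lit 548) (nat_lit 350) (nat_lit 302)) (XT.lf (nat_lit 0) (nat_lit 28330841605) (nat_lit 76) (nat_lit 10697080579) (nat_lit 76) (nat_lit 7333015307) (nat_lit 20) (nat_lit 4) (nat_lit 21) (nat_lit 5) (nat_lit 21) (nat_lit 4) (nat_lit 549) (nat_lit 350) (nat_lit 301))) (XT.nd (nat_lit 78) (nat_lit 0) (nat_lit 0) (XT.lf (nat_lit 0) (nat_lit 4182899101) (nat_lit 152) (nat_lit 42331933731) (nat_lit 0) (nat_lit 887601874) (nat_lit 18) (nat_lit 5) (nat_lit 20) (nat_lit 4) (nat_lit 18) (nat_lit 4) (nat_lit 550) (nat_lit 350) (nat_lit 300)) (XT.lf (nat_lit 0) (nat_lit 16076007503) (nat_lit 152) (nat_lit 19639271486) (nat_lit 0) (nat_lit 12752346742) (nat_lit 18) (nat_lit 5) (nat_lit 20) (nat_lit 4)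 (nat_lit 18) (nat_lit 4) (nat_lit 551) (nat_lit 350) (nat_lit 299)))) (XT.nd (nat_lit 156) (nat_lit 152) (nat_lit 0) (XT.nd (nat_lit 78) (nat_lit 0) (nat_lit 0) (XT.lf (nat_lit 0) (nat_lit 3587720477) (nat_lit 76) (nat_lit 24665219676) (nat_lit 76) (nat_lit 21314021504) (nat_lit 17) (nat_lit 4) (nat_lit 18) (nat_lit 5) (nat_lit 18) (nat_lit 4) (nat_lit 552) (nat_lit 350) (nat_lit 298)) (XT.lf (nat_lit 0) (nat_lit 27699770669) (nat_lit 76) (nat_lit 13187341338) (nat_lit 76) (nat_lit 9809407816) (nat_lit 17) (nat_lit 4) (nat_lit 18) (nat_lit 5) (nat_lit 18) (nat_lit 4) (nat_lit 553) (nat_lit 350) (nat_lit 297))) (XT.nd (nat_lit 58110) (nat_lit 0) (nat_lit 4560) (XT.lf (nat_lit 0) (nat_lit 454299009) (nat_lit 76) (nat_lit 1446286794) (nat_lit 152) (nat_lit 49961788953) (nat_lit 15) (nat_lit 5) (nat_lit 16) (nat_lit 5) (nat_lit 17) (nat_lit 4) (nat_lit 554) (nat_lit 350) (nat_lit 296)) (XT.lf (nat_lit 0) (nat_lit 4366449744)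 (nat_lit 152) (nat_lit 187662379) (nat_lit 0) (nat_lit 4366449744) (nat_lit 75) (nat_lit 5) (nat_lit 77) (nat_lit 4) (nat_lit 75) (nat_lit 4) (nat_lit 498) (nat_lit 351) (nat_lit 351))))))) (XT.nd (nat_lit 1170) (nat_lit 1368) (nat_lit 0) (XT.nd (nat_lit 546) (nat_lit 684) (nat_lit 0) (XT.nd (nat_lit 234) (nat_lit 456) (nat_lit 0) (XT.nd (nat_lit 78) (nat_lit 228) (nat_lit 0) (XT.lf (nat_lit 0) (nat_lit 16195332242) (nat_lit 76) (nat_lit 1075176570) (nat_lit 76) (nat_lit 850599165) (nat_lit 74) (nat_lit 4) (nat_lit 75) (nat_lit 5) (nat_lit 75) (nat_lit 4) (nat_lit 499) (nat_lit 351) (nat_lit 350)) (XT.nd (nat_lit 78) (nat_lit 76) (nat_lit 0) (XT.lf (nat_lit 0) (nat_lit 7554791731) (nat_lit 152) (nat_lit 3725941389) (nat_lit 0) (nat_lit 7125069672) (nat_lit 72) (nat_lit 5) (nat_lit 74) (nat_lit 4) (nat_lit 72) (nat_lit 4) (nat_lit 500) (nat_lit 351) (nat_lit 349)) (XT.lf (nat_lit 0) (nat_lit 13035695232) (nat_lit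 76) (nat_lit 3149320248) (nat_lit 76) (nat_lit 2514078050) (nat_lit 71) (nat_lit 4) (nat_lit 72) (nat_lit 5) (nat_lit 72) (nat_lit 4) (nat_lit 501) (nat_lit 351) (nat_lit 348)))) (XT.nd (nat_lit 156) (nat_lit 228) (nat_lit 0) (XT.nd (nat_lit 78) (nat_lit 76) (nat_lit 0) (XT.lf (nat_lit 0) (nat_lit 5985263236) (nat_lit 152) (nat_lit 7838444189) (nat_lit 0) (nat_lit 5174800795) (nat_lit 69) (nat_lit 5) (nat_lit 71) (nat_lit 4) (nat_lit 69) (nat_lit 4) (nat_lit 502) (nat_lit 351) (nat_lit 347)) (XT.lf (nat_lit 0) (nat_lit 9095522026) (nat_lit 76) (nat_lit 5604426457) (nat_lit 76) (nat_lit 4605883975) (nat_lit 68) (nat_lit 4) (nat_lit 69) (nat_lit 5) (nat_lit 69) (nat_lit 4) (nat_lit 503) (nat_lit 351) (nat_lit 346))) (XT.nd (nat_lit 78) (nat_lit 76) (nat_lit 0) (XT.lf (nat_lit 0) (nat_lit 3982793947) (nat_lit 152) (nat_lit 12802116428) (nat_lit 0) (nat_lit 2836051749) (nat_lit 66) (nat_lit 5) (nat_lit 68) (nat_lit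 4) (nat_lit 66) (nat_lit 4) (nat_lit 504) (nat_lit 351) (nat_lit 345)) (XT.lf (nat_lit 0) (nat_lit 4282395626) (nat_lit 76) (nat_lit 8489787964) (nat_lit 76) (nat_lit 7170925885) (nat_lit 65) (nat_lit 4) (nat_lit 66) (nat_lit 5) (nat_lit 66) (nat_lit 4) (nat_lit 505) (nat_lit 351) (nat_lit 344))))) (XT.nd (nat_lit 312) (nat_lit 304) (nat_lit 0) (XT.nd (nat_lit 156) (nat_lit 228) (nat_lit 0) (XT.nd (nat_lit 78) (nat_lit 0) (nat_lit 0) (XT.lf (nat_lit 0) (nat_lit 1501154131) (nat_lit 152) (nat_lit 18715422420) (nat_lit 0) (nat_lit 58466015) (nat_lit 63) (nat_lit 5) (nat_lit 65) (nat_lit 4) (nat_lit 63) (nat_lit 4) (nat_lit 506) (nat_lit 351) (nat_lit 343)) (XT.lf (nat_lit 0) (nat_lit 10368172334) (nat_lit 152) (nat_lit 1476294642) (nat_lit 0) (nat_lit 8767970144) (nat_lit 63) (nat_lit 5) (nat_lit 65) (nat_lit 4) (nat_lit 63) (nat_lit 4) (nat_lit 507) (nat_lit 351) (nat_lit 342))) (XT.nd (nat_lit 78) (nat_lit 152)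 (nat_lit 0) (XT.lf (nat_lit 0) (nat_lit 16282121683) (nat_lit 76) (nat_lit 3215533618) (nat_lit 76) (nat_lit 1462405144) (nat_lit 62) (nat_lit 4) (nat_lit 63) (nat_lit 5) (nat_lit 63) (nat_lit 4) (nat_lit 508) (nat_lit 351) (nat_lit 341)) (XT.lf (nat_lit 0) (nat_lit 7471618846) (nat_lit 152) (nat_lit 8217802376) (nat_lit 0) (nat_lit 5625404675) (nat_lit 60) (nat_lit 5) (nat_lit 62) (nat_lit 4) (nat_lit 60) (nat_lit 4) (nat_lit 509) (nat_lit 351) (nat_lit 340)))) (XT.nd (nat_lit 156) (nat_lit 76) (nat_lit 0) (XT.nd (nat_lit 78) (nat_lit 152) (nat_lit 0) (XT.lf (nat_lit 0) (nat_lit 9647922450) (nat_lit 76) (nat_lit 7008833413) (nat_lit 76) (nat_lit 5022670028) (nat_lit 59) (nat_lit 4) (nat_lit 60) (nat_lit 5) (nat_lit 60) (nat_lit 4) (nat_lit 510) (nat_lit 351) (nat_lit 339)) (XT.lf (nat_lit 0) (nat_lit 3983107299) (nat_lit 152) (nat_lit 16147810825) (nat_lit 0) (nat_lit 1922877777) (nat_lit 57) (nat_lit 5) (nat_lit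 59) (nat_lit 4) (nat_lit 57) (nat_lit 4) (nat_lit 511) (nat_lit 351) (nat_lit 338))) (XT.nd (nat_lit 78) (nat_lit 0) (nat_lit 0) (XT.lf (nat_lit 0) (nat_lit 1790992454) (nat_lit 76) (nat_lit 11416861806) (nat_lit 76) (nat_lit 9228558927) (nat_lit 56) (nat_lit 4) (nat_lit 57) (nat_lit 5) (nat_lit 57) (nat_lit 4) (nat_lit 512) (nat_lit 351) (nat_lit 337)) (XT.lf (nat_lit 0) (nat_lit 20285963589) (nat_lit 76) (nat_lit 2428518820) (nat_lit 76) (nat_lit 115872877) (nat_lit 56) (nat_lit 4) (nat_lit 57) (nat_lit 5) (nat_lit 57) (nat_lit 4) (nat_lit 513) (nat_lit 351) (nat_lit 336)))))) (XT.nd (nat_lit 624) (nat_lit 532) (nat_lit 0) (XT.nd (nat_lit 312) (nat_lit 380) (nat_lit 0) (XT.nd (nat_lit 156) (nat_lit 228) (nat_lit 0) (XT.nd (nat_lit 78) (nat_lit 76) (nat_lit 0) (XT.lf (nat_lit 0) (nat_lit 9155007604) (nat_lit 152) (nat_lit 7283948869) (nat_lit 0) (nat_lit 6792515018) (nat_lit 54) (nat_lit 5) (nat_lit 56) (nat_lit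 4) (nat_lit 54) (nat_lit 4) (nat_lit 514) (nat_lit 351) (nat_lit 335)) (XT.lf (nat_lit 0) (nat_lit 11290253144) (nat_lit 76) (nat_lit 7415251781) (nat_lit 76) (nat_lit 4938967677) (nat_lit 53) (nat_lit 4) (nat_lit 54) (nat_lit 5) (nat_lit 54) (nat_lit 4) (nat_lit 515) (nat_lit 351) (nat_lit 334))) (XT.nd (nat_lit 78) (nat_lit 76) (nat_lit 0) (XT.lf (nat_lit 0) (nat_lit 4383695576) (nat_lit 152) (nat_lit 17812652324) (nat_lit 0) (nat_lit 1872276831) (nat_lit 51) (nat_lit 5) (nat_lit 53) (nat_lit 4) (nat_lit 51) (nat_lit 4) (nat_lit 516) (nat_lit 351) (nat_lit 333)) (XT.lf (nat_lit 0) (nat_lit 759924924) (nat_lit 76) (nat_lit 13179048929) (nat_lit 76) (nat_lit 10563494826) (nat_lit 50) (nat_lit 4) (nat_lit 51) (nat_lit 5) (nat_lit 51) (nat_lit 4) (nat_lit 517) (nat_lit 351) (nat_lit 332)))) (XT.nd (nat_lit 156) (nat_lit 228) (nat_lit 0) (XT.nd (nat_lit 78) (nat_lit 152) (nat_lit 0) (XT.lf (nat_lit 0) (nat_lit 19950523890)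 (nat_lit 76) (nat_lit 3857326314) (nat_lit 76) (nat_lit 1140669922) (nat_lit 50) (nat_lit 4) (nat_lit 51) (nat_lit 5) (nat_lit 51) (nat_lit 4) (nat_lit 518) (nat_lit 351) (nat_lit 331)) (XT.lf (nat_lit 0) (nat_lit 8440265274) (nat_lit 152) (nat_lit 11256505394) (nat_lit 0) (nat_lit 5707436191) (nat_lit 48) (nat_lit 5) (nat_lit 50) (nat_lit 4) (nat_lit 48) (nat_lit 4) (nat_lit 519) (nat_lit 351) (nat_lit 330))) (XT.nd (nat_lit 78) (nat_lit 152) (nat_lit 0) (XT.lf (nat_lit 0) (nat_lit 7903889875) (nat_lit 76) (nat_lit 10397114391) (nat_lit 76) (nat_lit 7571762390) (nat_lit 47) (nat_lit 4) (nat_lit 48) (nat_lit 5) (nat_lit 48) (nat_lit 4) (nat_lit 520) (nat_lit 351) (nat_lit 329)) (XT.lf (nat_lit 0) (nat_lit 1221792634) (nat_lit 76) (nat_lit 816124956) (nat_lit 152) (nat_lit 24317557057) (nat_lit 45) (nat_lit 5) (nat_lit 46) (nat_lit 5) (nat_lit 47) (nat_lit 4) (nat_lit 521) (nat_lit 351) (nat_lit 328))))) (XT.nd (nat_lit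 312) (nat_lit 304) (nat_lit 0) (XT.nd (nat_lit 156) (nat_lit 152) (nat_lit 0) (XT.nd (nat_lit 78) (nat_lit 76) (nat_lit 0) (XT.lf (nat_lit 0) (nat_lit 11904287712) (nat_lit 152) (nat_lit 5953165682) (nat_lit 0) (nat_lit 8989344217) (nat_lit 45) (nat_lit 5) (nat_lit 47) (nat_lit 4) (nat_lit 45) (nat_lit 4) (nat_lit 522) (nat_lit 351) (nat_lit 327)) (XT.lf (nat_lit 0) (nat_lit 13773464196) (nat_lit 76) (nat_lit 8288345231) (nat_lit 76) (nat_lit 5291196322) (nat_lit 44) (nat_lit 4) (nat_lit 45) (nat_lit 5) (nat_lit 45) (nat_lit 4) (nat_lit 523) (nat_lit 351) (nat_lit 326))) (XT.nd (nat_lit 78) (nat_lit 0) (nat_lit 0) (XT.lf (nat_lit 0) (nat_lit 4548552895) (nat_lit 152) (nat_lit 21763604727) (nat_lit 0) (nat_lit 1561213099) (nat_lit 42) (nat_lit 5) (nat_lit 44) (nat_lit 4) (nat_lit 42) (nat_lit 4) (nat_lit 524) (nat_lit 351) (nat_lit 325)) (XT.lf (nat_lit 0) (nat_lit 14652515041) (nat_lit 152) (nat_lit 2163053542)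 (nat_lit 0) (nat_lit 11589945646) (nat_lit 42) (nat_lit 5) (nat_lit 44) (nat_lit 4) (nat_lit 42) (nat_lit 4) (nat_lit 525) (nat_lit 351) (nat_lit 324)))) (XT.nd (nat_lit 156) (nat_lit 76) (nat_lit 0) (XT.nd (nat_lit 78) (nat_lit 152) (nat_lit 0) (XT.lf (nat_lit 0) (nat_lit 18096969525) (nat_lit 76) (nat_lit 6995635183) (nat_lit 76) (nat_lit 3860027343) (nat_lit 41) (nat_lit 4) (nat_lit 42) (nat_lit 5) (nat_lit 42) (nat_lit 4) (nat_lit 526) (nat_lit 351) (nat_lit 323)) (XT.lf (nat_lit 0) (nat_lit 6207418958) (nat_lit 152) (nat_lit 20212589544) (nat_lit 0) (nat_lit 3094293762) (nat_lit 39) (nat_lit 5) (nat_lit 41) (nat_lit 4) (nat_lit 39) (nat_lit 4) (nat_lit 527) (nat_lit 351) (nat_lit 322))) (XT.nd (nat_lit 78) (nat_lit 76) (nat_lit 0) (XT.lf (nat_lit 0) (nat_lit 16538449726) (nat_lit 152) (nat_lit 193568239) (nat_lit 0) (nat_lit 13358484006) (nat_lit 39) (nat_lit 5) (nat_lit 41) (nat_lit 4) (nat_lit 39) (nat_lit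 4) (nat_lit 528) (nat_lit 351) (nat_lit 321)) (XT.lf (nat_lit 0) (nat_lit 20553497656) (nat_lit 76) (nat_lit 6686762117) (nat_lit 76) (nat_lit 3441902684) (nat_lit 38) (nat_lit 4) (nat_lit 39) (nat_lit 5) (nat_lit 39) (nat_lit 4) (nat_lit 529) (nat_lit 351) (nat_lit 320))))))))
noncomputable def xc13 : XT := (XT.nd (nat_lit 60294) (nat_lit 0) (nat_lit 1216) (XT.nd (nat_lit 1170) (nat_lit 532) (nat_lit 0) (XT.nd (nat_lit 546) (nat_lit 456) (nat_lit 0) (XT.nd (nat_lit 234) (nat_lit 380) (nat_lit 0) (XT.nd (nat_lit 78) (nat_lit 76) (nat_lit 0) (XT.lf (nat_lit 0) (nat_lit 6837274257) (nat_lit 152) (nat_lit 20826478646) (nat_lit 0) (nat_lit 3625756745) (nat_lit 36) (nat_lit 5) (nat_lit 38) (nat_lit 4) (nat_lit 36) (nat_lit 4) (nat_lit 530) (nat_lit 351) (nat_lit 319)) (XT.nd (nat_lit 78) (nat_lit 76) (nat_lit 0) (XT.lf (nat_lit 0) (nat_lit 17388531576) (nat_lit 152) (nat_lit 406909908) (nat_lit 0) (nat_lit 14117627124)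 (nat_lit 36) (nat_lit 5) (nat_lit 38) (nat_lit 4) (nat_lit 36) (nat_lit 4) (nat_lit 531) (nat_lit 351) (nat_lit 318)) (XT.lf (nat_lit 0) (nat_lit 20764702214) (nat_lit 76) (nat_lit 7558592484) (nat_lit 76) (nat_lit 4230030809) (nat_lit 35) (nat_lit 4) (nat_lit 36) (nat_lit 5) (nat_lit 36) (nat_lit 4) (nat_lit 532) (nat_lit 351) (nat_lit 317)))) (XT.nd (nat_lit 156) (nat_lit 228) (nat_lit 0) (XT.nd (nat_lit 78) (nat_lit 0) (nat_lit 0) (XT.lf (nat_lit 0) (nat_lit 6238062865) (nat_lit 152) (nat_lit 24021113839) (nat_lit 0) (nat_lit 2952102126) (nat_lit 33) (nat_lit 5) (nat_lit 35) (nat_lit 4) (nat_lit 33) (nat_lit 4) (nat_lit 533) (nat_lit 351) (nat_lit 316)) (XT.lf (nat_lit 0) (nat_lit 16997701281) (nat_lit 152) (nat_lit 3229161567) (nat_lit 0) (nat_lit 13658976014) (nat_lit 33) (nat_lit 5) (nat_lit 35) (nat_lit 4) (nat_lit 33) (nat_lit 4) (nat_lit 534) (nat_lit 351) (nat_lit 315))) (XT.nd (nat_lit 78) (nat_lit 152)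 (nat_lit 0) (XT.lf (nat_lit 0) (nat_lit 18285266962) (nat_lit 76) (nat_lit 9841954551) (nat_lit 76) (nat_lit 6452001589) (nat_lit 32) (nat_lit 4) (nat_lit 33) (nat_lit 5) (nat_lit 33) (nat_lit 4) (nat_lit 535) (nat_lit 351) (nat_lit 314)) (XT.lf (nat_lit 0) (nat_lit 4174057373) (nat_lit 152) (nat_lit 30284737767) (nat_lit 0) (nat_lit 834553888) (nat_lit 30) (nat_lit 5) (nat_lit 32) (nat_lit 4) (nat_lit 30) (nat_lit 4) (nat_lit 536) (nat_lit 351) (nat_lit 313))))) (XT.nd (nat_lit 312) (nat_lit 228) (nat_lit 0) (XT.nd (nat_lit 156) (nat_lit 152) (nat_lit 0) (XT.nd (nat_lit 78) (nat_lit 76) (nat_lit 0) (XT.lf (nat_lit 0) (nat_lit 15124241128) (nat_lit 152) (nat_lit 9160833641) (nat_lit 0) (nat_lit 11737857043) (nat_lit 30) (nat_lit 5) (nat_lit 32) (nat_lit 4) (nat_lit 30) (nat_lit 4) (nat_lit 537) (nat_lit 351) (nat_lit 312)) (XT.lf (nat_lit 0) (nat_lit 12591838119) (nat_lit 76) (nat_lit 13807288731) (nat_lit 76) (nat_lit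 10375389502) (nat_lit 29) (nat_lit 4) (nat_lit 30) (nat_lit 5) (nat_lit 30) (nat_lit 4) (nat_lit 538) (nat_lit 351) (nat_lit 311))) (XT.nd (nat_lit 78) (nat_lit 76) (nat_lit 0) (XT.lf (nat_lit 0) (nat_lit 423168852) (nat_lit 152) (nat_lit 2617055918) (nat_lit 76) (nat_lit 34509231975) (nat_lit 28) (nat_lit 5) (nat_lit 30) (nat_lit 5) (nat_lit 29) (nat_lit 4) (nat_lit 539) (nat_lit 351) (nat_lit 310)) (XT.lf (nat_lit 0) (nat_lit 11483777667) (nat_lit 152) (nat_lit 18789105700) (nat_lit 0) (nat_lit 8067281475) (nat_lit 27) (nat_lit 5) (nat_lit 29) (nat_lit 4) (nat_lit 27) (nat_lit 4) (nat_lit 540) (nat_lit 351) (nat_lit 309)))) (XT.nd (nat_lit 156) (nat_lit 152) (nat_lit 0) (XT.nd (nat_lit 78) (nat_lit 0) (nat_lit 0) (XT.lf (nat_lit 0) (nat_lit 3070174183) (nat_lit 76) (nat_lit 19771200429) (nat_lit 76) (nat_lit 16314264620) (nat_lit 26) (nat_lit 4) (nat_lit 27) (nat_lit 5) (nat_lit 27) (nat_lit 4) (nat_lit 541) (nat_lit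 351) (nat_lit 308)) (XT.lf (nat_lit 0) (nat_lit 25729340890) (nat_lit 76) (nat_lit 8880170166) (nat_lit 76) (nat_lit 5383972594) (nat_lit 26) (nat_lit 4) (nat_lit 27) (nat_lit 5) (nat_lit 27) (nat_lit 4) (nat_lit 542) (nat_lit 351) (nat_lit 307))) (XT.nd (nat_lit 78) (nat_lit 0) (nat_lit 0) (XT.lf (nat_lit 0) (nat_lit 5742312617) (nat_lit 152) (nat_lit 32802037504) (nat_lit 0) (nat_lit 2310938064) (nat_lit 24) (nat_lit 5) (nat_lit 26) (nat_lit 4) (nat_lit 24) (nat_lit 4) (nat_lit 543) (nat_lit 351) (nat_lit 306)) (XT.lf (nat_lit 0) (nat_lit 17210024761) (nat_lit 152) (nat_lit 10785127364) (nat_lit 0) (nat_lit 13742720133) (nat_lit 24) (nat_lit 5) (nat_lit 26) (nat_lit 4) (nat_lit 24) (nat_lit 4) (nat_lit 544) (nat_lit 351) (nat_lit 305)))))) (XT.nd (nat_lit 624) (nat_lit 76) (nat_lit 0) (XT.nd (nat_lit 312) (nat_lit 228) (nat_lit 0) (XT.nd (nat_lit 156) (nat_lit 152) (nat_lit 0) (XT.nd (nat_lit 78) (nat_lit 0) (nat_lit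 0) (XT.lf (nat_lit 0) (nat_lit 11894874445) (nat_lit 76) (nat_lit 17127120468) (nat_lit 76) (nat_lit 13624932271) (nat_lit 23) (nat_lit 4) (nat_lit 24) (nat_lit 5) (nat_lit 24) (nat_lit 4) (nat_lit 545) (nat_lit 351) (nat_lit 304)) (XT.lf (nat_lit 0) (nat_lit 35249083638) (nat_lit 76) (nat_lit 5935173989) (nat_lit 76) (nat_lit 2399118250) (nat_lit 23) (nat_lit 4) (nat_lit 24) (nat_lit 5) (nat_lit 24) (nat_lit 4) (nat_lit 546) (nat_lit 351) (nat_lit 303))) (XT.nd (nat_lit 78) (nat_lit 0) (nat_lit 0) (XT.lf (nat_lit 0) (nat_lit 9070460936) (nat_lit 152) (nat_lit 29866766868) (nat_lit 0) (nat_lit 5605473706) (nat_lit 21) (nat_lit 5) (nat_lit 23) (nat_lit 4) (nat_lit 21) (nat_lit 4) (nat_lit 547) (nat_lit 351) (nat_lit 302)) (XT.lf (nat_lit 0) (nat_lit 20868932165) (nat_lit 152) (nat_lit 7287220179) (nat_lit 0) (nat_lit 17372951336) (nat_lit 21) (nat_lit 5) (nat_lit 23) (nat_lit 4) (nat_lit 21) (nat_lit 4) (nat_lit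 548) (nat_lit 351) (nat_lit 301)))) (XT.nd (nat_lit 156) (nat_lit 152) (nat_lit 0) (XT.nd (nat_lit 78) (nat_lit 0) (nat_lit 0) (XT.lf (nat_lit 0) (nat_lit 16066826600) (nat_lit 76) (nat_lit 17001467514) (nat_lit 76) (nat_lit 13475395813) (nat_lit 20) (nat_lit 4) (nat_lit 21) (nat_lit 5) (nat_lit 21) (nat_lit 4) (nat_lit 549) (nat_lit 351) (nat_lit 300)) (XT.lf (nat_lit 0) (nat_lit 40056589331) (nat_lit 76) (nat_lit 5544198082) (nat_lit 76) (nat_lit 1988911941) (nat_lit 20) (nat_lit 4) (nat_lit 21) (nat_lit 5) (nat_lit 21) (nat_lit 4) (nat_lit 550) (nat_lit 351) (nat_lit 299))) (XT.nd (nat_lit 78) (nat_lit 0) (nat_lit 0) (XT.lf (nat_lit 0) (nat_lit 9762193653) (nat_lit 152) (nat_lit 32615772619) (nat_lit 0) (nat_lit 6282922125) (nat_lit 18) (nat_lit 5) (nat_lit 20) (nat_lit 4) (nat_lit 18) (nat_lit 4) (nat_lit 551) (nat_lit 351) (nat_lit 298)) (XT.lf (nat_lit 0) (nat_lit 21853246542) (nat_lit 152) (nat_lit 9562314560)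 (nat_lit 0) (nat_lit 18347239664) (nat_lit 18) (nat_lit 5) (nat_lit 20) (nat_lit 4) (nat_lit 18) (nat_lit 4) (nat_lit 552) (nat_lit 351) (nat_lit 297))))) (XT.nd (nat_lit 58188) (nat_lit 0) (nat_lit 4104) (XT.nd (nat_lit 58032) (nat_lit 0) (nat_lit 4408) (XT.nd (nat_lit 78) (nat_lit 0) (nat_lit 0) (XT.lf (nat_lit 0) (nat_lit 14256917211) (nat_lit 76) (nat_lit 20085872084) (nat_lit 76) (nat_lit 16553908555) (nat_lit 17) (nat_lit 4) (nat_lit 18) (nat_lit 5) (nat_lit 18) (nat_lit 4) (nat_lit 553) (nat_lit 351) (nat_lit 296)) (XT.lf (nat_lit 0) (nat_lit 38784710507) (nat_lit 76) (nat_lit 8418588586) (nat_lit 76) (nat_lit 4861424425) (nat_lit 17) (nat_lit 4) (nat_lit 18) (nat_lit 5) (nat_lit 18) (nat_lit 4) (nat_lit 554) (nat_lit 351) (nat_lit 295))) (XT.nd (nat_lit 78) (nat_lit 152) (nat_lit 0) (XT.lf (nat_lit 0) (nat_lit 1248906321) (nat_lit 76) (nat_lit 3700491764) (nat_lit 76) (nat_lit 3700491764) (nat_lit 77) (nat_lit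 4) (nat_lit 78) (nat_lit 5) (nat_lit 78) (nat_lit 4) (nat_lit 496) (nat_lit 352) (nat_lit 352)) (XT.lf (nat_lit 0) (nat_lit 665052773) (nat_lit 152) (nat_lit 16470810961) (nat_lit 0) (nat_lit 433738046) (nat_lit 75) (nat_lit 5) (nat_lit 77) (nat_lit 4) (nat_lit 75) (nat_lit 4) (nat_lit 497) (nat_lit 352) (nat_lit 351)))) (XT.nd (nat_lit 156) (nat_lit 228) (nat_lit 0) (XT.nd (nat_lit 78) (nat_lit 76) (nat_lit 0) (XT.lf (nat_lit 0) (nat_lit 8882339141) (nat_lit 152) (nat_lit 534794243) (nat_lit 0) (nat_lit 8426447008) (nat_lit 75) (nat_lit 5) (nat_lit 77) (nat_lit 4) (nat_lit 75) (nat_lit 4) (nat_lit 498) (nat_lit 352) (nat_lit 350)) (XT.lf (nat_lit 0) (nat_lit 15874782943) (nat_lit 76) (nat_lit 1462593842) (nat_lit 76) (nat_lit 788665394) (nat_lit 74) (nat_lit 4) (nat_lit 75) (nat_lit 5) (nat_lit 75) (nat_lit 4) (nat_lit 499) (nat_lit 352) (nat_lit 349))) (XT.nd (nat_lit 78) (nat_lit 76) (nat_lit 0) (XT.lf (nat_lit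 0) (nat_lit 7526883471) (nat_lit 152) (nat_lit 4219431169) (nat_lit 0) (nat_lit 6667063868) (nat_lit 72) (nat_lit 5) (nat_lit 74) (nat_lit 4) (nat_lit 72) (nat_lit 4) (nat_lit 500) (nat_lit 352) (nat_lit 348)) (XT.lf (nat_lit 0) (nat_lit 12374290393) (nat_lit 76) (nat_lit 3697151447) (nat_lit 76) (nat_lit 2637797728) (nat_lit 71) (nat_lit 4) (nat_lit 72) (nat_lit 5) (nat_lit 72) (nat_lit 4) (nat_lit 501) (nat_lit 352) (nat_lit 347))))))) (XT.nd (nat_lit 1248) (nat_lit 1368) (nat_lit 0) (XT.nd (nat_lit 624) (nat_lit 684) (nat_lit 0) (XT.nd (nat_lit 312) (nat_lit 380) (nat_lit 0) (XT.nd (nat_lit 156) (nat_lit 228) (nat_lit 0) (XT.nd (nat_lit 78) (nat_lit 76) (nat_lit 0) (XT.lf (nat_lit 0) (nat_lit 5770528206) (nat_lit 152) (nat_lit 8687015550) (nat_lit 0) (nat_lit 4553949408) (nat_lit 69) (nat_lit 5) (nat_lit 71) (nat_lit 4) (nat_lit 69) (nat_lit 4) (nat_lit 502) (nat_lit 352) (nat_lit 346)) (XT.lf (nat_lit 0) (nat_lit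 8071797120) (nat_lit 76) (nat_lit 6324435409) (nat_lit 76) (nat_lit 4925254630) (nat_lit 68) (nat_lit 4) (nat_lit 69) (nat_lit 5) (nat_lit 69) (nat_lit 4) (nat_lit 503) (nat_lit 352) (nat_lit 345))) (XT.nd (nat_lit 78) (nat_lit 76) (nat_lit 0) (XT.lf (nat_lit 0) (nat_lit 3571086544) (nat_lit 152) (nat_lit 14028041034) (nat_lit 0) (nat_lit 2040538722) (nat_lit 66) (nat_lit 5) (nat_lit 68) (nat_lit 4) (nat_lit 66) (nat_lit 4) (nat_lit 504) (nat_lit 352) (nat_lit 344)) (XT.lf (nat_lit 0) (nat_lit 2873650305) (nat_lit 76) (nat_lit 9394297008) (nat_lit 76) (nat_lit 7696642505) (nat_lit 65) (nat_lit 4) (nat_lit 66) (nat_lit 5) (nat_lit 66) (nat_lit 4) (nat_lit 505) (nat_lit 352) (nat_lit 343)))) (XT.nd (nat_lit 156) (nat_lit 228) (nat_lit 0) (XT.nd (nat_lit 78) (nat_lit 76) (nat_lit 0) (XT.lf (nat_lit 0) (nat_lit 891185989) (nat_lit 152) (nat_lit 50786440) (nat_lit 76) (nat_lit 19357537675) (nat_lit 64) (nat_lit 5) (nat_lit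 66) (nat_lit 5) (nat_lit 65) (nat_lit 4) (nat_lit 506) (nat_lit 352) (nat_lit 342)) (XT.lf (nat_lit 0) (nat_lit 9669799498) (nat_lit 152) (nat_lit 3258606691) (nat_lit 0) (nat_lit 7711150885) (nat_lit 63) (nat_lit 5) (nat_lit 65) (nat_lit 4) (nat_lit 63) (nat_lit 4) (nat_lit 507) (nat_lit 352) (nat_lit 341))) (XT.nd (nat_lit 78) (nat_lit 152) (nat_lit 0) (XT.lf (nat_lit 0) (nat_lit 14310390382) (nat_lit 76) (nat_lit 4393388070) (nat_lit 76) (nat_lit 2286267335) (nat_lit 62) (nat_lit 4) (nat_lit 63) (nat_lit 5) (nat_lit 63) (nat_lit 4) (nat_lit 508) (nat_lit 352) (nat_lit 340)) (XT.lf (nat_lit 0) (nat_lit 6553973117) (nat_lit 152) (nat_lit 10426096145) (nat_lit 0) (nat_lit 4368275616) (nat_lit 60) (nat_lit 5) (nat_lit 62) (nat_lit 4) (nat_lit 60) (nat_lit 4) (nat_lit 509) (nat_lit 352) (nat_lit 339))))) (XT.nd (nat_lit 312) (nat_lit 380) (nat_lit 0) (XT.nd (nat_lit 156) (nat_lit 76) (nat_lit 0) (XT.nd (nat_lit 78)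 (nat_lit 152) (nat_lit 0) (XT.lf (nat_lit 0) (nat_lit 7241603821) (nat_lit 76) (nat_lit 8397949266) (nat_lit 76) (nat_lit 6076378742) (nat_lit 59) (nat_lit 4) (nat_lit 60) (nat_lit 5) (nat_lit 60) (nat_lit 4) (nat_lit 510) (nat_lit 352) (nat_lit 338)) (XT.lf (nat_lit 0) (nat_lit 2833819343) (nat_lit 152) (nat_lit 18808476799) (nat_lit 0) (nat_lit 451794022) (nat_lit 57) (nat_lit 5) (nat_lit 59) (nat_lit 4) (nat_lit 57) (nat_lit 4) (nat_lit 511) (nat_lit 352) (nat_lit 337))) (XT.nd (nat_lit 78) (nat_lit 76) (nat_lit 0) (XT.lf (nat_lit 0) (nat_lit 11965038071) (nat_lit 152) (nat_lit 1055805766) (nat_lit 0) (nat_lit 9458669686) (nat_lit 57) (nat_lit 5) (nat_lit 59) (nat_lit 4) (nat_lit 57) (nat_lit 4) (nat_lit 512) (nat_lit 352) (nat_lit 336)) (XT.lf (nat_lit 0) (nat_lit 17268451422) (nat_lit 76) (nat_lit 4117335304) (nat_lit 76) (nat_lit 1490245497) (nat_lit 56) (nat_lit 4) (nat_lit 57) (nat_lit 5) (nat_lit 57) (nat_lit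 4) (nat_lit 513) (nat_lit 352) (nat_lit 335)))) (XT.nd (nat_lit 156) (nat_lit 152) (nat_lit 0) (XT.nd (nat_lit 78) (nat_lit 76) (nat_lit 0) (XT.lf (nat_lit 0) (nat_lit 7684683539) (nat_lit 152) (nat_lit 10576225154) (nat_lit 0) (nat_lit 5020319393) (nat_lit 54) (nat_lit 5) (nat_lit 56) (nat_lit 4) (nat_lit 54) (nat_lit 4) (nat_lit 514) (nat_lit 352) (nat_lit 334)) (XT.lf (nat_lit 0) (nat_lit 7782648903) (nat_lit 76) (nat_lit 9344826502) (nat_lit 76) (nat_lit 6569985154) (nat_lit 53) (nat_lit 4) (nat_lit 54) (nat_lit 5) (nat_lit 54) (nat_lit 4) (nat_lit 515) (nat_lit 352) (nat_lit 333))) (XT.nd (nat_lit 78) (nat_lit 0) (nat_lit 0) (XT.lf (nat_lit 0) (nat_lit 2509576245) (nat_lit 76) (nat_lit 146422282) (nat_lit 152) (nat_lit 21469939896) (nat_lit 51) (nat_lit 5) (nat_lit 52) (nat_lit 5) (nat_lit 53) (nat_lit 4) (nat_lit 516) (nat_lit 352) (nat_lit 332)) (XT.lf (nat_lit 0) (nat_lit 12128668855) (nat_lit 152) (nat_lit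 3204181459) (nat_lit 0) (nat_lit 9229410480) (nat_lit 51) (nat_lit 5) (nat_lit 53) (nat_lit 4) (nat_lit 51) (nat_lit 4) (nat_lit 517) (nat_lit 352) (nat_lit 331)))))) (XT.nd (nat_lit 624) (nat_lit 684) (nat_lit 0) (XT.nd (nat_lit 312) (nat_lit 380) (nat_lit 0) (XT.nd (nat_lit 156) (nat_lit 76) (nat_lit 0) (XT.nd (nat_lit 78) (nat_lit 152) (nat_lit 0) (XT.lf (nat_lit 0) (nat_lit 15777113788) (nat_lit 76) (nat_lit 6115875620) (nat_lit 76) (nat_lit 3118459683) (nat_lit 50) (nat_lit 4) (nat_lit 51) (nat_lit 5) (nat_lit 51) (nat_lit 4) (nat_lit 518) (nat_lit 352) (nat_lit 330)) (XT.lf (nat_lit 0) (nat_lit 6363603987) (nat_lit 152) (nat_lit 15747257806) (nat_lit 0) (nat_lit 3360968509) (nat_lit 48) (nat_lit 5) (nat_lit 50) (nat_lit 4) (nat_lit 48) (nat_lit 4) (nat_lit 519) (nat_lit 352) (nat_lit 329))) (XT.nd (nat_lit 78) (nat_lit 0) (nat_lit 0) (XT.lf (nat_lit 0) (nat_lit 3178144011) (nat_lit 76) (nat_lit 12929111219)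 (nat_lit 76) (nat_lit 9836647665) (nat_lit 47) (nat_lit 4) (nat_lit 48) (nat_lit 5) (nat_lit 48) (nat_lit 4) (nat_lit 520) (nat_lit 352) (nat_lit 328)) (XT.lf (nat_lit 0) (nat_lit 22707115205) (nat_lit 76) (nat_lit 3451123686) (nat_lit 76) (nat_lit 271448409) (nat_lit 47) (nat_lit 4) (nat_lit 48) (nat_lit 5) (nat_lit 48) (nat_lit 4) (nat_lit 521) (nat_lit 352) (nat_lit 327)))) (XT.nd (nat_lit 156) (nat_lit 152) (nat_lit 0) (XT.nd (nat_lit 78) (nat_lit 76) (nat_lit 0) (XT.lf (nat_lit 0) (nat_lit 9466446604) (nat_lit 152) (nat_lit 11161477432) (nat_lit 0) (nat_lit 6297177815) (nat_lit 45) (nat_lit 5) (nat_lit 47) (nat_lit 4) (nat_lit 45) (nat_lit 4) (nat_lit 522) (nat_lit 352) (nat_lit 326)) (XT.lf (nat_lit 0) (nat_lit 8320044446) (nat_lit 76) (nat_lit 11182001613) (nat_lit 76) (nat_lit 7932921743) (nat_lit 44) (nat_lit 4) (nat_lit 45) (nat_lit 5) (nat_lit 45) (nat_lit 4) (nat_lit 523) (nat_lit 352) (nat_lit 325)))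 (XT.nd (nat_lit 78) (nat_lit 0) (nat_lit 0) (XT.lf (nat_lit 0) (nat_lit 364407702) (nat_lit 76) (nat_lit 1453806119) (nat_lit 152) (nat_lit 26142085802) (nat_lit 42) (nat_lit 5) (nat_lit 43) (nat_lit 5) (nat_lit 44) (nat_lit 4) (nat_lit 524) (nat_lit 352) (nat_lit 324)) (XT.lf (nat_lit 0) (nat_lit 11838767358) (nat_lit 152) (nat_lit 8120125327) (nat_lit 0) (nat_lit 8536052837) (nat_lit 42) (nat_lit 5) (nat_lit 44) (nat_lit 4) (nat_lit 42) (nat_lit 4) (nat_lit 525) (nat_lit 352) (nat_lit 323))))) (XT.nd (nat_lit 312) (nat_lit 380) (nat_lit 0) (XT.nd (nat_lit 156) (nat_lit 76) (nat_lit 0) (XT.nd (nat_lit 78) (nat_lit 152) (nat_lit 0) (XT.lf (nat_lit 0) (nat_lit 11883941254) (nat_lit 76) (nat_lit 10267780947) (nat_lit 76) (nat_lit 6894155314) (nat_lit 41) (nat_lit 4) (nat_lit 42) (nat_lit 5) (nat_lit 42) (nat_lit 4) (nat_lit 526) (nat_lit 352) (nat_lit 322)) (XT.lf (nat_lit 0) (nat_lit 2793504367) (nat_lit 76) (nat_lit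 278404863) (nat_lit 152) (nat_lit 26541331251) (nat_lit 39) (nat_lit 5) (nat_lit 40) (nat_lit 5) (nat_lit 41) (nat_lit 4) (nat_lit 527) (nat_lit 352) (nat_lit 321))) (XT.nd (nat_lit 78) (nat_lit 76) (nat_lit 0) (XT.lf (nat_lit 0) (nat_lit 13332911862) (nat_lit 152) (nat_lit 6932816354) (nat_lit 0) (nat_lit 9925812934) (nat_lit 39) (nat_lit 5) (nat_lit 41) (nat_lit 4) (nat_lit 39) (nat_lit 4) (nat_lit 528) (nat_lit 352) (nat_lit 320)) (XT.lf (nat_lit 0) (nat_lit 13546668896) (nat_lit 76) (nat_lit 10355308856) (nat_lit 76) (nat_lit 6885206323) (nat_lit 38) (nat_lit 4) (nat_lit 39) (nat_lit 5) (nat_lit 39) (nat_lit 4) (nat_lit 529) (nat_lit 352) (nat_lit 319)))) (XT.nd (nat_lit 156) (nat_lit 228) (nat_lit 0) (XT.nd (nat_lit 78) (nat_lit 0) (nat_lit 0) (XT.lf (nat_lit 0) (nat_lit 3146536737) (nat_lit 76) (nat_lit 143023764) (nat_lit 152) (nat_lit 28111111888) (nat_lit 36) (nat_lit 5) (nat_lit 37) (nat_lit 5) (nat_lit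 38) (nat_lit 4) (nat_lit 530) (nat_lit 352) (nat_lit 318)) (XT.lf (nat_lit 0) (nat_lit 13774105581) (nat_lit 152) (nat_lit 7964097407) (nat_lit 0) (nat_lit 10288029832) (nat_lit 36) (nat_lit 5) (nat_lit 38) (nat_lit 4) (nat_lit 36) (nat_lit 4) (nat_lit 531) (nat_lit 352) (nat_lit 317))) (XT.nd (nat_lit 78) (nat_lit 152) (nat_lit 0) (XT.lf (nat_lit 0) (nat_lit 12927489927) (nat_lit 76) (nat_lit 11642608321) (nat_lit 76) (nat_lit 8100554685) (nat_lit 35) (nat_lit 4) (nat_lit 36) (nat_lit 5) (nat_lit 36) (nat_lit 4) (nat_lit 532) (nat_lit 352) (nat_lit 316)) (XT.lf (nat_lit 0) (nat_lit 1015432595) (nat_lit 76) (nat_lit 1256406662) (nat_lit 152) (nat_lit 31063020098) (nat_lit 33) (nat_lit 5) (nat_lit 34) (nat_lit 5) (nat_lit 35) (nat_lit 4) (nat_lit 533) (nat_lit 352) (nat_lit 315))))))))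
noncomputable def xc14 : XT := (XT.nd (nat_lit 60138) (nat_lit 0) (nat_lit 1140) (XT.nd (nat_lit 1170) (nat_lit 304) (nat_lit 0) (XT.nd (nat_lit 546) (nat_lit 456) (nat_lit 0) (XT.nd (nat_lit 234) (nat_lit 380) (nat_lit 0) (XT.nd (nat_lit 78) (nat_lit 76) (nat_lit 0) (XT.lf (nat_lit 0) (nat_lit 12956012881) (nat_lit 152) (nat_lit 11642536907) (nat_lit 0) (nat_lit 9413133634) (nat_lit 33) (nat_lit 5) (nat_lit 35) (nat_lit 4) (nat_lit 33) (nat_lit 4) (nat_lit 534) (nat_lit 352) (nat_lit 314)) (XT.nd (nat_lit 78) (nat_lit 0) (nat_lit 0) (XT.lf (nat_lit 0) (nat_lit 9578555655) (nat_lit 76) (nat_lit 14361742018) (nat_lit 76) (nat_lit 10769127143) (nat_lit 32) (nat_lit 4) (nat_lit 33) (nat_lit 5) (nat_lit 33) (nat_lit 4) (nat_lit 535) (nat_lit 352) (nat_lit 313)) (XT.lf (nat_lit 0) (nat_lit 31426821782) (nat_lit 76) (nat_lit 3821180992) (nat_lit 76) (nat_lit 180279100) (nat_lit 32) (nat_lit 4) (nat_lit 33) (nat_lit 5)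 (nat_lit 33) (nat_lit 4) (nat_lit 536) (nat_lit 352) (nat_lit 312)))) (XT.nd (nat_lit 156) (nat_lit 152) (nat_lit 0) (XT.nd (nat_lit 78) (nat_lit 76) (nat_lit 0) (XT.lf (nat_lit 0) (nat_lit 10635573097) (nat_lit 152) (nat_lit 18471277368) (nat_lit 0) (nat_lit 7055201747) (nat_lit 30) (nat_lit 5) (nat_lit 32) (nat_lit 4) (nat_lit 30) (nat_lit 4) (nat_lit 537) (nat_lit 352) (nat_lit 311)) (XT.lf (nat_lit 0) (nat_lit 2973830257) (nat_lit 76) (nat_lit 18784466129) (nat_lit 76) (nat_lit 15159905319) (nat_lit 29) (nat_lit 4) (nat_lit 30) (nat_lit 5) (nat_lit 30) (nat_lit 4) (nat_lit 538) (nat_lit 352) (nat_lit 310))) (XT.nd (nat_lit 78) (nat_lit 152) (nat_lit 0) (XT.lf (nat_lit 0) (nat_lit 25199959299) (nat_lit 76) (nat_lit 8081271923) (nat_lit 76) (nat_lit 4413808724) (nat_lit 29) (nat_lit 4) (nat_lit 30) (nat_lit 5) (nat_lit 30) (nat_lit 4) (nat_lit 539) (nat_lit 352) (nat_lit 309)) (XT.lf (nat_lit 0) (nat_lit 6526998336)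 (nat_lit 152) (nat_lit 29040285721) (nat_lit 0) (nat_lit 2925914836) (nat_lit 27) (nat_lit 5) (nat_lit 29) (nat_lit 4) (nat_lit 27) (nat_lit 4) (nat_lit 540) (nat_lit 352) (nat_lit 308))))) (XT.nd (nat_lit 312) (nat_lit 228) (nat_lit 0) (XT.nd (nat_lit 156) (nat_lit 152) (nat_lit 0) (XT.nd (nat_lit 78) (nat_lit 76) (nat_lit 0) (XT.lf (nat_lit 0) (nat_lit 17797149678) (nat_lit 152) (nat_lit 7357342629) (nat_lit 0) (nat_lit 14156804415) (nat_lit 27) (nat_lit 5) (nat_lit 29) (nat_lit 4) (nat_lit 27) (nat_lit 4) (nat_lit 541) (nat_lit 352) (nat_lit 307)) (XT.lf (nat_lit 0) (nat_lit 15040113334) (nat_lit 76) (nat_lit 14395687951) (nat_lit 76) (nat_lit 10717224471) (nat_lit 26) (nat_lit 4) (nat_lit 27) (nat_lit 5) (nat_lit 27) (nat_lit 4) (nat_lit 542) (nat_lit 352) (nat_lit 306))) (XT.nd (nat_lit 78) (nat_lit 76) (nat_lit 0) (XT.lf (nat_lit 0) (nat_lit 356603437) (nat_lit 152) (nat_lit 2991566478) (nat_lit 76) (nat_lit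 37672894281) (nat_lit 25) (nat_lit 5) (nat_lit 27) (nat_lit 5) (nat_lit 26) (nat_lit 4) (nat_lit 543) (nat_lit 352) (nat_lit 305)) (XT.lf (nat_lit 0) (nat_lit 11706297579) (nat_lit 152) (nat_lit 22136731126) (nat_lit 0) (nat_lit 8064160169) (nat_lit 24) (nat_lit 5) (nat_lit 26) (nat_lit 4) (nat_lit 24) (nat_lit 4) (nat_lit 544) (nat_lit 352) (nat_lit 304)))) (XT.nd (nat_lit 156) (nat_lit 152) (nat_lit 0) (XT.nd (nat_lit 78) (nat_lit 0) (nat_lit 0) (XT.lf (nat_lit 0) (nat_lit 205392295) (nat_lit 76) (nat_lit 23145932404) (nat_lit 76) (nat_lit 19469927452) (nat_lit 23) (nat_lit 4) (nat_lit 24) (nat_lit 5) (nat_lit 24) (nat_lit 4) (nat_lit 545) (nat_lit 352) (nat_lit 303)) (XT.lf (nat_lit 0) (nat_lit 23450903220) (nat_lit 76) (nat_lit 12008652350) (nat_lit 76) (nat_lit 8299766289) (nat_lit 23) (nat_lit 4) (nat_lit 24) (nat_lit 5) (nat_lit 24) (nat_lit 4) (nat_lit 546) (nat_lit 352) (nat_lit 302))) (XT.nd (nat_lit 78)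 (nat_lit 0) (nat_lit 0) (XT.lf (nat_lit 0) (nat_lit 2469245436) (nat_lit 76) (nat_lit 589894910) (nat_lit 152) (nat_lit 41667983285) (nat_lit 21) (nat_lit 5) (nat_lit 22) (nat_lit 5) (nat_lit 23) (nat_lit 4) (nat_lit 547) (nat_lit 352) (nat_lit 301)) (XT.lf (nat_lit 0) (nat_lit 14798981745) (nat_lit 152) (nat_lit 19779265985) (nat_lit 0) (nat_lit 11137037020) (nat_lit 21) (nat_lit 5) (nat_lit 23) (nat_lit 4) (nat_lit 21) (nat_lit 4) (nat_lit 548) (nat_lit 352) (nat_lit 300)))))) (XT.nd (nat_lit 58344) (nat_lit 0) (nat_lit 3876) (XT.nd (nat_lit 312) (nat_lit 76) (nat_lit 0) (XT.nd (nat_lit 156) (nat_lit 152) (nat_lit 0) (XT.nd (nat_lit 78) (nat_lit 0) (nat_lit 0) (XT.lf (nat_lit 0) (nat_lit 3220604824) (nat_lit 76) (nat_lit 23602836234) (nat_lit 76) (nat_lit 19911677070) (nat_lit 20) (nat_lit 4) (nat_lit 21) (nat_lit 5) (nat_lit 21) (nat_lit 4) (nat_lit 549) (nat_lit 352) (nat_lit 299)) (XT.lf (nat_lit 0) (nat_lit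 27107882348) (nat_lit 76) (nat_lit 12197147545) (nat_lit 76) (nat_lit 8477624848) (nat_lit 20) (nat_lit 4) (nat_lit 21) (nat_lit 5) (nat_lit 21) (nat_lit 4) (nat_lit 550) (nat_lit 352) (nat_lit 298))) (XT.nd (nat_lit 78) (nat_lit 0) (nat_lit 0) (XT.lf (nat_lit 0) (nat_lit 2666474987) (nat_lit 76) (nat_lit 492901907) (nat_lit 152) (nat_lit 45703559803) (nat_lit 18) (nat_lit 5) (nat_lit 19) (nat_lit 5) (nat_lit 20) (nat_lit 4) (nat_lit 551) (nat_lit 352) (nat_lit 297)) (XT.lf (nat_lit 0) (nat_lit 15195796175) (nat_lit 152) (nat_lit 23238774855) (nat_lit 0) (nat_lit 11531917090) (nat_lit 18) (nat_lit 5) (nat_lit 20) (nat_lit 4) (nat_lit 18) (nat_lit 4) (nat_lit 552) (nat_lit 352) (nat_lit 296)))) (XT.nd (nat_lit 57876) (nat_lit 0) (nat_lit 4636) (XT.nd (nat_lit 78) (nat_lit 0) (nat_lit 0) (XT.lf (nat_lit 0) (nat_lit 208744647) (nat_lit 76) (nat_lit 27293112389) (nat_lit 76) (nat_lit 23604032672) (nat_lit 17) (nat_lit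 4) (nat_lit 18) (nat_lit 5) (nat_lit 18) (nat_lit 4) (nat_lit 553) (nat_lit 352) (nat_lit 295)) (XT.lf (nat_lit 0) (nat_lit 24639912804) (nat_lit 76) (nat_lit 15674493886) (nat_lit 76) (nat_lit 11960947535) (nat_lit 17) (nat_lit 4) (nat_lit 18) (nat_lit 5) (nat_lit 18) (nat_lit 4) (nat_lit 554) (nat_lit 352) (nat_lit 294))) (XT.nd (nat_lit 78) (nat_lit 152) (nat_lit 0) (XT.lf (nat_lit 0) (nat_lit 2527714434) (nat_lit 152) (nat_lit 2930863687) (nat_lit 152) (nat_lit 2930863687) (nat_lit 80) (nat_lit 4) (nat_lit 82) (nat_lit 5) (nat_lit 82) (nat_lit 4) (nat_lit 494) (nat_lit 353) (nat_lit 353)) (XT.lf (nat_lit 0) (nat_lit 2022123687) (nat_lit 152) (nat_lit 13239260907) (nat_lit 0) (nat_lit 1776721893) (nat_lit 78) (nat_lit 5) (nat_lit 80) (nat_lit 4) (nat_lit 78) (nat_lit 4) (nat_lit 495) (nat_lit 353) (nat_lit 352))))) (XT.nd (nat_lit 312) (nat_lit 456) (nat_lit 0) (XT.nd (nat_lit 156) (nat_lit 76) (nat_lit 0) (XT.nd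 (nat_lit 78) (nat_lit 152) (nat_lit 0) (XT.lf (nat_lit 0) (nat_lit 2340111563) (nat_lit 76) (nat_lit 7722880356) (nat_lit 76) (nat_lit 7239224393) (nat_lit 77) (nat_lit 4) (nat_lit 78) (nat_lit 5) (nat_lit 78) (nat_lit 4) (nat_lit 496) (nat_lit 353) (nat_lit 351)) (XT.lf (nat_lit 0) (nat_lit 737100541) (nat_lit 152) (nat_lit 16794534016) (nat_lit 0) (nat_lit 42954239) (nat_lit 75) (nat_lit 5) (nat_lit 77) (nat_lit 4) (nat_lit 75) (nat_lit 4) (nat_lit 497) (nat_lit 353) (nat_lit 350))) (XT.nd (nat_lit 78) (nat_lit 76) (nat_lit 0) (XT.lf (nat_lit 0) (nat_lit 8874896544) (nat_lit 152) (nat_lit 1013342040) (nat_lit 0) (nat_lit 7962713927) (nat_lit 75) (nat_lit 5) (nat_lit 77) (nat_lit 4) (nat_lit 75) (nat_lit 4) (nat_lit 498) (nat_lit 353) (nat_lit 349)) (XT.lf (nat_lit 0) (nat_lit 15233404252) (nat_lit 76) (nat_lit 2013189501) (nat_lit 76) (nat_lit 889321140) (nat_lit 74) (nat_lit 4) (nat_lit 75) (nat_lit 5) (nat_lit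 75) (nat_lit 4) (nat_lit 499) (nat_lit 353) (nat_lit 348)))) (XT.nd (nat_lit 156) (nat_lit 228) (nat_lit 0) (XT.nd (nat_lit 78) (nat_lit 76) (nat_lit 0) (XT.lf (nat_lit 0) (nat_lit 7337143633) (nat_lit 152) (nat_lit 5042393239) (nat_lit 0) (nat_lit 6046475186) (nat_lit 72) (nat_lit 5) (nat_lit 74) (nat_lit 4) (nat_lit 72) (nat_lit 4) (nat_lit 500) (nat_lit 353) (nat_lit 347)) (XT.lf (nat_lit 0) (nat_lit 11381460790) (nat_lit 76) (nat_lit 4413699903) (nat_lit 76) (nat_lit 2929309014) (nat_lit 71) (nat_lit 4) (nat_lit 72) (nat_lit 5) (nat_lit 72) (nat_lit 4) (nat_lit 501) (nat_lit 353) (nat_lit 346))) (XT.nd (nat_lit 78) (nat_lit 76) (nat_lit 0) (XT.lf (nat_lit 0) (nat_lit 5388696409) (nat_lit 152) (nat_lit 9876053331) (nat_lit 0) (nat_lit 3764938225) (nat_lit 69) (nat_lit 5) (nat_lit 71) (nat_lit 4) (nat_lit 69) (nat_lit 4) (nat_lit 502) (nat_lit 353) (nat_lit 345)) (XT.lf (nat_lit 0) (nat_lit 6705439512) (nat_lit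 76) (nat_lit 7218991757) (nat_lit 76) (nat_lit 5417950095) (nat_lit 68) (nat_lit 4) (nat_lit 69) (nat_lit 5) (nat_lit 69) (nat_lit 4) (nat_lit 503) (nat_lit 353) (nat_lit 344))))))) (XT.nd (nat_lit 1248) (nat_lit 1216) (nat_lit 0) (XT.nd (nat_lit 624) (nat_lit 684) (nat_lit 0) (XT.nd (nat_lit 312) (nat_lit 456) (nat_lit 0) (XT.nd (nat_lit 156) (nat_lit 152) (nat_lit 0) (XT.nd (nat_lit 78) (nat_lit 76) (nat_lit 0) (XT.lf (nat_lit 0) (nat_lit 2986684001) (nat_lit 152) (nat_lit 15606065348) (nat_lit 0) (nat_lit 1070993182) (nat_lit 66) (nat_lit 5) (nat_lit 68) (nat_lit 4) (nat_lit 66) (nat_lit 4) (nat_lit 504) (nat_lit 353) (nat_lit 343)) (XT.lf (nat_lit 0) (nat_lit 1110412047) (nat_lit 76) (nat_lit 10479496843) (nat_lit 76) (nat_lit 8401566529) (nat_lit 65) (nat_lit 4) (nat_lit 66) (nat_lit 5) (nat_lit 66) (nat_lit 4) (nat_lit 505) (nat_lit 353) (nat_lit 342))) (XT.nd (nat_lit 78) (nat_lit 76) (nat_lit 0) (XT.lf (nat_lit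 0) (nat_lit 123377521) (nat_lit 152) (nat_lit 1984988018) (nat_lit 76) (nat_lit 18220532927) (nat_lit 64) (nat_lit 5) (nat_lit 66) (nat_lit 5) (nat_lit 65) (nat_lit 4) (nat_lit 506) (nat_lit 353) (nat_lit 341)) (XT.lf (nat_lit 0) (nat_lit 8795077910) (nat_lit 152) (nat_lit 5400803757) (nat_lit 0) (nat_lit 6476271432) (nat_lit 63) (nat_lit 5) (nat_lit 65) (nat_lit 4) (nat_lit 63) (nat_lit 4) (nat_lit 507) (nat_lit 353) (nat_lit 340)))) (XT.nd (nat_lit 156) (nat_lit 228) (nat_lit 0) (XT.nd (nat_lit 78) (nat_lit 152) (nat_lit 0) (XT.lf (nat_lit 0) (nat_lit 11976095561) (nat_lit 76) (nat_lit 5756201733) (nat_lit 76) (nat_lit 3293247564) (nat_lit 62) (nat_lit 4) (nat_lit 63) (nat_lit 5) (nat_lit 63) (nat_lit 4) (nat_lit 508) (nat_lit 353) (nat_lit 339)) (XT.lf (nat_lit 0) (nat_lit 5453653154) (nat_lit 152) (nat_lit 13007308627) (nat_lit 0) (nat_lit 2926562491) (nat_lit 60) (nat_lit 5) (nat_lit 62) (nat_lit 4) (nat_lit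 60) (nat_lit 4) (nat_lit 509) (nat_lit 353) (nat_lit 338))) (XT.nd (nat_lit 78) (nat_lit 152) (nat_lit 0) (XT.lf (nat_lit 0) (nat_lit 4459432299) (nat_lit 76) (nat_lit 9978856851) (nat_lit 76) (nat_lit 7319850631) (nat_lit 59) (nat_lit 4) (nat_lit 60) (nat_lit 5) (nat_lit 60) (nat_lit 4) (nat_lit 510) (nat_lit 353) (nat_lit 337)) (XT.lf (nat_lit 0) (nat_lit 272149458) (nat_lit 76) (nat_lit 1234859918) (nat_lit 152) (nat_lit 20632875636) (nat_lit 57) (nat_lit 5) (nat_lit 58) (nat_lit 5) (nat_lit 59) (nat_lit 4) (nat_lit 511) (nat_lit 353) (nat_lit 336))))) (XT.nd (nat_lit 312) (nat_lit 380) (nat_lit 0) (XT.nd (nat_lit 156) (nat_lit 228) (nat_lit 0) (XT.nd (nat_lit 78) (nat_lit 76) (nat_lit 0) (XT.lf (nat_lit 0) (nat_lit 10552268440) (nat_lit 152) (nat_lit 4249974420) (nat_lit 0) (nat_lit 7725644518) (nat_lit 57) (nat_lit 5) (nat_lit 59) (nat_lit 4) (nat_lit 57) (nat_lit 4) (nat_lit 512) (nat_lit 353) (nat_lit 335))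 (XT.lf (nat_lit 0) (nat_lit 13865371440) (nat_lit 76) (nat_lit 6003001678) (nat_lit 76) (nat_lit 3059172492) (nat_lit 56) (nat_lit 4) (nat_lit 57) (nat_lit 5) (nat_lit 57) (nat_lit 4) (nat_lit 513) (nat_lit 353) (nat_lit 334))) (XT.nd (nat_lit 78) (nat_lit 76) (nat_lit 0) (XT.lf (nat_lit 0) (nat_lit 6020053670) (nat_lit 152) (nat_lit 14265440114) (nat_lit 0) (nat_lit 3051489880) (nat_lit 54) (nat_lit 5) (nat_lit 56) (nat_lit 4) (nat_lit 54) (nat_lit 4) (nat_lit 514) (nat_lit 353) (nat_lit 333)) (XT.lf (nat_lit 0) (nat_lit 3874569387) (nat_lit 76) (nat_lit 11478876078) (nat_lit 76) (nat_lit 8403052868) (nat_lit 53) (nat_lit 4) (nat_lit 54) (nat_lit 5) (nat_lit 54) (nat_lit 4) (nat_lit 515) (nat_lit 353) (nat_lit 332)))) (XT.nd (nat_lit 156) (nat_lit 228) (nat_lit 0) (XT.nd (nat_lit 78) (nat_lit 76) (nat_lit 0) (XT.lf (nat_lit 0) (nat_lit 762774510) (nat_lit 152) (nat_lit 1631526312) (nat_lit 76) (nat_lit 21794081958)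 (nat_lit 52) (nat_lit 5) (nat_lit 54) (nat_lit 5) (nat_lit 53) (nat_lit 4) (nat_lit 516) (nat_lit 353) (nat_lit 331)) (XT.lf (nat_lit 0) (nat_lit 10125939838) (nat_lit 152) (nat_lit 7561606780) (nat_lit 0) (nat_lit 6940443859) (nat_lit 51) (nat_lit 5) (nat_lit 53) (nat_lit 4) (nat_lit 51) (nat_lit 4) (nat_lit 517) (nat_lit 353) (nat_lit 330))) (XT.nd (nat_lit 78) (nat_lit 152) (nat_lit 0) (XT.lf (nat_lit 0) (nat_lit 11191671796) (nat_lit 76) (nat_lit 8584856844) (nat_lit 76) (nat_lit 5304062260) (nat_lit 50) (nat_lit 4) (nat_lit 51) (nat_lit 5) (nat_lit 51) (nat_lit 4) (nat_lit 518) (nat_lit 353) (nat_lit 329)) (XT.lf (nat_lit 0) (nat_lit 4079171053) (nat_lit 152) (nat_lit 20662570362) (nat_lit 0) (nat_lit 804105518) (nat_lit 48) (nat_lit 5) (nat_lit 50) (nat_lit 4) (nat_lit 48) (nat_lit 4) (nat_lit 519) (nat_lit 353) (nat_lit 328)))))) (XT.nd (nat_lit 624) (nat_lit 684) (nat_lit 0) (XT.nd (nat_lit 312) (nat_lit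 228) (nat_lit 0) (XT.nd (nat_lit 156) (nat_lit 228) (nat_lit 0) (XT.nd (nat_lit 78) (nat_lit 76) (nat_lit 0) (XT.lf (nat_lit 0) (nat_lit 13722698256) (nat_lit 152) (nat_lit 1937804152) (nat_lit 0) (nat_lit 10360420997) (nat_lit 48) (nat_lit 5) (nat_lit 50) (nat_lit 4) (nat_lit 48) (nat_lit 4) (nat_lit 520) (nat_lit 353) (nat_lit 327)) (XT.lf (nat_lit 0) (nat_lit 17415341373) (nat_lit 76) (nat_lit 6270475684) (nat_lit 76) (nat_lit 2823526849) (nat_lit 47) (nat_lit 4) (nat_lit 48) (nat_lit 5) (nat_lit 48) (nat_lit 4) (nat_lit 521) (nat_lit 353) (nat_lit 326))) (XT.nd (nat_lit 78) (nat_lit 76) (nat_lit 0) (XT.lf (nat_lit 0) (nat_lit 6814383937) (nat_lit 152) (nat_lit 16807583577) (nat_lit 0) (nat_lit 3388020589) (nat_lit 45) (nat_lit 5) (nat_lit 47) (nat_lit 4) (nat_lit 45) (nat_lit 4) (nat_lit 522) (nat_lit 353) (nat_lit 325)) (XT.lf (nat_lit 0) (nat_lit 2424237307) (nat_lit 76) (nat_lit 14301595617) (nat_lit 76)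 (nat_lit 10797745782) (nat_lit 44) (nat_lit 4) (nat_lit 45) (nat_lit 5) (nat_lit 45) (nat_lit 4) (nat_lit 523) (nat_lit 353) (nat_lit 324)))) (XT.nd (nat_lit 156) (nat_lit 76) (nat_lit 0) (XT.nd (nat_lit 78) (nat_lit 152) (nat_lit 0) (XT.lf (nat_lit 0) (nat_lit 22306886952) (nat_lit 76) (nat_lit 4661872876) (nat_lit 76) (nat_lit 1082793443) (nat_lit 44) (nat_lit 4) (nat_lit 45) (nat_lit 5) (nat_lit 45) (nat_lit 4) (nat_lit 524) (nat_lit 353) (nat_lit 323)) (XT.lf (nat_lit 0) (nat_lit 8803762113) (nat_lit 152) (nat_lit 14529386654) (nat_lit 0) (nat_lit 5258016599) (nat_lit 42) (nat_lit 5) (nat_lit 44) (nat_lit 4) (nat_lit 42) (nat_lit 4) (nat_lit 525) (nat_lit 353) (nat_lit 322))) (XT.nd (nat_lit 78) (nat_lit 0) (nat_lit 0) (XT.lf (nat_lit 0) (nat_lit 5213725897) (nat_lit 76) (nat_lit 13773424912) (nat_lit 76) (nat_lit 10158833659) (nat_lit 41) (nat_lit 4) (nat_lit 42) (nat_lit 5) (nat_lit 42) (nat_lit 4) (nat_lit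 526) (nat_lit 353) (nat_lit 321)) (XT.lf (nat_lit 0) (nat_lit 25584061038) (nat_lit 76) (nat_lit 3907181543) (nat_lit 76) (nat_lit 225749765) (nat_lit 41) (nat_lit 4) (nat_lit 42) (nat_lit 5) (nat_lit 42) (nat_lit 4) (nat_lit 527) (nat_lit 353) (nat_lit 320))))) (XT.nd (nat_lit 312) (nat_lit 304) (nat_lit 0) (XT.nd (nat_lit 156) (nat_lit 152) (nat_lit 0) (XT.nd (nat_lit 78) (nat_lit 76) (nat_lit 0) (XT.lf (nat_lit 0) (nat_lit 9898465690) (nat_lit 152) (nat_lit 14139871835) (nat_lit 0) (nat_lit 6261256476) (nat_lit 39) (nat_lit 5) (nat_lit 41) (nat_lit 4) (nat_lit 39) (nat_lit 4) (nat_lit 528) (nat_lit 353) (nat_lit 319)) (XT.lf (nat_lit 0) (nat_lit 6066609567) (nat_lit 76) (nat_lit 14265533444) (nat_lit 76) (nat_lit 10567155682) (nat_lit 38) (nat_lit 4) (nat_lit 39) (nat_lit 5) (nat_lit 39) (nat_lit 4) (nat_lit 529) (nat_lit 353) (nat_lit 318))) (XT.nd (nat_lit 78) (nat_lit 152) (nat_lit 0) (XT.lf (nat_lit 0) (nat_lit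 26913774158) (nat_lit 76) (nat_lit 4180264523) (nat_lit 76) (nat_lit 422499822) (nat_lit 38) (nat_lit 4) (nat_lit 39) (nat_lit 5) (nat_lit 39) (nat_lit 4) (nat_lit 530) (nat_lit 353) (nat_lit 317)) (XT.lf (nat_lit 0) (nat_lit 9922475022) (nat_lit 152) (nat_lit 16005998404) (nat_lit 0) (nat_lit 6218181891) (nat_lit 36) (nat_lit 5) (nat_lit 38) (nat_lit 4) (nat_lit 36) (nat_lit 4) (nat_lit 531) (nat_lit 353) (nat_lit 316)))) (XT.nd (nat_lit 156) (nat_lit 228) (nat_lit 0) (XT.nd (nat_lit 78) (nat_lit 0) (nat_lit 0) (XT.lf (nat_lit 0) (nat_lit 4599692789) (nat_lit 76) (nat_lit 15977136246) (nat_lit 76) (nat_lit 12218495652) (nat_lit 35) (nat_lit 4) (nat_lit 36) (nat_lit 5) (nat_lit 36) (nat_lit 4) (nat_lit 532) (nat_lit 353) (nat_lit 315)) (XT.lf (nat_lit 0) (nat_lit 25903634341) (nat_lit 76) (nat_lit 5685044577) (nat_lit 76) (nat_lit 1873639456) (nat_lit 35) (nat_lit 4) (nat_lit 36) (nat_lit 5) (nat_lit 36) (nat_lit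 4) (nat_lit 533) (nat_lit 353) (nat_lit 314))) (XT.nd (nat_lit 78) (nat_lit 76) (nat_lit 0) (XT.lf (nat_lit 0) (nat_lit 8668145183) (nat_lit 152) (nat_lit 20558889945) (nat_lit 0) (nat_lit 4918016234) (nat_lit 33) (nat_lit 5) (nat_lit 35) (nat_lit 4) (nat_lit 33) (nat_lit 4) (nat_lit 534) (nat_lit 353) (nat_lit 313)) (XT.lf (nat_lit 0) (nat_lit 362523204) (nat_lit 76) (nat_lit 19141567885) (nat_lit 76) (nat_lit 15343151920) (nat_lit 32) (nat_lit 4) (nat_lit 33) (nat_lit 5) (nat_lit 33) (nat_lit 4) (nat_lit 535) (nat_lit 353) (nat_lit 312))))))))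
noncomputable def xc15 : XT := (XT.nd (nat_lit 59982) (nat_lit 0) (nat_lit 1216) (XT.nd (nat_lit 1170) (nat_lit 228) (nat_lit 0) (XT.nd (nat_lit 546) (nat_lit 456) (nat_lit 0) (XT.nd (nat_lit 234) (nat_lit 304) (nat_lit 0) (XT.nd (nat_lit 78) (nat_lit 152) (nat_lit 0) (XT.lf (nat_lit 0) (nat_lit 22092122822) (nat_lit 76) (nat_lit 8660524185) (nat_lit 76) (nat_lit 4815227621) (nat_lit 32) (nat_lit 4) (nat_lit 33) (nat_lit 5) (nat_lit 33) (nat_lit 4) (nat_lit 536) (nat_lit 353) (nat_lit 311)) (XT.nd (nat_lit 78) (nat_lit 0) (nat_lit 0) (XT.lf (nat_lit 0) (nat_lit 5891037263) (nat_lit 152) (nat_lit 28304395189) (nat_lit 0) (nat_lit 2113550168) (nat_lit 30) (nat_lit 5) (nat_lit 32) (nat_lit 4) (nat_lit 30) (nat_lit 4) (nat_lit 537) (nat_lit 353) (nat_lit 310)) (XT.lf (nat_lit 0) (nat_lit 16927205096) (nat_lit 152) (nat_lit 7033708147) (nat_lit 0) (nat_lit 13106815611) (nat_lit 30) (nat_lit 5) (nat_lit 32) (nat_lit 4)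 (nat_lit 30) (nat_lit 4) (nat_lit 538) (nat_lit 353) (nat_lit 309)))) (XT.nd (nat_lit 156) (nat_lit 152) (nat_lit 0) (XT.nd (nat_lit 78) (nat_lit 76) (nat_lit 0) (XT.lf (nat_lit 0) (nat_lit 14937186948) (nat_lit 76) (nat_lit 13386606454) (nat_lit 76) (nat_lit 9524564164) (nat_lit 29) (nat_lit 4) (nat_lit 30) (nat_lit 5) (nat_lit 30) (nat_lit 4) (nat_lit 539) (nat_lit 353) (nat_lit 308)) (XT.lf (nat_lit 0) (nat_lit 1339866684) (nat_lit 152) (nat_lit 1182552535) (nat_lit 76) (nat_lit 36130854359) (nat_lit 28) (nat_lit 5) (nat_lit 30) (nat_lit 5) (nat_lit 29) (nat_lit 4) (nat_lit 540) (nat_lit 353) (nat_lit 307))) (XT.nd (nat_lit 78) (nat_lit 76) (nat_lit 0) (XT.lf (nat_lit 0) (nat_lit 12517816714) (nat_lit 152) (nat_lit 18265439690) (nat_lit 0) (nat_lit 8690881113) (nat_lit 27) (nat_lit 5) (nat_lit 29) (nat_lit 4) (nat_lit 27) (nat_lit 4) (nat_lit 541) (nat_lit 353) (nat_lit 306)) (XT.lf (nat_lit 0) (nat_lit 3802996377)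 (nat_lit 76) (nat_lit 20190846294) (nat_lit 76) (nat_lit 16326902715) (nat_lit 26) (nat_lit 4) (nat_lit 27) (nat_lit 5) (nat_lit 27) (nat_lit 4) (nat_lit 542) (nat_lit 353) (nat_lit 305))))) (XT.nd (nat_lit 312) (nat_lit 228) (nat_lit 0) (XT.nd (nat_lit 156) (nat_lit 76) (nat_lit 0) (XT.nd (nat_lit 78) (nat_lit 152) (nat_lit 0) (XT.lf (nat_lit 0) (nat_lit 26687314401) (nat_lit 76) (nat_lit 9201534939) (nat_lit 76) (nat_lit 5301661285) (nat_lit 26) (nat_lit 4) (nat_lit 27) (nat_lit 5) (nat_lit 27) (nat_lit 4) (nat_lit 543) (nat_lit 353) (nat_lit 304)) (XT.lf (nat_lit 0) (nat_lit 5926668128) (nat_lit 152) (nat_lit 34051725212) (nat_lit 0) (nat_lit 2106515485) (nat_lit 24) (nat_lit 5) (nat_lit 26) (nat_lit 4) (nat_lit 24) (nat_lit 4) (nat_lit 544) (nat_lit 353) (nat_lit 303))) (XT.nd (nat_lit 78) (nat_lit 76) (nat_lit 0) (XT.lf (nat_lit 0) (nat_lit 17516733923) (nat_lit 152) (nat_lit 11820186907) (nat_lit 0) (nat_lit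 13663700171) (nat_lit 24) (nat_lit 5) (nat_lit 26) (nat_lit 4) (nat_lit 24) (nat_lit 4) (nat_lit 545) (nat_lit 353) (nat_lit 302)) (XT.lf (nat_lit 0) (nat_lit 11084546822) (nat_lit 76) (nat_lit 18372075686) (nat_lit 76) (nat_lit 14487118527) (nat_lit 23) (nat_lit 4) (nat_lit 24) (nat_lit 5) (nat_lit 24) (nat_lit 4) (nat_lit 546) (nat_lit 353) (nat_lit 301)))) (XT.nd (nat_lit 156) (nat_lit 76) (nat_lit 0) (XT.nd (nat_lit 78) (nat_lit 152) (nat_lit 0) (XT.lf (nat_lit 0) (nat_lit 34710733966) (nat_lit 76) (nat_lit 7059946201) (nat_lit 76) (nat_lit 3143995444) (nat_lit 23) (nat_lit 4) (nat_lit 24) (nat_lit 5) (nat_lit 24) (nat_lit 4) (nat_lit 547) (nat_lit 353) (nat_lit 300)) (XT.lf (nat_lit 0) (nat_lit 8442556518) (nat_lit 152) (nat_lit 32856177988) (nat_lit 0) (nat_lit 4611448140) (nat_lit 21) (nat_lit 5) (nat_lit 23) (nat_lit 4) (nat_lit 21) (nat_lit 4) (nat_lit 548) (nat_lit 353) (nat_lit 299))) (XT.nd (nat_lit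 78) (nat_lit 76) (nat_lit 0) (XT.lf (nat_lit 0) (nat_lit 20386138095) (nat_lit 152) (nat_lit 10019638130) (nat_lit 0) (nat_lit 16526666184) (nat_lit 21) (nat_lit 5) (nat_lit 23) (nat_lit 4) (nat_lit 21) (nat_lit 4) (nat_lit 549) (nat_lit 353) (nat_lit 298)) (XT.lf (nat_lit 0) (nat_lit 13568728746) (nat_lit 76) (nat_lit 19151344627) (nat_lit 76) (nat_lit 15264335305) (nat_lit 20) (nat_lit 4) (nat_lit 21) (nat_lit 5) (nat_lit 21) (nat_lit 4) (nat_lit 550) (nat_lit 353) (nat_lit 297)))))) (XT.nd (nat_lit 58188) (nat_lit 0) (nat_lit 3876) (XT.nd (nat_lit 57876) (nat_lit 0) (nat_lit 4636) (XT.nd (nat_lit 156) (nat_lit 76) (nat_lit 0) (XT.nd (nat_lit 78) (nat_lit 152) (nat_lit 0) (XT.lf (nat_lit 0) (nat_lit 37874037048) (nat_lit 76) (nat_lit 7553764210) (nat_lit 76) (nat_lit 3640019537) (nat_lit 20) (nat_lit 4) (nat_lit 21) (nat_lit 5) (nat_lit 21) (nat_lit 4) (nat_lit 551) (nat_lit 353) (nat_lit 296)) (XT.lf (nat_lit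 0) (nat_lit 8240284501) (nat_lit 152) (nat_lit 37523620060) (nat_lit 0) (nat_lit 4415331760) (nat_lit 18) (nat_lit 5) (nat_lit 20) (nat_lit 4) (nat_lit 18) (nat_lit 4) (nat_lit 552) (nat_lit 353) (nat_lit 295))) (XT.nd (nat_lit 78) (nat_lit 76) (nat_lit 0) (XT.lf (nat_lit 0) (nat_lit 20497307456) (nat_lit 152) (nat_lit 14174913552) (nat_lit 0) (nat_lit 16647888082) (nat_lit 18) (nat_lit 5) (nat_lit 20) (nat_lit 4) (nat_lit 18) (nat_lit 4) (nat_lit 553) (nat_lit 353) (nat_lit 294)) (XT.lf (nat_lit 0) (nat_lit 9880335215) (nat_lit 76) (nat_lit 23243988906) (nat_lit 76) (nat_lit 19370815519) (nat_lit 17) (nat_lit 4) (nat_lit 18) (nat_lit 5) (nat_lit 18) (nat_lit 4) (nat_lit 554) (nat_lit 353) (nat_lit 293)))) (XT.nd (nat_lit 156) (nat_lit 304) (nat_lit 0) (XT.nd (nat_lit 78) (nat_lit 152) (nat_lit 0) (XT.lf (nat_lit 0) (nat_lit 3665524820) (nat_lit 152) (nat_lit 2236626756) (nat_lit 152) (nat_lit 2236626756) (nat_lit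 84) (nat_lit 4) (nat_lit 86) (nat_lit 5) (nat_lit 86) (nat_lit 4) (nat_lit 492) (nat_lit 354) (nat_lit 354)) (XT.lf (nat_lit 0) (nat_lit 3229431575) (nat_lit 152) (nat_lit 10328193768) (nat_lit 0) (nat_lit 2969084812) (nat_lit 82) (nat_lit 5) (nat_lit 84) (nat_lit 4) (nat_lit 82) (nat_lit 4) (nat_lit 493) (nat_lit 354) (nat_lit 353))) (XT.nd (nat_lit 78) (nat_lit 152) (nat_lit 0) (XT.lf (nat_lit 0) (nat_lit 4902538487) (nat_lit 152) (nat_lit 6195913859) (nat_lit 152) (nat_lit 5682803247) (nat_lit 80) (nat_lit 4) (nat_lit 82) (nat_lit 5) (nat_lit 82) (nat_lit 4) (nat_lit 494) (nat_lit 354) (nat_lit 352)) (XT.lf (nat_lit 0) (nat_lit 2113116577) (nat_lit 152) (nat_lit 13553147145) (nat_lit 0) (nat_lit 1376696766) (nat_lit 78) (nat_lit 5) (nat_lit 80) (nat_lit 4) (nat_lit 78) (nat_lit 4) (nat_lit 495) (nat_lit 354) (nat_lit 351))))) (XT.nd (nat_lit 312) (nat_lit 456) (nat_lit 0) (XT.nd (nat_lit 156) (nat_lit 76) (nat_lit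 0) (XT.nd (nat_lit 78) (nat_lit 152) (nat_lit 0) (XT.lf (nat_lit 0) (nat_lit 1866870529) (nat_lit 76) (nat_lit 8205196143) (nat_lit 76) (nat_lit 7237461604) (nat_lit 77) (nat_lit 4) (nat_lit 78) (nat_lit 5) (nat_lit 78) (nat_lit 4) (nat_lit 496) (nat_lit 354) (nat_lit 350)) (XT.lf (nat_lit 0) (nat_lit 137178024) (nat_lit 76) (nat_lit 517743142) (nat_lit 152) (nat_lit 16929496712) (nat_lit 75) (nat_lit 5) (nat_lit 76) (nat_lit 5) (nat_lit 77) (nat_lit 4) (nat_lit 497) (nat_lit 354) (nat_lit 349))) (XT.nd (nat_lit 78) (nat_lit 76) (nat_lit 0) (XT.lf (nat_lit 0) (nat_lit 8710565195) (nat_lit 152) (nat_lit 1811386299) (nat_lit 0) (nat_lit 7341295040) (nat_lit 75) (nat_lit 5) (nat_lit 77) (nat_lit 4) (nat_lit 75) (nat_lit 4) (nat_lit 498) (nat_lit 354) (nat_lit 348)) (XT.lf (nat_lit 0) (nat_lit 14270635743) (nat_lit 76) (nat_lit 2727444649) (nat_lit 76) (nat_lit 1152654356) (nat_lit 74) (nat_lit 4) (nat_lit 75) (nat_lit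 5) (nat_lit 75) (nat_lit 4) (nat_lit 499) (nat_lit 354) (nat_lit 347)))) (XT.nd (nat_lit 156) (nat_lit 228) (nat_lit 0) (XT.nd (nat_lit 78) (nat_lit 76) (nat_lit 0) (XT.lf (nat_lit 0) (nat_lit 6985406423) (nat_lit 152) (nat_lit 6195546690) (nat_lit 0) (nat_lit 5262761365) (nat_lit 72) (nat_lit 5) (nat_lit 74) (nat_lit 4) (nat_lit 72) (nat_lit 4) (nat_lit 500) (nat_lit 354) (nat_lit 346)) (XT.lf (nat_lit 0) (nat_lit 10056338901) (nat_lit 76) (nat_lit 5299591726) (nat_lit 76) (nat_lit 3388866627) (nat_lit 71) (nat_lit 4) (nat_lit 72) (nat_lit 5) (nat_lit 72) (nat_lit 4) (nat_lit 501) (nat_lit 354) (nat_lit 345))) (XT.nd (nat_lit 78) (nat_lit 76) (nat_lit 0) (XT.lf (nat_lit 0) (nat_lit 4839434208) (nat_lit 152) (nat_lit 11406596499) (nat_lit 0) (nat_lit 2807077818) (nat_lit 69) (nat_lit 5) (nat_lit 71) (nat_lit 4) (nat_lit 69) (nat_lit 4) (nat_lit 502) (nat_lit 354) (nat_lit 344)) (XT.lf (nat_lit 0) (nat_lit 4995255299)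 (nat_lit 76) (nat_lit 8288877152) (nat_lit 76) (nat_lit 6084400882) (nat_lit 68) (nat_lit 4) (nat_lit 69) (nat_lit 5) (nat_lit 69) (nat_lit 4) (nat_lit 503) (nat_lit 354) (nat_lit 343))))))) (XT.nd (nat_lit 1248) (nat_lit 1216) (nat_lit 0) (XT.nd (nat_lit 624) (nat_lit 684) (nat_lit 0) (XT.nd (nat_lit 312) (nat_lit 380) (nat_lit 0) (XT.nd (nat_lit 156) (nat_lit 228) (nat_lit 0) (XT.nd (nat_lit 78) (nat_lit 0) (nat_lit 0) (XT.lf (nat_lit 0) (nat_lit 2154902109) (nat_lit 76) (nat_lit 74893486) (nat_lit 152) (nat_lit 17463394661) (nat_lit 66) (nat_lit 5) (nat_lit 67) (nat_lit 5) (nat_lit 68) (nat_lit 4) (nat_lit 504) (nat_lit 354) (nat_lit 342)) (XT.lf (nat_lit 0) (nat_lit 10747173637) (nat_lit 152) (nat_lit 989173353) (nat_lit 0) (nat_lit 8287151844) (nat_lit 66) (nat_lit 5) (nat_lit 68) (nat_lit 4) (nat_lit 66) (nat_lit 4) (nat_lit 505) (nat_lit 354) (nat_lit 341))) (XT.nd (nat_lit 78) (nat_lit 152) (nat_lit 0) (XT.lf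 (nat_lit 0) (nat_lit 16080905481) (nat_lit 76) (nat_lit 3447751158) (nat_lit 76) (nat_lit 834803081) (nat_lit 65) (nat_lit 4) (nat_lit 66) (nat_lit 5) (nat_lit 66) (nat_lit 4) (nat_lit 506) (nat_lit 354) (nat_lit 340)) (XT.lf (nat_lit 0) (nat_lit 7743243248) (nat_lit 152) (nat_lit 7904757662) (nat_lit 0) (nat_lit 5062252764) (nat_lit 63) (nat_lit 5) (nat_lit 65) (nat_lit 4) (nat_lit 63) (nat_lit 4) (nat_lit 507) (nat_lit 354) (nat_lit 339)))) (XT.nd (nat_lit 156) (nat_lit 152) (nat_lit 0) (XT.nd (nat_lit 78) (nat_lit 152) (nat_lit 0) (XT.lf (nat_lit 0) (nat_lit 9277197546) (nat_lit 76) (nat_lit 7305165415) (nat_lit 76) (nat_lit 4484225717) (nat_lit 62) (nat_lit 4) (nat_lit 63) (nat_lit 5) (nat_lit 63) (nat_lit 4) (nat_lit 508) (nat_lit 354) (nat_lit 338)) (XT.lf (nat_lit 0) (nat_lit 4169697512) (nat_lit 152) (nat_lit 15963695253) (nat_lit 0) (nat_lit 1299005549) (nat_lit 60) (nat_lit 5) (nat_lit 62) (nat_lit 4)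 (nat_lit 60) (nat_lit 4) (nat_lit 509) (nat_lit 354) (nat_lit 337))) (XT.nd (nat_lit 78) (nat_lit 76) (nat_lit 0) (XT.lf (nat_lit 0) (nat_lit 1298976862) (nat_lit 76) (nat_lit 11752937542) (nat_lit 76) (nat_lit 8754172223) (nat_lit 59) (nat_lit 4) (nat_lit 60) (nat_lit 5) (nat_lit 60) (nat_lit 4) (nat_lit 510) (nat_lit 354) (nat_lit 336)) (XT.lf (nat_lit 0) (nat_lit 26058335) (nat_lit 152) (nat_lit 3070209961) (nat_lit 76) (nat_lit 19094215954) (nat_lit 58) (nat_lit 5) (nat_lit 60) (nat_lit 5) (nat_lit 59) (nat_lit 4) (nat_lit 511) (nat_lit 354) (nat_lit 335))))) (XT.nd (nat_lit 312) (nat_lit 380) (nat_lit 0) (XT.nd (nat_lit 156) (nat_lit 152) (nat_lit 0) (XT.nd (nat_lit 78) (nat_lit 76) (nat_lit 0) (XT.lf (nat_lit 0) (nat_lit 8951094794) (nat_lit 152) (nat_lit 7829253243) (nat_lit 0) (nat_lit 5801745469) (nat_lit 57) (nat_lit 5) (nat_lit 59) (nat_lit 4) (nat_lit 57) (nat_lit 4) (nat_lit 512) (nat_lit 354) (nat_lit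 334)) (XT.lf (nat_lit 0) (nat_lit 10073750079) (nat_lit 76) (nat_lit 8087165610) (nat_lit 76) (nat_lit 4824024767) (nat_lit 56) (nat_lit 4) (nat_lit 57) (nat_lit 5) (nat_lit 57) (nat_lit 4) (nat_lit 513) (nat_lit 354) (nat_lit 333))) (XT.nd (nat_lit 78) (nat_lit 0) (nat_lit 0) (XT.lf (nat_lit 0) (nat_lit 4159663469) (nat_lit 152) (nat_lit 18354817334) (nat_lit 0) (nat_lit 884306144) (nat_lit 54) (nat_lit 5) (nat_lit 56) (nat_lit 4) (nat_lit 54) (nat_lit 4) (nat_lit 514) (nat_lit 354) (nat_lit 332)) (XT.lf (nat_lit 0) (nat_lit 13386069543) (nat_lit 152) (nat_lit 428864975) (nat_lit 0) (nat_lit 10006576859) (nat_lit 54) (nat_lit 5) (nat_lit 56) (nat_lit 4) (nat_lit 54) (nat_lit 4) (nat_lit 515) (nat_lit 354) (nat_lit 331)))) (XT.nd (nat_lit 156) (nat_lit 152) (nat_lit 0) (XT.nd (nat_lit 78) (nat_lit 152) (nat_lit 0) (XT.lf (nat_lit 0) (nat_lit 18115496396) (nat_lit 76) (nat_lit 4810457945) (nat_lit 76) (nat_lit 1329862971)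 (nat_lit 53) (nat_lit 4) (nat_lit 54) (nat_lit 5) (nat_lit 54) (nat_lit 4) (nat_lit 516) (nat_lit 354) (nat_lit 330)) (XT.lf (nat_lit 0) (nat_lit 7921731983) (nat_lit 152) (nat_lit 12330987370) (nat_lit 0) (nat_lit 4447214957) (nat_lit 51) (nat_lit 5) (nat_lit 53) (nat_lit 4) (nat_lit 51) (nat_lit 4) (nat_lit 517) (nat_lit 354) (nat_lit 329))) (XT.nd (nat_lit 78) (nat_lit 76) (nat_lit 0) (XT.lf (nat_lit 0) (nat_lit 6190191216) (nat_lit 76) (nat_lit 11266427346) (nat_lit 76) (nat_lit 7699387403) (nat_lit 50) (nat_lit 4) (nat_lit 51) (nat_lit 5) (nat_lit 51) (nat_lit 4) (nat_lit 518) (nat_lit 354) (nat_lit 328)) (XT.lf (nat_lit 0) (nat_lit 1608086439) (nat_lit 152) (nat_lit 392452546) (nat_lit 76) (nat_lit 23625088958) (nat_lit 49) (nat_lit 5) (nat_lit 51) (nat_lit 5) (nat_lit 50) (nat_lit 4) (nat_lit 519) (nat_lit 354) (nat_lit 327)))))) (XT.nd (nat_lit 624) (nat_lit 608) (nat_lit 0) (XT.nd (nat_lit 312) (nat_lit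 304) (nat_lit 0) (XT.nd (nat_lit 156) (nat_lit 152) (nat_lit 0) (XT.nd (nat_lit 78) (nat_lit 76) (nat_lit 0) (XT.lf (nat_lit 0) (nat_lit 11160950213) (nat_lit 152) (nat_lit 7416552920) (nat_lit 0) (nat_lit 7525921337) (nat_lit 48) (nat_lit 5) (nat_lit 50) (nat_lit 4) (nat_lit 48) (nat_lit 4) (nat_lit 520) (nat_lit 354) (nat_lit 326)) (XT.lf (nat_lit 0) (nat_lit 11694293047) (nat_lit 76) (nat_lit 9309201794) (nat_lit 76) (nat_lit 5591967505) (nat_lit 47) (nat_lit 4) (nat_lit 48) (nat_lit 5) (nat_lit 48) (nat_lit 4) (nat_lit 521) (nat_lit 354) (nat_lit 325))) (XT.nd (nat_lit 78) (nat_lit 0) (nat_lit 0) (XT.lf (nat_lit 0) (nat_lit 3945782372) (nat_lit 152) (nat_lit 22896417606) (nat_lit 0) (nat_lit 259330556) (nat_lit 45) (nat_lit 5) (nat_lit 47) (nat_lit 4) (nat_lit 45) (nat_lit 4) (nat_lit 522) (nat_lit 354) (nat_lit 324)) (XT.lf (nat_lit 0) (nat_lit 13768417076) (nat_lit 152) (nat_lit 3842632966) (nat_lit 0) (nat_lit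 10006735661) (nat_lit 45) (nat_lit 5) (nat_lit 47) (nat_lit 4) (nat_lit 45) (nat_lit 4) (nat_lit 523) (nat_lit 354) (nat_lit 323)))) (XT.nd (nat_lit 156) (nat_lit 76) (nat_lit 0) (XT.nd (nat_lit 78) (nat_lit 152) (nat_lit 0) (XT.lf (nat_lit 0) (nat_lit 15834091778) (nat_lit 76) (nat_lit 8074732044) (nat_lit 76) (nat_lit 4240012183) (nat_lit 44) (nat_lit 4) (nat_lit 45) (nat_lit 5) (nat_lit 45) (nat_lit 4) (nat_lit 524) (nat_lit 354) (nat_lit 322)) (XT.lf (nat_lit 0) (nat_lit 5544847359) (nat_lit 152) (nat_lit 21396437851) (nat_lit 0) (nat_lit 1752972629) (nat_lit 42) (nat_lit 5) (nat_lit 44) (nat_lit 4) (nat_lit 42) (nat_lit 4) (nat_lit 525) (nat_lit 354) (nat_lit 321))) (XT.nd (nat_lit 78) (nat_lit 76) (nat_lit 0) (XT.lf (nat_lit 0) (nat_lit 15614576829) (nat_lit 152) (nat_lit 1882048436) (nat_lit 0) (nat_lit 11755861574) (nat_lit 42) (nat_lit 5) (nat_lit 44) (nat_lit 4) (nat_lit 42) (nat_lit 4) (nat_lit 526) (nat_lit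 354) (nat_lit 320)) (XT.lf (nat_lit 0) (nat_lit 18325090631) (nat_lit 76) (nat_lit 7712226852) (nat_lit 76) (nat_lit 3788617884) (nat_lit 41) (nat_lit 4) (nat_lit 42) (nat_lit 5) (nat_lit 42) (nat_lit 4) (nat_lit 527) (nat_lit 354) (nat_lit 319))))) (XT.nd (nat_lit 312) (nat_lit 228) (nat_lit 0) (XT.nd (nat_lit 156) (nat_lit 228) (nat_lit 0) (XT.nd (nat_lit 78) (nat_lit 0) (nat_lit 0) (XT.lf (nat_lit 0) (nat_lit 6232110237) (nat_lit 152) (nat_lit 21821032106) (nat_lit 0) (nat_lit 2361612594) (nat_lit 39) (nat_lit 5) (nat_lit 41) (nat_lit 4) (nat_lit 39) (nat_lit 4) (nat_lit 528) (nat_lit 354) (nat_lit 318)) (XT.lf (nat_lit 0) (nat_lit 16545835030) (nat_lit 152) (nat_lit 1856272835) (nat_lit 0) (nat_lit 12615950448) (nat_lit 39) (nat_lit 5) (nat_lit 41) (nat_lit 4) (nat_lit 39) (nat_lit 4) (nat_lit 529) (nat_lit 354) (nat_lit 317))) (XT.nd (nat_lit 78) (nat_lit 152) (nat_lit 0) (XT.lf (nat_lit 0) (nat_lit 18831816781)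 (nat_lit 76) (nat_lit 8396699837) (nat_lit 76) (nat_lit 4409158031) (nat_lit 38) (nat_lit 4) (nat_lit 39) (nat_lit 5) (nat_lit 39) (nat_lit 4) (nat_lit 530) (nat_lit 354) (nat_lit 316)) (XT.lf (nat_lit 0) (nat_lit 5830274397) (nat_lit 152) (nat_lit 24539639802) (nat_lit 0) (nat_lit 1904527123) (nat_lit 36) (nat_lit 5) (nat_lit 38) (nat_lit 4) (nat_lit 36) (nat_lit 4) (nat_lit 531) (nat_lit 354) (nat_lit 315)))) (XT.nd (nat_lit 156) (nat_lit 152) (nat_lit 0) (XT.nd (nat_lit 78) (nat_lit 76) (nat_lit 0) (XT.lf (nat_lit 0) (nat_lit 16380620366) (nat_lit 152) (nat_lit 4143502098) (nat_lit 0) (nat_lit 12402108564) (nat_lit 36) (nat_lit 5) (nat_lit 38) (nat_lit 4) (nat_lit 36) (nat_lit 4) (nat_lit 532) (nat_lit 354) (nat_lit 314)) (XT.lf (nat_lit 0) (nat_lit 16959353200) (nat_lit 76) (nat_lit 10333302767) (nat_lit 76) (nat_lit 6303563270) (nat_lit 35) (nat_lit 4) (nat_lit 36) (nat_lit 5) (nat_lit 36) (nat_lit 4) (nat_lit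 533) (nat_lit 354) (nat_lit 313))) (XT.nd (nat_lit 78) (nat_lit 0) (nat_lit 0) (XT.lf (nat_lit 0) (nat_lit 4130351504) (nat_lit 152) (nat_lit 29986011668) (nat_lit 0) (nat_lit 169696043) (nat_lit 33) (nat_lit 5) (nat_lit 35) (nat_lit 4) (nat_lit 33) (nat_lit 4) (nat_lit 534) (nat_lit 354) (nat_lit 312)) (XT.lf (nat_lit 0) (nat_lit 14904804127) (nat_lit 152) (nat_lit 9188023550) (nat_lit 0) (nat_lit 10897268068) (nat_lit 33) (nat_lit 5) (nat_lit 35) (nat_lit 4) (nat_lit 33) (nat_lit 4) (nat_lit 535) (nat_lit 354) (nat_lit 311))))))))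
noncomputable def xc16 : XT := (XT.nd (nat_lit 59826) (nat_lit 0) (nat_lit 1368) (XT.nd (nat_lit 1170) (nat_lit 228) (nat_lit 0) (XT.nd (nat_lit 546) (nat_lit 456) (nat_lit 0) (XT.nd (nat_lit 234) (nat_lit 228) (nat_lit 0) (XT.nd (nat_lit 78) (nat_lit 152) (nat_lit 0) (XT.lf (nat_lit 0) (nat_lit 12243506179) (nat_lit 76) (nat_lit 13762348811) (nat_lit 76) (nat_lit 9709297607) (nat_lit 32) (nat_lit 4) (nat_lit 33) (nat_lit 5) (nat_lit 33) (nat_lit 4) (nat_lit 536) (nat_lit 354) (nat_lit 310)) (XT.nd (nat_lit 78) (nat_lit 76) (nat_lit 0) (XT.lf (nat_lit 0) (nat_lit 938291105) (nat_lit 152) (nat_lit 2192509720) (nat_lit 76) (nat_lit 33331496499) (nat_lit 31) (nat_lit 5) (nat_lit 33) (nat_lit 5) (nat_lit 32) (nat_lit 4) (nat_lit 537) (nat_lit 354) (nat_lit 309)) (XT.lf (nat_lit 0) (nat_lit 11866374989) (nat_lit 152) (nat_lit 17511092537) (nat_lit 0) (nat_lit 7846818626) (nat_lit 30) (nat_lit 5) (nat_lit 32) (nat_lit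 4) (nat_lit 30) (nat_lit 4) (nat_lit 538) (nat_lit 354) (nat_lit 308)))) (XT.nd (nat_lit 156) (nat_lit 152) (nat_lit 0) (XT.nd (nat_lit 78) (nat_lit 0) (nat_lit 0) (XT.lf (nat_lit 0) (nat_lit 4139389479) (nat_lit 76) (nat_lit 18965137266) (nat_lit 76) (nat_lit 14905141287) (nat_lit 29) (nat_lit 4) (nat_lit 30) (nat_lit 5) (nat_lit 30) (nat_lit 4) (nat_lit 539) (nat_lit 354) (nat_lit 307)) (XT.lf (nat_lit 0) (nat_lit 26577820025) (nat_lit 76) (nat_lit 8169019371) (nat_lit 76) (nat_lit 4069761628) (nat_lit 29) (nat_lit 4) (nat_lit 30) (nat_lit 5) (nat_lit 30) (nat_lit 4) (nat_lit 540) (nat_lit 354) (nat_lit 306))) (XT.nd (nat_lit 78) (nat_lit 0) (nat_lit 0) (XT.lf (nat_lit 0) (nat_lit 6969250318) (nat_lit 152) (nat_lit 29723558501) (nat_lit 0) (nat_lit 2952380454) (nat_lit 27) (nat_lit 5) (nat_lit 29) (nat_lit 4) (nat_lit 27) (nat_lit 4) (nat_lit 541) (nat_lit 354) (nat_lit 305)) (XT.lf (nat_lit 0) (nat_lit 18355702453)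 (nat_lit 152) (nat_lit 7835879455) (nat_lit 0) (nat_lit 14302902514) (nat_lit 27) (nat_lit 5) (nat_lit 29) (nat_lit 4) (nat_lit 27) (nat_lit 4) (nat_lit 542) (nat_lit 354) (nat_lit 304))))) (XT.nd (nat_lit 312) (nat_lit 228) (nat_lit 0) (XT.nd (nat_lit 156) (nat_lit 152) (nat_lit 0) (XT.nd (nat_lit 78) (nat_lit 0) (nat_lit 0) (XT.lf (nat_lit 0) (nat_lit 14786986916) (nat_lit 76) (nat_lit 15334412799) (nat_lit 76) (nat_lit 11246729291) (nat_lit 26) (nat_lit 4) (nat_lit 27) (nat_lit 5) (nat_lit 27) (nat_lit 4) (nat_lit 543) (nat_lit 354) (nat_lit 303)) (XT.lf (nat_lit 0) (nat_lit 38041235433) (nat_lit 76) (nat_lit 4174514109) (nat_lit 76) (nat_lit 52963060) (nat_lit 26) (nat_lit 4) (nat_lit 27) (nat_lit 5) (nat_lit 27) (nat_lit 4) (nat_lit 544) (nat_lit 354) (nat_lit 302))) (XT.nd (nat_lit 78) (nat_lit 0) (nat_lit 0) (XT.lf (nat_lit 0) (nat_lit 11404708382) (nat_lit 152) (nat_lit 24412455461) (nat_lit 0) (nat_lit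 7371279102) (nat_lit 24) (nat_lit 5) (nat_lit 26) (nat_lit 4) (nat_lit 24) (nat_lit 4) (nat_lit 545) (nat_lit 354) (nat_lit 301)) (XT.lf (nat_lit 0) (nat_lit 23188100222) (nat_lit 152) (nat_lit 1824480371) (nat_lit 0) (nat_lit 19123677344) (nat_lit 24) (nat_lit 5) (nat_lit 26) (nat_lit 4) (nat_lit 24) (nat_lit 4) (nat_lit 546) (nat_lit 354) (nat_lit 300)))) (XT.nd (nat_lit 156) (nat_lit 76) (nat_lit 0) (XT.nd (nat_lit 78) (nat_lit 76) (nat_lit 0) (XT.lf (nat_lit 0) (nat_lit 21665921721) (nat_lit 76) (nat_lit 13768902307) (nat_lit 76) (nat_lit 9674388556) (nat_lit 23) (nat_lit 4) (nat_lit 24) (nat_lit 5) (nat_lit 24) (nat_lit 4) (nat_lit 547) (nat_lit 354) (nat_lit 299)) (XT.lf (nat_lit 0) (nat_lit 1819971960) (nat_lit 152) (nat_lit 429185110) (nat_lit 76) (nat_lit 43864034512) (nat_lit 22) (nat_lit 5) (nat_lit 24) (nat_lit 5) (nat_lit 23) (nat_lit 4) (nat_lit 548) (nat_lit 354) (nat_lit 298))) (XT.nd (nat_lit 78)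 (nat_lit 0) (nat_lit 0) (XT.lf (nat_lit 0) (nat_lit 13689218552) (nat_lit 152) (nat_lit 23790401353) (nat_lit 0) (nat_lit 9658061539) (nat_lit 21) (nat_lit 5) (nat_lit 23) (nat_lit 4) (nat_lit 21) (nat_lit 4) (nat_lit 549) (nat_lit 354) (nat_lit 297)) (XT.lf (nat_lit 0) (nat_lit 25845669168) (nat_lit 152) (nat_lit 561526328) (nat_lit 0) (nat_lit 21787776805) (nat_lit 21) (nat_lit 5) (nat_lit 23) (nat_lit 4) (nat_lit 21) (nat_lit 4) (nat_lit 550) (nat_lit 354) (nat_lit 296)))))) (XT.nd (nat_lit 58032) (nat_lit 0) (nat_lit 4028) (XT.nd (nat_lit 57720) (nat_lit 0) (nat_lit 4864) (XT.nd (nat_lit 156) (nat_lit 76) (nat_lit 0) (XT.nd (nat_lit 78) (nat_lit 76) (nat_lit 0) (XT.lf (nat_lit 0) (nat_lit 23638818016) (nat_lit 76) (nat_lit 14862489081) (nat_lit 76) (nat_lit 10778640067) (nat_lit 20) (nat_lit 4) (nat_lit 21) (nat_lit 5) (nat_lit 21) (nat_lit 4) (nat_lit 551) (nat_lit 354) (nat_lit 295)) (XT.lf (nat_lit 0) (nat_lit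 1029918685) (nat_lit 152) (nat_lit 2018314714) (nat_lit 76) (nat_lit 47351519323) (nat_lit 19) (nat_lit 5) (nat_lit 21) (nat_lit 5) (nat_lit 20) (nat_lit 4) (nat_lit 552) (nat_lit 354) (nat_lit 294))) (XT.nd (nat_lit 78) (nat_lit 0) (nat_lit 0) (XT.lf (nat_lit 0) (nat_lit 13191995362) (nat_lit 152) (nat_lit 29172605800) (nat_lit 0) (nat_lit 9178872761) (nat_lit 18) (nat_lit 5) (nat_lit 20) (nat_lit 4) (nat_lit 18) (nat_lit 4) (nat_lit 553) (nat_lit 354) (nat_lit 293)) (XT.lf (nat_lit 0) (nat_lit 25679704666) (nat_lit 152) (nat_lit 5399459151) (nat_lit 0) (nat_lit 21643519917) (nat_lit 18) (nat_lit 5) (nat_lit 20) (nat_lit 4) (nat_lit 18) (nat_lit 4) (nat_lit 554) (nat_lit 354) (nat_lit 292)))) (XT.nd (nat_lit 156) (nat_lit 304) (nat_lit 0) (XT.nd (nat_lit 78) (nat_lit 152) (nat_lit 0) (XT.lf (nat_lit 0) (nat_lit 4680626947) (nat_lit 152) (nat_lit 1608409209) (nat_lit 152) (nat_lit 1608409209) (nat_lit 88) (nat_lit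 4) (nat_lit 90) (nat_lit 5) (nat_lit 90) (nat_lit 4) (nat_lit 490) (nat_lit 355) (nat_lit 355)) (XT.lf (nat_lit 0) (nat_lit 4306265476) (nat_lit 152) (nat_lit 7698130362) (nat_lit 0) (nat_lit 4030063595) (nat_lit 86) (nat_lit 5) (nat_lit 88) (nat_lit 4) (nat_lit 86) (nat_lit 4) (nat_lit 491) (nat_lit 355) (nat_lit 354))) (XT.nd (nat_lit 78) (nat_lit 152) (nat_lit 0) (XT.lf (nat_lit 0) (nat_lit 7182843085) (nat_lit 152) (nat_lit 4820691119) (nat_lit 152) (nat_lit 4276332071) (nat_lit 84) (nat_lit 4) (nat_lit 86) (nat_lit 5) (nat_lit 86) (nat_lit 4) (nat_lit 492) (nat_lit 355) (nat_lit 353)) (XT.lf (nat_lit 0) (nat_lit 3340099344) (nat_lit 152) (nat_lit 10632504853) (nat_lit 0) (nat_lit 2558831566) (nat_lit 82) (nat_lit 5) (nat_lit 84) (nat_lit 4) (nat_lit 82) (nat_lit 4) (nat_lit 493) (nat_lit 355) (nat_lit 352))))) (XT.nd (nat_lit 312) (nat_lit 380) (nat_lit 0) (XT.nd (nat_lit 156) (nat_lit 152) (nat_lit 0) (XT.nd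 (nat_lit 78) (nat_lit 152) (nat_lit 0) (XT.lf (nat_lit 0) (nat_lit 4443733752) (nat_lit 152) (nat_lit 6685654707) (nat_lit 152) (nat_lit 5658985135) (nat_lit 80) (nat_lit 4) (nat_lit 82) (nat_lit 5) (nat_lit 82) (nat_lit 4) (nat_lit 494) (nat_lit 355) (nat_lit 351)) (XT.lf (nat_lit 0) (nat_lit 2049780072) (nat_lit 152) (nat_lit 14181193892) (nat_lit 0) (nat_lit 821698770) (nat_lit 78) (nat_lit 5) (nat_lit 80) (nat_lit 4) (nat_lit 78) (nat_lit 4) (nat_lit 495) (nat_lit 355) (nat_lit 350))) (XT.nd (nat_lit 78) (nat_lit 76) (nat_lit 0) (XT.lf (nat_lit 0) (nat_lit 1077676029) (nat_lit 76) (nat_lit 8848352330) (nat_lit 76) (nat_lit 7395693623) (nat_lit 77) (nat_lit 4) (nat_lit 78) (nat_lit 5) (nat_lit 78) (nat_lit 4) (nat_lit 496) (nat_lit 355) (nat_lit 349)) (XT.lf (nat_lit 0) (nat_lit 423406971) (nat_lit 152) (nat_lit 811178871) (nat_lit 76) (nat_lit 16364362850) (nat_lit 76) (nat_lit 5) (nat_lit 78) (nat_lit 5) (nat_lit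 77) (nat_lit 4) (nat_lit 497) (nat_lit 355) (nat_lit 348)))) (XT.nd (nat_lit 156) (nat_lit 228) (nat_lit 0) (XT.nd (nat_lit 78) (nat_lit 76) (nat_lit 0) (XT.lf (nat_lit 0) (nat_lit 8389201504) (nat_lit 152) (nat_lit 2929624338) (nat_lit 0) (nat_lit 6561647362) (nat_lit 75) (nat_lit 5) (nat_lit 77) (nat_lit 4) (nat_lit 75) (nat_lit 4) (nat_lit 498) (nat_lit 355) (nat_lit 347)) (XT.lf (nat_lit 0) (nat_lit 12985636161) (nat_lit 76) (nat_lit 3605983394) (nat_lit 76) (nat_lit 1578895137) (nat_lit 74) (nat_lit 4) (nat_lit 75) (nat_lit 5) (nat_lit 75) (nat_lit 4) (nat_lit 499) (nat_lit 355) (nat_lit 346))) (XT.nd (nat_lit 78) (nat_lit 76) (nat_lit 0) (XT.lf (nat_lit 0) (nat_lit 6471364500) (nat_lit 152) (nat_lit 7679899134) (nat_lit 0) (nat_lit 4315237606) (nat_lit 72) (nat_lit 5) (nat_lit 74) (nat_lit 4) (nat_lit 72) (nat_lit 4) (nat_lit 500) (nat_lit 355) (nat_lit 345)) (XT.lf (nat_lit 0) (nat_lit 8397766854) (nat_lit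 76) (nat_lit 6355600996) (nat_lit 76) (nat_lit 4016872121) (nat_lit 71) (nat_lit 4) (nat_lit 72) (nat_lit 5) (nat_lit 72) (nat_lit 4) (nat_lit 501) (nat_lit 355) (nat_lit 344))))))) (XT.nd (nat_lit 1170) (nat_lit 1292) (nat_lit 0) (XT.nd (nat_lit 546) (nat_lit 684) (nat_lit 0) (XT.nd (nat_lit 234) (nat_lit 380) (nat_lit 0) (XT.nd (nat_lit 78) (nat_lit 152) (nat_lit 0) (XT.lf (nat_lit 0) (nat_lit 4122261662) (nat_lit 152) (nat_lit 13279982420) (nat_lit 0) (nat_lit 1679531223) (nat_lit 69) (nat_lit 5) (nat_lit 71) (nat_lit 4) (nat_lit 69) (nat_lit 4) (nat_lit 502) (nat_lit 355) (nat_lit 343)) (XT.nd (nat_lit 78) (nat_lit 76) (nat_lit 0) (XT.lf (nat_lit 0) (nat_lit 2939750145) (nat_lit 76) (nat_lit 9535026446) (nat_lit 76) (nat_lit 6925189326) (nat_lit 68) (nat_lit 4) (nat_lit 69) (nat_lit 5) (nat_lit 69) (nat_lit 4) (nat_lit 503) (nat_lit 355) (nat_lit 342)) (XT.lf (nat_lit 0) (nat_lit 1312323082) (nat_lit 152) (nat_lit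 108060757) (nat_lit 76) (nat_lit 18307274476) (nat_lit 67) (nat_lit 5) (nat_lit 69) (nat_lit 5) (nat_lit 68) (nat_lit 4) (nat_lit 504) (nat_lit 355) (nat_lit 341)))) (XT.nd (nat_lit 156) (nat_lit 228) (nat_lit 0) (XT.nd (nat_lit 78) (nat_lit 76) (nat_lit 0) (XT.lf (nat_lit 0) (nat_lit 9743413105) (nat_lit 152) (nat_lit 3417992404) (nat_lit 0) (nat_lit 6899150300) (nat_lit 66) (nat_lit 5) (nat_lit 68) (nat_lit 4) (nat_lit 66) (nat_lit 4) (nat_lit 505) (nat_lit 355) (nat_lit 340)) (XT.lf (nat_lit 0) (nat_lit 13462991908) (nat_lit 76) (nat_lit 4966560151) (nat_lit 76) (nat_lit 1973825225) (nat_lit 65) (nat_lit 4) (nat_lit 66) (nat_lit 5) (nat_lit 66) (nat_lit 4) (nat_lit 506) (nat_lit 355) (nat_lit 339))) (XT.nd (nat_lit 78) (nat_lit 76) (nat_lit 0) (XT.lf (nat_lit 0) (nat_lit 6513376434) (nat_lit 152) (nat_lit 10772656329) (nat_lit 0) (nat_lit 3467859331) (nat_lit 63) (nat_lit 5) (nat_lit 65) (nat_lit 4) (nat_lit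 63) (nat_lit 4) (nat_lit 507) (nat_lit 355) (nat_lit 338)) (XT.lf (nat_lit 0) (nat_lit 6211338075) (nat_lit 76) (nat_lit 9041632580) (nat_lit 76) (nat_lit 5860242453) (nat_lit 62) (nat_lit 4) (nat_lit 63) (nat_lit 5) (nat_lit 63) (nat_lit 4) (nat_lit 508) (nat_lit 355) (nat_lit 337))))) (XT.nd (nat_lit 312) (nat_lit 304) (nat_lit 0) (XT.nd (nat_lit 156) (nat_lit 228) (nat_lit 0) (XT.nd (nat_lit 78) (nat_lit 0) (nat_lit 0) (XT.lf (nat_lit 0) (nat_lit 2179958201) (nat_lit 76) (nat_lit 526083121) (nat_lit 152) (nat_lit 18776813182) (nat_lit 60) (nat_lit 5) (nat_lit 61) (nat_lit 5) (nat_lit 62) (nat_lit 4) (nat_lit 509) (nat_lit 355) (nat_lit 336)) (XT.lf (nat_lit 0) (nat_lit 11500773968) (nat_lit 152) (nat_lit 2198764332) (nat_lit 0) (nat_lit 8159629269) (nat_lit 60) (nat_lit 5) (nat_lit 62) (nat_lit 4) (nat_lit 60) (nat_lit 4) (nat_lit 510) (nat_lit 355) (nat_lit 335))) (XT.nd (nat_lit 78) (nat_lit 152) (nat_lit 0)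 (XT.lf (nat_lit 0) (nat_lit 15442142439) (nat_lit 76) (nat_lit 5133010017) (nat_lit 76) (nat_lit 1671143896) (nat_lit 59) (nat_lit 4) (nat_lit 60) (nat_lit 5) (nat_lit 60) (nat_lit 4) (nat_lit 511) (nat_lit 355) (nat_lit 334)) (XT.lf (nat_lit 0) (nat_lit 7160118050) (nat_lit 152) (nat_lit 11796769759) (nat_lit 0) (nat_lit 3685291463) (nat_lit 57) (nat_lit 5) (nat_lit 59) (nat_lit 4) (nat_lit 57) (nat_lit 4) (nat_lit 512) (nat_lit 355) (nat_lit 333)))) (XT.nd (nat_lit 156) (nat_lit 76) (nat_lit 0) (XT.nd (nat_lit 78) (nat_lit 152) (nat_lit 0) (XT.lf (nat_lit 0) (nat_lit 5890274271) (nat_lit 76) (nat_lit 10371648217) (nat_lit 76) (nat_lit 6786344428) (nat_lit 56) (nat_lit 4) (nat_lit 57) (nat_lit 5) (nat_lit 57) (nat_lit 4) (nat_lit 513) (nat_lit 355) (nat_lit 332)) (XT.lf (nat_lit 0) (nat_lit 603785219) (nat_lit 76) (nat_lit 1512642577) (nat_lit 152) (nat_lit 21349827927) (nat_lit 54) (nat_lit 5) (nat_lit 55) (nat_lit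 5) (nat_lit 56) (nat_lit 4) (nat_lit 514) (nat_lit 355) (nat_lit 331))) (XT.nd (nat_lit 78) (nat_lit 76) (nat_lit 0) (XT.lf (nat_lit 0) (nat_lit 11260583725) (nat_lit 152) (nat_lit 5056395503) (nat_lit 0) (nat_lit 7574468612) (nat_lit 54) (nat_lit 5) (nat_lit 56) (nat_lit 4) (nat_lit 54) (nat_lit 4) (nat_lit 515) (nat_lit 355) (nat_lit 330)) (XT.lf (nat_lit 0) (nat_lit 13262768955) (nat_lit 76) (nat_lit 7425314611) (nat_lit 76) (nat_lit 3641041935) (nat_lit 53) (nat_lit 4) (nat_lit 54) (nat_lit 5) (nat_lit 54) (nat_lit 4) (nat_lit 516) (nat_lit 355) (nat_lit 329)))))) (XT.nd (nat_lit 624) (nat_lit 608) (nat_lit 0) (XT.nd (nat_lit 312) (nat_lit 304) (nat_lit 0) (XT.nd (nat_lit 156) (nat_lit 152) (nat_lit 0) (XT.nd (nat_lit 78) (nat_lit 76) (nat_lit 0) (XT.lf (nat_lit 0) (nat_lit 5514119282) (nat_lit 152) (nat_lit 17516490648) (nat_lit 0) (nat_lit 1747545223) (nat_lit 51) (nat_lit 5) (nat_lit 53) (nat_lit 4) (nat_lit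 51) (nat_lit 4) (nat_lit 517) (nat_lit 355) (nat_lit 328)) (XT.lf (nat_lit 0) (nat_lit 768301823) (nat_lit 76) (nat_lit 14162930248) (nat_lit 76) (nat_lit 10306528114) (nat_lit 50) (nat_lit 4) (nat_lit 51) (nat_lit 5) (nat_lit 51) (nat_lit 4) (nat_lit 518) (nat_lit 355) (nat_lit 327))) (XT.nd (nat_lit 78) (nat_lit 152) (nat_lit 0) (XT.lf (nat_lit 0) (nat_lit 19698219251) (nat_lit 76) (nat_lit 4977599736) (nat_lit 76) (nat_lit 1033985878) (nat_lit 50) (nat_lit 4) (nat_lit 51) (nat_lit 5) (nat_lit 51) (nat_lit 4) (nat_lit 519) (nat_lit 355) (nat_lit 326)) (XT.lf (nat_lit 0) (nat_lit 8389222417) (nat_lit 152) (nat_lit 13324906587) (nat_lit 0) (nat_lit 4478265685) (nat_lit 48) (nat_lit 5) (nat_lit 50) (nat_lit 4) (nat_lit 48) (nat_lit 4) (nat_lit 520) (nat_lit 355) (nat_lit 325)))) (XT.nd (nat_lit 156) (nat_lit 152) (nat_lit 0) (XT.nd (nat_lit 78) (nat_lit 76) (nat_lit 0) (XT.lf (nat_lit 0) (nat_lit 5538971252) (nat_lit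 76) (nat_lit 12569957214) (nat_lit 76) (nat_lit 8579189400) (nat_lit 47) (nat_lit 4) (nat_lit 48) (nat_lit 5) (nat_lit 48) (nat_lit 4) (nat_lit 521) (nat_lit 355) (nat_lit 324)) (XT.lf (nat_lit 0) (nat_lit 910215205) (nat_lit 152) (nat_lit 2220517433) (nat_lit 76) (nat_lit 24067514104) (nat_lit 46) (nat_lit 5) (nat_lit 48) (nat_lit 5) (nat_lit 47) (nat_lit 4) (nat_lit 522) (nat_lit 355) (nat_lit 323))) (XT.nd (nat_lit 78) (nat_lit 76) (nat_lit 0) (XT.lf (nat_lit 0) (nat_lit 10617167126) (nat_lit 152) (nat_lit 10506438175) (nat_lit 0) (nat_lit 6594367224) (nat_lit 45) (nat_lit 5) (nat_lit 47) (nat_lit 4) (nat_lit 45) (nat_lit 4) (nat_lit 523) (nat_lit 355) (nat_lit 322)) (XT.lf (nat_lit 0) (nat_lit 8911985167) (nat_lit 76) (nat_lit 11717298750) (nat_lit 76) (nat_lit 7623587736) (nat_lit 44) (nat_lit 4) (nat_lit 45) (nat_lit 5) (nat_lit 45) (nat_lit 4) (nat_lit 524) (nat_lit 355) (nat_lit 321))))) (XT.nd (nat_lit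 312) (nat_lit 228) (nat_lit 0) (XT.nd (nat_lit 156) (nat_lit 228) (nat_lit 0) (XT.nd (nat_lit 78) (nat_lit 0) (nat_lit 0) (XT.lf (nat_lit 0) (nat_lit 57018025) (nat_lit 76) (nat_lit 2021590240) (nat_lit 152) (nat_lit 26725121773) (nat_lit 42) (nat_lit 5) (nat_lit 43) (nat_lit 5) (nat_lit 44) (nat_lit 4) (nat_lit 525) (nat_lit 355) (nat_lit 320)) (XT.lf (nat_lit 0) (nat_lit 12067213997) (nat_lit 152) (nat_lit 9336175823) (nat_lit 0) (nat_lit 7961003047) (nat_lit 42) (nat_lit 5) (nat_lit 44) (nat_lit 4) (nat_lit 42) (nat_lit 4) (nat_lit 526) (nat_lit 355) (nat_lit 319))) (XT.nd (nat_lit 78) (nat_lit 152) (nat_lit 0) (XT.lf (nat_lit 0) (nat_lit 10600534193) (nat_lit 76) (nat_lit 11755273144) (nat_lit 76) (nat_lit 7586058590) (nat_lit 41) (nat_lit 4) (nat_lit 42) (nat_lit 5) (nat_lit 42) (nat_lit 4) (nat_lit 527) (nat_lit 355) (nat_lit 318)) (XT.lf (nat_lit 0) (nat_lit 536176294) (nat_lit 76) (nat_lit 1811882521) (nat_lit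 152) (nat_lit 28188543265) (nat_lit 39) (nat_lit 5) (nat_lit 40) (nat_lit 5) (nat_lit 41) (nat_lit 4) (nat_lit 528) (nat_lit 355) (nat_lit 317)))) (XT.nd (nat_lit 156) (nat_lit 152) (nat_lit 0) (XT.nd (nat_lit 78) (nat_lit 76) (nat_lit 0) (XT.lf (nat_lit 0) (nat_lit 12584525360) (nat_lit 152) (nat_lit 10137997871) (nat_lit 0) (nat_lit 8419700076) (nat_lit 39) (nat_lit 5) (nat_lit 41) (nat_lit 4) (nat_lit 39) (nat_lit 4) (nat_lit 529) (nat_lit 355) (nat_lit 316)) (XT.lf (nat_lit 0) (nat_lit 10266694902) (nat_lit 76) (nat_lit 12860080480) (nat_lit 76) (nat_lit 8639277309) (nat_lit 38) (nat_lit 4) (nat_lit 39) (nat_lit 5) (nat_lit 39) (nat_lit 4) (nat_lit 530) (nat_lit 355) (nat_lit 315))) (XT.nd (nat_lit 78) (nat_lit 76) (nat_lit 0) (XT.lf (nat_lit 0) (nat_lit 1531409305) (nat_lit 152) (nat_lit 1166389742) (nat_lit 76) (nat_lit 29710779007) (nat_lit 37) (nat_lit 5) (nat_lit 39) (nat_lit 5) (nat_lit 38) (nat_lit 4)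 (nat_lit 531) (nat_lit 355) (nat_lit 314)) (XT.lf (nat_lit 0) (nat_lit 11986222525) (nat_lit 152) (nat_lit 13292648164) (nat_lit 0) (nat_lit 7784363147) (nat_lit 36) (nat_lit 5) (nat_lit 38) (nat_lit 4) (nat_lit 36) (nat_lit 4) (nat_lit 532) (nat_lit 355) (nat_lit 313))))))))
noncomputable def xc17 : XT := (XT.nd (nat_lit 59670) (nat_lit 0) (nat_lit 1748) (XT.nd (nat_lit 1170) (nat_lit 380) (nat_lit 0) (XT.nd (nat_lit 546) (nat_lit 532) (nat_lit 0) (XT.nd (nat_lit 234) (nat_lit 228) (nat_lit 0) (XT.nd (nat_lit 78) (nat_lit 152) (nat_lit 0) (XT.lf (nat_lit 0) (nat_lit 7512953774) (nat_lit 76) (nat_lit 15238139160) (nat_lit 76) (nat_lit 10986544155) (nat_lit 35) (nat_lit 4) (nat_lit 36) (nat_lit 5) (nat_lit 36) (nat_lit 4) (nat_lit 533) (nat_lit 355) (nat_lit 312)) (XT.nd (nat_lit 78) (nat_lit 152) (nat_lit 0) (XT.lf (nat_lit 0) (nat_lit 28988229589) (nat_lit 76) (nat_lit 4871648003) (nat_lit 76) (nat_lit 571765981)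 (nat_lit 35) (nat_lit 4) (nat_lit 36) (nat_lit 5) (nat_lit 36) (nat_lit 4) (nat_lit 534) (nat_lit 355) (nat_lit 311)) (XT.lf (nat_lit 0) (nat_lit 10056800485) (nat_lit 152) (nat_lit 19247113286) (nat_lit 0) (nat_lit 5836642600) (nat_lit 33) (nat_lit 5) (nat_lit 35) (nat_lit 4) (nat_lit 33) (nat_lit 4) (nat_lit 535) (nat_lit 355) (nat_lit 310)))) (XT.nd (nat_lit 156) (nat_lit 152) (nat_lit 0) (XT.nd (nat_lit 78) (nat_lit 0) (nat_lit 0) (XT.lf (nat_lit 0) (nat_lit 1872366266) (nat_lit 76) (nat_lit 19131112776) (nat_lit 76) (nat_lit 14866765431) (nat_lit 32) (nat_lit 4) (nat_lit 33) (nat_lit 5) (nat_lit 33) (nat_lit 4) (nat_lit 536) (nat_lit 355) (nat_lit 309)) (XT.lf (nat_lit 0) (nat_lit 23799525926) (nat_lit 76) (nat_lit 8563506475) (nat_lit 76) (nat_lit 4256256741) (nat_lit 32) (nat_lit 4) (nat_lit 33) (nat_lit 5) (nat_lit 33) (nat_lit 4) (nat_lit 537) (nat_lit 355) (nat_lit 308))) (XT.nd (nat_lit 78) (nat_lit 0)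 (nat_lit 0) (XT.lf (nat_lit 0) (nat_lit 6542797706) (nat_lit 152) (nat_lit 28525508049) (nat_lit 0) (nat_lit 2320562231) (nat_lit 30) (nat_lit 5) (nat_lit 32) (nat_lit 4) (nat_lit 30) (nat_lit 4) (nat_lit 538) (nat_lit 355) (nat_lit 307)) (XT.lf (nat_lit 0) (nat_lit 17688109106) (nat_lit 152) (nat_lit 7062314174) (nat_lit 0) (nat_lit 13426611868) (nat_lit 30) (nat_lit 5) (nat_lit 32) (nat_lit 4) (nat_lit 30) (nat_lit 4) (nat_lit 539) (nat_lit 355) (nat_lit 306))))) (XT.nd (nat_lit 312) (nat_lit 228) (nat_lit 0) (XT.nd (nat_lit 156) (nat_lit 152) (nat_lit 0) (XT.nd (nat_lit 78) (nat_lit 76) (nat_lit 0) (XT.lf (nat_lit 0) (nat_lit 15130092978) (nat_lit 76) (nat_lit 14078571699) (nat_lit 76) (nat_lit 9778956243) (nat_lit 29) (nat_lit 4) (nat_lit 30) (nat_lit 5) (nat_lit 30) (nat_lit 4) (nat_lit 540) (nat_lit 355) (nat_lit 305)) (XT.lf (nat_lit 0) (nat_lit 1195364438) (nat_lit 152) (nat_lit 1910033622) (nat_lit 76)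 (nat_lit 36717740529) (nat_lit 28) (nat_lit 5) (nat_lit 30) (nat_lit 5) (nat_lit 29) (nat_lit 4) (nat_lit 541) (nat_lit 355) (nat_lit 304))) (XT.nd (nat_lit 78) (nat_lit 76) (nat_lit 0) (XT.lf (nat_lit 0) (nat_lit 12481581456) (nat_lit 152) (nat_lit 19957475522) (nat_lit 0) (nat_lit 8236383875) (nat_lit 27) (nat_lit 5) (nat_lit 29) (nat_lit 4) (nat_lit 27) (nat_lit 4) (nat_lit 542) (nat_lit 355) (nat_lit 303)) (XT.lf (nat_lit 0) (nat_lit 2321717914) (nat_lit 76) (nat_lit 21755763316) (nat_lit 76) (nat_lit 17476698193) (nat_lit 26) (nat_lit 4) (nat_lit 27) (nat_lit 5) (nat_lit 27) (nat_lit 4) (nat_lit 543) (nat_lit 355) (nat_lit 302)))) (XT.nd (nat_lit 156) (nat_lit 76) (nat_lit 0) (XT.nd (nat_lit 78) (nat_lit 152) (nat_lit 0) (XT.lf (nat_lit 0) (nat_lit 25476520406) (nat_lit 76) (nat_lit 10645836563) (nat_lit 76) (nat_lit 6333890332) (nat_lit 26) (nat_lit 4) (nat_lit 27) (nat_lit 5) (nat_lit 27) (nat_lit 4) (nat_lit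 544) (nat_lit 355) (nat_lit 301)) (XT.lf (nat_lit 0) (nat_lit 5007933115) (nat_lit 152) (nat_lit 37586424262) (nat_lit 0) (nat_lit 790583952) (nat_lit 24) (nat_lit 5) (nat_lit 26) (nat_lit 4) (nat_lit 24) (nat_lit 4) (nat_lit 545) (nat_lit 355) (nat_lit 300))) (XT.nd (nat_lit 78) (nat_lit 76) (nat_lit 0) (XT.lf (nat_lit 0) (nat_lit 16742834373) (nat_lit 152) (nat_lit 15095982384) (nat_lit 0) (nat_lit 12495394337) (nat_lit 24) (nat_lit 5) (nat_lit 26) (nat_lit 4) (nat_lit 24) (nat_lit 4) (nat_lit 546) (nat_lit 355) (nat_lit 299)) (XT.lf (nat_lit 0) (nat_lit 8033713793) (nat_lit 76) (nat_lit 20777725028) (nat_lit 76) (nat_lit 16501070553) (nat_lit 23) (nat_lit 4) (nat_lit 24) (nat_lit 5) (nat_lit 24) (nat_lit 4) (nat_lit 547) (nat_lit 355) (nat_lit 298)))))) (XT.nd (nat_lit 57876) (nat_lit 0) (nat_lit 4560) (XT.nd (nat_lit 312) (nat_lit 152) (nat_lit 0) (XT.nd (nat_lit 156) (nat_lit 76) (nat_lit 0) (XT.nd (nat_lit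 78) (nat_lit 152) (nat_lit 0) (XT.lf (nat_lit 0) (nat_lit 31976412611) (nat_lit 76) (nat_lit 9323513678) (nat_lit 76) (nat_lit 5018495670) (nat_lit 23) (nat_lit 4) (nat_lit 24) (nat_lit 5) (nat_lit 24) (nat_lit 4) (nat_lit 548) (nat_lit 355) (nat_lit 297)) (XT.lf (nat_lit 0) (nat_lit 6695872328) (nat_lit 152) (nat_lit 38166563148) (nat_lit 0) (nat_lit 2489507844) (nat_lit 21) (nat_lit 5) (nat_lit 23) (nat_lit 4) (nat_lit 21) (nat_lit 4) (nat_lit 549) (nat_lit 355) (nat_lit 296))) (XT.nd (nat_lit 78) (nat_lit 76) (nat_lit 0) (XT.lf (nat_lit 0) (nat_lit 18806639701) (nat_lit 152) (nat_lit 15029646455) (nat_lit 0) (nat_lit 14574318565) (nat_lit 21) (nat_lit 5) (nat_lit 23) (nat_lit 4) (nat_lit 21) (nat_lit 4) (nat_lit 550) (nat_lit 355) (nat_lit 295)) (XT.lf (nat_lit 0) (nat_lit 8791697150) (nat_lit 76) (nat_lit 22483508208) (nat_lit 76) (nat_lit 18225986441) (nat_lit 20) (nat_lit 4) (nat_lit 21) (nat_lit 5) (nat_lit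 21) (nat_lit 4) (nat_lit 551) (nat_lit 355) (nat_lit 294)))) (XT.nd (nat_lit 156) (nat_lit 0) (nat_lit 0) (XT.nd (nat_lit 78) (nat_lit 152) (nat_lit 0) (XT.lf (nat_lit 0) (nat_lit 33456312661) (nat_lit 76) (nat_lit 10724146688) (nat_lit 76) (nat_lit 6442158288) (nat_lit 20) (nat_lit 4) (nat_lit 21) (nat_lit 5) (nat_lit 21) (nat_lit 4) (nat_lit 552) (nat_lit 355) (nat_lit 293)) (XT.lf (nat_lit 0) (nat_lit 5577530889) (nat_lit 152) (nat_lit 44801510235) (nat_lit 0) (nat_lit 1397198450) (nat_lit 18) (nat_lit 5) (nat_lit 20) (nat_lit 4) (nat_lit 18) (nat_lit 4) (nat_lit 553) (nat_lit 355) (nat_lit 292))) (XT.nd (nat_lit 57330) (nat_lit 0) (nat_lit 5624) (XT.lf (nat_lit 0) (nat_lit 18022199869) (nat_lit 152) (nat_lit 21115063772) (nat_lit 0) (nat_lit 13819476994) (nat_lit 18) (nat_lit 5) (nat_lit 20) (nat_lit 4) (nat_lit 18) (nat_lit 4) (nat_lit 554) (nat_lit 355) (nat_lit 291)) (XT.lf (nat_lit 0) (nat_lit 5589355160)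 (nat_lit 152) (nat_lit 1037835199) (nat_lit 152) (nat_lit 1037835199) (nat_lit 92) (nat_lit 4) (nat_lit 94) (nat_lit 5) (nat_lit 94) (nat_lit 4) (nat_lit 488) (nat_lit 356) (nat_lit 356))))) (XT.nd (nat_lit 312) (nat_lit 456) (nat_lit 0) (XT.nd (nat_lit 156) (nat_lit 304) (nat_lit 0) (XT.nd (nat_lit 78) (nat_lit 152) (nat_lit 0) (XT.lf (nat_lit 0) (nat_lit 5269848479) (nat_lit 152) (nat_lit 5313804344) (nat_lit 0) (nat_lit 4976825903) (nat_lit 90) (nat_lit 5) (nat_lit 92) (nat_lit 4) (nat_lit 90) (nat_lit 4) (nat_lit 489) (nat_lit 356) (nat_lit 355)) (XT.lf (nat_lit 0) (nat_lit 9217608791) (nat_lit 152) (nat_lit 3578520960) (nat_lit 152) (nat_lit 3001010447) (nat_lit 88) (nat_lit 4) (nat_lit 90) (nat_lit 5) (nat_lit 90) (nat_lit 4) (nat_lit 490) (nat_lit 356) (nat_lit 354))) (XT.nd (nat_lit 78) (nat_lit 152) (nat_lit 0) (XT.lf (nat_lit 0) (nat_lit 4437394671) (nat_lit 152) (nat_lit 7993118823) (nat_lit 0) (nat_lit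 3608547685) (nat_lit 86) (nat_lit 5) (nat_lit 88) (nat_lit 4) (nat_lit 86) (nat_lit 4) (nat_lit 491) (nat_lit 356) (nat_lit 353)) (XT.lf (nat_lit 0) (nat_lit 6738093916) (nat_lit 152) (nat_lit 5318948477) (nat_lit 152) (nat_lit 4229754728) (nat_lit 84) (nat_lit 4) (nat_lit 86) (nat_lit 5) (nat_lit 86) (nat_lit 4) (nat_lit 492) (nat_lit 356) (nat_lit 352)))) (XT.nd (nat_lit 156) (nat_lit 152) (nat_lit 0) (XT.nd (nat_lit 78) (nat_lit 152) (nat_lit 0) (XT.lf (nat_lit 0) (nat_lit 3301184818) (nat_lit 152) (nat_lit 11241392927) (nat_lit 0) (nat_lit 1998313365) (nat_lit 82) (nat_lit 5) (nat_lit 84) (nat_lit 4) (nat_lit 82) (nat_lit 4) (nat_lit 493) (nat_lit 356) (nat_lit 351)) (XT.lf (nat_lit 0) (nat_lit 3678613764) (nat_lit 152) (nat_lit 7331377849) (nat_lit 152) (nat_lit 5790252227) (nat_lit 80) (nat_lit 4) (nat_lit 82) (nat_lit 5) (nat_lit 82) (nat_lit 4) (nat_lit 494) (nat_lit 356) (nat_lit 350))) (XT.nd (nat_lit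 78) (nat_lit 0) (nat_lit 0) (XT.lf (nat_lit 0) (nat_lit 1832058828) (nat_lit 152) (nat_lit 15123949926) (nat_lit 0) (nat_lit 111242955) (nat_lit 78) (nat_lit 5) (nat_lit 80) (nat_lit 4) (nat_lit 78) (nat_lit 4) (nat_lit 495) (nat_lit 356) (nat_lit 349)) (XT.lf (nat_lit 0) (nat_lit 9625020079) (nat_lit 152) (nat_lit 27611992) (nat_lit 0) (nat_lit 7686167890) (nat_lit 78) (nat_lit 5) (nat_lit 80) (nat_lit 4) (nat_lit 78) (nat_lit 4) (nat_lit 496) (nat_lit 356) (nat_lit 348))))))) (XT.nd (nat_lit 1248) (nat_lit 1216) (nat_lit 0) (XT.nd (nat_lit 624) (nat_lit 760) (nat_lit 0) (XT.nd (nat_lit 312) (nat_lit 380) (nat_lit 0) (XT.nd (nat_lit 156) (nat_lit 228) (nat_lit 0) (XT.nd (nat_lit 78) (nat_lit 76) (nat_lit 0) (XT.lf (nat_lit 0) (nat_lit 38389077) (nat_lit 152) (nat_lit 2072608105) (nat_lit 76) (nat_lit 15507315748) (nat_lit 76) (nat_lit 5) (nat_lit 78) (nat_lit 5) (nat_lit 77) (nat_lit 4) (nat_lit 497) (nat_lit 356)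 (nat_lit 347)) (XT.lf (nat_lit 0) (nat_lit 7910524666) (nat_lit 152) (nat_lit 4369033260) (nat_lit 0) (nat_lit 5623089645) (nat_lit 75) (nat_lit 5) (nat_lit 77) (nat_lit 4) (nat_lit 75) (nat_lit 4) (nat_lit 498) (nat_lit 356) (nat_lit 346))) (XT.nd (nat_lit 78) (nat_lit 152) (nat_lit 0) (XT.lf (nat_lit 0) (nat_lit 11377282691) (nat_lit 76) (nat_lit 4649573391) (nat_lit 76) (nat_lit 2168415927) (nat_lit 74) (nat_lit 4) (nat_lit 75) (nat_lit 5) (nat_lit 75) (nat_lit 4) (nat_lit 499) (nat_lit 356) (nat_lit 345)) (XT.lf (nat_lit 0) (nat_lit 5794568699) (nat_lit 152) (nat_lit 9496747577) (nat_lit 0) (nat_lit 3203075976) (nat_lit 72) (nat_lit 5) (nat_lit 74) (nat_lit 4) (nat_lit 72) (nat_lit 4) (nat_lit 500) (nat_lit 356) (nat_lit 344)))) (XT.nd (nat_lit 156) (nat_lit 152) (nat_lit 0) (XT.nd (nat_lit 78) (nat_lit 152) (nat_lit 0) (XT.lf (nat_lit 0) (nat_lit 6404295409) (nat_lit 76) (nat_lit 7582650440) (nat_lit 76) (nat_lit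 4813874239) (nat_lit 71) (nat_lit 4) (nat_lit 72) (nat_lit 5) (nat_lit 72) (nat_lit 4) (nat_lit 501) (nat_lit 356) (nat_lit 343)) (XT.lf (nat_lit 0) (nat_lit 3236552119) (nat_lit 152) (nat_lit 15497848035) (nat_lit 0) (nat_lit 381313205) (nat_lit 69) (nat_lit 5) (nat_lit 71) (nat_lit 4) (nat_lit 69) (nat_lit 4) (nat_lit 502) (nat_lit 356) (nat_lit 342))) (XT.nd (nat_lit 78) (nat_lit 76) (nat_lit 0) (XT.lf (nat_lit 0) (nat_lit 537127976) (nat_lit 76) (nat_lit 10958528506) (nat_lit 76) (nat_lit 7941050096) (nat_lit 68) (nat_lit 4) (nat_lit 69) (nat_lit 5) (nat_lit 69) (nat_lit 4) (nat_lit 503) (nat_lit 356) (nat_lit 341)) (XT.lf (nat_lit 0) (nat_lit 246016829) (nat_lit 152) (nat_lit 2675578319) (nat_lit 76) (nat_lit 16845205115) (nat_lit 67) (nat_lit 5) (nat_lit 69) (nat_lit 5) (nat_lit 68) (nat_lit 4) (nat_lit 504) (nat_lit 356) (nat_lit 340))))) (XT.nd (nat_lit 312) (nat_lit 380) (nat_lit 0) (XT.nd (nat_lit 156)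 (nat_lit 228) (nat_lit 0) (XT.nd (nat_lit 78) (nat_lit 76) (nat_lit 0) (XT.lf (nat_lit 0) (nat_lit 8567076263) (nat_lit 152) (nat_lit 6199835512) (nat_lit 0) (nat_lit 5336087167) (nat_lit 66) (nat_lit 5) (nat_lit 68) (nat_lit 4) (nat_lit 66) (nat_lit 4) (nat_lit 505) (nat_lit 356) (nat_lit 339)) (XT.lf (nat_lit 0) (nat_lit 10489128103) (nat_lit 76) (nat_lit 6667365505) (nat_lit 76) (nat_lit 3292228719) (nat_lit 65) (nat_lit 4) (nat_lit 66) (nat_lit 5) (nat_lit 66) (nat_lit 4) (nat_lit 506) (nat_lit 356) (nat_lit 338))) (XT.nd (nat_lit 78) (nat_lit 76) (nat_lit 0) (XT.lf (nat_lit 0) (nat_lit 5104402828) (nat_lit 152) (nat_lit 14007005687) (nat_lit 0) (nat_lit 1691697973) (nat_lit 63) (nat_lit 5) (nat_lit 65) (nat_lit 4) (nat_lit 63) (nat_lit 4) (nat_lit 507) (nat_lit 356) (nat_lit 337)) (XT.lf (nat_lit 0) (nat_lit 2775838243) (nat_lit 76) (nat_lit 10967120528) (nat_lit 76) (nat_lit 7422500117) (nat_lit 62) (nat_lit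 4) (nat_lit 63) (nat_lit 5) (nat_lit 63) (nat_lit 4) (nat_lit 508) (nat_lit 356) (nat_lit 336)))) (XT.nd (nat_lit 156) (nat_lit 228) (nat_lit 0) (XT.nd (nat_lit 78) (nat_lit 76) (nat_lit 0) (XT.lf (nat_lit 0) (nat_lit 1085337502) (nat_lit 152) (nat_lit 1469458637) (nat_lit 76) (nat_lit 18983422834) (nat_lit 61) (nat_lit 5) (nat_lit 63) (nat_lit 5) (nat_lit 62) (nat_lit 4) (nat_lit 509) (nat_lit 356) (nat_lit 335)) (XT.lf (nat_lit 0) (nat_lit 9778116275) (nat_lit 152) (nat_lit 6047801848) (nat_lit 0) (nat_lit 6091672749) (nat_lit 60) (nat_lit 5) (nat_lit 62) (nat_lit 4) (nat_lit 60) (nat_lit 4) (nat_lit 510) (nat_lit 356) (nat_lit 334))) (XT.nd (nat_lit 78) (nat_lit 152) (nat_lit 0) (XT.lf (nat_lit 0) (nat_lit 11383594662) (nat_lit 76) (nat_lit 7363961082) (nat_lit 76) (nat_lit 3560312293) (nat_lit 59) (nat_lit 4) (nat_lit 60) (nat_lit 5) (nat_lit 60) (nat_lit 4) (nat_lit 511) (nat_lit 356) (nat_lit 333)) (XT.lf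 (nat_lit 0) (nat_lit 5177773276) (nat_lit 152) (nat_lit 16155990730) (nat_lit 0) (nat_lit 1374433172) (nat_lit 57) (nat_lit 5) (nat_lit 59) (nat_lit 4) (nat_lit 57) (nat_lit 4) (nat_lit 512) (nat_lit 356) (nat_lit 332)))))) (XT.nd (nat_lit 624) (nat_lit 532) (nat_lit 0) (XT.nd (nat_lit 312) (nat_lit 380) (nat_lit 0) (XT.nd (nat_lit 156) (nat_lit 228) (nat_lit 0) (XT.nd (nat_lit 78) (nat_lit 0) (nat_lit 0) (XT.lf (nat_lit 0) (nat_lit 1311288552) (nat_lit 76) (nat_lit 12858445646) (nat_lit 76) (nat_lit 8947846122) (nat_lit 56) (nat_lit 4) (nat_lit 57) (nat_lit 5) (nat_lit 57) (nat_lit 4) (nat_lit 513) (nat_lit 356) (nat_lit 331)) (XT.lf (nat_lit 0) (nat_lit 19371626790) (nat_lit 76) (nat_lit 4090713422) (nat_lit 76) (nat_lit 75978540) (nat_lit 56) (nat_lit 4) (nat_lit 57) (nat_lit 5) (nat_lit 57) (nat_lit 4) (nat_lit 514) (nat_lit 356) (nat_lit 330))) (XT.nd (nat_lit 78) (nat_lit 76) (nat_lit 0) (XT.lf (nat_lit 0)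 (nat_lit 8937886060) (nat_lit 152) (nat_lit 10087672473) (nat_lit 0) (nat_lit 4941927641) (nat_lit 54) (nat_lit 5) (nat_lit 56) (nat_lit 4) (nat_lit 54) (nat_lit 4) (nat_lit 515) (nat_lit 356) (nat_lit 329)) (XT.lf (nat_lit 0) (nat_lit 8002136424) (nat_lit 76) (nat_lit 10248858173) (nat_lit 76) (nat_lit 6157601149) (nat_lit 53) (nat_lit 4) (nat_lit 54) (nat_lit 5) (nat_lit 54) (nat_lit 4) (nat_lit 516) (nat_lit 356) (nat_lit 328)))) (XT.nd (nat_lit 156) (nat_lit 228) (nat_lit 0) (XT.nd (nat_lit 78) (nat_lit 0) (nat_lit 0) (XT.lf (nat_lit 0) (nat_lit 1728350663) (nat_lit 76) (nat_lit 1184028945) (nat_lit 152) (nat_lit 21950000303) (nat_lit 51) (nat_lit 5) (nat_lit 52) (nat_lit 5) (nat_lit 53) (nat_lit 4) (nat_lit 517) (nat_lit 356) (nat_lit 327)) (XT.lf (nat_lit 0) (nat_lit 12246982417) (nat_lit 152) (nat_lit 4979629562) (nat_lit 0) (nat_lit 8097848420) (nat_lit 51) (nat_lit 5) (nat_lit 53) (nat_lit 4) (nat_lit 51)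 (nat_lit 4) (nat_lit 518) (nat_lit 356) (nat_lit 326))) (XT.nd (nat_lit 78) (nat_lit 152) (nat_lit 0) (XT.lf (nat_lit 0) (nat_lit 13725644372) (nat_lit 76) (nat_lit 8154011913) (nat_lit 76) (nat_lit 3920206339) (nat_lit 50) (nat_lit 4) (nat_lit 51) (nat_lit 5) (nat_lit 51) (nat_lit 4) (nat_lit 519) (nat_lit 356) (nat_lit 325)) (XT.lf (nat_lit 0) (nat_lit 5405092969) (nat_lit 152) (nat_lit 19668027792) (nat_lit 0) (nat_lit 1214791040) (nat_lit 48) (nat_lit 5) (nat_lit 50) (nat_lit 4) (nat_lit 48) (nat_lit 4) (nat_lit 520) (nat_lit 356) (nat_lit 324))))) (XT.nd (nat_lit 312) (nat_lit 228) (nat_lit 0) (XT.nd (nat_lit 156) (nat_lit 228) (nat_lit 0) (XT.nd (nat_lit 78) (nat_lit 76) (nat_lit 0) (XT.lf (nat_lit 0) (nat_lit 15009739640) (nat_lit 152) (nat_lit 1035396036) (nat_lit 0) (nat_lit 10741951224) (nat_lit 48) (nat_lit 5) (nat_lit 50) (nat_lit 4) (nat_lit 48) (nat_lit 4) (nat_lit 521) (nat_lit 356) (nat_lit 323))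 (XT.lf (nat_lit 0) (nat_lit 18269993651) (nat_lit 76) (nat_lit 6686324065) (nat_lit 76) (nat_lit 2343306050) (nat_lit 47) (nat_lit 4) (nat_lit 48) (nat_lit 5) (nat_lit 48) (nat_lit 4) (nat_lit 522) (nat_lit 356) (nat_lit 322))) (XT.nd (nat_lit 78) (nat_lit 76) (nat_lit 0) (XT.lf (nat_lit 0) (nat_lit 7246026304) (nat_lit 152) (nat_lit 17620306664) (nat_lit 0) (nat_lit 2958592847) (nat_lit 45) (nat_lit 5) (nat_lit 47) (nat_lit 4) (nat_lit 45) (nat_lit 4) (nat_lit 523) (nat_lit 356) (nat_lit 321)) (XT.lf (nat_lit 0) (nat_lit 1534518678) (nat_lit 76) (nat_lit 15592755822) (nat_lit 76) (nat_lit 11236476625) (nat_lit 44) (nat_lit 4) (nat_lit 45) (nat_lit 5) (nat_lit 45) (nat_lit 4) (nat_lit 524) (nat_lit 356) (nat_lit 320)))) (XT.nd (nat_lit 156) (nat_lit 76) (nat_lit 0) (XT.nd (nat_lit 78) (nat_lit 152) (nat_lit 0) (XT.lf (nat_lit 0) (nat_lit 21384705578) (nat_lit 76) (nat_lit 5977715871) (nat_lit 76) (nat_lit 1554596151)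 (nat_lit 44) (nat_lit 4) (nat_lit 45) (nat_lit 5) (nat_lit 45) (nat_lit 4) (nat_lit 525) (nat_lit 356) (nat_lit 319)) (XT.lf (nat_lit 0) (nat_lit 8291845153) (nat_lit 152) (nat_lit 17256908150) (nat_lit 0) (nat_lit 3934550558) (nat_lit 42) (nat_lit 5) (nat_lit 44) (nat_lit 4) (nat_lit 42) (nat_lit 4) (nat_lit 526) (nat_lit 356) (nat_lit 318))) (XT.nd (nat_lit 78) (nat_lit 0) (nat_lit 0) (XT.lf (nat_lit 0) (nat_lit 2403642111) (nat_lit 76) (nat_lit 16039853180) (nat_lit 76) (nat_lit 11621390037) (nat_lit 41) (nat_lit 4) (nat_lit 42) (nat_lit 5) (nat_lit 42) (nat_lit 4) (nat_lit 527) (nat_lit 356) (nat_lit 317)) (XT.lf (nat_lit 0) (nat_lit 22774167365) (nat_lit 76) (nat_lit 6182937440) (nat_lit 76) (nat_lit 1705087357) (nat_lit 41) (nat_lit 4) (nat_lit 42) (nat_lit 5) (nat_lit 42) (nat_lit 4) (nat_lit 528) (nat_lit 356) (nat_lit 316))))))))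
noncomputable def xc18 : XT := (XT.nd (nat_lit 59514) (nat_lit 0) (nat_lit 2204) (XT.nd (nat_lit 1170) (nat_lit 684) (nat_lit 0) (XT.nd (nat_lit 546) (nat_lit 456) (nat_lit 0) (XT.nd (nat_lit 234) (nat_lit 380) (nat_lit 0) (XT.nd (nat_lit 78) (nat_lit 76) (nat_lit 0) (XT.lf (nat_lit 0) (nat_lit 8386436698) (nat_lit 152) (nat_lit 18904183402) (nat_lit 0) (nat_lit 3983031546) (nat_lit 39) (nat_lit 5) (nat_lit 41) (nat_lit 4) (nat_lit 39) (nat_lit 4) (nat_lit 529) (nat_lit 356) (nat_lit 315)) (XT.nd (nat_lit 78) (nat_lit 0) (nat_lit 0) (XT.lf (nat_lit 0) (nat_lit 1210924433) (nat_lit 76) (nat_lit 17574306492) (nat_lit 76) (nat_lit 13116553877) (nat_lit 38) (nat_lit 4) (nat_lit 39) (nat_lit 5) (nat_lit 39) (nat_lit 4) (nat_lit 530) (nat_lit 356) (nat_lit 314)) (XT.lf (nat_lit 0) (nat_lit 22090114447) (nat_lit 76) (nat_lit 7483419250) (nat_lit 76) (nat_lit 2972902108) (nat_lit 38) (nat_lit 4) (nat_lit 39) (nat_lit 5)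 (nat_lit 39) (nat_lit 4) (nat_lit 531) (nat_lit 356) (nat_lit 313)))) (XT.nd (nat_lit 156) (nat_lit 228) (nat_lit 0) (XT.nd (nat_lit 78) (nat_lit 0) (nat_lit 0) (XT.lf (nat_lit 0) (nat_lit 7345580687) (nat_lit 152) (nat_lit 22945496380) (nat_lit 0) (nat_lit 2916702204) (nat_lit 36) (nat_lit 5) (nat_lit 38) (nat_lit 4) (nat_lit 36) (nat_lit 4) (nat_lit 532) (nat_lit 356) (nat_lit 312)) (XT.lf (nat_lit 0) (nat_lit 17983512939) (nat_lit 152) (nat_lit 2396130378) (nat_lit 0) (nat_lit 13506347439) (nat_lit 36) (nat_lit 5) (nat_lit 38) (nat_lit 4) (nat_lit 36) (nat_lit 4) (nat_lit 533) (nat_lit 356) (nat_lit 311))) (XT.nd (nat_lit 78) (nat_lit 152) (nat_lit 0) (XT.lf (nat_lit 0) (nat_lit 18922901410) (nat_lit 76) (nat_lit 10091735911) (nat_lit 76) (nat_lit 5567689812) (nat_lit 35) (nat_lit 4) (nat_lit 36) (nat_lit 5) (nat_lit 36) (nat_lit 4) (nat_lit 534) (nat_lit 356) (nat_lit 310)) (XT.lf (nat_lit 0) (nat_lit 4952359249)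 (nat_lit 152) (nat_lit 29830609633) (nat_lit 0) (nat_lit 515892022) (nat_lit 33) (nat_lit 5) (nat_lit 35) (nat_lit 4) (nat_lit 33) (nat_lit 4) (nat_lit 535) (nat_lit 356) (nat_lit 309))))) (XT.nd (nat_lit 312) (nat_lit 228) (nat_lit 0) (XT.nd (nat_lit 156) (nat_lit 152) (nat_lit 0) (XT.nd (nat_lit 78) (nat_lit 76) (nat_lit 0) (XT.lf (nat_lit 0) (nat_lit 15827953492) (nat_lit 152) (nat_lit 8854144244) (nat_lit 0) (nat_lit 11348583877) (nat_lit 33) (nat_lit 5) (nat_lit 35) (nat_lit 4) (nat_lit 33) (nat_lit 4) (nat_lit 536) (nat_lit 356) (nat_lit 308)) (XT.lf (nat_lit 0) (nat_lit 12791366926) (nat_lit 76) (nat_lit 14256781305) (nat_lit 76) (nat_lit 9735758885) (nat_lit 32) (nat_lit 4) (nat_lit 33) (nat_lit 5) (nat_lit 33) (nat_lit 4) (nat_lit 537) (nat_lit 356) (nat_lit 307))) (XT.nd (nat_lit 78) (nat_lit 76) (nat_lit 0) (XT.lf (nat_lit 0) (nat_lit 1010516632) (nat_lit 152) (nat_lit 2510113271) (nat_lit 76) (nat_lit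 34039227409) (nat_lit 31) (nat_lit 5) (nat_lit 33) (nat_lit 5) (nat_lit 32) (nat_lit 4) (nat_lit 538) (nat_lit 356) (nat_lit 306)) (XT.lf (nat_lit 0) (nat_lit 12045628110) (nat_lit 152) (nat_lit 18726796456) (nat_lit 0) (nat_lit 7578905974) (nat_lit 30) (nat_lit 5) (nat_lit 32) (nat_lit 4) (nat_lit 30) (nat_lit 4) (nat_lit 539) (nat_lit 356) (nat_lit 305)))) (XT.nd (nat_lit 156) (nat_lit 152) (nat_lit 0) (XT.nd (nat_lit 78) (nat_lit 0) (nat_lit 0) (XT.lf (nat_lit 0) (nat_lit 3131067061) (nat_lit 76) (nat_lit 20269769916) (nat_lit 76) (nat_lit 15766039803) (nat_lit 29) (nat_lit 4) (nat_lit 30) (nat_lit 5) (nat_lit 30) (nat_lit 4) (nat_lit 540) (nat_lit 356) (nat_lit 304)) (XT.lf (nat_lit 0) (nat_lit 25826734776) (nat_lit 76) (nat_lit 9358578311) (nat_lit 76) (nat_lit 4818918123) (nat_lit 29) (nat_lit 4) (nat_lit 30) (nat_lit 5) (nat_lit 30) (nat_lit 4) (nat_lit 541) (nat_lit 356) (nat_lit 303))) (XT.nd (nat_lit 78)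 (nat_lit 0) (nat_lit 0) (XT.lf (nat_lit 0) (nat_lit 6329790226) (nat_lit 152) (nat_lit 32646593667) (nat_lit 0) (nat_lit 1888485608) (nat_lit 27) (nat_lit 5) (nat_lit 29) (nat_lit 4) (nat_lit 27) (nat_lit 4) (nat_lit 542) (nat_lit 356) (nat_lit 302)) (XT.lf (nat_lit 0) (nat_lit 17854854076) (nat_lit 152) (nat_lit 10510210784) (nat_lit 0) (nat_lit 13380668348) (nat_lit 27) (nat_lit 5) (nat_lit 29) (nat_lit 4) (nat_lit 27) (nat_lit 4) (nat_lit 543) (nat_lit 356) (nat_lit 301)))))) (XT.nd (nat_lit 624) (nat_lit 228) (nat_lit 0) (XT.nd (nat_lit 312) (nat_lit 228) (nat_lit 0) (XT.nd (nat_lit 156) (nat_lit 152) (nat_lit 0) (XT.nd (nat_lit 78) (nat_lit 0) (nat_lit 0) (XT.lf (nat_lit 0) (nat_lit 12338868367) (nat_lit 76) (nat_lit 17409787071) (nat_lit 76) (nat_lit 12903677937) (nat_lit 26) (nat_lit 4) (nat_lit 27) (nat_lit 5) (nat_lit 27) (nat_lit 4) (nat_lit 544) (nat_lit 356) (nat_lit 300)) (XT.lf (nat_lit 0) (nat_lit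 35898581956) (nat_lit 76) (nat_lit 6112154238) (nat_lit 76) (nat_lit 1575051506) (nat_lit 26) (nat_lit 4) (nat_lit 27) (nat_lit 5) (nat_lit 27) (nat_lit 4) (nat_lit 545) (nat_lit 356) (nat_lit 299))) (XT.nd (nat_lit 78) (nat_lit 0) (nat_lit 0) (XT.lf (nat_lit 0) (nat_lit 10008641730) (nat_lit 152) (nat_lit 28957855106) (nat_lit 0) (nat_lit 5574473181) (nat_lit 24) (nat_lit 5) (nat_lit 26) (nat_lit 4) (nat_lit 24) (nat_lit 4) (nat_lit 546) (nat_lit 356) (nat_lit 298)) (XT.lf (nat_lit 0) (nat_lit 21954314182) (nat_lit 152) (nat_lit 6076860026) (nat_lit 0) (nat_lit 17491782100) (nat_lit 24) (nat_lit 5) (nat_lit 26) (nat_lit 4) (nat_lit 24) (nat_lit 4) (nat_lit 547) (nat_lit 356) (nat_lit 297)))) (XT.nd (nat_lit 156) (nat_lit 152) (nat_lit 0) (XT.nd (nat_lit 78) (nat_lit 0) (nat_lit 0) (XT.lf (nat_lit 0) (nat_lit 17653864273) (nat_lit 76) (nat_lit 16684109499) (nat_lit 76) (nat_lit 12194040007) (nat_lit 23) (nat_lit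 4) (nat_lit 24) (nat_lit 5) (nat_lit 24) (nat_lit 4) (nat_lit 548) (nat_lit 356) (nat_lit 296)) (XT.lf (nat_lit 0) (nat_lit 42041665248) (nat_lit 76) (nat_lit 5023658623) (nat_lit 76) (nat_lit 506853780) (nat_lit 23) (nat_lit 4) (nat_lit 24) (nat_lit 5) (nat_lit 24) (nat_lit 4) (nat_lit 549) (nat_lit 356) (nat_lit 295))) (XT.nd (nat_lit 78) (nat_lit 0) (nat_lit 0) (XT.lf (nat_lit 0) (nat_lit 11466403442) (nat_lit 152) (nat_lit 30113048452) (nat_lit 0) (nat_lit 7055955390) (nat_lit 21) (nat_lit 5) (nat_lit 23) (nat_lit 4) (nat_lit 21) (nat_lit 4) (nat_lit 550) (nat_lit 356) (nat_lit 294)) (XT.lf (nat_lit 0) (nat_lit 23807397090) (nat_lit 152) (nat_lit 6549942072) (nat_lit 0) (nat_lit 19372482404) (nat_lit 21) (nat_lit 5) (nat_lit 23) (nat_lit 4) (nat_lit 21) (nat_lit 4) (nat_lit 551) (nat_lit 356) (nat_lit 293))))) (XT.nd (nat_lit 57408) (nat_lit 0) (nat_lit 5320) (XT.nd (nat_lit 156) (nat_lit 152) (nat_lit 0) (XT.nd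 (nat_lit 78) (nat_lit 0) (nat_lit 0) (XT.lf (nat_lit 0) (nat_lit 17898487000) (nat_lit 76) (nat_lit 18707317274) (nat_lit 76) (nat_lit 14248648576) (nat_lit 20) (nat_lit 4) (nat_lit 21) (nat_lit 5) (nat_lit 21) (nat_lit 4) (nat_lit 552) (nat_lit 356) (nat_lit 292)) (XT.lf (nat_lit 0) (nat_lit 43045476736) (nat_lit 76) (nat_lit 6724806836) (nat_lit 76) (nat_lit 2243075990) (nat_lit 20) (nat_lit 4) (nat_lit 21) (nat_lit 5) (nat_lit 21) (nat_lit 4) (nat_lit 553) (nat_lit 356) (nat_lit 291))) (XT.nd (nat_lit 57174) (nat_lit 0) (nat_lit 5928) (XT.lf (nat_lit 0) (nat_lit 10050142881) (nat_lit 152) (nat_lit 37473011657) (nat_lit 0) (nat_lit 5677209598) (nat_lit 18) (nat_lit 5) (nat_lit 20) (nat_lit 4) (nat_lit 18) (nat_lit 4) (nat_lit 554) (nat_lit 356) (nat_lit 290)) (XT.lf (nat_lit 0) (nat_lit 6406313940) (nat_lit 152) (nat_lit 517410468) (nat_lit 152) (nat_lit 517410468) (nat_lit 96) (nat_lit 4) (nat_lit 98) (nat_lit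 5) (nat_lit 98) (nat_lit 4) (nat_lit 486) (nat_lit 357) (nat_lit 357)))) (XT.nd (nat_lit 156) (nat_lit 304) (nat_lit 0) (XT.nd (nat_lit 78) (nat_lit 152) (nat_lit 0) (XT.lf (nat_lit 0) (nat_lit 6135575398) (nat_lit 152) (nat_lit 3143679754) (nat_lit 0) (nat_lit 5824707747) (nat_lit 94) (nat_lit 5) (nat_lit 96) (nat_lit 4) (nat_lit 94) (nat_lit 4) (nat_lit 487) (nat_lit 357) (nat_lit 356)) (XT.lf (nat_lit 0) (nat_lit 11039508717) (nat_lit 152) (nat_lit 2452707408) (nat_lit 152) (nat_lit 1840026504) (nat_lit 92) (nat_lit 4) (nat_lit 94) (nat_lit 5) (nat_lit 94) (nat_lit 4) (nat_lit 488) (nat_lit 357) (nat_lit 355))) (XT.nd (nat_lit 78) (nat_lit 152) (nat_lit 0) (XT.lf (nat_lit 0) (nat_lit 5422285538) (nat_lit 152) (nat_lit 5599713747) (nat_lit 0) (nat_lit 4542961771) (nat_lit 90) (nat_lit 5) (nat_lit 92) (nat_lit 4) (nat_lit 90) (nat_lit 4) (nat_lit 489) (nat_lit 357) (nat_lit 354)) (XT.lf (nat_lit 0) (nat_lit 8786547965)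 (nat_lit 152) (nat_lit 4086434125) (nat_lit 152) (nat_lit 2930908477) (nat_lit 88) (nat_lit 4) (nat_lit 90) (nat_lit 5) (nat_lit 90) (nat_lit 4) (nat_lit 490) (nat_lit 357) (nat_lit 353))))))) (XT.nd (nat_lit 1248) (nat_lit 1368) (nat_lit 0) (XT.nd (nat_lit 624) (nat_lit 760) (nat_lit 0) (XT.nd (nat_lit 312) (nat_lit 380) (nat_lit 0) (XT.nd (nat_lit 156) (nat_lit 304) (nat_lit 0) (XT.nd (nat_lit 78) (nat_lit 152) (nat_lit 0) (XT.lf (nat_lit 0) (nat_lit 4423565757) (nat_lit 152) (nat_lit 8583353500) (nat_lit 0) (nat_lit 3041349433) (nat_lit 86) (nat_lit 5) (nat_lit 88) (nat_lit 4) (nat_lit 86) (nat_lit 4) (nat_lit 491) (nat_lit 357) (nat_lit 352)) (XT.lf (nat_lit 0) (nat_lit 5996413517) (nat_lit 152) (nat_lit 5968460957) (nat_lit 152) (nat_lit 4333480784) (nat_lit 84) (nat_lit 4) (nat_lit 86) (nat_lit 5) (nat_lit 86) (nat_lit 4) (nat_lit 492) (nat_lit 357) (nat_lit 351))) (XT.nd (nat_lit 78) (nat_lit 152) (nat_lit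 0) (XT.lf (nat_lit 0) (nat_lit 3112653994) (nat_lit 152) (nat_lit 12155390027) (nat_lit 0) (nat_lit 1287040434) (nat_lit 82) (nat_lit 5) (nat_lit 84) (nat_lit 4) (nat_lit 82) (nat_lit 4) (nat_lit 493) (nat_lit 357) (nat_lit 350)) (XT.lf (nat_lit 0) (nat_lit 2606509973) (nat_lit 152) (nat_lit 8133647508) (nat_lit 152) (nat_lit 6076719221) (nat_lit 80) (nat_lit 4) (nat_lit 82) (nat_lit 5) (nat_lit 82) (nat_lit 4) (nat_lit 494) (nat_lit 357) (nat_lit 349)))) (XT.nd (nat_lit 156) (nat_lit 228) (nat_lit 0) (XT.nd (nat_lit 78) (nat_lit 0) (nat_lit 0) (XT.lf (nat_lit 0) (nat_lit 696844176) (nat_lit 76) (nat_lit 770323246) (nat_lit 152) (nat_lit 15619320586) (nat_lit 78) (nat_lit 5) (nat_lit 79) (nat_lit 5) (nat_lit 80) (nat_lit 4) (nat_lit 495) (nat_lit 357) (nat_lit 348)) (XT.lf (nat_lit 0) (nat_lit 9181920209) (nat_lit 152) (nat_lit 1423282291) (nat_lit 0) (nat_lit 6755180395) (nat_lit 78) (nat_lit 5) (nat_lit 80) (nat_lit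 4) (nat_lit 78) (nat_lit 4) (nat_lit 496) (nat_lit 357) (nat_lit 347))) (XT.nd (nat_lit 78) (nat_lit 152) (nat_lit 0) (XT.lf (nat_lit 0) (nat_lit 13986611270) (nat_lit 76) (nat_lit 3144034087) (nat_lit 76) (nat_lit 511774134) (nat_lit 77) (nat_lit 4) (nat_lit 78) (nat_lit 5) (nat_lit 78) (nat_lit 4) (nat_lit 497) (nat_lit 357) (nat_lit 346)) (XT.lf (nat_lit 0) (nat_lit 7274116421) (nat_lit 152) (nat_lit 6130870801) (nat_lit 0) (nat_lit 4524801791) (nat_lit 75) (nat_lit 5) (nat_lit 77) (nat_lit 4) (nat_lit 75) (nat_lit 4) (nat_lit 498) (nat_lit 357) (nat_lit 345))))) (XT.nd (nat_lit 312) (nat_lit 304) (nat_lit 0) (XT.nd (nat_lit 156) (nat_lit 228) (nat_lit 0) (XT.nd (nat_lit 78) (nat_lit 152) (nat_lit 0) (XT.lf (nat_lit 0) (nat_lit 9444169976) (nat_lit 76) (nat_lit 5859126513) (nat_lit 76) (nat_lit 2921731842) (nat_lit 74) (nat_lit 4) (nat_lit 75) (nat_lit 5) (nat_lit 75) (nat_lit 4) (nat_lit 499) (nat_lit 357) (nat_lit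 344)) (XT.lf (nat_lit 0) (nat_lit 4954427647) (nat_lit 152) (nat_lit 11647679556) (nat_lit 0) (nat_lit 1925304683) (nat_lit 72) (nat_lit 5) (nat_lit 74) (nat_lit 4) (nat_lit 72) (nat_lit 4) (nat_lit 500) (nat_lit 357) (nat_lit 343))) (XT.nd (nat_lit 78) (nat_lit 152) (nat_lit 0) (XT.lf (nat_lit 0) (nat_lit 4074182700) (nat_lit 76) (nat_lit 8981812236) (nat_lit 76) (nat_lit 5780569392) (nat_lit 71) (nat_lit 4) (nat_lit 72) (nat_lit 5) (nat_lit 72) (nat_lit 4) (nat_lit 501) (nat_lit 357) (nat_lit 342)) (XT.lf (nat_lit 0) (nat_lit 1081827210) (nat_lit 76) (nat_lit 1110378078) (nat_lit 152) (nat_lit 16962426839) (nat_lit 69) (nat_lit 5) (nat_lit 70) (nat_lit 5) (nat_lit 71) (nat_lit 4) (nat_lit 502) (nat_lit 357) (nat_lit 341)))) (XT.nd (nat_lit 156) (nat_lit 228) (nat_lit 0) (XT.nd (nat_lit 78) (nat_lit 76) (nat_lit 0) (XT.lf (nat_lit 0) (nat_lit 10367205738) (nat_lit 152) (nat_lit 2171493604) (nat_lit 0) (nat_lit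 6939449406) (nat_lit 69) (nat_lit 5) (nat_lit 71) (nat_lit 4) (nat_lit 69) (nat_lit 4) (nat_lit 503) (nat_lit 357) (nat_lit 340)) (XT.lf (nat_lit 0) (nat_lit 14209322963) (nat_lit 76) (nat_lit 4591169989) (nat_lit 76) (nat_lit 1010487373) (nat_lit 68) (nat_lit 4) (nat_lit 69) (nat_lit 5) (nat_lit 69) (nat_lit 4) (nat_lit 504) (nat_lit 357) (nat_lit 339))) (XT.nd (nat_lit 78) (nat_lit 76) (nat_lit 0) (XT.lf (nat_lit 0) (nat_lit 7217135243) (nat_lit 152) (nat_lit 9337133415) (nat_lit 0) (nat_lit 3596596663) (nat_lit 66) (nat_lit 5) (nat_lit 68) (nat_lit 4) (nat_lit 66) (nat_lit 4) (nat_lit 505) (nat_lit 357) (nat_lit 338)) (XT.lf (nat_lit 0) (nat_lit 7156715545) (nat_lit 76) (nat_lit 8551653359) (nat_lit 76) (nat_lit 4791165564) (nat_lit 65) (nat_lit 4) (nat_lit 66) (nat_lit 5) (nat_lit 66) (nat_lit 4) (nat_lit 506) (nat_lit 357) (nat_lit 337)))))) (XT.nd (nat_lit 624) (nat_lit 684) (nat_lit 0) (XT.nd (nat_lit 312)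 (nat_lit 304) (nat_lit 0) (XT.nd (nat_lit 156) (nat_lit 228) (nat_lit 0) (XT.nd (nat_lit 78) (nat_lit 0) (nat_lit 0) (XT.lf (nat_lit 0) (nat_lit 3244603906) (nat_lit 76) (nat_lit 273112706) (nat_lit 152) (nat_lit 17340144487) (nat_lit 63) (nat_lit 5) (nat_lit 64) (nat_lit 5) (nat_lit 65) (nat_lit 4) (nat_lit 507) (nat_lit 357) (nat_lit 336)) (XT.lf (nat_lit 0) (nat_lit 12060931018) (nat_lit 152) (nat_lit 1012159876) (nat_lit 0) (nat_lit 8149983082) (nat_lit 63) (nat_lit 5) (nat_lit 65) (nat_lit 4) (nat_lit 63) (nat_lit 4) (nat_lit 508) (nat_lit 357) (nat_lit 335))) (XT.nd (nat_lit 78) (nat_lit 152) (nat_lit 0) (XT.lf (nat_lit 0) (nat_lit 16142649215) (nat_lit 76) (nat_lit 4745526729) (nat_lit 76) (nat_lit 710235729) (nat_lit 62) (nat_lit 4) (nat_lit 63) (nat_lit 5) (nat_lit 63) (nat_lit 4) (nat_lit 509) (nat_lit 357) (nat_lit 334)) (XT.lf (nat_lit 0) (nat_lit 7869949529) (nat_lit 152) (nat_lit 10276846641) (nat_lit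 0) (nat_lit 3834986013) (nat_lit 60) (nat_lit 5) (nat_lit 62) (nat_lit 4) (nat_lit 60) (nat_lit 4) (nat_lit 510) (nat_lit 357) (nat_lit 333)))) (XT.nd (nat_lit 156) (nat_lit 76) (nat_lit 0) (XT.nd (nat_lit 78) (nat_lit 152) (nat_lit 0) (XT.lf (nat_lit 0) (nat_lit 6941347793) (nat_lit 76) (nat_lit 9791334006) (nat_lit 76) (nat_lit 5642578971) (nat_lit 59) (nat_lit 4) (nat_lit 60) (nat_lit 5) (nat_lit 60) (nat_lit 4) (nat_lit 511) (nat_lit 357) (nat_lit 332)) (XT.lf (nat_lit 0) (nat_lit 1858040175) (nat_lit 76) (nat_lit 1155394510) (nat_lit 152) (nat_lit 19766437033) (nat_lit 57) (nat_lit 5) (nat_lit 58) (nat_lit 5) (nat_lit 59) (nat_lit 4) (nat_lit 512) (nat_lit 357) (nat_lit 331))) (XT.nd (nat_lit 78) (nat_lit 76) (nat_lit 0) (XT.lf (nat_lit 0) (nat_lit 11917774144) (nat_lit 152) (nat_lit 3595647693) (nat_lit 0) (nat_lit 7678461856) (nat_lit 57) (nat_lit 5) (nat_lit 59) (nat_lit 4) (nat_lit 57) (nat_lit 4) (nat_lit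 513) (nat_lit 357) (nat_lit 330)) (XT.lf (nat_lit 0) (nat_lit 14267757588) (nat_lit 76) (nat_lit 6844117228) (nat_lit 76) (nat_lit 2503702650) (nat_lit 56) (nat_lit 4) (nat_lit 57) (nat_lit 5) (nat_lit 57) (nat_lit 4) (nat_lit 514) (nat_lit 357) (nat_lit 329))))) (XT.nd (nat_lit 312) (nat_lit 304) (nat_lit 0) (XT.nd (nat_lit 156) (nat_lit 152) (nat_lit 0) (XT.nd (nat_lit 78) (nat_lit 76) (nat_lit 0) (XT.lf (nat_lit 0) (nat_lit 6415947007) (nat_lit 152) (nat_lit 15527092146) (nat_lit 0) (nat_lit 2106653667) (nat_lit 54) (nat_lit 5) (nat_lit 56) (nat_lit 4) (nat_lit 54) (nat_lit 4) (nat_lit 515) (nat_lit 357) (nat_lit 328)) (XT.lf (nat_lit 0) (nat_lit 2329002134) (nat_lit 76) (nat_lit 13283555806) (nat_lit 76) (nat_lit 8881739549) (nat_lit 53) (nat_lit 4) (nat_lit 54) (nat_lit 5) (nat_lit 54) (nat_lit 4) (nat_lit 516) (nat_lit 357) (nat_lit 327))) (XT.nd (nat_lit 78) (nat_lit 76) (nat_lit 0) (XT.lf (nat_lit 0) (nat_lit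 162847551) (nat_lit 152) (nat_lit 4161063804) (nat_lit 76) (nat_lit 20627312581) (nat_lit 52) (nat_lit 5) (nat_lit 54) (nat_lit 5) (nat_lit 53) (nat_lit 4) (nat_lit 517) (nat_lit 357) (nat_lit 326)) (XT.lf (nat_lit 0) (nat_lit 9364182846) (nat_lit 152) (nat_lit 11134428227) (nat_lit 0) (nat_lit 4918691529) (nat_lit 51) (nat_lit 5) (nat_lit 53) (nat_lit 4) (nat_lit 51) (nat_lit 4) (nat_lit 518) (nat_lit 357) (nat_lit 325)))) (XT.nd (nat_lit 156) (nat_lit 152) (nat_lit 0) (XT.nd (nat_lit 78) (nat_lit 76) (nat_lit 0) (XT.lf (nat_lit 0) (nat_lit 7326470524) (nat_lit 76) (nat_lit 11548789540) (nat_lit 76) (nat_lit 7021092810) (nat_lit 50) (nat_lit 4) (nat_lit 51) (nat_lit 5) (nat_lit 51) (nat_lit 4) (nat_lit 519) (nat_lit 357) (nat_lit 324)) (XT.lf (nat_lit 0) (nat_lit 2228993642) (nat_lit 152) (nat_lit 82650718) (nat_lit 76) (nat_lit 24077723730) (nat_lit 49) (nat_lit 5) (nat_lit 51) (nat_lit 5) (nat_lit 50) (nat_lit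 4) (nat_lit 520) (nat_lit 357) (nat_lit 323))) (XT.nd (nat_lit 78) (nat_lit 76) (nat_lit 0) (XT.lf (nat_lit 0) (nat_lit 11750586098) (nat_lit 152) (nat_lit 7938400908) (nat_lit 0) (nat_lit 7202047945) (nat_lit 48) (nat_lit 5) (nat_lit 50) (nat_lit 4) (nat_lit 48) (nat_lit 4) (nat_lit 521) (nat_lit 357) (nat_lit 322)) (XT.lf (nat_lit 0) (nat_lit 11111204140) (nat_lit 76) (nat_lit 10458878429) (nat_lit 76) (nat_lit 5837301829) (nat_lit 47) (nat_lit 4) (nat_lit 48) (nat_lit 5) (nat_lit 48) (nat_lit 4) (nat_lit 522) (nat_lit 357) (nat_lit 321))))))))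
noncomputable def xc19 : XT := (XT.nd (nat_lit 2418) (nat_lit 76) (nat_lit 0) (XT.nd (nat_lit 1170) (nat_lit 912) (nat_lit 0) (XT.nd (nat_lit 546) (nat_lit 532) (nat_lit 0) (XT.nd (nat_lit 234) (nat_lit 380) (nat_lit 0) (XT.nd (nat_lit 78) (nat_lit 76) (nat_lit 0) (XT.lf (nat_lit 0) (nat_lit 2739158343) (nat_lit 76) (nat_lit 921751043) (nat_lit 152) (nat_lit 24277563825) (nat_lit 45) (nat_lit 5) (nat_lit 46) (nat_lit 5) (nat_lit 47) (nat_lit 4) (nat_lit 523) (nat_lit 357) (nat_lit 320)) (XT.nd (nat_lit 78) (nat_lit 76) (nat_lit 0) (XT.lf (nat_lit 0) (nat_lit 13460340712) (nat_lit 152) (nat_lit 6181725560) (nat_lit 0) (nat_lit 8837686876) (nat_lit 45) (nat_lit 5) (nat_lit 47) (nat_lit 4) (nat_lit 45) (nat_lit 4) (nat_lit 524) (nat_lit 357) (nat_lit 319)) (XT.lf (nat_lit 0) (nat_lit 13430419147) (nat_lit 76) (nat_lit 10146847388) (nat_lit 76) (nat_lit 5459299839) (nat_lit 44) (nat_lit 4) (nat_lit 45) (nat_lit 5) (nat_lit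 45) (nat_lit 4) (nat_lit 525) (nat_lit 357) (nat_lit 318)))) (XT.nd (nat_lit 156) (nat_lit 228) (nat_lit 0) (XT.nd (nat_lit 78) (nat_lit 0) (nat_lit 0) (XT.lf (nat_lit 0) (nat_lit 3954855075) (nat_lit 76) (nat_lit 333522376) (nat_lit 152) (nat_lit 25320850090) (nat_lit 42) (nat_lit 5) (nat_lit 43) (nat_lit 5) (nat_lit 44) (nat_lit 4) (nat_lit 526) (nat_lit 357) (nat_lit 317)) (XT.lf (nat_lit 0) (nat_lit 14357260310) (nat_lit 152) (nat_lit 6150344041) (nat_lit 0) (nat_lit 9685687784) (nat_lit 42) (nat_lit 5) (nat_lit 44) (nat_lit 4) (nat_lit 42) (nat_lit 4) (nat_lit 527) (nat_lit 357) (nat_lit 316))) (XT.nd (nat_lit 78) (nat_lit 152) (nat_lit 0) (XT.lf (nat_lit 0) (nat_lit 13986059284) (nat_lit 76) (nat_lit 10768627515) (nat_lit 76) (nat_lit 6039397766) (nat_lit 41) (nat_lit 4) (nat_lit 42) (nat_lit 5) (nat_lit 42) (nat_lit 4) (nat_lit 528) (nat_lit 357) (nat_lit 315)) (XT.lf (nat_lit 0) (nat_lit 3242921227) (nat_lit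 76) (nat_lit 711822054) (nat_lit 152) (nat_lit 27457509617) (nat_lit 39) (nat_lit 5) (nat_lit 40) (nat_lit 5) (nat_lit 41) (nat_lit 4) (nat_lit 529) (nat_lit 357) (nat_lit 314))))) (XT.nd (nat_lit 312) (nat_lit 304) (nat_lit 0) (XT.nd (nat_lit 156) (nat_lit 152) (nat_lit 0) (XT.nd (nat_lit 78) (nat_lit 76) (nat_lit 0) (XT.lf (nat_lit 0) (nat_lit 14280291604) (nat_lit 152) (nat_lit 8180597502) (nat_lit 0) (nat_lit 9581694421) (nat_lit 39) (nat_lit 5) (nat_lit 41) (nat_lit 4) (nat_lit 39) (nat_lit 4) (nat_lit 530) (nat_lit 357) (nat_lit 313)) (XT.lf (nat_lit 0) (nat_lit 12427270320) (nat_lit 76) (nat_lit 12506910790) (nat_lit 76) (nat_lit 7757085911) (nat_lit 38) (nat_lit 4) (nat_lit 39) (nat_lit 5) (nat_lit 39) (nat_lit 4) (nat_lit 531) (nat_lit 357) (nat_lit 312))) (XT.nd (nat_lit 78) (nat_lit 0) (nat_lit 0) (XT.lf (nat_lit 0) (nat_lit 227244899) (nat_lit 76) (nat_lit 2249013920) (nat_lit 152) (nat_lit 30883086250)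 (nat_lit 36) (nat_lit 5) (nat_lit 37) (nat_lit 5) (nat_lit 38) (nat_lit 4) (nat_lit 532) (nat_lit 357) (nat_lit 311)) (XT.lf (nat_lit 0) (nat_lit 13039446883) (nat_lit 152) (nat_lit 12667553280) (nat_lit 0) (nat_lit 8332798803) (nat_lit 36) (nat_lit 5) (nat_lit 38) (nat_lit 4) (nat_lit 36) (nat_lit 4) (nat_lit 533) (nat_lit 357) (nat_lit 310)))) (XT.nd (nat_lit 156) (nat_lit 228) (nat_lit 0) (XT.nd (nat_lit 78) (nat_lit 0) (nat_lit 0) (XT.lf (nat_lit 0) (nat_lit 8341662554) (nat_lit 76) (nat_lit 15575617417) (nat_lit 76) (nat_lit 10823454192) (nat_lit 35) (nat_lit 4) (nat_lit 36) (nat_lit 5) (nat_lit 36) (nat_lit 4) (nat_lit 534) (nat_lit 357) (nat_lit 309)) (XT.lf (nat_lit 0) (nat_lit 30033108033) (nat_lit 76) (nat_lit 5112607110) (nat_lit 76) (nat_lit 316254424) (nat_lit 35) (nat_lit 4) (nat_lit 36) (nat_lit 5) (nat_lit 36) (nat_lit 4) (nat_lit 535) (nat_lit 357) (nat_lit 308))) (XT.nd (nat_lit 78) (nat_lit 76)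 (nat_lit 0) (XT.lf (nat_lit 0) (nat_lit 10411074679) (nat_lit 152) (nat_lit 20074671184) (nat_lit 0) (nat_lit 5712768781) (nat_lit 33) (nat_lit 5) (nat_lit 35) (nat_lit 4) (nat_lit 33) (nat_lit 4) (nat_lit 536) (nat_lit 357) (nat_lit 307)) (XT.lf (nat_lit 0) (nat_lit 1245166725) (nat_lit 76) (nat_lit 20225074920) (nat_lit 76) (nat_lit 15486329407) (nat_lit 32) (nat_lit 4) (nat_lit 33) (nat_lit 5) (nat_lit 33) (nat_lit 4) (nat_lit 537) (nat_lit 357) (nat_lit 306)))))) (XT.nd (nat_lit 624) (nat_lit 456) (nat_lit 0) (XT.nd (nat_lit 312) (nat_lit 228) (nat_lit 0) (XT.nd (nat_lit 156) (nat_lit 76) (nat_lit 0) (XT.nd (nat_lit 78) (nat_lit 152) (nat_lit 0) (XT.lf (nat_lit 0) (nat_lit 23414366744) (nat_lit 76) (nat_lit 9548972580) (nat_lit 76) (nat_lit 4770965303) (nat_lit 32) (nat_lit 4) (nat_lit 33) (nat_lit 5) (nat_lit 33) (nat_lit 4) (nat_lit 538) (nat_lit 357) (nat_lit 305)) (XT.lf (nat_lit 0) (nat_lit 6132363092)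 (nat_lit 152) (nat_lit 30945024029) (nat_lit 0) (nat_lit 1456513097) (nat_lit 30) (nat_lit 5) (nat_lit 32) (nat_lit 4) (nat_lit 30) (nat_lit 4) (nat_lit 539) (nat_lit 357) (nat_lit 304))) (XT.nd (nat_lit 78) (nat_lit 76) (nat_lit 0) (XT.lf (nat_lit 0) (nat_lit 17408925951) (nat_lit 152) (nat_lit 9245734072) (nat_lit 0) (nat_lit 12697145881) (nat_lit 30) (nat_lit 5) (nat_lit 32) (nat_lit 4) (nat_lit 30) (nat_lit 4) (nat_lit 540) (nat_lit 357) (nat_lit 303)) (XT.lf (nat_lit 0) (nat_lit 13169405878) (nat_lit 76) (nat_lit 15885289676) (nat_lit 76) (nat_lit 11138626038) (nat_lit 29) (nat_lit 4) (nat_lit 30) (nat_lit 5) (nat_lit 30) (nat_lit 4) (nat_lit 541) (nat_lit 357) (nat_lit 302)))) (XT.nd (nat_lit 156) (nat_lit 76) (nat_lit 0) (XT.nd (nat_lit 78) (nat_lit 152) (nat_lit 0) (XT.lf (nat_lit 0) (nat_lit 36256300707) (nat_lit 76) (nat_lit 4792177080) (nat_lit 76) (nat_lit 11645900) (nat_lit 29) (nat_lit 4) (nat_lit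 30) (nat_lit 5) (nat_lit 30) (nat_lit 4) (nat_lit 542) (nat_lit 357) (nat_lit 301)) (XT.lf (nat_lit 0) (nat_lit 11372912259) (nat_lit 152) (nat_lit 23872604095) (nat_lit 0) (nat_lit 6699696444) (nat_lit 27) (nat_lit 5) (nat_lit 29) (nat_lit 4) (nat_lit 27) (nat_lit 4) (nat_lit 543) (nat_lit 357) (nat_lit 300))) (XT.nd (nat_lit 78) (nat_lit 76) (nat_lit 0) (XT.lf (nat_lit 0) (nat_lit 23102371859) (nat_lit 152) (nat_lit 1356208969) (nat_lit 0) (nat_lit 18398162446) (nat_lit 27) (nat_lit 5) (nat_lit 29) (nat_lit 4) (nat_lit 27) (nat_lit 4) (nat_lit 544) (nat_lit 357) (nat_lit 299)) (XT.lf (nat_lit 0) (nat_lit 22085506202) (nat_lit 76) (nat_lit 13220374448) (nat_lit 76) (nat_lit 8486074163) (nat_lit 26) (nat_lit 4) (nat_lit 27) (nat_lit 5) (nat_lit 27) (nat_lit 4) (nat_lit 545) (nat_lit 357) (nat_lit 298))))) (XT.nd (nat_lit 312) (nat_lit 228) (nat_lit 0) (XT.nd (nat_lit 156) (nat_lit 76) (nat_lit 0) (XT.nd (nat_lit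 78) (nat_lit 0) (nat_lit 0) (XT.lf (nat_lit 0) (nat_lit 1317891893) (nat_lit 76) (nat_lit 1677874913) (nat_lit 152) (nat_lit 41760464700) (nat_lit 24) (nat_lit 5) (nat_lit 25) (nat_lit 5) (nat_lit 26) (nat_lit 4) (nat_lit 546) (nat_lit 357) (nat_lit 297)) (XT.lf (nat_lit 0) (nat_lit 14880934746) (nat_lit 152) (nat_lit 20630472478) (nat_lit 0) (nat_lit 10228625758) (nat_lit 24) (nat_lit 5) (nat_lit 26) (nat_lit 4) (nat_lit 24) (nat_lit 4) (nat_lit 547) (nat_lit 357) (nat_lit 296))) (XT.nd (nat_lit 78) (nat_lit 0) (nat_lit 0) (XT.lf (nat_lit 0) (nat_lit 2722224758) (nat_lit 76) (nat_lit 24355754271) (nat_lit 76) (nat_lit 19676709932) (nat_lit 23) (nat_lit 4) (nat_lit 24) (nat_lit 5) (nat_lit 24) (nat_lit 4) (nat_lit 548) (nat_lit 357) (nat_lit 295)) (XT.lf (nat_lit 0) (nat_lit 27024218317) (nat_lit 76) (nat_lit 12738457575) (nat_lit 76) (nat_lit 8033456585) (nat_lit 23) (nat_lit 4) (nat_lit 24) (nat_lit 5) (nat_lit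 24) (nat_lit 4) (nat_lit 549) (nat_lit 357) (nat_lit 294)))) (XT.nd (nat_lit 156) (nat_lit 76) (nat_lit 0) (XT.nd (nat_lit 78) (nat_lit 0) (nat_lit 0) (XT.lf (nat_lit 0) (nat_lit 3036849736) (nat_lit 76) (nat_lit 789283937) (nat_lit 152) (nat_lit 45043215133) (nat_lit 21) (nat_lit 5) (nat_lit 22) (nat_lit 5) (nat_lit 23) (nat_lit 4) (nat_lit 550) (nat_lit 357) (nat_lit 293)) (XT.lf (nat_lit 0) (nat_lit 16117733602) (nat_lit 152) (nat_lit 22345960510) (nat_lit 0) (nat_lit 11501550830) (nat_lit 21) (nat_lit 5) (nat_lit 23) (nat_lit 4) (nat_lit 21) (nat_lit 4) (nat_lit 551) (nat_lit 357) (nat_lit 292))) (XT.nd (nat_lit 78) (nat_lit 0) (nat_lit 0) (XT.lf (nat_lit 0) (nat_lit 1704766970) (nat_lit 76) (nat_lit 27015120903) (nat_lit 76) (nat_lit 22375875984) (nat_lit 20) (nat_lit 4) (nat_lit 21) (nat_lit 5) (nat_lit 21) (nat_lit 4) (nat_lit 552) (nat_lit 357) (nat_lit 291)) (XT.lf (nat_lit 0) (nat_lit 26770853936) (nat_lit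 76) (nat_lit 15073328780) (nat_lit 76) (nat_lit 10411693426) (nat_lit 20) (nat_lit 4) (nat_lit 21) (nat_lit 5) (nat_lit 21) (nat_lit 4) (nat_lit 553) (nat_lit 357) (nat_lit 290))))))) (XT.nd (nat_lit 58188) (nat_lit 0) (nat_lit 2812) (XT.nd (nat_lit 57564) (nat_lit 0) (nat_lit 4256) (XT.nd (nat_lit 57252) (nat_lit 0) (nat_lit 5244) (XT.nd (nat_lit 57096) (nat_lit 0) (nat_lit 5852) (XT.nd (nat_lit 57018) (nat_lit 0) (nat_lit 6156) (XT.lf (nat_lit 0) (nat_lit 1794133315) (nat_lit 152) (nat_lit 1041283010) (nat_lit 76) (nat_lit 50617223820) (nat_lit 19) (nat_lit 5) (nat_lit 21) (nat_lit 5) (nat_lit 20) (nat_lit 4) (nat_lit 554) (nat_lit 357) (nat_lit 289)) (XT.lf (nat_lit 0) (nat_lit 7144578420) (nat_lit 152) (nat_lit 40420569) (nat_lit 152) (nat_lit 40420569) (nat_lit 100) (nat_lit 4) (nat_lit 102) (nat_lit 5) (nat_lit 102) (nat_lit 4) (nat_lit 484) (nat_lit 358) (nat_lit 358))) (XT.nd (nat_lit 78) (nat_lit 152) (nat_lit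 0) (XT.lf (nat_lit 0) (nat_lit 6917224321) (nat_lit 152) (nat_lit 1159521639) (nat_lit 0) (nat_lit 6587424830) (nat_lit 98) (nat_lit 5) (nat_lit 100) (nat_lit 4) (nat_lit 98) (nat_lit 4) (nat_lit 485) (nat_lit 358) (nat_lit 357)) (XT.lf (nat_lit 0) (nat_lit 12677756169) (nat_lit 152) (nat_lit 1428321230) (nat_lit 152) (nat_lit 778328059) (nat_lit 96) (nat_lit 4) (nat_lit 98) (nat_lit 5) (nat_lit 98) (nat_lit 4) (nat_lit 486) (nat_lit 358) (nat_lit 356)))) (XT.nd (nat_lit 156) (nat_lit 304) (nat_lit 0) (XT.nd (nat_lit 78) (nat_lit 152) (nat_lit 0) (XT.lf (nat_lit 0) (nat_lit 6310229946) (nat_lit 152) (nat_lit 3420744870) (nat_lit 0) (nat_lit 5377355362) (nat_lit 94) (nat_lit 5) (nat_lit 96) (nat_lit 4) (nat_lit 94) (nat_lit 4) (nat_lit 487) (nat_lit 358) (nat_lit 355)) (XT.lf (nat_lit 0) (nat_lit 10621782274) (nat_lit 152) (nat_lit 2971466984) (nat_lit 152) (nat_lit 1745569824) (nat_lit 92) (nat_lit 4) (nat_lit 94)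 (nat_lit 5) (nat_lit 94) (nat_lit 4) (nat_lit 488) (nat_lit 358) (nat_lit 354))) (XT.nd (nat_lit 78) (nat_lit 152) (nat_lit 0) (XT.lf (nat_lit 0) (nat_lit 5434270276) (nat_lit 152) (nat_lit 6171782376) (nat_lit 0) (nat_lit 3967876977) (nat_lit 90) (nat_lit 5) (nat_lit 92) (nat_lit 4) (nat_lit 90) (nat_lit 4) (nat_lit 489) (nat_lit 358) (nat_lit 353)) (XT.lf (nat_lit 0) (nat_lit 8067694760) (nat_lit 152) (nat_lit 4741001720) (nat_lit 152) (nat_lit 3006451255) (nat_lit 88) (nat_lit 4) (nat_lit 90) (nat_lit 5) (nat_lit 90) (nat_lit 4) (nat_lit 490) (nat_lit 358) (nat_lit 352))))) (XT.nd (nat_lit 312) (nat_lit 380) (nat_lit 0) (XT.nd (nat_lit 156) (nat_lit 304) (nat_lit 0) (XT.nd (nat_lit 78) (nat_lit 152) (nat_lit 0) (XT.lf (nat_lit 0) (nat_lit 4264766652) (nat_lit 152) (nat_lit 9469350134) (nat_lit 0) (nat_lit 2327973226) (nat_lit 86) (nat_lit 5) (nat_lit 88) (nat_lit 4) (nat_lit 86) (nat_lit 4) (nat_lit 491) (nat_lit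 358) (nat_lit 351)) (XT.lf (nat_lit 0) (nat_lit 4957153819) (nat_lit 152) (nat_lit 6769796094) (nat_lit 152) (nat_lit 4587600874) (nat_lit 84) (nat_lit 4) (nat_lit 86) (nat_lit 5) (nat_lit 86) (nat_lit 4) (nat_lit 492) (nat_lit 358) (nat_lit 350))) (XT.nd (nat_lit 78) (nat_lit 152) (nat_lit 0) (XT.lf (nat_lit 0) (nat_lit 2774342137) (nat_lit 152) (nat_lit 13375294791) (nat_lit 0) (nat_lit 424391273) (nat_lit 82) (nat_lit 5) (nat_lit 84) (nat_lit 4) (nat_lit 82) (nat_lit 4) (nat_lit 493) (nat_lit 358) (nat_lit 349)) (XT.lf (nat_lit 0) (nat_lit 1226485589) (nat_lit 152) (nat_lit 9093164697) (nat_lit 152) (nat_lit 6518636428) (nat_lit 80) (nat_lit 4) (nat_lit 82) (nat_lit 5) (nat_lit 82) (nat_lit 4) (nat_lit 494) (nat_lit 358) (nat_lit 348)))) (XT.nd (nat_lit 156) (nat_lit 228) (nat_lit 0) (XT.nd (nat_lit 78) (nat_lit 76) (nat_lit 0) (XT.lf (nat_lit 0) (nat_lit 958309793) (nat_lit 228) (nat_lit 847195704) (nat_lit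 76) (nat_lit 15304787260) (nat_lit 79) (nat_lit 5) (nat_lit 82) (nat_lit 5) (nat_lit 80) (nat_lit 4) (nat_lit 495) (nat_lit 358) (nat_lit 347)) (XT.lf (nat_lit 0) (nat_lit 8585982294) (nat_lit 152) (nat_lit 3131583726) (nat_lit 0) (nat_lit 5669234404) (nat_lit 78) (nat_lit 5) (nat_lit 80) (nat_lit 4) (nat_lit 78) (nat_lit 4) (nat_lit 496) (nat_lit 358) (nat_lit 346))) (XT.nd (nat_lit 78) (nat_lit 152) (nat_lit 0) (XT.lf (nat_lit 0) (nat_lit 12112239116) (nat_lit 76) (nat_lit 4337711487) (nat_lit 76) (nat_lit 1221429480) (nat_lit 77) (nat_lit 4) (nat_lit 78) (nat_lit 5) (nat_lit 78) (nat_lit 4) (nat_lit 497) (nat_lit 358) (nat_lit 345)) (XT.lf (nat_lit 0) (nat_lit 6479420684) (nat_lit 152) (nat_lit 8216676429) (nat_lit 0) (nat_lit 3265824132) (nat_lit 75) (nat_lit 5) (nat_lit 77) (nat_lit 4) (nat_lit 75) (nat_lit 4) (nat_lit 498) (nat_lit 358) (nat_lit 344)))))) (XT.nd (nat_lit 624) (nat_lit 684) (nat_lit 0) (XT.nd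 (nat_lit 312) (nat_lit 380) (nat_lit 0) (XT.nd (nat_lit 156) (nat_lit 152) (nat_lit 0) (XT.nd (nat_lit 78) (nat_lit 152) (nat_lit 0) (XT.lf (nat_lit 0) (nat_lit 7184608887) (nat_lit 76) (nat_lit 7235699653) (nat_lit 76) (nat_lit 3839501119) (nat_lit 74) (nat_lit 4) (nat_lit 75) (nat_lit 5) (nat_lit 75) (nat_lit 4) (nat_lit 499) (nat_lit 358) (nat_lit 343)) (XT.lf (nat_lit 0) (nat_lit 3950207238) (nat_lit 152) (nat_lit 14134574527) (nat_lit 0) (nat_lit 480807227) (nat_lit 72) (nat_lit 5) (nat_lit 74) (nat_lit 4) (nat_lit 72) (nat_lit 4) (nat_lit 500) (nat_lit 358) (nat_lit 342))) (XT.nd (nat_lit 78) (nat_lit 76) (nat_lit 0) (XT.lf (nat_lit 0) (nat_lit 1405392705) (nat_lit 76) (nat_lit 10554308955) (nat_lit 76) (nat_lit 6917802263) (nat_lit 71) (nat_lit 4) (nat_lit 72) (nat_lit 5) (nat_lit 72) (nat_lit 4) (nat_lit 501) (nat_lit 358) (nat_lit 341)) (XT.lf (nat_lit 0) (nat_lit 1000393814) (nat_lit 152) (nat_lit 1767946743)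 (nat_lit 76) (nat_lit 16429862505) (nat_lit 70) (nat_lit 5) (nat_lit 72) (nat_lit 5) (nat_lit 71) (nat_lit 4) (nat_lit 502) (nat_lit 358) (nat_lit 340)))) (XT.nd (nat_lit 156) (nat_lit 228) (nat_lit 0) (XT.nd (nat_lit 78) (nat_lit 76) (nat_lit 0) (XT.lf (nat_lit 0) (nat_lit 9075673775) (nat_lit 152) (nat_lit 5214393404) (nat_lit 0) (nat_lit 5234644395) (nat_lit 69) (nat_lit 5) (nat_lit 71) (nat_lit 4) (nat_lit 69) (nat_lit 4) (nat_lit 503) (nat_lit 358) (nat_lit 339)) (XT.lf (nat_lit 0) (nat_lit 10977179309) (nat_lit 76) (nat_lit 6436364070) (nat_lit 76) (nat_lit 2446862569) (nat_lit 68) (nat_lit 4) (nat_lit 69) (nat_lit 5) (nat_lit 69) (nat_lit 4) (nat_lit 504) (nat_lit 358) (nat_lit 338))) (XT.nd (nat_lit 78) (nat_lit 76) (nat_lit 0) (XT.lf (nat_lit 0) (nat_lit 5692410484) (nat_lit 152) (nat_lit 12832627441) (nat_lit 0) (nat_lit 1679158842) (nat_lit 66) (nat_lit 5) (nat_lit 68) (nat_lit 4) (nat_lit 66) (nat_lit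 4) (nat_lit 505) (nat_lit 358) (nat_lit 337)) (XT.lf (nat_lit 0) (nat_lit 3462842416) (nat_lit 76) (nat_lit 10621070178) (nat_lit 76) (nat_lit 6471945513) (nat_lit 65) (nat_lit 4) (nat_lit 66) (nat_lit 5) (nat_lit 66) (nat_lit 4) (nat_lit 506) (nat_lit 358) (nat_lit 336))))) (XT.nd (nat_lit 312) (nat_lit 304) (nat_lit 0) (XT.nd (nat_lit 156) (nat_lit 228) (nat_lit 0) (XT.nd (nat_lit 78) (nat_lit 76) (nat_lit 0) (XT.lf (nat_lit 0) (nat_lit 1774360781) (nat_lit 152) (nat_lit 679087835) (nat_lit 76) (nat_lit 18464082272) (nat_lit 64) (nat_lit 5) (nat_lit 66) (nat_lit 5) (nat_lit 65) (nat_lit 4) (nat_lit 507) (nat_lit 358) (nat_lit 335)) (XT.lf (nat_lit 0) (nat_lit 10225782962) (nat_lit 152) (nat_lit 5114624628) (nat_lit 0) (nat_lit 5945090167) (nat_lit 63) (nat_lit 5) (nat_lit 65) (nat_lit 4) (nat_lit 63) (nat_lit 4) (nat_lit 508) (nat_lit 358) (nat_lit 334))) (XT.nd (nat_lit 78) (nat_lit 152) (nat_lit 0) (XT.lf (nat_lit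 0) (nat_lit 11833363764) (nat_lit 76) (nat_lit 7115998053) (nat_lit 76) (nat_lit 2714583837) (nat_lit 62) (nat_lit 4) (nat_lit 63) (nat_lit 5) (nat_lit 63) (nat_lit 4) (nat_lit 509) (nat_lit 358) (nat_lit 333)) (XT.lf (nat_lit 0) (nat_lit 5774606402) (nat_lit 152) (nat_lit 14889593992) (nat_lit 0) (nat_lit 1387597198) (nat_lit 60) (nat_lit 5) (nat_lit 62) (nat_lit 4) (nat_lit 60) (nat_lit 4) (nat_lit 510) (nat_lit 358) (nat_lit 332)))) (XT.nd (nat_lit 156) (nat_lit 152) (nat_lit 0) (XT.nd (nat_lit 78) (nat_lit 76) (nat_lit 0) (XT.lf (nat_lit 0) (nat_lit 2111520257) (nat_lit 76) (nat_lit 12417249793) (nat_lit 76) (nat_lit 7919763387) (nat_lit 59) (nat_lit 4) (nat_lit 60) (nat_lit 5) (nat_lit 60) (nat_lit 4) (nat_lit 511) (nat_lit 358) (nat_lit 331)) (XT.lf (nat_lit 0) (nat_lit 700716023) (nat_lit 152) (nat_lit 3182292297) (nat_lit 76) (nat_lit 18973192053) (nat_lit 58) (nat_lit 5) (nat_lit 60) (nat_lit 5) (nat_lit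 59) (nat_lit 4) (nat_lit 512) (nat_lit 358) (nat_lit 330))) (XT.nd (nat_lit 78) (nat_lit 76) (nat_lit 0) (XT.lf (nat_lit 0) (nat_lit 9485279409) (nat_lit 152) (nat_lit 8872976300) (nat_lit 0) (nat_lit 4913550104) (nat_lit 57) (nat_lit 5) (nat_lit 59) (nat_lit 4) (nat_lit 57) (nat_lit 4) (nat_lit 513) (nat_lit 358) (nat_lit 329)) (XT.lf (nat_lit 0) (nat_lit 8763678904) (nat_lit 76) (nat_lit 9802551115) (nat_lit 76) (nat_lit 5132664247) (nat_lit 56) (nat_lit 4) (nat_lit 57) (nat_lit 5) (nat_lit 57) (nat_lit 4) (nat_lit 514) (nat_lit 358) (nat_lit 328))))))))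
noncomputable def xc20 : XT := (XT.nd (nat_lit 2418) (nat_lit 456) (nat_lit 0) (XT.nd (nat_lit 1170) (nat_lit 1140) (nat_lit 0) (XT.nd (nat_lit 546) (nat_lit 532) (nat_lit 0) (XT.nd (nat_lit 234) (nat_lit 380) (nat_lit 0) (XT.nd (nat_lit 78) (nat_lit 76) (nat_lit 0) (XT.lf (nat_lit 0) (nat_lit 2749302339) (nat_lit 76) (nat_lit 952415794) (nat_lit 152) (nat_lit 20436146823) (nat_lit 54) (nat_lit 5) (nat_lit 55) (nat_lit 5) (nat_lit 56) (nat_lit 4) (nat_lit 515) (nat_lit 358) (nat_lit 327)) (XT.nd (nat_lit 78) (nat_lit 76) (nat_lit 0) (XT.lf (nat_lit 0) (nat_lit 12806626879) (nat_lit 152) (nat_lit 3688188831) (nat_lit 0) (nat_lit 8090405142) (nat_lit 54) (nat_lit 5) (nat_lit 56) (nat_lit 4) (nat_lit 54) (nat_lit 4) (nat_lit 516) (nat_lit 358) (nat_lit 326)) (XT.lf (nat_lit 0) (nat_lit 14582953807) (nat_lit 76) (nat_lit 7632773041) (nat_lit 76) (nat_lit 2829339579) (nat_lit 53) (nat_lit 4) (nat_lit 54) (nat_lit 5)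 (nat_lit 54) (nat_lit 4) (nat_lit 517) (nat_lit 358) (nat_lit 325)))) (XT.nd (nat_lit 156) (nat_lit 152) (nat_lit 0) (XT.nd (nat_lit 78) (nat_lit 76) (nat_lit 0) (XT.lf (nat_lit 0) (nat_lit 6272929022) (nat_lit 152) (nat_lit 17716464484) (nat_lit 0) (nat_lit 1527195976) (nat_lit 51) (nat_lit 5) (nat_lit 53) (nat_lit 4) (nat_lit 51) (nat_lit 4) (nat_lit 518) (nat_lit 358) (nat_lit 324)) (XT.lf (nat_lit 0) (nat_lit 495106197) (nat_lit 76) (nat_lit 15164898930) (nat_lit 76) (nat_lit 10339354803) (nat_lit 50) (nat_lit 4) (nat_lit 51) (nat_lit 5) (nat_lit 51) (nat_lit 4) (nat_lit 519) (nat_lit 358) (nat_lit 323))) (XT.nd (nat_lit 78) (nat_lit 152) (nat_lit 0) (XT.lf (nat_lit 0) (nat_lit 19382975450) (nat_lit 76) (nat_lit 6007409105) (nat_lit 76) (nat_lit 1104378491) (nat_lit 50) (nat_lit 4) (nat_lit 51) (nat_lit 5) (nat_lit 51) (nat_lit 4) (nat_lit 520) (nat_lit 358) (nat_lit 322)) (XT.lf (nat_lit 0) (nat_lit 8275376058)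 (nat_lit 152) (nat_lit 15284160394) (nat_lit 0) (nat_lit 3442113716) (nat_lit 48) (nat_lit 5) (nat_lit 50) (nat_lit 4) (nat_lit 48) (nat_lit 4) (nat_lit 521) (nat_lit 358) (nat_lit 321))))) (XT.nd (nat_lit 312) (nat_lit 228) (nat_lit 0) (XT.nd (nat_lit 156) (nat_lit 228) (nat_lit 0) (XT.nd (nat_lit 78) (nat_lit 0) (nat_lit 0) (XT.lf (nat_lit 0) (nat_lit 3504296911) (nat_lit 76) (nat_lit 14460883525) (nat_lit 76) (nat_lit 9556710070) (nat_lit 47) (nat_lit 4) (nat_lit 48) (nat_lit 5) (nat_lit 48) (nat_lit 4) (nat_lit 522) (nat_lit 358) (nat_lit 320)) (XT.lf (nat_lit 0) (nat_lit 22943160927) (nat_lit 76) (nat_lit 5043188234) (nat_lit 76) (nat_lit 70169039) (nat_lit 47) (nat_lit 4) (nat_lit 48) (nat_lit 5) (nat_lit 48) (nat_lit 4) (nat_lit 523) (nat_lit 358) (nat_lit 319))) (XT.nd (nat_lit 78) (nat_lit 76) (nat_lit 0) (XT.lf (nat_lit 0) (nat_lit 9583876069) (nat_lit 152) (nat_lit 14327536704) (nat_lit 0) (nat_lit 4690808381)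 (nat_lit 45) (nat_lit 5) (nat_lit 47) (nat_lit 4) (nat_lit 45) (nat_lit 4) (nat_lit 524) (nat_lit 358) (nat_lit 318)) (XT.lf (nat_lit 0) (nat_lit 5010826571) (nat_lit 76) (nat_lit 14554176589) (nat_lit 76) (nat_lit 9598105296) (nat_lit 44) (nat_lit 4) (nat_lit 45) (nat_lit 5) (nat_lit 45) (nat_lit 4) (nat_lit 525) (nat_lit 358) (nat_lit 317)))) (XT.nd (nat_lit 156) (nat_lit 76) (nat_lit 0) (XT.nd (nat_lit 78) (nat_lit 76) (nat_lit 0) (XT.lf (nat_lit 0) (nat_lit 137472112) (nat_lit 152) (nat_lit 4738171451) (nat_lit 76) (nat_lit 24864105596) (nat_lit 43) (nat_lit 5) (nat_lit 45) (nat_lit 5) (nat_lit 44) (nat_lit 4) (nat_lit 526) (nat_lit 358) (nat_lit 316)) (XT.lf (nat_lit 0) (nat_lit 10060969101) (nat_lit 152) (nat_lit 15135001095) (nat_lit 0) (nat_lit 5132205237) (nat_lit 42) (nat_lit 5) (nat_lit 44) (nat_lit 4) (nat_lit 42) (nat_lit 4) (nat_lit 527) (nat_lit 358) (nat_lit 315))) (XT.nd (nat_lit 78) (nat_lit 0)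 (nat_lit 0) (XT.lf (nat_lit 0) (nat_lit 4714125836) (nat_lit 76) (nat_lit 15601927079) (nat_lit 76) (nat_lit 10617185328) (nat_lit 41) (nat_lit 4) (nat_lit 42) (nat_lit 5) (nat_lit 42) (nat_lit 4) (nat_lit 528) (nat_lit 358) (nat_lit 314)) (XT.lf (nat_lit 0) (nat_lit 25255210210) (nat_lit 76) (nat_lit 5669477592) (nat_lit 76) (nat_lit 630388378) (nat_lit 41) (nat_lit 4) (nat_lit 42) (nat_lit 5) (nat_lit 42) (nat_lit 4) (nat_lit 529) (nat_lit 358) (nat_lit 313)))))) (XT.nd (nat_lit 624) (nat_lit 532) (nat_lit 0) (XT.nd (nat_lit 312) (nat_lit 228) (nat_lit 0) (XT.nd (nat_lit 156) (nat_lit 152) (nat_lit 0) (XT.nd (nat_lit 78) (nat_lit 76) (nat_lit 0) (XT.lf (nat_lit 0) (nat_lit 9544261920) (nat_lit 152) (nat_lit 18045508148) (nat_lit 0) (nat_lit 4600714598) (nat_lit 39) (nat_lit 5) (nat_lit 41) (nat_lit 4) (nat_lit 39) (nat_lit 4) (nat_lit 530) (nat_lit 358) (nat_lit 312)) (XT.lf (nat_lit 0) (nat_lit 2260676900) (nat_lit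 76) (nat_lit 17788127356) (nat_lit 76) (nat_lit 12794844408) (nat_lit 38) (nat_lit 4) (nat_lit 39) (nat_lit 5) (nat_lit 39) (nat_lit 4) (nat_lit 531) (nat_lit 358) (nat_lit 311))) (XT.nd (nat_lit 78) (nat_lit 152) (nat_lit 0) (XT.lf (nat_lit 0) (nat_lit 23338327805) (nat_lit 76) (nat_lit 7608647572) (nat_lit 76) (nat_lit 2567077607) (nat_lit 38) (nat_lit 4) (nat_lit 39) (nat_lit 5) (nat_lit 39) (nat_lit 4) (nat_lit 532) (nat_lit 358) (nat_lit 310)) (XT.lf (nat_lit 0) (nat_lit 7842355601) (nat_lit 152) (nat_lit 23456894749) (nat_lit 0) (nat_lit 2902112335) (nat_lit 36) (nat_lit 5) (nat_lit 38) (nat_lit 4) (nat_lit 36) (nat_lit 4) (nat_lit 533) (nat_lit 358) (nat_lit 309)))) (XT.nd (nat_lit 156) (nat_lit 152) (nat_lit 0) (XT.nd (nat_lit 78) (nat_lit 76) (nat_lit 0) (XT.lf (nat_lit 0) (nat_lit 18589927844) (nat_lit 152) (nat_lit 2710782827) (nat_lit 0) (nat_lit 13605495117) (nat_lit 36) (nat_lit 5) (nat_lit 38) (nat_lit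 4) (nat_lit 36) (nat_lit 4) (nat_lit 534) (nat_lit 358) (nat_lit 308)) (XT.lf (nat_lit 0) (nat_lit 18827368334) (nat_lit 76) (nat_lit 10914846252) (nat_lit 76) (nat_lit 5887511136) (nat_lit 35) (nat_lit 4) (nat_lit 36) (nat_lit 5) (nat_lit 36) (nat_lit 4) (nat_lit 535) (nat_lit 358) (nat_lit 307))) (XT.nd (nat_lit 78) (nat_lit 0) (nat_lit 0) (XT.lf (nat_lit 0) (nat_lit 4536943549) (nat_lit 76) (nat_lit 195042396) (nat_lit 152) (nat_lit 31642387976) (nat_lit 33) (nat_lit 5) (nat_lit 34) (nat_lit 5) (nat_lit 35) (nat_lit 4) (nat_lit 536) (nat_lit 358) (nat_lit 306)) (XT.lf (nat_lit 0) (nat_lit 15728727546) (nat_lit 152) (nat_lit 10637457329) (nat_lit 0) (nat_lit 10768118287) (nat_lit 33) (nat_lit 5) (nat_lit 35) (nat_lit 4) (nat_lit 33) (nat_lit 4) (nat_lit 537) (nat_lit 358) (nat_lit 305))))) (XT.nd (nat_lit 312) (nat_lit 304) (nat_lit 0) (XT.nd (nat_lit 156) (nat_lit 76) (nat_lit 0) (XT.nd (nat_lit 78) (nat_lit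 76) (nat_lit 0) (XT.lf (nat_lit 0) (nat_lit 11223549698) (nat_lit 76) (nat_lit 15845893028) (nat_lit 76) (nat_lit 10847165552) (nat_lit 32) (nat_lit 4) (nat_lit 33) (nat_lit 5) (nat_lit 33) (nat_lit 4) (nat_lit 538) (nat_lit 358) (nat_lit 304)) (XT.lf (nat_lit 0) (nat_lit 40206269) (nat_lit 152) (nat_lit 4954116726) (nat_lit 76) (nat_lit 33727668939) (nat_lit 31) (nat_lit 5) (nat_lit 33) (nat_lit 5) (nat_lit 32) (nat_lit 4) (nat_lit 539) (nat_lit 358) (nat_lit 303))) (XT.nd (nat_lit 78) (nat_lit 0) (nat_lit 0) (XT.lf (nat_lit 0) (nat_lit 11172575729) (nat_lit 152) (nat_lit 22123019141) (nat_lit 0) (nat_lit 6248628614) (nat_lit 30) (nat_lit 5) (nat_lit 32) (nat_lit 4) (nat_lit 30) (nat_lit 4) (nat_lit 540) (nat_lit 358) (nat_lit 302)) (XT.lf (nat_lit 0) (nat_lit 22645991540) (nat_lit 152) (nat_lit 56741425) (nat_lit 0) (nat_lit 17688176882) (nat_lit 30) (nat_lit 5) (nat_lit 32) (nat_lit 4) (nat_lit 30) (nat_lit 4)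 (nat_lit 541) (nat_lit 358) (nat_lit 301)))) (XT.nd (nat_lit 156) (nat_lit 76) (nat_lit 0) (XT.nd (nat_lit 78) (nat_lit 152) (nat_lit 0) (XT.lf (nat_lit 0) (nat_lit 22938045227) (nat_lit 76) (nat_lit 11655869162) (nat_lit 76) (nat_lit 6665173395) (nat_lit 29) (nat_lit 4) (nat_lit 30) (nat_lit 5) (nat_lit 30) (nat_lit 4) (nat_lit 542) (nat_lit 358) (nat_lit 300)) (XT.lf (nat_lit 0) (nat_lit 4328265773) (nat_lit 76) (nat_lit 278081490) (nat_lit 152) (nat_lit 37547034574) (nat_lit 27) (nat_lit 5) (nat_lit 28) (nat_lit 5) (nat_lit 29) (nat_lit 4) (nat_lit 543) (nat_lit 358) (nat_lit 299))) (XT.nd (nat_lit 78) (nat_lit 76) (nat_lit 0) (XT.lf (nat_lit 0) (nat_lit 16288732793) (nat_lit 152) (nat_lit 15395279171) (nat_lit 0) (nat_lit 11382312626) (nat_lit 27) (nat_lit 5) (nat_lit 29) (nat_lit 4) (nat_lit 27) (nat_lit 4) (nat_lit 544) (nat_lit 358) (nat_lit 298)) (XT.lf (nat_lit 0) (nat_lit 7678674471) (nat_lit 76) (nat_lit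 20631972083) (nat_lit 76) (nat_lit 15696337478) (nat_lit 26) (nat_lit 4) (nat_lit 27) (nat_lit 5) (nat_lit 27) (nat_lit 4) (nat_lit 545) (nat_lit 358) (nat_lit 297))))))) (XT.nd (nat_lit 57954) (nat_lit 0) (nat_lit 3724) (XT.nd (nat_lit 546) (nat_lit 76) (nat_lit 0) (XT.nd (nat_lit 234) (nat_lit 228) (nat_lit 0) (XT.nd (nat_lit 78) (nat_lit 152) (nat_lit 0) (XT.lf (nat_lit 0) (nat_lit 31586295334) (nat_lit 76) (nat_lit 9175750659) (nat_lit 76) (nat_lit 4211752520) (nat_lit 26) (nat_lit 4) (nat_lit 27) (nat_lit 5) (nat_lit 27) (nat_lit 4) (nat_lit 546) (nat_lit 358) (nat_lit 296)) (XT.nd (nat_lit 78) (nat_lit 0) (nat_lit 0) (XT.lf (nat_lit 0) (nat_lit 7507894920) (nat_lit 152) (nat_lit 35796607003) (nat_lit 0) (nat_lit 2661743901) (nat_lit 24) (nat_lit 5) (nat_lit 26) (nat_lit 4) (nat_lit 24) (nat_lit 4) (nat_lit 547) (nat_lit 358) (nat_lit 295)) (XT.lf (nat_lit 0) (nat_lit 19636943111) (nat_lit 152) (nat_lit 12581163181)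 (nat_lit 0) (nat_lit 14764835441) (nat_lit 24) (nat_lit 5) (nat_lit 26) (nat_lit 4) (nat_lit 24) (nat_lit 4) (nat_lit 548) (nat_lit 358) (nat_lit 294)))) (XT.nd (nat_lit 156) (nat_lit 152) (nat_lit 0) (XT.nd (nat_lit 78) (nat_lit 0) (nat_lit 0) (XT.lf (nat_lit 0) (nat_lit 11387132389) (nat_lit 76) (nat_lit 20769751939) (nat_lit 76) (nat_lit 15872443637) (nat_lit 23) (nat_lit 4) (nat_lit 24) (nat_lit 5) (nat_lit 24) (nat_lit 4) (nat_lit 549) (nat_lit 358) (nat_lit 293)) (XT.lf (nat_lit 0) (nat_lit 36168188447) (nat_lit 76) (nat_lit 8929664739) (nat_lit 76) (nat_lit 4007889804) (nat_lit 23) (nat_lit 4) (nat_lit 24) (nat_lit 5) (nat_lit 24) (nat_lit 4) (nat_lit 550) (nat_lit 358) (nat_lit 292))) (XT.nd (nat_lit 78) (nat_lit 0) (nat_lit 0) (XT.lf (nat_lit 0) (nat_lit 8114984599) (nat_lit 152) (nat_lit 38781718189) (nat_lit 0) (nat_lit 3313500184) (nat_lit 21) (nat_lit 5) (nat_lit 23) (nat_lit 4) (nat_lit 21) (nat_lit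 4) (nat_lit 551) (nat_lit 358) (nat_lit 291)) (XT.lf (nat_lit 0) (nat_lit 20661344841) (nat_lit 152) (nat_lit 14843580917) (nat_lit 0) (nat_lit 15837469991) (nat_lit 21) (nat_lit 5) (nat_lit 23) (nat_lit 4) (nat_lit 21) (nat_lit 4) (nat_lit 552) (nat_lit 358) (nat_lit 290))))) (XT.nd (nat_lit 57096) (nat_lit 0) (nat_lit 5624) (XT.nd (nat_lit 56940) (nat_lit 0) (nat_lit 6080) (XT.nd (nat_lit 78) (nat_lit 0) (nat_lit 0) (XT.lf (nat_lit 0) (nat_lit 9848543305) (nat_lit 76) (nat_lit 23752557043) (nat_lit 76) (nat_lit 18906943906) (nat_lit 20) (nat_lit 4) (nat_lit 21) (nat_lit 5) (nat_lit 21) (nat_lit 4) (nat_lit 553) (nat_lit 358) (nat_lit 289)) (XT.lf (nat_lit 0) (nat_lit 35430905113) (nat_lit 76) (nat_lit 11571142734) (nat_lit 76) (nat_lit 6704424464) (nat_lit 20) (nat_lit 4) (nat_lit 21) (nat_lit 5) (nat_lit 21) (nat_lit 4) (nat_lit 554) (nat_lit 358) (nat_lit 288))) (XT.nd (nat_lit 78) (nat_lit 152) (nat_lit 0)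 (XT.lf (nat_lit 0) (nat_lit 403111832) (nat_lit 152) (nat_lit 6210862423) (nat_lit 0) (nat_lit 403111832) (nat_lit 102) (nat_lit 5) (nat_lit 104) (nat_lit 4) (nat_lit 102) (nat_lit 4) (nat_lit 482) (nat_lit 359) (nat_lit 359)) (XT.lf (nat_lit 0) (nat_lit 677200867) (nat_lit 152) (nat_lit 6956453785) (nat_lit 152) (nat_lit 6606569505) (nat_lit 100) (nat_lit 4) (nat_lit 102) (nat_lit 5) (nat_lit 102) (nat_lit 4) (nat_lit 483) (nat_lit 359) (nat_lit 358)))) (XT.nd (nat_lit 156) (nat_lit 304) (nat_lit 0) (XT.nd (nat_lit 78) (nat_lit 76) (nat_lit 0) (XT.lf (nat_lit 0) (nat_lit 193725633) (nat_lit 228) (nat_lit 296314718) (nat_lit 76) (nat_lit 13962823800) (nat_lit 99) (nat_lit 5) (nat_lit 102) (nat_lit 5) (nat_lit 100) (nat_lit 4) (nat_lit 484) (nat_lit 359) (nat_lit 357)) (XT.lf (nat_lit 0) (nat_lit 7115072684) (nat_lit 152) (nat_lit 1427968594) (nat_lit 0) (nat_lit 6125386038) (nat_lit 98) (nat_lit 5) (nat_lit 100)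 (nat_lit 4) (nat_lit 98) (nat_lit 4) (nat_lit 485) (nat_lit 359) (nat_lit 356))) (XT.nd (nat_lit 78) (nat_lit 152) (nat_lit 0) (XT.lf (nat_lit 0) (nat_lit 12273023183) (nat_lit 152) (nat_lit 1959172777) (nat_lit 152) (nat_lit 658618480) (nat_lit 96) (nat_lit 4) (nat_lit 98) (nat_lit 5) (nat_lit 98) (nat_lit 4) (nat_lit 486) (nat_lit 359) (nat_lit 355)) (XT.lf (nat_lit 0) (nat_lit 6348824004) (nat_lit 152) (nat_lit 3975117198) (nat_lit 0) (nat_lit 4793127353) (nat_lit 94) (nat_lit 5) (nat_lit 96) (nat_lit 4) (nat_lit 94) (nat_lit 4) (nat_lit 487) (nat_lit 359) (nat_lit 354)))))) (XT.nd (nat_lit 624) (nat_lit 760) (nat_lit 0) (XT.nd (nat_lit 312) (nat_lit 532) (nat_lit 0) (XT.nd (nat_lit 156) (nat_lit 304) (nat_lit 0) (XT.nd (nat_lit 78) (nat_lit 152) (nat_lit 0) (XT.lf (nat_lit 0) (nat_lit 9925165987) (nat_lit 152) (nat_lit 3632402410) (nat_lit 152) (nat_lit 1792217821) (nat_lit 92) (nat_lit 4) (nat_lit 94) (nat_lit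 5) (nat_lit 94) (nat_lit 4) (nat_lit 488) (nat_lit 359) (nat_lit 353)) (XT.lf (nat_lit 0) (nat_lit 5305813165) (nat_lit 152) (nat_lit 7030510099) (nat_lit 0) (nat_lit 3251069020) (nat_lit 90) (nat_lit 5) (nat_lit 92) (nat_lit 4) (nat_lit 90) (nat_lit 4) (nat_lit 489) (nat_lit 359) (nat_lit 352))) (XT.nd (nat_lit 78) (nat_lit 152) (nat_lit 0) (XT.lf (nat_lit 0) (nat_lit 7060421054) (nat_lit 152) (nat_lit 5542795697) (nat_lit 152) (nat_lit 3227704788) (nat_lit 88) (nat_lit 4) (nat_lit 90) (nat_lit 5) (nat_lit 90) (nat_lit 4) (nat_lit 490) (nat_lit 359) (nat_lit 351)) (XT.lf (nat_lit 0) (nat_lit 3960858599) (nat_lit 152) (nat_lit 10651882896) (nat_lit 0) (nat_lit 1467795728) (nat_lit 86) (nat_lit 5) (nat_lit 88) (nat_lit 4) (nat_lit 86) (nat_lit 4) (nat_lit 491) (nat_lit 359) (nat_lit 350)))) (XT.nd (nat_lit 156) (nat_lit 228) (nat_lit 0) (XT.nd (nat_lit 78) (nat_lit 152) (nat_lit 0) (XT.lf (nat_lit 0) (nat_lit 3619406731)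 (nat_lit 152) (nat_lit 7723654084) (nat_lit 152) (nat_lit 4992337044) (nat_lit 84) (nat_lit 4) (nat_lit 86) (nat_lit 5) (nat_lit 86) (nat_lit 4) (nat_lit 492) (nat_lit 359) (nat_lit 349)) (XT.lf (nat_lit 0) (nat_lit 1689603985) (nat_lit 76) (nat_lit 602137764) (nat_lit 152) (nat_lit 14305823509) (nat_lit 82) (nat_lit 5) (nat_lit 83) (nat_lit 5) (nat_lit 84) (nat_lit 4) (nat_lit 493) (nat_lit 359) (nat_lit 348))) (XT.nd (nat_lit 78) (nat_lit 228) (nat_lit 0) (XT.lf (nat_lit 0) (nat_lit 9752550015) (nat_lit 152) (nat_lit 453636969) (nat_lit 0) (nat_lit 6658172177) (nat_lit 82) (nat_lit 5) (nat_lit 84) (nat_lit 4) (nat_lit 82) (nat_lit 4) (nat_lit 494) (nat_lit 359) (nat_lit 347)) (XT.lf (nat_lit 0) (nat_lit 305361015) (nat_lit 228) (nat_lit 2686180719) (nat_lit 76) (nat_lit 14147135429) (nat_lit 79) (nat_lit 5) (nat_lit 82) (nat_lit 5) (nat_lit 80) (nat_lit 4) (nat_lit 495) (nat_lit 359) (nat_lit 346))))) (XT.nd (nat_lit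 312) (nat_lit 380) (nat_lit 0) (XT.nd (nat_lit 156) (nat_lit 228) (nat_lit 0) (XT.nd (nat_lit 78) (nat_lit 76) (nat_lit 0) (XT.lf (nat_lit 0) (nat_lit 7836685612) (nat_lit 152) (nat_lit 5154008987) (nat_lit 0) (nat_lit 4427381029) (nat_lit 78) (nat_lit 5) (nat_lit 80) (nat_lit 4) (nat_lit 78) (nat_lit 4) (nat_lit 496) (nat_lit 359) (nat_lit 345)) (XT.lf (nat_lit 0) (nat_lit 9921338218) (nat_lit 76) (nat_lit 5693460056) (nat_lit 76) (nat_lit 2090433032) (nat_lit 77) (nat_lit 4) (nat_lit 78) (nat_lit 5) (nat_lit 78) (nat_lit 4) (nat_lit 497) (nat_lit 359) (nat_lit 344))) (XT.nd (nat_lit 78) (nat_lit 76) (nat_lit 0) (XT.lf (nat_lit 0) (nat_lit 5525743060) (nat_lit 152) (nat_lit 10628272695) (nat_lit 0) (nat_lit 1845056588) (nat_lit 75) (nat_lit 5) (nat_lit 77) (nat_lit 4) (nat_lit 75) (nat_lit 4) (nat_lit 498) (nat_lit 359) (nat_lit 343)) (XT.lf (nat_lit 0) (nat_lit 4596625052) (nat_lit 76) (nat_lit 8780495641) (nat_lit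 76) (nat_lit 4922525691) (nat_lit 74) (nat_lit 4) (nat_lit 75) (nat_lit 5) (nat_lit 75) (nat_lit 4) (nat_lit 499) (nat_lit 359) (nat_lit 342)))) (XT.nd (nat_lit 156) (nat_lit 228) (nat_lit 0) (XT.nd (nat_lit 78) (nat_lit 0) (nat_lit 0) (XT.lf (nat_lit 0) (nat_lit 1637923693) (nat_lit 76) (nat_lit 1154201195) (nat_lit 152) (nat_lit 15816499197) (nat_lit 72) (nat_lit 5) (nat_lit 73) (nat_lit 5) (nat_lit 74) (nat_lit 4) (nat_lit 500) (nat_lit 359) (nat_lit 341)) (XT.lf (nat_lit 0) (nat_lit 10712530630) (nat_lit 152) (nat_lit 1573098778) (nat_lit 0) (nat_lit 6637582561) (nat_lit 72) (nat_lit 5) (nat_lit 74) (nat_lit 4) (nat_lit 72) (nat_lit 4) (nat_lit 501) (nat_lit 359) (nat_lit 340))) (XT.nd (nat_lit 78) (nat_lit 152) (nat_lit 0) (XT.lf (nat_lit 0) (nat_lit 14305758520) (nat_lit 76) (nat_lit 4586643049) (nat_lit 76) (nat_lit 354180906) (nat_lit 71) (nat_lit 4) (nat_lit 72) (nat_lit 5) (nat_lit 72) (nat_lit 4) (nat_lit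 502) (nat_lit 359) (nat_lit 339)) (XT.lf (nat_lit 0) (nat_lit 7614768868) (nat_lit 152) (nat_lit 8604711571) (nat_lit 0) (nat_lit 3357110201) (nat_lit 69) (nat_lit 5) (nat_lit 71) (nat_lit 4) (nat_lit 69) (nat_lit 4) (nat_lit 503) (nat_lit 359) (nat_lit 338))))))))
noncomputable def xc21 : XT := (XT.nd (nat_lit 2418) (nat_lit 1216) (nat_lit 0) (XT.nd (nat_lit 1170) (nat_lit 1140) (nat_lit 0) (XT.nd (nat_lit 546) (nat_lit 684) (nat_lit 0) (XT.nd (nat_lit 234) (nat_lit 456) (nat_lit 0) (XT.nd (nat_lit 78) (nat_lit 152) (nat_lit 0) (XT.lf (nat_lit 0) (nat_lit 7394451065) (nat_lit 76) (nat_lit 8461273985) (nat_lit 76) (nat_lit 4059467627) (nat_lit 68) (nat_lit 4) (nat_lit 69) (nat_lit 5) (nat_lit 69) (nat_lit 4) (nat_lit 504) (nat_lit 359) (nat_lit 337)) (XT.nd (nat_lit 78) (nat_lit 0) (nat_lit 0) (XT.lf (nat_lit 0) (nat_lit 3569447993) (nat_lit 76) (nat_lit 426218787) (nat_lit 152) (nat_lit 16267250193) (nat_lit 66)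 (nat_lit 5) (nat_lit 67) (nat_lit 5) (nat_lit 68) (nat_lit 4) (nat_lit 505) (nat_lit 359) (nat_lit 336)) (XT.lf (nat_lit 0) (nat_lit 12287431668) (nat_lit 152) (nat_lit 584094316) (nat_lit 0) (nat_lit 7746044682) (nat_lit 66) (nat_lit 5) (nat_lit 68) (nat_lit 4) (nat_lit 66) (nat_lit 4) (nat_lit 506) (nat_lit 359) (nat_lit 335)))) (XT.nd (nat_lit 156) (nat_lit 228) (nat_lit 0) (XT.nd (nat_lit 78) (nat_lit 152) (nat_lit 0) (XT.lf (nat_lit 0) (nat_lit 16076381677) (nat_lit 76) (nat_lit 4787433567) (nat_lit 76) (nat_lit 117973225) (nat_lit 65) (nat_lit 4) (nat_lit 66) (nat_lit 5) (nat_lit 66) (nat_lit 4) (nat_lit 507) (nat_lit 359) (nat_lit 334)) (XT.lf (nat_lit 0) (nat_lit 8209228020) (nat_lit 152) (nat_lit 9589307290) (nat_lit 0) (nat_lit 3555049956) (nat_lit 63) (nat_lit 5) (nat_lit 65) (nat_lit 4) (nat_lit 63) (nat_lit 4) (nat_lit 508) (nat_lit 359) (nat_lit 333))) (XT.nd (nat_lit 78) (nat_lit 152) (nat_lit 0)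 (XT.lf (nat_lit 0) (nat_lit 7148098369) (nat_lit 76) (nat_lit 9679241177) (nat_lit 76) (nat_lit 4907857849) (nat_lit 62) (nat_lit 4) (nat_lit 63) (nat_lit 5) (nat_lit 63) (nat_lit 4) (nat_lit 509) (nat_lit 359) (nat_lit 332)) (XT.lf (nat_lit 0) (nat_lit 2224974693) (nat_lit 76) (nat_lit 1277562025) (nat_lit 152) (nat_lit 18624793139) (nat_lit 60) (nat_lit 5) (nat_lit 61) (nat_lit 5) (nat_lit 62) (nat_lit 4) (nat_lit 510) (nat_lit 359) (nat_lit 331))))) (XT.nd (nat_lit 312) (nat_lit 380) (nat_lit 0) (XT.nd (nat_lit 156) (nat_lit 228) (nat_lit 0) (XT.nd (nat_lit 78) (nat_lit 76) (nat_lit 0) (XT.lf (nat_lit 0) (nat_lit 12163791013) (nat_lit 152) (nat_lit 3049418770) (nat_lit 0) (nat_lit 7313643393) (nat_lit 60) (nat_lit 5) (nat_lit 62) (nat_lit 4) (nat_lit 60) (nat_lit 4) (nat_lit 511) (nat_lit 359) (nat_lit 330)) (XT.lf (nat_lit 0) (nat_lit 14341269465) (nat_lit 76) (nat_lit 6775214036) (nat_lit 76) (nat_lit 1820931059)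 (nat_lit 59) (nat_lit 4) (nat_lit 60) (nat_lit 5) (nat_lit 60) (nat_lit 4) (nat_lit 512) (nat_lit 359) (nat_lit 329))) (XT.nd (nat_lit 78) (nat_lit 76) (nat_lit 0) (XT.lf (nat_lit 0) (nat_lit 6857519605) (nat_lit 152) (nat_lit 14550896489) (nat_lit 0) (nat_lit 1949378568) (nat_lit 57) (nat_lit 5) (nat_lit 59) (nat_lit 4) (nat_lit 57) (nat_lit 4) (nat_lit 513) (nat_lit 359) (nat_lit 328)) (XT.lf (nat_lit 0) (nat_lit 2854581348) (nat_lit 76) (nat_lit 12968600122) (nat_lit 76) (nat_lit 7965160480) (nat_lit 56) (nat_lit 4) (nat_lit 57) (nat_lit 5) (nat_lit 57) (nat_lit 4) (nat_lit 514) (nat_lit 359) (nat_lit 327)))) (XT.nd (nat_lit 156) (nat_lit 228) (nat_lit 0) (XT.nd (nat_lit 78) (nat_lit 76) (nat_lit 0) (XT.lf (nat_lit 0) (nat_lit 839606560) (nat_lit 152) (nat_lit 3391561240) (nat_lit 76) (nat_lit 19999508459) (nat_lit 55) (nat_lit 5) (nat_lit 57) (nat_lit 5) (nat_lit 56) (nat_lit 4) (nat_lit 515) (nat_lit 359) (nat_lit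 326)) (XT.lf (nat_lit 0) (nat_lit 9821011140) (nat_lit 152) (nat_lit 10074463347) (nat_lit 0) (nat_lit 4786262952) (nat_lit 54) (nat_lit 5) (nat_lit 56) (nat_lit 4) (nat_lit 54) (nat_lit 4) (nat_lit 516) (nat_lit 359) (nat_lit 325))) (XT.nd (nat_lit 78) (nat_lit 152) (nat_lit 0) (XT.lf (nat_lit 0) (nat_lit 7954766692) (nat_lit 76) (nat_lit 11154924419) (nat_lit 76) (nat_lit 6035504654) (nat_lit 53) (nat_lit 4) (nat_lit 54) (nat_lit 5) (nat_lit 54) (nat_lit 4) (nat_lit 517) (nat_lit 359) (nat_lit 324)) (XT.lf (nat_lit 0) (nat_lit 869918264) (nat_lit 76) (nat_lit 2120989835) (nat_lit 152) (nat_lit 22630888044) (nat_lit 51) (nat_lit 5) (nat_lit 52) (nat_lit 5) (nat_lit 53) (nat_lit 4) (nat_lit 518) (nat_lit 359) (nat_lit 323)))))) (XT.nd (nat_lit 624) (nat_lit 608) (nat_lit 0) (XT.nd (nat_lit 312) (nat_lit 304) (nat_lit 0) (XT.nd (nat_lit 156) (nat_lit 152) (nat_lit 0) (XT.nd (nat_lit 78) (nat_lit 76) (nat_lit 0) (XT.lf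 (nat_lit 0) (nat_lit 12296201876) (nat_lit 152) (nat_lit 6642224470) (nat_lit 0) (nat_lit 7168593857) (nat_lit 51) (nat_lit 5) (nat_lit 53) (nat_lit 4) (nat_lit 51) (nat_lit 4) (nat_lit 519) (nat_lit 359) (nat_lit 322)) (XT.lf (nat_lit 0) (nat_lit 12001911626) (nat_lit 76) (nat_lit 9903492382) (nat_lit 76) (nat_lit 4700654765) (nat_lit 50) (nat_lit 4) (nat_lit 51) (nat_lit 5) (nat_lit 51) (nat_lit 4) (nat_lit 520) (nat_lit 359) (nat_lit 321))) (XT.nd (nat_lit 78) (nat_lit 0) (nat_lit 0) (XT.lf (nat_lit 0) (nat_lit 4034471665) (nat_lit 76) (nat_lit 551906526) (nat_lit 152) (nat_lit 22532491857) (nat_lit 48) (nat_lit 5) (nat_lit 49) (nat_lit 5) (nat_lit 50) (nat_lit 4) (nat_lit 521) (nat_lit 359) (nat_lit 320)) (XT.lf (nat_lit 0) (nat_lit 14182269679) (nat_lit 152) (nat_lit 4468444048) (nat_lit 0) (nat_lit 8991214169) (nat_lit 48) (nat_lit 5) (nat_lit 50) (nat_lit 4) (nat_lit 48) (nat_lit 4) (nat_lit 522) (nat_lit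 359) (nat_lit 319)))) (XT.nd (nat_lit 156) (nat_lit 76) (nat_lit 0) (XT.nd (nat_lit 78) (nat_lit 152) (nat_lit 0) (XT.lf (nat_lit 0) (nat_lit 14773135200) (nat_lit 76) (nat_lit 9332130858) (nat_lit 76) (nat_lit 4074234824) (nat_lit 47) (nat_lit 4) (nat_lit 48) (nat_lit 5) (nat_lit 48) (nat_lit 4) (nat_lit 523) (nat_lit 359) (nat_lit 318)) (XT.lf (nat_lit 0) (nat_lit 5479742638) (nat_lit 152) (nat_lit 22939976437) (nat_lit 0) (nat_lit 311985602) (nat_lit 45) (nat_lit 5) (nat_lit 47) (nat_lit 4) (nat_lit 45) (nat_lit 4) (nat_lit 524) (nat_lit 359) (nat_lit 317))) (XT.nd (nat_lit 78) (nat_lit 76) (nat_lit 0) (XT.lf (nat_lit 0) (nat_lit 15359436134) (nat_lit 152) (nat_lit 3805688412) (nat_lit 0) (nat_lit 10130510550) (nat_lit 45) (nat_lit 5) (nat_lit 47) (nat_lit 4) (nat_lit 45) (nat_lit 4) (nat_lit 525) (nat_lit 359) (nat_lit 316)) (XT.lf (nat_lit 0) (nat_lit 16005456404) (nat_lit 76) (nat_lit 9578936792) (nat_lit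 76) (nat_lit 4290624269) (nat_lit 44) (nat_lit 4) (nat_lit 45) (nat_lit 5) (nat_lit 45) (nat_lit 4) (nat_lit 526) (nat_lit 359) (nat_lit 315))))) (XT.nd (nat_lit 312) (nat_lit 228) (nat_lit 0) (XT.nd (nat_lit 156) (nat_lit 228) (nat_lit 0) (XT.nd (nat_lit 78) (nat_lit 0) (nat_lit 0) (XT.lf (nat_lit 0) (nat_lit 5527762346) (nat_lit 152) (nat_lit 24605083439) (nat_lit 0) (nat_lit 337500455) (nat_lit 42) (nat_lit 5) (nat_lit 44) (nat_lit 4) (nat_lit 42) (nat_lit 4) (nat_lit 527) (nat_lit 359) (nat_lit 314)) (XT.lf (nat_lit 0) (nat_lit 15685865878) (nat_lit 152) (nat_lit 4951196153) (nat_lit 0) (nat_lit 10441256525) (nat_lit 42) (nat_lit 5) (nat_lit 44) (nat_lit 4) (nat_lit 42) (nat_lit 4) (nat_lit 528) (nat_lit 359) (nat_lit 313))) (XT.nd (nat_lit 78) (nat_lit 152) (nat_lit 0) (XT.lf (nat_lit 0) (nat_lit 15389111891) (nat_lit 76) (nat_lit 10805704553) (nat_lit 76) (nat_lit 5508330673) (nat_lit 41) (nat_lit 4) (nat_lit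 42) (nat_lit 5) (nat_lit 42) (nat_lit 4) (nat_lit 529) (nat_lit 359) (nat_lit 312)) (XT.lf (nat_lit 0) (nat_lit 3923533389) (nat_lit 76) (nat_lit 644020780) (nat_lit 152) (nat_lit 27778226767) (nat_lit 39) (nat_lit 5) (nat_lit 40) (nat_lit 5) (nat_lit 41) (nat_lit 4) (nat_lit 530) (nat_lit 359) (nat_lit 311)))) (XT.nd (nat_lit 156) (nat_lit 152) (nat_lit 0) (XT.nd (nat_lit 78) (nat_lit 76) (nat_lit 0) (XT.lf (nat_lit 0) (nat_lit 14994058608) (nat_lit 152) (nat_lit 8254273025) (nat_lit 0) (nat_lit 9752954527) (nat_lit 39) (nat_lit 5) (nat_lit 41) (nat_lit 4) (nat_lit 39) (nat_lit 4) (nat_lit 531) (nat_lit 359) (nat_lit 310)) (XT.lf (nat_lit 0) (nat_lit 12559797571) (nat_lit 76) (nat_lit 13201896865) (nat_lit 76) (nat_lit 7913912186) (nat_lit 38) (nat_lit 4) (nat_lit 39) (nat_lit 5) (nat_lit 39) (nat_lit 4) (nat_lit 532) (nat_lit 359) (nat_lit 309))) (XT.nd (nat_lit 78) (nat_lit 76) (nat_lit 0) (XT.lf (nat_lit 0)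 (nat_lit 2419197803) (nat_lit 152) (nat_lit 422528283) (nat_lit 76) (nat_lit 31528152005) (nat_lit 37) (nat_lit 5) (nat_lit 39) (nat_lit 5) (nat_lit 38) (nat_lit 4) (nat_lit 533) (nat_lit 359) (nat_lit 308)) (XT.lf (nat_lit 0) (nat_lit 13086653021) (nat_lit 152) (nat_lit 14124876299) (nat_lit 0) (nat_lit 7865595463) (nat_lit 36) (nat_lit 5) (nat_lit 38) (nat_lit 4) (nat_lit 36) (nat_lit 4) (nat_lit 534) (nat_lit 359) (nat_lit 307))))))) (XT.nd (nat_lit 1248) (nat_lit 228) (nat_lit 0) (XT.nd (nat_lit 624) (nat_lit 456) (nat_lit 0) (XT.nd (nat_lit 312) (nat_lit 304) (nat_lit 0) (XT.nd (nat_lit 156) (nat_lit 152) (nat_lit 0) (XT.nd (nat_lit 78) (nat_lit 0) (nat_lit 0) (XT.lf (nat_lit 0) (nat_lit 7089661125) (nat_lit 76) (nat_lit 16989247482) (nat_lit 76) (nat_lit 11726537119) (nat_lit 35) (nat_lit 4) (nat_lit 36) (nat_lit 5) (nat_lit 36) (nat_lit 4) (nat_lit 535) (nat_lit 359) (nat_lit 306)) (XT.lf (nat_lit 0) (nat_lit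 29040088247) (nat_lit 76) (nat_lit 6408622408) (nat_lit 76) (nat_lit 1105472428) (nat_lit 35) (nat_lit 4) (nat_lit 36) (nat_lit 5) (nat_lit 36) (nat_lit 4) (nat_lit 536) (nat_lit 359) (nat_lit 305))) (XT.nd (nat_lit 78) (nat_lit 0) (nat_lit 0) (XT.lf (nat_lit 0) (nat_lit 9731549000) (nat_lit 152) (nat_lit 23043579462) (nat_lit 0) (nat_lit 4544741482) (nat_lit 33) (nat_lit 5) (nat_lit 35) (nat_lit 4) (nat_lit 33) (nat_lit 4) (nat_lit 537) (nat_lit 359) (nat_lit 304)) (XT.lf (nat_lit 0) (nat_lit 20918584119) (nat_lit 152) (nat_lit 1493432788) (nat_lit 0) (nat_lit 15694768624) (nat_lit 33) (nat_lit 5) (nat_lit 35) (nat_lit 4) (nat_lit 33) (nat_lit 4) (nat_lit 538) (nat_lit 359) (nat_lit 303)))) (XT.nd (nat_lit 156) (nat_lit 76) (nat_lit 0) (XT.nd (nat_lit 78) (nat_lit 152) (nat_lit 0) (XT.lf (nat_lit 0) (nat_lit 20930628487) (nat_lit 76) (nat_lit 11621548696) (nat_lit 76) (nat_lit 6361803126) (nat_lit 32) (nat_lit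 4) (nat_lit 33) (nat_lit 5) (nat_lit 33) (nat_lit 4) (nat_lit 539) (nat_lit 359) (nat_lit 302)) (XT.lf (nat_lit 0) (nat_lit 4167172809) (nat_lit 76) (nat_lit 493813371) (nat_lit 152) (nat_lit 35084072001) (nat_lit 30) (nat_lit 5) (nat_lit 31) (nat_lit 5) (nat_lit 32) (nat_lit 4) (nat_lit 540) (nat_lit 359) (nat_lit 301))) (XT.nd (nat_lit 78) (nat_lit 76) (nat_lit 0) (XT.lf (nat_lit 0) (nat_lit 16085226604) (nat_lit 152) (nat_lit 13596064405) (nat_lit 0) (nat_lit 10911928856) (nat_lit 30) (nat_lit 5) (nat_lit 32) (nat_lit 4) (nat_lit 30) (nat_lit 4) (nat_lit 541) (nat_lit 359) (nat_lit 300)) (XT.lf (nat_lit 0) (nat_lit 9040934132) (nat_lit 76) (nat_lit 18815493271) (nat_lit 76) (nat_lit 13610272117) (nat_lit 29) (nat_lit 4) (nat_lit 30) (nat_lit 5) (nat_lit 30) (nat_lit 4) (nat_lit 542) (nat_lit 359) (nat_lit 299))))) (XT.nd (nat_lit 312) (nat_lit 228) (nat_lit 0) (XT.nd (nat_lit 156) (nat_lit 76) (nat_lit 0) (XT.nd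 (nat_lit 78) (nat_lit 152) (nat_lit 0) (XT.lf (nat_lit 0) (nat_lit 32461663228) (nat_lit 76) (nat_lit 7569708490) (nat_lit 76) (nat_lit 2333493737) (nat_lit 29) (nat_lit 4) (nat_lit 30) (nat_lit 5) (nat_lit 30) (nat_lit 4) (nat_lit 543) (nat_lit 359) (nat_lit 298)) (XT.lf (nat_lit 0) (nat_lit 9183175823) (nat_lit 152) (nat_lit 30031385151) (nat_lit 0) (nat_lit 4070257740) (nat_lit 27) (nat_lit 5) (nat_lit 29) (nat_lit 4) (nat_lit 27) (nat_lit 4) (nat_lit 544) (nat_lit 359) (nat_lit 297))) (XT.nd (nat_lit 78) (nat_lit 76) (nat_lit 0) (XT.lf (nat_lit 0) (nat_lit 21089425285) (nat_lit 152) (nat_lit 7191379183) (nat_lit 0) (nat_lit 15948143668) (nat_lit 27) (nat_lit 5) (nat_lit 29) (nat_lit 4) (nat_lit 27) (nat_lit 4) (nat_lit 545) (nat_lit 359) (nat_lit 296)) (XT.lf (nat_lit 0) (nat_lit 16489834652) (nat_lit 76) (nat_lit 16939052584) (nat_lit 76) (nat_lit 11770233556) (nat_lit 26) (nat_lit 4) (nat_lit 27) (nat_lit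 5) (nat_lit 27) (nat_lit 4) (nat_lit 546) (nat_lit 359) (nat_lit 295)))) (XT.nd (nat_lit 156) (nat_lit 76) (nat_lit 0) (XT.nd (nat_lit 78) (nat_lit 152) (nat_lit 0) (XT.lf (nat_lit 0) (nat_lit 40864757929) (nat_lit 76) (nat_lit 5264733216) (nat_lit 76) (nat_lit 69178838) (nat_lit 26) (nat_lit 4) (nat_lit 27) (nat_lit 5) (nat_lit 27) (nat_lit 4) (nat_lit 547) (nat_lit 359) (nat_lit 294)) (XT.lf (nat_lit 0) (nat_lit 11917190334) (nat_lit 152) (nat_lit 28454754270) (nat_lit 0) (nat_lit 6847762151) (nat_lit 24) (nat_lit 5) (nat_lit 26) (nat_lit 4) (nat_lit 24) (nat_lit 4) (nat_lit 548) (nat_lit 359) (nat_lit 293))) (XT.nd (nat_lit 78) (nat_lit 76) (nat_lit 0) (XT.lf (nat_lit 0) (nat_lit 24288244187) (nat_lit 152) (nat_lit 4787966093) (nat_lit 0) (nat_lit 19194349371) (nat_lit 24) (nat_lit 5) (nat_lit 26) (nat_lit 4) (nat_lit 24) (nat_lit 4) (nat_lit 549) (nat_lit 359) (nat_lit 292)) (XT.lf (nat_lit 0) (nat_lit 19819274109)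 (nat_lit 76) (nat_lit 17323964338) (nat_lit 76) (nat_lit 12206315509) (nat_lit 23) (nat_lit 4) (nat_lit 24) (nat_lit 5) (nat_lit 24) (nat_lit 4) (nat_lit 550) (nat_lit 359) (nat_lit 291)))))) (XT.nd (nat_lit 57252) (nat_lit 0) (nat_lit 5016) (XT.nd (nat_lit 56940) (nat_lit 0) (nat_lit 6080) (XT.nd (nat_lit 156) (nat_lit 76) (nat_lit 0) (XT.nd (nat_lit 78) (nat_lit 152) (nat_lit 0) (XT.lf (nat_lit 0) (nat_lit 45108115410) (nat_lit 76) (nat_lit 5247185595) (nat_lit 76) (nat_lit 106474618) (nat_lit 23) (nat_lit 4) (nat_lit 24) (nat_lit 5) (nat_lit 24) (nat_lit 4) (nat_lit 551) (nat_lit 359) (nat_lit 290)) (XT.lf (nat_lit 0) (nat_lit 12300258634) (nat_lit 152) (nat_lit 32010452834) (nat_lit 0) (nat_lit 7287538816) (nat_lit 21) (nat_lit 5) (nat_lit 23) (nat_lit 4) (nat_lit 21) (nat_lit 4) (nat_lit 552) (nat_lit 359) (nat_lit 289))) (XT.nd (nat_lit 78) (nat_lit 76) (nat_lit 0) (XT.lf (nat_lit 0) (nat_lit 25108199260)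 (nat_lit 152) (nat_lit 7585279703) (nat_lit 0) (nat_lit 20074374310) (nat_lit 21) (nat_lit 5) (nat_lit 23) (nat_lit 4) (nat_lit 21) (nat_lit 4) (nat_lit 553) (nat_lit 359) (nat_lit 288)) (XT.lf (nat_lit 0) (nat_lit 17772082671) (nat_lit 76) (nat_lit 20625924133) (nat_lit 76) (nat_lit 15571608763) (nat_lit 20) (nat_lit 4) (nat_lit 21) (nat_lit 5) (nat_lit 21) (nat_lit 4) (nat_lit 554) (nat_lit 359) (nat_lit 287)))) (XT.nd (nat_lit 156) (nat_lit 304) (nat_lit 0) (XT.nd (nat_lit 78) (nat_lit 152) (nat_lit 0) (XT.lf (nat_lit 0) (nat_lit 814734911) (nat_lit 152) (nat_lit 5186821132) (nat_lit 0) (nat_lit 814734911) (nat_lit 106) (nat_lit 5) (nat_lit 108) (nat_lit 4) (nat_lit 106) (nat_lit 4) (nat_lit 480) (nat_lit 360) (nat_lit 360)) (XT.lf (nat_lit 0) (nat_lit 2396343182) (nat_lit 152) (nat_lit 5903118495) (nat_lit 152) (nat_lit 5531926263) (nat_lit 104) (nat_lit 4) (nat_lit 106) (nat_lit 5) (nat_lit 106) (nat_lit 4)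 (nat_lit 481) (nat_lit 360) (nat_lit 359))) (XT.nd (nat_lit 78) (nat_lit 152) (nat_lit 0) (XT.lf (nat_lit 0) (nat_lit 1096436674) (nat_lit 152) (nat_lit 12553669580) (nat_lit 0) (nat_lit 386171587) (nat_lit 102) (nat_lit 5) (nat_lit 104) (nat_lit 4) (nat_lit 102) (nat_lit 4) (nat_lit 482) (nat_lit 360) (nat_lit 358)) (XT.lf (nat_lit 0) (nat_lit 411979016) (nat_lit 152) (nat_lit 7441215094) (nat_lit 152) (nat_lit 6391256531) (nat_lit 100) (nat_lit 4) (nat_lit 102) (nat_lit 5) (nat_lit 102) (nat_lit 4) (nat_lit 483) (nat_lit 360) (nat_lit 357))))) (XT.nd (nat_lit 312) (nat_lit 608) (nat_lit 0) (XT.nd (nat_lit 156) (nat_lit 304) (nat_lit 0) (XT.nd (nat_lit 78) (nat_lit 76) (nat_lit 0) (XT.lf (nat_lit 0) (nat_lit 336810370) (nat_lit 228) (nat_lit 696033001) (nat_lit 76) (nat_lit 13426226553) (nat_lit 99) (nat_lit 5) (nat_lit 102) (nat_lit 5) (nat_lit 100) (nat_lit 4) (nat_lit 484) (nat_lit 360) (nat_lit 356)) (XT.lf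 (nat_lit 0) (nat_lit 7181142798) (nat_lit 152) (nat_lit 1965097070) (nat_lit 0) (nat_lit 5530704221) (nat_lit 98) (nat_lit 5) (nat_lit 100) (nat_lit 4) (nat_lit 98) (nat_lit 4) (nat_lit 485) (nat_lit 360) (nat_lit 355))) (XT.nd (nat_lit 78) (nat_lit 152) (nat_lit 0) (XT.lf (nat_lit 0) (nat_lit 11598075274) (nat_lit 152) (nat_lit 2627839428) (nat_lit 152) (nat_lit 675587598) (nat_lit 96) (nat_lit 4) (nat_lit 98) (nat_lit 5) (nat_lit 98) (nat_lit 4) (nat_lit 486) (nat_lit 360) (nat_lit 354)) (XT.lf (nat_lit 0) (nat_lit 6251391293) (nat_lit 152) (nat_lit 4807281141) (nat_lit 0) (nat_lit 4071513229) (nat_lit 94) (nat_lit 5) (nat_lit 96) (nat_lit 4) (nat_lit 94) (nat_lit 4) (nat_lit 487) (nat_lit 360) (nat_lit 353)))) (XT.nd (nat_lit 156) (nat_lit 304) (nat_lit 0) (XT.nd (nat_lit 78) (nat_lit 152) (nat_lit 0) (XT.lf (nat_lit 0) (nat_lit 8949051164) (nat_lit 152) (nat_lit 4436091203) (nat_lit 152) (nat_lit 1980011258)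 (nat_lit 92) (nat_lit 4) (nat_lit 94) (nat_lit 5) (nat_lit 94) (nat_lit 4) (nat_lit 488) (nat_lit 360) (nat_lit 352)) (XT.lf (nat_lit 0) (nat_lit 5036801963) (nat_lit 152) (nat_lit 8176647258) (nat_lit 0) (nat_lit 2391911563) (nat_lit 90) (nat_lit 5) (nat_lit 92) (nat_lit 4) (nat_lit 90) (nat_lit 4) (nat_lit 489) (nat_lit 360) (nat_lit 351))) (XT.nd (nat_lit 78) (nat_lit 152) (nat_lit 0) (XT.lf (nat_lit 0) (nat_lit 5763846703) (nat_lit 152) (nat_lit 6492516653) (nat_lit 152) (nat_lit 3594862405) (nat_lit 88) (nat_lit 4) (nat_lit 90) (nat_lit 5) (nat_lit 90) (nat_lit 4) (nat_lit 490) (nat_lit 360) (nat_lit 350)) (XT.lf (nat_lit 0) (nat_lit 3511576048) (nat_lit 152) (nat_lit 12131985067) (nat_lit 0) (nat_lit 460065327) (nat_lit 86) (nat_lit 5) (nat_lit 88) (nat_lit 4) (nat_lit 86) (nat_lit 4) (nat_lit 491) (nat_lit 360) (nat_lit 349))))))))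
noncomputable def xc22 : XT := (XT.nd (nat_lit 2418) (nat_lit 2052) (nat_lit 0) (XT.nd (nat_lit 1170) (nat_lit 1368) (nat_lit 0) (XT.nd (nat_lit 546) (nat_lit 684) (nat_lit 0) (XT.nd (nat_lit 234) (nat_lit 532) (nat_lit 0) (XT.nd (nat_lit 78) (nat_lit 152) (nat_lit 0) (XT.lf (nat_lit 0) (nat_lit 1982003348) (nat_lit 152) (nat_lit 8830868396) (nat_lit 152) (nat_lit 5548042948) (nat_lit 84) (nat_lit 4) (nat_lit 86) (nat_lit 5) (nat_lit 86) (nat_lit 4) (nat_lit 492) (nat_lit 360) (nat_lit 348)) (XT.nd (nat_lit 78) (nat_lit 76) (nat_lit 0) (XT.lf (nat_lit 0) (nat_lit 1665537670) (nat_lit 228) (nat_lit 126361382) (nat_lit 76) (nat_lit 14833783946) (nat_lit 83) (nat_lit 5) (nat_lit 86) (nat_lit 5) (nat_lit 84) (nat_lit 4) (nat_lit 493) (nat_lit 360) (nat_lit 347)) (XT.lf (nat_lit 0) (nat_lit 9048685266) (nat_lit 152) (nat_lit 2414367802) (nat_lit 0) (nat_lit 5431754034) (nat_lit 82) (nat_lit 5) (nat_lit 84) (nat_lit 4)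 (nat_lit 82) (nat_lit 4) (nat_lit 494) (nat_lit 360) (nat_lit 346)))) (XT.nd (nat_lit 156) (nat_lit 228) (nat_lit 0) (XT.nd (nat_lit 78) (nat_lit 152) (nat_lit 0) (XT.lf (nat_lit 0) (nat_lit 12331512900) (nat_lit 152) (nat_lit 4331329353) (nat_lit 152) (nat_lit 508877982) (nat_lit 80) (nat_lit 4) (nat_lit 82) (nat_lit 5) (nat_lit 82) (nat_lit 4) (nat_lit 495) (nat_lit 360) (nat_lit 345)) (XT.lf (nat_lit 0) (nat_lit 6933375436) (nat_lit 152) (nat_lit 7492325242) (nat_lit 0) (nat_lit 3028535158) (nat_lit 78) (nat_lit 5) (nat_lit 80) (nat_lit 4) (nat_lit 78) (nat_lit 4) (nat_lit 496) (nat_lit 360) (nat_lit 344))) (XT.nd (nat_lit 78) (nat_lit 152) (nat_lit 0) (XT.lf (nat_lit 0) (nat_lit 7411994197) (nat_lit 76) (nat_lit 7212464430) (nat_lit 76) (nat_lit 3119544111) (nat_lit 77) (nat_lit 4) (nat_lit 78) (nat_lit 5) (nat_lit 78) (nat_lit 4) (nat_lit 497) (nat_lit 360) (nat_lit 343)) (XT.lf (nat_lit 0) (nat_lit 4412250240)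 (nat_lit 152) (nat_lit 13367766817) (nat_lit 0) (nat_lit 261257714) (nat_lit 75) (nat_lit 5) (nat_lit 77) (nat_lit 4) (nat_lit 75) (nat_lit 4) (nat_lit 498) (nat_lit 360) (nat_lit 342))))) (XT.nd (nat_lit 312) (nat_lit 380) (nat_lit 0) (XT.nd (nat_lit 156) (nat_lit 152) (nat_lit 0) (XT.nd (nat_lit 78) (nat_lit 76) (nat_lit 0) (XT.lf (nat_lit 0) (nat_lit 1677957124) (nat_lit 76) (nat_lit 10494864298) (nat_lit 76) (nat_lit 6171751892) (nat_lit 74) (nat_lit 4) (nat_lit 75) (nat_lit 5) (nat_lit 75) (nat_lit 4) (nat_lit 499) (nat_lit 360) (nat_lit 341)) (XT.lf (nat_lit 0) (nat_lit 1488829775) (nat_lit 152) (nat_lit 1467894643) (nat_lit 76) (nat_lit 15699540516) (nat_lit 73) (nat_lit 5) (nat_lit 75) (nat_lit 5) (nat_lit 74) (nat_lit 4) (nat_lit 500) (nat_lit 360) (nat_lit 340))) (XT.nd (nat_lit 78) (nat_lit 76) (nat_lit 0) (XT.lf (nat_lit 0) (nat_lit 9314768836) (nat_lit 152) (nat_lit 4861099509) (nat_lit 0) (nat_lit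 4797818756) (nat_lit 72) (nat_lit 5) (nat_lit 74) (nat_lit 4) (nat_lit 72) (nat_lit 4) (nat_lit 501) (nat_lit 360) (nat_lit 339)) (XT.lf (nat_lit 0) (nat_lit 10831154512) (nat_lit 76) (nat_lit 6569302608) (nat_lit 76) (nat_lit 1899426243) (nat_lit 71) (nat_lit 4) (nat_lit 72) (nat_lit 5) (nat_lit 72) (nat_lit 4) (nat_lit 502) (nat_lit 360) (nat_lit 338)))) (XT.nd (nat_lit 156) (nat_lit 152) (nat_lit 0) (XT.nd (nat_lit 78) (nat_lit 76) (nat_lit 0) (XT.lf (nat_lit 0) (nat_lit 5983214498) (nat_lit 152) (nat_lit 12345410517) (nat_lit 0) (nat_lit 1305206259) (nat_lit 69) (nat_lit 5) (nat_lit 71) (nat_lit 4) (nat_lit 69) (nat_lit 4) (nat_lit 503) (nat_lit 360) (nat_lit 337)) (XT.lf (nat_lit 0) (nat_lit 3458007692) (nat_lit 76) (nat_lit 10667669071) (nat_lit 76) (nat_lit 5849711618) (nat_lit 68) (nat_lit 4) (nat_lit 69) (nat_lit 5) (nat_lit 69) (nat_lit 4) (nat_lit 504) (nat_lit 360) (nat_lit 336))) (XT.nd (nat_lit 78)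 (nat_lit 76) (nat_lit 0) (XT.lf (nat_lit 0) (nat_lit 2145430881) (nat_lit 152) (nat_lit 598605787) (nat_lit 76) (nat_lit 17582440296) (nat_lit 67) (nat_lit 5) (nat_lit 69) (nat_lit 5) (nat_lit 68) (nat_lit 4) (nat_lit 505) (nat_lit 360) (nat_lit 335)) (XT.lf (nat_lit 0) (nat_lit 10348451620) (nat_lit 152) (nat_lit 4924507481) (nat_lit 0) (nat_lit 5410834112) (nat_lit 66) (nat_lit 5) (nat_lit 68) (nat_lit 4) (nat_lit 66) (nat_lit 4) (nat_lit 506) (nat_lit 360) (nat_lit 334)))))) (XT.nd (nat_lit 624) (nat_lit 684) (nat_lit 0) (XT.nd (nat_lit 312) (nat_lit 304) (nat_lit 0) (XT.nd (nat_lit 156) (nat_lit 152) (nat_lit 0) (XT.nd (nat_lit 78) (nat_lit 152) (nat_lit 0) (XT.lf (nat_lit 0) (nat_lit 11531704627) (nat_lit 76) (nat_lit 7290670494) (nat_lit 76) (nat_lit 2228709922) (nat_lit 65) (nat_lit 4) (nat_lit 66) (nat_lit 5) (nat_lit 66) (nat_lit 4) (nat_lit 507) (nat_lit 360) (nat_lit 333)) (XT.lf (nat_lit 0) (nat_lit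 6009504155) (nat_lit 152) (nat_lit 14440117781) (nat_lit 0) (nat_lit 977774064) (nat_lit 63) (nat_lit 5) (nat_lit 65) (nat_lit 4) (nat_lit 63) (nat_lit 4) (nat_lit 508) (nat_lit 360) (nat_lit 332))) (XT.nd (nat_lit 78) (nat_lit 76) (nat_lit 0) (XT.lf (nat_lit 0) (nat_lit 2082759108) (nat_lit 76) (nat_lit 12437495829) (nat_lit 76) (nat_lit 7291974219) (nat_lit 62) (nat_lit 4) (nat_lit 63) (nat_lit 5) (nat_lit 63) (nat_lit 4) (nat_lit 509) (nat_lit 360) (nat_lit 331)) (XT.lf (nat_lit 0) (nat_lit 1084918241) (nat_lit 152) (nat_lit 3053614780) (nat_lit 76) (nat_lit 18068917061) (nat_lit 61) (nat_lit 5) (nat_lit 63) (nat_lit 5) (nat_lit 62) (nat_lit 4) (nat_lit 510) (nat_lit 360) (nat_lit 330)))) (XT.nd (nat_lit 156) (nat_lit 152) (nat_lit 0) (XT.nd (nat_lit 78) (nat_lit 76) (nat_lit 0) (XT.lf (nat_lit 0) (nat_lit 9629863126) (nat_lit 152) (nat_lit 8557783446) (nat_lit 0) (nat_lit 4422816300) (nat_lit 60) (nat_lit 5)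 (nat_lit 62) (nat_lit 4) (nat_lit 60) (nat_lit 4) (nat_lit 511) (nat_lit 360) (nat_lit 329)) (XT.lf (nat_lit 0) (nat_lit 8608630901) (nat_lit 76) (nat_lit 9861950934) (nat_lit 76) (nat_lit 4553801818) (nat_lit 59) (nat_lit 4) (nat_lit 60) (nat_lit 5) (nat_lit 60) (nat_lit 4) (nat_lit 512) (nat_lit 360) (nat_lit 328))) (XT.nd (nat_lit 78) (nat_lit 0) (nat_lit 0) (XT.lf (nat_lit 0) (nat_lit 2803270122) (nat_lit 76) (nat_lit 1240856380) (nat_lit 152) (nat_lit 19405441041) (nat_lit 57) (nat_lit 5) (nat_lit 58) (nat_lit 5) (nat_lit 59) (nat_lit 4) (nat_lit 513) (nat_lit 360) (nat_lit 327)) (XT.lf (nat_lit 0) (nat_lit 12913637132) (nat_lit 152) (nat_lit 3397089623) (nat_lit 0) (nat_lit 7572272779) (nat_lit 57) (nat_lit 5) (nat_lit 59) (nat_lit 4) (nat_lit 57) (nat_lit 4) (nat_lit 514) (nat_lit 360) (nat_lit 326))))) (XT.nd (nat_lit 312) (nat_lit 380) (nat_lit 0) (XT.nd (nat_lit 156) (nat_lit 76) (nat_lit 0) (XT.nd (nat_lit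 78) (nat_lit 152) (nat_lit 0) (XT.lf (nat_lit 0) (nat_lit 14416921827) (nat_lit 76) (nat_lit 7671268352) (nat_lit 76) (nat_lit 2240075923) (nat_lit 56) (nat_lit 4) (nat_lit 57) (nat_lit 5) (nat_lit 57) (nat_lit 4) (nat_lit 515) (nat_lit 360) (nat_lit 325)) (XT.lf (nat_lit 0) (nat_lit 6630714140) (nat_lit 152) (nat_lit 16880848870) (nat_lit 0) (nat_lit 1273040206) (nat_lit 54) (nat_lit 5) (nat_lit 56) (nat_lit 4) (nat_lit 54) (nat_lit 4) (nat_lit 516) (nat_lit 360) (nat_lit 324))) (XT.nd (nat_lit 78) (nat_lit 0) (nat_lit 0) (XT.lf (nat_lit 0) (nat_lit 901451611) (nat_lit 76) (nat_lit 14895087539) (nat_lit 76) (nat_lit 9455208191) (nat_lit 53) (nat_lit 4) (nat_lit 54) (nat_lit 5) (nat_lit 54) (nat_lit 4) (nat_lit 517) (nat_lit 360) (nat_lit 323)) (XT.lf (nat_lit 0) (nat_lit 19343570354) (nat_lit 76) (nat_lit 5953615376) (nat_lit 76) (nat_lit 433924947) (nat_lit 53) (nat_lit 4) (nat_lit 54) (nat_lit 5) (nat_lit 54)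 (nat_lit 4) (nat_lit 518) (nat_lit 360) (nat_lit 322)))) (XT.nd (nat_lit 156) (nat_lit 152) (nat_lit 0) (XT.nd (nat_lit 78) (nat_lit 76) (nat_lit 0) (XT.lf (nat_lit 0) (nat_lit 8724766495) (nat_lit 152) (nat_lit 14205731454) (nat_lit 0) (nat_lit 3290614150) (nat_lit 51) (nat_lit 5) (nat_lit 53) (nat_lit 4) (nat_lit 51) (nat_lit 4) (nat_lit 519) (nat_lit 360) (nat_lit 321)) (XT.lf (nat_lit 0) (nat_lit 4179584893) (nat_lit 76) (nat_lit 14025807001) (nat_lit 76) (nat_lit 8518616210) (nat_lit 50) (nat_lit 4) (nat_lit 51) (nat_lit 5) (nat_lit 51) (nat_lit 4) (nat_lit 520) (nat_lit 360) (nat_lit 320))) (XT.nd (nat_lit 78) (nat_lit 76) (nat_lit 0) (XT.lf (nat_lit 0) (nat_lit 750774306) (nat_lit 152) (nat_lit 4054030060) (nat_lit 76) (nat_lit 22435880493) (nat_lit 49) (nat_lit 5) (nat_lit 51) (nat_lit 5) (nat_lit 50) (nat_lit 4) (nat_lit 521) (nat_lit 360) (nat_lit 319)) (XT.lf (nat_lit 0) (nat_lit 10212322921) (nat_lit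 152) (nat_lit 12825600712) (nat_lit 0) (nat_lit 4729849482) (nat_lit 48) (nat_lit 5) (nat_lit 50) (nat_lit 4) (nat_lit 48) (nat_lit 4) (nat_lit 522) (nat_lit 360) (nat_lit 318))))))) (XT.nd (nat_lit 1248) (nat_lit 912) (nat_lit 0) (XT.nd (nat_lit 624) (nat_lit 608) (nat_lit 0) (XT.nd (nat_lit 312) (nat_lit 228) (nat_lit 0) (XT.nd (nat_lit 156) (nat_lit 152) (nat_lit 0) (XT.nd (nat_lit 78) (nat_lit 76) (nat_lit 0) (XT.lf (nat_lit 0) (nat_lit 6144456705) (nat_lit 76) (nat_lit 13856149035) (nat_lit 76) (nat_lit 8308781883) (nat_lit 47) (nat_lit 4) (nat_lit 48) (nat_lit 5) (nat_lit 48) (nat_lit 4) (nat_lit 523) (nat_lit 360) (nat_lit 317)) (XT.lf (nat_lit 0) (nat_lit 1217313420) (nat_lit 152) (nat_lit 3139224512) (nat_lit 76) (nat_lit 24509590151) (nat_lit 46) (nat_lit 5) (nat_lit 48) (nat_lit 5) (nat_lit 47) (nat_lit 4) (nat_lit 524) (nat_lit 360) (nat_lit 316))) (XT.nd (nat_lit 78) (nat_lit 76) (nat_lit 0) (XT.lf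 (nat_lit 0) (nat_lit 10972332765) (nat_lit 152) (nat_lit 12995482146) (nat_lit 0) (nat_lit 5465983925) (nat_lit 45) (nat_lit 5) (nat_lit 47) (nat_lit 4) (nat_lit 45) (nat_lit 4) (nat_lit 525) (nat_lit 360) (nat_lit 315)) (XT.lf (nat_lit 0) (nat_lit 6530579544) (nat_lit 76) (nat_lit 14525423219) (nat_lit 76) (nat_lit 8961417156) (nat_lit 44) (nat_lit 4) (nat_lit 45) (nat_lit 5) (nat_lit 45) (nat_lit 4) (nat_lit 526) (nat_lit 360) (nat_lit 314)))) (XT.nd (nat_lit 156) (nat_lit 76) (nat_lit 0) (XT.nd (nat_lit 78) (nat_lit 76) (nat_lit 0) (XT.lf (nat_lit 0) (nat_lit 838199144) (nat_lit 152) (nat_lit 3918439685) (nat_lit 76) (nat_lit 25860754347) (nat_lit 43) (nat_lit 5) (nat_lit 45) (nat_lit 5) (nat_lit 44) (nat_lit 4) (nat_lit 527) (nat_lit 360) (nat_lit 313)) (XT.lf (nat_lit 0) (nat_lit 10861622113) (nat_lit 152) (nat_lit 15015221403) (nat_lit 0) (nat_lit 5352562490) (nat_lit 42) (nat_lit 5) (nat_lit 44) (nat_lit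 4) (nat_lit 42) (nat_lit 4) (nat_lit 528) (nat_lit 360) (nat_lit 312))) (XT.nd (nat_lit 78) (nat_lit 0) (nat_lit 0) (XT.lf (nat_lit 0) (nat_lit 5025532789) (nat_lit 76) (nat_lit 16196719402) (nat_lit 76) (nat_lit 10636432082) (nat_lit 41) (nat_lit 4) (nat_lit 42) (nat_lit 5) (nat_lit 42) (nat_lit 4) (nat_lit 529) (nat_lit 360) (nat_lit 311)) (XT.lf (nat_lit 0) (nat_lit 25779677961) (nat_lit 76) (nat_lit 6167786578) (nat_lit 76) (nat_lit 557763632) (nat_lit 41) (nat_lit 4) (nat_lit 42) (nat_lit 5) (nat_lit 42) (nat_lit 4) (nat_lit 530) (nat_lit 360) (nat_lit 310))))) (XT.nd (nat_lit 312) (nat_lit 228) (nat_lit 0) (XT.nd (nat_lit 156) (nat_lit 152) (nat_lit 0) (XT.nd (nat_lit 78) (nat_lit 76) (nat_lit 0) (XT.lf (nat_lit 0) (nat_lit 9711280886) (nat_lit 152) (nat_lit 19236887688) (nat_lit 0) (nat_lit 4217776067) (nat_lit 39) (nat_lit 5) (nat_lit 41) (nat_lit 4) (nat_lit 39) (nat_lit 4) (nat_lit 531) (nat_lit 360) (nat_lit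 309)) (XT.lf (nat_lit 0) (nat_lit 1262195604) (nat_lit 76) (nat_lit 19060882355) (nat_lit 76) (nat_lit 13521862391) (nat_lit 38) (nat_lit 4) (nat_lit 39) (nat_lit 5) (nat_lit 39) (nat_lit 4) (nat_lit 532) (nat_lit 360) (nat_lit 308))) (XT.nd (nat_lit 78) (nat_lit 152) (nat_lit 0) (XT.lf (nat_lit 0) (nat_lit 22580573367) (nat_lit 76) (nat_lit 8771981190) (nat_lit 76) (nat_lit 3188771766) (nat_lit 38) (nat_lit 4) (nat_lit 39) (nat_lit 5) (nat_lit 39) (nat_lit 4) (nat_lit 533) (nat_lit 360) (nat_lit 307)) (XT.lf (nat_lit 0) (nat_lit 7322461652) (nat_lit 152) (nat_lit 26073367223) (nat_lit 0) (nat_lit 1860217173) (nat_lit 36) (nat_lit 5) (nat_lit 38) (nat_lit 4) (nat_lit 36) (nat_lit 4) (nat_lit 534) (nat_lit 360) (nat_lit 306)))) (XT.nd (nat_lit 156) (nat_lit 152) (nat_lit 0) (XT.nd (nat_lit 78) (nat_lit 76) (nat_lit 0) (XT.lf (nat_lit 0) (nat_lit 18200740736) (nat_lit 152) (nat_lit 5088988983) (nat_lit 0) (nat_lit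 12698056641) (nat_lit 36) (nat_lit 5) (nat_lit 38) (nat_lit 4) (nat_lit 36) (nat_lit 4) (nat_lit 535) (nat_lit 360) (nat_lit 305)) (XT.lf (nat_lit 0) (nat_lit 16669243058) (nat_lit 76) (nat_lit 12806042157) (nat_lit 76) (nat_lit 7264096299) (nat_lit 35) (nat_lit 4) (nat_lit 36) (nat_lit 5) (nat_lit 36) (nat_lit 4) (nat_lit 536) (nat_lit 360) (nat_lit 304))) (XT.nd (nat_lit 78) (nat_lit 0) (nat_lit 0) (XT.lf (nat_lit 0) (nat_lit 1485702781) (nat_lit 76) (nat_lit 1994970546) (nat_lit 152) (nat_lit 34032543991) (nat_lit 33) (nat_lit 5) (nat_lit 34) (nat_lit 5) (nat_lit 35) (nat_lit 4) (nat_lit 537) (nat_lit 360) (nat_lit 303)) (XT.lf (nat_lit 0) (nat_lit 14604072893) (nat_lit 152) (nat_lit 14547364262) (nat_lit 0) (nat_lit 9150604881) (nat_lit 33) (nat_lit 5) (nat_lit 35) (nat_lit 4) (nat_lit 33) (nat_lit 4) (nat_lit 538) (nat_lit 360) (nat_lit 302)))))) (XT.nd (nat_lit 624) (nat_lit 380) (nat_lit 0) (XT.nd (nat_lit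 312) (nat_lit 304) (nat_lit 0) (XT.nd (nat_lit 156) (nat_lit 152) (nat_lit 0) (XT.nd (nat_lit 78) (nat_lit 0) (nat_lit 0) (XT.lf (nat_lit 0) (nat_lit 7528599153) (nat_lit 76) (nat_lit 18537074537) (nat_lit 76) (nat_lit 13048722956) (nat_lit 32) (nat_lit 4) (nat_lit 33) (nat_lit 5) (nat_lit 33) (nat_lit 4) (nat_lit 539) (nat_lit 360) (nat_lit 301)) (XT.lf (nat_lit 0) (nat_lit 30391021937) (nat_lit 76) (nat_lit 7540257252) (nat_lit 76) (nat_lit 2018038129) (nat_lit 32) (nat_lit 4) (nat_lit 33) (nat_lit 5) (nat_lit 33) (nat_lit 4) (nat_lit 540) (nat_lit 360) (nat_lit 300))) (XT.nd (nat_lit 78) (nat_lit 0) (nat_lit 0) (XT.lf (nat_lit 0) (nat_lit 9240075653) (nat_lit 152) (nat_lit 27717376081) (nat_lit 0) (nat_lit 3846774457) (nat_lit 30) (nat_lit 5) (nat_lit 32) (nat_lit 4) (nat_lit 30) (nat_lit 4) (nat_lit 541) (nat_lit 360) (nat_lit 299)) (XT.lf (nat_lit 0) (nat_lit 20882491294) (nat_lit 152) (nat_lit 5340881666)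 (nat_lit 0) (nat_lit 15458196499) (nat_lit 30) (nat_lit 5) (nat_lit 32) (nat_lit 4) (nat_lit 30) (nat_lit 4) (nat_lit 542) (nat_lit 360) (nat_lit 298)))) (XT.nd (nat_lit 156) (nat_lit 152) (nat_lit 0) (XT.nd (nat_lit 78) (nat_lit 76) (nat_lit 0) (XT.lf (nat_lit 0) (nat_lit 17890294821) (nat_lit 76) (nat_lit 15073320452) (nat_lit 76) (nat_lit 9618934785) (nat_lit 29) (nat_lit 4) (nat_lit 30) (nat_lit 5) (nat_lit 30) (nat_lit 4) (nat_lit 543) (nat_lit 360) (nat_lit 297)) (XT.lf (nat_lit 0) (nat_lit 1831550485) (nat_lit 152) (nat_lit 1765552619) (nat_lit 76) (nat_lit 39913751711) (nat_lit 28) (nat_lit 5) (nat_lit 30) (nat_lit 5) (nat_lit 29) (nat_lit 4) (nat_lit 544) (nat_lit 360) (nat_lit 296))) (XT.nd (nat_lit 78) (nat_lit 76) (nat_lit 0) (XT.lf (nat_lit 0) (nat_lit 13645108484) (nat_lit 152) (nat_lit 22518969072) (nat_lit 0) (nat_lit 8293687475) (nat_lit 27) (nat_lit 5) (nat_lit 29) (nat_lit 4) (nat_lit 27) (nat_lit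 4) (nat_lit 545) (nat_lit 360) (nat_lit 295)) (XT.lf (nat_lit 0) (nat_lit 776336952) (nat_lit 76) (nat_lit 25017736033) (nat_lit 76) (nat_lit 19639579674) (nat_lit 26) (nat_lit 4) (nat_lit 27) (nat_lit 5) (nat_lit 27) (nat_lit 4) (nat_lit 546) (nat_lit 360) (nat_lit 294))))) (XT.nd (nat_lit 312) (nat_lit 152) (nat_lit 0) (XT.nd (nat_lit 156) (nat_lit 76) (nat_lit 0) (XT.nd (nat_lit 78) (nat_lit 152) (nat_lit 0) (XT.lf (nat_lit 0) (nat_lit 25072756619) (nat_lit 76) (nat_lit 13382864973) (nat_lit 76) (nat_lit 7978751963) (nat_lit 26) (nat_lit 4) (nat_lit 27) (nat_lit 5) (nat_lit 27) (nat_lit 4) (nat_lit 547) (nat_lit 360) (nat_lit 293)) (XT.lf (nat_lit 0) (nat_lit 2486447364) (nat_lit 76) (nat_lit 1412942293) (nat_lit 152) (nat_lit 43566178818) (nat_lit 24) (nat_lit 5) (nat_lit 25) (nat_lit 5) (nat_lit 26) (nat_lit 4) (nat_lit 548) (nat_lit 360) (nat_lit 292))) (XT.nd (nat_lit 78) (nat_lit 76) (nat_lit 0) (XT.lf (nat_lit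 0) (nat_lit 16218582532) (nat_lit 152) (nat_lit 21375744487) (nat_lit 0) (nat_lit 10923650226) (nat_lit 24) (nat_lit 5) (nat_lit 26) (nat_lit 4) (nat_lit 24) (nat_lit 4) (nat_lit 549) (nat_lit 360) (nat_lit 291)) (XT.lf (nat_lit 0) (nat_lit 2825127622) (nat_lit 76) (nat_lit 26047927044) (nat_lit 76) (nat_lit 20729932590) (nat_lit 23) (nat_lit 4) (nat_lit 24) (nat_lit 5) (nat_lit 24) (nat_lit 4) (nat_lit 550) (nat_lit 360) (nat_lit 290)))) (XT.nd (nat_lit 156) (nat_lit 0) (nat_lit 0) (XT.nd (nat_lit 78) (nat_lit 152) (nat_lit 0) (XT.lf (nat_lit 0) (nat_lit 28039950691) (nat_lit 76) (nat_lit 14008373476) (nat_lit 76) (nat_lit 8667988587) (nat_lit 23) (nat_lit 4) (nat_lit 24) (nat_lit 5) (nat_lit 24) (nat_lit 4) (nat_lit 551) (nat_lit 360) (nat_lit 289)) (XT.lf (nat_lit 0) (nat_lit 2003841276) (nat_lit 76) (nat_lit 1624712640) (nat_lit 152) (nat_lit 48235020193) (nat_lit 21) (nat_lit 5) (nat_lit 22) (nat_lit 5) (nat_lit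 23) (nat_lit 4) (nat_lit 552) (nat_lit 360) (nat_lit 288))) (XT.nd (nat_lit 78) (nat_lit 0) (nat_lit 0) (XT.lf (nat_lit 0) (nat_lit 16384814037) (nat_lit 152) (nat_lit 25491534727) (nat_lit 0) (nat_lit 11158378787) (nat_lit 21) (nat_lit 5) (nat_lit 23) (nat_lit 4) (nat_lit 21) (nat_lit 4) (nat_lit 553) (nat_lit 360) (nat_lit 287)) (XT.lf (nat_lit 0) (nat_lit 29468773048) (nat_lit 152) (nat_lit 551448102) (nat_lit 0) (nat_lit 24222444186) (nat_lit 21) (nat_lit 5) (nat_lit 23) (nat_lit 4) (nat_lit 21) (nat_lit 4) (nat_lit 554) (nat_lit 360) (nat_lit 286))))))))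
noncomputable def xc23 : XT := (XT.nd (nat_lit 2418) (nat_lit 2356) (nat_lit 0) (XT.nd (nat_lit 1170) (nat_lit 1596) (nat_lit 0) (XT.nd (nat_lit 546) (nat_lit 1140) (nat_lit 0) (XT.nd (nat_lit 234) (nat_lit 532) (nat_lit 0) (XT.nd (nat_lit 78) (nat_lit 304) (nat_lit 0) (XT.lf (nat_lit 0) (nat_lit 1198977104) (nat_lit 228) (nat_lit 4224843649) (nat_lit 0) (nat_lit 1198977104) (nat_lit 110) (nat_lit 5) (nat_lit 113) (nat_lit 4) (nat_lit 110) (nat_lit 4) (nat_lit 478) (nat_lit 361) (nat_lit 361)) (XT.nd (nat_lit 78) (nat_lit 152) (nat_lit 0) (XT.lf (nat_lit 0) (nat_lit 3995699009) (nat_lit 152) (nat_lit 4917757319) (nat_lit 152) (nat_lit 4523959480) (nat_lit 108) (nat_lit 4) (nat_lit 110) (nat_lit 5) (nat_lit 110) (nat_lit 4) (nat_lit 479) (nat_lit 361) (nat_lit 360)) (XT.lf (nat_lit 0) (nat_lit 1943362522) (nat_lit 152) (nat_lit 10501430828) (nat_lit 0) (nat_lit 1189842291) (nat_lit 106) (nat_lit 5) (nat_lit 108)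 (nat_lit 4) (nat_lit 106) (nat_lit 4) (nat_lit 480) (nat_lit 361) (nat_lit 359)))) (XT.nd (nat_lit 156) (nat_lit 228) (nat_lit 0) (XT.nd (nat_lit 78) (nat_lit 152) (nat_lit 0) (XT.lf (nat_lit 0) (nat_lit 2139475642) (nat_lit 152) (nat_lit 6404967527) (nat_lit 152) (nat_lit 5291066487) (nat_lit 104) (nat_lit 4) (nat_lit 106) (nat_lit 5) (nat_lit 106) (nat_lit 4) (nat_lit 481) (nat_lit 361) (nat_lit 358)) (XT.lf (nat_lit 0) (nat_lit 1091320653) (nat_lit 76) (nat_lit 167352239) (nat_lit 152) (nat_lit 12783875525) (nat_lit 102) (nat_lit 5) (nat_lit 103) (nat_lit 5) (nat_lit 104) (nat_lit 4) (nat_lit 482) (nat_lit 361) (nat_lit 357))) (XT.nd (nat_lit 78) (nat_lit 228) (nat_lit 0) (XT.lf (nat_lit 0) (nat_lit 7943721563) (nat_lit 152) (nat_lit 116380236) (nat_lit 0) (nat_lit 6192771277) (nat_lit 102) (nat_lit 5) (nat_lit 104) (nat_lit 4) (nat_lit 102) (nat_lit 4) (nat_lit 483) (nat_lit 361) (nat_lit 356)) (XT.lf (nat_lit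 0) (nat_lit 350115599) (nat_lit 228) (nat_lit 1360409300) (nat_lit 76) (nat_lit 12758960273) (nat_lit 99) (nat_lit 5) (nat_lit 102) (nat_lit 5) (nat_lit 100) (nat_lit 4) (nat_lit 484) (nat_lit 361) (nat_lit 355))))) (XT.nd (nat_lit 312) (nat_lit 608) (nat_lit 0) (XT.nd (nat_lit 156) (nat_lit 304) (nat_lit 0) (XT.nd (nat_lit 78) (nat_lit 152) (nat_lit 0) (XT.lf (nat_lit 0) (nat_lit 7115492394) (nat_lit 152) (nat_lit 2771376401) (nat_lit 0) (nat_lit 4802859755) (nat_lit 98) (nat_lit 5) (nat_lit 100) (nat_lit 4) (nat_lit 98) (nat_lit 4) (nat_lit 485) (nat_lit 361) (nat_lit 354)) (XT.lf (nat_lit 0) (nat_lit 10652322680) (nat_lit 152) (nat_lit 3434905454) (nat_lit 152) (nat_lit 829250240) (nat_lit 96) (nat_lit 4) (nat_lit 98) (nat_lit 5) (nat_lit 98) (nat_lit 4) (nat_lit 486) (nat_lit 361) (nat_lit 353))) (XT.nd (nat_lit 78) (nat_lit 152) (nat_lit 0) (XT.lf (nat_lit 0) (nat_lit 6017846678) (nat_lit 152) (nat_lit 5917963833)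 (nat_lit 0) (nat_lit 3211882453) (nat_lit 94) (nat_lit 5) (nat_lit 96) (nat_lit 4) (nat_lit 94) (nat_lit 4) (nat_lit 487) (nat_lit 361) (nat_lit 352)) (XT.lf (nat_lit 0) (nat_lit 7692584887) (nat_lit 152) (nat_lit 5383235616) (nat_lit 152) (nat_lit 2309114225) (nat_lit 92) (nat_lit 4) (nat_lit 94) (nat_lit 5) (nat_lit 94) (nat_lit 4) (nat_lit 488) (nat_lit 361) (nat_lit 351)))) (XT.nd (nat_lit 156) (nat_lit 304) (nat_lit 0) (XT.nd (nat_lit 78) (nat_lit 152) (nat_lit 0) (XT.lf (nat_lit 0) (nat_lit 4627001610) (nat_lit 152) (nat_lit 9611195334) (nat_lit 0) (nat_lit 1389653887) (nat_lit 90) (nat_lit 5) (nat_lit 92) (nat_lit 4) (nat_lit 90) (nat_lit 4) (nat_lit 489) (nat_lit 361) (nat_lit 350)) (XT.lf (nat_lit 0) (nat_lit 4176838780) (nat_lit 152) (nat_lit 7590994441) (nat_lit 152) (nat_lit 4108244924) (nat_lit 88) (nat_lit 4) (nat_lit 90) (nat_lit 5) (nat_lit 90) (nat_lit 4) (nat_lit 490) (nat_lit 361) (nat_lit 349)))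 (XT.nd (nat_lit 78) (nat_lit 152) (nat_lit 0) (XT.lf (nat_lit 0) (nat_lit 2213398672) (nat_lit 76) (nat_lit 709952243) (nat_lit 152) (nat_lit 13207822192) (nat_lit 86) (nat_lit 5) (nat_lit 87) (nat_lit 5) (nat_lit 88) (nat_lit 4) (nat_lit 491) (nat_lit 361) (nat_lit 348)) (XT.lf (nat_lit 0) (nat_lit 43512928) (nat_lit 152) (nat_lit 10092406497) (nat_lit 152) (nat_lit 6255204153) (nat_lit 84) (nat_lit 4) (nat_lit 86) (nat_lit 5) (nat_lit 86) (nat_lit 4) (nat_lit 492) (nat_lit 361) (nat_lit 347)))))) (XT.nd (nat_lit 624) (nat_lit 760) (nat_lit 0) (XT.nd (nat_lit 312) (nat_lit 380) (nat_lit 0) (XT.nd (nat_lit 156) (nat_lit 304) (nat_lit 0) (XT.nd (nat_lit 78) (nat_lit 76) (nat_lit 0) (XT.lf (nat_lit 0) (nat_lit 908971364) (nat_lit 228) (nat_lit 2210026788) (nat_lit 76) (nat_lit 13538994175) (nat_lit 83) (nat_lit 5) (nat_lit 86) (nat_lit 5) (nat_lit 84) (nat_lit 4) (nat_lit 493) (nat_lit 361) (nat_lit 346)) (XT.lf (nat_lit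 0) (nat_lit 8195651282) (nat_lit 152) (nat_lit 4681353321) (nat_lit 0) (nat_lit 4053006231) (nat_lit 82) (nat_lit 5) (nat_lit 84) (nat_lit 4) (nat_lit 82) (nat_lit 4) (nat_lit 494) (nat_lit 361) (nat_lit 345))) (XT.nd (nat_lit 78) (nat_lit 152) (nat_lit 0) (XT.lf (nat_lit 0) (nat_lit 9898716847) (nat_lit 152) (nat_lit 5826462753) (nat_lit 152) (nat_lit 1484283586) (nat_lit 80) (nat_lit 4) (nat_lit 82) (nat_lit 5) (nat_lit 82) (nat_lit 4) (nat_lit 495) (nat_lit 361) (nat_lit 344)) (XT.lf (nat_lit 0) (nat_lit 5875262467) (nat_lit 152) (nat_lit 10148575680) (nat_lit 0) (nat_lit 1471474497) (nat_lit 78) (nat_lit 5) (nat_lit 80) (nat_lit 4) (nat_lit 78) (nat_lit 4) (nat_lit 496) (nat_lit 361) (nat_lit 343)))) (XT.nd (nat_lit 156) (nat_lit 152) (nat_lit 0) (XT.nd (nat_lit 78) (nat_lit 152) (nat_lit 0) (XT.lf (nat_lit 0) (nat_lit 4582014421) (nat_lit 76) (nat_lit 8896051893) (nat_lit 76) (nat_lit 4309661942) (nat_lit 77)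 (nat_lit 4) (nat_lit 78) (nat_lit 5) (nat_lit 78) (nat_lit 4) (nat_lit 497) (nat_lit 361) (nat_lit 342)) (XT.lf (nat_lit 0) (nat_lit 1635997531) (nat_lit 76) (nat_lit 1516549739) (nat_lit 152) (nat_lit 14935580792) (nat_lit 75) (nat_lit 5) (nat_lit 76) (nat_lit 5) (nat_lit 77) (nat_lit 4) (nat_lit 498) (nat_lit 361) (nat_lit 341))) (XT.nd (nat_lit 78) (nat_lit 152) (nat_lit 0) (XT.lf (nat_lit 0) (nat_lit 10821488155) (nat_lit 152) (nat_lit 1543231847) (nat_lit 0) (nat_lit 6029455816) (nat_lit 75) (nat_lit 5) (nat_lit 77) (nat_lit 4) (nat_lit 75) (nat_lit 4) (nat_lit 499) (nat_lit 361) (nat_lit 340)) (XT.lf (nat_lit 0) (nat_lit 39076939) (nat_lit 152) (nat_lit 4874945648) (nat_lit 76) (nat_lit 13794533763) (nat_lit 73) (nat_lit 5) (nat_lit 75) (nat_lit 5) (nat_lit 74) (nat_lit 4) (nat_lit 500) (nat_lit 361) (nat_lit 339))))) (XT.nd (nat_lit 312) (nat_lit 456) (nat_lit 0) (XT.nd (nat_lit 156) (nat_lit 152) (nat_lit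 0) (XT.nd (nat_lit 78) (nat_lit 76) (nat_lit 0) (XT.lf (nat_lit 0) (nat_lit 7751685440) (nat_lit 152) (nat_lit 8488906773) (nat_lit 0) (nat_lit 2788786499) (nat_lit 72) (nat_lit 5) (nat_lit 74) (nat_lit 4) (nat_lit 72) (nat_lit 4) (nat_lit 501) (nat_lit 361) (nat_lit 338)) (XT.lf (nat_lit 0) (nat_lit 7013510252) (nat_lit 76) (nat_lit 8728153673) (nat_lit 76) (nat_lit 3616782611) (nat_lit 71) (nat_lit 4) (nat_lit 72) (nat_lit 5) (nat_lit 72) (nat_lit 4) (nat_lit 502) (nat_lit 361) (nat_lit 337))) (XT.nd (nat_lit 78) (nat_lit 0) (nat_lit 0) (XT.lf (nat_lit 0) (nat_lit 3247405600) (nat_lit 76) (nat_lit 941227085) (nat_lit 152) (nat_lit 15507579379) (nat_lit 69) (nat_lit 5) (nat_lit 70) (nat_lit 5) (nat_lit 71) (nat_lit 4) (nat_lit 503) (nat_lit 361) (nat_lit 336)) (XT.lf (nat_lit 0) (nat_lit 12229919034) (nat_lit 152) (nat_lit 819285041) (nat_lit 0) (nat_lit 6991600620) (nat_lit 69) (nat_lit 5) (nat_lit 71) (nat_lit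 4) (nat_lit 69) (nat_lit 4) (nat_lit 504) (nat_lit 361) (nat_lit 335)))) (XT.nd (nat_lit 156) (nat_lit 228) (nat_lit 0) (XT.nd (nat_lit 78) (nat_lit 76) (nat_lit 0) (XT.lf (nat_lit 0) (nat_lit 155565840) (nat_lit 152) (nat_lit 5054435315) (nat_lit 76) (nat_lit 15184466731) (nat_lit 67) (nat_lit 5) (nat_lit 69) (nat_lit 5) (nat_lit 68) (nat_lit 4) (nat_lit 505) (nat_lit 361) (nat_lit 334)) (XT.lf (nat_lit 0) (nat_lit 8231991237) (nat_lit 152) (nat_lit 9629762200) (nat_lit 0) (nat_lit 2893828783) (nat_lit 66) (nat_lit 5) (nat_lit 68) (nat_lit 4) (nat_lit 66) (nat_lit 4) (nat_lit 506) (nat_lit 361) (nat_lit 333))) (XT.nd (nat_lit 78) (nat_lit 152) (nat_lit 0) (XT.lf (nat_lit 0) (nat_lit 6618358392) (nat_lit 76) (nat_lit 9983264257) (nat_lit 76) (nat_lit 4524380381) (nat_lit 65) (nat_lit 4) (nat_lit 66) (nat_lit 5) (nat_lit 66) (nat_lit 4) (nat_lit 507) (nat_lit 361) (nat_lit 332)) (XT.lf (nat_lit 0) (nat_lit 1817634494)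 (nat_lit 76) (nat_lit 1824593896) (nat_lit 152) (nat_lit 17864239888) (nat_lit 63) (nat_lit 5) (nat_lit 64) (nat_lit 5) (nat_lit 65) (nat_lit 4) (nat_lit 508) (nat_lit 361) (nat_lit 331))))))) (XT.nd (nat_lit 1248) (nat_lit 1140) (nat_lit 0) (XT.nd (nat_lit 624) (nat_lit 532) (nat_lit 0) (XT.nd (nat_lit 312) (nat_lit 380) (nat_lit 0) (XT.nd (nat_lit 156) (nat_lit 228) (nat_lit 0) (XT.nd (nat_lit 78) (nat_lit 76) (nat_lit 0) (XT.lf (nat_lit 0) (nat_lit 12058458524) (nat_lit 152) (nat_lit 3301376182) (nat_lit 0) (nat_lit 6534302546) (nat_lit 63) (nat_lit 5) (nat_lit 65) (nat_lit 4) (nat_lit 63) (nat_lit 4) (nat_lit 509) (nat_lit 361) (nat_lit 330)) (XT.lf (nat_lit 0) (nat_lit 13603736571) (nat_lit 76) (nat_lit 7160009205) (nat_lit 76) (nat_lit 1528593808) (nat_lit 62) (nat_lit 4) (nat_lit 63) (nat_lit 5) (nat_lit 63) (nat_lit 4) (nat_lit 510) (nat_lit 361) (nat_lit 329))) (XT.nd (nat_lit 78) (nat_lit 76) (nat_lit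 0) (XT.lf (nat_lit 0) (nat_lit 6904475055) (nat_lit 152) (nat_lit 14459590269) (nat_lit 0) (nat_lit 1335979176) (nat_lit 60) (nat_lit 5) (nat_lit 62) (nat_lit 4) (nat_lit 60) (nat_lit 4) (nat_lit 511) (nat_lit 361) (nat_lit 328)) (XT.lf (nat_lit 0) (nat_lit 2478059141) (nat_lit 76) (nat_lit 13152992019) (nat_lit 76) (nat_lit 7486338576) (nat_lit 59) (nat_lit 4) (nat_lit 60) (nat_lit 5) (nat_lit 60) (nat_lit 4) (nat_lit 512) (nat_lit 361) (nat_lit 327)))) (XT.nd (nat_lit 156) (nat_lit 228) (nat_lit 0) (XT.nd (nat_lit 78) (nat_lit 76) (nat_lit 0) (XT.lf (nat_lit 0) (nat_lit 1086683690) (nat_lit 152) (nat_lit 3555984155) (nat_lit 76) (nat_lit 18903215541) (nat_lit 58) (nat_lit 5) (nat_lit 60) (nat_lit 5) (nat_lit 59) (nat_lit 4) (nat_lit 513) (nat_lit 361) (nat_lit 326)) (XT.lf (nat_lit 0) (nat_lit 9833156765) (nat_lit 152) (nat_lit 10000649413) (nat_lit 0) (nat_lit 4149200489) (nat_lit 57) (nat_lit 5) (nat_lit 59)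 (nat_lit 4) (nat_lit 57) (nat_lit 4) (nat_lit 514) (nat_lit 361) (nat_lit 325))) (XT.nd (nat_lit 78) (nat_lit 152) (nat_lit 0) (XT.lf (nat_lit 0) (nat_lit 7573790815) (nat_lit 76) (nat_lit 11314614850) (nat_lit 76) (nat_lit 5543446850) (nat_lit 56) (nat_lit 4) (nat_lit 57) (nat_lit 5) (nat_lit 57) (nat_lit 4) (nat_lit 515) (nat_lit 361) (nat_lit 324)) (XT.lf (nat_lit 0) (nat_lit 755851585) (nat_lit 76) (nat_lit 2501139134) (nat_lit 152) (nat_lit 21636196075) (nat_lit 54) (nat_lit 5) (nat_lit 55) (nat_lit 5) (nat_lit 56) (nat_lit 4) (nat_lit 516) (nat_lit 361) (nat_lit 323))))) (XT.nd (nat_lit 312) (nat_lit 304) (nat_lit 0) (XT.nd (nat_lit 156) (nat_lit 152) (nat_lit 0) (XT.nd (nat_lit 78) (nat_lit 76) (nat_lit 0) (XT.lf (nat_lit 0) (nat_lit 12336657283) (nat_lit 152) (nat_lit 6454693472) (nat_lit 0) (nat_lit 6571565060) (nat_lit 54) (nat_lit 5) (nat_lit 56) (nat_lit 4) (nat_lit 54) (nat_lit 4) (nat_lit 517) (nat_lit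 361) (nat_lit 322)) (XT.lf (nat_lit 0) (nat_lit 11753893859) (nat_lit 76) (nat_lit 9967224848) (nat_lit 76) (nat_lit 4124646139) (nat_lit 53) (nat_lit 4) (nat_lit 54) (nat_lit 5) (nat_lit 54) (nat_lit 4) (nat_lit 518) (nat_lit 361) (nat_lit 321))) (XT.nd (nat_lit 78) (nat_lit 0) (nat_lit 0) (XT.lf (nat_lit 0) (nat_lit 4122037705) (nat_lit 76) (nat_lit 823699247) (nat_lit 152) (nat_lit 21395903602) (nat_lit 51) (nat_lit 5) (nat_lit 52) (nat_lit 5) (nat_lit 53) (nat_lit 4) (nat_lit 519) (nat_lit 361) (nat_lit 320)) (XT.lf (nat_lit 0) (nat_lit 14326438845) (nat_lit 152) (nat_lit 4011012774) (nat_lit 0) (nat_lit 8510082773) (nat_lit 51) (nat_lit 5) (nat_lit 53) (nat_lit 4) (nat_lit 51) (nat_lit 4) (nat_lit 520) (nat_lit 361) (nat_lit 319)))) (XT.nd (nat_lit 156) (nat_lit 76) (nat_lit 0) (XT.nd (nat_lit 78) (nat_lit 152) (nat_lit 0) (XT.lf (nat_lit 0) (nat_lit 14821736684) (nat_lit 76) (nat_lit 9215307969) (nat_lit 76)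 (nat_lit 3330106157) (nat_lit 50) (nat_lit 4) (nat_lit 51) (nat_lit 5) (nat_lit 51) (nat_lit 4) (nat_lit 521) (nat_lit 361) (nat_lit 318)) (XT.lf (nat_lit 0) (nat_lit 6018185830) (nat_lit 152) (nat_lit 21642856903) (nat_lit 0) (nat_lit 239503951) (nat_lit 48) (nat_lit 5) (nat_lit 50) (nat_lit 4) (nat_lit 48) (nat_lit 4) (nat_lit 522) (nat_lit 361) (nat_lit 317))) (XT.nd (nat_lit 78) (nat_lit 76) (nat_lit 0) (XT.lf (nat_lit 0) (nat_lit 15697142797) (nat_lit 152) (nat_lit 2892840972) (nat_lit 0) (nat_lit 9855457313) (nat_lit 48) (nat_lit 5) (nat_lit 50) (nat_lit 4) (nat_lit 48) (nat_lit 4) (nat_lit 523) (nat_lit 361) (nat_lit 316)) (XT.lf (nat_lit 0) (nat_lit 16545165934) (nat_lit 76) (nat_lit 9181285572) (nat_lit 76) (nat_lit 3278431540) (nat_lit 47) (nat_lit 4) (nat_lit 48) (nat_lit 5) (nat_lit 48) (nat_lit 4) (nat_lit 524) (nat_lit 361) (nat_lit 315)))))) (XT.nd (nat_lit 624) (nat_lit 532) (nat_lit 0) (XT.nd (nat_lit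 312) (nat_lit 228) (nat_lit 0) (XT.nd (nat_lit 156) (nat_lit 228) (nat_lit 0) (XT.nd (nat_lit 78) (nat_lit 0) (nat_lit 0) (XT.lf (nat_lit 0) (nat_lit 6351692529) (nat_lit 152) (nat_lit 22664363819) (nat_lit 0) (nat_lit 563109061) (nat_lit 45) (nat_lit 5) (nat_lit 47) (nat_lit 4) (nat_lit 45) (nat_lit 4) (nat_lit 525) (nat_lit 361) (nat_lit 314)) (XT.lf (nat_lit 0) (nat_lit 16323840242) (nat_lit 152) (nat_lit 3363013134) (nat_lit 0) (nat_lit 10479278887) (nat_lit 45) (nat_lit 5) (nat_lit 47) (nat_lit 4) (nat_lit 45) (nat_lit 4) (nat_lit 526) (nat_lit 361) (nat_lit 313))) (XT.nd (nat_lit 78) (nat_lit 152) (nat_lit 0) (XT.lf (nat_lit 0) (nat_lit 16650572235) (nat_lit 76) (nat_lit 10008562713) (nat_lit 76) (nat_lit 4109653896) (nat_lit 44) (nat_lit 4) (nat_lit 45) (nat_lit 5) (nat_lit 45) (nat_lit 4) (nat_lit 527) (nat_lit 361) (nat_lit 312)) (XT.lf (nat_lit 0) (nat_lit 5793791201) (nat_lit 152) (nat_lit 25578733295)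 (nat_lit 0) (nat_lit 15467565) (nat_lit 42) (nat_lit 5) (nat_lit 44) (nat_lit 4) (nat_lit 42) (nat_lit 4) (nat_lit 528) (nat_lit 361) (nat_lit 311)))) (XT.nd (nat_lit 156) (nat_lit 152) (nat_lit 0) (XT.nd (nat_lit 78) (nat_lit 76) (nat_lit 0) (XT.lf (nat_lit 0) (nat_lit 16058831788) (nat_lit 152) (nat_lit 5730533791) (nat_lit 0) (nat_lit 10230772525) (nat_lit 42) (nat_lit 5) (nat_lit 44) (nat_lit 4) (nat_lit 42) (nat_lit 4) (nat_lit 529) (nat_lit 361) (nat_lit 310)) (XT.lf (nat_lit 0) (nat_lit 14816000436) (nat_lit 76) (nat_lit 11865058740) (nat_lit 76) (nat_lit 5988712461) (nat_lit 41) (nat_lit 4) (nat_lit 42) (nat_lit 5) (nat_lit 42) (nat_lit 4) (nat_lit 530) (nat_lit 361) (nat_lit 309))) (XT.nd (nat_lit 78) (nat_lit 0) (nat_lit 0) (XT.lf (nat_lit 0) (nat_lit 2581622038) (nat_lit 76) (nat_lit 1607958708) (nat_lit 152) (nat_lit 29148375473) (nat_lit 39) (nat_lit 5) (nat_lit 40) (nat_lit 5) (nat_lit 41) (nat_lit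 4) (nat_lit 531) (nat_lit 361) (nat_lit 308)) (XT.lf (nat_lit 0) (nat_lit 14727924746) (nat_lit 152) (nat_lit 10358201273) (nat_lit 0) (nat_lit 8933029579) (nat_lit 39) (nat_lit 5) (nat_lit 41) (nat_lit 4) (nat_lit 39) (nat_lit 4) (nat_lit 532) (nat_lit 361) (nat_lit 307))))) (XT.nd (nat_lit 312) (nat_lit 228) (nat_lit 0) (XT.nd (nat_lit 156) (nat_lit 152) (nat_lit 0) (XT.nd (nat_lit 78) (nat_lit 76) (nat_lit 0) (XT.lf (nat_lit 0) (nat_lit 10663150664) (nat_lit 76) (nat_lit 14947298552) (nat_lit 76) (nat_lit 9109500996) (nat_lit 38) (nat_lit 4) (nat_lit 39) (nat_lit 5) (nat_lit 39) (nat_lit 4) (nat_lit 533) (nat_lit 361) (nat_lit 306)) (XT.lf (nat_lit 0) (nat_lit 1366064388) (nat_lit 152) (nat_lit 3106339653) (nat_lit 76) (nat_lit 30968509465) (nat_lit 37) (nat_lit 5) (nat_lit 39) (nat_lit 5) (nat_lit 38) (nat_lit 4) (nat_lit 534) (nat_lit 361) (nat_lit 305))) (XT.nd (nat_lit 78) (nat_lit 76) (nat_lit 0) (XT.lf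 (nat_lit 0) (nat_lit 12126104555) (nat_lit 152) (nat_lit 17671457943) (nat_lit 0) (nat_lit 6378638557) (nat_lit 36) (nat_lit 5) (nat_lit 38) (nat_lit 4) (nat_lit 36) (nat_lit 4) (nat_lit 535) (nat_lit 361) (nat_lit 304)) (XT.lf (nat_lit 0) (nat_lit 3748092061) (nat_lit 76) (nat_lit 19485155242) (nat_lit 76) (nat_lit 13699571027) (nat_lit 35) (nat_lit 4) (nat_lit 36) (nat_lit 5) (nat_lit 36) (nat_lit 4) (nat_lit 536) (nat_lit 361) (nat_lit 303)))) (XT.nd (nat_lit 156) (nat_lit 76) (nat_lit 0) (XT.nd (nat_lit 78) (nat_lit 152) (nat_lit 0) (XT.lf (nat_lit 0) (nat_lit 25998514524) (nat_lit 76) (nat_lit 8766731340) (nat_lit 76) (nat_lit 2944139148) (nat_lit 35) (nat_lit 4) (nat_lit 36) (nat_lit 5) (nat_lit 36) (nat_lit 4) (nat_lit 537) (nat_lit 361) (nat_lit 302)) (XT.lf (nat_lit 0) (nat_lit 8012503892) (nat_lit 152) (nat_lit 28168662951) (nat_lit 0) (nat_lit 2324618195) (nat_lit 33) (nat_lit 5) (nat_lit 35) (nat_lit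 4) (nat_lit 33) (nat_lit 4) (nat_lit 538) (nat_lit 361) (nat_lit 301))) (XT.nd (nat_lit 78) (nat_lit 76) (nat_lit 0) (XT.lf (nat_lit 0) (nat_lit 19359828621) (nat_lit 152) (nat_lit 6323663987) (nat_lit 0) (nat_lit 13638075383) (nat_lit 33) (nat_lit 5) (nat_lit 35) (nat_lit 4) (nat_lit 33) (nat_lit 4) (nat_lit 539) (nat_lit 361) (nat_lit 300)) (XT.lf (nat_lit 0) (nat_lit 16329675181) (nat_lit 76) (nat_lit 14792276185) (nat_lit 76) (nat_lit 9037641838) (nat_lit 32) (nat_lit 4) (nat_lit 33) (nat_lit 5) (nat_lit 33) (nat_lit 4) (nat_lit 540) (nat_lit 361) (nat_lit 299))))))))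
noncomputable def xc24 : XT := (XT.nd (nat_lit 58734) (nat_lit 0) (nat_lit 2052) (XT.nd (nat_lit 57486) (nat_lit 0) (nat_lit 4940) (XT.nd (nat_lit 546) (nat_lit 380) (nat_lit 0) (XT.nd (nat_lit 234) (nat_lit 228) (nat_lit 0) (XT.nd (nat_lit 78) (nat_lit 152) (nat_lit 0) (XT.lf (nat_lit 0) (nat_lit 2152887449) (nat_lit 152) (nat_lit 1416196231) (nat_lit 76) (nat_lit 37453579624) (nat_lit 31) (nat_lit 5) (nat_lit 33) (nat_lit 5) (nat_lit 32) (nat_lit 4) (nat_lit 541) (nat_lit 361) (nat_lit 298)) (XT.nd (nat_lit 78) (nat_lit 76) (nat_lit 0) (XT.lf (nat_lit 0) (nat_lit 13706314711) (nat_lit 152) (nat_lit 20138154964) (nat_lit 0) (nat_lit 8058206602) (nat_lit 30) (nat_lit 5) (nat_lit 32) (nat_lit 4) (nat_lit 30) (nat_lit 4) (nat_lit 542) (nat_lit 361) (nat_lit 297)) (XT.lf (nat_lit 0) (nat_lit 2717693186) (nat_lit 76) (nat_lit 22884422983) (nat_lit 76) (nat_lit 17207100435) (nat_lit 29) (nat_lit 4) (nat_lit 30) (nat_lit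 5) (nat_lit 30) (nat_lit 4) (nat_lit 543) (nat_lit 361) (nat_lit 296)))) (XT.nd (nat_lit 156) (nat_lit 76) (nat_lit 0) (XT.nd (nat_lit 78) (nat_lit 152) (nat_lit 0) (XT.lf (nat_lit 0) (nat_lit 26512716424) (nat_lit 76) (nat_lit 11466101064) (nat_lit 76) (nat_lit 5760414983) (nat_lit 29) (nat_lit 4) (nat_lit 30) (nat_lit 5) (nat_lit 30) (nat_lit 4) (nat_lit 544) (nat_lit 361) (nat_lit 295)) (XT.lf (nat_lit 0) (nat_lit 5897379294) (nat_lit 152) (nat_lit 38467326831) (nat_lit 0) (nat_lit 331142894) (nat_lit 27) (nat_lit 5) (nat_lit 29) (nat_lit 4) (nat_lit 27) (nat_lit 4) (nat_lit 545) (nat_lit 361) (nat_lit 294))) (XT.nd (nat_lit 78) (nat_lit 76) (nat_lit 0) (XT.lf (nat_lit 0) (nat_lit 18000580493) (nat_lit 152) (nat_lit 15264141657) (nat_lit 0) (nat_lit 12408387442) (nat_lit 27) (nat_lit 5) (nat_lit 29) (nat_lit 4) (nat_lit 27) (nat_lit 4) (nat_lit 546) (nat_lit 361) (nat_lit 293)) (XT.lf (nat_lit 0) (nat_lit 8652274563)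 (nat_lit 76) (nat_lit 21822288320) (nat_lit 76) (nat_lit 16204894637) (nat_lit 26) (nat_lit 4) (nat_lit 27) (nat_lit 5) (nat_lit 27) (nat_lit 4) (nat_lit 547) (nat_lit 361) (nat_lit 292))))) (XT.nd (nat_lit 312) (nat_lit 152) (nat_lit 0) (XT.nd (nat_lit 156) (nat_lit 76) (nat_lit 0) (XT.nd (nat_lit 78) (nat_lit 152) (nat_lit 0) (XT.lf (nat_lit 0) (nat_lit 33448868932) (nat_lit 76) (nat_lit 9953302579) (nat_lit 76) (nat_lit 4311442262) (nat_lit 26) (nat_lit 4) (nat_lit 27) (nat_lit 5) (nat_lit 27) (nat_lit 4) (nat_lit 548) (nat_lit 361) (nat_lit 291)) (XT.lf (nat_lit 0) (nat_lit 7831388119) (nat_lit 152) (nat_lit 38612900935) (nat_lit 0) (nat_lit 2330791683) (nat_lit 24) (nat_lit 5) (nat_lit 26) (nat_lit 4) (nat_lit 24) (nat_lit 4) (nat_lit 549) (nat_lit 361) (nat_lit 290))) (XT.nd (nat_lit 78) (nat_lit 76) (nat_lit 0) (XT.lf (nat_lit 0) (nat_lit 20422621851) (nat_lit 152) (nat_lit 14539731110) (nat_lit 0) (nat_lit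 14899634980) (nat_lit 24) (nat_lit 5) (nat_lit 26) (nat_lit 4) (nat_lit 24) (nat_lit 4) (nat_lit 550) (nat_lit 361) (nat_lit 289)) (XT.lf (nat_lit 0) (nat_lit 10313860440) (nat_lit 76) (nat_lit 23105763115) (nat_lit 76) (nat_lit 17561037958) (nat_lit 23) (nat_lit 4) (nat_lit 24) (nat_lit 5) (nat_lit 24) (nat_lit 4) (nat_lit 551) (nat_lit 361) (nat_lit 288)))) (XT.nd (nat_lit 156) (nat_lit 0) (nat_lit 0) (XT.nd (nat_lit 78) (nat_lit 152) (nat_lit 0) (XT.lf (nat_lit 0) (nat_lit 36069478327) (nat_lit 76) (nat_lit 10813477360) (nat_lit 76) (nat_lit 5247647070) (nat_lit 23) (nat_lit 4) (nat_lit 24) (nat_lit 5) (nat_lit 24) (nat_lit 4) (nat_lit 552) (nat_lit 361) (nat_lit 287)) (XT.lf (nat_lit 0) (nat_lit 7328652081) (nat_lit 152) (nat_lit 44078048564) (nat_lit 0) (nat_lit 1905039741) (nat_lit 21) (nat_lit 5) (nat_lit 23) (nat_lit 4) (nat_lit 21) (nat_lit 4) (nat_lit 553) (nat_lit 361) (nat_lit 286))) (XT.nd (nat_lit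 56394) (nat_lit 0) (nat_lit 7144) (XT.lf (nat_lit 0) (nat_lit 20378618469) (nat_lit 152) (nat_lit 19206387574) (nat_lit 0) (nat_lit 14935691943) (nat_lit 21) (nat_lit 5) (nat_lit 23) (nat_lit 4) (nat_lit 21) (nat_lit 4) (nat_lit 554) (nat_lit 361) (nat_lit 285)) (XT.lf (nat_lit 0) (nat_lit 1560290063) (nat_lit 228) (nat_lit 3315764763) (nat_lit 0) (nat_lit 1560290063) (nat_lit 115) (nat_lit 5) (nat_lit 118) (nat_lit 4) (nat_lit 115) (nat_lit 4) (nat_lit 476) (nat_lit 362) (nat_lit 362)))))) (XT.nd (nat_lit 624) (nat_lit 988) (nat_lit 0) (XT.nd (nat_lit 312) (nat_lit 532) (nat_lit 0) (XT.nd (nat_lit 156) (nat_lit 304) (nat_lit 0) (XT.nd (nat_lit 78) (nat_lit 228) (nat_lit 0) (XT.lf (nat_lit 0) (nat_lit 5494094607) (nat_lit 152) (nat_lit 3990725488) (nat_lit 152) (nat_lit 3572945361) (nat_lit 113) (nat_lit 4) (nat_lit 115) (nat_lit 5) (nat_lit 115) (nat_lit 4) (nat_lit 477) (nat_lit 362) (nat_lit 361)) (XT.lf (nat_lit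 0) (nat_lit 2736793765) (nat_lit 228) (nat_lit 8573421675) (nat_lit 0) (nat_lit 1937384151) (nat_lit 110) (nat_lit 5) (nat_lit 113) (nat_lit 4) (nat_lit 110) (nat_lit 4) (nat_lit 478) (nat_lit 362) (nat_lit 360))) (XT.nd (nat_lit 78) (nat_lit 152) (nat_lit 0) (XT.lf (nat_lit 0) (nat_lit 3746980780) (nat_lit 152) (nat_lit 5438096878) (nat_lit 152) (nat_lit 4256359265) (nat_lit 108) (nat_lit 4) (nat_lit 110) (nat_lit 5) (nat_lit 110) (nat_lit 4) (nat_lit 479) (nat_lit 362) (nat_lit 359)) (XT.lf (nat_lit 0) (nat_lit 2131794662) (nat_lit 152) (nat_lit 10884908177) (nat_lit 0) (nat_lit 624095783) (nat_lit 106) (nat_lit 5) (nat_lit 108) (nat_lit 4) (nat_lit 106) (nat_lit 4) (nat_lit 480) (nat_lit 362) (nat_lit 358)))) (XT.nd (nat_lit 156) (nat_lit 228) (nat_lit 0) (XT.nd (nat_lit 78) (nat_lit 152) (nat_lit 0) (XT.lf (nat_lit 0) (nat_lit 1625516115) (nat_lit 152) (nat_lit 7037911867) (nat_lit 152) (nat_lit 5180328708)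 (nat_lit 104) (nat_lit 4) (nat_lit 106) (nat_lit 5) (nat_lit 106) (nat_lit 4) (nat_lit 481) (nat_lit 362) (nat_lit 357)) (XT.lf (nat_lit 0) (nat_lit 434681745) (nat_lit 76) (nat_lit 861849475) (nat_lit 152) (nat_lit 12756354448) (nat_lit 102) (nat_lit 5) (nat_lit 103) (nat_lit 5) (nat_lit 104) (nat_lit 4) (nat_lit 482) (nat_lit 362) (nat_lit 356))) (XT.nd (nat_lit 78) (nat_lit 228) (nat_lit 0) (XT.lf (nat_lit 0) (nat_lit 7910690484) (nat_lit 152) (nat_lit 897428585) (nat_lit 0) (nat_lit 5457218518) (nat_lit 102) (nat_lit 5) (nat_lit 104) (nat_lit 4) (nat_lit 102) (nat_lit 4) (nat_lit 483) (nat_lit 362) (nat_lit 355)) (XT.lf (nat_lit 0) (nat_lit 233652945) (nat_lit 228) (nat_lit 2290024137) (nat_lit 76) (nat_lit 11960441912) (nat_lit 99) (nat_lit 5) (nat_lit 102) (nat_lit 5) (nat_lit 100) (nat_lit 4) (nat_lit 484) (nat_lit 362) (nat_lit 354))))) (XT.nd (nat_lit 312) (nat_lit 456) (nat_lit 0) (XT.nd (nat_lit 156)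 (nat_lit 304) (nat_lit 0) (XT.nd (nat_lit 78) (nat_lit 152) (nat_lit 0) (XT.lf (nat_lit 0) (nat_lit 6918064106) (nat_lit 152) (nat_lit 3847511105) (nat_lit 0) (nat_lit 3941216660) (nat_lit 98) (nat_lit 5) (nat_lit 100) (nat_lit 4) (nat_lit 98) (nat_lit 4) (nat_lit 485) (nat_lit 362) (nat_lit 353)) (XT.lf (nat_lit 0) (nat_lit 9434939016) (nat_lit 152) (nat_lit 4381076060) (nat_lit 152) (nat_lit 1119740675) (nat_lit 96) (nat_lit 4) (nat_lit 98) (nat_lit 5) (nat_lit 98) (nat_lit 4) (nat_lit 486) (nat_lit 362) (nat_lit 352))) (XT.nd (nat_lit 78) (nat_lit 152) (nat_lit 0) (XT.lf (nat_lit 0) (nat_lit 5647986091) (nat_lit 152) (nat_lit 7308135772) (nat_lit 0) (nat_lit 2213483892) (nat_lit 94) (nat_lit 5) (nat_lit 96) (nat_lit 4) (nat_lit 94) (nat_lit 4) (nat_lit 487) (nat_lit 362) (nat_lit 351)) (XT.lf (nat_lit 0) (nat_lit 6154669274) (nat_lit 152) (nat_lit 6474663250) (nat_lit 152) (nat_lit 2779814287) (nat_lit 92) (nat_lit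 4) (nat_lit 94) (nat_lit 5) (nat_lit 94) (nat_lit 4) (nat_lit 488) (nat_lit 362) (nat_lit 350)))) (XT.nd (nat_lit 156) (nat_lit 152) (nat_lit 0) (XT.nd (nat_lit 78) (nat_lit 152) (nat_lit 0) (XT.lf (nat_lit 0) (nat_lit 4076054028) (nat_lit 152) (nat_lit 11335407814) (nat_lit 0) (nat_lit 243420231) (nat_lit 90) (nat_lit 5) (nat_lit 92) (nat_lit 4) (nat_lit 90) (nat_lit 4) (nat_lit 489) (nat_lit 362) (nat_lit 349)) (XT.lf (nat_lit 0) (nat_lit 2298010577) (nat_lit 152) (nat_lit 8839188896) (nat_lit 152) (nat_lit 4768300930) (nat_lit 88) (nat_lit 4) (nat_lit 90) (nat_lit 5) (nat_lit 90) (nat_lit 4) (nat_lit 490) (nat_lit 362) (nat_lit 348))) (XT.nd (nat_lit 78) (nat_lit 0) (nat_lit 0) (XT.lf (nat_lit 0) (nat_lit 153270417) (nat_lit 76) (nat_lit 2041543922) (nat_lit 152) (nat_lit 13968412597) (nat_lit 86) (nat_lit 5) (nat_lit 87) (nat_lit 5) (nat_lit 88) (nat_lit 4) (nat_lit 491) (nat_lit 362) (nat_lit 347)) (XT.lf (nat_lit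 0) (nat_lit 9332738546) (nat_lit 152) (nat_lit 2154872173) (nat_lit 0) (nat_lit 4937806411) (nat_lit 86) (nat_lit 5) (nat_lit 88) (nat_lit 4) (nat_lit 86) (nat_lit 4) (nat_lit 492) (nat_lit 362) (nat_lit 346))))))) (XT.nd (nat_lit 1170) (nat_lit 1292) (nat_lit 0) (XT.nd (nat_lit 546) (nat_lit 760) (nat_lit 0) (XT.nd (nat_lit 234) (nat_lit 380) (nat_lit 0) (XT.nd (nat_lit 78) (nat_lit 228) (nat_lit 0) (XT.lf (nat_lit 0) (nat_lit 5140249) (nat_lit 228) (nat_lit 4596183170) (nat_lit 76) (nat_lit 12093685305) (nat_lit 83) (nat_lit 5) (nat_lit 86) (nat_lit 5) (nat_lit 84) (nat_lit 4) (nat_lit 493) (nat_lit 362) (nat_lit 345)) (XT.nd (nat_lit 78) (nat_lit 152) (nat_lit 0) (XT.lf (nat_lit 0) (nat_lit 7192702694) (nat_lit 152) (nat_lit 7256574385) (nat_lit 0) (nat_lit 2520724036) (nat_lit 82) (nat_lit 5) (nat_lit 84) (nat_lit 4) (nat_lit 82) (nat_lit 4) (nat_lit 494) (nat_lit 362) (nat_lit 344)) (XT.lf (nat_lit 0) (nat_lit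 7155066088) (nat_lit 152) (nat_lit 7481331910) (nat_lit 152) (nat_lit 2615630810) (nat_lit 80) (nat_lit 4) (nat_lit 82) (nat_lit 5) (nat_lit 82) (nat_lit 4) (nat_lit 495) (nat_lit 362) (nat_lit 343)))) (XT.nd (nat_lit 156) (nat_lit 152) (nat_lit 0) (XT.nd (nat_lit 78) (nat_lit 76) (nat_lit 0) (XT.lf (nat_lit 0) (nat_lit 4413784998) (nat_lit 76) (nat_lit 250040686) (nat_lit 152) (nat_lit 12877444154) (nat_lit 78) (nat_lit 5) (nat_lit 79) (nat_lit 5) (nat_lit 80) (nat_lit 4) (nat_lit 496) (nat_lit 362) (nat_lit 342)) (XT.lf (nat_lit 0) (nat_lit 1428926093) (nat_lit 76) (nat_lit 10745693542) (nat_lit 76) (nat_lit 5661826432) (nat_lit 77) (nat_lit 4) (nat_lit 78) (nat_lit 5) (nat_lit 78) (nat_lit 4) (nat_lit 497) (nat_lit 362) (nat_lit 341))) (XT.nd (nat_lit 78) (nat_lit 76) (nat_lit 0) (XT.lf (nat_lit 0) (nat_lit 1751796049) (nat_lit 152) (nat_lit 1699841010) (nat_lit 76) (nat_lit 14687848221) (nat_lit 76) (nat_lit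 5) (nat_lit 78) (nat_lit 5) (nat_lit 77) (nat_lit 4) (nat_lit 498) (nat_lit 362) (nat_lit 340)) (XT.lf (nat_lit 0) (nat_lit 9326157285) (nat_lit 152) (nat_lit 5061195633) (nat_lit 0) (nat_lit 4061017799) (nat_lit 75) (nat_lit 5) (nat_lit 77) (nat_lit 4) (nat_lit 75) (nat_lit 4) (nat_lit 499) (nat_lit 362) (nat_lit 339))))) (XT.nd (nat_lit 312) (nat_lit 380) (nat_lit 0) (XT.nd (nat_lit 156) (nat_lit 152) (nat_lit 0) (XT.nd (nat_lit 78) (nat_lit 152) (nat_lit 0) (XT.lf (nat_lit 0) (nat_lit 10131952442) (nat_lit 76) (nat_lit 7028127252) (nat_lit 76) (nat_lit 1605473692) (nat_lit 74) (nat_lit 4) (nat_lit 75) (nat_lit 5) (nat_lit 75) (nat_lit 4) (nat_lit 500) (nat_lit 362) (nat_lit 338)) (XT.lf (nat_lit 0) (nat_lit 6021914639) (nat_lit 152) (nat_lit 12459690499) (nat_lit 0) (nat_lit 608730324) (nat_lit 72) (nat_lit 5) (nat_lit 74) (nat_lit 4) (nat_lit 72) (nat_lit 4) (nat_lit 501) (nat_lit 362) (nat_lit 337))) (XT.nd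 (nat_lit 78) (nat_lit 76) (nat_lit 0) (XT.lf (nat_lit 0) (nat_lit 2849489932) (nat_lit 76) (nat_lit 11065082619) (nat_lit 76) (nat_lit 5507750613) (nat_lit 71) (nat_lit 4) (nat_lit 72) (nat_lit 5) (nat_lit 72) (nat_lit 4) (nat_lit 502) (nat_lit 362) (nat_lit 336)) (XT.lf (nat_lit 0) (nat_lit 2246096088) (nat_lit 152) (nat_lit 1137706161) (nat_lit 76) (nat_lit 16379486049) (nat_lit 70) (nat_lit 5) (nat_lit 72) (nat_lit 5) (nat_lit 71) (nat_lit 4) (nat_lit 503) (nat_lit 362) (nat_lit 335)))) (XT.nd (nat_lit 156) (nat_lit 228) (nat_lit 0) (XT.nd (nat_lit 78) (nat_lit 76) (nat_lit 0) (XT.lf (nat_lit 0) (nat_lit 10195465889) (nat_lit 152) (nat_lit 5382963432) (nat_lit 0) (nat_lit 4532209342) (nat_lit 69) (nat_lit 5) (nat_lit 71) (nat_lit 4) (nat_lit 69) (nat_lit 4) (nat_lit 504) (nat_lit 362) (nat_lit 334)) (XT.lf (nat_lit 0) (nat_lit 10576094837) (nat_lit 76) (nat_lit 7841311198) (nat_lit 76) (nat_lit 2049981295) (nat_lit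 68) (nat_lit 4) (nat_lit 69) (nat_lit 5) (nat_lit 69) (nat_lit 4) (nat_lit 505) (nat_lit 362) (nat_lit 333))) (XT.nd (nat_lit 78) (nat_lit 76) (nat_lit 0) (XT.lf (nat_lit 0) (nat_lit 5936201184) (nat_lit 152) (nat_lit 14703969860) (nat_lit 0) (nat_lit 192829371) (nat_lit 66) (nat_lit 5) (nat_lit 68) (nat_lit 4) (nat_lit 66) (nat_lit 4) (nat_lit 506) (nat_lit 362) (nat_lit 332)) (XT.lf (nat_lit 0) (nat_lit 1332049757) (nat_lit 76) (nat_lit 12867567607) (nat_lit 76) (nat_lit 7006990530) (nat_lit 65) (nat_lit 4) (nat_lit 66) (nat_lit 5) (nat_lit 66) (nat_lit 4) (nat_lit 507) (nat_lit 362) (nat_lit 331)))))) (XT.nd (nat_lit 624) (nat_lit 608) (nat_lit 0) (XT.nd (nat_lit 312) (nat_lit 304) (nat_lit 0) (XT.nd (nat_lit 156) (nat_lit 228) (nat_lit 0) (XT.nd (nat_lit 78) (nat_lit 76) (nat_lit 0) (XT.lf (nat_lit 0) (nat_lit 1135224290) (nat_lit 152) (nat_lit 3669863285) (nat_lit 76) (nat_lit 16784886856) (nat_lit 64) (nat_lit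 5) (nat_lit 66) (nat_lit 5) (nat_lit 65) (nat_lit 4) (nat_lit 508) (nat_lit 362) (nat_lit 330)) (XT.lf (nat_lit 0) (nat_lit 9431167086) (nat_lit 152) (nat_lit 9026535325) (nat_lit 0) (nat_lit 3523549808) (nat_lit 63) (nat_lit 5) (nat_lit 65) (nat_lit 4) (nat_lit 63) (nat_lit 4) (nat_lit 509) (nat_lit 362) (nat_lit 329))) (XT.nd (nat_lit 78) (nat_lit 152) (nat_lit 0) (XT.lf (nat_lit 0) (nat_lit 7656659682) (nat_lit 76) (nat_lit 10368936716) (nat_lit 76) (nat_lit 4357184079) (nat_lit 62) (nat_lit 4) (nat_lit 63) (nat_lit 5) (nat_lit 63) (nat_lit 4) (nat_lit 510) (nat_lit 362) (nat_lit 328)) (XT.lf (nat_lit 0) (nat_lit 2015993392) (nat_lit 76) (nat_lit 1988365385) (nat_lit 152) (nat_lit 18790744158) (nat_lit 60) (nat_lit 5) (nat_lit 61) (nat_lit 5) (nat_lit 62) (nat_lit 4) (nat_lit 511) (nat_lit 362) (nat_lit 327)))) (XT.nd (nat_lit 156) (nat_lit 228) (nat_lit 0) (XT.nd (nat_lit 78) (nat_lit 76) (nat_lit 0) (XT.lf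 (nat_lit 0) (nat_lit 12634397191) (nat_lit 152) (nat_lit 3976659305) (nat_lit 0) (nat_lit 6604287977) (nat_lit 60) (nat_lit 5) (nat_lit 62) (nat_lit 4) (nat_lit 60) (nat_lit 4) (nat_lit 512) (nat_lit 362) (nat_lit 326)) (XT.lf (nat_lit 0) (nat_lit 13362092934) (nat_lit 76) (nat_lit 8203729117) (nat_lit 76) (nat_lit 2081096986) (nat_lit 59) (nat_lit 4) (nat_lit 60) (nat_lit 5) (nat_lit 60) (nat_lit 4) (nat_lit 513) (nat_lit 362) (nat_lit 325))) (XT.nd (nat_lit 78) (nat_lit 76) (nat_lit 0) (XT.lf (nat_lit 0) (nat_lit 6551608704) (nat_lit 152) (nat_lit 17017571285) (nat_lit 0) (nat_lit 520093941) (nat_lit 57) (nat_lit 5) (nat_lit 59) (nat_lit 4) (nat_lit 57) (nat_lit 4) (nat_lit 514) (nat_lit 362) (nat_lit 324)) (XT.lf (nat_lit 0) (nat_lit 312220930) (nat_lit 76) (nat_lit 15172869183) (nat_lit 76) (nat_lit 9056682844) (nat_lit 56) (nat_lit 4) (nat_lit 57) (nat_lit 5) (nat_lit 57) (nat_lit 4) (nat_lit 515) (nat_lit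 362) (nat_lit 323))))) (XT.nd (nat_lit 312) (nat_lit 304) (nat_lit 0) (XT.nd (nat_lit 156) (nat_lit 152) (nat_lit 0) (XT.nd (nat_lit 78) (nat_lit 152) (nat_lit 0) (XT.lf (nat_lit 0) (nat_lit 18303813601) (nat_lit 76) (nat_lit 6450201122) (nat_lit 76) (nat_lit 251809369) (nat_lit 56) (nat_lit 4) (nat_lit 57) (nat_lit 5) (nat_lit 57) (nat_lit 4) (nat_lit 516) (nat_lit 362) (nat_lit 322)) (XT.lf (nat_lit 0) (nat_lit 8676559716) (nat_lit 152) (nat_lit 14222535333) (nat_lit 0) (nat_lit 2581217158) (nat_lit 54) (nat_lit 5) (nat_lit 56) (nat_lit 4) (nat_lit 54) (nat_lit 4) (nat_lit 517) (nat_lit 362) (nat_lit 321))) (XT.nd (nat_lit 78) (nat_lit 76) (nat_lit 0) (XT.lf (nat_lit 0) (nat_lit 3729446660) (nat_lit 76) (nat_lit 14204056208) (nat_lit 76) (nat_lit 8033484052) (nat_lit 53) (nat_lit 4) (nat_lit 54) (nat_lit 5) (nat_lit 54) (nat_lit 4) (nat_lit 518) (nat_lit 362) (nat_lit 320)) (XT.lf (nat_lit 0) (nat_lit 1023190186)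 (nat_lit 152) (nat_lit 4166534523) (nat_lit 76) (nat_lit 21276964802) (nat_lit 52) (nat_lit 5) (nat_lit 54) (nat_lit 5) (nat_lit 53) (nat_lit 4) (nat_lit 519) (nat_lit 362) (nat_lit 319)))) (XT.nd (nat_lit 156) (nat_lit 152) (nat_lit 0) (XT.nd (nat_lit 78) (nat_lit 76) (nat_lit 0) (XT.lf (nat_lit 0) (nat_lit 10270351054) (nat_lit 152) (nat_lit 12566491201) (nat_lit 0) (nat_lit 4139747448) (nat_lit 51) (nat_lit 5) (nat_lit 53) (nat_lit 4) (nat_lit 51) (nat_lit 4) (nat_lit 520) (nat_lit 362) (nat_lit 318)) (XT.lf (nat_lit 0) (nat_lit 5996885736) (nat_lit 76) (nat_lit 13850387573) (nat_lit 76) (nat_lit 7652943443) (nat_lit 50) (nat_lit 4) (nat_lit 51) (nat_lit 5) (nat_lit 51) (nat_lit 4) (nat_lit 521) (nat_lit 362) (nat_lit 317))) (XT.nd (nat_lit 78) (nat_lit 76) (nat_lit 0) (XT.lf (nat_lit 0) (nat_lit 1668344073) (nat_lit 152) (nat_lit 2875599374) (nat_lit 76) (nat_lit 23494256663) (nat_lit 49) (nat_lit 5) (nat_lit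 51) (nat_lit 5) (nat_lit 50) (nat_lit 4) (nat_lit 522) (nat_lit 362) (nat_lit 316)) (XT.lf (nat_lit 0) (nat_lit 11226352948) (nat_lit 152) (nat_lit 12275125366) (nat_lit 0) (nat_lit 5085244747) (nat_lit 48) (nat_lit 5) (nat_lit 50) (nat_lit 4) (nat_lit 48) (nat_lit 4) (nat_lit 523) (nat_lit 362) (nat_lit 315))))))))
noncomputable def xc25 : XT := (XT.nd (nat_lit 58578) (nat_lit 0) (nat_lit 3572) (XT.nd (nat_lit 1170) (nat_lit 988) (nat_lit 0) (XT.nd (nat_lit 546) (nat_lit 532) (nat_lit 0) (XT.nd (nat_lit 234) (nat_lit 304) (nat_lit 0) (XT.nd (nat_lit 78) (nat_lit 152) (nat_lit 0) (XT.lf (nat_lit 0) (nat_lit 6879884586) (nat_lit 76) (nat_lit 14235492117) (nat_lit 76) (nat_lit 8034996976) (nat_lit 47) (nat_lit 4) (nat_lit 48) (nat_lit 5) (nat_lit 48) (nat_lit 4) (nat_lit 524) (nat_lit 362) (nat_lit 314)) (XT.nd (nat_lit 78) (nat_lit 76) (nat_lit 0) (XT.lf (nat_lit 0) (nat_lit 1568540844) (nat_lit 152) (nat_lit 3074014450)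 (nat_lit 76) (nat_lit 25087054660) (nat_lit 46) (nat_lit 5) (nat_lit 48) (nat_lit 5) (nat_lit 47) (nat_lit 4) (nat_lit 525) (nat_lit 362) (nat_lit 313)) (XT.lf (nat_lit 0) (nat_lit 11418299125) (nat_lit 152) (nat_lit 13613873883) (nat_lit 0) (nat_lit 5288075580) (nat_lit 45) (nat_lit 5) (nat_lit 47) (nat_lit 4) (nat_lit 45) (nat_lit 4) (nat_lit 526) (nat_lit 362) (nat_lit 312)))) (XT.nd (nat_lit 156) (nat_lit 152) (nat_lit 0) (XT.nd (nat_lit 78) (nat_lit 76) (nat_lit 0) (XT.lf (nat_lit 0) (nat_lit 6102182567) (nat_lit 76) (nat_lit 15504065570) (nat_lit 76) (nat_lit 9321077498) (nat_lit 44) (nat_lit 4) (nat_lit 45) (nat_lit 5) (nat_lit 45) (nat_lit 4) (nat_lit 527) (nat_lit 362) (nat_lit 311)) (XT.lf (nat_lit 0) (nat_lit 582132955) (nat_lit 152) (nat_lit 5052485868) (nat_lit 76) (nat_lit 25916470829) (nat_lit 43) (nat_lit 5) (nat_lit 45) (nat_lit 5) (nat_lit 44) (nat_lit 4) (nat_lit 528) (nat_lit 362) (nat_lit 310)))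 (XT.nd (nat_lit 78) (nat_lit 76) (nat_lit 0) (XT.lf (nat_lit 0) (nat_lit 10697081647) (nat_lit 152) (nat_lit 16894498930) (nat_lit 0) (nat_lit 4596157962) (nat_lit 42) (nat_lit 5) (nat_lit 44) (nat_lit 4) (nat_lit 42) (nat_lit 4) (nat_lit 529) (nat_lit 362) (nat_lit 309)) (XT.lf (nat_lit 0) (nat_lit 3339013524) (nat_lit 76) (nat_lit 17825404819) (nat_lit 76) (nat_lit 11677600536) (nat_lit 41) (nat_lit 4) (nat_lit 42) (nat_lit 5) (nat_lit 42) (nat_lit 4) (nat_lit 530) (nat_lit 362) (nat_lit 308))))) (XT.nd (nat_lit 312) (nat_lit 304) (nat_lit 0) (XT.nd (nat_lit 156) (nat_lit 76) (nat_lit 0) (XT.nd (nat_lit 78) (nat_lit 152) (nat_lit 0) (XT.lf (nat_lit 0) (nat_lit 24346823803) (nat_lit 76) (nat_lit 7679996039) (nat_lit 76) (nat_lit 1486676612) (nat_lit 41) (nat_lit 4) (nat_lit 42) (nat_lit 5) (nat_lit 42) (nat_lit 4) (nat_lit 531) (nat_lit 362) (nat_lit 307)) (XT.lf (nat_lit 0) (nat_lit 8887022964) (nat_lit 152) (nat_lit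 22482722225) (nat_lit 0) (nat_lit 2831189092) (nat_lit 39) (nat_lit 5) (nat_lit 41) (nat_lit 4) (nat_lit 39) (nat_lit 4) (nat_lit 532) (nat_lit 362) (nat_lit 306))) (XT.nd (nat_lit 78) (nat_lit 76) (nat_lit 0) (XT.lf (nat_lit 0) (nat_lit 19623816060) (nat_lit 152) (nat_lit 1755955468) (nat_lit 0) (nat_lit 13526329383) (nat_lit 39) (nat_lit 5) (nat_lit 41) (nat_lit 4) (nat_lit 39) (nat_lit 4) (nat_lit 533) (nat_lit 362) (nat_lit 305)) (XT.lf (nat_lit 0) (nat_lit 19808654754) (nat_lit 76) (nat_lit 10979268952) (nat_lit 76) (nat_lit 4841342659) (nat_lit 38) (nat_lit 4) (nat_lit 39) (nat_lit 5) (nat_lit 39) (nat_lit 4) (nat_lit 534) (nat_lit 362) (nat_lit 304)))) (XT.nd (nat_lit 156) (nat_lit 152) (nat_lit 0) (XT.nd (nat_lit 78) (nat_lit 0) (nat_lit 0) (XT.lf (nat_lit 0) (nat_lit 5563635552) (nat_lit 76) (nat_lit 220021397) (nat_lit 152) (nat_lit 30589178552) (nat_lit 36) (nat_lit 5) (nat_lit 37) (nat_lit 5) (nat_lit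 38) (nat_lit 4) (nat_lit 535) (nat_lit 362) (nat_lit 303)) (XT.lf (nat_lit 0) (nat_lit 16810718169) (nat_lit 152) (nat_lit 9544696887) (nat_lit 0) (nat_lit 10776440233) (nat_lit 36) (nat_lit 5) (nat_lit 38) (nat_lit 4) (nat_lit 36) (nat_lit 4) (nat_lit 536) (nat_lit 362) (nat_lit 302))) (XT.nd (nat_lit 78) (nat_lit 76) (nat_lit 0) (XT.lf (nat_lit 0) (nat_lit 12432568002) (nat_lit 76) (nat_lit 15775057393) (nat_lit 76) (nat_lit 9704849382) (nat_lit 35) (nat_lit 4) (nat_lit 36) (nat_lit 5) (nat_lit 36) (nat_lit 4) (nat_lit 537) (nat_lit 362) (nat_lit 301)) (XT.lf (nat_lit 0) (nat_lit 1220630890) (nat_lit 152) (nat_lit 3627210872) (nat_lit 76) (nat_lit 33867875401) (nat_lit 34) (nat_lit 5) (nat_lit 36) (nat_lit 5) (nat_lit 35) (nat_lit 4) (nat_lit 538) (nat_lit 362) (nat_lit 300)))))) (XT.nd (nat_lit 624) (nat_lit 456) (nat_lit 0) (XT.nd (nat_lit 312) (nat_lit 228) (nat_lit 0) (XT.nd (nat_lit 156) (nat_lit 152) (nat_lit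 0) (XT.nd (nat_lit 78) (nat_lit 76) (nat_lit 0) (XT.lf (nat_lit 0) (nat_lit 12444756233) (nat_lit 152) (nat_lit 20605838177) (nat_lit 0) (nat_lit 6484601746) (nat_lit 33) (nat_lit 5) (nat_lit 35) (nat_lit 4) (nat_lit 33) (nat_lit 4) (nat_lit 539) (nat_lit 362) (nat_lit 299)) (XT.lf (nat_lit 0) (nat_lit 1682451601) (nat_lit 76) (nat_lit 22344128345) (nat_lit 76) (nat_lit 16352050452) (nat_lit 32) (nat_lit 4) (nat_lit 33) (nat_lit 5) (nat_lit 33) (nat_lit 4) (nat_lit 540) (nat_lit 362) (nat_lit 298))) (XT.nd (nat_lit 78) (nat_lit 152) (nat_lit 0) (XT.lf (nat_lit 0) (nat_lit 24902530894) (nat_lit 76) (nat_lit 11182023746) (nat_lit 76) (nat_lit 5158952254) (nat_lit 32) (nat_lit 4) (nat_lit 33) (nat_lit 5) (nat_lit 33) (nat_lit 4) (nat_lit 541) (nat_lit 362) (nat_lit 297)) (XT.lf (nat_lit 0) (nat_lit 6234720221) (nat_lit 152) (nat_lit 35540236607) (nat_lit 0) (nat_lit 357863557) (nat_lit 30) (nat_lit 5) (nat_lit 32)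 (nat_lit 4) (nat_lit 30) (nat_lit 4) (nat_lit 542) (nat_lit 362) (nat_lit 296)))) (XT.nd (nat_lit 156) (nat_lit 152) (nat_lit 0) (XT.nd (nat_lit 78) (nat_lit 76) (nat_lit 0) (XT.lf (nat_lit 0) (nat_lit 18066073092) (nat_lit 152) (nat_lit 12814368234) (nat_lit 0) (nat_lit 12160852895) (nat_lit 30) (nat_lit 5) (nat_lit 32) (nat_lit 4) (nat_lit 30) (nat_lit 4) (nat_lit 543) (nat_lit 362) (nat_lit 295)) (XT.lf (nat_lit 0) (nat_lit 10649430543) (nat_lit 76) (nat_lit 19629772177) (nat_lit 76) (nat_lit 13697014568) (nat_lit 29) (nat_lit 4) (nat_lit 30) (nat_lit 5) (nat_lit 30) (nat_lit 4) (nat_lit 544) (nat_lit 362) (nat_lit 294))) (XT.nd (nat_lit 78) (nat_lit 152) (nat_lit 0) (XT.lf (nat_lit 0) (nat_lit 34929657684) (nat_lit 76) (nat_lit 7983692353) (nat_lit 76) (nat_lit 2024199394) (nat_lit 29) (nat_lit 4) (nat_lit 30) (nat_lit 5) (nat_lit 30) (nat_lit 4) (nat_lit 545) (nat_lit 362) (nat_lit 293)) (XT.lf (nat_lit 0)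 (nat_lit 9905483930) (nat_lit 152) (nat_lit 31921932570) (nat_lit 0) (nat_lit 4094367804) (nat_lit 27) (nat_lit 5) (nat_lit 29) (nat_lit 4) (nat_lit 27) (nat_lit 4) (nat_lit 546) (nat_lit 362) (nat_lit 292))))) (XT.nd (nat_lit 312) (nat_lit 228) (nat_lit 0) (XT.nd (nat_lit 156) (nat_lit 152) (nat_lit 0) (XT.nd (nat_lit 78) (nat_lit 76) (nat_lit 0) (XT.lf (nat_lit 0) (nat_lit 22260193303) (nat_lit 152) (nat_lit 8246906620) (nat_lit 0) (nat_lit 16424610544) (nat_lit 27) (nat_lit 5) (nat_lit 29) (nat_lit 4) (nat_lit 27) (nat_lit 4) (nat_lit 547) (nat_lit 362) (nat_lit 291)) (XT.lf (nat_lit 0) (nat_lit 16313716212) (nat_lit 76) (nat_lit 18757492558) (nat_lit 76) (nat_lit 12898155787) (nat_lit 26) (nat_lit 4) (nat_lit 27) (nat_lit 5) (nat_lit 27) (nat_lit 4) (nat_lit 548) (nat_lit 362) (nat_lit 290))) (XT.nd (nat_lit 78) (nat_lit 152) (nat_lit 0) (XT.lf (nat_lit 0) (nat_lit 41638619865) (nat_lit 76) (nat_lit 6640771160)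 (nat_lit 76) (nat_lit 758372240) (nat_lit 26) (nat_lit 4) (nat_lit 27) (nat_lit 5) (nat_lit 27) (nat_lit 4) (nat_lit 549) (nat_lit 362) (nat_lit 289)) (XT.lf (nat_lit 0) (nat_lit 11675535436) (nat_lit 152) (nat_lit 32511787273) (nat_lit 0) (nat_lit 5942730237) (nat_lit 24) (nat_lit 5) (nat_lit 26) (nat_lit 4) (nat_lit 24) (nat_lit 4) (nat_lit 550) (nat_lit 362) (nat_lit 288)))) (XT.nd (nat_lit 156) (nat_lit 152) (nat_lit 0) (XT.nd (nat_lit 78) (nat_lit 76) (nat_lit 0) (XT.lf (nat_lit 0) (nat_lit 24539383685) (nat_lit 152) (nat_lit 7927864120) (nat_lit 0) (nat_lit 18785473354) (nat_lit 24) (nat_lit 5) (nat_lit 26) (nat_lit 4) (nat_lit 24) (nat_lit 4) (nat_lit 551) (nat_lit 362) (nat_lit 287)) (XT.lf (nat_lit 0) (nat_lit 17602236559) (nat_lit 76) (nat_lit 20289084241) (nat_lit 76) (nat_lit 14514683490) (nat_lit 23) (nat_lit 4) (nat_lit 24) (nat_lit 5) (nat_lit 24) (nat_lit 4) (nat_lit 552) (nat_lit 362) (nat_lit 286)))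 (XT.nd (nat_lit 78) (nat_lit 152) (nat_lit 0) (XT.lf (nat_lit 0) (nat_lit 43927252295) (nat_lit 76) (nat_lit 7730258605) (nat_lit 76) (nat_lit 1935964243) (nat_lit 23) (nat_lit 4) (nat_lit 24) (nat_lit 5) (nat_lit 24) (nat_lit 4) (nat_lit 553) (nat_lit 362) (nat_lit 285)) (XT.lf (nat_lit 0) (nat_lit 10948764081) (nat_lit 152) (nat_lit 38555833520) (nat_lit 0) (nat_lit 5304483936) (nat_lit 21) (nat_lit 5) (nat_lit 23) (nat_lit 4) (nat_lit 21) (nat_lit 4) (nat_lit 554) (nat_lit 362) (nat_lit 284))))))) (XT.nd (nat_lit 1248) (nat_lit 1672) (nat_lit 0) (XT.nd (nat_lit 624) (nat_lit 1064) (nat_lit 0) (XT.nd (nat_lit 312) (nat_lit 684) (nat_lit 0) (XT.nd (nat_lit 156) (nat_lit 380) (nat_lit 0) (XT.nd (nat_lit 78) (nat_lit 152) (nat_lit 0) (XT.lf (nat_lit 0) (nat_lit 1902706309) (nat_lit 228) (nat_lit 2451277530) (nat_lit 0) (nat_lit 1902706309) (nat_lit 120) (nat_lit 5) (nat_lit 123) (nat_lit 4) (nat_lit 120) (nat_lit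 4) (nat_lit 474) (nat_lit 363) (nat_lit 363)) (XT.lf (nat_lit 0) (nat_lit 6908558195) (nat_lit 152) (nat_lit 3113300365) (nat_lit 152) (nat_lit 2670077428) (nat_lit 118) (nat_lit 4) (nat_lit 120) (nat_lit 5) (nat_lit 120) (nat_lit 4) (nat_lit 475) (nat_lit 363) (nat_lit 362))) (XT.nd (nat_lit 78) (nat_lit 152) (nat_lit 0) (XT.lf (nat_lit 0) (nat_lit 3485715977) (nat_lit 228) (nat_lit 6751307571) (nat_lit 0) (nat_lit 2637622318) (nat_lit 115) (nat_lit 5) (nat_lit 118) (nat_lit 4) (nat_lit 115) (nat_lit 4) (nat_lit 476) (nat_lit 363) (nat_lit 361)) (XT.lf (nat_lit 0) (nat_lit 5253328997) (nat_lit 152) (nat_lit 4531033260) (nat_lit 152) (nat_lit 3277327827) (nat_lit 113) (nat_lit 4) (nat_lit 115) (nat_lit 5) (nat_lit 115) (nat_lit 4) (nat_lit 477) (nat_lit 363) (nat_lit 360)))) (XT.nd (nat_lit 156) (nat_lit 304) (nat_lit 0) (XT.nd (nat_lit 78) (nat_lit 152) (nat_lit 0) (XT.lf (nat_lit 0) (nat_lit 2954198896) (nat_lit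 228) (nat_lit 8944732923) (nat_lit 0) (nat_lit 1354681155) (nat_lit 110) (nat_lit 5) (nat_lit 113) (nat_lit 4) (nat_lit 110) (nat_lit 4) (nat_lit 478) (nat_lit 363) (nat_lit 359)) (XT.lf (nat_lit 0) (nat_lit 3249326997) (nat_lit 152) (nat_lit 6085432821) (nat_lit 152) (nat_lit 4114722848) (nat_lit 108) (nat_lit 4) (nat_lit 110) (nat_lit 5) (nat_lit 110) (nat_lit 4) (nat_lit 479) (nat_lit 363) (nat_lit 358))) (XT.nd (nat_lit 78) (nat_lit 152) (nat_lit 0) (XT.lf (nat_lit 0) (nat_lit 2125977521) (nat_lit 76) (nat_lit 69622627) (nat_lit 152) (nat_lit 11455456017) (nat_lit 106) (nat_lit 5) (nat_lit 107) (nat_lit 5) (nat_lit 108) (nat_lit 4) (nat_lit 480) (nat_lit 363) (nat_lit 357)) (XT.lf (nat_lit 0) (nat_lit 854015509) (nat_lit 152) (nat_lit 7802504573) (nat_lit 152) (nat_lit 5199616165) (nat_lit 104) (nat_lit 4) (nat_lit 106) (nat_lit 5) (nat_lit 106) (nat_lit 4) (nat_lit 481) (nat_lit 363) (nat_lit 356))))) (XT.nd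 (nat_lit 312) (nat_lit 608) (nat_lit 0) (XT.nd (nat_lit 156) (nat_lit 304) (nat_lit 0) (XT.nd (nat_lit 78) (nat_lit 76) (nat_lit 0) (XT.lf (nat_lit 0) (nat_lit 1210911082) (nat_lit 228) (nat_lit 474538402) (nat_lit 76) (nat_lit 12381823154) (nat_lit 103) (nat_lit 5) (nat_lit 106) (nat_lit 5) (nat_lit 104) (nat_lit 4) (nat_lit 482) (nat_lit 363) (nat_lit 355)) (XT.lf (nat_lit 0) (nat_lit 7750111818) (nat_lit 152) (nat_lit 1939887694) (nat_lit 0) (nat_lit 4591974362) (nat_lit 102) (nat_lit 5) (nat_lit 104) (nat_lit 4) (nat_lit 102) (nat_lit 4) (nat_lit 483) (nat_lit 363) (nat_lit 354))) (XT.nd (nat_lit 78) (nat_lit 152) (nat_lit 0) (XT.lf (nat_lit 0) (nat_lit 11017166343) (nat_lit 152) (nat_lit 3472882407) (nat_lit 152) (nat_lit 12931698) (nat_lit 100) (nat_lit 4) (nat_lit 102) (nat_lit 5) (nat_lit 102) (nat_lit 4) (nat_lit 484) (nat_lit 363) (nat_lit 353)) (XT.lf (nat_lit 0) (nat_lit 6588685425) (nat_lit 152) (nat_lit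 5194441492) (nat_lit 0) (nat_lit 2945022042) (nat_lit 98) (nat_lit 5) (nat_lit 100) (nat_lit 4) (nat_lit 98) (nat_lit 4) (nat_lit 485) (nat_lit 363) (nat_lit 352)))) (XT.nd (nat_lit 156) (nat_lit 304) (nat_lit 0) (XT.nd (nat_lit 78) (nat_lit 152) (nat_lit 0) (XT.lf (nat_lit 0) (nat_lit 7944860549) (nat_lit 152) (nat_lit 5467177995) (nat_lit 152) (nat_lit 1547312730) (nat_lit 96) (nat_lit 4) (nat_lit 98) (nat_lit 5) (nat_lit 98) (nat_lit 4) (nat_lit 486) (nat_lit 363) (nat_lit 351)) (XT.lf (nat_lit 0) (nat_lit 5141486354) (nat_lit 152) (nat_lit 8979011673) (nat_lit 0) (nat_lit 1075445159) (nat_lit 94) (nat_lit 5) (nat_lit 96) (nat_lit 4) (nat_lit 94) (nat_lit 4) (nat_lit 487) (nat_lit 363) (nat_lit 350))) (XT.nd (nat_lit 78) (nat_lit 152) (nat_lit 0) (XT.lf (nat_lit 0) (nat_lit 4333960515) (nat_lit 152) (nat_lit 7711327780) (nat_lit 152) (nat_lit 3392522737) (nat_lit 92) (nat_lit 4) (nat_lit 94) (nat_lit 5) (nat_lit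 94) (nat_lit 4) (nat_lit 488) (nat_lit 363) (nat_lit 349)) (XT.lf (nat_lit 0) (nat_lit 2325106208) (nat_lit 76) (nat_lit 1068644060) (nat_lit 152) (nat_lit 12292419693) (nat_lit 90) (nat_lit 5) (nat_lit 91) (nat_lit 5) (nat_lit 92) (nat_lit 4) (nat_lit 489) (nat_lit 363) (nat_lit 348)))))) (XT.nd (nat_lit 624) (nat_lit 760) (nat_lit 0) (XT.nd (nat_lit 312) (nat_lit 456) (nat_lit 0) (XT.nd (nat_lit 156) (nat_lit 228) (nat_lit 0) (XT.nd (nat_lit 78) (nat_lit 76) (nat_lit 0) (XT.lf (nat_lit 0) (nat_lit 125720401) (nat_lit 152) (nat_lit 10238190674) (nat_lit 152) (nat_lit 5575607172) (nat_lit 88) (nat_lit 4) (nat_lit 90) (nat_lit 5) (nat_lit 90) (nat_lit 4) (nat_lit 490) (nat_lit 363) (nat_lit 347)) (XT.lf (nat_lit 0) (nat_lit 1342023730) (nat_lit 228) (nat_lit 2162852734) (nat_lit 76) (nat_lit 12694438654) (nat_lit 87) (nat_lit 5) (nat_lit 90) (nat_lit 5) (nat_lit 88) (nat_lit 4) (nat_lit 491) (nat_lit 363) (nat_lit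 346))) (XT.nd (nat_lit 78) (nat_lit 152) (nat_lit 0) (XT.lf (nat_lit 0) (nat_lit 8384830253) (nat_lit 152) (nat_lit 4651200875) (nat_lit 0) (nat_lit 3428328096) (nat_lit 86) (nat_lit 5) (nat_lit 88) (nat_lit 4) (nat_lit 86) (nat_lit 4) (nat_lit 492) (nat_lit 363) (nat_lit 345)) (XT.lf (nat_lit 0) (nat_lit 9439278938) (nat_lit 152) (nat_lit 6229600013) (nat_lit 152) (nat_lit 1067577716) (nat_lit 84) (nat_lit 4) (nat_lit 86) (nat_lit 5) (nat_lit 86) (nat_lit 4) (nat_lit 493) (nat_lit 363) (nat_lit 344)))) (XT.nd (nat_lit 156) (nat_lit 152) (nat_lit 0) (XT.nd (nat_lit 78) (nat_lit 152) (nat_lit 0) (XT.lf (nat_lit 0) (nat_lit 6038963138) (nat_lit 152) (nat_lit 10142281190) (nat_lit 0) (nat_lit 833568563) (nat_lit 82) (nat_lit 5) (nat_lit 84) (nat_lit 4) (nat_lit 82) (nat_lit 4) (nat_lit 494) (nat_lit 363) (nat_lit 343)) (XT.lf (nat_lit 0) (nat_lit 4098163258) (nat_lit 152) (nat_lit 9297382826) (nat_lit 152) (nat_lit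 3903908210) (nat_lit 80) (nat_lit 4) (nat_lit 82) (nat_lit 5) (nat_lit 82) (nat_lit 4) (nat_lit 495) (nat_lit 363) (nat_lit 342))) (XT.nd (nat_lit 78) (nat_lit 0) (nat_lit 0) (XT.lf (nat_lit 0) (nat_lit 1146484183) (nat_lit 76) (nat_lit 2165122112) (nat_lit 152) (nat_lit 14280133287) (nat_lit 78) (nat_lit 5) (nat_lit 79) (nat_lit 5) (nat_lit 80) (nat_lit 4) (nat_lit 496) (nat_lit 363) (nat_lit 341)) (XT.lf (nat_lit 0) (nat_lit 10732685758) (nat_lit 152) (nat_lit 2010022522) (nat_lit 0) (nat_lit 5146899277) (nat_lit 78) (nat_lit 5) (nat_lit 80) (nat_lit 4) (nat_lit 78) (nat_lit 4) (nat_lit 497) (nat_lit 363) (nat_lit 340))))) (XT.nd (nat_lit 312) (nat_lit 304) (nat_lit 0) (XT.nd (nat_lit 156) (nat_lit 228) (nat_lit 0) (XT.nd (nat_lit 78) (nat_lit 76) (nat_lit 0) (XT.lf (nat_lit 0) (nat_lit 208453658) (nat_lit 152) (nat_lit 5329732235) (nat_lit 76) (nat_lit 12657214975) (nat_lit 76) (nat_lit 5) (nat_lit 78) (nat_lit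 5) (nat_lit 77) (nat_lit 4) (nat_lit 498) (nat_lit 363) (nat_lit 339)) (XT.lf (nat_lit 0) (nat_lit 7669392663) (nat_lit 152) (nat_lit 8911751171) (nat_lit 0) (nat_lit 1926545423) (nat_lit 75) (nat_lit 5) (nat_lit 77) (nat_lit 4) (nat_lit 75) (nat_lit 4) (nat_lit 499) (nat_lit 363) (nat_lit 338))) (XT.nd (nat_lit 78) (nat_lit 152) (nat_lit 0) (XT.lf (nat_lit 0) (nat_lit 6094011167) (nat_lit 76) (nat_lit 9314735801) (nat_lit 76) (nat_lit 3418962276) (nat_lit 74) (nat_lit 4) (nat_lit 75) (nat_lit 5) (nat_lit 75) (nat_lit 4) (nat_lit 500) (nat_lit 363) (nat_lit 337)) (XT.lf (nat_lit 0) (nat_lit 2362076761) (nat_lit 76) (nat_lit 1778968759) (nat_lit 152) (nat_lit 15015052078) (nat_lit 72) (nat_lit 5) (nat_lit 73) (nat_lit 5) (nat_lit 74) (nat_lit 4) (nat_lit 501) (nat_lit 363) (nat_lit 336)))) (XT.nd (nat_lit 156) (nat_lit 152) (nat_lit 0) (XT.nd (nat_lit 78) (nat_lit 152) (nat_lit 0) (XT.lf (nat_lit 0) (nat_lit 11933587135)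 (nat_lit 152) (nat_lit 1632063643) (nat_lit 0) (nat_lit 5925438264) (nat_lit 72) (nat_lit 5) (nat_lit 74) (nat_lit 4) (nat_lit 72) (nat_lit 4) (nat_lit 502) (nat_lit 363) (nat_lit 335)) (XT.lf (nat_lit 0) (nat_lit 164599171) (nat_lit 152) (nat_lit 5809885575) (nat_lit 76) (nat_lit 13860313081) (nat_lit 70) (nat_lit 5) (nat_lit 72) (nat_lit 5) (nat_lit 71) (nat_lit 4) (nat_lit 503) (nat_lit 363) (nat_lit 334))) (XT.nd (nat_lit 78) (nat_lit 76) (nat_lit 0) (XT.lf (nat_lit 0) (nat_lit 7987299164) (nat_lit 152) (nat_lit 10304493346) (nat_lit 0) (nat_lit 1894156008) (nat_lit 69) (nat_lit 5) (nat_lit 71) (nat_lit 4) (nat_lit 69) (nat_lit 4) (nat_lit 504) (nat_lit 363) (nat_lit 333)) (XT.lf (nat_lit 0) (nat_lit 5448845851) (nat_lit 76) (nat_lit 10657216543) (nat_lit 76) (nat_lit 4439730323) (nat_lit 68) (nat_lit 4) (nat_lit 69) (nat_lit 5) (nat_lit 69) (nat_lit 4) (nat_lit 505) (nat_lit 363) (nat_lit 332))))))))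
noncomputable def xc26 : XT := (XT.nd (nat_lit 2418) (nat_lit 1064) (nat_lit 0) (XT.nd (nat_lit 1170) (nat_lit 1140) (nat_lit 0) (XT.nd (nat_lit 546) (nat_lit 684) (nat_lit 0) (XT.nd (nat_lit 234) (nat_lit 380) (nat_lit 0) (XT.nd (nat_lit 78) (nat_lit 76) (nat_lit 0) (XT.lf (nat_lit 0) (nat_lit 737341799) (nat_lit 76) (nat_lit 2748150536) (nat_lit 152) (nat_lit 17429830604) (nat_lit 66) (nat_lit 5) (nat_lit 67) (nat_lit 5) (nat_lit 68) (nat_lit 4) (nat_lit 506) (nat_lit 363) (nat_lit 331)) (XT.nd (nat_lit 78) (nat_lit 76) (nat_lit 0) (XT.lf (nat_lit 0) (nat_lit 11655900727) (nat_lit 152) (nat_lit 4247310572) (nat_lit 0) (nat_lit 5388509557) (nat_lit 66) (nat_lit 5) (nat_lit 68) (nat_lit 4) (nat_lit 66) (nat_lit 4) (nat_lit 507) (nat_lit 363) (nat_lit 330)) (XT.lf (nat_lit 0) (nat_lit 12162948670) (nat_lit 76) (nat_lit 7946593596) (nat_lit 76) (nat_lit 1568725223) (nat_lit 65) (nat_lit 4) (nat_lit 66) (nat_lit 5)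 (nat_lit 66) (nat_lit 4) (nat_lit 508) (nat_lit 363) (nat_lit 329)))) (XT.nd (nat_lit 156) (nat_lit 152) (nat_lit 0) (XT.nd (nat_lit 78) (nat_lit 76) (nat_lit 0) (XT.lf (nat_lit 0) (nat_lit 6616064177) (nat_lit 152) (nat_lit 15138363019) (nat_lit 0) (nat_lit 319823603) (nat_lit 63) (nat_lit 5) (nat_lit 65) (nat_lit 4) (nat_lit 63) (nat_lit 4) (nat_lit 509) (nat_lit 363) (nat_lit 328)) (XT.lf (nat_lit 0) (nat_lit 1318363709) (nat_lit 76) (nat_lit 13779075018) (nat_lit 76) (nat_lit 7381732154) (nat_lit 62) (nat_lit 4) (nat_lit 63) (nat_lit 5) (nat_lit 63) (nat_lit 4) (nat_lit 510) (nat_lit 363) (nat_lit 327))) (XT.nd (nat_lit 78) (nat_lit 76) (nat_lit 0) (XT.lf (nat_lit 0) (nat_lit 967353364) (nat_lit 152) (nat_lit 4531773097) (nat_lit 76) (nat_lit 17395383580) (nat_lit 61) (nat_lit 5) (nat_lit 63) (nat_lit 5) (nat_lit 62) (nat_lit 4) (nat_lit 511) (nat_lit 363) (nat_lit 326)) (XT.lf (nat_lit 0) (nat_lit 9466732739)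 (nat_lit 152) (nat_lit 10784040051) (nat_lit 0) (nat_lit 3067898726) (nat_lit 60) (nat_lit 5) (nat_lit 62) (nat_lit 4) (nat_lit 60) (nat_lit 4) (nat_lit 512) (nat_lit 363) (nat_lit 325))))) (XT.nd (nat_lit 312) (nat_lit 380) (nat_lit 0) (XT.nd (nat_lit 156) (nat_lit 152) (nat_lit 0) (XT.nd (nat_lit 78) (nat_lit 76) (nat_lit 0) (XT.lf (nat_lit 0) (nat_lit 6317369917) (nat_lit 76) (nat_lit 11962542879) (nat_lit 76) (nat_lit 5473880791) (nat_lit 59) (nat_lit 4) (nat_lit 60) (nat_lit 5) (nat_lit 60) (nat_lit 4) (nat_lit 513) (nat_lit 363) (nat_lit 324)) (XT.lf (nat_lit 0) (nat_lit 3101402487) (nat_lit 152) (nat_lit 280026761) (nat_lit 76) (nat_lit 20819406626) (nat_lit 58) (nat_lit 5) (nat_lit 60) (nat_lit 5) (nat_lit 59) (nat_lit 4) (nat_lit 514) (nat_lit 363) (nat_lit 323))) (XT.nd (nat_lit 78) (nat_lit 76) (nat_lit 0) (XT.lf (nat_lit 0) (nat_lit 11946154428) (nat_lit 152) (nat_lit 7230236996) (nat_lit 0) (nat_lit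 5479605509) (nat_lit 57) (nat_lit 5) (nat_lit 59) (nat_lit 4) (nat_lit 57) (nat_lit 4) (nat_lit 515) (nat_lit 363) (nat_lit 322)) (XT.lf (nat_lit 0) (nat_lit 10518489559) (nat_lit 76) (nat_lit 10575771596) (nat_lit 76) (nat_lit 4029411595) (nat_lit 56) (nat_lit 4) (nat_lit 57) (nat_lit 5) (nat_lit 57) (nat_lit 4) (nat_lit 516) (nat_lit 363) (nat_lit 321)))) (XT.nd (nat_lit 156) (nat_lit 228) (nat_lit 0) (XT.nd (nat_lit 78) (nat_lit 0) (nat_lit 0) (XT.lf (nat_lit 0) (nat_lit 3161422254) (nat_lit 76) (nat_lit 1658907174) (nat_lit 152) (nat_lit 20783491229) (nat_lit 54) (nat_lit 5) (nat_lit 55) (nat_lit 5) (nat_lit 56) (nat_lit 4) (nat_lit 517) (nat_lit 363) (nat_lit 320)) (XT.lf (nat_lit 0) (nat_lit 13976561501) (nat_lit 152) (nat_lit 4644351199) (nat_lit 0) (nat_lit 7472604136) (nat_lit 54) (nat_lit 5) (nat_lit 56) (nat_lit 4) (nat_lit 54) (nat_lit 4) (nat_lit 518) (nat_lit 363) (nat_lit 319))) (XT.nd (nat_lit 78)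 (nat_lit 152) (nat_lit 0) (XT.lf (nat_lit 0) (nat_lit 13748103389) (nat_lit 76) (nat_lit 9711552002) (nat_lit 76) (nat_lit 3136683524) (nat_lit 53) (nat_lit 4) (nat_lit 54) (nat_lit 5) (nat_lit 54) (nat_lit 4) (nat_lit 519) (nat_lit 363) (nat_lit 318)) (XT.lf (nat_lit 0) (nat_lit 5531994518) (nat_lit 76) (nat_lit 465891558) (nat_lit 152) (nat_lit 21114471682) (nat_lit 51) (nat_lit 5) (nat_lit 52) (nat_lit 5) (nat_lit 53) (nat_lit 4) (nat_lit 520) (nat_lit 363) (nat_lit 317)))))) (XT.nd (nat_lit 624) (nat_lit 608) (nat_lit 0) (XT.nd (nat_lit 312) (nat_lit 304) (nat_lit 0) (XT.nd (nat_lit 156) (nat_lit 152) (nat_lit 0) (XT.nd (nat_lit 78) (nat_lit 76) (nat_lit 0) (XT.lf (nat_lit 0) (nat_lit 15465253396) (nat_lit 152) (nat_lit 3223866468) (nat_lit 0) (nat_lit 8950151705) (nat_lit 51) (nat_lit 5) (nat_lit 53) (nat_lit 4) (nat_lit 51) (nat_lit 4) (nat_lit 521) (nat_lit 363) (nat_lit 316)) (XT.lf (nat_lit 0) (nat_lit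 15801121390) (nat_lit 76) (nat_lit 9478543125) (nat_lit 76) (nat_lit 2900437829) (nat_lit 50) (nat_lit 4) (nat_lit 51) (nat_lit 5) (nat_lit 51) (nat_lit 4) (nat_lit 522) (nat_lit 363) (nat_lit 315))) (XT.nd (nat_lit 78) (nat_lit 0) (nat_lit 0) (XT.lf (nat_lit 0) (nat_lit 6525265400) (nat_lit 152) (nat_lit 22130495071) (nat_lit 0) (nat_lit 79368465) (nat_lit 48) (nat_lit 5) (nat_lit 50) (nat_lit 4) (nat_lit 48) (nat_lit 4) (nat_lit 523) (nat_lit 363) (nat_lit 314)) (XT.lf (nat_lit 0) (nat_lit 16302159035) (nat_lit 152) (nat_lit 3201379652) (nat_lit 0) (nat_lit 9798604876) (nat_lit 48) (nat_lit 5) (nat_lit 50) (nat_lit 4) (nat_lit 48) (nat_lit 4) (nat_lit 524) (nat_lit 363) (nat_lit 313)))) (XT.nd (nat_lit 156) (nat_lit 76) (nat_lit 0) (XT.nd (nat_lit 78) (nat_lit 152) (nat_lit 0) (XT.lf (nat_lit 0) (nat_lit 16435711977) (nat_lit 76) (nat_lit 10003984397) (nat_lit 76) (nat_lit 3444452352) (nat_lit 47) (nat_lit 4)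 (nat_lit 48) (nat_lit 5) (nat_lit 48) (nat_lit 4) (nat_lit 525) (nat_lit 363) (nat_lit 312)) (XT.lf (nat_lit 0) (nat_lit 6121888090) (nat_lit 76) (nat_lit 151889051) (nat_lit 152) (nat_lit 24207965894) (nat_lit 45) (nat_lit 5) (nat_lit 46) (nat_lit 5) (nat_lit 47) (nat_lit 4) (nat_lit 526) (nat_lit 363) (nat_lit 311))) (XT.nd (nat_lit 78) (nat_lit 76) (nat_lit 0) (XT.lf (nat_lit 0) (nat_lit 16356998367) (nat_lit 152) (nat_lit 4850435212) (nat_lit 0) (nat_lit 9884528430) (nat_lit 45) (nat_lit 5) (nat_lit 47) (nat_lit 4) (nat_lit 45) (nat_lit 4) (nat_lit 527) (nat_lit 363) (nat_lit 310)) (XT.lf (nat_lit 0) (nat_lit 15367182786) (nat_lit 76) (nat_lit 11436835722) (nat_lit 76) (nat_lit 4914630158) (nat_lit 44) (nat_lit 4) (nat_lit 45) (nat_lit 5) (nat_lit 45) (nat_lit 4) (nat_lit 528) (nat_lit 363) (nat_lit 309))))) (XT.nd (nat_lit 312) (nat_lit 304) (nat_lit 0) (XT.nd (nat_lit 156) (nat_lit 152) (nat_lit 0) (XT.nd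 (nat_lit 78) (nat_lit 0) (nat_lit 0) (XT.lf (nat_lit 0) (nat_lit 3775819408) (nat_lit 76) (nat_lit 1320886005) (nat_lit 152) (nat_lit 27265994955) (nat_lit 42) (nat_lit 5) (nat_lit 43) (nat_lit 5) (nat_lit 44) (nat_lit 4) (nat_lit 529) (nat_lit 363) (nat_lit 308)) (XT.lf (nat_lit 0) (nat_lit 15475979495) (nat_lit 152) (nat_lit 8492297831) (nat_lit 0) (nat_lit 9051345340) (nat_lit 42) (nat_lit 5) (nat_lit 44) (nat_lit 4) (nat_lit 42) (nat_lit 4) (nat_lit 530) (nat_lit 363) (nat_lit 307))) (XT.nd (nat_lit 78) (nat_lit 76) (nat_lit 0) (XT.lf (nat_lit 0) (nat_lit 12260876506) (nat_lit 76) (nat_lit 13951415057) (nat_lit 76) (nat_lit 7482591442) (nat_lit 41) (nat_lit 4) (nat_lit 42) (nat_lit 5) (nat_lit 42) (nat_lit 4) (nat_lit 531) (nat_lit 363) (nat_lit 306)) (XT.lf (nat_lit 0) (nat_lit 2825439944) (nat_lit 152) (nat_lit 776082916) (nat_lit 76) (nat_lit 30788007242) (nat_lit 40) (nat_lit 5) (nat_lit 42) (nat_lit 5)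 (nat_lit 41) (nat_lit 4) (nat_lit 532) (nat_lit 363) (nat_lit 305)))) (XT.nd (nat_lit 156) (nat_lit 152) (nat_lit 0) (XT.nd (nat_lit 78) (nat_lit 76) (nat_lit 0) (XT.lf (nat_lit 0) (nat_lit 13477957508) (nat_lit 152) (nat_lit 14503813753) (nat_lit 0) (nat_lit 7115453810) (nat_lit 39) (nat_lit 5) (nat_lit 41) (nat_lit 4) (nat_lit 39) (nat_lit 4) (nat_lit 533) (nat_lit 363) (nat_lit 304)) (XT.lf (nat_lit 0) (nat_lit 6723923482) (nat_lit 76) (nat_lit 17751614201) (nat_lit 76) (nat_lit 11349848739) (nat_lit 38) (nat_lit 4) (nat_lit 39) (nat_lit 5) (nat_lit 39) (nat_lit 4) (nat_lit 534) (nat_lit 363) (nat_lit 303))) (XT.nd (nat_lit 78) (nat_lit 152) (nat_lit 0) (XT.lf (nat_lit 0) (nat_lit 28721897873) (nat_lit 76) (nat_lit 7145720679) (nat_lit 76) (nat_lit 705837000) (nat_lit 38) (nat_lit 4) (nat_lit 39) (nat_lit 5) (nat_lit 39) (nat_lit 4) (nat_lit 535) (nat_lit 363) (nat_lit 302)) (XT.lf (nat_lit 0) (nat_lit 10149969274)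 (nat_lit 152) (nat_lit 23326535582) (nat_lit 0) (nat_lit 3861724948) (nat_lit 36) (nat_lit 5) (nat_lit 38) (nat_lit 4) (nat_lit 36) (nat_lit 4) (nat_lit 536) (nat_lit 363) (nat_lit 301))))))) (XT.nd (nat_lit 1248) (nat_lit 152) (nat_lit 0) (XT.nd (nat_lit 624) (nat_lit 456) (nat_lit 0) (XT.nd (nat_lit 312) (nat_lit 228) (nat_lit 0) (XT.nd (nat_lit 156) (nat_lit 152) (nat_lit 0) (XT.nd (nat_lit 78) (nat_lit 76) (nat_lit 0) (XT.lf (nat_lit 0) (nat_lit 21387836846) (nat_lit 152) (nat_lit 1671074748) (nat_lit 0) (nat_lit 15064708951) (nat_lit 36) (nat_lit 5) (nat_lit 38) (nat_lit 4) (nat_lit 36) (nat_lit 4) (nat_lit 537) (nat_lit 363) (nat_lit 300)) (XT.lf (nat_lit 0) (nat_lit 20885508450) (nat_lit 76) (nat_lit 12200187231) (nat_lit 76) (nat_lit 5843191794) (nat_lit 35) (nat_lit 4) (nat_lit 36) (nat_lit 5) (nat_lit 36) (nat_lit 4) (nat_lit 538) (nat_lit 363) (nat_lit 299))) (XT.nd (nat_lit 78) (nat_lit 0) (nat_lit 0)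 (XT.lf (nat_lit 0) (nat_lit 4270614344) (nat_lit 76) (nat_lit 980859000) (nat_lit 152) (nat_lit 34505882690) (nat_lit 33) (nat_lit 5) (nat_lit 34) (nat_lit 5) (nat_lit 35) (nat_lit 4) (nat_lit 539) (nat_lit 363) (nat_lit 298)) (XT.lf (nat_lit 0) (nat_lit 16769345243) (nat_lit 152) (nat_lit 13298775635) (nat_lit 0) (nat_lit 10534588008) (nat_lit 33) (nat_lit 5) (nat_lit 35) (nat_lit 4) (nat_lit 33) (nat_lit 4) (nat_lit 540) (nat_lit 363) (nat_lit 297)))) (XT.nd (nat_lit 156) (nat_lit 152) (nat_lit 0) (XT.nd (nat_lit 78) (nat_lit 0) (nat_lit 0) (XT.lf (nat_lit 0) (nat_lit 9580464428) (nat_lit 76) (nat_lit 19078509744) (nat_lit 76) (nat_lit 12813661636) (nat_lit 32) (nat_lit 4) (nat_lit 33) (nat_lit 5) (nat_lit 33) (nat_lit 4) (nat_lit 541) (nat_lit 363) (nat_lit 296)) (XT.lf (nat_lit 0) (nat_lit 33268576994) (nat_lit 76) (nat_lit 7696181107) (nat_lit 76) (nat_lit 1402118560) (nat_lit 32) (nat_lit 4) (nat_lit 33) (nat_lit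 5) (nat_lit 33) (nat_lit 4) (nat_lit 542) (nat_lit 363) (nat_lit 295))) (XT.nd (nat_lit 78) (nat_lit 0) (nat_lit 0) (XT.lf (nat_lit 0) (nat_lit 10255323905) (nat_lit 152) (nat_lit 28909422949) (nat_lit 0) (nat_lit 4117046158) (nat_lit 30) (nat_lit 5) (nat_lit 32) (nat_lit 4) (nat_lit 30) (nat_lit 4) (nat_lit 543) (nat_lit 363) (nat_lit 294)) (XT.lf (nat_lit 0) (nat_lit 22329960214) (nat_lit 152) (nat_lit 5725963596) (nat_lit 0) (nat_lit 16164947116) (nat_lit 30) (nat_lit 5) (nat_lit 32) (nat_lit 4) (nat_lit 30) (nat_lit 4) (nat_lit 544) (nat_lit 363) (nat_lit 293))))) (XT.nd (nat_lit 312) (nat_lit 228) (nat_lit 0) (XT.nd (nat_lit 156) (nat_lit 76) (nat_lit 0) (XT.nd (nat_lit 78) (nat_lit 76) (nat_lit 0) (XT.lf (nat_lit 0) (nat_lit 18368486049) (nat_lit 76) (nat_lit 16503721902) (nat_lit 76) (nat_lit 10312752153) (nat_lit 29) (nat_lit 4) (nat_lit 30) (nat_lit 5) (nat_lit 30) (nat_lit 4) (nat_lit 545) (nat_lit 363)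 (nat_lit 292)) (XT.lf (nat_lit 0) (nat_lit 1568492387) (nat_lit 152) (nat_lit 3032130834) (nat_lit 76) (nat_lit 41577267389) (nat_lit 28) (nat_lit 5) (nat_lit 30) (nat_lit 5) (nat_lit 29) (nat_lit 4) (nat_lit 546) (nat_lit 363) (nat_lit 291))) (XT.nd (nat_lit 78) (nat_lit 0) (nat_lit 0) (XT.lf (nat_lit 0) (nat_lit 13813906113) (nat_lit 152) (nat_lit 25622154346) (nat_lit 0) (nat_lit 7755035226) (nat_lit 27) (nat_lit 5) (nat_lit 29) (nat_lit 4) (nat_lit 27) (nat_lit 4) (nat_lit 547) (nat_lit 363) (nat_lit 290)) (XT.lf (nat_lit 0) (nat_lit 26434074505) (nat_lit 152) (nat_lit 1448259254) (nat_lit 0) (nat_lit 20352141470) (nat_lit 27) (nat_lit 5) (nat_lit 29) (nat_lit 4) (nat_lit 27) (nat_lit 4) (nat_lit 548) (nat_lit 363) (nat_lit 289)))) (XT.nd (nat_lit 156) (nat_lit 76) (nat_lit 0) (XT.nd (nat_lit 78) (nat_lit 76) (nat_lit 0) (XT.lf (nat_lit 0) (nat_lit 23780103296) (nat_lit 76) (nat_lit 15814265397) (nat_lit 76)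 (nat_lit 9709941927) (nat_lit 26) (nat_lit 4) (nat_lit 27) (nat_lit 5) (nat_lit 27) (nat_lit 4) (nat_lit 549) (nat_lit 363) (nat_lit 288)) (XT.lf (nat_lit 0) (nat_lit 2637414573) (nat_lit 152) (nat_lit 772110172) (nat_lit 76) (nat_lit 46997493888) (nat_lit 25) (nat_lit 5) (nat_lit 27) (nat_lit 5) (nat_lit 26) (nat_lit 4) (nat_lit 550) (nat_lit 363) (nat_lit 287))) (XT.nd (nat_lit 78) (nat_lit 0) (nat_lit 0) (XT.lf (nat_lit 0) (nat_lit 15427824002) (nat_lit 152) (nat_lit 26644365237) (nat_lit 0) (nat_lit 9459700808) (nat_lit 24) (nat_lit 5) (nat_lit 26) (nat_lit 4) (nat_lit 24) (nat_lit 4) (nat_lit 551) (nat_lit 363) (nat_lit 286)) (XT.lf (nat_lit 0) (nat_lit 28578499664) (nat_lit 152) (nat_lit 1522228535) (nat_lit 0) (nat_lit 22590482859) (nat_lit 24) (nat_lit 5) (nat_lit 26) (nat_lit 4) (nat_lit 24) (nat_lit 4) (nat_lit 552) (nat_lit 363) (nat_lit 285)))))) (XT.nd (nat_lit 56628) (nat_lit 0) (nat_lit 5776) (XT.nd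 (nat_lit 56316) (nat_lit 0) (nat_lit 6916) (XT.nd (nat_lit 56160) (nat_lit 0) (nat_lit 7676) (XT.nd (nat_lit 78) (nat_lit 76) (nat_lit 0) (XT.lf (nat_lit 0) (nat_lit 24708643090) (nat_lit 76) (nat_lit 17589384851) (nat_lit 76) (nat_lit 11582053860) (nat_lit 23) (nat_lit 4) (nat_lit 24) (nat_lit 5) (nat_lit 24) (nat_lit 4) (nat_lit 553) (nat_lit 363) (nat_lit 284)) (XT.lf (nat_lit 0) (nat_lit 1251029886) (nat_lit 152) (nat_lit 3486491957) (nat_lit 76) (nat_lit 50368144343) (nat_lit 22) (nat_lit 5) (nat_lit 24) (nat_lit 5) (nat_lit 23) (nat_lit 4) (nat_lit 554) (nat_lit 363) (nat_lit 283))) (XT.nd (nat_lit 78) (nat_lit 152) (nat_lit 0) (XT.lf (nat_lit 0) (nat_lit 2229890898) (nat_lit 228) (nat_lit 1623828372) (nat_lit 0) (nat_lit 2229890898) (nat_lit 125) (nat_lit 5) (nat_lit 128) (nat_lit 4) (nat_lit 125) (nat_lit 4) (nat_lit 472) (nat_lit 364) (nat_lit 364)) (XT.lf (nat_lit 0) (nat_lit 8254539723) (nat_lit 152)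 (nat_lit 2277570081) (nat_lit 152) (nat_lit 1807354866) (nat_lit 123) (nat_lit 4) (nat_lit 125) (nat_lit 5) (nat_lit 125) (nat_lit 4) (nat_lit 473) (nat_lit 364) (nat_lit 363)))) (XT.nd (nat_lit 156) (nat_lit 380) (nat_lit 0) (XT.nd (nat_lit 78) (nat_lit 152) (nat_lit 0) (XT.lf (nat_lit 0) (nat_lit 4198281323) (nat_lit 228) (nat_lit 5018470542) (nat_lit 0) (nat_lit 3298538759) (nat_lit 120) (nat_lit 5) (nat_lit 123) (nat_lit 4) (nat_lit 120) (nat_lit 4) (nat_lit 474) (nat_lit 364) (nat_lit 362)) (XT.lf (nat_lit 0) (nat_lit 6675556715) (nat_lit 152) (nat_lit 3675133788) (nat_lit 152) (nat_lit 2345077693) (nat_lit 118) (nat_lit 4) (nat_lit 120) (nat_lit 5) (nat_lit 120) (nat_lit 4) (nat_lit 475) (nat_lit 364) (nat_lit 361))) (XT.nd (nat_lit 78) (nat_lit 152) (nat_lit 0) (XT.lf (nat_lit 0) (nat_lit 3733348919) (nat_lit 228) (nat_lit 7110746362) (nat_lit 0) (nat_lit 2036420548) (nat_lit 115) (nat_lit 5) (nat_lit 118)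 (nat_lit 4) (nat_lit 115) (nat_lit 4) (nat_lit 476) (nat_lit 364) (nat_lit 360)) (XT.lf (nat_lit 0) (nat_lit 4771587398) (nat_lit 152) (nat_lit 5194340790) (nat_lit 152) (nat_lit 3103614580) (nat_lit 113) (nat_lit 4) (nat_lit 115) (nat_lit 5) (nat_lit 115) (nat_lit 4) (nat_lit 477) (nat_lit 364) (nat_lit 359))))) (XT.nd (nat_lit 312) (nat_lit 608) (nat_lit 0) (XT.nd (nat_lit 156) (nat_lit 152) (nat_lit 0) (XT.nd (nat_lit 78) (nat_lit 152) (nat_lit 0) (XT.lf (nat_lit 0) (nat_lit 3050359567) (nat_lit 228) (nat_lit 9563945489) (nat_lit 0) (nat_lit 649336062) (nat_lit 110) (nat_lit 5) (nat_lit 113) (nat_lit 4) (nat_lit 110) (nat_lit 4) (nat_lit 478) (nat_lit 364) (nat_lit 358)) (XT.lf (nat_lit 0) (nat_lit 2502302815) (nat_lit 152) (nat_lit 6860330782) (nat_lit 152) (nat_lit 4098926470) (nat_lit 108) (nat_lit 4) (nat_lit 110) (nat_lit 5) (nat_lit 110) (nat_lit 4) (nat_lit 479) (nat_lit 364) (nat_lit 357))) (XT.nd (nat_lit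 78) (nat_lit 0) (nat_lit 0) (XT.lf (nat_lit 0) (nat_lit 1236018765) (nat_lit 76) (nat_lit 905511952) (nat_lit 152) (nat_lit 11523685635) (nat_lit 106) (nat_lit 5) (nat_lit 107) (nat_lit 5) (nat_lit 108) (nat_lit 4) (nat_lit 480) (nat_lit 364) (nat_lit 356)) (XT.lf (nat_lit 0) (nat_lit 8525402375) (nat_lit 152) (nat_lit 172271754) (nat_lit 0) (nat_lit 5174934348) (nat_lit 106) (nat_lit 5) (nat_lit 108) (nat_lit 4) (nat_lit 106) (nat_lit 4) (nat_lit 481) (nat_lit 364) (nat_lit 355)))) (XT.nd (nat_lit 156) (nat_lit 304) (nat_lit 0) (XT.nd (nat_lit 78) (nat_lit 76) (nat_lit 0) (XT.lf (nat_lit 0) (nat_lit 1003786151) (nat_lit 228) (nat_lit 1632975820) (nat_lit 76) (nat_lit 11448898469) (nat_lit 103) (nat_lit 5) (nat_lit 106) (nat_lit 5) (nat_lit 104) (nat_lit 4) (nat_lit 482) (nat_lit 364) (nat_lit 354)) (XT.lf (nat_lit 0) (nat_lit 7461845252) (nat_lit 152) (nat_lit 3244668449) (nat_lit 0) (nat_lit 3596282769) (nat_lit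 102) (nat_lit 5) (nat_lit 104) (nat_lit 4) (nat_lit 102) (nat_lit 4) (nat_lit 483) (nat_lit 364) (nat_lit 353))) (XT.nd (nat_lit 78) (nat_lit 152) (nat_lit 0) (XT.lf (nat_lit 0) (nat_lit 9573717056) (nat_lit 152) (nat_lit 4555425385) (nat_lit 152) (nat_lit 396840325) (nat_lit 100) (nat_lit 4) (nat_lit 102) (nat_lit 5) (nat_lit 102) (nat_lit 4) (nat_lit 484) (nat_lit 364) (nat_lit 352)) (XT.lf (nat_lit 0) (nat_lit 6127068544) (nat_lit 152) (nat_lit 6813344492) (nat_lit 0) (nat_lit 1813405440) (nat_lit 98) (nat_lit 5) (nat_lit 100) (nat_lit 4) (nat_lit 98) (nat_lit 4) (nat_lit 485) (nat_lit 364) (nat_lit 351))))))))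
noncomputable def xc27 : XT := (XT.nd (nat_lit 2418) (nat_lit 2204) (nat_lit 0) (XT.nd (nat_lit 1170) (nat_lit 1368) (nat_lit 0) (XT.nd (nat_lit 546) (nat_lit 912) (nat_lit 0) (XT.nd (nat_lit 234) (nat_lit 456) (nat_lit 0) (XT.nd (nat_lit 78) (nat_lit 304) (nat_lit 0) (XT.lf (nat_lit 0) (nat_lit 6180785269) (nat_lit 152) (nat_lit 6694160281) (nat_lit 152) (nat_lit 2112340010) (nat_lit 96) (nat_lit 4) (nat_lit 98) (nat_lit 5) (nat_lit 98) (nat_lit 4) (nat_lit 486) (nat_lit 364) (nat_lit 350)) (XT.nd (nat_lit 78) (nat_lit 152) (nat_lit 0) (XT.lf (nat_lit 0) (nat_lit 4292624537) (nat_lit 76) (nat_lit 207272788) (nat_lit 152) (nat_lit 10726771168) (nat_lit 94) (nat_lit 5) (nat_lit 95) (nat_lit 5) (nat_lit 96) (nat_lit 4) (nat_lit 487) (nat_lit 364) (nat_lit 349)) (XT.lf (nat_lit 0) (nat_lit 2228867700) (nat_lit 152) (nat_lit 9094309787) (nat_lit 152) (nat_lit 4147774950) (nat_lit 92) (nat_lit 4) (nat_lit 94) (nat_lit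 5) (nat_lit 94) (nat_lit 4) (nat_lit 488) (nat_lit 364) (nat_lit 348)))) (XT.nd (nat_lit 156) (nat_lit 304) (nat_lit 0) (XT.nd (nat_lit 78) (nat_lit 0) (nat_lit 0) (XT.lf (nat_lit 0) (nat_lit 38465118) (nat_lit 76) (nat_lit 2534566469) (nat_lit 152) (nat_lit 13148904119) (nat_lit 90) (nat_lit 5) (nat_lit 91) (nat_lit 5) (nat_lit 92) (nat_lit 4) (nat_lit 489) (nat_lit 364) (nat_lit 347)) (XT.lf (nat_lit 0) (nat_lit 9469804398) (nat_lit 152) (nat_lit 2296230379) (nat_lit 0) (nat_lit 4211451260) (nat_lit 90) (nat_lit 5) (nat_lit 92) (nat_lit 4) (nat_lit 90) (nat_lit 4) (nat_lit 490) (nat_lit 364) (nat_lit 346))) (XT.nd (nat_lit 78) (nat_lit 76) (nat_lit 0) (XT.lf (nat_lit 0) (nat_lit 347378660) (nat_lit 228) (nat_lit 4771210773) (nat_lit 76) (nat_lit 11121385410) (nat_lit 87) (nat_lit 5) (nat_lit 90) (nat_lit 5) (nat_lit 88) (nat_lit 4) (nat_lit 491) (nat_lit 364) (nat_lit 345)) (XT.lf (nat_lit 0) (nat_lit 7290948005)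 (nat_lit 152) (nat_lit 7448503530) (nat_lit 0) (nat_lit 1768544900) (nat_lit 86) (nat_lit 5) (nat_lit 88) (nat_lit 4) (nat_lit 86) (nat_lit 4) (nat_lit 492) (nat_lit 364) (nat_lit 344))))) (XT.nd (nat_lit 312) (nat_lit 380) (nat_lit 0) (XT.nd (nat_lit 156) (nat_lit 228) (nat_lit 0) (XT.nd (nat_lit 78) (nat_lit 152) (nat_lit 0) (XT.lf (nat_lit 0) (nat_lit 6476024879) (nat_lit 152) (nat_lit 8014273761) (nat_lit 152) (nat_lit 2292336541) (nat_lit 84) (nat_lit 4) (nat_lit 86) (nat_lit 5) (nat_lit 86) (nat_lit 4) (nat_lit 493) (nat_lit 364) (nat_lit 343)) (XT.lf (nat_lit 0) (nat_lit 3713291734) (nat_lit 76) (nat_lit 1030034076) (nat_lit 152) (nat_lit 12320862466) (nat_lit 82) (nat_lit 5) (nat_lit 83) (nat_lit 5) (nat_lit 84) (nat_lit 4) (nat_lit 494) (nat_lit 364) (nat_lit 342))) (XT.nd (nat_lit 78) (nat_lit 76) (nat_lit 0) (XT.lf (nat_lit 0) (nat_lit 725337277) (nat_lit 152) (nat_lit 11276202342) (nat_lit 152) (nat_lit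 5350241464) (nat_lit 80) (nat_lit 4) (nat_lit 82) (nat_lit 5) (nat_lit 82) (nat_lit 4) (nat_lit 495) (nat_lit 364) (nat_lit 341)) (XT.lf (nat_lit 0) (nat_lit 1826481693) (nat_lit 228) (nat_lit 2395486516) (nat_lit 76) (nat_lit 13424526000) (nat_lit 79) (nat_lit 5) (nat_lit 82) (nat_lit 5) (nat_lit 80) (nat_lit 4) (nat_lit 496) (nat_lit 364) (nat_lit 340)))) (XT.nd (nat_lit 156) (nat_lit 228) (nat_lit 0) (XT.nd (nat_lit 78) (nat_lit 76) (nat_lit 0) (XT.lf (nat_lit 0) (nat_lit 9148178753) (nat_lit 152) (nat_lit 5743573090) (nat_lit 0) (nat_lit 3055592115) (nat_lit 78) (nat_lit 5) (nat_lit 80) (nat_lit 4) (nat_lit 78) (nat_lit 4) (nat_lit 497) (nat_lit 364) (nat_lit 339)) (XT.lf (nat_lit 0) (nat_lit 8952531301) (nat_lit 76) (nat_lit 7779125364) (nat_lit 76) (nat_lit 1524299231) (nat_lit 77) (nat_lit 4) (nat_lit 78) (nat_lit 5) (nat_lit 78) (nat_lit 4) (nat_lit 498) (nat_lit 364) (nat_lit 338))) (XT.nd (nat_lit 78)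 (nat_lit 76) (nat_lit 0) (XT.lf (nat_lit 0) (nat_lit 5470125135) (nat_lit 76) (nat_lit 383306067) (nat_lit 152) (nat_lit 12718641528) (nat_lit 75) (nat_lit 5) (nat_lit 76) (nat_lit 5) (nat_lit 77) (nat_lit 4) (nat_lit 499) (nat_lit 364) (nat_lit 337)) (XT.lf (nat_lit 0) (nat_lit 1716653178) (nat_lit 76) (nat_lit 11776240844) (nat_lit 76) (nat_lit 5402195707) (nat_lit 74) (nat_lit 4) (nat_lit 75) (nat_lit 5) (nat_lit 75) (nat_lit 4) (nat_lit 500) (nat_lit 364) (nat_lit 336)))))) (XT.nd (nat_lit 624) (nat_lit 684) (nat_lit 0) (XT.nd (nat_lit 312) (nat_lit 304) (nat_lit 0) (XT.nd (nat_lit 156) (nat_lit 228) (nat_lit 0) (XT.nd (nat_lit 78) (nat_lit 76) (nat_lit 0) (XT.lf (nat_lit 0) (nat_lit 2119719879) (nat_lit 152) (nat_lit 2215161472) (nat_lit 76) (nat_lit 14891472674) (nat_lit 73) (nat_lit 5) (nat_lit 75) (nat_lit 5) (nat_lit 74) (nat_lit 4) (nat_lit 501) (nat_lit 364) (nat_lit 335)) (XT.lf (nat_lit 0) (nat_lit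 9811755622) (nat_lit 152) (nat_lit 6405065221) (nat_lit 0) (nat_lit 3347540047) (nat_lit 72) (nat_lit 5) (nat_lit 74) (nat_lit 4) (nat_lit 72) (nat_lit 4) (nat_lit 502) (nat_lit 364) (nat_lit 334))) (XT.nd (nat_lit 78) (nat_lit 152) (nat_lit 0) (XT.lf (nat_lit 0) (nat_lit 9054062190) (nat_lit 76) (nat_lit 8726597090) (nat_lit 76) (nat_lit 2130465959) (nat_lit 71) (nat_lit 4) (nat_lit 72) (nat_lit 5) (nat_lit 72) (nat_lit 4) (nat_lit 503) (nat_lit 364) (nat_lit 333)) (XT.lf (nat_lit 0) (nat_lit 4669285599) (nat_lit 76) (nat_lit 943271093) (nat_lit 152) (nat_lit 14653971354) (nat_lit 69) (nat_lit 5) (nat_lit 70) (nat_lit 5) (nat_lit 71) (nat_lit 4) (nat_lit 504) (nat_lit 364) (nat_lit 332)))) (XT.nd (nat_lit 156) (nat_lit 152) (nat_lit 0) (XT.nd (nat_lit 78) (nat_lit 152) (nat_lit 0) (XT.lf (nat_lit 0) (nat_lit 13617553954) (nat_lit 152) (nat_lit 43752827) (nat_lit 0) (nat_lit 6968478661) (nat_lit 69) (nat_lit 5)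 (nat_lit 71) (nat_lit 4) (nat_lit 69) (nat_lit 4) (nat_lit 505) (nat_lit 364) (nat_lit 331)) (XT.lf (nat_lit 0) (nat_lit 903382529) (nat_lit 152) (nat_lit 4932414022) (nat_lit 76) (nat_lit 15166055396) (nat_lit 67) (nat_lit 5) (nat_lit 69) (nat_lit 5) (nat_lit 68) (nat_lit 4) (nat_lit 506) (nat_lit 364) (nat_lit 330))) (XT.nd (nat_lit 78) (nat_lit 76) (nat_lit 0) (XT.lf (nat_lit 0) (nat_lit 8943054983) (nat_lit 152) (nat_lit 10175743800) (nat_lit 0) (nat_lit 2263373358) (nat_lit 66) (nat_lit 5) (nat_lit 68) (nat_lit 4) (nat_lit 66) (nat_lit 4) (nat_lit 507) (nat_lit 364) (nat_lit 329)) (XT.lf (nat_lit 0) (nat_lit 6014842678) (nat_lit 76) (nat_lit 11272055640) (nat_lit 76) (nat_lit 4485114595) (nat_lit 65) (nat_lit 4) (nat_lit 66) (nat_lit 5) (nat_lit 66) (nat_lit 4) (nat_lit 508) (nat_lit 364) (nat_lit 328))))) (XT.nd (nat_lit 312) (nat_lit 304) (nat_lit 0) (XT.nd (nat_lit 156) (nat_lit 228) (nat_lit 0) (XT.nd (nat_lit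 78) (nat_lit 0) (nat_lit 0) (XT.lf (nat_lit 0) (nat_lit 499915874) (nat_lit 76) (nat_lit 3140967021) (nat_lit 152) (nat_lit 18531425569) (nat_lit 63) (nat_lit 5) (nat_lit 64) (nat_lit 5) (nat_lit 65) (nat_lit 4) (nat_lit 509) (nat_lit 364) (nat_lit 327)) (XT.lf (nat_lit 0) (nat_lit 12028782715) (nat_lit 152) (nat_lit 5310990540) (nat_lit 0) (nat_lit 5240259711) (nat_lit 63) (nat_lit 5) (nat_lit 65) (nat_lit 4) (nat_lit 63) (nat_lit 4) (nat_lit 510) (nat_lit 364) (nat_lit 326))) (XT.nd (nat_lit 78) (nat_lit 152) (nat_lit 0) (XT.lf (nat_lit 0) (nat_lit 11538638740) (nat_lit 76) (nat_lit 9171952140) (nat_lit 76) (nat_lit 2288130531) (nat_lit 62) (nat_lit 4) (nat_lit 63) (nat_lit 5) (nat_lit 63) (nat_lit 4) (nat_lit 511) (nat_lit 364) (nat_lit 325)) (XT.lf (nat_lit 0) (nat_lit 5423005963) (nat_lit 76) (nat_lit 685048465) (nat_lit 152) (nat_lit 17319923792) (nat_lit 60) (nat_lit 5) (nat_lit 61) (nat_lit 5) (nat_lit 62)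 (nat_lit 4) (nat_lit 512) (nat_lit 364) (nat_lit 324)))) (XT.nd (nat_lit 156) (nat_lit 228) (nat_lit 0) (XT.nd (nat_lit 78) (nat_lit 76) (nat_lit 0) (XT.lf (nat_lit 0) (nat_lit 14804867989) (nat_lit 152) (nat_lit 1117217213) (nat_lit 0) (nat_lit 7944506240) (nat_lit 60) (nat_lit 5) (nat_lit 62) (nat_lit 4) (nat_lit 60) (nat_lit 4) (nat_lit 513) (nat_lit 364) (nat_lit 323)) (XT.lf (nat_lit 0) (nat_lit 16399290505) (nat_lit 76) (nat_lit 7431036973) (nat_lit 76) (nat_lit 486003648) (nat_lit 59) (nat_lit 4) (nat_lit 60) (nat_lit 5) (nat_lit 60) (nat_lit 4) (nat_lit 514) (nat_lit 364) (nat_lit 322))) (XT.nd (nat_lit 78) (nat_lit 76) (nat_lit 0) (XT.lf (nat_lit 0) (nat_lit 8204708824) (nat_lit 152) (nat_lit 15189682411) (nat_lit 0) (nat_lit 1382146942) (nat_lit 57) (nat_lit 5) (nat_lit 59) (nat_lit 4) (nat_lit 57) (nat_lit 4) (nat_lit 515) (nat_lit 364) (nat_lit 321)) (XT.lf (nat_lit 0) (nat_lit 2304547980) (nat_lit 76)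 (nat_lit 14921754950) (nat_lit 76) (nat_lit 8021706582) (nat_lit 56) (nat_lit 4) (nat_lit 57) (nat_lit 5) (nat_lit 57) (nat_lit 4) (nat_lit 516) (nat_lit 364) (nat_lit 320))))))) (XT.nd (nat_lit 1248) (nat_lit 1064) (nat_lit 0) (XT.nd (nat_lit 624) (nat_lit 532) (nat_lit 0) (XT.nd (nat_lit 312) (nat_lit 304) (nat_lit 0) (XT.nd (nat_lit 156) (nat_lit 152) (nat_lit 0) (XT.nd (nat_lit 78) (nat_lit 76) (nat_lit 0) (XT.lf (nat_lit 0) (nat_lit 828015994) (nat_lit 152) (nat_lit 5294405498) (nat_lit 76) (nat_lit 19609225027) (nat_lit 55) (nat_lit 5) (nat_lit 57) (nat_lit 5) (nat_lit 56) (nat_lit 4) (nat_lit 517) (nat_lit 364) (nat_lit 319)) (XT.lf (nat_lit 0) (nat_lit 9841431959) (nat_lit 152) (nat_lit 13385789034) (nat_lit 0) (nat_lit 2998406315) (nat_lit 54) (nat_lit 5) (nat_lit 56) (nat_lit 4) (nat_lit 54) (nat_lit 4) (nat_lit 518) (nat_lit 364) (nat_lit 318))) (XT.nd (nat_lit 78) (nat_lit 76) (nat_lit 0) (XT.lf (nat_lit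 0) (nat_lit 4739340151) (nat_lit 76) (nat_lit 14452480943) (nat_lit 76) (nat_lit 7540609559) (nat_lit 53) (nat_lit 4) (nat_lit 54) (nat_lit 5) (nat_lit 54) (nat_lit 4) (nat_lit 519) (nat_lit 364) (nat_lit 317)) (XT.lf (nat_lit 0) (nat_lit 1580632308) (nat_lit 152) (nat_lit 3770028321) (nat_lit 76) (nat_lit 21902036907) (nat_lit 52) (nat_lit 5) (nat_lit 54) (nat_lit 5) (nat_lit 53) (nat_lit 4) (nat_lit 520) (nat_lit 364) (nat_lit 316)))) (XT.nd (nat_lit 156) (nat_lit 152) (nat_lit 0) (XT.nd (nat_lit 78) (nat_lit 76) (nat_lit 0) (XT.lf (nat_lit 0) (nat_lit 10917667939) (nat_lit 152) (nat_lit 12786637593) (nat_lit 0) (nat_lit 4079215880) (nat_lit 51) (nat_lit 5) (nat_lit 53) (nat_lit 4) (nat_lit 51) (nat_lit 4) (nat_lit 521) (nat_lit 364) (nat_lit 315)) (XT.lf (nat_lit 0) (nat_lit 5957340252) (nat_lit 76) (nat_lit 14635406313) (nat_lit 76) (nat_lit 7735785707) (nat_lit 50) (nat_lit 4) (nat_lit 51) (nat_lit 5) (nat_lit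 51) (nat_lit 4) (nat_lit 522) (nat_lit 364) (nat_lit 314))) (XT.nd (nat_lit 78) (nat_lit 76) (nat_lit 0) (XT.lf (nat_lit 0) (nat_lit 1675308456) (nat_lit 152) (nat_lit 3558131379) (nat_lit 76) (nat_lit 23654782465) (nat_lit 49) (nat_lit 5) (nat_lit 51) (nat_lit 5) (nat_lit 50) (nat_lit 4) (nat_lit 523) (nat_lit 364) (nat_lit 313)) (XT.lf (nat_lit 0) (nat_lit 11322009283) (nat_lit 152) (nat_lit 13627420141) (nat_lit 0) (nat_lit 4509713390) (nat_lit 48) (nat_lit 5) (nat_lit 50) (nat_lit 4) (nat_lit 48) (nat_lit 4) (nat_lit 524) (nat_lit 364) (nat_lit 312))))) (XT.nd (nat_lit 312) (nat_lit 228) (nat_lit 0) (XT.nd (nat_lit 156) (nat_lit 152) (nat_lit 0) (XT.nd (nat_lit 78) (nat_lit 76) (nat_lit 0) (XT.lf (nat_lit 0) (nat_lit 5714071147) (nat_lit 76) (nat_lit 15599056428) (nat_lit 76) (nat_lit 8732413072) (nat_lit 47) (nat_lit 4) (nat_lit 48) (nat_lit 5) (nat_lit 48) (nat_lit 4) (nat_lit 525) (nat_lit 364) (nat_lit 311))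 (XT.lf (nat_lit 0) (nat_lit 986815750) (nat_lit 152) (nat_lit 4916171910) (nat_lit 76) (nat_lit 24744737957) (nat_lit 46) (nat_lit 5) (nat_lit 48) (nat_lit 5) (nat_lit 47) (nat_lit 4) (nat_lit 526) (nat_lit 364) (nat_lit 310))) (XT.nd (nat_lit 78) (nat_lit 76) (nat_lit 0) (XT.lf (nat_lit 0) (nat_lit 10922768418) (nat_lit 152) (nat_lit 16184433259) (nat_lit 0) (nat_lit 4155161060) (nat_lit 45) (nat_lit 5) (nat_lit 47) (nat_lit 4) (nat_lit 45) (nat_lit 4) (nat_lit 527) (nat_lit 364) (nat_lit 309)) (XT.lf (nat_lit 0) (nat_lit 3722034935) (nat_lit 76) (nat_lit 17493764300) (nat_lit 76) (nat_lit 10677869925) (nat_lit 44) (nat_lit 4) (nat_lit 45) (nat_lit 5) (nat_lit 45) (nat_lit 4) (nat_lit 528) (nat_lit 364) (nat_lit 308)))) (XT.nd (nat_lit 156) (nat_lit 76) (nat_lit 0) (XT.nd (nat_lit 78) (nat_lit 152) (nat_lit 0) (XT.lf (nat_lit 0) (nat_lit 24388792804) (nat_lit 76) (nat_lit 7507764513) (nat_lit 76) (nat_lit 644989540)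 (nat_lit 44) (nat_lit 4) (nat_lit 45) (nat_lit 5) (nat_lit 45) (nat_lit 4) (nat_lit 529) (nat_lit 364) (nat_lit 307)) (XT.lf (nat_lit 0) (nat_lit 9564669660) (nat_lit 152) (nat_lit 20781859730) (nat_lit 0) (nat_lit 2857591876) (nat_lit 42) (nat_lit 5) (nat_lit 44) (nat_lit 4) (nat_lit 42) (nat_lit 4) (nat_lit 530) (nat_lit 364) (nat_lit 306))) (XT.nd (nat_lit 78) (nat_lit 76) (nat_lit 0) (XT.lf (nat_lit 0) (nat_lit 20142337680) (nat_lit 152) (nat_lit 349445815) (nat_lit 0) (nat_lit 13392357507) (nat_lit 42) (nat_lit 5) (nat_lit 44) (nat_lit 4) (nat_lit 42) (nat_lit 4) (nat_lit 531) (nat_lit 364) (nat_lit 305)) (XT.lf (nat_lit 0) (nat_lit 20943994135) (nat_lit 76) (nat_lit 10214285998) (nat_lit 76) (nat_lit 3422653020) (nat_lit 41) (nat_lit 4) (nat_lit 42) (nat_lit 5) (nat_lit 42) (nat_lit 4) (nat_lit 532) (nat_lit 364) (nat_lit 304)))))) (XT.nd (nat_lit 624) (nat_lit 456) (nat_lit 0) (XT.nd (nat_lit 312) (nat_lit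 304) (nat_lit 0) (XT.nd (nat_lit 156) (nat_lit 152) (nat_lit 0) (XT.nd (nat_lit 78) (nat_lit 0) (nat_lit 0) (XT.lf (nat_lit 0) (nat_lit 7065002667) (nat_lit 152) (nat_lit 27799639572) (nat_lit 0) (nat_lit 431922478) (nat_lit 39) (nat_lit 5) (nat_lit 41) (nat_lit 4) (nat_lit 39) (nat_lit 4) (nat_lit 533) (nat_lit 364) (nat_lit 303)) (XT.lf (nat_lit 0) (nat_lit 17958386209) (nat_lit 152) (nat_lit 6782278021) (nat_lit 0) (nat_lit 11287187804) (nat_lit 39) (nat_lit 5) (nat_lit 41) (nat_lit 4) (nat_lit 39) (nat_lit 4) (nat_lit 534) (nat_lit 364) (nat_lit 302))) (XT.nd (nat_lit 78) (nat_lit 76) (nat_lit 0) (XT.lf (nat_lit 0) (nat_lit 15002324173) (nat_lit 76) (nat_lit 14242486567) (nat_lit 76) (nat_lit 7534280183) (nat_lit 38) (nat_lit 4) (nat_lit 39) (nat_lit 5) (nat_lit 39) (nat_lit 4) (nat_lit 535) (nat_lit 364) (nat_lit 301)) (XT.lf (nat_lit 0) (nat_lit 3243450474) (nat_lit 152) (nat_lit 159931995) (nat_lit 76) (nat_lit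 34148791637) (nat_lit 37) (nat_lit 5) (nat_lit 39) (nat_lit 5) (nat_lit 38) (nat_lit 4) (nat_lit 536) (nat_lit 364) (nat_lit 300)))) (XT.nd (nat_lit 156) (nat_lit 152) (nat_lit 0) (XT.nd (nat_lit 78) (nat_lit 76) (nat_lit 0) (XT.lf (nat_lit 0) (nat_lit 14408640325) (nat_lit 152) (nat_lit 16104037431) (nat_lit 0) (nat_lit 7827067483) (nat_lit 36) (nat_lit 5) (nat_lit 38) (nat_lit 4) (nat_lit 36) (nat_lit 4) (nat_lit 537) (nat_lit 364) (nat_lit 299)) (XT.lf (nat_lit 0) (nat_lit 6089162282) (nat_lit 76) (nat_lit 19837844337) (nat_lit 76) (nat_lit 13223390386) (nat_lit 35) (nat_lit 4) (nat_lit 36) (nat_lit 5) (nat_lit 36) (nat_lit 4) (nat_lit 538) (nat_lit 364) (nat_lit 298))) (XT.nd (nat_lit 78) (nat_lit 152) (nat_lit 0) (XT.lf (nat_lit 0) (nat_lit 29128214157) (nat_lit 76) (nat_lit 8750449721) (nat_lit 76) (nat_lit 2104072363) (nat_lit 35) (nat_lit 4) (nat_lit 36) (nat_lit 5) (nat_lit 36) (nat_lit 4) (nat_lit 539)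 (nat_lit 364) (nat_lit 297)) (XT.lf (nat_lit 0) (nat_lit 9235467548) (nat_lit 152) (nat_lit 28847226943) (nat_lit 0) (nat_lit 2752583125) (nat_lit 33) (nat_lit 5) (nat_lit 35) (nat_lit 4) (nat_lit 33) (nat_lit 4) (nat_lit 540) (nat_lit 364) (nat_lit 296))))) (XT.nd (nat_lit 312) (nat_lit 228) (nat_lit 0) (XT.nd (nat_lit 156) (nat_lit 152) (nat_lit 0) (XT.nd (nat_lit 78) (nat_lit 76) (nat_lit 0) (XT.lf (nat_lit 0) (nat_lit 20996854221) (nat_lit 152) (nat_lit 6227442281) (nat_lit 0) (nat_lit 14484755358) (nat_lit 33) (nat_lit 5) (nat_lit 35) (nat_lit 4) (nat_lit 33) (nat_lit 4) (nat_lit 541) (nat_lit 364) (nat_lit 295)) (XT.lf (nat_lit 0) (nat_lit 17264936782) (nat_lit 76) (nat_lit 15940861783) (nat_lit 76) (nat_lit 9400399387) (nat_lit 32) (nat_lit 4) (nat_lit 33) (nat_lit 5) (nat_lit 33) (nat_lit 4) (nat_lit 542) (nat_lit 364) (nat_lit 294))) (XT.nd (nat_lit 78) (nat_lit 76) (nat_lit 0) (XT.lf (nat_lit 0) (nat_lit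 2199111540) (nat_lit 152) (nat_lit 2103803379) (nat_lit 76) (nat_lit 39226926166) (nat_lit 31) (nat_lit 5) (nat_lit 33) (nat_lit 5) (nat_lit 32) (nat_lit 4) (nat_lit 543) (nat_lit 364) (nat_lit 293)) (XT.lf (nat_lit 0) (nat_lit 14176483554) (nat_lit 152) (nat_lit 22521525361) (nat_lit 0) (nat_lit 7773828062) (nat_lit 30) (nat_lit 5) (nat_lit 32) (nat_lit 4) (nat_lit 30) (nat_lit 4) (nat_lit 544) (nat_lit 364) (nat_lit 292)))) (XT.nd (nat_lit 156) (nat_lit 152) (nat_lit 0) (XT.nd (nat_lit 78) (nat_lit 0) (nat_lit 0) (XT.lf (nat_lit 0) (nat_lit 1168931914) (nat_lit 76) (nat_lit 25350415956) (nat_lit 76) (nat_lit 18922559832) (nat_lit 29) (nat_lit 4) (nat_lit 30) (nat_lit 5) (nat_lit 30) (nat_lit 4) (nat_lit 545) (nat_lit 364) (nat_lit 291)) (XT.lf (nat_lit 0) (nat_lit 25894347484) (nat_lit 76) (nat_lit 13497143069) (nat_lit 76) (nat_lit 7044820312) (nat_lit 29) (nat_lit 4) (nat_lit 30) (nat_lit 5) (nat_lit 30) (nat_lit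 4) (nat_lit 546) (nat_lit 364) (nat_lit 290))) (XT.nd (nat_lit 78) (nat_lit 0) (nat_lit 0) (XT.lf (nat_lit 0) (nat_lit 3790302213) (nat_lit 76) (nat_lit 1267027334) (nat_lit 152) (nat_lit 42402640019) (nat_lit 27) (nat_lit 5) (nat_lit 28) (nat_lit 5) (nat_lit 29) (nat_lit 4) (nat_lit 547) (nat_lit 364) (nat_lit 289)) (XT.lf (nat_lit 0) (nat_lit 17632279998) (nat_lit 152) (nat_lit 19549989303) (nat_lit 0) (nat_lit 11322436388) (nat_lit 27) (nat_lit 5) (nat_lit 29) (nat_lit 4) (nat_lit 27) (nat_lit 4) (nat_lit 548) (nat_lit 364) (nat_lit 288))))))))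
noncomputable def xc28 : XT := (XT.nd (nat_lit 58266) (nat_lit 0) (nat_lit 1900) (XT.nd (nat_lit 57018) (nat_lit 0) (nat_lit 4484) (XT.nd (nat_lit 56394) (nat_lit 0) (nat_lit 6612) (XT.nd (nat_lit 234) (nat_lit 76) (nat_lit 0) (XT.nd (nat_lit 78) (nat_lit 152) (nat_lit 0) (XT.lf (nat_lit 0) (nat_lit 5252367788) (nat_lit 76) (nat_lit 25330030255) (nat_lit 76) (nat_lit 18998448359) (nat_lit 26) (nat_lit 4) (nat_lit 27) (nat_lit 5) (nat_lit 27) (nat_lit 4) (nat_lit 549) (nat_lit 364) (nat_lit 287)) (XT.nd (nat_lit 78) (nat_lit 152) (nat_lit 0) (XT.lf (nat_lit 0) (nat_lit 31069975051) (nat_lit 76) (nat_lit 12983997404) (nat_lit 76) (nat_lit 6631310376) (nat_lit 26) (nat_lit 4) (nat_lit 27) (nat_lit 5) (nat_lit 27) (nat_lit 4) (nat_lit 550) (nat_lit 364) (nat_lit 286)) (XT.lf (nat_lit 0) (nat_lit 5766011036) (nat_lit 76) (nat_lit 213884768) (nat_lit 152) (nat_lit 45841428924) (nat_lit 24) (nat_lit 5) (nat_lit 25) (nat_lit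 5) (nat_lit 26) (nat_lit 4) (nat_lit 551) (nat_lit 364) (nat_lit 285)))) (XT.nd (nat_lit 156) (nat_lit 0) (nat_lit 0) (XT.nd (nat_lit 78) (nat_lit 76) (nat_lit 0) (XT.lf (nat_lit 0) (nat_lit 19097391216) (nat_lit 152) (nat_lit 20993723856) (nat_lit 0) (nat_lit 12890526109) (nat_lit 24) (nat_lit 5) (nat_lit 26) (nat_lit 4) (nat_lit 24) (nat_lit 4) (nat_lit 552) (nat_lit 364) (nat_lit 284)) (XT.lf (nat_lit 0) (nat_lit 4787637730) (nat_lit 76) (nat_lit 27807571145) (nat_lit 76) (nat_lit 21581954401) (nat_lit 23) (nat_lit 4) (nat_lit 24) (nat_lit 5) (nat_lit 24) (nat_lit 4) (nat_lit 553) (nat_lit 364) (nat_lit 283))) (XT.nd (nat_lit 55926) (nat_lit 0) (nat_lit 8132) (XT.lf (nat_lit 0) (nat_lit 31650618223) (nat_lit 76) (nat_lit 14998608561) (nat_lit 76) (nat_lit 8754786345) (nat_lit 23) (nat_lit 4) (nat_lit 24) (nat_lit 5) (nat_lit 24) (nat_lit 4) (nat_lit 554) (nat_lit 364) (nat_lit 282)) (XT.lf (nat_lit 0) (nat_lit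 2545187635) (nat_lit 228) (nat_lit 826523307) (nat_lit 0) (nat_lit 2545187635) (nat_lit 130) (nat_lit 5) (nat_lit 133) (nat_lit 4) (nat_lit 130) (nat_lit 4) (nat_lit 470) (nat_lit 365) (nat_lit 365))))) (XT.nd (nat_lit 312) (nat_lit 760) (nat_lit 0) (XT.nd (nat_lit 156) (nat_lit 380) (nat_lit 0) (XT.nd (nat_lit 78) (nat_lit 228) (nat_lit 0) (XT.lf (nat_lit 0) (nat_lit 9546107294) (nat_lit 152) (nat_lit 1476334042) (nat_lit 152) (nat_lit 977482721) (nat_lit 128) (nat_lit 4) (nat_lit 130) (nat_lit 5) (nat_lit 130) (nat_lit 4) (nat_lit 471) (nat_lit 365) (nat_lit 364)) (XT.lf (nat_lit 0) (nat_lit 4881912207) (nat_lit 228) (nat_lit 3359799396) (nat_lit 0) (nat_lit 3927375322) (nat_lit 125) (nat_lit 5) (nat_lit 128) (nat_lit 4) (nat_lit 125) (nat_lit 4) (nat_lit 472) (nat_lit 365) (nat_lit 363))) (XT.nd (nat_lit 78) (nat_lit 228) (nat_lit 0) (XT.lf (nat_lit 0) (nat_lit 8029122001) (nat_lit 152) (nat_lit 2862571496) (nat_lit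 152) (nat_lit 1451514986) (nat_lit 123) (nat_lit 4) (nat_lit 125) (nat_lit 5) (nat_lit 125) (nat_lit 4) (nat_lit 473) (nat_lit 365) (nat_lit 362)) (XT.lf (nat_lit 0) (nat_lit 4477488158) (nat_lit 228) (nat_lit 5366318270) (nat_lit 0) (nat_lit 2677216849) (nat_lit 120) (nat_lit 5) (nat_lit 123) (nat_lit 4) (nat_lit 120) (nat_lit 4) (nat_lit 474) (nat_lit 365) (nat_lit 361)))) (XT.nd (nat_lit 156) (nat_lit 380) (nat_lit 0) (XT.nd (nat_lit 78) (nat_lit 228) (nat_lit 0) (XT.lf (nat_lit 0) (nat_lit 6209350159) (nat_lit 152) (nat_lit 4356068619) (nat_lit 152) (nat_lit 2138017182) (nat_lit 118) (nat_lit 4) (nat_lit 120) (nat_lit 5) (nat_lit 120) (nat_lit 4) (nat_lit 475) (nat_lit 365) (nat_lit 360)) (XT.lf (nat_lit 0) (nat_lit 3863695331) (nat_lit 228) (nat_lit 7710159974) (nat_lit 0) (nat_lit 1316449495) (nat_lit 115) (nat_lit 5) (nat_lit 118) (nat_lit 4) (nat_lit 115) (nat_lit 4) (nat_lit 476) (nat_lit 365) (nat_lit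 359))) (XT.nd (nat_lit 78) (nat_lit 228) (nat_lit 0) (XT.lf (nat_lit 0) (nat_lit 4048448872) (nat_lit 152) (nat_lit 5981227668) (nat_lit 152) (nat_lit 3051653832) (nat_lit 113) (nat_lit 4) (nat_lit 115) (nat_lit 5) (nat_lit 115) (nat_lit 4) (nat_lit 477) (nat_lit 365) (nat_lit 358)) (XT.lf (nat_lit 0) (nat_lit 2844282103) (nat_lit 152) (nat_lit 182835222) (nat_lit 228) (nat_lit 10250522735) (nat_lit 110) (nat_lit 5) (nat_lit 112) (nat_lit 5) (nat_lit 113) (nat_lit 4) (nat_lit 478) (nat_lit 365) (nat_lit 357)))))) (XT.nd (nat_lit 624) (nat_lit 1064) (nat_lit 0) (XT.nd (nat_lit 312) (nat_lit 532) (nat_lit 0) (XT.nd (nat_lit 156) (nat_lit 228) (nat_lit 0) (XT.nd (nat_lit 78) (nat_lit 152) (nat_lit 0) (XT.lf (nat_lit 0) (nat_lit 1505255495) (nat_lit 152) (nat_lit 7763467857) (nat_lit 152) (nat_lit 4208956327) (nat_lit 108) (nat_lit 4) (nat_lit 110) (nat_lit 5) (nat_lit 110) (nat_lit 4) (nat_lit 479) (nat_lit 365) (nat_lit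 356)) (XT.lf (nat_lit 0) (nat_lit 91538687) (nat_lit 76) (nat_lit 1871881851) (nat_lit 152) (nat_lit 11720054575) (nat_lit 106) (nat_lit 5) (nat_lit 107) (nat_lit 5) (nat_lit 108) (nat_lit 4) (nat_lit 480) (nat_lit 365) (nat_lit 355))) (XT.nd (nat_lit 78) (nat_lit 228) (nat_lit 0) (XT.lf (nat_lit 0) (nat_lit 8278969965) (nat_lit 152) (nat_lit 1435952791) (nat_lit 0) (nat_lit 4177994726) (nat_lit 106) (nat_lit 5) (nat_lit 108) (nat_lit 4) (nat_lit 106) (nat_lit 4) (nat_lit 481) (nat_lit 365) (nat_lit 354)) (XT.lf (nat_lit 0) (nat_lit 670797018) (nat_lit 228) (nat_lit 3050124942) (nat_lit 76) (nat_lit 10387268537) (nat_lit 103) (nat_lit 5) (nat_lit 106) (nat_lit 5) (nat_lit 104) (nat_lit 4) (nat_lit 482) (nat_lit 365) (nat_lit 353)))) (XT.nd (nat_lit 156) (nat_lit 304) (nat_lit 0) (XT.nd (nat_lit 78) (nat_lit 152) (nat_lit 0) (XT.lf (nat_lit 0) (nat_lit 7045638905) (nat_lit 152) (nat_lit 4812910950) (nat_lit 0) (nat_lit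 2469273718) (nat_lit 102) (nat_lit 5) (nat_lit 104) (nat_lit 4) (nat_lit 102) (nat_lit 4) (nat_lit 483) (nat_lit 365) (nat_lit 352)) (XT.lf (nat_lit 0) (nat_lit 7864845166) (nat_lit 152) (nat_lit 5774611364) (nat_lit 152) (nat_lit 913758239) (nat_lit 100) (nat_lit 4) (nat_lit 102) (nat_lit 5) (nat_lit 102) (nat_lit 4) (nat_lit 484) (nat_lit 365) (nat_lit 351))) (XT.nd (nat_lit 78) (nat_lit 152) (nat_lit 0) (XT.lf (nat_lit 0) (nat_lit 5532810109) (nat_lit 152) (nat_lit 8705634682) (nat_lit 0) (nat_lit 545378065) (nat_lit 98) (nat_lit 5) (nat_lit 100) (nat_lit 4) (nat_lit 98) (nat_lit 4) (nat_lit 485) (nat_lit 365) (nat_lit 350)) (XT.lf (nat_lit 0) (nat_lit 4141171750) (nat_lit 152) (nat_lit 8063095038) (nat_lit 152) (nat_lit 2815316230) (nat_lit 96) (nat_lit 4) (nat_lit 98) (nat_lit 5) (nat_lit 98) (nat_lit 4) (nat_lit 486) (nat_lit 365) (nat_lit 349))))) (XT.nd (nat_lit 312) (nat_lit 608) (nat_lit 0) (XT.nd (nat_lit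 156) (nat_lit 304) (nat_lit 0) (XT.nd (nat_lit 78) (nat_lit 0) (nat_lit 0) (XT.lf (nat_lit 0) (nat_lit 2076630320) (nat_lit 76) (nat_lit 1655967205) (nat_lit 152) (nat_lit 11528912829) (nat_lit 94) (nat_lit 5) (nat_lit 95) (nat_lit 5) (nat_lit 96) (nat_lit 4) (nat_lit 487) (nat_lit 365) (nat_lit 348)) (XT.lf (nat_lit 0) (nat_lit 10463930683) (nat_lit 152) (nat_lit 159278616) (nat_lit 0) (nat_lit 4885343838) (nat_lit 94) (nat_lit 5) (nat_lit 96) (nat_lit 4) (nat_lit 94) (nat_lit 4) (nat_lit 488) (nat_lit 365) (nat_lit 347))) (XT.nd (nat_lit 78) (nat_lit 76) (nat_lit 0) (XT.lf (nat_lit 0) (nat_lit 1635210310) (nat_lit 228) (nat_lit 2490424642) (nat_lit 76) (nat_lit 11635914726) (nat_lit 91) (nat_lit 5) (nat_lit 94) (nat_lit 5) (nat_lit 92) (nat_lit 4) (nat_lit 489) (nat_lit 365) (nat_lit 346)) (XT.lf (nat_lit 0) (nat_lit 8435634863) (nat_lit 152) (nat_lit 5007438578) (nat_lit 0) (nat_lit 2576917409) (nat_lit 90) (nat_lit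 5) (nat_lit 92) (nat_lit 4) (nat_lit 90) (nat_lit 4) (nat_lit 490) (nat_lit 365) (nat_lit 345)))) (XT.nd (nat_lit 156) (nat_lit 304) (nat_lit 0) (XT.nd (nat_lit 78) (nat_lit 152) (nat_lit 0) (XT.lf (nat_lit 0) (nat_lit 8600219908) (nat_lit 152) (nat_lit 6877618172) (nat_lit 152) (nat_lit 807214975) (nat_lit 88) (nat_lit 4) (nat_lit 90) (nat_lit 5) (nat_lit 90) (nat_lit 4) (nat_lit 491) (nat_lit 365) (nat_lit 344)) (XT.lf (nat_lit 0) (nat_lit 6006708361) (nat_lit 76) (nat_lit 43849125) (nat_lit 152) (nat_lit 10505796763) (nat_lit 86) (nat_lit 5) (nat_lit 87) (nat_lit 5) (nat_lit 88) (nat_lit 4) (nat_lit 492) (nat_lit 365) (nat_lit 343))) (XT.nd (nat_lit 78) (nat_lit 152) (nat_lit 0) (XT.lf (nat_lit 0) (nat_lit 3206526032) (nat_lit 152) (nat_lit 9956955995) (nat_lit 152) (nat_lit 3670104100) (nat_lit 84) (nat_lit 4) (nat_lit 86) (nat_lit 5) (nat_lit 86) (nat_lit 4) (nat_lit 493) (nat_lit 365) (nat_lit 342)) (XT.lf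 (nat_lit 0) (nat_lit 233141119) (nat_lit 76) (nat_lit 3071328366) (nat_lit 152) (nat_lit 13813706605) (nat_lit 82) (nat_lit 5) (nat_lit 83) (nat_lit 5) (nat_lit 84) (nat_lit 4) (nat_lit 494) (nat_lit 365) (nat_lit 341))))))) (XT.nd (nat_lit 1170) (nat_lit 1216) (nat_lit 0) (XT.nd (nat_lit 546) (nat_lit 760) (nat_lit 0) (XT.nd (nat_lit 234) (nat_lit 304) (nat_lit 0) (XT.nd (nat_lit 78) (nat_lit 304) (nat_lit 0) (XT.lf (nat_lit 0) (nat_lit 10481674997) (nat_lit 152) (nat_lit 2908474634) (nat_lit 0) (nat_lit 4018049834) (nat_lit 82) (nat_lit 5) (nat_lit 84) (nat_lit 4) (nat_lit 82) (nat_lit 4) (nat_lit 495) (nat_lit 365) (nat_lit 340)) (XT.nd (nat_lit 78) (nat_lit 76) (nat_lit 0) (XT.lf (nat_lit 0) (nat_lit 197797945) (nat_lit 228) (nat_lit 6234215215) (nat_lit 76) (nat_lit 11273849091) (nat_lit 79) (nat_lit 5) (nat_lit 82) (nat_lit 5) (nat_lit 80) (nat_lit 4) (nat_lit 496) (nat_lit 365) (nat_lit 339)) (XT.lf (nat_lit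 0) (nat_lit 7405978386) (nat_lit 152) (nat_lit 9802871430) (nat_lit 0) (nat_lit 801267974) (nat_lit 78) (nat_lit 5) (nat_lit 80) (nat_lit 4) (nat_lit 78) (nat_lit 4) (nat_lit 497) (nat_lit 365) (nat_lit 338)))) (XT.nd (nat_lit 156) (nat_lit 76) (nat_lit 0) (XT.nd (nat_lit 78) (nat_lit 152) (nat_lit 0) (XT.lf (nat_lit 0) (nat_lit 4708185973) (nat_lit 76) (nat_lit 10187786519) (nat_lit 76) (nat_lit 3425562033) (nat_lit 77) (nat_lit 4) (nat_lit 78) (nat_lit 5) (nat_lit 78) (nat_lit 4) (nat_lit 498) (nat_lit 365) (nat_lit 337)) (XT.lf (nat_lit 0) (nat_lit 988759476) (nat_lit 76) (nat_lit 2904792369) (nat_lit 152) (nat_lit 14747519578) (nat_lit 75) (nat_lit 5) (nat_lit 76) (nat_lit 5) (nat_lit 77) (nat_lit 4) (nat_lit 499) (nat_lit 365) (nat_lit 336))) (XT.nd (nat_lit 78) (nat_lit 76) (nat_lit 0) (XT.lf (nat_lit 0) (nat_lit 11439722582) (nat_lit 152) (nat_lit 2945328585) (nat_lit 0) (nat_lit 4581836279) (nat_lit 75)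 (nat_lit 5) (nat_lit 77) (nat_lit 4) (nat_lit 75) (nat_lit 4) (nat_lit 500) (nat_lit 365) (nat_lit 335)) (XT.lf (nat_lit 0) (nat_lit 12210644099) (nat_lit 76) (nat_lit 7044196507) (nat_lit 76) (nat_lit 46360990) (nat_lit 74) (nat_lit 4) (nat_lit 75) (nat_lit 5) (nat_lit 75) (nat_lit 4) (nat_lit 501) (nat_lit 365) (nat_lit 334))))) (XT.nd (nat_lit 312) (nat_lit 380) (nat_lit 0) (XT.nd (nat_lit 156) (nat_lit 152) (nat_lit 0) (XT.nd (nat_lit 78) (nat_lit 76) (nat_lit 0) (XT.lf (nat_lit 0) (nat_lit 7519832945) (nat_lit 152) (nat_lit 11529289197) (nat_lit 0) (nat_lit 593902322) (nat_lit 72) (nat_lit 5) (nat_lit 74) (nat_lit 4) (nat_lit 72) (nat_lit 4) (nat_lit 502) (nat_lit 365) (nat_lit 333)) (XT.lf (nat_lit 0) (nat_lit 3726381815) (nat_lit 76) (nat_lit 11660237365) (nat_lit 76) (nat_lit 4606233387) (nat_lit 71) (nat_lit 4) (nat_lit 72) (nat_lit 5) (nat_lit 72) (nat_lit 4) (nat_lit 503) (nat_lit 365) (nat_lit 332)))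 (XT.nd (nat_lit 78) (nat_lit 76) (nat_lit 0) (XT.lf (nat_lit 0) (nat_lit 3089348586) (nat_lit 152) (nat_lit 906969411) (nat_lit 76) (nat_lit 16355524107) (nat_lit 70) (nat_lit 5) (nat_lit 72) (nat_lit 5) (nat_lit 71) (nat_lit 4) (nat_lit 504) (nat_lit 365) (nat_lit 331)) (XT.lf (nat_lit 0) (nat_lit 11005221081) (nat_lit 152) (nat_lit 5793805531) (nat_lit 0) (nat_lit 3918746844) (nat_lit 69) (nat_lit 5) (nat_lit 71) (nat_lit 4) (nat_lit 69) (nat_lit 4) (nat_lit 505) (nat_lit 365) (nat_lit 330)))) (XT.nd (nat_lit 156) (nat_lit 152) (nat_lit 0) (XT.nd (nat_lit 78) (nat_lit 152) (nat_lit 0) (XT.lf (nat_lit 0) (nat_lit 10115444580) (nat_lit 76) (nat_lit 9089063100) (nat_lit 76) (nat_lit 1888797345) (nat_lit 68) (nat_lit 4) (nat_lit 69) (nat_lit 5) (nat_lit 69) (nat_lit 4) (nat_lit 506) (nat_lit 365) (nat_lit 329)) (XT.lf (nat_lit 0) (nat_lit 4983379556) (nat_lit 76) (nat_lit 1072838430) (nat_lit 152) (nat_lit 15421897548)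 (nat_lit 66) (nat_lit 5) (nat_lit 67) (nat_lit 5) (nat_lit 68) (nat_lit 4) (nat_lit 507) (nat_lit 365) (nat_lit 328))) (XT.nd (nat_lit 78) (nat_lit 152) (nat_lit 0) (XT.lf (nat_lit 0) (nat_lit 14282708014) (nat_lit 152) (nat_lit 508005121) (nat_lit 0) (nat_lit 7080763959) (nat_lit 66) (nat_lit 5) (nat_lit 68) (nat_lit 4) (nat_lit 66) (nat_lit 4) (nat_lit 508) (nat_lit 365) (nat_lit 327)) (XT.lf (nat_lit 0) (nat_lit 538764305) (nat_lit 152) (nat_lit 6209354804) (nat_lit 76) (nat_lit 15526319566) (nat_lit 64) (nat_lit 5) (nat_lit 66) (nat_lit 5) (nat_lit 65) (nat_lit 4) (nat_lit 509) (nat_lit 365) (nat_lit 326)))))) (XT.nd (nat_lit 624) (nat_lit 608) (nat_lit 0) (XT.nd (nat_lit 312) (nat_lit 304) (nat_lit 0) (XT.nd (nat_lit 156) (nat_lit 152) (nat_lit 0) (XT.nd (nat_lit 78) (nat_lit 76) (nat_lit 0) (XT.lf (nat_lit 0) (nat_lit 8781376341) (nat_lit 152) (nat_lit 12309404161) (nat_lit 0) (nat_lit 1595741480) (nat_lit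 63) (nat_lit 5) (nat_lit 65) (nat_lit 4) (nat_lit 63) (nat_lit 4) (nat_lit 510) (nat_lit 365) (nat_lit 325)) (XT.lf (nat_lit 0) (nat_lit 4305007819) (nat_lit 76) (nat_lit 13040938845) (nat_lit 76) (nat_lit 5762781066) (nat_lit 62) (nat_lit 4) (nat_lit 63) (nat_lit 5) (nat_lit 63) (nat_lit 4) (nat_lit 511) (nat_lit 365) (nat_lit 324))) (XT.nd (nat_lit 78) (nat_lit 76) (nat_lit 0) (XT.lf (nat_lit 0) (nat_lit 2601400353) (nat_lit 152) (nat_lit 2087143137) (nat_lit 76) (nat_lit 18853437415) (nat_lit 61) (nat_lit 5) (nat_lit 63) (nat_lit 5) (nat_lit 62) (nat_lit 4) (nat_lit 512) (nat_lit 365) (nat_lit 323)) (XT.lf (nat_lit 0) (nat_lit 11191438905) (nat_lit 152) (nat_lit 8838975621) (nat_lit 0) (nat_lit 3953383004) (nat_lit 60) (nat_lit 5) (nat_lit 62) (nat_lit 4) (nat_lit 60) (nat_lit 4) (nat_lit 513) (nat_lit 365) (nat_lit 322)))) (XT.nd (nat_lit 156) (nat_lit 76) (nat_lit 0) (XT.nd (nat_lit 78) (nat_lit 152) (nat_lit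 0) (XT.lf (nat_lit 0) (nat_lit 8430635762) (nat_lit 76) (nat_lit 11663424036) (nat_lit 76) (nat_lit 4343162722) (nat_lit 59) (nat_lit 4) (nat_lit 60) (nat_lit 5) (nat_lit 60) (nat_lit 4) (nat_lit 514) (nat_lit 365) (nat_lit 321)) (XT.lf (nat_lit 0) (nat_lit 1294841534) (nat_lit 76) (nat_lit 2988367298) (nat_lit 152) (nat_lit 20619521440) (nat_lit 57) (nat_lit 5) (nat_lit 58) (nat_lit 5) (nat_lit 59) (nat_lit 4) (nat_lit 515) (nat_lit 365) (nat_lit 320))) (XT.nd (nat_lit 78) (nat_lit 76) (nat_lit 0) (XT.lf (nat_lit 0) (nat_lit 13207754112) (nat_lit 152) (nat_lit 6221370888) (nat_lit 0) (nat_lit 5947988207) (nat_lit 57) (nat_lit 5) (nat_lit 59) (nat_lit 4) (nat_lit 57) (nat_lit 4) (nat_lit 516) (nat_lit 365) (nat_lit 319)) (XT.lf (nat_lit 0) (nat_lit 11705294238) (nat_lit 76) (nat_lit 10745852344) (nat_lit 76) (nat_lit 3413047993) (nat_lit 56) (nat_lit 4) (nat_lit 57) (nat_lit 5) (nat_lit 57) (nat_lit 4) (nat_lit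 517) (nat_lit 365) (nat_lit 318))))) (XT.nd (nat_lit 312) (nat_lit 228) (nat_lit 0) (XT.nd (nat_lit 156) (nat_lit 228) (nat_lit 0) (XT.nd (nat_lit 78) (nat_lit 0) (nat_lit 0) (XT.lf (nat_lit 0) (nat_lit 3772068503) (nat_lit 76) (nat_lit 1733243795) (nat_lit 152) (nat_lit 20858697136) (nat_lit 54) (nat_lit 5) (nat_lit 55) (nat_lit 5) (nat_lit 56) (nat_lit 4) (nat_lit 518) (nat_lit 365) (nat_lit 317)) (XT.lf (nat_lit 0) (nat_lit 14748718909) (nat_lit 152) (nat_lit 4631498346) (nat_lit 0) (nat_lit 7493805120) (nat_lit 54) (nat_lit 5) (nat_lit 56) (nat_lit 4) (nat_lit 54) (nat_lit 4) (nat_lit 519) (nat_lit 365) (nat_lit 316))) (XT.nd (nat_lit 78) (nat_lit 152) (nat_lit 0) (XT.lf (nat_lit 0) (nat_lit 13947621339) (nat_lit 76) (nat_lit 10384815910) (nat_lit 76) (nat_lit 3065008408) (nat_lit 53) (nat_lit 4) (nat_lit 54) (nat_lit 5) (nat_lit 54) (nat_lit 4) (nat_lit 520) (nat_lit 365) (nat_lit 315)) (XT.lf (nat_lit 0) (nat_lit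 5107668117) (nat_lit 76) (nat_lit 1045277312) (nat_lit 152) (nat_lit 21781574830) (nat_lit 51) (nat_lit 5) (nat_lit 52) (nat_lit 5) (nat_lit 53) (nat_lit 4) (nat_lit 521) (nat_lit 365) (nat_lit 314)))) (XT.nd (nat_lit 156) (nat_lit 152) (nat_lit 0) (XT.nd (nat_lit 78) (nat_lit 76) (nat_lit 0) (XT.lf (nat_lit 0) (nat_lit 15717304743) (nat_lit 152) (nat_lit 4275408032) (nat_lit 0) (nat_lit 8490140030) (nat_lit 51) (nat_lit 5) (nat_lit 53) (nat_lit 4) (nat_lit 51) (nat_lit 4) (nat_lit 522) (nat_lit 365) (nat_lit 313)) (XT.lf (nat_lit 0) (nat_lit 14943684946) (nat_lit 76) (nat_lit 10693359520) (nat_lit 76) (nat_lit 3408537584) (nat_lit 50) (nat_lit 4) (nat_lit 51) (nat_lit 5) (nat_lit 51) (nat_lit 4) (nat_lit 523) (nat_lit 365) (nat_lit 312))) (XT.nd (nat_lit 78) (nat_lit 0) (nat_lit 0) (XT.lf (nat_lit 0) (nat_lit 5071568556) (nat_lit 76) (nat_lit 1042898625) (nat_lit 152) (nat_lit 23508724695) (nat_lit 48) (nat_lit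 5) (nat_lit 49) (nat_lit 5) (nat_lit 50) (nat_lit 4) (nat_lit 524) (nat_lit 365) (nat_lit 311)) (XT.lf (nat_lit 0) (nat_lit 15998540068) (nat_lit 152) (nat_lit 5395475677) (nat_lit 0) (nat_lit 8818785422) (nat_lit 48) (nat_lit 5) (nat_lit 50) (nat_lit 4) (nat_lit 48) (nat_lit 4) (nat_lit 525) (nat_lit 365) (nat_lit 310))))))))
noncomputable def xc29 : XT := (XT.nd (nat_lit 58110) (nat_lit 0) (nat_lit 3876) (XT.nd (nat_lit 1170) (nat_lit 836) (nat_lit 0) (XT.nd (nat_lit 546) (nat_lit 532) (nat_lit 0) (XT.nd (nat_lit 234) (nat_lit 304) (nat_lit 0) (XT.nd (nat_lit 78) (nat_lit 152) (nat_lit 0) (XT.lf (nat_lit 0) (nat_lit 14441546947) (nat_lit 76) (nat_lit 11803774368) (nat_lit 76) (nat_lit 4572792026) (nat_lit 47) (nat_lit 4) (nat_lit 48) (nat_lit 5) (nat_lit 48) (nat_lit 4) (nat_lit 526) (nat_lit 365) (nat_lit 309)) (XT.nd (nat_lit 78) (nat_lit 0) (nat_lit 0) (XT.lf (nat_lit 0) (nat_lit 3393181494) (nat_lit 76) (nat_lit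 1864897059) (nat_lit 152) (nat_lit 26181820100) (nat_lit 45) (nat_lit 5) (nat_lit 46) (nat_lit 5) (nat_lit 47) (nat_lit 4) (nat_lit 527) (nat_lit 365) (nat_lit 308)) (XT.lf (nat_lit 0) (nat_lit 15456580053) (nat_lit 152) (nat_lit 8276419755) (nat_lit 0) (nat_lit 8341041232) (nat_lit 45) (nat_lit 5) (nat_lit 47) (nat_lit 4) (nat_lit 45) (nat_lit 4) (nat_lit 528) (nat_lit 365) (nat_lit 307)))) (XT.nd (nat_lit 156) (nat_lit 152) (nat_lit 0) (XT.nd (nat_lit 78) (nat_lit 76) (nat_lit 0) (XT.lf (nat_lit 0) (nat_lit 12144952813) (nat_lit 76) (nat_lit 13870833268) (nat_lit 76) (nat_lit 6709779301) (nat_lit 44) (nat_lit 4) (nat_lit 45) (nat_lit 5) (nat_lit 45) (nat_lit 4) (nat_lit 529) (nat_lit 365) (nat_lit 306)) (XT.lf (nat_lit 0) (nat_lit 3430900220) (nat_lit 152) (nat_lit 240515979) (nat_lit 76) (nat_lit 29724092391) (nat_lit 43) (nat_lit 5) (nat_lit 45) (nat_lit 5) (nat_lit 44) (nat_lit 4) (nat_lit 530) (nat_lit 365)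 (nat_lit 305))) (XT.nd (nat_lit 78) (nat_lit 76) (nat_lit 0) (XT.lf (nat_lit 0) (nat_lit 13931297906) (nat_lit 152) (nat_lit 13252285473) (nat_lit 0) (nat_lit 6894263133) (nat_lit 42) (nat_lit 5) (nat_lit 44) (nat_lit 4) (nat_lit 42) (nat_lit 4) (nat_lit 531) (nat_lit 365) (nat_lit 304)) (XT.lf (nat_lit 0) (nat_lit 7706005895) (nat_lit 76) (nat_lit 17075539045) (nat_lit 76) (nat_lit 9998064657) (nat_lit 41) (nat_lit 4) (nat_lit 42) (nat_lit 5) (nat_lit 42) (nat_lit 4) (nat_lit 532) (nat_lit 365) (nat_lit 303))))) (XT.nd (nat_lit 312) (nat_lit 304) (nat_lit 0) (XT.nd (nat_lit 156) (nat_lit 76) (nat_lit 0) (XT.nd (nat_lit 78) (nat_lit 76) (nat_lit 0) (XT.lf (nat_lit 0) (nat_lit 503127319) (nat_lit 152) (nat_lit 6095387693) (nat_lit 76) (nat_lit 28902065634) (nat_lit 40) (nat_lit 5) (nat_lit 42) (nat_lit 5) (nat_lit 41) (nat_lit 4) (nat_lit 533) (nat_lit 365) (nat_lit 302)) (XT.lf (nat_lit 0) (nat_lit 11234321655)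 (nat_lit 152) (nat_lit 20714550949) (nat_lit 0) (nat_lit 4287861103) (nat_lit 39) (nat_lit 5) (nat_lit 41) (nat_lit 4) (nat_lit 39) (nat_lit 4) (nat_lit 534) (nat_lit 365) (nat_lit 301))) (XT.nd (nat_lit 78) (nat_lit 0) (nat_lit 0) (XT.lf (nat_lit 0) (nat_lit 716663380) (nat_lit 76) (nat_lit 21629469159) (nat_lit 76) (nat_lit 14647078531) (nat_lit 38) (nat_lit 4) (nat_lit 39) (nat_lit 5) (nat_lit 39) (nat_lit 4) (nat_lit 535) (nat_lit 365) (nat_lit 300)) (XT.lf (nat_lit 0) (nat_lit 23065442241) (nat_lit 76) (nat_lit 10860093843) (nat_lit 76) (nat_lit 3842819647) (nat_lit 38) (nat_lit 4) (nat_lit 39) (nat_lit 5) (nat_lit 39) (nat_lit 4) (nat_lit 536) (nat_lit 365) (nat_lit 299)))) (XT.nd (nat_lit 156) (nat_lit 152) (nat_lit 0) (XT.nd (nat_lit 78) (nat_lit 0) (nat_lit 0) (XT.lf (nat_lit 0) (nat_lit 7144428058) (nat_lit 152) (nat_lit 31121535553) (nat_lit 0) (nat_lit 298659380) (nat_lit 36) (nat_lit 5) (nat_lit 38)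 (nat_lit 4) (nat_lit 36) (nat_lit 4) (nat_lit 537) (nat_lit 365) (nat_lit 298)) (XT.lf (nat_lit 0) (nat_lit 18568085860) (nat_lit 152) (nat_lit 9119636432) (nat_lit 0) (nat_lit 11690393776) (nat_lit 36) (nat_lit 5) (nat_lit 38) (nat_lit 4) (nat_lit 36) (nat_lit 4) (nat_lit 538) (nat_lit 365) (nat_lit 297))) (XT.nd (nat_lit 78) (nat_lit 76) (nat_lit 0) (XT.lf (nat_lit 0) (nat_lit 13666148270) (nat_lit 76) (nat_lit 16728374689) (nat_lit 76) (nat_lit 9819689006) (nat_lit 35) (nat_lit 4) (nat_lit 36) (nat_lit 5) (nat_lit 36) (nat_lit 4) (nat_lit 539) (nat_lit 365) (nat_lit 296)) (XT.lf (nat_lit 0) (nat_lit 1492807410) (nat_lit 152) (nat_lit 3908377512) (nat_lit 76) (nat_lit 35673121579) (nat_lit 34) (nat_lit 5) (nat_lit 36) (nat_lit 5) (nat_lit 35) (nat_lit 4) (nat_lit 540) (nat_lit 365) (nat_lit 295)))))) (XT.nd (nat_lit 624) (nat_lit 304) (nat_lit 0) (XT.nd (nat_lit 312) (nat_lit 228) (nat_lit 0) (XT.nd (nat_lit 156)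 (nat_lit 152) (nat_lit 0) (XT.nd (nat_lit 78) (nat_lit 76) (nat_lit 0) (XT.lf (nat_lit 0) (nat_lit 13128481692) (nat_lit 152) (nat_lit 22459928583) (nat_lit 0) (nat_lit 6363441891) (nat_lit 33) (nat_lit 5) (nat_lit 35) (nat_lit 4) (nat_lit 33) (nat_lit 4) (nat_lit 541) (nat_lit 365) (nat_lit 294)) (XT.lf (nat_lit 0) (nat_lit 639688106) (nat_lit 76) (nat_lit 24503851996) (nat_lit 76) (nat_lit 17711274784) (nat_lit 32) (nat_lit 4) (nat_lit 33) (nat_lit 5) (nat_lit 33) (nat_lit 4) (nat_lit 542) (nat_lit 365) (nat_lit 293))) (XT.nd (nat_lit 78) (nat_lit 152) (nat_lit 0) (XT.lf (nat_lit 0) (nat_lit 24755321893) (nat_lit 76) (nat_lit 12922053747) (nat_lit 76) (nat_lit 6102741184) (nat_lit 32) (nat_lit 4) (nat_lit 33) (nat_lit 5) (nat_lit 33) (nat_lit 4) (nat_lit 543) (nat_lit 365) (nat_lit 292)) (XT.lf (nat_lit 0) (nat_lit 4763208607) (nat_lit 76) (nat_lit 955253372) (nat_lit 152) (nat_lit 39013668338) (nat_lit 30) (nat_lit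 5) (nat_lit 31) (nat_lit 5) (nat_lit 32) (nat_lit 4) (nat_lit 544) (nat_lit 365) (nat_lit 291)))) (XT.nd (nat_lit 156) (nat_lit 152) (nat_lit 0) (XT.nd (nat_lit 78) (nat_lit 76) (nat_lit 0) (XT.lf (nat_lit 0) (nat_lit 18007848314) (nat_lit 152) (nat_lit 16358467872) (nat_lit 0) (nat_lit 11337489241) (nat_lit 30) (nat_lit 5) (nat_lit 32) (nat_lit 4) (nat_lit 30) (nat_lit 4) (nat_lit 545) (nat_lit 365) (nat_lit 290)) (XT.lf (nat_lit 0) (nat_lit 7975657010) (nat_lit 76) (nat_lit 22711228930) (nat_lit 76) (nat_lit 16017115845) (nat_lit 29) (nat_lit 4) (nat_lit 30) (nat_lit 5) (nat_lit 30) (nat_lit 4) (nat_lit 546) (nat_lit 365) (nat_lit 289))) (XT.nd (nat_lit 78) (nat_lit 152) (nat_lit 0) (XT.lf (nat_lit 0) (nat_lit 33245602315) (nat_lit 76) (nat_lit 10601378230) (nat_lit 76) (nat_lit 3884202997) (nat_lit 29) (nat_lit 4) (nat_lit 30) (nat_lit 5) (nat_lit 30) (nat_lit 4) (nat_lit 547) (nat_lit 365) (nat_lit 288)) (XT.lf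 (nat_lit 0) (nat_lit 8501316941) (nat_lit 152) (nat_lit 38325630341) (nat_lit 0) (nat_lit 1958049302) (nat_lit 27) (nat_lit 5) (nat_lit 29) (nat_lit 4) (nat_lit 27) (nat_lit 4) (nat_lit 548) (nat_lit 365) (nat_lit 287))))) (XT.nd (nat_lit 312) (nat_lit 76) (nat_lit 0) (XT.nd (nat_lit 156) (nat_lit 152) (nat_lit 0) (XT.nd (nat_lit 78) (nat_lit 76) (nat_lit 0) (XT.lf (nat_lit 0) (nat_lit 21369804060) (nat_lit 152) (nat_lit 13688350916) (nat_lit 0) (nat_lit 14805431288) (nat_lit 27) (nat_lit 5) (nat_lit 29) (nat_lit 4) (nat_lit 27) (nat_lit 4) (nat_lit 549) (nat_lit 365) (nat_lit 286)) (XT.lf (nat_lit 0) (nat_lit 11794859848) (nat_lit 76) (nat_lit 22881488489) (nat_lit 76) (nat_lit 16296625297) (nat_lit 26) (nat_lit 4) (nat_lit 27) (nat_lit 5) (nat_lit 27) (nat_lit 4) (nat_lit 550) (nat_lit 365) (nat_lit 285))) (XT.nd (nat_lit 78) (nat_lit 152) (nat_lit 0) (XT.lf (nat_lit 0) (nat_lit 38201026755) (nat_lit 76) (nat_lit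 10258524439) (nat_lit 76) (nat_lit 3653767635) (nat_lit 26) (nat_lit 4) (nat_lit 27) (nat_lit 5) (nat_lit 27) (nat_lit 4) (nat_lit 551) (nat_lit 365) (nat_lit 284)) (XT.lf (nat_lit 0) (nat_lit 9270507526) (nat_lit 152) (nat_lit 41172746366) (nat_lit 0) (nat_lit 2839370644) (nat_lit 24) (nat_lit 5) (nat_lit 26) (nat_lit 4) (nat_lit 24) (nat_lit 4) (nat_lit 552) (nat_lit 365) (nat_lit 283)))) (XT.nd (nat_lit 55848) (nat_lit 0) (nat_lit 8360) (XT.nd (nat_lit 78) (nat_lit 76) (nat_lit 0) (XT.lf (nat_lit 0) (nat_lit 22692965883) (nat_lit 152) (nat_lit 15543818032) (nat_lit 0) (nat_lit 16243623528) (nat_lit 24) (nat_lit 5) (nat_lit 26) (nat_lit 4) (nat_lit 24) (nat_lit 4) (nat_lit 553) (nat_lit 365) (nat_lit 282)) (XT.lf (nat_lit 0) (nat_lit 10951379328) (nat_lit 76) (nat_lit 25614169313) (nat_lit 76) (nat_lit 19147151741) (nat_lit 23) (nat_lit 4) (nat_lit 24) (nat_lit 5) (nat_lit 24) (nat_lit 4) (nat_lit 554) (nat_lit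 365) (nat_lit 281))) (XT.nd (nat_lit 78) (nat_lit 228) (nat_lit 0) (XT.lf (nat_lit 0) (nat_lit 2851660436) (nat_lit 228) (nat_lit 53044005) (nat_lit 0) (nat_lit 2851660436) (nat_lit 136) (nat_lit 5) (nat_lit 139) (nat_lit 4) (nat_lit 136) (nat_lit 4) (nat_lit 468) (nat_lit 366) (nat_lit 366)) (XT.lf (nat_lit 0) (nat_lit 10796122894) (nat_lit 228) (nat_lit 703013960) (nat_lit 228) (nat_lit 173782594) (nat_lit 133) (nat_lit 4) (nat_lit 136) (nat_lit 5) (nat_lit 136) (nat_lit 4) (nat_lit 469) (nat_lit 366) (nat_lit 365))))))) (XT.nd (nat_lit 1248) (nat_lit 1824) (nat_lit 0) (XT.nd (nat_lit 624) (nat_lit 1140) (nat_lit 0) (XT.nd (nat_lit 312) (nat_lit 760) (nat_lit 0) (XT.nd (nat_lit 156) (nat_lit 380) (nat_lit 0) (XT.nd (nat_lit 78) (nat_lit 152) (nat_lit 0) (XT.lf (nat_lit 0) (nat_lit 5543394008) (nat_lit 228) (nat_lit 1761502167) (nat_lit 0) (nat_lit 4530725826) (nat_lit 130) (nat_lit 5) (nat_lit 133) (nat_lit 4)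 (nat_lit 130) (nat_lit 4) (nat_lit 470) (nat_lit 366) (nat_lit 364)) (XT.lf (nat_lit 0) (nat_lit 9328101000) (nat_lit 152) (nat_lit 2086236157) (nat_lit 152) (nat_lit 589246305) (nat_lit 128) (nat_lit 4) (nat_lit 130) (nat_lit 5) (nat_lit 130) (nat_lit 4) (nat_lit 471) (nat_lit 366) (nat_lit 363))) (XT.nd (nat_lit 78) (nat_lit 152) (nat_lit 0) (XT.lf (nat_lit 0) (nat_lit 5194135406) (nat_lit 228) (nat_lit 3696325337) (nat_lit 0) (nat_lit 3284227574) (nat_lit 125) (nat_lit 5) (nat_lit 128) (nat_lit 4) (nat_lit 125) (nat_lit 4) (nat_lit 472) (nat_lit 366) (nat_lit 362)) (XT.lf (nat_lit 0) (nat_lit 7578089590) (nat_lit 152) (nat_lit 3562870279) (nat_lit 152) (nat_lit 1209739510) (nat_lit 123) (nat_lit 4) (nat_lit 125) (nat_lit 5) (nat_lit 125) (nat_lit 4) (nat_lit 473) (nat_lit 366) (nat_lit 361)))) (XT.nd (nat_lit 156) (nat_lit 380) (nat_lit 0) (XT.nd (nat_lit 78) (nat_lit 152) (nat_lit 0) (XT.lf (nat_lit 0) (nat_lit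 4643277090) (nat_lit 228) (nat_lit 5946402190) (nat_lit 0) (nat_lit 1940903983) (nat_lit 120) (nat_lit 5) (nat_lit 123) (nat_lit 4) (nat_lit 120) (nat_lit 4) (nat_lit 474) (nat_lit 366) (nat_lit 360)) (XT.lf (nat_lit 0) (nat_lit 5509531164) (nat_lit 152) (nat_lit 5156699849) (nat_lit 152) (nat_lit 2048714967) (nat_lit 118) (nat_lit 4) (nat_lit 120) (nat_lit 5) (nat_lit 120) (nat_lit 4) (nat_lit 475) (nat_lit 366) (nat_lit 359))) (XT.nd (nat_lit 78) (nat_lit 152) (nat_lit 0) (XT.lf (nat_lit 0) (nat_lit 3876869108) (nat_lit 228) (nat_lit 8550072165) (nat_lit 0) (nat_lit 477080059) (nat_lit 115) (nat_lit 5) (nat_lit 118) (nat_lit 4) (nat_lit 115) (nat_lit 4) (nat_lit 476) (nat_lit 366) (nat_lit 358)) (XT.lf (nat_lit 0) (nat_lit 3083281549) (nat_lit 152) (nat_lit 6892381463) (nat_lit 152) (nat_lit 3121400181) (nat_lit 113) (nat_lit 4) (nat_lit 115) (nat_lit 5) (nat_lit 115) (nat_lit 4) (nat_lit 477) (nat_lit 366) (nat_lit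 357))))) (XT.nd (nat_lit 312) (nat_lit 608) (nat_lit 0) (XT.nd (nat_lit 156) (nat_lit 152) (nat_lit 0) (XT.nd (nat_lit 78) (nat_lit 152) (nat_lit 0) (XT.lf (nat_lit 0) (nat_lit 1735894854) (nat_lit 152) (nat_lit 1154379502) (nat_lit 228) (nat_lit 10405172999) (nat_lit 110) (nat_lit 5) (nat_lit 112) (nat_lit 5) (nat_lit 113) (nat_lit 4) (nat_lit 478) (nat_lit 366) (nat_lit 356)) (XT.lf (nat_lit 0) (nat_lit 257313832) (nat_lit 152) (nat_lit 8795633194) (nat_lit 152) (nat_lit 4444908563) (nat_lit 108) (nat_lit 4) (nat_lit 110) (nat_lit 5) (nat_lit 110) (nat_lit 4) (nat_lit 479) (nat_lit 366) (nat_lit 355))) (XT.nd (nat_lit 78) (nat_lit 76) (nat_lit 0) (XT.lf (nat_lit 0) (nat_lit 1673691723) (nat_lit 228) (nat_lit 1282929922) (nat_lit 76) (nat_lit 10748849423) (nat_lit 107) (nat_lit 5) (nat_lit 110) (nat_lit 5) (nat_lit 108) (nat_lit 4) (nat_lit 480) (nat_lit 366) (nat_lit 354)) (XT.lf (nat_lit 0) (nat_lit 7908798205)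 (nat_lit 152) (nat_lit 2954796706) (nat_lit 0) (nat_lit 3053732378) (nat_lit 106) (nat_lit 5) (nat_lit 108) (nat_lit 4) (nat_lit 106) (nat_lit 4) (nat_lit 481) (nat_lit 366) (nat_lit 353)))) (XT.nd (nat_lit 156) (nat_lit 304) (nat_lit 0) (XT.nd (nat_lit 78) (nat_lit 76) (nat_lit 0) (XT.lf (nat_lit 0) (nat_lit 211652721) (nat_lit 228) (nat_lit 4727224054) (nat_lit 76) (nat_lit 9196005718) (nat_lit 103) (nat_lit 5) (nat_lit 106) (nat_lit 5) (nat_lit 104) (nat_lit 4) (nat_lit 482) (nat_lit 366) (nat_lit 352)) (XT.lf (nat_lit 0) (nat_lit 6501129099) (nat_lit 152) (nat_lit 6645985507) (nat_lit 0) (nat_lit 1209962443) (nat_lit 102) (nat_lit 5) (nat_lit 104) (nat_lit 4) (nat_lit 102) (nat_lit 4) (nat_lit 483) (nat_lit 366) (nat_lit 351))) (XT.nd (nat_lit 78) (nat_lit 152) (nat_lit 0) (XT.lf (nat_lit 0) (nat_lit 5889057484) (nat_lit 152) (nat_lit 7131505652) (nat_lit 152) (nat_lit 1564137115) (nat_lit 100) (nat_lit 4) (nat_lit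 102) (nat_lit 5) (nat_lit 102) (nat_lit 4) (nat_lit 484) (nat_lit 366) (nat_lit 350)) (XT.lf (nat_lit 0) (nat_lit 3936536784) (nat_lit 76) (nat_lit 877287101) (nat_lit 152) (nat_lit 10004111436) (nat_lit 98) (nat_lit 5) (nat_lit 99) (nat_lit 5) (nat_lit 100) (nat_lit 4) (nat_lit 485) (nat_lit 366) (nat_lit 349)))))) (XT.nd (nat_lit 624) (nat_lit 912) (nat_lit 0) (XT.nd (nat_lit 312) (nat_lit 380) (nat_lit 0) (XT.nd (nat_lit 156) (nat_lit 304) (nat_lit 0) (XT.nd (nat_lit 78) (nat_lit 76) (nat_lit 0) (XT.lf (nat_lit 0) (nat_lit 1824237807) (nat_lit 152) (nat_lit 9575178423) (nat_lit 152) (nat_lit 3656855639) (nat_lit 96) (nat_lit 4) (nat_lit 98) (nat_lit 5) (nat_lit 98) (nat_lit 4) (nat_lit 486) (nat_lit 366) (nat_lit 348)) (XT.lf (nat_lit 0) (nat_lit 2832430664) (nat_lit 228) (nat_lit 413890328) (nat_lit 76) (nat_lit 12054372791) (nat_lit 95) (nat_lit 5) (nat_lit 98) (nat_lit 5) (nat_lit 96) (nat_lit 4) (nat_lit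 487) (nat_lit 366) (nat_lit 347))) (XT.nd (nat_lit 78) (nat_lit 228) (nat_lit 0) (XT.lf (nat_lit 0) (nat_lit 9489430846) (nat_lit 152) (nat_lit 2786618629) (nat_lit 0) (nat_lit 3273917499) (nat_lit 94) (nat_lit 5) (nat_lit 96) (nat_lit 4) (nat_lit 94) (nat_lit 4) (nat_lit 488) (nat_lit 366) (nat_lit 346)) (XT.lf (nat_lit 0) (nat_lit 558226208) (nat_lit 228) (nat_lit 5306891548) (nat_lit 76) (nat_lit 9940565958) (nat_lit 91) (nat_lit 5) (nat_lit 94) (nat_lit 5) (nat_lit 92) (nat_lit 4) (nat_lit 489) (nat_lit 366) (nat_lit 345)))) (XT.nd (nat_lit 156) (nat_lit 152) (nat_lit 0) (XT.nd (nat_lit 78) (nat_lit 152) (nat_lit 0) (XT.lf (nat_lit 0) (nat_lit 7259290324) (nat_lit 152) (nat_lit 8012726470) (nat_lit 0) (nat_lit 795089287) (nat_lit 90) (nat_lit 5) (nat_lit 92) (nat_lit 4) (nat_lit 90) (nat_lit 4) (nat_lit 490) (nat_lit 366) (nat_lit 344)) (XT.lf (nat_lit 0) (nat_lit 5431348615) (nat_lit 152) (nat_lit 8786524909)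 (nat_lit 152) (nat_lit 2116803733) (nat_lit 88) (nat_lit 4) (nat_lit 90) (nat_lit 5) (nat_lit 90) (nat_lit 4) (nat_lit 491) (nat_lit 366) (nat_lit 343))) (XT.nd (nat_lit 78) (nat_lit 0) (nat_lit 0) (XT.lf (nat_lit 0) (nat_lit 2633164514) (nat_lit 76) (nat_lit 2047830463) (nat_lit 152) (nat_lit 11927927337) (nat_lit 86) (nat_lit 5) (nat_lit 87) (nat_lit 5) (nat_lit 88) (nat_lit 4) (nat_lit 492) (nat_lit 366) (nat_lit 342)) (XT.lf (nat_lit 0) (nat_lit 11690846364) (nat_lit 152) (nat_lit 364813934) (nat_lit 0) (nat_lit 4833586428) (nat_lit 86) (nat_lit 5) (nat_lit 88) (nat_lit 4) (nat_lit 86) (nat_lit 4) (nat_lit 493) (nat_lit 366) (nat_lit 341))))) (XT.nd (nat_lit 312) (nat_lit 304) (nat_lit 0) (XT.nd (nat_lit 156) (nat_lit 304) (nat_lit 0) (XT.nd (nat_lit 78) (nat_lit 76) (nat_lit 0) (XT.lf (nat_lit 0) (nat_lit 1747210014) (nat_lit 228) (nat_lit 3493025587) (nat_lit 76) (nat_lit 11935805709) (nat_lit 83) (nat_lit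 5) (nat_lit 86) (nat_lit 5) (nat_lit 84) (nat_lit 4) (nat_lit 494) (nat_lit 366) (nat_lit 340)) (XT.lf (nat_lit 0) (nat_lit 8816153377) (nat_lit 152) (nat_lit 6843943384) (nat_lit 0) (nat_lit 1809216100) (nat_lit 82) (nat_lit 5) (nat_lit 84) (nat_lit 4) (nat_lit 82) (nat_lit 4) (nat_lit 495) (nat_lit 366) (nat_lit 339))) (XT.nd (nat_lit 78) (nat_lit 152) (nat_lit 0) (XT.lf (nat_lit 0) (nat_lit 7358773559) (nat_lit 152) (nat_lit 8792514933) (nat_lit 152) (nat_lit 1618470976) (nat_lit 80) (nat_lit 4) (nat_lit 82) (nat_lit 5) (nat_lit 82) (nat_lit 4) (nat_lit 496) (nat_lit 366) (nat_lit 338)) (XT.lf (nat_lit 0) (nat_lit 3870180343) (nat_lit 76) (nat_lit 1650245172) (nat_lit 152) (nat_lit 12557082495) (nat_lit 78) (nat_lit 5) (nat_lit 79) (nat_lit 5) (nat_lit 80) (nat_lit 4) (nat_lit 497) (nat_lit 366) (nat_lit 337)))) (XT.nd (nat_lit 156) (nat_lit 152) (nat_lit 0) (XT.nd (nat_lit 78) (nat_lit 76) (nat_lit 0) (XT.lf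 (nat_lit 0) (nat_lit 131028973) (nat_lit 76) (nat_lit 12768378988) (nat_lit 76) (nat_lit 5492847409) (nat_lit 77) (nat_lit 4) (nat_lit 78) (nat_lit 5) (nat_lit 78) (nat_lit 4) (nat_lit 498) (nat_lit 366) (nat_lit 336)) (XT.lf (nat_lit 0) (nat_lit 1805995867) (nat_lit 152) (nat_lit 3757832088) (nat_lit 76) (nat_lit 13150379056) (nat_lit 76) (nat_lit 5) (nat_lit 78) (nat_lit 5) (nat_lit 77) (nat_lit 4) (nat_lit 499) (nat_lit 366) (nat_lit 335))) (XT.nd (nat_lit 78) (nat_lit 76) (nat_lit 0) (XT.lf (nat_lit 0) (nat_lit 9238378229) (nat_lit 152) (nat_lit 7914400277) (nat_lit 0) (nat_lit 1890658432) (nat_lit 75) (nat_lit 5) (nat_lit 77) (nat_lit 4) (nat_lit 75) (nat_lit 4) (nat_lit 500) (nat_lit 366) (nat_lit 334)) (XT.lf (nat_lit 0) (nat_lit 7044276301) (nat_lit 76) (nat_lit 9910021898) (nat_lit 76) (nat_lit 2426429077) (nat_lit 74) (nat_lit 4) (nat_lit 75) (nat_lit 5) (nat_lit 75) (nat_lit 4) (nat_lit 501) (nat_lit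 366) (nat_lit 333))))))))
noncomputable def xc30 : XT := (XT.nd (nat_lit 2418) (nat_lit 1368) (nat_lit 0) (XT.nd (nat_lit 1170) (nat_lit 1140) (nat_lit 0) (XT.nd (nat_lit 546) (nat_lit 684) (nat_lit 0) (XT.nd (nat_lit 234) (nat_lit 304) (nat_lit 0) (XT.nd (nat_lit 78) (nat_lit 152) (nat_lit 0) (XT.lf (nat_lit 0) (nat_lit 2694327437) (nat_lit 76) (nat_lit 2384409417) (nat_lit 152) (nat_lit 14647724032) (nat_lit 72) (nat_lit 5) (nat_lit 73) (nat_lit 5) (nat_lit 74) (nat_lit 4) (nat_lit 502) (nat_lit 366) (nat_lit 332)) (XT.nd (nat_lit 78) (nat_lit 152) (nat_lit 0) (XT.lf (nat_lit 0) (nat_lit 12837360582) (nat_lit 152) (nat_lit 1922853443) (nat_lit 0) (nat_lit 5319320064) (nat_lit 72) (nat_lit 5) (nat_lit 74) (nat_lit 4) (nat_lit 72) (nat_lit 4) (nat_lit 503) (nat_lit 366) (nat_lit 331)) (XT.lf (nat_lit 0) (nat_lit 436420796) (nat_lit 152) (nat_lit 6752827722) (nat_lit 76) (nat_lit 13252088199) (nat_lit 70) (nat_lit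 5) (nat_lit 72) (nat_lit 5) (nat_lit 71) (nat_lit 4) (nat_lit 504) (nat_lit 366) (nat_lit 330)))) (XT.nd (nat_lit 156) (nat_lit 152) (nat_lit 0) (XT.nd (nat_lit 78) (nat_lit 76) (nat_lit 0) (XT.lf (nat_lit 0) (nat_lit 8214403514) (nat_lit 152) (nat_lit 11912663184) (nat_lit 0) (nat_lit 684338269) (nat_lit 69) (nat_lit 5) (nat_lit 71) (nat_lit 4) (nat_lit 69) (nat_lit 4) (nat_lit 505) (nat_lit 366) (nat_lit 329)) (XT.lf (nat_lit 0) (nat_lit 3779056546) (nat_lit 76) (nat_lit 12525843175) (nat_lit 76) (nat_lit 4885300728) (nat_lit 68) (nat_lit 4) (nat_lit 69) (nat_lit 5) (nat_lit 69) (nat_lit 4) (nat_lit 506) (nat_lit 366) (nat_lit 328))) (XT.nd (nat_lit 78) (nat_lit 76) (nat_lit 0) (XT.lf (nat_lit 0) (nat_lit 3022434398) (nat_lit 152) (nat_lit 1612260038) (nat_lit 76) (nat_lit 16944053418) (nat_lit 67) (nat_lit 5) (nat_lit 69) (nat_lit 5) (nat_lit 68) (nat_lit 4) (nat_lit 507) (nat_lit 366) (nat_lit 327)) (XT.lf (nat_lit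 0) (nat_lit 11150934189) (nat_lit 152) (nat_lit 7296420950) (nat_lit 0) (nat_lit 3527694165) (nat_lit 66) (nat_lit 5) (nat_lit 68) (nat_lit 4) (nat_lit 66) (nat_lit 4) (nat_lit 508) (nat_lit 366) (nat_lit 326))))) (XT.nd (nat_lit 312) (nat_lit 380) (nat_lit 0) (XT.nd (nat_lit 156) (nat_lit 76) (nat_lit 0) (XT.nd (nat_lit 78) (nat_lit 152) (nat_lit 0) (XT.lf (nat_lit 0) (nat_lit 9053949250) (nat_lit 76) (nat_lit 10524516594) (nat_lit 76) (nat_lit 2803119006) (nat_lit 65) (nat_lit 4) (nat_lit 66) (nat_lit 5) (nat_lit 66) (nat_lit 4) (nat_lit 509) (nat_lit 366) (nat_lit 325)) (XT.lf (nat_lit 0) (nat_lit 3067679187) (nat_lit 76) (nat_lit 2294082083) (nat_lit 152) (nat_lit 17436688334) (nat_lit 63) (nat_lit 5) (nat_lit 64) (nat_lit 5) (nat_lit 65) (nat_lit 4) (nat_lit 510) (nat_lit 366) (nat_lit 324))) (XT.nd (nat_lit 78) (nat_lit 76) (nat_lit 0) (XT.lf (nat_lit 0) (nat_lit 13816582777) (nat_lit 152) (nat_lit 3269635930)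 (nat_lit 0) (nat_lit 6137729272) (nat_lit 63) (nat_lit 5) (nat_lit 65) (nat_lit 4) (nat_lit 63) (nat_lit 4) (nat_lit 511) (nat_lit 366) (nat_lit 323)) (XT.lf (nat_lit 0) (nat_lit 13750962818) (nat_lit 76) (nat_lit 8837702767) (nat_lit 76) (nat_lit 1071637539) (nat_lit 62) (nat_lit 4) (nat_lit 63) (nat_lit 5) (nat_lit 63) (nat_lit 4) (nat_lit 512) (nat_lit 366) (nat_lit 322)))) (XT.nd (nat_lit 156) (nat_lit 152) (nat_lit 0) (XT.nd (nat_lit 78) (nat_lit 76) (nat_lit 0) (XT.lf (nat_lit 0) (nat_lit 7126921466) (nat_lit 76) (nat_lit 251235317) (nat_lit 152) (nat_lit 16729106825) (nat_lit 60) (nat_lit 5) (nat_lit 61) (nat_lit 5) (nat_lit 62) (nat_lit 4) (nat_lit 513) (nat_lit 366) (nat_lit 321)) (XT.lf (nat_lit 0) (nat_lit 39200067) (nat_lit 76) (nat_lit 16113606726) (nat_lit 76) (nat_lit 8411721077) (nat_lit 59) (nat_lit 4) (nat_lit 60) (nat_lit 5) (nat_lit 60) (nat_lit 4) (nat_lit 514) (nat_lit 366) (nat_lit 320)))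 (XT.nd (nat_lit 78) (nat_lit 76) (nat_lit 0) (XT.lf (nat_lit 0) (nat_lit 236726530) (nat_lit 152) (nat_lit 7298817279) (nat_lit 76) (nat_lit 17497384717) (nat_lit 58) (nat_lit 5) (nat_lit 60) (nat_lit 5) (nat_lit 59) (nat_lit 4) (nat_lit 515) (nat_lit 366) (nat_lit 319)) (XT.lf (nat_lit 0) (nat_lit 9000470723) (nat_lit 152) (nat_lit 15137021106) (nat_lit 0) (nat_lit 1374643796) (nat_lit 57) (nat_lit 5) (nat_lit 59) (nat_lit 4) (nat_lit 57) (nat_lit 4) (nat_lit 516) (nat_lit 366) (nat_lit 318)))))) (XT.nd (nat_lit 624) (nat_lit 532) (nat_lit 0) (XT.nd (nat_lit 312) (nat_lit 304) (nat_lit 0) (XT.nd (nat_lit 156) (nat_lit 152) (nat_lit 0) (XT.nd (nat_lit 78) (nat_lit 76) (nat_lit 0) (XT.lf (nat_lit 0) (nat_lit 2524271338) (nat_lit 76) (nat_lit 15587818510) (nat_lit 76) (nat_lit 7891080472) (nat_lit 56) (nat_lit 4) (nat_lit 57) (nat_lit 5) (nat_lit 57) (nat_lit 4) (nat_lit 517) (nat_lit 366) (nat_lit 317)) (XT.lf (nat_lit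 0) (nat_lit 1034903523) (nat_lit 152) (nat_lit 5664729625) (nat_lit 76) (nat_lit 19807036285) (nat_lit 55) (nat_lit 5) (nat_lit 57) (nat_lit 5) (nat_lit 56) (nat_lit 4) (nat_lit 518) (nat_lit 366) (nat_lit 316))) (XT.nd (nat_lit 78) (nat_lit 76) (nat_lit 0) (XT.lf (nat_lit 0) (nat_lit 10131023450) (nat_lit 152) (nat_lit 14363349631) (nat_lit 0) (nat_lit 2526728011) (nat_lit 54) (nat_lit 5) (nat_lit 56) (nat_lit 4) (nat_lit 54) (nat_lit 4) (nat_lit 519) (nat_lit 366) (nat_lit 315)) (XT.lf (nat_lit 0) (nat_lit 3936655317) (nat_lit 76) (nat_lit 15639660497) (nat_lit 76) (nat_lit 7972361453) (nat_lit 53) (nat_lit 4) (nat_lit 54) (nat_lit 5) (nat_lit 54) (nat_lit 4) (nat_lit 520) (nat_lit 366) (nat_lit 314)))) (XT.nd (nat_lit 156) (nat_lit 152) (nat_lit 0) (XT.nd (nat_lit 78) (nat_lit 76) (nat_lit 0) (XT.lf (nat_lit 0) (nat_lit 1250078101) (nat_lit 152) (nat_lit 5190809045) (nat_lit 76) (nat_lit 21649018238) (nat_lit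 52) (nat_lit 5) (nat_lit 54) (nat_lit 5) (nat_lit 53) (nat_lit 4) (nat_lit 521) (nat_lit 366) (nat_lit 313)) (XT.lf (nat_lit 0) (nat_lit 10669035742) (nat_lit 152) (nat_lit 14865552418) (nat_lit 0) (nat_lit 3108011924) (nat_lit 51) (nat_lit 5) (nat_lit 53) (nat_lit 4) (nat_lit 51) (nat_lit 4) (nat_lit 522) (nat_lit 366) (nat_lit 312))) (XT.nd (nat_lit 78) (nat_lit 76) (nat_lit 0) (XT.lf (nat_lit 0) (nat_lit 4059779787) (nat_lit 76) (nat_lit 16383458727) (nat_lit 76) (nat_lit 8766457023) (nat_lit 50) (nat_lit 4) (nat_lit 51) (nat_lit 5) (nat_lit 51) (nat_lit 4) (nat_lit 523) (nat_lit 366) (nat_lit 311)) (XT.lf (nat_lit 0) (nat_lit 771450880) (nat_lit 152) (nat_lit 6105303880) (nat_lit 76) (nat_lit 22914785283) (nat_lit 49) (nat_lit 5) (nat_lit 51) (nat_lit 5) (nat_lit 50) (nat_lit 4) (nat_lit 524) (nat_lit 366) (nat_lit 310))))) (XT.nd (nat_lit 312) (nat_lit 228) (nat_lit 0) (XT.nd (nat_lit 156) (nat_lit 152) (nat_lit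 0) (XT.nd (nat_lit 78) (nat_lit 76) (nat_lit 0) (XT.lf (nat_lit 0) (nat_lit 10498129358) (nat_lit 152) (nat_lit 16888752051) (nat_lit 0) (nat_lit 2998989850) (nat_lit 48) (nat_lit 5) (nat_lit 50) (nat_lit 4) (nat_lit 48) (nat_lit 4) (nat_lit 525) (nat_lit 366) (nat_lit 309)) (XT.lf (nat_lit 0) (nat_lit 2638906308) (nat_lit 76) (nat_lit 17952873142) (nat_lit 76) (nat_lit 10403998006) (nat_lit 47) (nat_lit 4) (nat_lit 48) (nat_lit 5) (nat_lit 48) (nat_lit 4) (nat_lit 526) (nat_lit 366) (nat_lit 308))) (XT.nd (nat_lit 78) (nat_lit 152) (nat_lit 0) (XT.lf (nat_lit 0) (nat_lit 22939694538) (nat_lit 76) (nat_lit 8139362052) (nat_lit 76) (nat_lit 542199899) (nat_lit 47) (nat_lit 4) (nat_lit 48) (nat_lit 5) (nat_lit 48) (nat_lit 4) (nat_lit 527) (nat_lit 366) (nat_lit 307)) (XT.lf (nat_lit 0) (nat_lit 9480976566) (nat_lit 152) (nat_lit 20720580074) (nat_lit 0) (nat_lit 2059575837) (nat_lit 45) (nat_lit 5) (nat_lit 47) (nat_lit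 4) (nat_lit 45) (nat_lit 4) (nat_lit 528) (nat_lit 366) (nat_lit 306)))) (XT.nd (nat_lit 156) (nat_lit 152) (nat_lit 0) (XT.nd (nat_lit 78) (nat_lit 76) (nat_lit 0) (XT.lf (nat_lit 0) (nat_lit 19884957051) (nat_lit 152) (nat_lit 612989753) (nat_lit 0) (nat_lit 12419366861) (nat_lit 45) (nat_lit 5) (nat_lit 47) (nat_lit 4) (nat_lit 45) (nat_lit 4) (nat_lit 529) (nat_lit 366) (nat_lit 305)) (XT.lf (nat_lit 0) (nat_lit 20343458085) (nat_lit 76) (nat_lit 10377311776) (nat_lit 76) (nat_lit 2868819197) (nat_lit 44) (nat_lit 4) (nat_lit 45) (nat_lit 5) (nat_lit 45) (nat_lit 4) (nat_lit 530) (nat_lit 366) (nat_lit 304))) (XT.nd (nat_lit 78) (nat_lit 0) (nat_lit 0) (XT.lf (nat_lit 0) (nat_lit 7455886071) (nat_lit 152) (nat_lit 26698170654) (nat_lit 0) (nat_lit 125647835) (nat_lit 42) (nat_lit 5) (nat_lit 44) (nat_lit 4) (nat_lit 42) (nat_lit 4) (nat_lit 531) (nat_lit 366) (nat_lit 303)) (XT.lf (nat_lit 0) (nat_lit 18194734209)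 (nat_lit 152) (nat_lit 5964841265) (nat_lit 0) (nat_lit 10825234209) (nat_lit 42) (nat_lit 5) (nat_lit 44) (nat_lit 4) (nat_lit 42) (nat_lit 4) (nat_lit 532) (nat_lit 366) (nat_lit 302))))))) (XT.nd (nat_lit 1248) (nat_lit 380) (nat_lit 0) (XT.nd (nat_lit 624) (nat_lit 456) (nat_lit 0) (XT.nd (nat_lit 312) (nat_lit 228) (nat_lit 0) (XT.nd (nat_lit 156) (nat_lit 76) (nat_lit 0) (XT.nd (nat_lit 78) (nat_lit 152) (nat_lit 0) (XT.lf (nat_lit 0) (nat_lit 15546855581) (nat_lit 76) (nat_lit 13784777095) (nat_lit 76) (nat_lit 6377158877) (nat_lit 41) (nat_lit 4) (nat_lit 42) (nat_lit 5) (nat_lit 42) (nat_lit 4) (nat_lit 533) (nat_lit 366) (nat_lit 301)) (XT.lf (nat_lit 0) (nat_lit 1207632690) (nat_lit 76) (nat_lit 3054563804) (nat_lit 152) (nat_lit 32191075627) (nat_lit 39) (nat_lit 5) (nat_lit 40) (nat_lit 5) (nat_lit 41) (nat_lit 4) (nat_lit 534) (nat_lit 366) (nat_lit 300))) (XT.nd (nat_lit 78) (nat_lit 76) (nat_lit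 0) (XT.lf (nat_lit 0) (nat_lit 15301551049) (nat_lit 152) (nat_lit 13871497129) (nat_lit 0) (nat_lit 8038875059) (nat_lit 39) (nat_lit 5) (nat_lit 41) (nat_lit 4) (nat_lit 39) (nat_lit 4) (nat_lit 535) (nat_lit 366) (nat_lit 299)) (XT.lf (nat_lit 0) (nat_lit 8129472352) (nat_lit 76) (nat_lit 18579647097) (nat_lit 76) (nat_lit 11283103565) (nat_lit 38) (nat_lit 4) (nat_lit 39) (nat_lit 5) (nat_lit 39) (nat_lit 4) (nat_lit 536) (nat_lit 366) (nat_lit 298)))) (XT.nd (nat_lit 156) (nat_lit 76) (nat_lit 0) (XT.nd (nat_lit 78) (nat_lit 152) (nat_lit 0) (XT.lf (nat_lit 0) (nat_lit 30933433732) (nat_lit 76) (nat_lit 7594919827) (nat_lit 76) (nat_lit 265495186) (nat_lit 38) (nat_lit 4) (nat_lit 39) (nat_lit 5) (nat_lit 39) (nat_lit 4) (nat_lit 537) (nat_lit 366) (nat_lit 297)) (XT.lf (nat_lit 0) (nat_lit 10977388400) (nat_lit 152) (nat_lit 24805160143) (nat_lit 0) (nat_lit 3830448548) (nat_lit 36) (nat_lit 5) (nat_lit 38)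 (nat_lit 4) (nat_lit 36) (nat_lit 4) (nat_lit 538) (nat_lit 366) (nat_lit 296))) (XT.nd (nat_lit 78) (nat_lit 76) (nat_lit 0) (XT.lf (nat_lit 0) (nat_lit 22638359019) (nat_lit 152) (nat_lit 2354369722) (nat_lit 0) (nat_lit 15461328295) (nat_lit 36) (nat_lit 5) (nat_lit 38) (nat_lit 4) (nat_lit 36) (nat_lit 4) (nat_lit 539) (nat_lit 366) (nat_lit 295)) (XT.lf (nat_lit 0) (nat_lit 21045980131) (nat_lit 76) (nat_lit 13738280433) (nat_lit 76) (nat_lit 6532035269) (nat_lit 35) (nat_lit 4) (nat_lit 36) (nat_lit 5) (nat_lit 36) (nat_lit 4) (nat_lit 540) (nat_lit 366) (nat_lit 294))))) (XT.nd (nat_lit 312) (nat_lit 228) (nat_lit 0) (XT.nd (nat_lit 156) (nat_lit 76) (nat_lit 0) (XT.nd (nat_lit 78) (nat_lit 0) (nat_lit 0) (XT.lf (nat_lit 0) (nat_lit 2864991227) (nat_lit 76) (nat_lit 2110181149) (nat_lit 152) (nat_lit 37228230776) (nat_lit 33) (nat_lit 5) (nat_lit 34) (nat_lit 5) (nat_lit 35) (nat_lit 4) (nat_lit 541) (nat_lit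 366) (nat_lit 293)) (XT.lf (nat_lit 0) (nat_lit 16930715930) (nat_lit 152) (nat_lit 16297346793) (nat_lit 0) (nat_lit 9880088641) (nat_lit 33) (nat_lit 5) (nat_lit 35) (nat_lit 4) (nat_lit 33) (nat_lit 4) (nat_lit 542) (nat_lit 366) (nat_lit 292))) (XT.nd (nat_lit 78) (nat_lit 0) (nat_lit 0) (XT.lf (nat_lit 0) (nat_lit 7428235067) (nat_lit 76) (nat_lit 21843789022) (nat_lit 76) (nat_lit 14767205082) (nat_lit 32) (nat_lit 4) (nat_lit 33) (nat_lit 5) (nat_lit 33) (nat_lit 4) (nat_lit 543) (nat_lit 366) (nat_lit 291)) (XT.lf (nat_lit 0) (nat_lit 32070172149) (nat_lit 76) (nat_lit 10013425520) (nat_lit 76) (nat_lit 2911640948) (nat_lit 32) (nat_lit 4) (nat_lit 33) (nat_lit 5) (nat_lit 33) (nat_lit 4) (nat_lit 544) (nat_lit 366) (nat_lit 290)))) (XT.nd (nat_lit 156) (nat_lit 76) (nat_lit 0) (XT.nd (nat_lit 78) (nat_lit 0) (nat_lit 0) (XT.lf (nat_lit 0) (nat_lit 9187422209) (nat_lit 152) (nat_lit 34519013690) (nat_lit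 0) (nat_lit 2268731718) (nat_lit 30) (nat_lit 5) (nat_lit 32) (nat_lit 4) (nat_lit 30) (nat_lit 4) (nat_lit 545) (nat_lit 366) (nat_lit 289)) (XT.lf (nat_lit 0) (nat_lit 21758631650) (nat_lit 152) (nat_lit 10403088202) (nat_lit 0) (nat_lit 14816879011) (nat_lit 30) (nat_lit 5) (nat_lit 32) (nat_lit 4) (nat_lit 30) (nat_lit 4) (nat_lit 546) (nat_lit 366) (nat_lit 288))) (XT.nd (nat_lit 78) (nat_lit 0) (nat_lit 0) (XT.lf (nat_lit 0) (nat_lit 14597863038) (nat_lit 76) (nat_lit 20188022953) (nat_lit 76) (nat_lit 13223879879) (nat_lit 29) (nat_lit 4) (nat_lit 30) (nat_lit 5) (nat_lit 30) (nat_lit 4) (nat_lit 547) (nat_lit 366) (nat_lit 287)) (XT.lf (nat_lit 0) (nat_lit 40439995935) (nat_lit 76) (nat_lit 7808212932) (nat_lit 76) (nat_lit 822331571) (nat_lit 29) (nat_lit 4) (nat_lit 30) (nat_lit 5) (nat_lit 30) (nat_lit 4) (nat_lit 548) (nat_lit 366) (nat_lit 286)))))) (XT.nd (nat_lit 56160) (nat_lit 0) (nat_lit 7144)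 (XT.nd (nat_lit 312) (nat_lit 152) (nat_lit 0) (XT.nd (nat_lit 156) (nat_lit 76) (nat_lit 0) (XT.nd (nat_lit 78) (nat_lit 0) (nat_lit 0) (XT.lf (nat_lit 0) (nat_lit 11871459034) (nat_lit 152) (nat_lit 33215071032) (nat_lit 0) (nat_lit 5068559527) (nat_lit 27) (nat_lit 5) (nat_lit 29) (nat_lit 4) (nat_lit 27) (nat_lit 4) (nat_lit 549) (nat_lit 366) (nat_lit 285)) (XT.lf (nat_lit 0) (nat_lit 25035269623) (nat_lit 152) (nat_lit 8021012882) (nat_lit 0) (nat_lit 18212476504) (nat_lit 27) (nat_lit 5) (nat_lit 29) (nat_lit 4) (nat_lit 27) (nat_lit 4) (nat_lit 550) (nat_lit 366) (nat_lit 284))) (XT.nd (nat_lit 78) (nat_lit 0) (nat_lit 0) (XT.lf (nat_lit 0) (nat_lit 18167106082) (nat_lit 76) (nat_lit 20543668204) (nat_lit 76) (nat_lit 13701560899) (nat_lit 26) (nat_lit 4) (nat_lit 27) (nat_lit 5) (nat_lit 27) (nat_lit 4) (nat_lit 551) (nat_lit 366) (nat_lit 283)) (XT.lf (nat_lit 0) (nat_lit 45190164780) (nat_lit 76) (nat_lit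 7630100619) (nat_lit 76) (nat_lit 769241677) (nat_lit 26) (nat_lit 4) (nat_lit 27) (nat_lit 5) (nat_lit 27) (nat_lit 4) (nat_lit 552) (nat_lit 366) (nat_lit 282)))) (XT.nd (nat_lit 55692) (nat_lit 0) (nat_lit 8512) (XT.nd (nat_lit 78) (nat_lit 0) (nat_lit 0) (XT.lf (nat_lit 0) (nat_lit 12483237248) (nat_lit 152) (nat_lit 36505290369) (nat_lit 0) (nat_lit 5804533933) (nat_lit 24) (nat_lit 5) (nat_lit 26) (nat_lit 4) (nat_lit 24) (nat_lit 4) (nat_lit 553) (nat_lit 366) (nat_lit 281)) (XT.lf (nat_lit 0) (nat_lit 26222895147) (nat_lit 152) (nat_lit 10279415691) (nat_lit 0) (nat_lit 19527031428) (nat_lit 24) (nat_lit 5) (nat_lit 26) (nat_lit 4) (nat_lit 24) (nat_lit 4) (nat_lit 554) (nat_lit 366) (nat_lit 280))) (XT.nd (nat_lit 78) (nat_lit 228) (nat_lit 0) (XT.lf (nat_lit 0) (nat_lit 716407119) (nat_lit 228) (nat_lit 2442609834) (nat_lit 228) (nat_lit 2442609834) (nat_lit 139) (nat_lit 4) (nat_lit 142) (nat_lit 5) (nat_lit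 142) (nat_lit 4) (nat_lit 466) (nat_lit 367) (nat_lit 367)) (XT.lf (nat_lit 0) (nat_lit 604969714) (nat_lit 228) (nat_lit 10692870152) (nat_lit 0) (nat_lit 59861407) (nat_lit 136) (nat_lit 5) (nat_lit 139) (nat_lit 4) (nat_lit 136) (nat_lit 4) (nat_lit 467) (nat_lit 367) (nat_lit 366))))) (XT.nd (nat_lit 312) (nat_lit 760) (nat_lit 0) (XT.nd (nat_lit 156) (nat_lit 304) (nat_lit 0) (XT.nd (nat_lit 78) (nat_lit 304) (nat_lit 0) (XT.lf (nat_lit 0) (nat_lit 6188958143) (nat_lit 228) (nat_lit 210938229) (nat_lit 0) (nat_lit 5114618469) (nat_lit 136) (nat_lit 5) (nat_lit 139) (nat_lit 4) (nat_lit 136) (nat_lit 4) (nat_lit 468) (nat_lit 367) (nat_lit 365)) (XT.lf (nat_lit 0) (nat_lit 243661557) (nat_lit 304) (nat_lit 1093523571) (nat_lit 76) (nat_lit 10339241614) (nat_lit 132) (nat_lit 5) (nat_lit 136) (nat_lit 5) (nat_lit 133) (nat_lit 4) (nat_lit 469) (nat_lit 367) (nat_lit 364))) (XT.nd (nat_lit 78) (nat_lit 152) (nat_lit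 0) (XT.lf (nat_lit 0) (nat_lit 5890177878) (nat_lit 228) (nat_lit 2086963592) (nat_lit 0) (nat_lit 3863956659) (nat_lit 130) (nat_lit 5) (nat_lit 133) (nat_lit 4) (nat_lit 130) (nat_lit 4) (nat_lit 470) (nat_lit 367) (nat_lit 363)) (XT.lf (nat_lit 0) (nat_lit 8891897922) (nat_lit 152) (nat_lit 2807721992) (nat_lit 152) (nat_lit 311285559) (nat_lit 128) (nat_lit 4) (nat_lit 130) (nat_lit 5) (nat_lit 130) (nat_lit 4) (nat_lit 471) (nat_lit 367) (nat_lit 362)))) (XT.nd (nat_lit 156) (nat_lit 380) (nat_lit 0) (XT.nd (nat_lit 78) (nat_lit 152) (nat_lit 0) (XT.lf (nat_lit 0) (nat_lit 5396724208) (nat_lit 228) (nat_lit 4257528619) (nat_lit 0) (nat_lit 2529776579) (nat_lit 125) (nat_lit 5) (nat_lit 128) (nat_lit 4) (nat_lit 125) (nat_lit 4) (nat_lit 472) (nat_lit 367) (nat_lit 361)) (XT.lf (nat_lit 0) (nat_lit 6901048383) (nat_lit 152) (nat_lit 4379078341) (nat_lit 152) (nat_lit 1081817180) (nat_lit 123) (nat_lit 4) (nat_lit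 125) (nat_lit 5) (nat_lit 125) (nat_lit 4) (nat_lit 473) (nat_lit 367) (nat_lit 360))) (XT.nd (nat_lit 78) (nat_lit 152) (nat_lit 0) (XT.lf (nat_lit 0) (nat_lit 4695792984) (nat_lit 228) (nat_lit 6759229171) (nat_lit 0) (nat_lit 1088956782) (nat_lit 120) (nat_lit 5) (nat_lit 123) (nat_lit 4) (nat_lit 120) (nat_lit 4) (nat_lit 474) (nat_lit 367) (nat_lit 359)) (XT.lf (nat_lit 0) (nat_lit 4575488238) (nat_lit 152) (nat_lit 6077727059) (nat_lit 152) (nat_lit 2077093017) (nat_lit 118) (nat_lit 4) (nat_lit 120) (nat_lit 5) (nat_lit 120) (nat_lit 4) (nat_lit 475) (nat_lit 367) (nat_lit 358))))))))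
noncomputable def xc31 : XT := (XT.nd (nat_lit 2418) (nat_lit 2432) (nat_lit 0) (XT.nd (nat_lit 1170) (nat_lit 1596) (nat_lit 0) (XT.nd (nat_lit 546) (nat_lit 1064) (nat_lit 0) (XT.nd (nat_lit 234) (nat_lit 456) (nat_lit 0) (XT.nd (nat_lit 78) (nat_lit 380) (nat_lit 0) (XT.lf (nat_lit 0) (nat_lit 3285589063) (nat_lit 152) (nat_lit 492022318) (nat_lit 228) (nat_lit 9143924142) (nat_lit 115) (nat_lit 5) (nat_lit 117) (nat_lit 5) (nat_lit 118) (nat_lit 4) (nat_lit 476) (nat_lit 367) (nat_lit 357)) (XT.nd (nat_lit 78) (nat_lit 228) (nat_lit 0) (XT.lf (nat_lit 0) (nat_lit 1875242080) (nat_lit 152) (nat_lit 7928598330) (nat_lit 152) (nat_lit 3312914570) (nat_lit 113) (nat_lit 4) (nat_lit 115) (nat_lit 5) (nat_lit 115) (nat_lit 4) (nat_lit 477) (nat_lit 367) (nat_lit 356)) (XT.lf (nat_lit 0) (nat_lit 380122409) (nat_lit 152) (nat_lit 2253222639) (nat_lit 228) (nat_lit 10683924496) (nat_lit 110) (nat_lit 5) (nat_lit 112)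 (nat_lit 5) (nat_lit 113) (nat_lit 4) (nat_lit 478) (nat_lit 367) (nat_lit 355)))) (XT.nd (nat_lit 156) (nat_lit 228) (nat_lit 0) (XT.nd (nat_lit 78) (nat_lit 228) (nat_lit 0) (XT.lf (nat_lit 0) (nat_lit 8727060828) (nat_lit 228) (nat_lit 1218364762) (nat_lit 0) (nat_lit 3576321492) (nat_lit 110) (nat_lit 5) (nat_lit 113) (nat_lit 4) (nat_lit 110) (nat_lit 4) (nat_lit 479) (nat_lit 367) (nat_lit 354)) (XT.lf (nat_lit 0) (nat_lit 1262850291) (nat_lit 228) (nat_lit 2907346924) (nat_lit 76) (nat_lit 9561303451) (nat_lit 107) (nat_lit 5) (nat_lit 110) (nat_lit 5) (nat_lit 108) (nat_lit 4) (nat_lit 480) (nat_lit 367) (nat_lit 353))) (XT.nd (nat_lit 78) (nat_lit 152) (nat_lit 0) (XT.lf (nat_lit 0) (nat_lit 7414563643) (nat_lit 152) (nat_lit 4730130643) (nat_lit 0) (nat_lit 1801164938) (nat_lit 106) (nat_lit 5) (nat_lit 108) (nat_lit 4) (nat_lit 106) (nat_lit 4) (nat_lit 481) (nat_lit 367) (nat_lit 352)) (XT.lf (nat_lit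 0) (nat_lit 7496244023) (nat_lit 152) (nat_lit 6287913500) (nat_lit 152) (nat_lit 381492218) (nat_lit 104) (nat_lit 4) (nat_lit 106) (nat_lit 5) (nat_lit 106) (nat_lit 4) (nat_lit 482) (nat_lit 367) (nat_lit 351))))) (XT.nd (nat_lit 312) (nat_lit 608) (nat_lit 0) (XT.nd (nat_lit 156) (nat_lit 152) (nat_lit 0) (XT.nd (nat_lit 78) (nat_lit 152) (nat_lit 0) (XT.lf (nat_lit 0) (nat_lit 5643243195) (nat_lit 76) (nat_lit 186388536) (nat_lit 152) (nat_lit 8560896979) (nat_lit 102) (nat_lit 5) (nat_lit 103) (nat_lit 5) (nat_lit 104) (nat_lit 4) (nat_lit 483) (nat_lit 367) (nat_lit 350)) (XT.lf (nat_lit 0) (nat_lit 3644627594) (nat_lit 152) (nat_lit 8627293886) (nat_lit 152) (nat_lit 2348545245) (nat_lit 100) (nat_lit 4) (nat_lit 102) (nat_lit 5) (nat_lit 102) (nat_lit 4) (nat_lit 484) (nat_lit 367) (nat_lit 349))) (XT.nd (nat_lit 78) (nat_lit 0) (nat_lit 0) (XT.lf (nat_lit 0) (nat_lit 1515433747) (nat_lit 76) (nat_lit 2452314603)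 (nat_lit 152) (nat_lit 10888489327) (nat_lit 98) (nat_lit 5) (nat_lit 99) (nat_lit 5) (nat_lit 100) (nat_lit 4) (nat_lit 485) (nat_lit 367) (nat_lit 348)) (XT.lf (nat_lit 0) (nat_lit 10467111939) (nat_lit 152) (nat_lit 756975764) (nat_lit 0) (nat_lit 3873073829) (nat_lit 98) (nat_lit 5) (nat_lit 100) (nat_lit 4) (nat_lit 98) (nat_lit 4) (nat_lit 486) (nat_lit 367) (nat_lit 347)))) (XT.nd (nat_lit 156) (nat_lit 304) (nat_lit 0) (XT.nd (nat_lit 78) (nat_lit 76) (nat_lit 0) (XT.lf (nat_lit 0) (nat_lit 1817249823) (nat_lit 228) (nat_lit 3143275137) (nat_lit 76) (nat_lit 10383168875) (nat_lit 95) (nat_lit 5) (nat_lit 98) (nat_lit 5) (nat_lit 96) (nat_lit 4) (nat_lit 487) (nat_lit 367) (nat_lit 346)) (XT.lf (nat_lit 0) (nat_lit 8377401232) (nat_lit 152) (nat_lit 5698941310) (nat_lit 0) (nat_lit 1519530352) (nat_lit 94) (nat_lit 5) (nat_lit 96) (nat_lit 4) (nat_lit 94) (nat_lit 4) (nat_lit 488) (nat_lit 367) (nat_lit 345)))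 (XT.nd (nat_lit 78) (nat_lit 152) (nat_lit 0) (XT.lf (nat_lit 0) (nat_lit 7433583344) (nat_lit 152) (nat_lit 7748258714) (nat_lit 152) (nat_lit 672351519) (nat_lit 92) (nat_lit 4) (nat_lit 94) (nat_lit 5) (nat_lit 94) (nat_lit 4) (nat_lit 489) (nat_lit 367) (nat_lit 344)) (XT.lf (nat_lit 0) (nat_lit 4792685632) (nat_lit 76) (nat_lit 1158190510) (nat_lit 152) (nat_lit 10167662759) (nat_lit 90) (nat_lit 5) (nat_lit 91) (nat_lit 5) (nat_lit 92) (nat_lit 4) (nat_lit 490) (nat_lit 367) (nat_lit 343)))))) (XT.nd (nat_lit 624) (nat_lit 684) (nat_lit 0) (XT.nd (nat_lit 312) (nat_lit 380) (nat_lit 0) (XT.nd (nat_lit 156) (nat_lit 304) (nat_lit 0) (XT.nd (nat_lit 78) (nat_lit 76) (nat_lit 0) (XT.lf (nat_lit 0) (nat_lit 1962889119) (nat_lit 152) (nat_lit 10850485464) (nat_lit 152) (nat_lit 3575618398) (nat_lit 88) (nat_lit 4) (nat_lit 90) (nat_lit 5) (nat_lit 90) (nat_lit 4) (nat_lit 491) (nat_lit 367) (nat_lit 342)) (XT.lf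 (nat_lit 0) (nat_lit 3173782078) (nat_lit 228) (nat_lit 1025811889) (nat_lit 76) (nat_lit 12466371050) (nat_lit 87) (nat_lit 5) (nat_lit 90) (nat_lit 5) (nat_lit 88) (nat_lit 4) (nat_lit 492) (nat_lit 367) (nat_lit 341))) (XT.nd (nat_lit 78) (nat_lit 228) (nat_lit 0) (XT.lf (nat_lit 0) (nat_lit 10101349572) (nat_lit 152) (nat_lit 4179718888) (nat_lit 0) (nat_lit 2667689815) (nat_lit 86) (nat_lit 5) (nat_lit 88) (nat_lit 4) (nat_lit 86) (nat_lit 4) (nat_lit 493) (nat_lit 367) (nat_lit 340)) (XT.lf (nat_lit 0) (nat_lit 41217499) (nat_lit 228) (nat_lit 7527271709) (nat_lit 76) (nat_lit 9670214367) (nat_lit 83) (nat_lit 5) (nat_lit 86) (nat_lit 5) (nat_lit 84) (nat_lit 4) (nat_lit 494) (nat_lit 367) (nat_lit 339)))) (XT.nd (nat_lit 156) (nat_lit 152) (nat_lit 0) (XT.nd (nat_lit 78) (nat_lit 152) (nat_lit 0) (XT.lf (nat_lit 0) (nat_lit 6431069035) (nat_lit 76) (nat_lit 570966506) (nat_lit 152) (nat_lit 10533183647) (nat_lit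 82) (nat_lit 5) (nat_lit 83) (nat_lit 5) (nat_lit 84) (nat_lit 4) (nat_lit 495) (nat_lit 367) (nat_lit 338)) (XT.lf (nat_lit 0) (nat_lit 2921243516) (nat_lit 152) (nat_lit 11317986128) (nat_lit 152) (nat_lit 3599374675) (nat_lit 80) (nat_lit 4) (nat_lit 82) (nat_lit 5) (nat_lit 82) (nat_lit 4) (nat_lit 496) (nat_lit 367) (nat_lit 337))) (XT.nd (nat_lit 78) (nat_lit 76) (nat_lit 0) (XT.lf (nat_lit 0) (nat_lit 3491224063) (nat_lit 228) (nat_lit 788940675) (nat_lit 76) (nat_lit 13869368216) (nat_lit 79) (nat_lit 5) (nat_lit 82) (nat_lit 5) (nat_lit 80) (nat_lit 4) (nat_lit 497) (nat_lit 367) (nat_lit 336)) (XT.lf (nat_lit 0) (nat_lit 10786195038) (nat_lit 152) (nat_lit 4689606786) (nat_lit 0) (nat_lit 2990999105) (nat_lit 78) (nat_lit 5) (nat_lit 80) (nat_lit 4) (nat_lit 78) (nat_lit 4) (nat_lit 498) (nat_lit 367) (nat_lit 335))))) (XT.nd (nat_lit 312) (nat_lit 304) (nat_lit 0) (XT.nd (nat_lit 156) (nat_lit 152) (nat_lit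 0) (XT.nd (nat_lit 78) (nat_lit 152) (nat_lit 0) (XT.lf (nat_lit 0) (nat_lit 9965232065) (nat_lit 76) (nat_lit 8383124395) (nat_lit 76) (nat_lit 443780772) (nat_lit 77) (nat_lit 4) (nat_lit 78) (nat_lit 5) (nat_lit 78) (nat_lit 4) (nat_lit 499) (nat_lit 367) (nat_lit 334)) (XT.lf (nat_lit 0) (nat_lit 5887067428) (nat_lit 76) (nat_lit 992912997) (nat_lit 152) (nat_lit 12245033382) (nat_lit 75) (nat_lit 5) (nat_lit 76) (nat_lit 5) (nat_lit 77) (nat_lit 4) (nat_lit 500) (nat_lit 367) (nat_lit 333))) (XT.nd (nat_lit 78) (nat_lit 76) (nat_lit 0) (XT.lf (nat_lit 0) (nat_lit 1528979872) (nat_lit 76) (nat_lit 12956266657) (nat_lit 76) (nat_lit 4980377472) (nat_lit 74) (nat_lit 4) (nat_lit 75) (nat_lit 5) (nat_lit 75) (nat_lit 4) (nat_lit 501) (nat_lit 367) (nat_lit 332)) (XT.lf (nat_lit 0) (nat_lit 2500670504) (nat_lit 152) (nat_lit 3027601418) (nat_lit 76) (nat_lit 14286041057) (nat_lit 73) (nat_lit 5) (nat_lit 75) (nat_lit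 5) (nat_lit 74) (nat_lit 4) (nat_lit 502) (nat_lit 367) (nat_lit 331)))) (XT.nd (nat_lit 156) (nat_lit 152) (nat_lit 0) (XT.nd (nat_lit 78) (nat_lit 76) (nat_lit 0) (XT.lf (nat_lit 0) (nat_lit 10151114877) (nat_lit 152) (nat_lit 7857048245) (nat_lit 0) (nat_lit 2162468658) (nat_lit 72) (nat_lit 5) (nat_lit 74) (nat_lit 4) (nat_lit 72) (nat_lit 4) (nat_lit 503) (nat_lit 367) (nat_lit 330)) (XT.lf (nat_lit 0) (nat_lit 7547755721) (nat_lit 76) (nat_lit 10546914208) (nat_lit 76) (nat_lit 2441062725) (nat_lit 71) (nat_lit 4) (nat_lit 72) (nat_lit 5) (nat_lit 72) (nat_lit 4) (nat_lit 504) (nat_lit 367) (nat_lit 329))) (XT.nd (nat_lit 78) (nat_lit 0) (nat_lit 0) (XT.lf (nat_lit 0) (nat_lit 2477445307) (nat_lit 76) (nat_lit 2792056322) (nat_lit 152) (nat_lit 15640454993) (nat_lit 69) (nat_lit 5) (nat_lit 70) (nat_lit 5) (nat_lit 71) (nat_lit 4) (nat_lit 505) (nat_lit 367) (nat_lit 328)) (XT.lf (nat_lit 0) (nat_lit 13250345721)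 (nat_lit 152) (nat_lit 2878845761) (nat_lit 0) (nat_lit 5162850379) (nat_lit 69) (nat_lit 5) (nat_lit 71) (nat_lit 4) (nat_lit 69) (nat_lit 4) (nat_lit 506) (nat_lit 367) (nat_lit 327))))))) (XT.nd (nat_lit 1248) (nat_lit 1064) (nat_lit 0) (XT.nd (nat_lit 624) (nat_lit 684) (nat_lit 0) (XT.nd (nat_lit 312) (nat_lit 304) (nat_lit 0) (XT.nd (nat_lit 156) (nat_lit 152) (nat_lit 0) (XT.nd (nat_lit 78) (nat_lit 152) (nat_lit 0) (XT.lf (nat_lit 0) (nat_lit 13191554999) (nat_lit 76) (nat_lit 8341890416) (nat_lit 76) (nat_lit 150259715) (nat_lit 68) (nat_lit 4) (nat_lit 69) (nat_lit 5) (nat_lit 69) (nat_lit 4) (nat_lit 507) (nat_lit 367) (nat_lit 326)) (XT.lf (nat_lit 0) (nat_lit 7608623580) (nat_lit 76) (nat_lit 224556996) (nat_lit 152) (nat_lit 14251309261) (nat_lit 66) (nat_lit 5) (nat_lit 67) (nat_lit 5) (nat_lit 68) (nat_lit 4) (nat_lit 508) (nat_lit 367) (nat_lit 325))) (XT.nd (nat_lit 78) (nat_lit 76) (nat_lit 0)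 (XT.lf (nat_lit 0) (nat_lit 1643474355) (nat_lit 76) (nat_lit 14498800010) (nat_lit 76) (nat_lit 6352304327) (nat_lit 65) (nat_lit 4) (nat_lit 66) (nat_lit 5) (nat_lit 66) (nat_lit 4) (nat_lit 509) (nat_lit 367) (nat_lit 324)) (XT.lf (nat_lit 0) (nat_lit 1807326978) (nat_lit 152) (nat_lit 4570144835) (nat_lit 76) (nat_lit 16537230495) (nat_lit 64) (nat_lit 5) (nat_lit 66) (nat_lit 5) (nat_lit 65) (nat_lit 4) (nat_lit 510) (nat_lit 367) (nat_lit 323)))) (XT.nd (nat_lit 156) (nat_lit 152) (nat_lit 0) (XT.nd (nat_lit 78) (nat_lit 76) (nat_lit 0) (XT.lf (nat_lit 0) (nat_lit 10132682119) (nat_lit 152) (nat_lit 11164979500) (nat_lit 0) (nat_lit 2046423210) (nat_lit 63) (nat_lit 5) (nat_lit 65) (nat_lit 4) (nat_lit 63) (nat_lit 4) (nat_lit 511) (nat_lit 367) (nat_lit 322)) (XT.lf (nat_lit 0) (nat_lit 5610692180) (nat_lit 76) (nat_lit 13172167791) (nat_lit 76) (nat_lit 5001237306) (nat_lit 62) (nat_lit 4) (nat_lit 63) (nat_lit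 5) (nat_lit 63) (nat_lit 4) (nat_lit 512) (nat_lit 367) (nat_lit 321))) (XT.nd (nat_lit 78) (nat_lit 76) (nat_lit 0) (XT.lf (nat_lit 0) (nat_lit 3413097907) (nat_lit 152) (nat_lit 1324547145) (nat_lit 76) (nat_lit 19497910256) (nat_lit 61) (nat_lit 5) (nat_lit 63) (nat_lit 5) (nat_lit 62) (nat_lit 4) (nat_lit 513) (nat_lit 367) (nat_lit 320)) (XT.lf (nat_lit 0) (nat_lit 12087545956) (nat_lit 152) (nat_lit 8610973644) (nat_lit 0) (nat_lit 3997306169) (nat_lit 60) (nat_lit 5) (nat_lit 62) (nat_lit 4) (nat_lit 60) (nat_lit 4) (nat_lit 514) (nat_lit 367) (nat_lit 319))))) (XT.nd (nat_lit 312) (nat_lit 380) (nat_lit 0) (XT.nd (nat_lit 156) (nat_lit 76) (nat_lit 0) (XT.nd (nat_lit 78) (nat_lit 152) (nat_lit 0) (XT.lf (nat_lit 0) (nat_lit 8829644889) (nat_lit 76) (nat_lit 12251973690) (nat_lit 76) (nat_lit 4086504305) (nat_lit 59) (nat_lit 4) (nat_lit 60) (nat_lit 5) (nat_lit 60) (nat_lit 4) (nat_lit 515) (nat_lit 367)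 (nat_lit 318)) (XT.lf (nat_lit 0) (nat_lit 1124161687) (nat_lit 76) (nat_lit 3487990784) (nat_lit 152) (nat_lit 21040700995) (nat_lit 57) (nat_lit 5) (nat_lit 58) (nat_lit 5) (nat_lit 59) (nat_lit 4) (nat_lit 516) (nat_lit 367) (nat_lit 317))) (XT.nd (nat_lit 78) (nat_lit 76) (nat_lit 0) (XT.lf (nat_lit 0) (nat_lit 13623725886) (nat_lit 152) (nat_lit 6966834916) (nat_lit 0) (nat_lit 5556328855) (nat_lit 57) (nat_lit 5) (nat_lit 59) (nat_lit 4) (nat_lit 57) (nat_lit 4) (nat_lit 517) (nat_lit 367) (nat_lit 316)) (XT.lf (nat_lit 0) (nat_lit 11139744372) (nat_lit 76) (nat_lit 11824245037) (nat_lit 76) (nat_lit 3690007482) (nat_lit 56) (nat_lit 4) (nat_lit 57) (nat_lit 5) (nat_lit 57) (nat_lit 4) (nat_lit 518) (nat_lit 367) (nat_lit 315)))) (XT.nd (nat_lit 156) (nat_lit 228) (nat_lit 0) (XT.nd (nat_lit 78) (nat_lit 0) (nat_lit 0) (XT.lf (nat_lit 0) (nat_lit 2590989511) (nat_lit 76) (nat_lit 2724340921) (nat_lit 152)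 (nat_lit 21859045970) (nat_lit 54) (nat_lit 5) (nat_lit 55) (nat_lit 5) (nat_lit 56) (nat_lit 4) (nat_lit 519) (nat_lit 367) (nat_lit 314)) (XT.lf (nat_lit 0) (nat_lit 14655627745) (nat_lit 152) (nat_lit 6415337218) (nat_lit 0) (nat_lit 6634137577) (nat_lit 54) (nat_lit 5) (nat_lit 56) (nat_lit 4) (nat_lit 54) (nat_lit 4) (nat_lit 520) (nat_lit 367) (nat_lit 313))) (XT.nd (nat_lit 78) (nat_lit 152) (nat_lit 0) (XT.lf (nat_lit 0) (nat_lit 12351521674) (nat_lit 76) (nat_lit 11989578562) (nat_lit 76) (nat_lit 3908701454) (nat_lit 53) (nat_lit 4) (nat_lit 54) (nat_lit 5) (nat_lit 54) (nat_lit 4) (nat_lit 521) (nat_lit 367) (nat_lit 312)) (XT.lf (nat_lit 0) (nat_lit 2845637208) (nat_lit 76) (nat_lit 2565284732) (nat_lit 152) (nat_lit 23397969948) (nat_lit 51) (nat_lit 5) (nat_lit 52) (nat_lit 5) (nat_lit 53) (nat_lit 4) (nat_lit 522) (nat_lit 367) (nat_lit 311)))))) (XT.nd (nat_lit 624) (nat_lit 532) (nat_lit 0) (XT.nd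 (nat_lit 312) (nat_lit 304) (nat_lit 0) (XT.nd (nat_lit 156) (nat_lit 152) (nat_lit 0) (XT.nd (nat_lit 78) (nat_lit 76) (nat_lit 0) (XT.lf (nat_lit 0) (nat_lit 15081718021) (nat_lit 152) (nat_lit 7171490704) (nat_lit 0) (nat_lit 7125880916) (nat_lit 51) (nat_lit 5) (nat_lit 53) (nat_lit 4) (nat_lit 51) (nat_lit 4) (nat_lit 523) (nat_lit 367) (nat_lit 310)) (XT.lf (nat_lit 0) (nat_lit 12241797268) (nat_lit 76) (nat_lit 12865627145) (nat_lit 76) (nat_lit 4857025514) (nat_lit 50) (nat_lit 4) (nat_lit 51) (nat_lit 5) (nat_lit 51) (nat_lit 4) (nat_lit 524) (nat_lit 367) (nat_lit 309))) (XT.nd (nat_lit 78) (nat_lit 0) (nat_lit 0) (XT.lf (nat_lit 0) (nat_lit 1648216795) (nat_lit 76) (nat_lit 3134071934) (nat_lit 152) (nat_lit 25783357433) (nat_lit 48) (nat_lit 5) (nat_lit 49) (nat_lit 5) (nat_lit 50) (nat_lit 4) (nat_lit 525) (nat_lit 367) (nat_lit 308)) (XT.lf (nat_lit 0) (nat_lit 14781924111) (nat_lit 152) (nat_lit 9487888700)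 (nat_lit 0) (nat_lit 6908560077) (nat_lit 48) (nat_lit 5) (nat_lit 50) (nat_lit 4) (nat_lit 48) (nat_lit 4) (nat_lit 526) (nat_lit 367) (nat_lit 307)))) (XT.nd (nat_lit 156) (nat_lit 152) (nat_lit 0) (XT.nd (nat_lit 78) (nat_lit 76) (nat_lit 0) (XT.lf (nat_lit 0) (nat_lit 10548074646) (nat_lit 76) (nat_lit 14589978222) (nat_lit 76) (nat_lit 6669733589) (nat_lit 47) (nat_lit 4) (nat_lit 48) (nat_lit 5) (nat_lit 48) (nat_lit 4) (nat_lit 527) (nat_lit 367) (nat_lit 306)) (XT.lf (nat_lit 0) (nat_lit 3304300544) (nat_lit 152) (nat_lit 1258029671) (nat_lit 76) (nat_lit 27892160736) (nat_lit 46) (nat_lit 5) (nat_lit 48) (nat_lit 5) (nat_lit 47) (nat_lit 4) (nat_lit 528) (nat_lit 367) (nat_lit 305))) (XT.nd (nat_lit 78) (nat_lit 76) (nat_lit 0) (XT.lf (nat_lit 0) (nat_lit 13614609354) (nat_lit 152) (nat_lit 13660913403) (nat_lit 0) (nat_lit 5837959609) (nat_lit 45) (nat_lit 5) (nat_lit 47) (nat_lit 4) (nat_lit 45) (nat_lit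 4) (nat_lit 529) (nat_lit 367) (nat_lit 304)) (XT.lf (nat_lit 0) (nat_lit 6962032231) (nat_lit 76) (nat_lit 17323487611) (nat_lit 76) (nat_lit 9505185061) (nat_lit 44) (nat_lit 4) (nat_lit 45) (nat_lit 5) (nat_lit 45) (nat_lit 4) (nat_lit 530) (nat_lit 367) (nat_lit 303))))) (XT.nd (nat_lit 312) (nat_lit 304) (nat_lit 0) (XT.nd (nat_lit 156) (nat_lit 76) (nat_lit 0) (XT.nd (nat_lit 78) (nat_lit 76) (nat_lit 0) (XT.lf (nat_lit 0) (nat_lit 838637298) (nat_lit 152) (nat_lit 6156308451) (nat_lit 76) (nat_lit 27491099982) (nat_lit 43) (nat_lit 5) (nat_lit 45) (nat_lit 5) (nat_lit 44) (nat_lit 4) (nat_lit 531) (nat_lit 367) (nat_lit 302)) (XT.lf (nat_lit 0) (nat_lit 11413055242) (nat_lit 152) (nat_lit 20037938325) (nat_lit 0) (nat_lit 3745090261) (nat_lit 42) (nat_lit 5) (nat_lit 44) (nat_lit 4) (nat_lit 42) (nat_lit 4) (nat_lit 532) (nat_lit 367) (nat_lit 301))) (XT.nd (nat_lit 78) (nat_lit 0) (nat_lit 0) (XT.lf (nat_lit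 0) (nat_lit 1121968747) (nat_lit 76) (nat_lit 21254142623) (nat_lit 76) (nat_lit 13549169665) (nat_lit 41) (nat_lit 4) (nat_lit 42) (nat_lit 5) (nat_lit 42) (nat_lit 4) (nat_lit 533) (nat_lit 367) (nat_lit 300)) (XT.lf (nat_lit 0) (nat_lit 23186104597) (nat_lit 76) (nat_lit 10613601657) (nat_lit 76) (nat_lit 2872698623) (nat_lit 41) (nat_lit 4) (nat_lit 42) (nat_lit 5) (nat_lit 42) (nat_lit 4) (nat_lit 534) (nat_lit 367) (nat_lit 299)))) (XT.nd (nat_lit 156) (nat_lit 152) (nat_lit 0) (XT.nd (nat_lit 78) (nat_lit 0) (nat_lit 0) (XT.lf (nat_lit 0) (nat_lit 7981372333) (nat_lit 152) (nat_lit 29025687401) (nat_lit 0) (nat_lit 432064953) (nat_lit 39) (nat_lit 5) (nat_lit 41) (nat_lit 4) (nat_lit 39) (nat_lit 4) (nat_lit 535) (nat_lit 367) (nat_lit 298)) (XT.lf (nat_lit 0) (nat_lit 19276668600) (nat_lit 152) (nat_lit 7251643976) (nat_lit 0) (nat_lit 11694480111) (nat_lit 39) (nat_lit 5) (nat_lit 41) (nat_lit 4) (nat_lit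 39) (nat_lit 4) (nat_lit 536) (nat_lit 367) (nat_lit 297))) (XT.nd (nat_lit 78) (nat_lit 76) (nat_lit 0) (XT.lf (nat_lit 0) (nat_lit 15340374215) (nat_lit 76) (nat_lit 15650651237) (nat_lit 76) (nat_lit 8036539341) (nat_lit 38) (nat_lit 4) (nat_lit 39) (nat_lit 5) (nat_lit 39) (nat_lit 4) (nat_lit 537) (nat_lit 367) (nat_lit 296)) (XT.lf (nat_lit 0) (nat_lit 3144594545) (nat_lit 152) (nat_lit 1261578566) (nat_lit 76) (nat_lit 35449182806) (nat_lit 37) (nat_lit 5) (nat_lit 39) (nat_lit 5) (nat_lit 38) (nat_lit 4) (nat_lit 538) (nat_lit 367) (nat_lit 295))))))))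
noncomputable def xc32 : XT := (XT.nd (nat_lit 57798) (nat_lit 0) (nat_lit 3192) (XT.nd (nat_lit 1170) (nat_lit 76) (nat_lit 0) (XT.nd (nat_lit 546) (nat_lit 456) (nat_lit 0) (XT.nd (nat_lit 234) (nat_lit 304) (nat_lit 0) (XT.nd (nat_lit 78) (nat_lit 76) (nat_lit 0) (XT.lf (nat_lit 0) (nat_lit 14717613531) (nat_lit 152) (nat_lit 18715474362) (nat_lit 0) (nat_lit 7265966573) (nat_lit 36) (nat_lit 5) (nat_lit 38) (nat_lit 4) (nat_lit 36) (nat_lit 4) (nat_lit 539) (nat_lit 367) (nat_lit 294)) (XT.nd (nat_lit 78) (nat_lit 0) (nat_lit 0) (XT.lf (nat_lit 0) (nat_lit 4293579062) (nat_lit 76) (nat_lit 22376760011) (nat_lit 76) (nat_lit 14896749520) (nat_lit 35) (nat_lit 4) (nat_lit 36) (nat_lit 5) (nat_lit 36) (nat_lit 4) (nat_lit 540) (nat_lit 367) (nat_lit 293)) (XT.lf (nat_lit 0) (nat_lit 28247109194) (nat_lit 76) (nat_lit 10858935305) (nat_lit 76) (nat_lit 3351387403) (nat_lit 35) (nat_lit 4) (nat_lit 36) (nat_lit 5)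 (nat_lit 36) (nat_lit 4) (nat_lit 541) (nat_lit 367) (nat_lit 292)))) (XT.nd (nat_lit 156) (nat_lit 152) (nat_lit 0) (XT.nd (nat_lit 78) (nat_lit 0) (nat_lit 0) (XT.lf (nat_lit 0) (nat_lit 8412641255) (nat_lit 152) (nat_lit 33860409606) (nat_lit 0) (nat_lit 1097803145) (nat_lit 33) (nat_lit 5) (nat_lit 35) (nat_lit 4) (nat_lit 33) (nat_lit 4) (nat_lit 542) (nat_lit 367) (nat_lit 291)) (XT.lf (nat_lit 0) (nat_lit 20651362253) (nat_lit 152) (nat_lit 10342323708) (nat_lit 0) (nat_lit 13311323512) (nat_lit 33) (nat_lit 5) (nat_lit 35) (nat_lit 4) (nat_lit 33) (nat_lit 4) (nat_lit 543) (nat_lit 367) (nat_lit 290))) (XT.nd (nat_lit 78) (nat_lit 76) (nat_lit 0) (XT.lf (nat_lit 0) (nat_lit 14031849691) (nat_lit 76) (nat_lit 19298821296) (nat_lit 76) (nat_lit 11934315922) (nat_lit 32) (nat_lit 4) (nat_lit 33) (nat_lit 5) (nat_lit 33) (nat_lit 4) (nat_lit 544) (nat_lit 367) (nat_lit 289)) (XT.lf (nat_lit 0) (nat_lit 177958690)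 (nat_lit 152) (nat_lit 7027003245) (nat_lit 76) (nat_lit 39047441563) (nat_lit 31) (nat_lit 5) (nat_lit 33) (nat_lit 5) (nat_lit 32) (nat_lit 4) (nat_lit 545) (nat_lit 367) (nat_lit 288))))) (XT.nd (nat_lit 312) (nat_lit 228) (nat_lit 0) (XT.nd (nat_lit 156) (nat_lit 152) (nat_lit 0) (XT.nd (nat_lit 78) (nat_lit 0) (nat_lit 0) (XT.lf (nat_lit 0) (nat_lit 12580081658) (nat_lit 152) (nat_lit 29296201862) (nat_lit 0) (nat_lit 5384623857) (nat_lit 30) (nat_lit 5) (nat_lit 32) (nat_lit 4) (nat_lit 30) (nat_lit 4) (nat_lit 546) (nat_lit 367) (nat_lit 287)) (XT.lf (nat_lit 0) (nat_lit 25437639904) (nat_lit 152) (nat_lit 4639081587) (nat_lit 0) (nat_lit 18220443816) (nat_lit 30) (nat_lit 5) (nat_lit 32) (nat_lit 4) (nat_lit 30) (nat_lit 4) (nat_lit 547) (nat_lit 367) (nat_lit 286))) (XT.nd (nat_lit 78) (nat_lit 76) (nat_lit 0) (XT.lf (nat_lit 0) (nat_lit 21052328590) (nat_lit 76) (nat_lit 17773074665) (nat_lit 76) (nat_lit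 10534773445) (nat_lit 29) (nat_lit 4) (nat_lit 30) (nat_lit 5) (nat_lit 30) (nat_lit 4) (nat_lit 548) (nat_lit 367) (nat_lit 285)) (XT.lf (nat_lit 0) (nat_lit 2107009358) (nat_lit 152) (nat_lit 2981562641) (nat_lit 76) (nat_lit 45366200724) (nat_lit 28) (nat_lit 5) (nat_lit 30) (nat_lit 5) (nat_lit 29) (nat_lit 4) (nat_lit 549) (nat_lit 367) (nat_lit 284)))) (XT.nd (nat_lit 156) (nat_lit 152) (nat_lit 0) (XT.nd (nat_lit 78) (nat_lit 0) (nat_lit 0) (XT.lf (nat_lit 0) (nat_lit 15163885758) (nat_lit 152) (nat_lit 28310563394) (nat_lit 0) (nat_lit 8097201048) (nat_lit 27) (nat_lit 5) (nat_lit 29) (nat_lit 4) (nat_lit 27) (nat_lit 4) (nat_lit 550) (nat_lit 367) (nat_lit 283)) (XT.lf (nat_lit 0) (nat_lit 28637087860) (nat_lit 152) (nat_lit 2532556114) (nat_lit 0) (nat_lit 21551651513) (nat_lit 27) (nat_lit 5) (nat_lit 29) (nat_lit 4) (nat_lit 27) (nat_lit 4) (nat_lit 551) (nat_lit 367) (nat_lit 282))) (XT.nd (nat_lit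 78) (nat_lit 76) (nat_lit 0) (XT.lf (nat_lit 0) (nat_lit 24385038898) (nat_lit 76) (nat_lit 18309318490) (nat_lit 76) (nat_lit 11205676670) (nat_lit 26) (nat_lit 4) (nat_lit 27) (nat_lit 5) (nat_lit 27) (nat_lit 4) (nat_lit 552) (nat_lit 367) (nat_lit 281)) (XT.lf (nat_lit 0) (nat_lit 1990332709) (nat_lit 152) (nat_lit 3080941635) (nat_lit 76) (nat_lit 50043127520) (nat_lit 25) (nat_lit 5) (nat_lit 27) (nat_lit 5) (nat_lit 26) (nat_lit 4) (nat_lit 553) (nat_lit 367) (nat_lit 280)))))) (XT.nd (nat_lit 56004) (nat_lit 0) (nat_lit 6688) (XT.nd (nat_lit 55692) (nat_lit 0) (nat_lit 8056) (XT.nd (nat_lit 55536) (nat_lit 0) (nat_lit 8740) (XT.nd (nat_lit 55458) (nat_lit 0) (nat_lit 9196) (XT.lf (nat_lit 0) (nat_lit 15623889984) (nat_lit 152) (nat_lit 32036646282) (nat_lit 0) (nat_lit 8693329363) (nat_lit 24) (nat_lit 5) (nat_lit 26) (nat_lit 4) (nat_lit 24) (nat_lit 4) (nat_lit 554) (nat_lit 367) (nat_lit 279)) (XT.lf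 (nat_lit 0) (nat_lit 1474039861) (nat_lit 228) (nat_lit 1989338678) (nat_lit 228) (nat_lit 1989338678) (nat_lit 145) (nat_lit 4) (nat_lit 148) (nat_lit 5) (nat_lit 148) (nat_lit 4) (nat_lit 464) (nat_lit 368) (nat_lit 368))) (XT.nd (nat_lit 78) (nat_lit 228) (nat_lit 0) (XT.lf (nat_lit 0) (nat_lit 1381236370) (nat_lit 228) (nat_lit 8869656589) (nat_lit 0) (nat_lit 802930966) (nat_lit 142) (nat_lit 5) (nat_lit 145) (nat_lit 4) (nat_lit 142) (nat_lit 4) (nat_lit 465) (nat_lit 368) (nat_lit 367)) (XT.lf (nat_lit 0) (nat_lit 1329475012) (nat_lit 228) (nat_lit 5507661314) (nat_lit 228) (nat_lit 4367894354) (nat_lit 139) (nat_lit 4) (nat_lit 142) (nat_lit 5) (nat_lit 142) (nat_lit 4) (nat_lit 466) (nat_lit 368) (nat_lit 366)))) (XT.nd (nat_lit 156) (nat_lit 456) (nat_lit 0) (XT.nd (nat_lit 78) (nat_lit 0) (nat_lit 0) (XT.lf (nat_lit 0) (nat_lit 449650090) (nat_lit 152) (nat_lit 601840233) (nat_lit 228) (nat_lit 10309661119)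 (nat_lit 136) (nat_lit 5) (nat_lit 138) (nat_lit 5) (nat_lit 139) (nat_lit 4) (nat_lit 467) (nat_lit 368) (nat_lit 365)) (XT.lf (nat_lit 0) (nat_lit 6571954625) (nat_lit 228) (nat_lit 525580502) (nat_lit 0) (nat_lit 4422336534) (nat_lit 136) (nat_lit 5) (nat_lit 139) (nat_lit 4) (nat_lit 136) (nat_lit 4) (nat_lit 468) (nat_lit 368) (nat_lit 364))) (XT.nd (nat_lit 78) (nat_lit 152) (nat_lit 0) (XT.lf (nat_lit 0) (nat_lit 553225251) (nat_lit 304) (nat_lit 1525422150) (nat_lit 76) (nat_lit 9604849337) (nat_lit 132) (nat_lit 5) (nat_lit 136) (nat_lit 5) (nat_lit 133) (nat_lit 4) (nat_lit 469) (nat_lit 368) (nat_lit 363)) (XT.lf (nat_lit 0) (nat_lit 6131029896) (nat_lit 228) (nat_lit 2629715273) (nat_lit 0) (nat_lit 3089485156) (nat_lit 130) (nat_lit 5) (nat_lit 133) (nat_lit 4) (nat_lit 130) (nat_lit 4) (nat_lit 470) (nat_lit 368) (nat_lit 362))))) (XT.nd (nat_lit 312) (nat_lit 608) (nat_lit 0) (XT.nd (nat_lit 156)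 (nat_lit 380) (nat_lit 0) (XT.nd (nat_lit 78) (nat_lit 228) (nat_lit 0) (XT.lf (nat_lit 0) (nat_lit 8237116910) (nat_lit 152) (nat_lit 3641421970) (nat_lit 152) (nat_lit 143357604) (nat_lit 128) (nat_lit 4) (nat_lit 130) (nat_lit 5) (nat_lit 130) (nat_lit 4) (nat_lit 471) (nat_lit 368) (nat_lit 361)) (XT.lf (nat_lit 0) (nat_lit 5489855635) (nat_lit 228) (nat_lit 5043899616) (nat_lit 0) (nat_lit 1663363107) (nat_lit 125) (nat_lit 5) (nat_lit 128) (nat_lit 4) (nat_lit 125) (nat_lit 4) (nat_lit 472) (nat_lit 368) (nat_lit 360))) (XT.nd (nat_lit 78) (nat_lit 228) (nat_lit 0) (XT.lf (nat_lit 0) (nat_lit 5997406792) (nat_lit 152) (nat_lit 5311908874) (nat_lit 152) (nat_lit 1067636219) (nat_lit 123) (nat_lit 4) (nat_lit 125) (nat_lit 5) (nat_lit 125) (nat_lit 4) (nat_lit 473) (nat_lit 368) (nat_lit 359)) (XT.lf (nat_lit 0) (nat_lit 4635081727) (nat_lit 228) (nat_lit 7805509451) (nat_lit 0) (nat_lit 120630825) (nat_lit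 120) (nat_lit 5) (nat_lit 123) (nat_lit 4) (nat_lit 120) (nat_lit 4) (nat_lit 474) (nat_lit 368) (nat_lit 358)))) (XT.nd (nat_lit 156) (nat_lit 228) (nat_lit 0) (XT.nd (nat_lit 78) (nat_lit 228) (nat_lit 0) (XT.lf (nat_lit 0) (nat_lit 3406405226) (nat_lit 152) (nat_lit 7119955030) (nat_lit 152) (nat_lit 2223176128) (nat_lit 118) (nat_lit 4) (nat_lit 120) (nat_lit 5) (nat_lit 120) (nat_lit 4) (nat_lit 475) (nat_lit 368) (nat_lit 357)) (XT.lf (nat_lit 0) (nat_lit 1972967624) (nat_lit 152) (nat_lit 1593997281) (nat_lit 228) (nat_lit 9375863885) (nat_lit 115) (nat_lit 5) (nat_lit 117) (nat_lit 5) (nat_lit 118) (nat_lit 4) (nat_lit 476) (nat_lit 368) (nat_lit 356))) (XT.nd (nat_lit 78) (nat_lit 76) (nat_lit 0) (XT.lf (nat_lit 0) (nat_lit 423274896) (nat_lit 152) (nat_lit 9090783702) (nat_lit 152) (nat_lit 3626364341) (nat_lit 113) (nat_lit 4) (nat_lit 115) (nat_lit 5) (nat_lit 115) (nat_lit 4) (nat_lit 477) (nat_lit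 368) (nat_lit 355)) (XT.lf (nat_lit 0) (nat_lit 2267872853) (nat_lit 228) (nat_lit 1200330945) (nat_lit 76) (nat_lit 9874568863) (nat_lit 112) (nat_lit 5) (nat_lit 115) (nat_lit 5) (nat_lit 113) (nat_lit 4) (nat_lit 478) (nat_lit 368) (nat_lit 354))))))) (XT.nd (nat_lit 1170) (nat_lit 1520) (nat_lit 0) (XT.nd (nat_lit 546) (nat_lit 988) (nat_lit 0) (XT.nd (nat_lit 234) (nat_lit 532) (nat_lit 0) (XT.nd (nat_lit 78) (nat_lit 304) (nat_lit 0) (XT.lf (nat_lit 0) (nat_lit 8283733101) (nat_lit 228) (nat_lit 2937374925) (nat_lit 0) (nat_lit 2328478414) (nat_lit 110) (nat_lit 5) (nat_lit 113) (nat_lit 4) (nat_lit 110) (nat_lit 4) (nat_lit 479) (nat_lit 368) (nat_lit 353)) (XT.nd (nat_lit 78) (nat_lit 76) (nat_lit 0) (XT.lf (nat_lit 0) (nat_lit 729657328) (nat_lit 228) (nat_lit 4784917961) (nat_lit 76) (nat_lit 8247037757) (nat_lit 107) (nat_lit 5) (nat_lit 110) (nat_lit 5) (nat_lit 108) (nat_lit 4) (nat_lit 480) (nat_lit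 368) (nat_lit 352)) (XT.lf (nat_lit 0) (nat_lit 6795834425) (nat_lit 152) (nat_lit 6763505866) (nat_lit 0) (nat_lit 419197929) (nat_lit 106) (nat_lit 5) (nat_lit 108) (nat_lit 4) (nat_lit 106) (nat_lit 4) (nat_lit 481) (nat_lit 368) (nat_lit 351)))) (XT.nd (nat_lit 156) (nat_lit 228) (nat_lit 0) (XT.nd (nat_lit 78) (nat_lit 152) (nat_lit 0) (XT.lf (nat_lit 0) (nat_lit 5322512169) (nat_lit 152) (nat_lit 7769570936) (nat_lit 152) (nat_lit 1108446502) (nat_lit 104) (nat_lit 4) (nat_lit 106) (nat_lit 5) (nat_lit 106) (nat_lit 4) (nat_lit 482) (nat_lit 368) (nat_lit 350)) (XT.lf (nat_lit 0) (nat_lit 3297830125) (nat_lit 76) (nat_lit 1744118859) (nat_lit 152) (nat_lit 9385917131) (nat_lit 102) (nat_lit 5) (nat_lit 103) (nat_lit 5) (nat_lit 104) (nat_lit 4) (nat_lit 483) (nat_lit 368) (nat_lit 349))) (XT.nd (nat_lit 78) (nat_lit 76) (nat_lit 0) (XT.lf (nat_lit 0) (nat_lit 1129594343) (nat_lit 152) (nat_lit 10263283064)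 (nat_lit 152) (nat_lit 3267668034) (nat_lit 100) (nat_lit 4) (nat_lit 102) (nat_lit 5) (nat_lit 102) (nat_lit 4) (nat_lit 484) (nat_lit 368) (nat_lit 348)) (XT.lf (nat_lit 0) (nat_lit 2999856876) (nat_lit 228) (nat_lit 1158669419) (nat_lit 76) (nat_lit 10740056720) (nat_lit 99) (nat_lit 5) (nat_lit 102) (nat_lit 5) (nat_lit 100) (nat_lit 4) (nat_lit 485) (nat_lit 368) (nat_lit 347))))) (XT.nd (nat_lit 312) (nat_lit 456) (nat_lit 0) (XT.nd (nat_lit 156) (nat_lit 228) (nat_lit 0) (XT.nd (nat_lit 78) (nat_lit 228) (nat_lit 0) (XT.lf (nat_lit 0) (nat_lit 9419354194) (nat_lit 152) (nat_lit 3578710116) (nat_lit 0) (nat_lit 2143838978) (nat_lit 98) (nat_lit 5) (nat_lit 100) (nat_lit 4) (nat_lit 98) (nat_lit 4) (nat_lit 486) (nat_lit 368) (nat_lit 346)) (XT.lf (nat_lit 0) (nat_lit 666206108) (nat_lit 228) (nat_lit 6154431544) (nat_lit 76) (nat_lit 8570509282) (nat_lit 95) (nat_lit 5) (nat_lit 98) (nat_lit 5) (nat_lit 96)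 (nat_lit 4) (nat_lit 487) (nat_lit 368) (nat_lit 345))) (XT.nd (nat_lit 78) (nat_lit 152) (nat_lit 0) (XT.lf (nat_lit 0) (nat_lit 6743688905) (nat_lit 76) (nat_lit 386900382) (nat_lit 152) (nat_lit 8515610146) (nat_lit 94) (nat_lit 5) (nat_lit 95) (nat_lit 5) (nat_lit 96) (nat_lit 4) (nat_lit 488) (nat_lit 368) (nat_lit 344)) (XT.lf (nat_lit 0) (nat_lit 4072416753) (nat_lit 152) (nat_lit 9776299811) (nat_lit 152) (nat_lit 2058393341) (nat_lit 92) (nat_lit 4) (nat_lit 94) (nat_lit 5) (nat_lit 94) (nat_lit 4) (nat_lit 489) (nat_lit 368) (nat_lit 343)))) (XT.nd (nat_lit 156) (nat_lit 304) (nat_lit 0) (XT.nd (nat_lit 78) (nat_lit 0) (nat_lit 0) (XT.lf (nat_lit 0) (nat_lit 1226548578) (nat_lit 76) (nat_lit 3280828361) (nat_lit 152) (nat_lit 11667013477) (nat_lit 90) (nat_lit 5) (nat_lit 91) (nat_lit 5) (nat_lit 92) (nat_lit 4) (nat_lit 490) (nat_lit 368) (nat_lit 342)) (XT.lf (nat_lit 0) (nat_lit 11280495446) (nat_lit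 152) (nat_lit 1772904988) (nat_lit 0) (nat_lit 3394125810) (nat_lit 90) (nat_lit 5) (nat_lit 92) (nat_lit 4) (nat_lit 90) (nat_lit 4) (nat_lit 491) (nat_lit 368) (nat_lit 341))) (XT.nd (nat_lit 78) (nat_lit 76) (nat_lit 0) (XT.lf (nat_lit 0) (nat_lit 1545818530) (nat_lit 228) (nat_lit 4936438059) (nat_lit 76) (nat_lit 10244729108) (nat_lit 87) (nat_lit 5) (nat_lit 90) (nat_lit 5) (nat_lit 88) (nat_lit 4) (nat_lit 492) (nat_lit 368) (nat_lit 340)) (XT.lf (nat_lit 0) (nat_lit 8362779680) (nat_lit 152) (nat_lit 8304093114) (nat_lit 0) (nat_lit 346224671) (nat_lit 86) (nat_lit 5) (nat_lit 88) (nat_lit 4) (nat_lit 86) (nat_lit 4) (nat_lit 493) (nat_lit 368) (nat_lit 339)))))) (XT.nd (nat_lit 624) (nat_lit 684) (nat_lit 0) (XT.nd (nat_lit 312) (nat_lit 304) (nat_lit 0) (XT.nd (nat_lit 156) (nat_lit 228) (nat_lit 0) (XT.nd (nat_lit 78) (nat_lit 152) (nat_lit 0) (XT.lf (nat_lit 0) (nat_lit 5410262573) (nat_lit 152) (nat_lit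 10042081354) (nat_lit 152) (nat_lit 1853406464) (nat_lit 84) (nat_lit 4) (nat_lit 86) (nat_lit 5) (nat_lit 86) (nat_lit 4) (nat_lit 494) (nat_lit 368) (nat_lit 338)) (XT.lf (nat_lit 0) (nat_lit 1898908439) (nat_lit 76) (nat_lit 3152662993) (nat_lit 152) (nat_lit 12553989550) (nat_lit 82) (nat_lit 5) (nat_lit 83) (nat_lit 5) (nat_lit 84) (nat_lit 4) (nat_lit 495) (nat_lit 368) (nat_lit 337))) (XT.nd (nat_lit 78) (nat_lit 228) (nat_lit 0) (XT.lf (nat_lit 0) (nat_lit 12187522005) (nat_lit 152) (nat_lit 1806863059) (nat_lit 0) (nat_lit 3917598640) (nat_lit 82) (nat_lit 5) (nat_lit 84) (nat_lit 4) (nat_lit 82) (nat_lit 4) (nat_lit 496) (nat_lit 368) (nat_lit 336)) (XT.lf (nat_lit 0) (nat_lit 1341414655) (nat_lit 228) (nat_lit 5699777899) (nat_lit 76) (nat_lit 11184318597) (nat_lit 79) (nat_lit 5) (nat_lit 82) (nat_lit 5) (nat_lit 80) (nat_lit 4) (nat_lit 497) (nat_lit 368) (nat_lit 335)))) (XT.nd (nat_lit 156) (nat_lit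 152) (nat_lit 0) (XT.nd (nat_lit 78) (nat_lit 76) (nat_lit 0) (XT.lf (nat_lit 0) (nat_lit 8513008953) (nat_lit 152) (nat_lit 9842134403) (nat_lit 0) (nat_lit 191337330) (nat_lit 78) (nat_lit 5) (nat_lit 80) (nat_lit 4) (nat_lit 78) (nat_lit 4) (nat_lit 498) (nat_lit 368) (nat_lit 334)) (XT.lf (nat_lit 0) (nat_lit 4617526282) (nat_lit 76) (nat_lit 11359429122) (nat_lit 76) (nat_lit 2897808285) (nat_lit 77) (nat_lit 4) (nat_lit 78) (nat_lit 5) (nat_lit 78) (nat_lit 4) (nat_lit 499) (nat_lit 368) (nat_lit 333))) (XT.nd (nat_lit 78) (nat_lit 0) (nat_lit 0) (XT.lf (nat_lit 0) (nat_lit 280045851) (nat_lit 76) (nat_lit 4093126420) (nat_lit 152) (nat_lit 14838195948) (nat_lit 75) (nat_lit 5) (nat_lit 76) (nat_lit 5) (nat_lit 77) (nat_lit 4) (nat_lit 500) (nat_lit 368) (nat_lit 332)) (XT.lf (nat_lit 0) (nat_lit 11887247525) (nat_lit 152) (nat_lit 4255374092) (nat_lit 0) (nat_lit 3412092751) (nat_lit 75) (nat_lit 5) (nat_lit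 77) (nat_lit 4) (nat_lit 75) (nat_lit 4) (nat_lit 501) (nat_lit 368) (nat_lit 331))))) (XT.nd (nat_lit 312) (nat_lit 304) (nat_lit 0) (XT.nd (nat_lit 156) (nat_lit 152) (nat_lit 0) (XT.nd (nat_lit 78) (nat_lit 152) (nat_lit 0) (XT.lf (nat_lit 0) (nat_lit 10852867558) (nat_lit 76) (nat_lit 8826703429) (nat_lit 76) (nat_lit 227205591) (nat_lit 74) (nat_lit 4) (nat_lit 75) (nat_lit 5) (nat_lit 75) (nat_lit 4) (nat_lit 502) (nat_lit 368) (nat_lit 330)) (XT.lf (nat_lit 0) (nat_lit 6101316385) (nat_lit 76) (nat_lit 1199932700) (nat_lit 152) (nat_lit 12965704727) (nat_lit 72) (nat_lit 5) (nat_lit 73) (nat_lit 5) (nat_lit 74) (nat_lit 4) (nat_lit 503) (nat_lit 368) (nat_lit 329))) (XT.nd (nat_lit 78) (nat_lit 76) (nat_lit 0) (XT.lf (nat_lit 0) (nat_lit 1035218694) (nat_lit 76) (nat_lit 14090220478) (nat_lit 76) (nat_lit 5510196669) (nat_lit 71) (nat_lit 4) (nat_lit 72) (nat_lit 5) (nat_lit 72) (nat_lit 4) (nat_lit 504)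 (nat_lit 368) (nat_lit 328)) (XT.lf (nat_lit 0) (nat_lit 2191247452) (nat_lit 152) (nat_lit 4242268682) (nat_lit 76) (nat_lit 14579299243) (nat_lit 70) (nat_lit 5) (nat_lit 72) (nat_lit 5) (nat_lit 71) (nat_lit 4) (nat_lit 505) (nat_lit 368) (nat_lit 327)))) (XT.nd (nat_lit 156) (nat_lit 152) (nat_lit 0) (XT.nd (nat_lit 78) (nat_lit 76) (nat_lit 0) (XT.lf (nat_lit 0) (nat_lit 10049952364) (nat_lit 152) (nat_lit 9840175233) (nat_lit 0) (nat_lit 1508437383) (nat_lit 69) (nat_lit 5) (nat_lit 71) (nat_lit 4) (nat_lit 69) (nat_lit 4) (nat_lit 506) (nat_lit 368) (nat_lit 326)) (XT.lf (nat_lit 0) (nat_lit 6004053755) (nat_lit 76) (nat_lit 12216089604) (nat_lit 76) (nat_lit 3573472334) (nat_lit 68) (nat_lit 4) (nat_lit 69) (nat_lit 5) (nat_lit 69) (nat_lit 4) (nat_lit 507) (nat_lit 368) (nat_lit 325))) (XT.nd (nat_lit 78) (nat_lit 0) (nat_lit 0) (XT.lf (nat_lit 0) (nat_lit 111882299) (nat_lit 76) (nat_lit 4249032544) (nat_lit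 152) (nat_lit 17837948478) (nat_lit 66) (nat_lit 5) (nat_lit 67) (nat_lit 5) (nat_lit 68) (nat_lit 4) (nat_lit 508) (nat_lit 368) (nat_lit 324)) (XT.lf (nat_lit 0) (nat_lit 12571791560) (nat_lit 152) (nat_lit 6047027812) (nat_lit 0) (nat_lit 3993079483) (nat_lit 66) (nat_lit 5) (nat_lit 68) (nat_lit 4) (nat_lit 66) (nat_lit 4) (nat_lit 509) (nat_lit 368) (nat_lit 323))))))))
noncomputable def xc33 : XT := (XT.nd (nat_lit 2418) (nat_lit 912) (nat_lit 0) (XT.nd (nat_lit 1170) (nat_lit 1064) (nat_lit 0) (XT.nd (nat_lit 546) (nat_lit 608) (nat_lit 0) (XT.nd (nat_lit 234) (nat_lit 380) (nat_lit 0) (XT.nd (nat_lit 78) (nat_lit 152) (nat_lit 0) (XT.lf (nat_lit 0) (nat_lit 10466798201) (nat_lit 76) (nat_lit 10618686515) (nat_lit 76) (nat_lit 1950146364) (nat_lit 65) (nat_lit 4) (nat_lit 66) (nat_lit 5) (nat_lit 66) (nat_lit 4) (nat_lit 510) (nat_lit 368) (nat_lit 322)) (XT.nd (nat_lit 78) (nat_lit 0) (nat_lit 0) (XT.lf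 (nat_lit 0) (nat_lit 3975825223) (nat_lit 76) (nat_lit 2295887632) (nat_lit 152) (nat_lit 17198109789) (nat_lit 63) (nat_lit 5) (nat_lit 64) (nat_lit 5) (nat_lit 65) (nat_lit 4) (nat_lit 511) (nat_lit 368) (nat_lit 321)) (XT.lf (nat_lit 0) (nat_lit 14803503656) (nat_lit 152) (nat_lit 2889314929) (nat_lit 0) (nat_lit 6220568266) (nat_lit 63) (nat_lit 5) (nat_lit 65) (nat_lit 4) (nat_lit 63) (nat_lit 4) (nat_lit 512) (nat_lit 368) (nat_lit 320)))) (XT.nd (nat_lit 156) (nat_lit 152) (nat_lit 0) (XT.nd (nat_lit 78) (nat_lit 152) (nat_lit 0) (XT.lf (nat_lit 0) (nat_lit 14305209118) (nat_lit 76) (nat_lit 9362747193) (nat_lit 76) (nat_lit 700000722) (nat_lit 62) (nat_lit 4) (nat_lit 63) (nat_lit 5) (nat_lit 63) (nat_lit 4) (nat_lit 513) (nat_lit 368) (nat_lit 319)) (XT.lf (nat_lit 0) (nat_lit 7137193618) (nat_lit 76) (nat_lit 684198783) (nat_lit 152) (nat_lit 17012038527) (nat_lit 60) (nat_lit 5) (nat_lit 61) (nat_lit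 5) (nat_lit 62) (nat_lit 4) (nat_lit 514) (nat_lit 368) (nat_lit 318))) (XT.nd (nat_lit 78) (nat_lit 152) (nat_lit 0) (XT.lf (nat_lit 0) (nat_lit 16682929377) (nat_lit 152) (nat_lit 502547001) (nat_lit 0) (nat_lit 8124227866) (nat_lit 60) (nat_lit 5) (nat_lit 62) (nat_lit 4) (nat_lit 60) (nat_lit 4) (nat_lit 515) (nat_lit 368) (nat_lit 317)) (XT.lf (nat_lit 0) (nat_lit 103635271) (nat_lit 152) (nat_lit 8419233020) (nat_lit 76) (nat_lit 17274581285) (nat_lit 58) (nat_lit 5) (nat_lit 60) (nat_lit 5) (nat_lit 59) (nat_lit 4) (nat_lit 516) (nat_lit 368) (nat_lit 316))))) (XT.nd (nat_lit 312) (nat_lit 304) (nat_lit 0) (XT.nd (nat_lit 156) (nat_lit 152) (nat_lit 0) (XT.nd (nat_lit 78) (nat_lit 76) (nat_lit 0) (XT.lf (nat_lit 0) (nat_lit 8942430097) (nat_lit 152) (nat_lit 16856914259) (nat_lit 0) (nat_lit 497324890) (nat_lit 57) (nat_lit 5) (nat_lit 59) (nat_lit 4) (nat_lit 57) (nat_lit 4) (nat_lit 517) (nat_lit 368) (nat_lit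 315)) (XT.lf (nat_lit 0) (nat_lit 972361210) (nat_lit 76) (nat_lit 17172770581) (nat_lit 76) (nat_lit 8662771661) (nat_lit 56) (nat_lit 4) (nat_lit 57) (nat_lit 5) (nat_lit 57) (nat_lit 4) (nat_lit 518) (nat_lit 368) (nat_lit 314))) (XT.nd (nat_lit 78) (nat_lit 76) (nat_lit 0) (XT.lf (nat_lit 0) (nat_lit 374888496) (nat_lit 152) (nat_lit 7811978875) (nat_lit 76) (nat_lit 19144791169) (nat_lit 55) (nat_lit 5) (nat_lit 57) (nat_lit 5) (nat_lit 56) (nat_lit 4) (nat_lit 519) (nat_lit 368) (nat_lit 313)) (XT.lf (nat_lit 0) (nat_lit 9545558024) (nat_lit 152) (nat_lit 17159047930) (nat_lit 0) (nat_lit 1162867663) (nat_lit 54) (nat_lit 5) (nat_lit 56) (nat_lit 4) (nat_lit 54) (nat_lit 4) (nat_lit 520) (nat_lit 368) (nat_lit 312)))) (XT.nd (nat_lit 156) (nat_lit 152) (nat_lit 0) (XT.nd (nat_lit 78) (nat_lit 76) (nat_lit 0) (XT.lf (nat_lit 0) (nat_lit 1315807840) (nat_lit 76) (nat_lit 17770526747) (nat_lit 76) (nat_lit 9330179163)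 (nat_lit 53) (nat_lit 4) (nat_lit 54) (nat_lit 5) (nat_lit 54) (nat_lit 4) (nat_lit 521) (nat_lit 368) (nat_lit 311)) (XT.lf (nat_lit 0) (nat_lit 29285414) (nat_lit 152) (nat_lit 8436876078) (nat_lit 76) (nat_lit 20512984532) (nat_lit 52) (nat_lit 5) (nat_lit 54) (nat_lit 5) (nat_lit 53) (nat_lit 4) (nat_lit 522) (nat_lit 368) (nat_lit 310))) (XT.nd (nat_lit 78) (nat_lit 76) (nat_lit 0) (XT.lf (nat_lit 0) (nat_lit 9521259678) (nat_lit 152) (nat_lit 18813813379) (nat_lit 0) (nat_lit 1219635471) (nat_lit 51) (nat_lit 5) (nat_lit 53) (nat_lit 4) (nat_lit 51) (nat_lit 4) (nat_lit 523) (nat_lit 368) (nat_lit 309)) (XT.lf (nat_lit 0) (nat_lit 291816324) (nat_lit 76) (nat_lit 19102836935) (nat_lit 76) (nat_lit 10749985031) (nat_lit 50) (nat_lit 4) (nat_lit 51) (nat_lit 5) (nat_lit 51) (nat_lit 4) (nat_lit 524) (nat_lit 368) (nat_lit 308)))))) (XT.nd (nat_lit 624) (nat_lit 456) (nat_lit 0) (XT.nd (nat_lit 312) (nat_lit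 380) (nat_lit 0) (XT.nd (nat_lit 156) (nat_lit 76) (nat_lit 0) (XT.nd (nat_lit 78) (nat_lit 152) (nat_lit 0) (XT.lf (nat_lit 0) (nat_lit 20206585438) (nat_lit 76) (nat_lit 9472412866) (nat_lit 76) (nat_lit 1069825335) (nat_lit 50) (nat_lit 4) (nat_lit 51) (nat_lit 5) (nat_lit 51) (nat_lit 4) (nat_lit 525) (nat_lit 368) (nat_lit 307)) (XT.lf (nat_lit 0) (nat_lit 8747980251) (nat_lit 152) (nat_lit 22076712210) (nat_lit 0) (nat_lit 543247681) (nat_lit 48) (nat_lit 5) (nat_lit 50) (nat_lit 4) (nat_lit 48) (nat_lit 4) (nat_lit 526) (nat_lit 368) (nat_lit 306))) (XT.nd (nat_lit 78) (nat_lit 76) (nat_lit 0) (XT.lf (nat_lit 0) (nat_lit 18966404431) (nat_lit 152) (nat_lit 2318923784) (nat_lit 0) (nat_lit 10716156716) (nat_lit 48) (nat_lit 5) (nat_lit 50) (nat_lit 4) (nat_lit 48) (nat_lit 4) (nat_lit 527) (nat_lit 368) (nat_lit 305)) (XT.lf (nat_lit 0) (nat_lit 18245043937) (nat_lit 76) (nat_lit 11350157432) (nat_lit 76)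 (nat_lit 3055720256) (nat_lit 47) (nat_lit 4) (nat_lit 48) (nat_lit 5) (nat_lit 48) (nat_lit 4) (nat_lit 528) (nat_lit 368) (nat_lit 304)))) (XT.nd (nat_lit 156) (nat_lit 228) (nat_lit 0) (XT.nd (nat_lit 78) (nat_lit 0) (nat_lit 0) (XT.lf (nat_lit 0) (nat_lit 6060315165) (nat_lit 76) (nat_lit 1032125588) (nat_lit 152) (nat_lit 26225006843) (nat_lit 45) (nat_lit 5) (nat_lit 46) (nat_lit 5) (nat_lit 47) (nat_lit 4) (nat_lit 529) (nat_lit 368) (nat_lit 303)) (XT.lf (nat_lit 0) (nat_lit 17651291099) (nat_lit 152) (nat_lit 6830393861) (nat_lit 0) (nat_lit 9516347051) (nat_lit 45) (nat_lit 5) (nat_lit 47) (nat_lit 4) (nat_lit 45) (nat_lit 4) (nat_lit 530) (nat_lit 368) (nat_lit 302))) (XT.nd (nat_lit 78) (nat_lit 152) (nat_lit 0) (XT.lf (nat_lit 0) (nat_lit 14340256349) (nat_lit 76) (nat_lit 14265311863) (nat_lit 76) (nat_lit 6091106052) (nat_lit 44) (nat_lit 4) (nat_lit 45) (nat_lit 5) (nat_lit 45) (nat_lit 4) (nat_lit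 531) (nat_lit 368) (nat_lit 301)) (XT.lf (nat_lit 0) (nat_lit 703363995) (nat_lit 76) (nat_lit 3688600548) (nat_lit 152) (nat_lit 31022810632) (nat_lit 42) (nat_lit 5) (nat_lit 43) (nat_lit 5) (nat_lit 44) (nat_lit 4) (nat_lit 532) (nat_lit 368) (nat_lit 300))))) (XT.nd (nat_lit 312) (nat_lit 228) (nat_lit 0) (XT.nd (nat_lit 156) (nat_lit 152) (nat_lit 0) (XT.nd (nat_lit 78) (nat_lit 76) (nat_lit 0) (XT.lf (nat_lit 0) (nat_lit 15274621740) (nat_lit 152) (nat_lit 13606201135) (nat_lit 0) (nat_lit 7265561540) (nat_lit 42) (nat_lit 5) (nat_lit 44) (nat_lit 4) (nat_lit 42) (nat_lit 4) (nat_lit 533) (nat_lit 368) (nat_lit 299)) (XT.lf (nat_lit 0) (nat_lit 8119553391) (nat_lit 76) (nat_lit 18411457435) (nat_lit 76) (nat_lit 10367513667) (nat_lit 41) (nat_lit 4) (nat_lit 42) (nat_lit 5) (nat_lit 42) (nat_lit 4) (nat_lit 534) (nat_lit 368) (nat_lit 298))) (XT.nd (nat_lit 78) (nat_lit 76) (nat_lit 0) (XT.lf (nat_lit 0) (nat_lit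 514503209) (nat_lit 152) (nat_lit 7033369794) (nat_lit 76) (nat_lit 30123081850) (nat_lit 40) (nat_lit 5) (nat_lit 42) (nat_lit 5) (nat_lit 41) (nat_lit 4) (nat_lit 535) (nat_lit 368) (nat_lit 297)) (XT.lf (nat_lit 0) (nat_lit 11634474687) (nat_lit 152) (nat_lit 23065391939) (nat_lit 0) (nat_lit 3760016028) (nat_lit 39) (nat_lit 5) (nat_lit 41) (nat_lit 4) (nat_lit 39) (nat_lit 4) (nat_lit 536) (nat_lit 368) (nat_lit 296)))) (XT.nd (nat_lit 156) (nat_lit 152) (nat_lit 0) (XT.nd (nat_lit 78) (nat_lit 76) (nat_lit 0) (XT.lf (nat_lit 0) (nat_lit 23169202817) (nat_lit 152) (nat_lit 837090302) (nat_lit 0) (nat_lit 15263750559) (nat_lit 39) (nat_lit 5) (nat_lit 41) (nat_lit 4) (nat_lit 39) (nat_lit 4) (nat_lit 537) (nat_lit 368) (nat_lit 295)) (XT.lf (nat_lit 0) (nat_lit 22367667818) (nat_lit 76) (nat_lit 12833918278) (nat_lit 76) (nat_lit 4898375148) (nat_lit 38) (nat_lit 4) (nat_lit 39) (nat_lit 5) (nat_lit 39) (nat_lit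 4) (nat_lit 538) (nat_lit 368) (nat_lit 294))) (XT.nd (nat_lit 78) (nat_lit 0) (nat_lit 0) (XT.lf (nat_lit 0) (nat_lit 5242712604) (nat_lit 76) (nat_lit 1263430338) (nat_lit 152) (nat_lit 34446852060) (nat_lit 36) (nat_lit 5) (nat_lit 37) (nat_lit 5) (nat_lit 38) (nat_lit 4) (nat_lit 539) (nat_lit 368) (nat_lit 293)) (XT.lf (nat_lit 0) (nat_lit 18374245602) (nat_lit 152) (nat_lit 12835388413) (nat_lit 0) (nat_lit 10613933852) (nat_lit 36) (nat_lit 5) (nat_lit 38) (nat_lit 4) (nat_lit 36) (nat_lit 4) (nat_lit 540) (nat_lit 368) (nat_lit 292))))))) (XT.nd (nat_lit 56472) (nat_lit 0) (nat_lit 6536) (XT.nd (nat_lit 624) (nat_lit 380) (nat_lit 0) (XT.nd (nat_lit 312) (nat_lit 304) (nat_lit 0) (XT.nd (nat_lit 156) (nat_lit 152) (nat_lit 0) (XT.nd (nat_lit 78) (nat_lit 0) (nat_lit 0) (XT.lf (nat_lit 0) (nat_lit 10800784161) (nat_lit 76) (nat_lit 19852438015) (nat_lit 76) (nat_lit 12065390914) (nat_lit 35) (nat_lit 4) (nat_lit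 36) (nat_lit 5) (nat_lit 36) (nat_lit 4) (nat_lit 541) (nat_lit 368) (nat_lit 291)) (XT.lf (nat_lit 0) (nat_lit 35287141622) (nat_lit 76) (nat_lit 8082155018) (nat_lit 76) (nat_lit 269151267) (nat_lit 35) (nat_lit 4) (nat_lit 36) (nat_lit 5) (nat_lit 36) (nat_lit 4) (nat_lit 542) (nat_lit 368) (nat_lit 290))) (XT.nd (nat_lit 78) (nat_lit 0) (nat_lit 0) (XT.lf (nat_lit 0) (nat_lit 11784170827) (nat_lit 152) (nat_lit 28619966080) (nat_lit 0) (nat_lit 4174263659) (nat_lit 33) (nat_lit 5) (nat_lit 35) (nat_lit 4) (nat_lit 33) (nat_lit 4) (nat_lit 543) (nat_lit 368) (nat_lit 289)) (XT.lf (nat_lit 0) (nat_lit 24299204416) (nat_lit 152) (nat_lit 4578558648) (nat_lit 0) (nat_lit 16665543235) (nat_lit 33) (nat_lit 5) (nat_lit 35) (nat_lit 4) (nat_lit 33) (nat_lit 4) (nat_lit 544) (nat_lit 368) (nat_lit 288)))) (XT.nd (nat_lit 156) (nat_lit 152) (nat_lit 0) (XT.nd (nat_lit 78) (nat_lit 76) (nat_lit 0) (XT.lf (nat_lit 0) (nat_lit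 20467290593) (nat_lit 76) (nat_lit 16861213783) (nat_lit 76) (nat_lit 9204490454) (nat_lit 32) (nat_lit 4) (nat_lit 33) (nat_lit 5) (nat_lit 33) (nat_lit 4) (nat_lit 545) (nat_lit 368) (nat_lit 287)) (XT.lf (nat_lit 0) (nat_lit 3122714707) (nat_lit 152) (nat_lit 1340002907) (nat_lit 76) (nat_lit 43089071427) (nat_lit 31) (nat_lit 5) (nat_lit 33) (nat_lit 5) (nat_lit 32) (nat_lit 4) (nat_lit 546) (nat_lit 368) (nat_lit 286))) (XT.nd (nat_lit 78) (nat_lit 76) (nat_lit 0) (XT.lf (nat_lit 0) (nat_lit 15895590229) (nat_lit 152) (nat_lit 24275962421) (nat_lit 0) (nat_lit 8419034840) (nat_lit 30) (nat_lit 5) (nat_lit 32) (nat_lit 4) (nat_lit 30) (nat_lit 4) (nat_lit 547) (nat_lit 368) (nat_lit 285)) (XT.lf (nat_lit 0) (nat_lit 967940273) (nat_lit 76) (nat_lit 28094663475) (nat_lit 76) (nat_lit 20597617666) (nat_lit 29) (nat_lit 4) (nat_lit 30) (nat_lit 5) (nat_lit 30) (nat_lit 4) (nat_lit 548) (nat_lit 368) (nat_lit 284)))))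 (XT.nd (nat_lit 312) (nat_lit 152) (nat_lit 0) (XT.nd (nat_lit 156) (nat_lit 76) (nat_lit 0) (XT.nd (nat_lit 78) (nat_lit 152) (nat_lit 0) (XT.lf (nat_lit 0) (nat_lit 27355054693) (nat_lit 76) (nat_lit 15459072092) (nat_lit 76) (nat_lit 7942132672) (nat_lit 29) (nat_lit 4) (nat_lit 30) (nat_lit 5) (nat_lit 30) (nat_lit 4) (nat_lit 549) (nat_lit 368) (nat_lit 283)) (XT.lf (nat_lit 0) (nat_lit 2539634041) (nat_lit 76) (nat_lit 2423857410) (nat_lit 152) (nat_lit 46921122811) (nat_lit 27) (nat_lit 5) (nat_lit 28) (nat_lit 5) (nat_lit 29) (nat_lit 4) (nat_lit 550) (nat_lit 368) (nat_lit 282))) (XT.nd (nat_lit 78) (nat_lit 76) (nat_lit 0) (XT.lf (nat_lit 0) (nat_lit 18386530630) (nat_lit 152) (nat_lit 23597659758) (nat_lit 0) (nat_lit 11051574083) (nat_lit 27) (nat_lit 5) (nat_lit 29) (nat_lit 4) (nat_lit 27) (nat_lit 4) (nat_lit 551) (nat_lit 368) (nat_lit 281)) (XT.lf (nat_lit 0) (nat_lit 2847241249) (nat_lit 76) (nat_lit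 29363443524) (nat_lit 76) (nat_lit 22010811761) (nat_lit 26) (nat_lit 4) (nat_lit 27) (nat_lit 5) (nat_lit 27) (nat_lit 4) (nat_lit 552) (nat_lit 368) (nat_lit 280)))) (XT.nd (nat_lit 55380) (nat_lit 0) (nat_lit 9424) (XT.nd (nat_lit 78) (nat_lit 152) (nat_lit 0) (XT.lf (nat_lit 0) (nat_lit 30463860904) (nat_lit 76) (nat_lit 16171577816) (nat_lit 76) (nat_lit 8801785649) (nat_lit 26) (nat_lit 4) (nat_lit 27) (nat_lit 5) (nat_lit 27) (nat_lit 4) (nat_lit 553) (nat_lit 368) (nat_lit 279)) (XT.lf (nat_lit 0) (nat_lit 2111267781) (nat_lit 76) (nat_lit 2567412284) (nat_lit 152) (nat_lit 52010291724) (nat_lit 24) (nat_lit 5) (nat_lit 25) (nat_lit 5) (nat_lit 26) (nat_lit 4) (nat_lit 554) (nat_lit 368) (nat_lit 278))) (XT.nd (nat_lit 78) (nat_lit 228) (nat_lit 0) (XT.lf (nat_lit 0) (nat_lit 2223911171) (nat_lit 228) (nat_lit 1542795191) (nat_lit 228) (nat_lit 1542795191) (nat_lit 151) (nat_lit 4) (nat_lit 154) (nat_lit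 5) (nat_lit 154) (nat_lit 4) (nat_lit 462) (nat_lit 369) (nat_lit 369)) (XT.lf (nat_lit 0) (nat_lit 2148296336) (nat_lit 228) (nat_lit 7078417249) (nat_lit 0) (nat_lit 1534772134) (nat_lit 148) (nat_lit 5) (nat_lit 151) (nat_lit 4) (nat_lit 148) (nat_lit 4) (nat_lit 463) (nat_lit 369) (nat_lit 368)))))) (XT.nd (nat_lit 624) (nat_lit 1368) (nat_lit 0) (XT.nd (nat_lit 312) (nat_lit 608) (nat_lit 0) (XT.nd (nat_lit 156) (nat_lit 456) (nat_lit 0) (XT.nd (nat_lit 78) (nat_lit 228) (nat_lit 0) (XT.lf (nat_lit 0) (nat_lit 2848262842) (nat_lit 228) (nat_lit 4634045316) (nat_lit 228) (nat_lit 3424866548) (nat_lit 145) (nat_lit 4) (nat_lit 148) (nat_lit 5) (nat_lit 148) (nat_lit 4) (nat_lit 464) (nat_lit 369) (nat_lit 367)) (XT.lf (nat_lit 0) (nat_lit 1858725395) (nat_lit 228) (nat_lit 9075341683) (nat_lit 0) (nat_lit 123303870) (nat_lit 142) (nat_lit 5) (nat_lit 145) (nat_lit 4) (nat_lit 142) (nat_lit 4) (nat_lit 465) (nat_lit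 369) (nat_lit 366))) (XT.nd (nat_lit 78) (nat_lit 228) (nat_lit 0) (XT.lf (nat_lit 0) (nat_lit 1019367035) (nat_lit 228) (nat_lit 6235763170) (nat_lit 228) (nat_lit 3955233338) (nat_lit 139) (nat_lit 4) (nat_lit 142) (nat_lit 5) (nat_lit 142) (nat_lit 4) (nat_lit 466) (nat_lit 369) (nat_lit 365)) (XT.lf (nat_lit 0) (nat_lit 23395034) (nat_lit 152) (nat_lit 1372248430) (nat_lit 228) (nat_lit 9972536427) (nat_lit 136) (nat_lit 5) (nat_lit 138) (nat_lit 5) (nat_lit 139) (nat_lit 4) (nat_lit 467) (nat_lit 369) (nat_lit 364)))) (XT.nd (nat_lit 156) (nat_lit 304) (nat_lit 0) (XT.nd (nat_lit 78) (nat_lit 304) (nat_lit 0) (XT.lf (nat_lit 0) (nat_lit 6852644975) (nat_lit 228) (nat_lit 1050289759) (nat_lit 0) (nat_lit 3625870160) (nat_lit 136) (nat_lit 5) (nat_lit 139) (nat_lit 4) (nat_lit 136) (nat_lit 4) (nat_lit 468) (nat_lit 369) (nat_lit 363)) (XT.lf (nat_lit 0) (nat_lit 758570103) (nat_lit 304) (nat_lit 2171199175)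 (nat_lit 76) (nat_lit 8764416453) (nat_lit 132) (nat_lit 5) (nat_lit 136) (nat_lit 5) (nat_lit 133) (nat_lit 4) (nat_lit 469) (nat_lit 369) (nat_lit 362))) (XT.nd (nat_lit 78) (nat_lit 152) (nat_lit 0) (XT.lf (nat_lit 0) (nat_lit 6266160516) (nat_lit 228) (nat_lit 3390231459) (nat_lit 0) (nat_lit 2206634593) (nat_lit 130) (nat_lit 5) (nat_lit 133) (nat_lit 4) (nat_lit 130) (nat_lit 4) (nat_lit 470) (nat_lit 369) (nat_lit 361)) (XT.lf (nat_lit 0) (nat_lit 7363185827) (nat_lit 152) (nat_lit 4588064567) (nat_lit 152) (nat_lit 85315707) (nat_lit 128) (nat_lit 4) (nat_lit 130) (nat_lit 5) (nat_lit 130) (nat_lit 4) (nat_lit 471) (nat_lit 369) (nat_lit 360))))) (XT.nd (nat_lit 312) (nat_lit 608) (nat_lit 0) (XT.nd (nat_lit 156) (nat_lit 380) (nat_lit 0) (XT.nd (nat_lit 78) (nat_lit 152) (nat_lit 0) (XT.lf (nat_lit 0) (nat_lit 5473611061) (nat_lit 228) (nat_lit 6056125446) (nat_lit 0) (nat_lit 684230099) (nat_lit 125) (nat_lit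 5) (nat_lit 128) (nat_lit 4) (nat_lit 125) (nat_lit 4) (nat_lit 472) (nat_lit 369) (nat_lit 359)) (XT.lf (nat_lit 0) (nat_lit 4866375226) (nat_lit 152) (nat_lit 6362176972) (nat_lit 152) (nat_lit 1167184235) (nat_lit 123) (nat_lit 4) (nat_lit 125) (nat_lit 5) (nat_lit 125) (nat_lit 4) (nat_lit 473) (nat_lit 369) (nat_lit 358))) (XT.nd (nat_lit 78) (nat_lit 152) (nat_lit 0) (XT.lf (nat_lit 0) (nat_lit 3486426475) (nat_lit 152) (nat_lit 984123796) (nat_lit 228) (nat_lit 8111493458) (nat_lit 120) (nat_lit 5) (nat_lit 122) (nat_lit 5) (nat_lit 123) (nat_lit 4) (nat_lit 474) (nat_lit 369) (nat_lit 357)) (XT.lf (nat_lit 0) (nat_lit 2001260599) (nat_lit 152) (nat_lit 8284294447) (nat_lit 152) (nat_lit 2487091946) (nat_lit 118) (nat_lit 4) (nat_lit 120) (nat_lit 5) (nat_lit 120) (nat_lit 4) (nat_lit 475) (nat_lit 369) (nat_lit 356)))) (XT.nd (nat_lit 156) (nat_lit 380) (nat_lit 0) (XT.nd (nat_lit 78) (nat_lit 0) (nat_lit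 0) (XT.lf (nat_lit 0) (nat_lit 419755474) (nat_lit 152) (nat_lit 2820312891) (nat_lit 228) (nat_lit 9727991692) (nat_lit 115) (nat_lit 5) (nat_lit 117) (nat_lit 5) (nat_lit 118) (nat_lit 4) (nat_lit 476) (nat_lit 369) (nat_lit 355)) (XT.lf (nat_lit 0) (nat_lit 9118309767) (nat_lit 228) (nat_lit 1249030553) (nat_lit 0) (nat_lit 2800380069) (nat_lit 115) (nat_lit 5) (nat_lit 118) (nat_lit 4) (nat_lit 115) (nat_lit 4) (nat_lit 477) (nat_lit 369) (nat_lit 354))) (XT.nd (nat_lit 78) (nat_lit 152) (nat_lit 0) (XT.lf (nat_lit 0) (nat_lit 1787817039) (nat_lit 228) (nat_lit 3018460597) (nat_lit 76) (nat_lit 8565872990) (nat_lit 112) (nat_lit 5) (nat_lit 115) (nat_lit 5) (nat_lit 113) (nat_lit 4) (nat_lit 478) (nat_lit 369) (nat_lit 353)) (XT.lf (nat_lit 0) (nat_lit 7720103015) (nat_lit 228) (nat_lit 4906239824) (nat_lit 0) (nat_lit 955129356) (nat_lit 110) (nat_lit 5) (nat_lit 113) (nat_lit 4) (nat_lit 110) (nat_lit 4) (nat_lit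 479) (nat_lit 369) (nat_lit 352))))))))
noncomputable def xc34 : XT := (XT.nd (nat_lit 2418) (nat_lit 2280) (nat_lit 0) (XT.nd (nat_lit 1170) (nat_lit 1444) (nat_lit 0) (XT.nd (nat_lit 546) (nat_lit 1064) (nat_lit 0) (XT.nd (nat_lit 234) (nat_lit 456) (nat_lit 0) (XT.nd (nat_lit 78) (nat_lit 228) (nat_lit 0) (XT.lf (nat_lit 0) (nat_lit 73646936) (nat_lit 228) (nat_lit 6917283630) (nat_lit 76) (nat_lit 6804903954) (nat_lit 107) (nat_lit 5) (nat_lit 110) (nat_lit 5) (nat_lit 108) (nat_lit 4) (nat_lit 480) (nat_lit 369) (nat_lit 351)) (XT.nd (nat_lit 78) (nat_lit 152) (nat_lit 0) (XT.lf (nat_lit 0) (nat_lit 4947652766) (nat_lit 76) (nat_lit 1115136521) (nat_lit 152) (nat_lit 7952281964) (nat_lit 106) (nat_lit 5) (nat_lit 107) (nat_lit 5) (nat_lit 108) (nat_lit 4) (nat_lit 481) (nat_lit 369) (nat_lit 350)) (XT.lf (nat_lit 0) (nat_lit 2886700778) (nat_lit 152) (nat_lit 9387281014) (nat_lit 152) (nat_lit 1965633028) (nat_lit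 104) (nat_lit 4) (nat_lit 106) (nat_lit 5) (nat_lit 106) (nat_lit 4) (nat_lit 482) (nat_lit 369) (nat_lit 349)))) (XT.nd (nat_lit 156) (nat_lit 304) (nat_lit 0) (XT.nd (nat_lit 78) (nat_lit 0) (nat_lit 0) (XT.lf (nat_lit 0) (nat_lit 685021191) (nat_lit 76) (nat_lit 3440509027) (nat_lit 152) (nat_lit 10343947548) (nat_lit 102) (nat_lit 5) (nat_lit 103) (nat_lit 5) (nat_lit 104) (nat_lit 4) (nat_lit 483) (nat_lit 369) (nat_lit 348)) (XT.lf (nat_lit 0) (nat_lit 10398602839) (nat_lit 152) (nat_lit 1625881637) (nat_lit 0) (nat_lit 2680008746) (nat_lit 102) (nat_lit 5) (nat_lit 104) (nat_lit 4) (nat_lit 102) (nat_lit 4) (nat_lit 484) (nat_lit 369) (nat_lit 347))) (XT.nd (nat_lit 78) (nat_lit 76) (nat_lit 0) (XT.lf (nat_lit 0) (nat_lit 1915177889) (nat_lit 228) (nat_lit 4076184771) (nat_lit 76) (nat_lit 8953469449) (nat_lit 99) (nat_lit 5) (nat_lit 102) (nat_lit 5) (nat_lit 100) (nat_lit 4) (nat_lit 485) (nat_lit 369)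 (nat_lit 346)) (XT.lf (nat_lit 0) (nat_lit 8237691790) (nat_lit 152) (nat_lit 6679028290) (nat_lit 0) (nat_lit 274342221) (nat_lit 98) (nat_lit 5) (nat_lit 100) (nat_lit 4) (nat_lit 98) (nat_lit 4) (nat_lit 486) (nat_lit 369) (nat_lit 345))))) (XT.nd (nat_lit 312) (nat_lit 532) (nat_lit 0) (XT.nd (nat_lit 156) (nat_lit 228) (nat_lit 0) (XT.nd (nat_lit 78) (nat_lit 152) (nat_lit 0) (XT.lf (nat_lit 0) (nat_lit 5986825875) (nat_lit 152) (nat_lit 8822006394) (nat_lit 152) (nat_lit 634079420) (nat_lit 96) (nat_lit 4) (nat_lit 98) (nat_lit 5) (nat_lit 98) (nat_lit 4) (nat_lit 487) (nat_lit 369) (nat_lit 344)) (XT.lf (nat_lit 0) (nat_lit 3287878954) (nat_lit 76) (nat_lit 2472634466) (nat_lit 152) (nat_lit 9940098911) (nat_lit 94) (nat_lit 5) (nat_lit 95) (nat_lit 5) (nat_lit 96) (nat_lit 4) (nat_lit 488) (nat_lit 369) (nat_lit 343))) (XT.nd (nat_lit 78) (nat_lit 76) (nat_lit 0) (XT.lf (nat_lit 0) (nat_lit 417992442) (nat_lit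 152) (nat_lit 11956650112) (nat_lit 152) (nat_lit 3590000565) (nat_lit 92) (nat_lit 4) (nat_lit 94) (nat_lit 5) (nat_lit 94) (nat_lit 4) (nat_lit 489) (nat_lit 369) (nat_lit 342)) (XT.lf (nat_lit 0) (nat_lit 2945105234) (nat_lit 228) (nat_lit 2587620035) (nat_lit 76) (nat_lit 10701456941) (nat_lit 91) (nat_lit 5) (nat_lit 94) (nat_lit 5) (nat_lit 92) (nat_lit 4) (nat_lit 490) (nat_lit 369) (nat_lit 341)))) (XT.nd (nat_lit 156) (nat_lit 304) (nat_lit 0) (XT.nd (nat_lit 78) (nat_lit 152) (nat_lit 0) (XT.lf (nat_lit 0) (nat_lit 9622309217) (nat_lit 152) (nat_lit 5770340588) (nat_lit 0) (nat_lit 1117546009) (nat_lit 90) (nat_lit 5) (nat_lit 92) (nat_lit 4) (nat_lit 90) (nat_lit 4) (nat_lit 491) (nat_lit 369) (nat_lit 340)) (XT.lf (nat_lit 0) (nat_lit 7636964642) (nat_lit 152) (nat_lit 8921565016) (nat_lit 152) (nat_lit 234199826) (nat_lit 88) (nat_lit 4) (nat_lit 90) (nat_lit 5) (nat_lit 90) (nat_lit 4) (nat_lit 492)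 (nat_lit 369) (nat_lit 339))) (XT.nd (nat_lit 78) (nat_lit 152) (nat_lit 0) (XT.lf (nat_lit 0) (nat_lit 4319242606) (nat_lit 76) (nat_lit 2175285114) (nat_lit 152) (nat_lit 10587165492) (nat_lit 86) (nat_lit 5) (nat_lit 87) (nat_lit 5) (nat_lit 88) (nat_lit 4) (nat_lit 493) (nat_lit 369) (nat_lit 338)) (XT.lf (nat_lit 0) (nat_lit 792143924) (nat_lit 152) (nat_lit 12679567810) (nat_lit 152) (nat_lit 3906006112) (nat_lit 84) (nat_lit 4) (nat_lit 86) (nat_lit 5) (nat_lit 86) (nat_lit 4) (nat_lit 494) (nat_lit 369) (nat_lit 337)))))) (XT.nd (nat_lit 624) (nat_lit 684) (nat_lit 0) (XT.nd (nat_lit 312) (nat_lit 304) (nat_lit 0) (XT.nd (nat_lit 156) (nat_lit 304) (nat_lit 0) (XT.nd (nat_lit 78) (nat_lit 76) (nat_lit 0) (XT.lf (nat_lit 0) (nat_lit 2973741946) (nat_lit 228) (nat_lit 2899105042) (nat_lit 76) (nat_lit 11807232163) (nat_lit 83) (nat_lit 5) (nat_lit 86) (nat_lit 5) (nat_lit 84) (nat_lit 4) (nat_lit 495) (nat_lit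 369) (nat_lit 336)) (XT.lf (nat_lit 0) (nat_lit 10007902664) (nat_lit 152) (nat_lit 6802211940) (nat_lit 0) (nat_lit 1179441239) (nat_lit 82) (nat_lit 5) (nat_lit 84) (nat_lit 4) (nat_lit 82) (nat_lit 4) (nat_lit 496) (nat_lit 369) (nat_lit 335))) (XT.nd (nat_lit 78) (nat_lit 152) (nat_lit 0) (XT.lf (nat_lit 0) (nat_lit 7354705806) (nat_lit 152) (nat_lit 9964284036) (nat_lit 152) (nat_lit 987350490) (nat_lit 80) (nat_lit 4) (nat_lit 82) (nat_lit 5) (nat_lit 82) (nat_lit 4) (nat_lit 497) (nat_lit 369) (nat_lit 334)) (XT.lf (nat_lit 0) (nat_lit 3269728537) (nat_lit 76) (nat_lit 2834118641) (nat_lit 152) (nat_lit 12526737572) (nat_lit 78) (nat_lit 5) (nat_lit 79) (nat_lit 5) (nat_lit 80) (nat_lit 4) (nat_lit 498) (nat_lit 369) (nat_lit 333)))) (XT.nd (nat_lit 156) (nat_lit 152) (nat_lit 0) (XT.nd (nat_lit 78) (nat_lit 152) (nat_lit 0) (XT.lf (nat_lit 0) (nat_lit 13450717695) (nat_lit 152) (nat_lit 1052236587) (nat_lit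 0) (nat_lit 4459425996) (nat_lit 78) (nat_lit 5) (nat_lit 80) (nat_lit 4) (nat_lit 78) (nat_lit 4) (nat_lit 499) (nat_lit 369) (nat_lit 332)) (XT.lf (nat_lit 0) (nat_lit 1751806310) (nat_lit 152) (nat_lit 5567040445) (nat_lit 76) (nat_lit 11982647584) (nat_lit 76) (nat_lit 5) (nat_lit 78) (nat_lit 5) (nat_lit 77) (nat_lit 4) (nat_lit 500) (nat_lit 369) (nat_lit 331))) (XT.nd (nat_lit 78) (nat_lit 76) (nat_lit 0) (XT.lf (nat_lit 0) (nat_lit 9134422511) (nat_lit 152) (nat_lit 10361765299) (nat_lit 0) (nat_lit 152596674) (nat_lit 75) (nat_lit 5) (nat_lit 77) (nat_lit 4) (nat_lit 75) (nat_lit 4) (nat_lit 501) (nat_lit 369) (nat_lit 330)) (XT.lf (nat_lit 0) (nat_lit 4537518436) (nat_lit 76) (nat_lit 12284508651) (nat_lit 76) (nat_lit 3181961392) (nat_lit 74) (nat_lit 4) (nat_lit 75) (nat_lit 5) (nat_lit 75) (nat_lit 4) (nat_lit 502) (nat_lit 369) (nat_lit 329))))) (XT.nd (nat_lit 312) (nat_lit 304) (nat_lit 0) (XT.nd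 (nat_lit 156) (nat_lit 228) (nat_lit 0) (XT.nd (nat_lit 78) (nat_lit 76) (nat_lit 0) (XT.lf (nat_lit 0) (nat_lit 4301524344) (nat_lit 152) (nat_lit 487658103) (nat_lit 76) (nat_lit 15578914365) (nat_lit 73) (nat_lit 5) (nat_lit 75) (nat_lit 5) (nat_lit 74) (nat_lit 4) (nat_lit 503) (nat_lit 369) (nat_lit 328)) (XT.lf (nat_lit 0) (nat_lit 12032522244) (nat_lit 152) (nat_lit 5736223561) (nat_lit 0) (nat_lit 2970829001) (nat_lit 72) (nat_lit 5) (nat_lit 74) (nat_lit 4) (nat_lit 72) (nat_lit 4) (nat_lit 504) (nat_lit 369) (nat_lit 327))) (XT.nd (nat_lit 78) (nat_lit 152) (nat_lit 0) (XT.lf (nat_lit 0) (nat_lit 9822086522) (nat_lit 76) (nat_lit 10233627872) (nat_lit 76) (nat_lit 1064675209) (nat_lit 71) (nat_lit 4) (nat_lit 72) (nat_lit 5) (nat_lit 72) (nat_lit 4) (nat_lit 505) (nat_lit 369) (nat_lit 326)) (XT.lf (nat_lit 0) (nat_lit 4302581821) (nat_lit 76) (nat_lit 2384940268) (nat_lit 152) (nat_lit 14822742827) (nat_lit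 69) (nat_lit 5) (nat_lit 70) (nat_lit 5) (nat_lit 71) (nat_lit 4) (nat_lit 506) (nat_lit 369) (nat_lit 325)))) (XT.nd (nat_lit 156) (nat_lit 152) (nat_lit 0) (XT.nd (nat_lit 78) (nat_lit 152) (nat_lit 0) (XT.lf (nat_lit 0) (nat_lit 14734531157) (nat_lit 152) (nat_lit 1541104592) (nat_lit 0) (nat_lit 5633375515) (nat_lit 69) (nat_lit 5) (nat_lit 71) (nat_lit 4) (nat_lit 69) (nat_lit 4) (nat_lit 507) (nat_lit 369) (nat_lit 324)) (XT.lf (nat_lit 0) (nat_lit 771328109) (nat_lit 152) (nat_lit 7630658184) (nat_lit 76) (nat_lit 13915076647) (nat_lit 67) (nat_lit 5) (nat_lit 69) (nat_lit 5) (nat_lit 68) (nat_lit 4) (nat_lit 508) (nat_lit 369) (nat_lit 323))) (XT.nd (nat_lit 78) (nat_lit 76) (nat_lit 0) (XT.lf (nat_lit 0) (nat_lit 8628162098) (nat_lit 76) (nat_lit 198014878) (nat_lit 152) (nat_lit 13908602496) (nat_lit 66) (nat_lit 5) (nat_lit 67) (nat_lit 5) (nat_lit 68) (nat_lit 4) (nat_lit 509) (nat_lit 369) (nat_lit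 322)) (XT.lf (nat_lit 0) (nat_lit 2166068857) (nat_lit 76) (nat_lit 15050883345) (nat_lit 76) (nat_lit 5945247190) (nat_lit 65) (nat_lit 4) (nat_lit 66) (nat_lit 5) (nat_lit 66) (nat_lit 4) (nat_lit 510) (nat_lit 369) (nat_lit 321))))))) (XT.nd (nat_lit 1248) (nat_lit 1064) (nat_lit 0) (XT.nd (nat_lit 624) (nat_lit 608) (nat_lit 0) (XT.nd (nat_lit 312) (nat_lit 304) (nat_lit 0) (XT.nd (nat_lit 156) (nat_lit 152) (nat_lit 0) (XT.nd (nat_lit 78) (nat_lit 76) (nat_lit 0) (XT.lf (nat_lit 0) (nat_lit 2275154969) (nat_lit 152) (nat_lit 4571743143) (nat_lit 76) (nat_lit 16753027569) (nat_lit 64) (nat_lit 5) (nat_lit 66) (nat_lit 5) (nat_lit 65) (nat_lit 4) (nat_lit 511) (nat_lit 369) (nat_lit 320)) (XT.lf (nat_lit 0) (nat_lit 10676784208) (nat_lit 152) (nat_lit 11696266409) (nat_lit 0) (nat_lit 1674344262) (nat_lit 63) (nat_lit 5) (nat_lit 65) (nat_lit 4) (nat_lit 63) (nat_lit 4) (nat_lit 512) (nat_lit 369) (nat_lit 319)))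 (XT.nd (nat_lit 78) (nat_lit 76) (nat_lit 0) (XT.lf (nat_lit 0) (nat_lit 5242637860) (nat_lit 76) (nat_lit 14171532878) (nat_lit 76) (nat_lit 5091606446) (nat_lit 62) (nat_lit 4) (nat_lit 63) (nat_lit 5) (nat_lit 63) (nat_lit 4) (nat_lit 513) (nat_lit 369) (nat_lit 318)) (XT.lf (nat_lit 0) (nat_lit 3406946718) (nat_lit 152) (nat_lit 2239054193) (nat_lit 76) (nat_lit 19329772824) (nat_lit 61) (nat_lit 5) (nat_lit 63) (nat_lit 5) (nat_lit 62) (nat_lit 4) (nat_lit 514) (nat_lit 369) (nat_lit 317)))) (XT.nd (nat_lit 156) (nat_lit 152) (nat_lit 0) (XT.nd (nat_lit 78) (nat_lit 76) (nat_lit 0) (XT.lf (nat_lit 0) (nat_lit 12158732785) (nat_lit 152) (nat_lit 10097286250) (nat_lit 0) (nat_lit 3199320672) (nat_lit 60) (nat_lit 5) (nat_lit 62) (nat_lit 4) (nat_lit 60) (nat_lit 4) (nat_lit 515) (nat_lit 369) (nat_lit 316)) (XT.lf (nat_lit 0) (nat_lit 7515500920) (nat_lit 76) (nat_lit 13729939403) (nat_lit 76) (nat_lit 4701681550)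 (nat_lit 59) (nat_lit 4) (nat_lit 60) (nat_lit 5) (nat_lit 60) (nat_lit 4) (nat_lit 516) (nat_lit 369) (nat_lit 315))) (XT.nd (nat_lit 78) (nat_lit 76) (nat_lit 0) (XT.lf (nat_lit 0) (nat_lit 4094490598) (nat_lit 152) (nat_lit 783282463) (nat_lit 76) (nat_lit 21573955545) (nat_lit 58) (nat_lit 5) (nat_lit 60) (nat_lit 5) (nat_lit 59) (nat_lit 4) (nat_lit 517) (nat_lit 369) (nat_lit 314)) (XT.lf (nat_lit 0) (nat_lit 13194535230) (nat_lit 152) (nat_lit 9470168381) (nat_lit 0) (nat_lit 4301339026) (nat_lit 57) (nat_lit 5) (nat_lit 59) (nat_lit 4) (nat_lit 57) (nat_lit 4) (nat_lit 518) (nat_lit 369) (nat_lit 313))))) (XT.nd (nat_lit 312) (nat_lit 304) (nat_lit 0) (XT.nd (nat_lit 156) (nat_lit 152) (nat_lit 0) (XT.nd (nat_lit 78) (nat_lit 76) (nat_lit 0) (XT.lf (nat_lit 0) (nat_lit 8816608359) (nat_lit 76) (nat_lit 13815798962) (nat_lit 76) (nat_lit 4861434209) (nat_lit 56) (nat_lit 4) (nat_lit 57) (nat_lit 5) (nat_lit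 57) (nat_lit 4) (nat_lit 519) (nat_lit 369) (nat_lit 312)) (XT.lf (nat_lit 0) (nat_lit 4252126957) (nat_lit 152) (nat_lit 381933968) (nat_lit 76) (nat_lit 23401556892) (nat_lit 55) (nat_lit 5) (nat_lit 57) (nat_lit 5) (nat_lit 56) (nat_lit 4) (nat_lit 520) (nat_lit 369) (nat_lit 311))) (XT.nd (nat_lit 78) (nat_lit 76) (nat_lit 0) (XT.lf (nat_lit 0) (nat_lit 13694438999) (nat_lit 152) (nat_lit 10005927111) (nat_lit 0) (nat_lit 4887245877) (nat_lit 54) (nat_lit 5) (nat_lit 56) (nat_lit 4) (nat_lit 54) (nat_lit 4) (nat_lit 521) (nat_lit 369) (nat_lit 310)) (XT.lf (nat_lit 0) (nat_lit 8947998918) (nat_lit 76) (nat_lit 14533925365) (nat_lit 76) (nat_lit 5672384780) (nat_lit 53) (nat_lit 4) (nat_lit 54) (nat_lit 5) (nat_lit 54) (nat_lit 4) (nat_lit 522) (nat_lit 369) (nat_lit 309)))) (XT.nd (nat_lit 156) (nat_lit 152) (nat_lit 0) (XT.nd (nat_lit 78) (nat_lit 76) (nat_lit 0) (XT.lf (nat_lit 0) (nat_lit 3778572765) (nat_lit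 152) (nat_lit 1243802396) (nat_lit 76) (nat_lit 24713683451) (nat_lit 52) (nat_lit 5) (nat_lit 54) (nat_lit 5) (nat_lit 53) (nat_lit 4) (nat_lit 523) (nat_lit 369) (nat_lit 308)) (XT.lf (nat_lit 0) (nat_lit 13552216479) (nat_lit 152) (nat_lit 11928948787) (nat_lit 0) (nat_lit 4847815695) (nat_lit 51) (nat_lit 5) (nat_lit 53) (nat_lit 4) (nat_lit 51) (nat_lit 4) (nat_lit 524) (nat_lit 369) (nat_lit 307))) (XT.nd (nat_lit 78) (nat_lit 76) (nat_lit 0) (XT.lf (nat_lit 0) (nat_lit 7676817660) (nat_lit 76) (nat_lit 16006812243) (nat_lit 76) (nat_lit 7254124442) (nat_lit 50) (nat_lit 4) (nat_lit 51) (nat_lit 5) (nat_lit 51) (nat_lit 4) (nat_lit 525) (nat_lit 369) (nat_lit 306)) (XT.lf (nat_lit 0) (nat_lit 2554388334) (nat_lit 152) (nat_lit 3614160080) (nat_lit 76) (nat_lit 25394005058) (nat_lit 49) (nat_lit 5) (nat_lit 51) (nat_lit 5) (nat_lit 50) (nat_lit 4) (nat_lit 526) (nat_lit 369) (nat_lit 305)))))) (XT.nd (nat_lit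 624) (nat_lit 532) (nat_lit 0) (XT.nd (nat_lit 312) (nat_lit 228) (nat_lit 0) (XT.nd (nat_lit 156) (nat_lit 152) (nat_lit 0) (XT.nd (nat_lit 78) (nat_lit 76) (nat_lit 0) (XT.lf (nat_lit 0) (nat_lit 12642480432) (nat_lit 152) (nat_lit 15502507192) (nat_lit 0) (nat_lit 4055020680) (nat_lit 48) (nat_lit 5) (nat_lit 50) (nat_lit 4) (nat_lit 48) (nat_lit 4) (nat_lit 527) (nat_lit 369) (nat_lit 304)) (XT.lf (nat_lit 0) (nat_lit 4729533081) (nat_lit 76) (nat_lit 18377599243) (nat_lit 76) (nat_lit 9747237102) (nat_lit 47) (nat_lit 4) (nat_lit 48) (nat_lit 5) (nat_lit 48) (nat_lit 4) (nat_lit 528) (nat_lit 369) (nat_lit 303))) (XT.nd (nat_lit 78) (nat_lit 76) (nat_lit 0) (XT.lf (nat_lit 0) (nat_lit 439030656) (nat_lit 152) (nat_lit 7780782712) (nat_lit 76) (nat_lit 25305785856) (nat_lit 46) (nat_lit 5) (nat_lit 48) (nat_lit 5) (nat_lit 47) (nat_lit 4) (nat_lit 529) (nat_lit 369) (nat_lit 302)) (XT.lf (nat_lit 0) (nat_lit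 10817561381) (nat_lit 152) (nat_lit 21035164286) (nat_lit 0) (nat_lit 2358867632) (nat_lit 45) (nat_lit 5) (nat_lit 47) (nat_lit 4) (nat_lit 45) (nat_lit 4) (nat_lit 530) (nat_lit 369) (nat_lit 301)))) (XT.nd (nat_lit 156) (nat_lit 152) (nat_lit 0) (XT.nd (nat_lit 78) (nat_lit 76) (nat_lit 0) (XT.lf (nat_lit 0) (nat_lit 21600797279) (nat_lit 152) (nat_lit 210584266) (nat_lit 0) (nat_lit 13103985313) (nat_lit 45) (nat_lit 5) (nat_lit 47) (nat_lit 4) (nat_lit 45) (nat_lit 4) (nat_lit 531) (nat_lit 369) (nat_lit 300)) (XT.lf (nat_lit 0) (nat_lit 21528276417) (nat_lit 76) (nat_lit 11320775813) (nat_lit 76) (nat_lit 2786955870) (nat_lit 44) (nat_lit 4) (nat_lit 45) (nat_lit 5) (nat_lit 45) (nat_lit 4) (nat_lit 532) (nat_lit 369) (nat_lit 299))) (XT.nd (nat_lit 78) (nat_lit 0) (nat_lit 0) (XT.lf (nat_lit 0) (nat_lit 7483405426) (nat_lit 76) (nat_lit 424552921) (nat_lit 152) (nat_lit 28467726549) (nat_lit 42) (nat_lit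 5) (nat_lit 43) (nat_lit 5) (nat_lit 44) (nat_lit 4) (nat_lit 533) (nat_lit 369) (nat_lit 298)) (XT.lf (nat_lit 0) (nat_lit 19050020200) (nat_lit 152) (nat_lit 7385227644) (nat_lit 0) (nat_lit 10696007009) (nat_lit 42) (nat_lit 5) (nat_lit 44) (nat_lit 4) (nat_lit 42) (nat_lit 4) (nat_lit 534) (nat_lit 369) (nat_lit 297))))) (XT.nd (nat_lit 312) (nat_lit 228) (nat_lit 0) (XT.nd (nat_lit 156) (nat_lit 152) (nat_lit 0) (XT.nd (nat_lit 78) (nat_lit 76) (nat_lit 0) (XT.lf (nat_lit 0) (nat_lit 14927307758) (nat_lit 76) (nat_lit 15683275693) (nat_lit 76) (nat_lit 7296381393) (nat_lit 41) (nat_lit 4) (nat_lit 42) (nat_lit 5) (nat_lit 42) (nat_lit 4) (nat_lit 535) (nat_lit 369) (nat_lit 296)) (XT.lf (nat_lit 0) (nat_lit 3749510739) (nat_lit 152) (nat_lit 807310906) (nat_lit 76) (nat_lit 34147668916) (nat_lit 40) (nat_lit 5) (nat_lit 42) (nat_lit 5) (nat_lit 41) (nat_lit 4) (nat_lit 536) (nat_lit 369) (nat_lit 295))) (XT.nd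 (nat_lit 78) (nat_lit 76) (nat_lit 0) (XT.lf (nat_lit 0) (nat_lit 15201211995) (nat_lit 152) (nat_lit 17318418752) (nat_lit 0) (nat_lit 6997511698) (nat_lit 39) (nat_lit 5) (nat_lit 41) (nat_lit 4) (nat_lit 39) (nat_lit 4) (nat_lit 537) (nat_lit 369) (nat_lit 294)) (XT.lf (nat_lit 0) (nat_lit 5496445590) (nat_lit 76) (nat_lit 21544652069) (nat_lit 76) (nat_lit 13311737333) (nat_lit 38) (nat_lit 4) (nat_lit 39) (nat_lit 5) (nat_lit 39) (nat_lit 4) (nat_lit 538) (nat_lit 369) (nat_lit 293)))) (XT.nd (nat_lit 156) (nat_lit 76) (nat_lit 0) (XT.nd (nat_lit 78) (nat_lit 152) (nat_lit 0) (XT.lf (nat_lit 0) (nat_lit 29228802835) (nat_lit 76) (nat_lit 10121327667) (nat_lit 76) (nat_lit 1860049398) (nat_lit 38) (nat_lit 4) (nat_lit 39) (nat_lit 5) (nat_lit 39) (nat_lit 4) (nat_lit 539) (nat_lit 369) (nat_lit 292)) (XT.lf (nat_lit 0) (nat_lit 9810277889) (nat_lit 152) (nat_lit 30515149446) (nat_lit 0) (nat_lit 1762884025)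 (nat_lit 36) (nat_lit 5) (nat_lit 38) (nat_lit 4) (nat_lit 36) (nat_lit 4) (nat_lit 540) (nat_lit 369) (nat_lit 291))) (XT.nd (nat_lit 78) (nat_lit 76) (nat_lit 0) (XT.lf (nat_lit 0) (nat_lit 21956016532) (nat_lit 152) (nat_lit 7148671218) (nat_lit 0) (nat_lit 13882666017) (nat_lit 36) (nat_lit 5) (nat_lit 38) (nat_lit 4) (nat_lit 36) (nat_lit 4) (nat_lit 541) (nat_lit 369) (nat_lit 290)) (XT.lf (nat_lit 0) (nat_lit 17137059290) (nat_lit 76) (nat_lit 17435828295) (nat_lit 76) (nat_lit 9337277148) (nat_lit 35) (nat_lit 4) (nat_lit 36) (nat_lit 5) (nat_lit 36) (nat_lit 4) (nat_lit 542) (nat_lit 369) (nat_lit 289))))))))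
noncomputable def xc35 : XT := (XT.nd (nat_lit 57486) (nat_lit 0) (nat_lit 3040) (XT.nd (nat_lit 56238) (nat_lit 0) (nat_lit 6536) (XT.nd (nat_lit 546) (nat_lit 228) (nat_lit 0) (XT.nd (nat_lit 234) (nat_lit 228) (nat_lit 0) (XT.nd (nat_lit 78) (nat_lit 152) (nat_lit 0) (XT.lf (nat_lit 0) (nat_lit 2669714927) (nat_lit 152) (nat_lit 2703496476) (nat_lit 76) (nat_lit 39486219536) (nat_lit 34) (nat_lit 5) (nat_lit 36) (nat_lit 5) (nat_lit 35) (nat_lit 4) (nat_lit 543) (nat_lit 369) (nat_lit 288)) (XT.nd (nat_lit 78) (nat_lit 76) (nat_lit 0) (XT.lf (nat_lit 0) (nat_lit 15077794297) (nat_lit 152) (nat_lit 23581443925) (nat_lit 0) (nat_lit 7168307120) (nat_lit 33) (nat_lit 5) (nat_lit 35) (nat_lit 4) (nat_lit 33) (nat_lit 4) (nat_lit 544) (nat_lit 369) (nat_lit 287)) (XT.lf (nat_lit 0) (nat_lit 1029534853) (nat_lit 76) (nat_lit 26863006628) (nat_lit 76) (nat_lit 18931129015) (nat_lit 32) (nat_lit 4) (nat_lit 33) (nat_lit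 5) (nat_lit 33) (nat_lit 4) (nat_lit 545) (nat_lit 369) (nat_lit 286)))) (XT.nd (nat_lit 156) (nat_lit 76) (nat_lit 0) (XT.nd (nat_lit 78) (nat_lit 152) (nat_lit 0) (XT.lf (nat_lit 0) (nat_lit 26750538655) (nat_lit 76) (nat_lit 14523641626) (nat_lit 76) (nat_lit 6570025727) (nat_lit 32) (nat_lit 4) (nat_lit 33) (nat_lit 5) (nat_lit 33) (nat_lit 4) (nat_lit 546) (nat_lit 369) (nat_lit 285)) (XT.lf (nat_lit 0) (nat_lit 4262220262) (nat_lit 76) (nat_lit 1765829635) (nat_lit 152) (nat_lit 42865939391) (nat_lit 30) (nat_lit 5) (nat_lit 31) (nat_lit 5) (nat_lit 32) (nat_lit 4) (nat_lit 547) (nat_lit 369) (nat_lit 284))) (XT.nd (nat_lit 78) (nat_lit 76) (nat_lit 0) (XT.lf (nat_lit 0) (nat_lit 19141904745) (nat_lit 152) (nat_lit 19443749733) (nat_lit 0) (nat_lit 11379563531) (nat_lit 30) (nat_lit 5) (nat_lit 32) (nat_lit 4) (nat_lit 30) (nat_lit 4) (nat_lit 548) (nat_lit 369) (nat_lit 283)) (XT.lf (nat_lit 0) (nat_lit 6502955419)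 (nat_lit 76) (nat_lit 26173236571) (nat_lit 76) (nat_lit 18391581171) (nat_lit 29) (nat_lit 4) (nat_lit 30) (nat_lit 5) (nat_lit 30) (nat_lit 4) (nat_lit 549) (nat_lit 369) (nat_lit 282))))) (XT.nd (nat_lit 312) (nat_lit 0) (nat_lit 0) (XT.nd (nat_lit 156) (nat_lit 76) (nat_lit 0) (XT.nd (nat_lit 78) (nat_lit 152) (nat_lit 0) (XT.lf (nat_lit 0) (nat_lit 33521315011) (nat_lit 76) (nat_lit 13239090072) (nat_lit 76) (nat_lit 5438683035) (nat_lit 29) (nat_lit 4) (nat_lit 30) (nat_lit 5) (nat_lit 30) (nat_lit 4) (nat_lit 550) (nat_lit 369) (nat_lit 281)) (XT.lf (nat_lit 0) (nat_lit 7775512461) (nat_lit 152) (nat_lit 45401116925) (nat_lit 0) (nat_lit 184626529) (nat_lit 27) (nat_lit 5) (nat_lit 29) (nat_lit 4) (nat_lit 27) (nat_lit 4) (nat_lit 551) (nat_lit 369) (nat_lit 280))) (XT.nd (nat_lit 78) (nat_lit 76) (nat_lit 0) (XT.lf (nat_lit 0) (nat_lit 21546975921) (nat_lit 152) (nat_lit 19062663226) (nat_lit 0) (nat_lit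 13938929585) (nat_lit 27) (nat_lit 5) (nat_lit 29) (nat_lit 4) (nat_lit 27) (nat_lit 4) (nat_lit 552) (nat_lit 369) (nat_lit 279)) (XT.lf (nat_lit 0) (nat_lit 8124183573) (nat_lit 76) (nat_lit 27635589327) (nat_lit 76) (nat_lit 20010882404) (nat_lit 26) (nat_lit 4) (nat_lit 27) (nat_lit 5) (nat_lit 27) (nat_lit 4) (nat_lit 553) (nat_lit 369) (nat_lit 278)))) (XT.nd (nat_lit 55224) (nat_lit 0) (nat_lit 9500) (XT.nd (nat_lit 55146) (nat_lit 0) (nat_lit 10032) (XT.lf (nat_lit 0) (nat_lit 36418092349) (nat_lit 76) (nat_lit 14123950876) (nat_lit 76) (nat_lit 6483068626) (nat_lit 26) (nat_lit 4) (nat_lit 27) (nat_lit 5) (nat_lit 27) (nat_lit 4) (nat_lit 554) (nat_lit 369) (nat_lit 277)) (XT.lf (nat_lit 0) (nat_lit 2970809959) (nat_lit 228) (nat_lit 1100516031) (nat_lit 228) (nat_lit 1100516031) (nat_lit 158) (nat_lit 4) (nat_lit 161) (nat_lit 5) (nat_lit 161) (nat_lit 4) (nat_lit 460) (nat_lit 370) (nat_lit 370))) (XT.nd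 (nat_lit 78) (nat_lit 228) (nat_lit 0) (XT.lf (nat_lit 0) (nat_lit 2911130801) (nat_lit 304) (nat_lit 5309023606) (nat_lit 0) (nat_lit 2260242975) (nat_lit 154) (nat_lit 5) (nat_lit 158) (nat_lit 4) (nat_lit 154) (nat_lit 4) (nat_lit 461) (nat_lit 370) (nat_lit 369)) (XT.lf (nat_lit 0) (nat_lit 4351456425) (nat_lit 228) (nat_lit 3776034927) (nat_lit 228) (nat_lit 2493217172) (nat_lit 151) (nat_lit 4) (nat_lit 154) (nat_lit 5) (nat_lit 154) (nat_lit 4) (nat_lit 462) (nat_lit 370) (nat_lit 368)))))) (XT.nd (nat_lit 624) (nat_lit 1368) (nat_lit 0) (XT.nd (nat_lit 312) (nat_lit 684) (nat_lit 0) (XT.nd (nat_lit 156) (nat_lit 456) (nat_lit 0) (XT.nd (nat_lit 78) (nat_lit 228) (nat_lit 0) (XT.lf (nat_lit 0) (nat_lit 2664488609) (nat_lit 228) (nat_lit 7277091510) (nat_lit 0) (nat_lit 823379913) (nat_lit 148) (nat_lit 5) (nat_lit 151) (nat_lit 4) (nat_lit 148) (nat_lit 4) (nat_lit 463) (nat_lit 370) (nat_lit 367)) (XT.lf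 (nat_lit 0) (nat_lit 2548724981) (nat_lit 228) (nat_lit 5391543076) (nat_lit 228) (nat_lit 2972128977) (nat_lit 145) (nat_lit 4) (nat_lit 148) (nat_lit 5) (nat_lit 148) (nat_lit 4) (nat_lit 464) (nat_lit 370) (nat_lit 366))) (XT.nd (nat_lit 78) (nat_lit 228) (nat_lit 0) (XT.lf (nat_lit 0) (nat_lit 1570929579) (nat_lit 152) (nat_lit 671339009) (nat_lit 228) (nat_lit 8822005908) (nat_lit 142) (nat_lit 5) (nat_lit 144) (nat_lit 5) (nat_lit 145) (nat_lit 4) (nat_lit 465) (nat_lit 370) (nat_lit 365)) (XT.lf (nat_lit 0) (nat_lit 502219339) (nat_lit 228) (nat_lit 7070161444) (nat_lit 228) (nat_lit 3646876043) (nat_lit 139) (nat_lit 4) (nat_lit 142) (nat_lit 5) (nat_lit 142) (nat_lit 4) (nat_lit 466) (nat_lit 370) (nat_lit 364)))) (XT.nd (nat_lit 156) (nat_lit 456) (nat_lit 0) (XT.nd (nat_lit 78) (nat_lit 152) (nat_lit 0) (XT.lf (nat_lit 0) (nat_lit 1643042256) (nat_lit 304) (nat_lit 601726480) (nat_lit 76) (nat_lit 9133864653)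 (nat_lit 138) (nat_lit 5) (nat_lit 142) (nat_lit 5) (nat_lit 139) (nat_lit 4) (nat_lit 467) (nat_lit 370) (nat_lit 363)) (XT.lf (nat_lit 0) (nat_lit 7031274457) (nat_lit 228) (nat_lit 1785524483) (nat_lit 0) (nat_lit 2724523406) (nat_lit 136) (nat_lit 5) (nat_lit 139) (nat_lit 4) (nat_lit 136) (nat_lit 4) (nat_lit 468) (nat_lit 370) (nat_lit 362))) (XT.nd (nat_lit 78) (nat_lit 152) (nat_lit 0) (XT.lf (nat_lit 0) (nat_lit 859875541) (nat_lit 304) (nat_lit 3031418916) (nat_lit 76) (nat_lit 7817208602) (nat_lit 132) (nat_lit 5) (nat_lit 136) (nat_lit 5) (nat_lit 133) (nat_lit 4) (nat_lit 469) (nat_lit 370) (nat_lit 361)) (XT.lf (nat_lit 0) (nat_lit 6295687812) (nat_lit 228) (nat_lit 4369176678) (nat_lit 0) (nat_lit 1214633549) (nat_lit 130) (nat_lit 5) (nat_lit 133) (nat_lit 4) (nat_lit 130) (nat_lit 4) (nat_lit 470) (nat_lit 370) (nat_lit 360))))) (XT.nd (nat_lit 312) (nat_lit 608) (nat_lit 0) (XT.nd (nat_lit 156)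 (nat_lit 380) (nat_lit 0) (XT.nd (nat_lit 78) (nat_lit 228) (nat_lit 0) (XT.lf (nat_lit 0) (nat_lit 6269341043) (nat_lit 152) (nat_lit 5648476946) (nat_lit 152) (nat_lit 137109152) (nat_lit 128) (nat_lit 4) (nat_lit 130) (nat_lit 5) (nat_lit 130) (nat_lit 4) (nat_lit 471) (nat_lit 370) (nat_lit 359)) (XT.lf (nat_lit 0) (nat_lit 4935373469) (nat_lit 152) (nat_lit 416607511) (nat_lit 228) (nat_lit 6882487754) (nat_lit 125) (nat_lit 5) (nat_lit 127) (nat_lit 5) (nat_lit 128) (nat_lit 4) (nat_lit 472) (nat_lit 370) (nat_lit 358))) (XT.nd (nat_lit 78) (nat_lit 228) (nat_lit 0) (XT.lf (nat_lit 0) (nat_lit 3506965406) (nat_lit 152) (nat_lit 7530800345) (nat_lit 152) (nat_lit 1380548212) (nat_lit 123) (nat_lit 4) (nat_lit 125) (nat_lit 5) (nat_lit 125) (nat_lit 4) (nat_lit 473) (nat_lit 370) (nat_lit 357)) (XT.lf (nat_lit 0) (nat_lit 1983123306) (nat_lit 152) (nat_lit 2211804495) (nat_lit 228) (nat_lit 8411748317) (nat_lit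 120) (nat_lit 5) (nat_lit 122) (nat_lit 5) (nat_lit 123) (nat_lit 4) (nat_lit 474) (nat_lit 370) (nat_lit 356)))) (XT.nd (nat_lit 156) (nat_lit 380) (nat_lit 0) (XT.nd (nat_lit 78) (nat_lit 76) (nat_lit 0) (XT.lf (nat_lit 0) (nat_lit 358826561) (nat_lit 152) (nat_lit 9571762693) (nat_lit 152) (nat_lit 2869071077) (nat_lit 118) (nat_lit 4) (nat_lit 120) (nat_lit 5) (nat_lit 120) (nat_lit 4) (nat_lit 475) (nat_lit 370) (nat_lit 355)) (XT.lf (nat_lit 0) (nat_lit 2809857354) (nat_lit 228) (nat_lit 1348565466) (nat_lit 76) (nat_lit 8838431915) (nat_lit 117) (nat_lit 5) (nat_lit 120) (nat_lit 5) (nat_lit 118) (nat_lit 4) (nat_lit 476) (nat_lit 370) (nat_lit 354))) (XT.nd (nat_lit 78) (nat_lit 228) (nat_lit 0) (XT.lf (nat_lit 0) (nat_lit 8610432027) (nat_lit 228) (nat_lit 3154942165) (nat_lit 0) (nat_lit 1433471472) (nat_lit 115) (nat_lit 5) (nat_lit 118) (nat_lit 4) (nat_lit 115) (nat_lit 4) (nat_lit 477) (nat_lit 370)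 (nat_lit 353)) (XT.lf (nat_lit 0) (nat_lit 1189104173) (nat_lit 228) (nat_lit 5083272761) (nat_lit 76) (nat_lit 7133161797) (nat_lit 112) (nat_lit 5) (nat_lit 115) (nat_lit 5) (nat_lit 113) (nat_lit 4) (nat_lit 478) (nat_lit 370) (nat_lit 352))))))) (XT.nd (nat_lit 1248) (nat_lit 1520) (nat_lit 0) (XT.nd (nat_lit 624) (nat_lit 912) (nat_lit 0) (XT.nd (nat_lit 312) (nat_lit 456) (nat_lit 0) (XT.nd (nat_lit 156) (nat_lit 304) (nat_lit 0) (XT.nd (nat_lit 78) (nat_lit 152) (nat_lit 0) (XT.lf (nat_lit 0) (nat_lit 6485249700) (nat_lit 152) (nat_lit 555770785) (nat_lit 228) (nat_lit 6576251451) (nat_lit 110) (nat_lit 5) (nat_lit 112) (nat_lit 5) (nat_lit 113) (nat_lit 4) (nat_lit 479) (nat_lit 370) (nat_lit 351)) (XT.lf (nat_lit 0) (nat_lit 4520761097) (nat_lit 152) (nat_lit 8593426334) (nat_lit 152) (nat_lit 719799986) (nat_lit 108) (nat_lit 4) (nat_lit 110) (nat_lit 5) (nat_lit 110) (nat_lit 4) (nat_lit 480) (nat_lit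 370) (nat_lit 350))) (XT.nd (nat_lit 78) (nat_lit 152) (nat_lit 0) (XT.lf (nat_lit 0) (nat_lit 2417093914) (nat_lit 76) (nat_lit 2792368253) (nat_lit 152) (nat_lit 8846187837) (nat_lit 106) (nat_lit 5) (nat_lit 107) (nat_lit 5) (nat_lit 108) (nat_lit 4) (nat_lit 481) (nat_lit 370) (nat_lit 349)) (XT.lf (nat_lit 0) (nat_lit 186681473) (nat_lit 152) (nat_lit 11142457268) (nat_lit 152) (nat_lit 2953800795) (nat_lit 104) (nat_lit 4) (nat_lit 106) (nat_lit 5) (nat_lit 106) (nat_lit 4) (nat_lit 482) (nat_lit 370) (nat_lit 348)))) (XT.nd (nat_lit 156) (nat_lit 304) (nat_lit 0) (XT.nd (nat_lit 78) (nat_lit 76) (nat_lit 0) (XT.lf (nat_lit 0) (nat_lit 3100698069) (nat_lit 228) (nat_lit 2154586154) (nat_lit 76) (nat_lit 9259482092) (nat_lit 103) (nat_lit 5) (nat_lit 106) (nat_lit 5) (nat_lit 104) (nat_lit 4) (nat_lit 483) (nat_lit 370) (nat_lit 347)) (XT.lf (nat_lit 0) (nat_lit 9285779142) (nat_lit 152) (nat_lit 4629181233)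 (nat_lit 0) (nat_lit 837461585) (nat_lit 102) (nat_lit 5) (nat_lit 104) (nat_lit 4) (nat_lit 102) (nat_lit 4) (nat_lit 484) (nat_lit 370) (nat_lit 346))) (XT.nd (nat_lit 78) (nat_lit 76) (nat_lit 0) (XT.lf (nat_lit 0) (nat_lit 698196335) (nat_lit 228) (nat_lit 7269233164) (nat_lit 76) (nat_lit 7028032889) (nat_lit 99) (nat_lit 5) (nat_lit 102) (nat_lit 5) (nat_lit 100) (nat_lit 4) (nat_lit 485) (nat_lit 370) (nat_lit 345)) (XT.lf (nat_lit 0) (nat_lit 5166501428) (nat_lit 76) (nat_lit 1771620681) (nat_lit 152) (nat_lit 8306048523) (nat_lit 98) (nat_lit 5) (nat_lit 99) (nat_lit 5) (nat_lit 100) (nat_lit 4) (nat_lit 486) (nat_lit 370) (nat_lit 344))))) (XT.nd (nat_lit 312) (nat_lit 380) (nat_lit 0) (XT.nd (nat_lit 156) (nat_lit 304) (nat_lit 0) (XT.nd (nat_lit 78) (nat_lit 76) (nat_lit 0) (XT.lf (nat_lit 0) (nat_lit 2446073100) (nat_lit 152) (nat_lit 10964542611) (nat_lit 152) (nat_lit 2088364107) (nat_lit 96) (nat_lit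 4) (nat_lit 98) (nat_lit 5) (nat_lit 98) (nat_lit 4) (nat_lit 487) (nat_lit 370) (nat_lit 343)) (XT.lf (nat_lit 0) (nat_lit 4255483367) (nat_lit 228) (nat_lit 449233011) (nat_lit 76) (nat_lit 11054757549) (nat_lit 95) (nat_lit 5) (nat_lit 98) (nat_lit 5) (nat_lit 96) (nat_lit 4) (nat_lit 488) (nat_lit 370) (nat_lit 342))) (XT.nd (nat_lit 78) (nat_lit 228) (nat_lit 0) (XT.lf (nat_lit 0) (nat_lit 10792292232) (nat_lit 152) (nat_lit 3463943507) (nat_lit 0) (nat_lit 1769588944) (nat_lit 94) (nat_lit 5) (nat_lit 96) (nat_lit 4) (nat_lit 94) (nat_lit 4) (nat_lit 489) (nat_lit 370) (nat_lit 341)) (XT.lf (nat_lit 0) (nat_lit 1252007018) (nat_lit 228) (nat_lit 6674851482) (nat_lit 76) (nat_lit 8371428700) (nat_lit 91) (nat_lit 5) (nat_lit 94) (nat_lit 5) (nat_lit 92) (nat_lit 4) (nat_lit 490) (nat_lit 370) (nat_lit 340)))) (XT.nd (nat_lit 156) (nat_lit 152) (nat_lit 0) (XT.nd (nat_lit 78) (nat_lit 152) (nat_lit 0) (XT.lf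 (nat_lit 0) (nat_lit 6493159353) (nat_lit 76) (nat_lit 1338202776) (nat_lit 152) (nat_lit 8745874469) (nat_lit 90) (nat_lit 5) (nat_lit 91) (nat_lit 5) (nat_lit 92) (nat_lit 4) (nat_lit 491) (nat_lit 370) (nat_lit 339)) (XT.lf (nat_lit 0) (nat_lit 3160980921) (nat_lit 152) (nat_lit 11504856809) (nat_lit 152) (nat_lit 2196985204) (nat_lit 88) (nat_lit 4) (nat_lit 90) (nat_lit 5) (nat_lit 90) (nat_lit 4) (nat_lit 492) (nat_lit 370) (nat_lit 338))) (XT.nd (nat_lit 78) (nat_lit 76) (nat_lit 0) (XT.lf (nat_lit 0) (nat_lit 4482719647) (nat_lit 228) (nat_lit 380070602) (nat_lit 76) (nat_lit 12292182452) (nat_lit 87) (nat_lit 5) (nat_lit 90) (nat_lit 5) (nat_lit 88) (nat_lit 4) (nat_lit 493) (nat_lit 370) (nat_lit 337)) (XT.lf (nat_lit 0) (nat_lit 11376985389) (nat_lit 152) (nat_lit 4065629122) (nat_lit 0) (nat_lit 2010870664) (nat_lit 86) (nat_lit 5) (nat_lit 88) (nat_lit 4) (nat_lit 86) (nat_lit 4) (nat_lit 494) (nat_lit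 370) (nat_lit 336)))))) (XT.nd (nat_lit 624) (nat_lit 684) (nat_lit 0) (XT.nd (nat_lit 312) (nat_lit 304) (nat_lit 0) (XT.nd (nat_lit 156) (nat_lit 228) (nat_lit 0) (XT.nd (nat_lit 78) (nat_lit 76) (nat_lit 0) (XT.lf (nat_lit 0) (nat_lit 759688491) (nat_lit 228) (nat_lit 7981461160) (nat_lit 76) (nat_lit 9017900446) (nat_lit 83) (nat_lit 5) (nat_lit 86) (nat_lit 5) (nat_lit 84) (nat_lit 4) (nat_lit 495) (nat_lit 370) (nat_lit 335)) (XT.lf (nat_lit 0) (nat_lit 5928646641) (nat_lit 76) (nat_lit 1758644848) (nat_lit 152) (nat_lit 10384432300) (nat_lit 82) (nat_lit 5) (nat_lit 83) (nat_lit 5) (nat_lit 84) (nat_lit 4) (nat_lit 496) (nat_lit 370) (nat_lit 334))) (XT.nd (nat_lit 78) (nat_lit 76) (nat_lit 0) (XT.lf (nat_lit 0) (nat_lit 1837597275) (nat_lit 152) (nat_lit 13046599048) (nat_lit 152) (nat_lit 3507737684) (nat_lit 80) (nat_lit 4) (nat_lit 82) (nat_lit 5) (nat_lit 82) (nat_lit 4) (nat_lit 497) (nat_lit 370) (nat_lit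 333)) (XT.lf (nat_lit 0) (nat_lit 3557009153) (nat_lit 228) (nat_lit 2458081995) (nat_lit 76) (nat_lit 12704083329) (nat_lit 79) (nat_lit 5) (nat_lit 82) (nat_lit 5) (nat_lit 80) (nat_lit 4) (nat_lit 498) (nat_lit 370) (nat_lit 332)))) (XT.nd (nat_lit 156) (nat_lit 152) (nat_lit 0) (XT.nd (nat_lit 78) (nat_lit 76) (nat_lit 0) (XT.lf (nat_lit 0) (nat_lit 10804842279) (nat_lit 152) (nat_lit 6973075837) (nat_lit 0) (nat_lit 1276023249) (nat_lit 78) (nat_lit 5) (nat_lit 80) (nat_lit 4) (nat_lit 78) (nat_lit 4) (nat_lit 499) (nat_lit 370) (nat_lit 331)) (XT.lf (nat_lit 0) (nat_lit 7628696043) (nat_lit 76) (nat_lit 10712409115) (nat_lit 76) (nat_lit 1055516728) (nat_lit 77) (nat_lit 4) (nat_lit 78) (nat_lit 5) (nat_lit 78) (nat_lit 4) (nat_lit 500) (nat_lit 370) (nat_lit 330))) (XT.nd (nat_lit 78) (nat_lit 0) (nat_lit 0) (XT.lf (nat_lit 0) (nat_lit 2889803145) (nat_lit 76) (nat_lit 3352087788) (nat_lit 152) (nat_lit 13505499867)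 (nat_lit 75) (nat_lit 5) (nat_lit 76) (nat_lit 5) (nat_lit 77) (nat_lit 4) (nat_lit 501) (nat_lit 370) (nat_lit 329)) (XT.lf (nat_lit 0) (nat_lit 13810925802) (nat_lit 152) (nat_lit 2097850857) (nat_lit 0) (nat_lit 4197375440) (nat_lit 75) (nat_lit 5) (nat_lit 77) (nat_lit 4) (nat_lit 75) (nat_lit 4) (nat_lit 502) (nat_lit 370) (nat_lit 328))))) (XT.nd (nat_lit 312) (nat_lit 304) (nat_lit 0) (XT.nd (nat_lit 156) (nat_lit 152) (nat_lit 0) (XT.nd (nat_lit 78) (nat_lit 76) (nat_lit 0) (XT.lf (nat_lit 0) (nat_lit 1185543258) (nat_lit 152) (nat_lit 7320689064) (nat_lit 76) (nat_lit 11966830122) (nat_lit 73) (nat_lit 5) (nat_lit 75) (nat_lit 5) (nat_lit 74) (nat_lit 4) (nat_lit 503) (nat_lit 370) (nat_lit 327)) (XT.lf (nat_lit 0) (nat_lit 7981885462) (nat_lit 76) (nat_lit 796294115) (nat_lit 152) (nat_lit 12070511902) (nat_lit 72) (nat_lit 5) (nat_lit 73) (nat_lit 5) (nat_lit 74) (nat_lit 4) (nat_lit 504) (nat_lit 370)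 (nat_lit 326))) (XT.nd (nat_lit 78) (nat_lit 76) (nat_lit 0) (XT.lf (nat_lit 0) (nat_lit 2474890410) (nat_lit 76) (nat_lit 14206811091) (nat_lit 76) (nat_lit 4551395071) (nat_lit 71) (nat_lit 4) (nat_lit 72) (nat_lit 5) (nat_lit 72) (nat_lit 4) (nat_lit 505) (nat_lit 370) (nat_lit 325)) (XT.lf (nat_lit 0) (nat_lit 3186121476) (nat_lit 152) (nat_lit 3288691713) (nat_lit 76) (nat_lit 15151645943) (nat_lit 70) (nat_lit 5) (nat_lit 72) (nat_lit 5) (nat_lit 71) (nat_lit 4) (nat_lit 506) (nat_lit 370) (nat_lit 324)))) (XT.nd (nat_lit 156) (nat_lit 152) (nat_lit 0) (XT.nd (nat_lit 78) (nat_lit 76) (nat_lit 0) (XT.lf (nat_lit 0) (nat_lit 11119952173) (nat_lit 152) (nat_lit 9356343136) (nat_lit 0) (nat_lit 1552305694) (nat_lit 69) (nat_lit 5) (nat_lit 71) (nat_lit 4) (nat_lit 69) (nat_lit 4) (nat_lit 507) (nat_lit 370) (nat_lit 323)) (XT.lf (nat_lit 0) (nat_lit 6643224816) (nat_lit 76) (nat_lit 12728674502) (nat_lit 76)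 (nat_lit 3068505106) (nat_lit 68) (nat_lit 4) (nat_lit 69) (nat_lit 5) (nat_lit 69) (nat_lit 4) (nat_lit 508) (nat_lit 370) (nat_lit 322))) (XT.nd (nat_lit 78) (nat_lit 0) (nat_lit 0) (XT.lf (nat_lit 0) (nat_lit 248975164) (nat_lit 76) (nat_lit 4676627119) (nat_lit 152) (nat_lit 17937022293) (nat_lit 66) (nat_lit 5) (nat_lit 67) (nat_lit 5) (nat_lit 68) (nat_lit 4) (nat_lit 509) (nat_lit 370) (nat_lit 321)) (XT.lf (nat_lit 0) (nat_lit 13212482632) (nat_lit 152) (nat_lit 6418884770) (nat_lit 0) (nat_lit 3661794093) (nat_lit 66) (nat_lit 5) (nat_lit 68) (nat_lit 4) (nat_lit 66) (nat_lit 4) (nat_lit 510) (nat_lit 370) (nat_lit 320))))))))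
noncomputable def xc36 : XT := (XT.nd (nat_lit 2418) (nat_lit 760) (nat_lit 0) (XT.nd (nat_lit 1170) (nat_lit 1140) (nat_lit 0) (XT.nd (nat_lit 546) (nat_lit 608) (nat_lit 0) (XT.nd (nat_lit 234) (nat_lit 304) (nat_lit 0) (XT.nd (nat_lit 78) (nat_lit 152) (nat_lit 0) (XT.lf (nat_lit 0) (nat_lit 10260521793) (nat_lit 76) (nat_lit 11553502666) (nat_lit 76) (nat_lit 1920608713) (nat_lit 65) (nat_lit 4) (nat_lit 66) (nat_lit 5) (nat_lit 66) (nat_lit 4) (nat_lit 511) (nat_lit 370) (nat_lit 319)) (XT.nd (nat_lit 78) (nat_lit 0) (nat_lit 0) (XT.lf (nat_lit 0) (nat_lit 3229365091) (nat_lit 76) (nat_lit 3146038911) (nat_lit 152) (nat_lit 17811545205) (nat_lit 63) (nat_lit 5) (nat_lit 64) (nat_lit 5) (nat_lit 65) (nat_lit 4) (nat_lit 512) (nat_lit 370) (nat_lit 318)) (XT.lf (nat_lit 0) (nat_lit 14993365920) (nat_lit 152) (nat_lit 4167222857) (nat_lit 0) (nat_lit 5488325609) (nat_lit 63) (nat_lit 5) (nat_lit 65) (nat_lit 4)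 (nat_lit 63) (nat_lit 4) (nat_lit 513) (nat_lit 370) (nat_lit 317)))) (XT.nd (nat_lit 156) (nat_lit 76) (nat_lit 0) (XT.nd (nat_lit 78) (nat_lit 152) (nat_lit 0) (XT.lf (nat_lit 0) (nat_lit 13202594309) (nat_lit 76) (nat_lit 10748887393) (nat_lit 76) (nat_lit 1170808636) (nat_lit 62) (nat_lit 4) (nat_lit 63) (nat_lit 5) (nat_lit 63) (nat_lit 4) (nat_lit 514) (nat_lit 370) (nat_lit 316)) (XT.lf (nat_lit 0) (nat_lit 5452779548) (nat_lit 76) (nat_lit 1986515731) (nat_lit 152) (nat_lit 18167834658) (nat_lit 60) (nat_lit 5) (nat_lit 61) (nat_lit 5) (nat_lit 62) (nat_lit 4) (nat_lit 515) (nat_lit 370) (nat_lit 315))) (XT.nd (nat_lit 78) (nat_lit 76) (nat_lit 0) (XT.lf (nat_lit 0) (nat_lit 16397067073) (nat_lit 152) (nat_lit 2743438003) (nat_lit 0) (nat_lit 6962275220) (nat_lit 60) (nat_lit 5) (nat_lit 62) (nat_lit 4) (nat_lit 60) (nat_lit 4) (nat_lit 516) (nat_lit 370) (nat_lit 314)) (XT.lf (nat_lit 0) (nat_lit 15322666441)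 (nat_lit 76) (nat_lit 10393766846) (nat_lit 76) (nat_lit 894081280) (nat_lit 59) (nat_lit 4) (nat_lit 60) (nat_lit 5) (nat_lit 60) (nat_lit 4) (nat_lit 517) (nat_lit 370) (nat_lit 313))))) (XT.nd (nat_lit 312) (nat_lit 228) (nat_lit 0) (XT.nd (nat_lit 156) (nat_lit 228) (nat_lit 0) (XT.nd (nat_lit 78) (nat_lit 0) (nat_lit 0) (XT.lf (nat_lit 0) (nat_lit 6760841222) (nat_lit 76) (nat_lit 1280306754) (nat_lit 152) (nat_lit 19089406430) (nat_lit 57) (nat_lit 5) (nat_lit 58) (nat_lit 5) (nat_lit 59) (nat_lit 4) (nat_lit 518) (nat_lit 370) (nat_lit 312)) (XT.lf (nat_lit 0) (nat_lit 17345515250) (nat_lit 152) (nat_lit 2314879234) (nat_lit 0) (nat_lit 8001964067) (nat_lit 57) (nat_lit 5) (nat_lit 59) (nat_lit 4) (nat_lit 57) (nat_lit 4) (nat_lit 519) (nat_lit 370) (nat_lit 311))) (XT.nd (nat_lit 78) (nat_lit 152) (nat_lit 0) (XT.lf (nat_lit 0) (nat_lit 16447565571) (nat_lit 76) (nat_lit 10580395717) (nat_lit 76) (nat_lit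 1179187311) (nat_lit 56) (nat_lit 4) (nat_lit 57) (nat_lit 5) (nat_lit 57) (nat_lit 4) (nat_lit 520) (nat_lit 370) (nat_lit 310)) (XT.lf (nat_lit 0) (nat_lit 6966995298) (nat_lit 76) (nat_lit 1123734549) (nat_lit 152) (nat_lit 20674615223) (nat_lit 54) (nat_lit 5) (nat_lit 55) (nat_lit 5) (nat_lit 56) (nat_lit 4) (nat_lit 521) (nat_lit 370) (nat_lit 309)))) (XT.nd (nat_lit 156) (nat_lit 152) (nat_lit 0) (XT.nd (nat_lit 78) (nat_lit 76) (nat_lit 0) (XT.lf (nat_lit 0) (nat_lit 17746062284) (nat_lit 152) (nat_lit 3078381051) (nat_lit 0) (nat_lit 8511563492) (nat_lit 54) (nat_lit 5) (nat_lit 56) (nat_lit 4) (nat_lit 54) (nat_lit 4) (nat_lit 522) (nat_lit 370) (nat_lit 308)) (XT.lf (nat_lit 0) (nat_lit 16373302721) (nat_lit 76) (nat_lit 11416623129) (nat_lit 76) (nat_lit 2130896641) (nat_lit 53) (nat_lit 4) (nat_lit 54) (nat_lit 5) (nat_lit 54) (nat_lit 4) (nat_lit 523) (nat_lit 370) (nat_lit 307))) (XT.nd (nat_lit 78)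 (nat_lit 0) (nat_lit 0) (XT.lf (nat_lit 0) (nat_lit 5851812238) (nat_lit 76) (nat_lit 1629603699) (nat_lit 152) (nat_lit 23039030873) (nat_lit 51) (nat_lit 5) (nat_lit 52) (nat_lit 5) (nat_lit 53) (nat_lit 4) (nat_lit 524) (nat_lit 370) (nat_lit 306)) (XT.lf (nat_lit 0) (nat_lit 17489105352) (nat_lit 152) (nat_lit 5265157346) (nat_lit 0) (nat_lit 8378669301) (nat_lit 51) (nat_lit 5) (nat_lit 53) (nat_lit 4) (nat_lit 51) (nat_lit 4) (nat_lit 525) (nat_lit 370) (nat_lit 305)))))) (XT.nd (nat_lit 624) (nat_lit 532) (nat_lit 0) (XT.nd (nat_lit 312) (nat_lit 304) (nat_lit 0) (XT.nd (nat_lit 156) (nat_lit 76) (nat_lit 0) (XT.nd (nat_lit 78) (nat_lit 152) (nat_lit 0) (XT.lf (nat_lit 0) (nat_lit 14859942292) (nat_lit 76) (nat_lit 13028528723) (nat_lit 76) (nat_lit 3872577528) (nat_lit 50) (nat_lit 4) (nat_lit 51) (nat_lit 5) (nat_lit 51) (nat_lit 4) (nat_lit 526) (nat_lit 370) (nat_lit 304)) (XT.lf (nat_lit 0) (nat_lit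 3157535943) (nat_lit 76) (nat_lit 2929989474) (nat_lit 152) (nat_lit 26318201515) (nat_lit 48) (nat_lit 5) (nat_lit 49) (nat_lit 5) (nat_lit 50) (nat_lit 4) (nat_lit 527) (nat_lit 370) (nat_lit 303))) (XT.nd (nat_lit 78) (nat_lit 76) (nat_lit 0) (XT.lf (nat_lit 0) (nat_lit 16445320471) (nat_lit 152) (nat_lit 9146481092) (nat_lit 0) (nat_lit 7471492272) (nat_lit 48) (nat_lit 5) (nat_lit 50) (nat_lit 4) (nat_lit 48) (nat_lit 4) (nat_lit 528) (nat_lit 370) (nat_lit 302)) (XT.lf (nat_lit 0) (nat_lit 11625646846) (nat_lit 76) (nat_lit 15563475339) (nat_lit 76) (nat_lit 6549207524) (nat_lit 47) (nat_lit 4) (nat_lit 48) (nat_lit 5) (nat_lit 48) (nat_lit 4) (nat_lit 529) (nat_lit 370) (nat_lit 301)))) (XT.nd (nat_lit 156) (nat_lit 152) (nat_lit 0) (XT.nd (nat_lit 78) (nat_lit 76) (nat_lit 0) (XT.lf (nat_lit 0) (nat_lit 3774857405) (nat_lit 152) (nat_lit 1390569045) (nat_lit 76) (nat_lit 29266253985) (nat_lit 46) (nat_lit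 5) (nat_lit 48) (nat_lit 5) (nat_lit 47) (nat_lit 4) (nat_lit 530) (nat_lit 370) (nat_lit 300)) (XT.lf (nat_lit 0) (nat_lit 14462444967) (nat_lit 152) (nat_lit 15040276098) (nat_lit 0) (nat_lit 5635602447) (nat_lit 45) (nat_lit 5) (nat_lit 47) (nat_lit 4) (nat_lit 45) (nat_lit 4) (nat_lit 531) (nat_lit 370) (nat_lit 299))) (XT.nd (nat_lit 78) (nat_lit 76) (nat_lit 0) (XT.lf (nat_lit 0) (nat_lit 6339764324) (nat_lit 76) (nat_lit 19193645890) (nat_lit 76) (nat_lit 10330873295) (nat_lit 44) (nat_lit 4) (nat_lit 45) (nat_lit 5) (nat_lit 45) (nat_lit 4) (nat_lit 532) (nat_lit 370) (nat_lit 298)) (XT.lf (nat_lit 0) (nat_lit 408036717) (nat_lit 152) (nat_lit 8069341626) (nat_lit 76) (nat_lit 28131853922) (nat_lit 43) (nat_lit 5) (nat_lit 45) (nat_lit 5) (nat_lit 44) (nat_lit 4) (nat_lit 533) (nat_lit 370) (nat_lit 297))))) (XT.nd (nat_lit 312) (nat_lit 228) (nat_lit 0) (XT.nd (nat_lit 156) (nat_lit 228) (nat_lit 0) (XT.nd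 (nat_lit 78) (nat_lit 0) (nat_lit 0) (XT.lf (nat_lit 0) (nat_lit 11361537106) (nat_lit 152) (nat_lit 23318767152) (nat_lit 0) (nat_lit 2690154868) (nat_lit 42) (nat_lit 5) (nat_lit 44) (nat_lit 4) (nat_lit 42) (nat_lit 4) (nat_lit 534) (nat_lit 370) (nat_lit 296)) (XT.lf (nat_lit 0) (nat_lit 22748262071) (nat_lit 152) (nat_lit 1358165824) (nat_lit 0) (nat_lit 14044956427) (nat_lit 42) (nat_lit 5) (nat_lit 44) (nat_lit 4) (nat_lit 42) (nat_lit 4) (nat_lit 535) (nat_lit 370) (nat_lit 295))) (XT.nd (nat_lit 78) (nat_lit 152) (nat_lit 0) (XT.lf (nat_lit 0) (nat_lit 21562484673) (nat_lit 76) (nat_lit 13061564080) (nat_lit 76) (nat_lit 4327264837) (nat_lit 41) (nat_lit 4) (nat_lit 42) (nat_lit 5) (nat_lit 42) (nat_lit 4) (nat_lit 536) (nat_lit 370) (nat_lit 294)) (XT.lf (nat_lit 0) (nat_lit 5340223160) (nat_lit 76) (nat_lit 1607862197) (nat_lit 152) (nat_lit 32824951807) (nat_lit 39) (nat_lit 5) (nat_lit 40) (nat_lit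 5) (nat_lit 41) (nat_lit 4) (nat_lit 537) (nat_lit 370) (nat_lit 293)))) (XT.nd (nat_lit 156) (nat_lit 152) (nat_lit 0) (XT.nd (nat_lit 78) (nat_lit 76) (nat_lit 0) (XT.lf (nat_lit 0) (nat_lit 18690242102) (nat_lit 152) (nat_lit 11768657576) (nat_lit 0) (nat_lit 10152761952) (nat_lit 39) (nat_lit 5) (nat_lit 41) (nat_lit 4) (nat_lit 39) (nat_lit 4) (nat_lit 538) (nat_lit 370) (nat_lit 292)) (XT.lf (nat_lit 0) (nat_lit 11671149621) (nat_lit 76) (nat_lit 19183605068) (nat_lit 76) (nat_lit 10618587507) (nat_lit 38) (nat_lit 4) (nat_lit 39) (nat_lit 5) (nat_lit 39) (nat_lit 4) (nat_lit 539) (nat_lit 370) (nat_lit 291))) (XT.nd (nat_lit 78) (nat_lit 76) (nat_lit 0) (XT.lf (nat_lit 0) (nat_lit 1065375139) (nat_lit 152) (nat_lit 6429041379) (nat_lit 76) (nat_lit 34864301216) (nat_lit 37) (nat_lit 5) (nat_lit 39) (nat_lit 5) (nat_lit 38) (nat_lit 4) (nat_lit 540) (nat_lit 370) (nat_lit 290)) (XT.lf (nat_lit 0) (nat_lit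 13046861529) (nat_lit 152) (nat_lit 25535673009) (nat_lit 0) (nat_lit 4680153216) (nat_lit 36) (nat_lit 5) (nat_lit 38) (nat_lit 4) (nat_lit 36) (nat_lit 4) (nat_lit 541) (nat_lit 370) (nat_lit 289))))))) (XT.nd (nat_lit 56082) (nat_lit 0) (nat_lit 7144) (XT.nd (nat_lit 546) (nat_lit 304) (nat_lit 0) (XT.nd (nat_lit 234) (nat_lit 228) (nat_lit 0) (XT.nd (nat_lit 78) (nat_lit 228) (nat_lit 0) (XT.lf (nat_lit 0) (nat_lit 25471274993) (nat_lit 152) (nat_lit 1639897451) (nat_lit 0) (nat_lit 17080100047) (nat_lit 36) (nat_lit 5) (nat_lit 38) (nat_lit 4) (nat_lit 36) (nat_lit 4) (nat_lit 542) (nat_lit 370) (nat_lit 288)) (XT.nd (nat_lit 78) (nat_lit 152) (nat_lit 0) (XT.lf (nat_lit 0) (nat_lit 23318294835) (nat_lit 76) (nat_lit 15119631902) (nat_lit 76) (nat_lit 6704702943) (nat_lit 35) (nat_lit 4) (nat_lit 36) (nat_lit 5) (nat_lit 36) (nat_lit 4) (nat_lit 543) (nat_lit 370) (nat_lit 287)) (XT.lf (nat_lit 0) (nat_lit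 2827827474) (nat_lit 76) (nat_lit 2721836851) (nat_lit 152) (nat_lit 40571549639) (nat_lit 33) (nat_lit 5) (nat_lit 34) (nat_lit 5) (nat_lit 35) (nat_lit 4) (nat_lit 544) (nat_lit 370) (nat_lit 286)))) (XT.nd (nat_lit 156) (nat_lit 152) (nat_lit 0) (XT.nd (nat_lit 78) (nat_lit 76) (nat_lit 0) (XT.lf (nat_lit 0) (nat_lit 18301452799) (nat_lit 152) (nat_lit 18730284983) (nat_lit 0) (nat_lit 10087490137) (nat_lit 33) (nat_lit 5) (nat_lit 35) (nat_lit 4) (nat_lit 33) (nat_lit 4) (nat_lit 545) (nat_lit 370) (nat_lit 285)) (XT.lf (nat_lit 0) (nat_lit 6564527057) (nat_lit 76) (nat_lit 24908305981) (nat_lit 76) (nat_lit 16673238187) (nat_lit 32) (nat_lit 4) (nat_lit 33) (nat_lit 5) (nat_lit 33) (nat_lit 4) (nat_lit 546) (nat_lit 370) (nat_lit 284))) (XT.nd (nat_lit 78) (nat_lit 152) (nat_lit 0) (XT.lf (nat_lit 0) (nat_lit 32896847202) (nat_lit 76) (nat_lit 12279165588) (nat_lit 76) (nat_lit 4023607373) (nat_lit 32) (nat_lit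 4) (nat_lit 33) (nat_lit 5) (nat_lit 33) (nat_lit 4) (nat_lit 547) (nat_lit 370) (nat_lit 283)) (XT.lf (nat_lit 0) (nat_lit 8880191244) (nat_lit 152) (nat_lit 40554703140) (nat_lit 0) (nat_lit 845771995) (nat_lit 30) (nat_lit 5) (nat_lit 32) (nat_lit 4) (nat_lit 30) (nat_lit 4) (nat_lit 548) (nat_lit 370) (nat_lit 282))))) (XT.nd (nat_lit 312) (nat_lit 76) (nat_lit 0) (XT.nd (nat_lit 156) (nat_lit 152) (nat_lit 0) (XT.nd (nat_lit 78) (nat_lit 76) (nat_lit 0) (XT.lf (nat_lit 0) (nat_lit 22326631121) (nat_lit 152) (nat_lit 14785765628) (nat_lit 0) (nat_lit 14273460236) (nat_lit 30) (nat_lit 5) (nat_lit 32) (nat_lit 4) (nat_lit 30) (nat_lit 4) (nat_lit 549) (nat_lit 370) (nat_lit 281)) (XT.lf (nat_lit 0) (nat_lit 11887955418) (nat_lit 76) (nat_lit 24352847083) (nat_lit 76) (nat_lit 16281470725) (nat_lit 29) (nat_lit 4) (nat_lit 30) (nat_lit 5) (nat_lit 30) (nat_lit 4) (nat_lit 550) (nat_lit 370) (nat_lit 280))) (XT.nd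 (nat_lit 78) (nat_lit 152) (nat_lit 0) (XT.lf (nat_lit 0) (nat_lit 39565703332) (nat_lit 76) (nat_lit 11106567061) (nat_lit 76) (nat_lit 3017515486) (nat_lit 29) (nat_lit 4) (nat_lit 30) (nat_lit 5) (nat_lit 30) (nat_lit 4) (nat_lit 551) (nat_lit 370) (nat_lit 279)) (XT.lf (nat_lit 0) (nat_lit 10541641303) (nat_lit 152) (nat_lit 41672930700) (nat_lit 0) (nat_lit 2671532586) (nat_lit 27) (nat_lit 5) (nat_lit 29) (nat_lit 4) (nat_lit 27) (nat_lit 4) (nat_lit 552) (nat_lit 370) (nat_lit 278)))) (XT.nd (nat_lit 55068) (nat_lit 0) (nat_lit 10260) (XT.nd (nat_lit 78) (nat_lit 76) (nat_lit 0) (XT.lf (nat_lit 0) (nat_lit 24652475944) (nat_lit 152) (nat_lit 14692582216) (nat_lit 0) (nat_lit 16766191901) (nat_lit 27) (nat_lit 5) (nat_lit 29) (nat_lit 4) (nat_lit 27) (nat_lit 4) (nat_lit 553) (nat_lit 370) (nat_lit 277)) (XT.lf (nat_lit 0) (nat_lit 13261419389) (nat_lit 76) (nat_lit 26005652856) (nat_lit 76) (nat_lit 18103664612)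 (nat_lit 26) (nat_lit 4) (nat_lit 27) (nat_lit 5) (nat_lit 27) (nat_lit 4) (nat_lit 554) (nat_lit 370) (nat_lit 276))) (XT.nd (nat_lit 78) (nat_lit 304) (nat_lit 0) (XT.lf (nat_lit 0) (nat_lit 3719251864) (nat_lit 228) (nat_lit 660180395) (nat_lit 228) (nat_lit 660180395) (nat_lit 165) (nat_lit 4) (nat_lit 168) (nat_lit 5) (nat_lit 168) (nat_lit 4) (nat_lit 458) (nat_lit 371) (nat_lit 371)) (XT.lf (nat_lit 0) (nat_lit 3674428350) (nat_lit 304) (nat_lit 3551964146) (nat_lit 0) (nat_lit 2983901455) (nat_lit 161) (nat_lit 5) (nat_lit 165) (nat_lit 4) (nat_lit 161) (nat_lit 4) (nat_lit 459) (nat_lit 371) (nat_lit 370)))))) (XT.nd (nat_lit 624) (nat_lit 1368) (nat_lit 0) (XT.nd (nat_lit 312) (nat_lit 760) (nat_lit 0) (XT.nd (nat_lit 156) (nat_lit 456) (nat_lit 0) (XT.nd (nat_lit 78) (nat_lit 304) (nat_lit 0) (XT.lf (nat_lit 0) (nat_lit 5848637560) (nat_lit 228) (nat_lit 2928830191) (nat_lit 228) (nat_lit 1567888836)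 (nat_lit 158) (nat_lit 4) (nat_lit 161) (nat_lit 5) (nat_lit 161) (nat_lit 4) (nat_lit 460) (nat_lit 371) (nat_lit 369)) (XT.lf (nat_lit 0) (nat_lit 3468103033) (nat_lit 304) (nat_lit 5500829113) (nat_lit 0) (nat_lit 1514870818) (nat_lit 154) (nat_lit 5) (nat_lit 158) (nat_lit 4) (nat_lit 154) (nat_lit 4) (nat_lit 461) (nat_lit 371) (nat_lit 368))) (XT.nd (nat_lit 78) (nat_lit 228) (nat_lit 0) (XT.lf (nat_lit 0) (nat_lit 4062274468) (nat_lit 228) (nat_lit 4565154107) (nat_lit 228) (nat_lit 1998397690) (nat_lit 151) (nat_lit 4) (nat_lit 154) (nat_lit 5) (nat_lit 154) (nat_lit 4) (nat_lit 462) (nat_lit 371) (nat_lit 367)) (XT.lf (nat_lit 0) (nat_lit 3083799994) (nat_lit 228) (nat_lit 7674613630) (nat_lit 0) (nat_lit 13498069) (nat_lit 148) (nat_lit 5) (nat_lit 151) (nat_lit 4) (nat_lit 148) (nat_lit 4) (nat_lit 463) (nat_lit 371) (nat_lit 366)))) (XT.nd (nat_lit 156) (nat_lit 304) (nat_lit 0) (XT.nd (nat_lit 78) (nat_lit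 228) (nat_lit 0) (XT.lf (nat_lit 0) (nat_lit 2049204408) (nat_lit 228) (nat_lit 6251832529) (nat_lit 228) (nat_lit 2620069047) (nat_lit 145) (nat_lit 4) (nat_lit 148) (nat_lit 5) (nat_lit 148) (nat_lit 4) (nat_lit 464) (nat_lit 371) (nat_lit 365)) (XT.lf (nat_lit 0) (nat_lit 954880621) (nat_lit 152) (nat_lit 1573076231) (nat_lit 228) (nat_lit 8546711075) (nat_lit 142) (nat_lit 5) (nat_lit 144) (nat_lit 5) (nat_lit 145) (nat_lit 4) (nat_lit 465) (nat_lit 371) (nat_lit 364))) (XT.nd (nat_lit 78) (nat_lit 304) (nat_lit 0) (XT.lf (nat_lit 0) (nat_lit 7791303304) (nat_lit 228) (nat_lit 218079738) (nat_lit 0) (nat_lit 3222271114) (nat_lit 142) (nat_lit 5) (nat_lit 145) (nat_lit 4) (nat_lit 142) (nat_lit 4) (nat_lit 466) (nat_lit 371) (nat_lit 363)) (XT.lf (nat_lit 0) (nat_lit 1790255420) (nat_lit 304) (nat_lit 1433665008) (nat_lit 76) (nat_lit 8168710069) (nat_lit 138) (nat_lit 5) (nat_lit 142) (nat_lit 5) (nat_lit 139)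 (nat_lit 4) (nat_lit 467) (nat_lit 371) (nat_lit 362))))) (XT.nd (nat_lit 312) (nat_lit 608) (nat_lit 0) (XT.nd (nat_lit 156) (nat_lit 304) (nat_lit 0) (XT.nd (nat_lit 78) (nat_lit 304) (nat_lit 0) (XT.lf (nat_lit 0) (nat_lit 7107999155) (nat_lit 228) (nat_lit 2731927114) (nat_lit 0) (nat_lit 1717508687) (nat_lit 136) (nat_lit 5) (nat_lit 139) (nat_lit 4) (nat_lit 136) (nat_lit 4) (nat_lit 468) (nat_lit 371) (nat_lit 361)) (XT.lf (nat_lit 0) (nat_lit 857230084) (nat_lit 304) (nat_lit 4106833022) (nat_lit 76) (nat_lit 6762398128) (nat_lit 132) (nat_lit 5) (nat_lit 136) (nat_lit 5) (nat_lit 133) (nat_lit 4) (nat_lit 469) (nat_lit 371) (nat_lit 360))) (XT.nd (nat_lit 78) (nat_lit 152) (nat_lit 0) (XT.lf (nat_lit 0) (nat_lit 6219637586) (nat_lit 228) (nat_lit 5567406321) (nat_lit 0) (nat_lit 112615227) (nat_lit 130) (nat_lit 5) (nat_lit 133) (nat_lit 4) (nat_lit 130) (nat_lit 4) (nat_lit 470) (nat_lit 371) (nat_lit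 359)) (XT.lf (nat_lit 0) (nat_lit 4954626772) (nat_lit 152) (nat_lit 6823585682) (nat_lit 152) (nat_lit 298783195) (nat_lit 128) (nat_lit 4) (nat_lit 130) (nat_lit 5) (nat_lit 130) (nat_lit 4) (nat_lit 471) (nat_lit 371) (nat_lit 358)))) (XT.nd (nat_lit 156) (nat_lit 228) (nat_lit 0) (XT.nd (nat_lit 78) (nat_lit 152) (nat_lit 0) (XT.lf (nat_lit 0) (nat_lit 3480810013) (nat_lit 152) (nat_lit 1647871895) (nat_lit 228) (nat_lit 7129846064) (nat_lit 125) (nat_lit 5) (nat_lit 127) (nat_lit 5) (nat_lit 128) (nat_lit 4) (nat_lit 472) (nat_lit 371) (nat_lit 357)) (XT.lf (nat_lit 0) (nat_lit 1917989498) (nat_lit 152) (nat_lit 8818800120) (nat_lit 152) (nat_lit 1707914585) (nat_lit 123) (nat_lit 4) (nat_lit 125) (nat_lit 5) (nat_lit 125) (nat_lit 4) (nat_lit 473) (nat_lit 371) (nat_lit 356))) (XT.nd (nat_lit 78) (nat_lit 0) (nat_lit 0) (XT.lf (nat_lit 0) (nat_lit 245707616) (nat_lit 152) (nat_lit 3561083213) (nat_lit 228)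 (nat_lit 8828385347) (nat_lit 120) (nat_lit 5) (nat_lit 122) (nat_lit 5) (nat_lit 123) (nat_lit 4) (nat_lit 474) (nat_lit 371) (nat_lit 355)) (XT.lf (nat_lit 0) (nat_lit 9475786304) (nat_lit 228) (nat_lit 1492625842) (nat_lit 0) (nat_lit 1861748852) (nat_lit 120) (nat_lit 5) (nat_lit 123) (nat_lit 4) (nat_lit 120) (nat_lit 4) (nat_lit 475) (nat_lit 371) (nat_lit 354))))))))
noncomputable def xc37 : XT := (XT.nd (nat_lit 2418) (nat_lit 2432) (nat_lit 0) (XT.nd (nat_lit 1170) (nat_lit 1596) (nat_lit 0) (XT.nd (nat_lit 546) (nat_lit 1064) (nat_lit 0) (XT.nd (nat_lit 234) (nat_lit 456) (nat_lit 0) (XT.nd (nat_lit 78) (nat_lit 380) (nat_lit 0) (XT.lf (nat_lit 0) (nat_lit 2269098951) (nat_lit 228) (nat_lit 3347460056) (nat_lit 76) (nat_lit 7412884687) (nat_lit 117) (nat_lit 5) (nat_lit 120) (nat_lit 5) (nat_lit 118) (nat_lit 4) (nat_lit 476) (nat_lit 371) (nat_lit 353)) (XT.nd (nat_lit 78) (nat_lit 228) (nat_lit 0) (XT.lf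 (nat_lit 0) (nat_lit 7928994088) (nat_lit 152) (nat_lit 57471185) (nat_lit 228) (nat_lit 5247466178) (nat_lit 115) (nat_lit 5) (nat_lit 117) (nat_lit 5) (nat_lit 118) (nat_lit 4) (nat_lit 477) (nat_lit 371) (nat_lit 352)) (XT.lf (nat_lit 0) (nat_lit 471211108) (nat_lit 228) (nat_lit 7396571642) (nat_lit 76) (nat_lit 5575183401) (nat_lit 112) (nat_lit 5) (nat_lit 115) (nat_lit 5) (nat_lit 113) (nat_lit 4) (nat_lit 478) (nat_lit 371) (nat_lit 351)))) (XT.nd (nat_lit 156) (nat_lit 152) (nat_lit 0) (XT.nd (nat_lit 78) (nat_lit 152) (nat_lit 0) (XT.lf (nat_lit 0) (nat_lit 4034919762) (nat_lit 152) (nat_lit 2216244379) (nat_lit 228) (nat_lit 7405694641) (nat_lit 110) (nat_lit 5) (nat_lit 112) (nat_lit 5) (nat_lit 113) (nat_lit 4) (nat_lit 479) (nat_lit 371) (nat_lit 350)) (XT.lf (nat_lit 0) (nat_lit 1906401888) (nat_lit 152) (nat_lit 10328599220) (nat_lit 152) (nat_lit 1641253567) (nat_lit 108) (nat_lit 4) (nat_lit 110)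 (nat_lit 5) (nat_lit 110) (nat_lit 4) (nat_lit 480) (nat_lit 371) (nat_lit 349))) (XT.nd (nat_lit 78) (nat_lit 76) (nat_lit 0) (XT.lf (nat_lit 0) (nat_lit 4234598754) (nat_lit 228) (nat_lit 367312061) (nat_lit 76) (nat_lit 9498414381) (nat_lit 107) (nat_lit 5) (nat_lit 110) (nat_lit 5) (nat_lit 108) (nat_lit 4) (nat_lit 481) (nat_lit 371) (nat_lit 348)) (XT.lf (nat_lit 0) (nat_lit 10283450506) (nat_lit 152) (nat_lit 2725659028) (nat_lit 0) (nat_lit 1320630409) (nat_lit 106) (nat_lit 5) (nat_lit 108) (nat_lit 4) (nat_lit 106) (nat_lit 4) (nat_lit 482) (nat_lit 371) (nat_lit 347))))) (XT.nd (nat_lit 312) (nat_lit 456) (nat_lit 0) (XT.nd (nat_lit 156) (nat_lit 304) (nat_lit 0) (XT.nd (nat_lit 78) (nat_lit 76) (nat_lit 0) (XT.lf (nat_lit 0) (nat_lit 1954616576) (nat_lit 228) (nat_lit 5247712294) (nat_lit 76) (nat_lit 7361800682) (nat_lit 103) (nat_lit 5) (nat_lit 106) (nat_lit 5) (nat_lit 104) (nat_lit 4) (nat_lit 483)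 (nat_lit 371) (nat_lit 346)) (XT.lf (nat_lit 0) (nat_lit 6888187629) (nat_lit 76) (nat_lit 1165592355) (nat_lit 152) (nat_lit 6750583174) (nat_lit 102) (nat_lit 5) (nat_lit 103) (nat_lit 5) (nat_lit 104) (nat_lit 4) (nat_lit 484) (nat_lit 371) (nat_lit 345))) (XT.nd (nat_lit 78) (nat_lit 152) (nat_lit 0) (XT.lf (nat_lit 0) (nat_lit 4303328006) (nat_lit 152) (nat_lit 10081868028) (nat_lit 152) (nat_lit 665130252) (nat_lit 100) (nat_lit 4) (nat_lit 102) (nat_lit 5) (nat_lit 102) (nat_lit 4) (nat_lit 485) (nat_lit 371) (nat_lit 344)) (XT.lf (nat_lit 0) (nat_lit 1537007331) (nat_lit 76) (nat_lit 3969555481) (nat_lit 152) (nat_lit 9795100273) (nat_lit 98) (nat_lit 5) (nat_lit 99) (nat_lit 5) (nat_lit 100) (nat_lit 4) (nat_lit 486) (nat_lit 371) (nat_lit 343)))) (XT.nd (nat_lit 156) (nat_lit 228) (nat_lit 0) (XT.nd (nat_lit 78) (nat_lit 228) (nat_lit 0) (XT.lf (nat_lit 0) (nat_lit 11888220135) (nat_lit 152) (nat_lit 1354943391)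 (nat_lit 0) (nat_lit 2316034217) (nat_lit 98) (nat_lit 5) (nat_lit 100) (nat_lit 4) (nat_lit 98) (nat_lit 4) (nat_lit 487) (nat_lit 371) (nat_lit 342)) (XT.lf (nat_lit 0) (nat_lit 2644202516) (nat_lit 228) (nat_lit 4409974948) (nat_lit 76) (nat_lit 8767757634) (nat_lit 95) (nat_lit 5) (nat_lit 98) (nat_lit 5) (nat_lit 96) (nat_lit 4) (nat_lit 488) (nat_lit 371) (nat_lit 341))) (XT.nd (nat_lit 78) (nat_lit 152) (nat_lit 0) (XT.lf (nat_lit 0) (nat_lit 8453552260) (nat_lit 76) (nat_lit 625655834) (nat_lit 152) (nat_lit 7012132209) (nat_lit 94) (nat_lit 5) (nat_lit 95) (nat_lit 5) (nat_lit 96) (nat_lit 4) (nat_lit 489) (nat_lit 371) (nat_lit 340)) (XT.lf (nat_lit 0) (nat_lit 5298554351) (nat_lit 152) (nat_lit 10471554814) (nat_lit 152) (nat_lit 596833828) (nat_lit 92) (nat_lit 4) (nat_lit 94) (nat_lit 5) (nat_lit 94) (nat_lit 4) (nat_lit 490) (nat_lit 371) (nat_lit 339)))))) (XT.nd (nat_lit 624) (nat_lit 608) (nat_lit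 0) (XT.nd (nat_lit 312) (nat_lit 532) (nat_lit 0) (XT.nd (nat_lit 156) (nat_lit 304) (nat_lit 0) (XT.nd (nat_lit 78) (nat_lit 0) (nat_lit 0) (XT.lf (nat_lit 0) (nat_lit 1931232016) (nat_lit 76) (nat_lit 3974460093) (nat_lit 152) (nat_lit 10743026983) (nat_lit 90) (nat_lit 5) (nat_lit 91) (nat_lit 5) (nat_lit 92) (nat_lit 4) (nat_lit 491) (nat_lit 371) (nat_lit 338)) (XT.lf (nat_lit 0) (nat_lit 12639921379) (nat_lit 152) (nat_lit 1593981483) (nat_lit 0) (nat_lit 2703410267) (nat_lit 90) (nat_lit 5) (nat_lit 92) (nat_lit 4) (nat_lit 90) (nat_lit 4) (nat_lit 492) (nat_lit 371) (nat_lit 337))) (XT.nd (nat_lit 78) (nat_lit 76) (nat_lit 0) (XT.lf (nat_lit 0) (nat_lit 2363047208) (nat_lit 228) (nat_lit 5306631958) (nat_lit 76) (nat_lit 9562197305) (nat_lit 87) (nat_lit 5) (nat_lit 90) (nat_lit 5) (nat_lit 88) (nat_lit 4) (nat_lit 493) (nat_lit 371) (nat_lit 336)) (XT.lf (nat_lit 0) (nat_lit 8299126515) (nat_lit 76) (nat_lit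 846185703) (nat_lit 152) (nat_lit 8388437035) (nat_lit 86) (nat_lit 5) (nat_lit 87) (nat_lit 5) (nat_lit 88) (nat_lit 4) (nat_lit 494) (nat_lit 371) (nat_lit 335)))) (XT.nd (nat_lit 156) (nat_lit 228) (nat_lit 0) (XT.nd (nat_lit 78) (nat_lit 152) (nat_lit 0) (XT.lf (nat_lit 0) (nat_lit 4437169388) (nat_lit 152) (nat_lit 11762612652) (nat_lit 152) (nat_lit 1642834631) (nat_lit 84) (nat_lit 4) (nat_lit 86) (nat_lit 5) (nat_lit 86) (nat_lit 4) (nat_lit 495) (nat_lit 371) (nat_lit 334)) (XT.lf (nat_lit 0) (nat_lit 328253405) (nat_lit 76) (nat_lit 4891699081) (nat_lit 152) (nat_lit 12938718101) (nat_lit 82) (nat_lit 5) (nat_lit 83) (nat_lit 5) (nat_lit 84) (nat_lit 4) (nat_lit 496) (nat_lit 371) (nat_lit 333))) (XT.nd (nat_lit 78) (nat_lit 228) (nat_lit 0) (XT.lf (nat_lit 0) (nat_lit 12326121668) (nat_lit 152) (nat_lit 3938483902) (nat_lit 0) (nat_lit 2216997558) (nat_lit 82) (nat_lit 5) (nat_lit 84) (nat_lit 4) (nat_lit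 82) (nat_lit 4) (nat_lit 497) (nat_lit 371) (nat_lit 332)) (XT.lf (nat_lit 0) (nat_lit 879022910) (nat_lit 228) (nat_lit 8460580624) (nat_lit 76) (nat_lit 9472461138) (nat_lit 79) (nat_lit 5) (nat_lit 82) (nat_lit 5) (nat_lit 80) (nat_lit 4) (nat_lit 498) (nat_lit 371) (nat_lit 331))))) (XT.nd (nat_lit 312) (nat_lit 304) (nat_lit 0) (XT.nd (nat_lit 156) (nat_lit 152) (nat_lit 0) (XT.nd (nat_lit 78) (nat_lit 76) (nat_lit 0) (XT.lf (nat_lit 0) (nat_lit 5889564426) (nat_lit 76) (nat_lit 2123478487) (nat_lit 152) (nat_lit 11137203271) (nat_lit 78) (nat_lit 5) (nat_lit 79) (nat_lit 5) (nat_lit 80) (nat_lit 4) (nat_lit 499) (nat_lit 371) (nat_lit 330)) (XT.lf (nat_lit 0) (nat_lit 1154469841) (nat_lit 76) (nat_lit 14270599875) (nat_lit 76) (nat_lit 4071584296) (nat_lit 77) (nat_lit 4) (nat_lit 78) (nat_lit 5) (nat_lit 78) (nat_lit 4) (nat_lit 500) (nat_lit 371) (nat_lit 329))) (XT.nd (nat_lit 78) (nat_lit 76) (nat_lit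 0) (XT.lf (nat_lit 0) (nat_lit 3215345114) (nat_lit 152) (nat_lit 3792586417) (nat_lit 76) (nat_lit 12842441354) (nat_lit 76) (nat_lit 5) (nat_lit 78) (nat_lit 5) (nat_lit 77) (nat_lit 4) (nat_lit 501) (nat_lit 371) (nat_lit 328)) (XT.lf (nat_lit 0) (nat_lit 10670201990) (nat_lit 152) (nat_lit 9005109403) (nat_lit 0) (nat_lit 537248336) (nat_lit 75) (nat_lit 5) (nat_lit 77) (nat_lit 4) (nat_lit 75) (nat_lit 4) (nat_lit 502) (nat_lit 371) (nat_lit 327)))) (XT.nd (nat_lit 156) (nat_lit 76) (nat_lit 0) (XT.nd (nat_lit 78) (nat_lit 152) (nat_lit 0) (XT.lf (nat_lit 0) (nat_lit 6039608812) (nat_lit 76) (nat_lit 12393451970) (nat_lit 76) (nat_lit 2150021114) (nat_lit 74) (nat_lit 4) (nat_lit 75) (nat_lit 5) (nat_lit 75) (nat_lit 4) (nat_lit 503) (nat_lit 371) (nat_lit 326)) (XT.lf (nat_lit 0) (nat_lit 556390132) (nat_lit 76) (nat_lit 4816555881) (nat_lit 152) (nat_lit 15589733841) (nat_lit 72) (nat_lit 5) (nat_lit 73)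 (nat_lit 5) (nat_lit 74) (nat_lit 4) (nat_lit 504) (nat_lit 371) (nat_lit 325))) (XT.nd (nat_lit 78) (nat_lit 76) (nat_lit 0) (XT.lf (nat_lit 0) (nat_lit 13173848078) (nat_lit 152) (nat_lit 5152783717) (nat_lit 0) (nat_lit 3023531929) (nat_lit 72) (nat_lit 5) (nat_lit 74) (nat_lit 4) (nat_lit 72) (nat_lit 4) (nat_lit 505) (nat_lit 371) (nat_lit 324)) (XT.lf (nat_lit 0) (nat_lit 10561944774) (nat_lit 76) (nat_lit 10716850434) (nat_lit 76) (nat_lit 468376722) (nat_lit 71) (nat_lit 4) (nat_lit 72) (nat_lit 5) (nat_lit 72) (nat_lit 4) (nat_lit 506) (nat_lit 371) (nat_lit 323))))))) (XT.nd (nat_lit 1248) (nat_lit 1140) (nat_lit 0) (XT.nd (nat_lit 624) (nat_lit 608) (nat_lit 0) (XT.nd (nat_lit 312) (nat_lit 304) (nat_lit 0) (XT.nd (nat_lit 156) (nat_lit 228) (nat_lit 0) (XT.nd (nat_lit 78) (nat_lit 0) (nat_lit 0) (XT.lf (nat_lit 0) (nat_lit 4561032420) (nat_lit 76) (nat_lit 2781235923) (nat_lit 152) (nat_lit 14811150456)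 (nat_lit 69) (nat_lit 5) (nat_lit 70) (nat_lit 5) (nat_lit 71) (nat_lit 4) (nat_lit 507) (nat_lit 371) (nat_lit 322)) (XT.lf (nat_lit 0) (nat_lit 15464690046) (nat_lit 152) (nat_lit 1772053524) (nat_lit 0) (nat_lit 5332364575) (nat_lit 69) (nat_lit 5) (nat_lit 71) (nat_lit 4) (nat_lit 69) (nat_lit 4) (nat_lit 508) (nat_lit 371) (nat_lit 321))) (XT.nd (nat_lit 78) (nat_lit 76) (nat_lit 0) (XT.lf (nat_lit 0) (nat_lit 909600091) (nat_lit 152) (nat_lit 8373049009) (nat_lit 76) (nat_lit 13711608552) (nat_lit 67) (nat_lit 5) (nat_lit 69) (nat_lit 5) (nat_lit 68) (nat_lit 4) (nat_lit 509) (nat_lit 371) (nat_lit 320)) (XT.lf (nat_lit 0) (nat_lit 8046975201) (nat_lit 76) (nat_lit 993016903) (nat_lit 152) (nat_lit 14389497266) (nat_lit 66) (nat_lit 5) (nat_lit 67) (nat_lit 5) (nat_lit 68) (nat_lit 4) (nat_lit 510) (nat_lit 371) (nat_lit 319)))) (XT.nd (nat_lit 156) (nat_lit 152) (nat_lit 0) (XT.nd (nat_lit 78) (nat_lit 76)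 (nat_lit 0) (XT.lf (nat_lit 0) (nat_lit 1052570627) (nat_lit 76) (nat_lit 16453180654) (nat_lit 76) (nat_lit 6369283388) (nat_lit 65) (nat_lit 4) (nat_lit 66) (nat_lit 5) (nat_lit 66) (nat_lit 4) (nat_lit 511) (nat_lit 371) (nat_lit 318)) (XT.lf (nat_lit 0) (nat_lit 1944794535) (nat_lit 152) (nat_lit 6213450846) (nat_lit 76) (nat_lit 16172450694) (nat_lit 64) (nat_lit 5) (nat_lit 66) (nat_lit 5) (nat_lit 65) (nat_lit 4) (nat_lit 512) (nat_lit 371) (nat_lit 317))) (XT.nd (nat_lit 78) (nat_lit 76) (nat_lit 0) (XT.lf (nat_lit 0) (nat_lit 10415398956) (nat_lit 152) (nat_lit 13904743764) (nat_lit 0) (nat_lit 476939391) (nat_lit 63) (nat_lit 5) (nat_lit 65) (nat_lit 4) (nat_lit 63) (nat_lit 4) (nat_lit 513) (nat_lit 371) (nat_lit 316)) (XT.lf (nat_lit 0) (nat_lit 3197751341) (nat_lit 76) (nat_lit 16043029769) (nat_lit 76) (nat_lit 6033659092) (nat_lit 62) (nat_lit 4) (nat_lit 63) (nat_lit 5) (nat_lit 63) (nat_lit 4) (nat_lit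 514) (nat_lit 371) (nat_lit 315))))) (XT.nd (nat_lit 312) (nat_lit 304) (nat_lit 0) (XT.nd (nat_lit 156) (nat_lit 152) (nat_lit 0) (XT.nd (nat_lit 78) (nat_lit 76) (nat_lit 0) (XT.lf (nat_lit 0) (nat_lit 2582380467) (nat_lit 152) (nat_lit 4835984068) (nat_lit 76) (nat_lit 18344986408) (nat_lit 61) (nat_lit 5) (nat_lit 63) (nat_lit 5) (nat_lit 62) (nat_lit 4) (nat_lit 515) (nat_lit 371) (nat_lit 314)) (XT.lf (nat_lit 0) (nat_lit 11403555474) (nat_lit 152) (nat_lit 13305558220) (nat_lit 0) (nat_lit 1553985629) (nat_lit 60) (nat_lit 5) (nat_lit 62) (nat_lit 4) (nat_lit 60) (nat_lit 4) (nat_lit 516) (nat_lit 371) (nat_lit 313))) (XT.nd (nat_lit 78) (nat_lit 76) (nat_lit 0) (XT.lf (nat_lit 0) (nat_lit 4478895331) (nat_lit 76) (nat_lit 16104351043) (nat_lit 76) (nat_lit 6191777593) (nat_lit 59) (nat_lit 4) (nat_lit 60) (nat_lit 5) (nat_lit 60) (nat_lit 4) (nat_lit 517) (nat_lit 371) (nat_lit 312)) (XT.lf (nat_lit 0) (nat_lit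 2746419166) (nat_lit 152) (nat_lit 4398511089) (nat_lit 76) (nat_lit 20154673688) (nat_lit 58) (nat_lit 5) (nat_lit 60) (nat_lit 5) (nat_lit 59) (nat_lit 4) (nat_lit 518) (nat_lit 371) (nat_lit 311)))) (XT.nd (nat_lit 156) (nat_lit 152) (nat_lit 0) (XT.nd (nat_lit 78) (nat_lit 76) (nat_lit 0) (XT.lf (nat_lit 0) (nat_lit 11915476949) (nat_lit 152) (nat_lit 13745415460) (nat_lit 0) (nat_lit 2174575068) (nat_lit 57) (nat_lit 5) (nat_lit 59) (nat_lit 4) (nat_lit 57) (nat_lit 4) (nat_lit 519) (nat_lit 371) (nat_lit 310)) (XT.lf (nat_lit 0) (nat_lit 4720123538) (nat_lit 76) (nat_lit 16730713221) (nat_lit 76) (nat_lit 6933833453) (nat_lit 56) (nat_lit 4) (nat_lit 57) (nat_lit 5) (nat_lit 57) (nat_lit 4) (nat_lit 520) (nat_lit 371) (nat_lit 309))) (XT.nd (nat_lit 78) (nat_lit 76) (nat_lit 0) (XT.lf (nat_lit 0) (nat_lit 2347067723) (nat_lit 152) (nat_lit 5086679753) (nat_lit 76) (nat_lit 21513818115) (nat_lit 55) (nat_lit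 5) (nat_lit 57) (nat_lit 5) (nat_lit 56) (nat_lit 4) (nat_lit 521) (nat_lit 371) (nat_lit 308)) (XT.lf (nat_lit 0) (nat_lit 11857073343) (nat_lit 152) (nat_lit 15423966537) (nat_lit 0) (nat_lit 2241547365) (nat_lit 54) (nat_lit 5) (nat_lit 56) (nat_lit 4) (nat_lit 54) (nat_lit 4) (nat_lit 522) (nat_lit 371) (nat_lit 307)))))) (XT.nd (nat_lit 624) (nat_lit 608) (nat_lit 0) (XT.nd (nat_lit 312) (nat_lit 228) (nat_lit 0) (XT.nd (nat_lit 156) (nat_lit 152) (nat_lit 0) (XT.nd (nat_lit 78) (nat_lit 76) (nat_lit 0) (XT.lf (nat_lit 0) (nat_lit 3714575214) (nat_lit 76) (nat_lit 18031369577) (nat_lit 76) (nat_lit 8366107971) (nat_lit 53) (nat_lit 4) (nat_lit 54) (nat_lit 5) (nat_lit 54) (nat_lit 4) (nat_lit 523) (nat_lit 371) (nat_lit 306)) (XT.lf (nat_lit 0) (nat_lit 1278330410) (nat_lit 152) (nat_lit 7118537889) (nat_lit 76) (nat_lit 22319293335) (nat_lit 52) (nat_lit 5) (nat_lit 54) (nat_lit 5) (nat_lit 53) (nat_lit 4)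 (nat_lit 524) (nat_lit 371) (nat_lit 305))) (XT.nd (nat_lit 78) (nat_lit 76) (nat_lit 0) (XT.lf (nat_lit 0) (nat_lit 11117221179) (nat_lit 152) (nat_lit 18575413381) (nat_lit 0) (nat_lit 1641076304) (nat_lit 51) (nat_lit 5) (nat_lit 53) (nat_lit 4) (nat_lit 51) (nat_lit 4) (nat_lit 525) (nat_lit 371) (nat_lit 304)) (XT.lf (nat_lit 0) (nat_lit 1219268148) (nat_lit 76) (nat_lit 20133898147) (nat_lit 76) (nat_lit 10613563811) (nat_lit 50) (nat_lit 4) (nat_lit 51) (nat_lit 5) (nat_lit 51) (nat_lit 4) (nat_lit 526) (nat_lit 371) (nat_lit 303)))) (XT.nd (nat_lit 156) (nat_lit 76) (nat_lit 0) (XT.nd (nat_lit 78) (nat_lit 152) (nat_lit 0) (XT.lf (nat_lit 0) (nat_lit 21859440346) (nat_lit 76) (nat_lit 10159428050) (nat_lit 76) (nat_lit 596191326) (nat_lit 50) (nat_lit 4) (nat_lit 51) (nat_lit 5) (nat_lit 51) (nat_lit 4) (nat_lit 527) (nat_lit 371) (nat_lit 302)) (XT.lf (nat_lit 0) (nat_lit 9564991506) (nat_lit 152) (nat_lit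 23474198462) (nat_lit 0) (nat_lit 239856041) (nat_lit 48) (nat_lit 5) (nat_lit 50) (nat_lit 4) (nat_lit 48) (nat_lit 4) (nat_lit 528) (nat_lit 371) (nat_lit 301))) (XT.nd (nat_lit 78) (nat_lit 76) (nat_lit 0) (XT.lf (nat_lit 0) (nat_lit 20165719039) (nat_lit 152) (nat_lit 2991333330) (nat_lit 0) (nat_lit 10801321810) (nat_lit 48) (nat_lit 5) (nat_lit 50) (nat_lit 4) (nat_lit 48) (nat_lit 4) (nat_lit 529) (nat_lit 371) (nat_lit 300)) (XT.lf (nat_lit 0) (nat_lit 18340923719) (nat_lit 76) (nat_lit 12858118424) (nat_lit 76) (nat_lit 3455602978) (nat_lit 47) (nat_lit 4) (nat_lit 48) (nat_lit 5) (nat_lit 48) (nat_lit 4) (nat_lit 530) (nat_lit 371) (nat_lit 299))))) (XT.nd (nat_lit 312) (nat_lit 304) (nat_lit 0) (XT.nd (nat_lit 156) (nat_lit 152) (nat_lit 0) (XT.nd (nat_lit 78) (nat_lit 0) (nat_lit 0) (XT.lf (nat_lit 0) (nat_lit 4906878026) (nat_lit 76) (nat_lit 2160314806) (nat_lit 152) (nat_lit 28302058642) (nat_lit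 45) (nat_lit 5) (nat_lit 46) (nat_lit 5) (nat_lit 47) (nat_lit 4) (nat_lit 531) (nat_lit 371) (nat_lit 298)) (XT.lf (nat_lit 0) (nat_lit 18026073000) (nat_lit 152) (nat_lit 9245897505) (nat_lit 0) (nat_lit 8826603583) (nat_lit 45) (nat_lit 5) (nat_lit 47) (nat_lit 4) (nat_lit 45) (nat_lit 4) (nat_lit 532) (nat_lit 371) (nat_lit 297))) (XT.nd (nat_lit 78) (nat_lit 76) (nat_lit 0) (XT.lf (nat_lit 0) (nat_lit 12714312886) (nat_lit 76) (nat_lit 16683144225) (nat_lit 76) (nat_lit 7449807266) (nat_lit 44) (nat_lit 4) (nat_lit 45) (nat_lit 5) (nat_lit 45) (nat_lit 4) (nat_lit 533) (nat_lit 371) (nat_lit 296)) (XT.lf (nat_lit 0) (nat_lit 3457874397) (nat_lit 152) (nat_lit 2246733040) (nat_lit 76) (nat_lit 31911767961) (nat_lit 43) (nat_lit 5) (nat_lit 45) (nat_lit 5) (nat_lit 44) (nat_lit 4) (nat_lit 534) (nat_lit 371) (nat_lit 295)))) (XT.nd (nat_lit 156) (nat_lit 152) (nat_lit 0) (XT.nd (nat_lit 78) (nat_lit 76) (nat_lit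 0) (XT.lf (nat_lit 0) (nat_lit 14738054351) (nat_lit 152) (nat_lit 17951710118) (nat_lit 0) (nat_lit 5710732532) (nat_lit 42) (nat_lit 5) (nat_lit 44) (nat_lit 4) (nat_lit 42) (nat_lit 4) (nat_lit 535) (nat_lit 371) (nat_lit 294)) (XT.lf (nat_lit 0) (nat_lit 4580391513) (nat_lit 76) (nat_lit 21841601471) (nat_lit 76) (nat_lit 12784188780) (nat_lit 41) (nat_lit 4) (nat_lit 42) (nat_lit 5) (nat_lit 42) (nat_lit 4) (nat_lit 536) (nat_lit 371) (nat_lit 293))) (XT.nd (nat_lit 78) (nat_lit 152) (nat_lit 0) (XT.lf (nat_lit 0) (nat_lit 28041537252) (nat_lit 76) (nat_lit 10538706616) (nat_lit 76) (nat_lit 1452079485) (nat_lit 41) (nat_lit 4) (nat_lit 42) (nat_lit 5) (nat_lit 42) (nat_lit 4) (nat_lit 537) (nat_lit 371) (nat_lit 292)) (XT.lf (nat_lit 0) (nat_lit 10085262614) (nat_lit 152) (nat_lit 29557341386) (nat_lit 0) (nat_lit 1235757115) (nat_lit 39) (nat_lit 5) (nat_lit 41) (nat_lit 4) (nat_lit 39) (nat_lit 4) (nat_lit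 538) (nat_lit 371) (nat_lit 291))))))))
noncomputable def xc38 : XT := (XT.nd (nat_lit 57174) (nat_lit 0) (nat_lit 3648) (XT.nd (nat_lit 1170) (nat_lit 0) (nat_lit 0) (XT.nd (nat_lit 546) (nat_lit 456) (nat_lit 0) (XT.nd (nat_lit 234) (nat_lit 304) (nat_lit 0) (XT.nd (nat_lit 78) (nat_lit 152) (nat_lit 0) (XT.lf (nat_lit 0) (nat_lit 22109836864) (nat_lit 152) (nat_lit 6400807001) (nat_lit 0) (nat_lit 13233596015) (nat_lit 39) (nat_lit 5) (nat_lit 41) (nat_lit 4) (nat_lit 39) (nat_lit 4) (nat_lit 539) (nat_lit 371) (nat_lit 290)) (XT.nd (nat_lit 78) (nat_lit 76) (nat_lit 0) (XT.lf (nat_lit 0) (nat_lit 17686107055) (nat_lit 76) (nat_lit 16924362950) (nat_lit 76) (nat_lit 8022165449) (nat_lit 38) (nat_lit 4) (nat_lit 39) (nat_lit 5) (nat_lit 39) (nat_lit 4) (nat_lit 540) (nat_lit 371) (nat_lit 289)) (XT.lf (nat_lit 0) (nat_lit 3872188752) (nat_lit 152) (nat_lit 1066854964) (nat_lit 76) (nat_lit 38607185427) (nat_lit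 37) (nat_lit 5) (nat_lit 39) (nat_lit 5) (nat_lit 38) (nat_lit 4) (nat_lit 541) (nat_lit 371) (nat_lit 288)))) (XT.nd (nat_lit 156) (nat_lit 152) (nat_lit 0) (XT.nd (nat_lit 78) (nat_lit 76) (nat_lit 0) (XT.lf (nat_lit 0) (nat_lit 16211644039) (nat_lit 152) (nat_lit 20745205430) (nat_lit 0) (nat_lit 7520513199) (nat_lit 36) (nat_lit 5) (nat_lit 38) (nat_lit 4) (nat_lit 36) (nat_lit 4) (nat_lit 542) (nat_lit 371) (nat_lit 287)) (XT.lf (nat_lit 0) (nat_lit 3779351244) (nat_lit 76) (nat_lit 25184990138) (nat_lit 76) (nat_lit 16470797150) (nat_lit 35) (nat_lit 4) (nat_lit 36) (nat_lit 5) (nat_lit 36) (nat_lit 4) (nat_lit 543) (nat_lit 371) (nat_lit 286))) (XT.nd (nat_lit 78) (nat_lit 152) (nat_lit 0) (XT.lf (nat_lit 0) (nat_lit 29359651359) (nat_lit 76) (nat_lit 12896935402) (nat_lit 76) (nat_lit 4160351978) (nat_lit 35) (nat_lit 4) (nat_lit 36) (nat_lit 5) (nat_lit 36) (nat_lit 4) (nat_lit 544) (nat_lit 371) (nat_lit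 285)) (XT.lf (nat_lit 0) (nat_lit 8255152517) (nat_lit 76) (nat_lit 125869269) (nat_lit 152) (nat_lit 39043878646) (nat_lit 33) (nat_lit 5) (nat_lit 34) (nat_lit 5) (nat_lit 35) (nat_lit 4) (nat_lit 545) (nat_lit 371) (nat_lit 284))))) (XT.nd (nat_lit 312) (nat_lit 228) (nat_lit 0) (XT.nd (nat_lit 156) (nat_lit 152) (nat_lit 0) (XT.nd (nat_lit 78) (nat_lit 76) (nat_lit 0) (XT.lf (nat_lit 0) (nat_lit 21462735682) (nat_lit 152) (nat_lit 14052677782) (nat_lit 0) (nat_lit 12939020302) (nat_lit 33) (nat_lit 5) (nat_lit 35) (nat_lit 4) (nat_lit 33) (nat_lit 4) (nat_lit 546) (nat_lit 371) (nat_lit 283)) (XT.lf (nat_lit 0) (nat_lit 11949610818) (nat_lit 76) (nat_lit 23053433523) (nat_lit 76) (nat_lit 14509824531) (nat_lit 32) (nat_lit 4) (nat_lit 33) (nat_lit 5) (nat_lit 33) (nat_lit 4) (nat_lit 547) (nat_lit 371) (nat_lit 282))) (XT.nd (nat_lit 78) (nat_lit 152) (nat_lit 0) (XT.lf (nat_lit 0) (nat_lit 38920789462) (nat_lit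 76) (nat_lit 10121208869) (nat_lit 76) (nat_lit 1558285690) (nat_lit 32) (nat_lit 4) (nat_lit 33) (nat_lit 5) (nat_lit 33) (nat_lit 4) (nat_lit 548) (nat_lit 371) (nat_lit 281)) (XT.lf (nat_lit 0) (nat_lit 11681033130) (nat_lit 152) (nat_lit 36682706761) (nat_lit 0) (nat_lit 3349310009) (nat_lit 30) (nat_lit 5) (nat_lit 32) (nat_lit 4) (nat_lit 30) (nat_lit 4) (nat_lit 549) (nat_lit 371) (nat_lit 280)))) (XT.nd (nat_lit 156) (nat_lit 152) (nat_lit 0) (XT.nd (nat_lit 78) (nat_lit 76) (nat_lit 0) (XT.lf (nat_lit 0) (nat_lit 25457047675) (nat_lit 152) (nat_lit 10288913865) (nat_lit 0) (nat_lit 17107649338) (nat_lit 30) (nat_lit 5) (nat_lit 32) (nat_lit 4) (nat_lit 30) (nat_lit 4) (nat_lit 550) (nat_lit 371) (nat_lit 279)) (XT.lf (nat_lit 0) (nat_lit 17136583276) (nat_lit 76) (nat_lit 22627417239) (nat_lit 76) (nat_lit 14260858498) (nat_lit 29) (nat_lit 4) (nat_lit 30) (nat_lit 5) (nat_lit 30) (nat_lit 4) (nat_lit 551)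 (nat_lit 371) (nat_lit 278))) (XT.nd (nat_lit 78) (nat_lit 152) (nat_lit 0) (XT.lf (nat_lit 0) (nat_lit 45502178505) (nat_lit 76) (nat_lit 9055283241) (nat_lit 76) (nat_lit 672063913) (nat_lit 29) (nat_lit 4) (nat_lit 30) (nat_lit 5) (nat_lit 30) (nat_lit 4) (nat_lit 552) (nat_lit 371) (nat_lit 277)) (XT.lf (nat_lit 0) (nat_lit 13245357286) (nat_lit 152) (nat_lit 38125098324) (nat_lit 0) (nat_lit 5090605194) (nat_lit 27) (nat_lit 5) (nat_lit 29) (nat_lit 4) (nat_lit 27) (nat_lit 4) (nat_lit 553) (nat_lit 371) (nat_lit 276)))))) (XT.nd (nat_lit 55380) (nat_lit 0) (nat_lit 7828) (XT.nd (nat_lit 55068) (nat_lit 0) (nat_lit 9424) (XT.nd (nat_lit 54912) (nat_lit 0) (nat_lit 10488) (XT.nd (nat_lit 54834) (nat_lit 0) (nat_lit 11020) (XT.lf (nat_lit 0) (nat_lit 27709979100) (nat_lit 152) (nat_lit 10475087550) (nat_lit 0) (nat_lit 19539980211) (nat_lit 27) (nat_lit 5) (nat_lit 29) (nat_lit 4) (nat_lit 27) (nat_lit 4) (nat_lit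 554) (nat_lit 371) (nat_lit 275)) (XT.lf (nat_lit 0) (nat_lit 4473524971) (nat_lit 304) (nat_lit 219586886) (nat_lit 304) (nat_lit 219586886) (nat_lit 172) (nat_lit 4) (nat_lit 176) (nat_lit 5) (nat_lit 176) (nat_lit 4) (nat_lit 456) (nat_lit 372) (nat_lit 372))) (XT.nd (nat_lit 78) (nat_lit 228) (nat_lit 0) (XT.lf (nat_lit 0) (nat_lit 4442632962) (nat_lit 304) (nat_lit 1798247642) (nat_lit 0) (nat_lit 3710052979) (nat_lit 168) (nat_lit 5) (nat_lit 172) (nat_lit 4) (nat_lit 168) (nat_lit 4) (nat_lit 457) (nat_lit 372) (nat_lit 371)) (XT.lf (nat_lit 0) (nat_lit 7348841505) (nat_lit 228) (nat_lit 2087924070) (nat_lit 228) (nat_lit 644101386) (nat_lit 165) (nat_lit 4) (nat_lit 168) (nat_lit 5) (nat_lit 168) (nat_lit 4) (nat_lit 458) (nat_lit 372) (nat_lit 370)))) (XT.nd (nat_lit 156) (nat_lit 532) (nat_lit 0) (XT.nd (nat_lit 78) (nat_lit 228) (nat_lit 0) (XT.lf (nat_lit 0) (nat_lit 4274391890) (nat_lit 304) (nat_lit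 3737035060) (nat_lit 0) (nat_lit 2202207833) (nat_lit 161) (nat_lit 5) (nat_lit 165) (nat_lit 4) (nat_lit 161) (nat_lit 4) (nat_lit 459) (nat_lit 372) (nat_lit 369)) (XT.lf (nat_lit 0) (nat_lit 5569609237) (nat_lit 228) (nat_lit 3751919164) (nat_lit 228) (nat_lit 1028847280) (nat_lit 158) (nat_lit 4) (nat_lit 161) (nat_lit 5) (nat_lit 161) (nat_lit 4) (nat_lit 460) (nat_lit 372) (nat_lit 368))) (XT.nd (nat_lit 78) (nat_lit 228) (nat_lit 0) (XT.lf (nat_lit 0) (nat_lit 3931646347) (nat_lit 304) (nat_lit 5884607726) (nat_lit 0) (nat_lit 674363034) (nat_lit 154) (nat_lit 5) (nat_lit 158) (nat_lit 4) (nat_lit 154) (nat_lit 4) (nat_lit 461) (nat_lit 372) (nat_lit 367)) (XT.lf (nat_lit 0) (nat_lit 3580023789) (nat_lit 228) (nat_lit 5453637445) (nat_lit 228) (nat_lit 1600699567) (nat_lit 151) (nat_lit 4) (nat_lit 154) (nat_lit 5) (nat_lit 154) (nat_lit 4) (nat_lit 462) (nat_lit 372) (nat_lit 366))))) (XT.nd (nat_lit 312)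 (nat_lit 912) (nat_lit 0) (XT.nd (nat_lit 156) (nat_lit 228) (nat_lit 0) (XT.nd (nat_lit 78) (nat_lit 228) (nat_lit 0) (XT.lf (nat_lit 0) (nat_lit 2501972206) (nat_lit 152) (nat_lit 913404881) (nat_lit 228) (nat_lit 7366706284) (nat_lit 148) (nat_lit 5) (nat_lit 150) (nat_lit 5) (nat_lit 151) (nat_lit 4) (nat_lit 463) (nat_lit 372) (nat_lit 365)) (XT.lf (nat_lit 0) (nat_lit 1349264648) (nat_lit 228) (nat_lit 7215665384) (nat_lit 228) (nat_lit 2368379133) (nat_lit 145) (nat_lit 4) (nat_lit 148) (nat_lit 5) (nat_lit 148) (nat_lit 4) (nat_lit 464) (nat_lit 372) (nat_lit 364))) (XT.nd (nat_lit 78) (nat_lit 0) (nat_lit 0) (XT.lf (nat_lit 0) (nat_lit 134589223) (nat_lit 152) (nat_lit 2580241732) (nat_lit 228) (nat_lit 8373765633) (nat_lit 142) (nat_lit 5) (nat_lit 144) (nat_lit 5) (nat_lit 145) (nat_lit 4) (nat_lit 465) (nat_lit 372) (nat_lit 363)) (XT.lf (nat_lit 0) (nat_lit 7916777418) (nat_lit 228) (nat_lit 1132642218)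 (nat_lit 0) (nat_lit 2198006081) (nat_lit 142) (nat_lit 5) (nat_lit 145) (nat_lit 4) (nat_lit 142) (nat_lit 4) (nat_lit 466) (nat_lit 372) (nat_lit 362)))) (XT.nd (nat_lit 156) (nat_lit 456) (nat_lit 0) (XT.nd (nat_lit 78) (nat_lit 152) (nat_lit 0) (XT.lf (nat_lit 0) (nat_lit 1837186700) (nat_lit 304) (nat_lit 2473604005) (nat_lit 76) (nat_lit 7099399482) (nat_lit 138) (nat_lit 5) (nat_lit 142) (nat_lit 5) (nat_lit 139) (nat_lit 4) (nat_lit 467) (nat_lit 372) (nat_lit 361)) (XT.lf (nat_lit 0) (nat_lit 7082886109) (nat_lit 228) (nat_lit 3890324605) (nat_lit 0) (nat_lit 603946088) (nat_lit 136) (nat_lit 5) (nat_lit 139) (nat_lit 4) (nat_lit 136) (nat_lit 4) (nat_lit 468) (nat_lit 372) (nat_lit 360))) (XT.nd (nat_lit 78) (nat_lit 152) (nat_lit 0) (XT.lf (nat_lit 0) (nat_lit 750631420) (nat_lit 304) (nat_lit 5398381175) (nat_lit 76) (nat_lit 5599063350) (nat_lit 132) (nat_lit 5) (nat_lit 136) (nat_lit 5) (nat_lit 133)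 (nat_lit 4) (nat_lit 469) (nat_lit 372) (nat_lit 359)) (XT.lf (nat_lit 0) (nat_lit 4926448370) (nat_lit 152) (nat_lit 1122283088) (nat_lit 228) (nat_lit 5874472367) (nat_lit 130) (nat_lit 5) (nat_lit 132) (nat_lit 5) (nat_lit 133) (nat_lit 4) (nat_lit 470) (nat_lit 372) (nat_lit 358))))))) (XT.nd (nat_lit 1248) (nat_lit 1824) (nat_lit 0) (XT.nd (nat_lit 624) (nat_lit 1064) (nat_lit 0) (XT.nd (nat_lit 312) (nat_lit 684) (nat_lit 0) (XT.nd (nat_lit 156) (nat_lit 228) (nat_lit 0) (XT.nd (nat_lit 78) (nat_lit 228) (nat_lit 0) (XT.lf (nat_lit 0) (nat_lit 3417894233) (nat_lit 152) (nat_lit 8114417569) (nat_lit 152) (nat_lit 570479105) (nat_lit 128) (nat_lit 4) (nat_lit 130) (nat_lit 5) (nat_lit 130) (nat_lit 4) (nat_lit 471) (nat_lit 372) (nat_lit 357)) (XT.lf (nat_lit 0) (nat_lit 1799789197) (nat_lit 152) (nat_lit 2997021393) (nat_lit 228) (nat_lit 7489555996) (nat_lit 125) (nat_lit 5) (nat_lit 127) (nat_lit 5) (nat_lit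 128) (nat_lit 4) (nat_lit 472) (nat_lit 372) (nat_lit 356))) (XT.nd (nat_lit 78) (nat_lit 76) (nat_lit 0) (XT.lf (nat_lit 0) (nat_lit 98059076) (nat_lit 152) (nat_lit 10227301735) (nat_lit 152) (nat_lit 2149569402) (nat_lit 123) (nat_lit 4) (nat_lit 125) (nat_lit 5) (nat_lit 125) (nat_lit 4) (nat_lit 473) (nat_lit 372) (nat_lit 355)) (XT.lf (nat_lit 0) (nat_lit 3322404441) (nat_lit 228) (nat_lit 1693632124) (nat_lit 76) (nat_lit 7651034110) (nat_lit 122) (nat_lit 5) (nat_lit 125) (nat_lit 5) (nat_lit 123) (nat_lit 4) (nat_lit 474) (nat_lit 372) (nat_lit 354)))) (XT.nd (nat_lit 156) (nat_lit 304) (nat_lit 0) (XT.nd (nat_lit 78) (nat_lit 228) (nat_lit 0) (XT.lf (nat_lit 0) (nat_lit 8911862249) (nat_lit 228) (nat_lit 3572754075) (nat_lit 0) (nat_lit 379825918) (nat_lit 120) (nat_lit 5) (nat_lit 123) (nat_lit 4) (nat_lit 120) (nat_lit 4) (nat_lit 475) (nat_lit 372) (nat_lit 353)) (XT.lf (nat_lit 0) (nat_lit 1613285703)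 (nat_lit 228) (nat_lit 5586865843) (nat_lit 76) (nat_lit 5865824911) (nat_lit 117) (nat_lit 5) (nat_lit 120) (nat_lit 5) (nat_lit 118) (nat_lit 4) (nat_lit 476) (nat_lit 372) (nat_lit 352))) (XT.nd (nat_lit 78) (nat_lit 152) (nat_lit 0) (XT.lf (nat_lit 0) (nat_lit 5556953569) (nat_lit 152) (nat_lit 1703629224) (nat_lit 228) (nat_lit 6011984060) (nat_lit 115) (nat_lit 5) (nat_lit 117) (nat_lit 5) (nat_lit 118) (nat_lit 4) (nat_lit 477) (nat_lit 372) (nat_lit 351)) (XT.lf (nat_lit 0) (nat_lit 3520386195) (nat_lit 152) (nat_lit 9590188302) (nat_lit 152) (nat_lit 373783299) (nat_lit 113) (nat_lit 4) (nat_lit 115) (nat_lit 5) (nat_lit 115) (nat_lit 4) (nat_lit 478) (nat_lit 372) (nat_lit 350))))) (XT.nd (nat_lit 312) (nat_lit 532) (nat_lit 0) (XT.nd (nat_lit 156) (nat_lit 304) (nat_lit 0) (XT.nd (nat_lit 78) (nat_lit 0) (nat_lit 0) (XT.lf (nat_lit 0) (nat_lit 1331746425) (nat_lit 152) (nat_lit 4008733379) (nat_lit 228)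 (nat_lit 8360068442) (nat_lit 110) (nat_lit 5) (nat_lit 112) (nat_lit 5) (nat_lit 113) (nat_lit 4) (nat_lit 479) (nat_lit 372) (nat_lit 349)) (XT.lf (nat_lit 0) (nat_lit 11241928080) (nat_lit 228) (nat_lit 947215980) (nat_lit 0) (nat_lit 1733272239) (nat_lit 110) (nat_lit 5) (nat_lit 113) (nat_lit 4) (nat_lit 110) (nat_lit 4) (nat_lit 480) (nat_lit 372) (nat_lit 348))) (XT.nd (nat_lit 78) (nat_lit 76) (nat_lit 0) (XT.lf (nat_lit 0) (nat_lit 3159511419) (nat_lit 228) (nat_lit 3363004825) (nat_lit 76) (nat_lit 7625954695) (nat_lit 107) (nat_lit 5) (nat_lit 110) (nat_lit 5) (nat_lit 108) (nat_lit 4) (nat_lit 481) (nat_lit 372) (nat_lit 347)) (XT.lf (nat_lit 0) (nat_lit 8476090457) (nat_lit 76) (nat_lit 643737240) (nat_lit 152) (nat_lit 5260714507) (nat_lit 106) (nat_lit 5) (nat_lit 107) (nat_lit 5) (nat_lit 108) (nat_lit 4) (nat_lit 482) (nat_lit 372) (nat_lit 346)))) (XT.nd (nat_lit 156) (nat_lit 228) (nat_lit 0)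 (XT.nd (nat_lit 78) (nat_lit 76) (nat_lit 0) (XT.lf (nat_lit 0) (nat_lit 679699465) (nat_lit 228) (nat_lit 8610427190) (nat_lit 76) (nat_lit 5327681500) (nat_lit 103) (nat_lit 5) (nat_lit 106) (nat_lit 5) (nat_lit 104) (nat_lit 4) (nat_lit 483) (nat_lit 372) (nat_lit 345)) (XT.lf (nat_lit 0) (nat_lit 3372310828) (nat_lit 76) (nat_lit 3327581833) (nat_lit 152) (nat_lit 8160518624) (nat_lit 102) (nat_lit 5) (nat_lit 103) (nat_lit 5) (nat_lit 104) (nat_lit 4) (nat_lit 484) (nat_lit 372) (nat_lit 344))) (XT.nd (nat_lit 78) (nat_lit 76) (nat_lit 0) (XT.lf (nat_lit 0) (nat_lit 595134937) (nat_lit 152) (nat_lit 12334707948) (nat_lit 152) (nat_lit 2179575908) (nat_lit 100) (nat_lit 4) (nat_lit 102) (nat_lit 5) (nat_lit 102) (nat_lit 4) (nat_lit 485) (nat_lit 372) (nat_lit 343)) (XT.lf (nat_lit 0) (nat_lit 3961921127) (nat_lit 228) (nat_lit 2330468467) (nat_lit 76) (nat_lit 9070595563) (nat_lit 99) (nat_lit 5) (nat_lit 102)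 (nat_lit 5) (nat_lit 100) (nat_lit 4) (nat_lit 486) (nat_lit 372) (nat_lit 342)))))) (XT.nd (nat_lit 624) (nat_lit 836) (nat_lit 0) (XT.nd (nat_lit 312) (nat_lit 456) (nat_lit 0) (XT.nd (nat_lit 156) (nat_lit 228) (nat_lit 0) (XT.nd (nat_lit 78) (nat_lit 228) (nat_lit 0) (XT.lf (nat_lit 0) (nat_lit 10229860548) (nat_lit 76) (nat_lit 23693465) (nat_lit 152) (nat_lit 5369666906) (nat_lit 98) (nat_lit 5) (nat_lit 99) (nat_lit 5) (nat_lit 100) (nat_lit 4) (nat_lit 487) (nat_lit 372) (nat_lit 341)) (XT.lf (nat_lit 0) (nat_lit 893657849) (nat_lit 228) (nat_lit 8661966058) (nat_lit 76) (nat_lit 6333374669) (nat_lit 95) (nat_lit 5) (nat_lit 98) (nat_lit 5) (nat_lit 96) (nat_lit 4) (nat_lit 488) (nat_lit 372) (nat_lit 340))) (XT.nd (nat_lit 78) (nat_lit 152) (nat_lit 0) (XT.lf (nat_lit 0) (nat_lit 4032831561) (nat_lit 76) (nat_lit 3209850949) (nat_lit 152) (nat_lit 8918301038) (nat_lit 94) (nat_lit 5) (nat_lit 95) (nat_lit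 5) (nat_lit 96) (nat_lit 4) (nat_lit 489) (nat_lit 372) (nat_lit 339)) (XT.lf (nat_lit 0) (nat_lit 659939346) (nat_lit 152) (nat_lit 13160838024) (nat_lit 152) (nat_lit 2619193385) (nat_lit 92) (nat_lit 4) (nat_lit 94) (nat_lit 5) (nat_lit 94) (nat_lit 4) (nat_lit 490) (nat_lit 372) (nat_lit 338)))) (XT.nd (nat_lit 156) (nat_lit 304) (nat_lit 0) (XT.nd (nat_lit 78) (nat_lit 76) (nat_lit 0) (XT.lf (nat_lit 0) (nat_lit 3860908088) (nat_lit 228) (nat_lit 2881284695) (nat_lit 76) (nat_lit 9981994226) (nat_lit 91) (nat_lit 5) (nat_lit 94) (nat_lit 5) (nat_lit 92) (nat_lit 4) (nat_lit 491) (nat_lit 372) (nat_lit 337)) (XT.lf (nat_lit 0) (nat_lit 10418952138) (nat_lit 76) (nat_lit 78584874) (nat_lit 152) (nat_lit 6518172346) (nat_lit 90) (nat_lit 5) (nat_lit 91) (nat_lit 5) (nat_lit 92) (nat_lit 4) (nat_lit 492) (nat_lit 372) (nat_lit 336))) (XT.nd (nat_lit 78) (nat_lit 76) (nat_lit 0) (XT.lf (nat_lit 0) (nat_lit 92139061)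 (nat_lit 228) (nat_lit 10549030206) (nat_lit 76) (nat_lit 6672548031) (nat_lit 87) (nat_lit 5) (nat_lit 90) (nat_lit 5) (nat_lit 88) (nat_lit 4) (nat_lit 493) (nat_lit 372) (nat_lit 335)) (XT.lf (nat_lit 0) (nat_lit 2870427465) (nat_lit 76) (nat_lit 3909875017) (nat_lit 152) (nat_lit 10838110921) (nat_lit 86) (nat_lit 5) (nat_lit 87) (nat_lit 5) (nat_lit 88) (nat_lit 4) (nat_lit 494) (nat_lit 372) (nat_lit 334))))) (XT.nd (nat_lit 312) (nat_lit 380) (nat_lit 0) (XT.nd (nat_lit 156) (nat_lit 228) (nat_lit 0) (XT.nd (nat_lit 78) (nat_lit 228) (nat_lit 0) (XT.lf (nat_lit 0) (nat_lit 13720841376) (nat_lit 152) (nat_lit 1213786035) (nat_lit 0) (nat_lit 2996071608) (nat_lit 86) (nat_lit 5) (nat_lit 88) (nat_lit 4) (nat_lit 86) (nat_lit 4) (nat_lit 495) (nat_lit 372) (nat_lit 333)) (XT.lf (nat_lit 0) (nat_lit 2646062754) (nat_lit 228) (nat_lit 5497410067) (nat_lit 76) (nat_lit 10105729397) (nat_lit 83) (nat_lit 5) (nat_lit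 86) (nat_lit 5) (nat_lit 84) (nat_lit 4) (nat_lit 496) (nat_lit 372) (nat_lit 332))) (XT.nd (nat_lit 78) (nat_lit 152) (nat_lit 0) (XT.lf (nat_lit 0) (nat_lit 8550722866) (nat_lit 76) (nat_lit 1084542916) (nat_lit 152) (nat_lit 8940378207) (nat_lit 82) (nat_lit 5) (nat_lit 83) (nat_lit 5) (nat_lit 84) (nat_lit 4) (nat_lit 497) (nat_lit 372) (nat_lit 331)) (XT.lf (nat_lit 0) (nat_lit 4083631631) (nat_lit 152) (nat_lit 12823102902) (nat_lit 152) (nat_lit 2002967274) (nat_lit 80) (nat_lit 4) (nat_lit 82) (nat_lit 5) (nat_lit 82) (nat_lit 4) (nat_lit 498) (nat_lit 372) (nat_lit 330)))) (XT.nd (nat_lit 156) (nat_lit 228) (nat_lit 0) (XT.nd (nat_lit 78) (nat_lit 76) (nat_lit 0) (XT.lf (nat_lit 0) (nat_lit 5073072617) (nat_lit 228) (nat_lit 649871569) (nat_lit 76) (nat_lit 13528428926) (nat_lit 79) (nat_lit 5) (nat_lit 82) (nat_lit 5) (nat_lit 80) (nat_lit 4) (nat_lit 499) (nat_lit 372) (nat_lit 329)) (XT.lf (nat_lit 0)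 (nat_lit 12392588980) (nat_lit 152) (nat_lit 5565429042) (nat_lit 0) (nat_lit 1642538449) (nat_lit 78) (nat_lit 5) (nat_lit 80) (nat_lit 4) (nat_lit 78) (nat_lit 4) (nat_lit 500) (nat_lit 372) (nat_lit 328))) (XT.nd (nat_lit 78) (nat_lit 76) (nat_lit 0) (XT.lf (nat_lit 0) (nat_lit 44717068) (nat_lit 152) (nat_lit 10776480146) (nat_lit 76) (nat_lit 9136846211) (nat_lit 76) (nat_lit 5) (nat_lit 78) (nat_lit 5) (nat_lit 77) (nat_lit 4) (nat_lit 501) (nat_lit 372) (nat_lit 327)) (XT.lf (nat_lit 0) (nat_lit 4012375415) (nat_lit 76) (nat_lit 3373547111) (nat_lit 152) (nat_lit 12937717484) (nat_lit 75) (nat_lit 5) (nat_lit 76) (nat_lit 5) (nat_lit 77) (nat_lit 4) (nat_lit 502) (nat_lit 372) (nat_lit 326))))))))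
noncomputable def xc39 : XT := (XT.nd (nat_lit 2418) (nat_lit 1368) (nat_lit 0) (XT.nd (nat_lit 1170) (nat_lit 1140) (nat_lit 0) (XT.nd (nat_lit 546) (nat_lit 608) (nat_lit 0) (XT.nd (nat_lit 234) (nat_lit 304) (nat_lit 0) (XT.nd (nat_lit 78) (nat_lit 228) (nat_lit 0) (XT.lf (nat_lit 0) (nat_lit 15019192313) (nat_lit 152) (nat_lit 1428135817) (nat_lit 0) (nat_lit 4250721910) (nat_lit 75) (nat_lit 5) (nat_lit 77) (nat_lit 4) (nat_lit 75) (nat_lit 4) (nat_lit 503) (nat_lit 372) (nat_lit 325)) (XT.nd (nat_lit 78) (nat_lit 76) (nat_lit 0) (XT.lf (nat_lit 0) (nat_lit 1854408145) (nat_lit 152) (nat_lit 7108157227) (nat_lit 76) (nat_lit 12117857297) (nat_lit 73) (nat_lit 5) (nat_lit 75) (nat_lit 5) (nat_lit 74) (nat_lit 4) (nat_lit 504) (nat_lit 372) (nat_lit 324)) (XT.lf (nat_lit 0) (nat_lit 8346450502) (nat_lit 76) (nat_lit 1170868982) (nat_lit 152) (nat_lit 11954726954) (nat_lit 72) (nat_lit 5) (nat_lit 73) (nat_lit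 5) (nat_lit 74) (nat_lit 4) (nat_lit 505) (nat_lit 372) (nat_lit 323)))) (XT.nd (nat_lit 156) (nat_lit 152) (nat_lit 0) (XT.nd (nat_lit 78) (nat_lit 76) (nat_lit 0) (XT.lf (nat_lit 0) (nat_lit 2366430661) (nat_lit 76) (nat_lit 15127922821) (nat_lit 76) (nat_lit 4378538729) (nat_lit 71) (nat_lit 4) (nat_lit 72) (nat_lit 5) (nat_lit 72) (nat_lit 4) (nat_lit 506) (nat_lit 372) (nat_lit 322)) (XT.lf (nat_lit 0) (nat_lit 3426713835) (nat_lit 152) (nat_lit 3885677923) (nat_lit 76) (nat_lit 14970325905) (nat_lit 70) (nat_lit 5) (nat_lit 72) (nat_lit 5) (nat_lit 71) (nat_lit 4) (nat_lit 507) (nat_lit 372) (nat_lit 321))) (XT.nd (nat_lit 78) (nat_lit 76) (nat_lit 0) (XT.lf (nat_lit 0) (nat_lit 11429309412) (nat_lit 152) (nat_lit 10456718161) (nat_lit 0) (nat_lit 815974378) (nat_lit 69) (nat_lit 5) (nat_lit 71) (nat_lit 4) (nat_lit 69) (nat_lit 4) (nat_lit 508) (nat_lit 372) (nat_lit 320)) (XT.lf (nat_lit 0) (nat_lit 5699500538)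 (nat_lit 76) (nat_lit 14064800797) (nat_lit 76) (nat_lit 3366794187) (nat_lit 68) (nat_lit 4) (nat_lit 69) (nat_lit 5) (nat_lit 69) (nat_lit 4) (nat_lit 509) (nat_lit 372) (nat_lit 319))))) (XT.nd (nat_lit 312) (nat_lit 228) (nat_lit 0) (XT.nd (nat_lit 156) (nat_lit 228) (nat_lit 0) (XT.nd (nat_lit 78) (nat_lit 76) (nat_lit 0) (XT.lf (nat_lit 0) (nat_lit 4715271010) (nat_lit 152) (nat_lit 1208211872) (nat_lit 76) (nat_lit 17647236166) (nat_lit 67) (nat_lit 5) (nat_lit 69) (nat_lit 5) (nat_lit 68) (nat_lit 4) (nat_lit 510) (nat_lit 372) (nat_lit 318)) (XT.lf (nat_lit 0) (nat_lit 13074929160) (nat_lit 152) (nat_lit 8413300950) (nat_lit 0) (nat_lit 2531217408) (nat_lit 66) (nat_lit 5) (nat_lit 68) (nat_lit 4) (nat_lit 66) (nat_lit 4) (nat_lit 511) (nat_lit 372) (nat_lit 317))) (XT.nd (nat_lit 78) (nat_lit 152) (nat_lit 0) (XT.lf (nat_lit 0) (nat_lit 8432251041) (nat_lit 76) (nat_lit 13332966605) (nat_lit 76) (nat_lit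 2714025254) (nat_lit 65) (nat_lit 4) (nat_lit 66) (nat_lit 5) (nat_lit 66) (nat_lit 4) (nat_lit 512) (nat_lit 372) (nat_lit 316)) (XT.lf (nat_lit 0) (nat_lit 823172536) (nat_lit 76) (nat_lit 4849316297) (nat_lit 152) (nat_lit 19278034420) (nat_lit 63) (nat_lit 5) (nat_lit 64) (nat_lit 5) (nat_lit 65) (nat_lit 4) (nat_lit 513) (nat_lit 372) (nat_lit 315)))) (XT.nd (nat_lit 156) (nat_lit 152) (nat_lit 0) (XT.nd (nat_lit 78) (nat_lit 76) (nat_lit 0) (XT.lf (nat_lit 0) (nat_lit 14385021575) (nat_lit 152) (nat_lit 7110632448) (nat_lit 0) (nat_lit 3935612926) (nat_lit 63) (nat_lit 5) (nat_lit 65) (nat_lit 4) (nat_lit 63) (nat_lit 4) (nat_lit 514) (nat_lit 372) (nat_lit 314)) (XT.lf (nat_lit 0) (nat_lit 10434238945) (nat_lit 76) (nat_lit 13003046389) (nat_lit 76) (nat_lit 2486797216) (nat_lit 62) (nat_lit 4) (nat_lit 63) (nat_lit 5) (nat_lit 63) (nat_lit 4) (nat_lit 515) (nat_lit 372) (nat_lit 313))) (XT.nd (nat_lit 78)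 (nat_lit 0) (nat_lit 0) (XT.lf (nat_lit 0) (nat_lit 2062396076) (nat_lit 76) (nat_lit 4165948239) (nat_lit 152) (nat_lit 20200840663) (nat_lit 60) (nat_lit 5) (nat_lit 61) (nat_lit 5) (nat_lit 62) (nat_lit 4) (nat_lit 516) (nat_lit 372) (nat_lit 312)) (XT.lf (nat_lit 0) (nat_lit 15290529524) (nat_lit 152) (nat_lit 6697698660) (nat_lit 0) (nat_lit 4956406718) (nat_lit 60) (nat_lit 5) (nat_lit 62) (nat_lit 4) (nat_lit 60) (nat_lit 4) (nat_lit 517) (nat_lit 372) (nat_lit 311)))))) (XT.nd (nat_lit 624) (nat_lit 532) (nat_lit 0) (XT.nd (nat_lit 312) (nat_lit 304) (nat_lit 0) (XT.nd (nat_lit 156) (nat_lit 76) (nat_lit 0) (XT.nd (nat_lit 78) (nat_lit 152) (nat_lit 0) (XT.lf (nat_lit 0) (nat_lit 11551592161) (nat_lit 76) (nat_lit 13157465898) (nat_lit 76) (nat_lit 2763956151) (nat_lit 59) (nat_lit 4) (nat_lit 60) (nat_lit 5) (nat_lit 60) (nat_lit 4) (nat_lit 518) (nat_lit 372) (nat_lit 310)) (XT.lf (nat_lit 0) (nat_lit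 2319508705) (nat_lit 76) (nat_lit 3971464533) (nat_lit 152) (nat_lit 21723743566) (nat_lit 57) (nat_lit 5) (nat_lit 58) (nat_lit 5) (nat_lit 59) (nat_lit 4) (nat_lit 519) (nat_lit 372) (nat_lit 309))) (XT.nd (nat_lit 78) (nat_lit 76) (nat_lit 0) (XT.lf (nat_lit 0) (nat_lit 15709429935) (nat_lit 152) (nat_lit 7349678372) (nat_lit 0) (nat_lit 5508318424) (nat_lit 57) (nat_lit 5) (nat_lit 59) (nat_lit 4) (nat_lit 57) (nat_lit 4) (nat_lit 520) (nat_lit 372) (nat_lit 308)) (XT.lf (nat_lit 0) (nat_lit 11603080722) (nat_lit 76) (nat_lit 13892479928) (nat_lit 76) (nat_lit 3638603891) (nat_lit 56) (nat_lit 4) (nat_lit 57) (nat_lit 5) (nat_lit 57) (nat_lit 4) (nat_lit 521) (nat_lit 372) (nat_lit 307)))) (XT.nd (nat_lit 156) (nat_lit 152) (nat_lit 0) (XT.nd (nat_lit 78) (nat_lit 0) (nat_lit 0) (XT.lf (nat_lit 0) (nat_lit 1399409833) (nat_lit 76) (nat_lit 4366360396) (nat_lit 152) (nat_lit 23949764364) (nat_lit 54) (nat_lit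 5) (nat_lit 55) (nat_lit 5) (nat_lit 56) (nat_lit 4) (nat_lit 522) (nat_lit 372) (nat_lit 306)) (XT.lf (nat_lit 0) (nat_lit 15544624251) (nat_lit 152) (nat_lit 9272294315) (nat_lit 0) (nat_lit 5491382153) (nat_lit 54) (nat_lit 5) (nat_lit 56) (nat_lit 4) (nat_lit 54) (nat_lit 4) (nat_lit 523) (nat_lit 372) (nat_lit 305))) (XT.nd (nat_lit 78) (nat_lit 76) (nat_lit 0) (XT.lf (nat_lit 0) (nat_lit 10375556716) (nat_lit 76) (nat_lit 15320519506) (nat_lit 76) (nat_lit 5220396810) (nat_lit 53) (nat_lit 4) (nat_lit 54) (nat_lit 5) (nat_lit 54) (nat_lit 4) (nat_lit 524) (nat_lit 372) (nat_lit 304)) (XT.lf (nat_lit 0) (nat_lit 4550090671) (nat_lit 152) (nat_lit 908953779) (nat_lit 76) (nat_lit 26081591504) (nat_lit 52) (nat_lit 5) (nat_lit 54) (nat_lit 5) (nat_lit 53) (nat_lit 4) (nat_lit 525) (nat_lit 372) (nat_lit 303))))) (XT.nd (nat_lit 312) (nat_lit 228) (nat_lit 0) (XT.nd (nat_lit 156) (nat_lit 152) (nat_lit 0) (XT.nd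 (nat_lit 78) (nat_lit 76) (nat_lit 0) (XT.lf (nat_lit 0) (nat_lit 14681482894) (nat_lit 152) (nat_lit 12706862286) (nat_lit 0) (nat_lit 4788446678) (nat_lit 51) (nat_lit 5) (nat_lit 53) (nat_lit 4) (nat_lit 51) (nat_lit 4) (nat_lit 526) (nat_lit 372) (nat_lit 302)) (XT.lf (nat_lit 0) (nat_lit 7618661518) (nat_lit 76) (nat_lit 17572908747) (nat_lit 76) (nat_lit 7638219727) (nat_lit 50) (nat_lit 4) (nat_lit 51) (nat_lit 5) (nat_lit 51) (nat_lit 4) (nat_lit 527) (nat_lit 372) (nat_lit 301))) (XT.nd (nat_lit 78) (nat_lit 76) (nat_lit 0) (XT.lf (nat_lit 0) (nat_lit 2533321374) (nat_lit 152) (nat_lit 4832486245) (nat_lit 76) (nat_lit 26133811210) (nat_lit 49) (nat_lit 5) (nat_lit 51) (nat_lit 5) (nat_lit 50) (nat_lit 4) (nat_lit 528) (nat_lit 372) (nat_lit 300)) (XT.lf (nat_lit 0) (nat_lit 12984988779) (nat_lit 152) (nat_lit 17936150440) (nat_lit 0) (nat_lit 3262279653) (nat_lit 48) (nat_lit 5) (nat_lit 50) (nat_lit 4)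 (nat_lit 48) (nat_lit 4) (nat_lit 529) (nat_lit 372) (nat_lit 299)))) (XT.nd (nat_lit 156) (nat_lit 152) (nat_lit 0) (XT.nd (nat_lit 78) (nat_lit 0) (nat_lit 0) (XT.lf (nat_lit 0) (nat_lit 3038682480) (nat_lit 76) (nat_lit 20803011521) (nat_lit 76) (nat_lit 11043294417) (nat_lit 47) (nat_lit 4) (nat_lit 48) (nat_lit 5) (nat_lit 48) (nat_lit 4) (nat_lit 530) (nat_lit 372) (nat_lit 298)) (XT.lf (nat_lit 0) (nat_lit 24892195325) (nat_lit 76) (nat_lit 10253701571) (nat_lit 76) (nat_lit 458054391) (nat_lit 47) (nat_lit 4) (nat_lit 48) (nat_lit 5) (nat_lit 48) (nat_lit 4) (nat_lit 531) (nat_lit 372) (nat_lit 297))) (XT.nd (nat_lit 78) (nat_lit 0) (nat_lit 0) (XT.lf (nat_lit 0) (nat_lit 10296416142) (nat_lit 152) (nat_lit 25291178818) (nat_lit 0) (nat_lit 752211533) (nat_lit 45) (nat_lit 5) (nat_lit 47) (nat_lit 4) (nat_lit 45) (nat_lit 4) (nat_lit 532) (nat_lit 372) (nat_lit 296)) (XT.lf (nat_lit 0) (nat_lit 21516949151)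 (nat_lit 152) (nat_lit 3636209790) (nat_lit 0) (nat_lit 11939863433) (nat_lit 45) (nat_lit 5) (nat_lit 47) (nat_lit 4) (nat_lit 45) (nat_lit 4) (nat_lit 533) (nat_lit 372) (nat_lit 295))))))) (XT.nd (nat_lit 1248) (nat_lit 304) (nat_lit 0) (XT.nd (nat_lit 624) (nat_lit 532) (nat_lit 0) (XT.nd (nat_lit 312) (nat_lit 228) (nat_lit 0) (XT.nd (nat_lit 156) (nat_lit 76) (nat_lit 0) (XT.nd (nat_lit 78) (nat_lit 152) (nat_lit 0) (XT.lf (nat_lit 0) (nat_lit 18925090592) (nat_lit 76) (nat_lit 14274494389) (nat_lit 76) (nat_lit 4665485264) (nat_lit 44) (nat_lit 4) (nat_lit 45) (nat_lit 5) (nat_lit 45) (nat_lit 4) (nat_lit 534) (nat_lit 372) (nat_lit 294)) (XT.lf (nat_lit 0) (nat_lit 3470130601) (nat_lit 76) (nat_lit 2988063154) (nat_lit 152) (nat_lit 32199769813) (nat_lit 42) (nat_lit 5) (nat_lit 43) (nat_lit 5) (nat_lit 44) (nat_lit 4) (nat_lit 535) (nat_lit 372) (nat_lit 293))) (XT.nd (nat_lit 78) (nat_lit 76) (nat_lit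 0) (XT.lf (nat_lit 0) (nat_lit 18041607171) (nat_lit 152) (nat_lit 12771890183) (nat_lit 0) (nat_lit 8653166787) (nat_lit 42) (nat_lit 5) (nat_lit 44) (nat_lit 4) (nat_lit 42) (nat_lit 4) (nat_lit 536) (nat_lit 372) (nat_lit 292)) (XT.lf (nat_lit 0) (nat_lit 10380112034) (nat_lit 76) (nat_lit 19667039432) (nat_lit 76) (nat_lit 10250235514) (nat_lit 41) (nat_lit 4) (nat_lit 42) (nat_lit 5) (nat_lit 42) (nat_lit 4) (nat_lit 537) (nat_lit 372) (nat_lit 291)))) (XT.nd (nat_lit 156) (nat_lit 76) (nat_lit 0) (XT.nd (nat_lit 78) (nat_lit 76) (nat_lit 0) (XT.lf (nat_lit 0) (nat_lit 1310774952) (nat_lit 152) (nat_lit 6783468174) (nat_lit 76) (nat_lit 33056159322) (nat_lit 40) (nat_lit 5) (nat_lit 42) (nat_lit 5) (nat_lit 41) (nat_lit 4) (nat_lit 538) (nat_lit 372) (nat_lit 290)) (XT.lf (nat_lit 0) (nat_lit 13163439424) (nat_lit 152) (nat_lit 24889779782) (nat_lit 0) (nat_lit 3968219348) (nat_lit 39) (nat_lit 5) (nat_lit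 41) (nat_lit 4) (nat_lit 39) (nat_lit 4) (nat_lit 539) (nat_lit 372) (nat_lit 289))) (XT.nd (nat_lit 78) (nat_lit 76) (nat_lit 0) (XT.lf (nat_lit 0) (nat_lit 25467907631) (nat_lit 152) (nat_lit 1200324565) (nat_lit 0) (nat_lit 16247486923) (nat_lit 39) (nat_lit 5) (nat_lit 41) (nat_lit 4) (nat_lit 39) (nat_lit 4) (nat_lit 540) (nat_lit 372) (nat_lit 288)) (XT.lf (nat_lit 0) (nat_lit 23556329201) (nat_lit 76) (nat_lit 14760069829) (nat_lit 76) (nat_lit 5515182488) (nat_lit 38) (nat_lit 4) (nat_lit 39) (nat_lit 5) (nat_lit 39) (nat_lit 4) (nat_lit 541) (nat_lit 372) (nat_lit 287))))) (XT.nd (nat_lit 312) (nat_lit 304) (nat_lit 0) (XT.nd (nat_lit 156) (nat_lit 76) (nat_lit 0) (XT.nd (nat_lit 78) (nat_lit 0) (nat_lit 0) (XT.lf (nat_lit 0) (nat_lit 4219654669) (nat_lit 76) (nat_lit 2424826130) (nat_lit 152) (nat_lit 38128447138) (nat_lit 36) (nat_lit 5) (nat_lit 37) (nat_lit 5) (nat_lit 38) (nat_lit 4) (nat_lit 542)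 (nat_lit 372) (nat_lit 286)) (XT.lf (nat_lit 0) (nat_lit 19312166859) (nat_lit 152) (nat_lit 16129991822) (nat_lit 0) (nat_lit 10291095498) (nat_lit 36) (nat_lit 5) (nat_lit 38) (nat_lit 4) (nat_lit 36) (nat_lit 4) (nat_lit 543) (nat_lit 372) (nat_lit 285))) (XT.nd (nat_lit 78) (nat_lit 0) (nat_lit 0) (XT.lf (nat_lit 0) (nat_lit 9078952829) (nat_lit 76) (nat_lit 23342204447) (nat_lit 76) (nat_lit 14299394799) (nat_lit 35) (nat_lit 4) (nat_lit 36) (nat_lit 5) (nat_lit 36) (nat_lit 4) (nat_lit 544) (nat_lit 372) (nat_lit 284)) (XT.lf (nat_lit 0) (nat_lit 35275606966) (nat_lit 76) (nat_lit 10761187740) (nat_lit 76) (nat_lit 1697272960) (nat_lit 35) (nat_lit 4) (nat_lit 36) (nat_lit 5) (nat_lit 36) (nat_lit 4) (nat_lit 545) (nat_lit 372) (nat_lit 283)))) (XT.nd (nat_lit 156) (nat_lit 152) (nat_lit 0) (XT.nd (nat_lit 78) (nat_lit 0) (nat_lit 0) (XT.lf (nat_lit 0) (nat_lit 11167360869) (nat_lit 152) (nat_lit 35256685626)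 (nat_lit 0) (nat_lit 2347549996) (nat_lit 33) (nat_lit 5) (nat_lit 35) (nat_lit 4) (nat_lit 33) (nat_lit 4) (nat_lit 546) (nat_lit 372) (nat_lit 282)) (XT.lf (nat_lit 0) (nat_lit 24568903830) (nat_lit 152) (nat_lit 9535512003) (nat_lit 0) (nat_lit 15729778771) (nat_lit 33) (nat_lit 5) (nat_lit 35) (nat_lit 4) (nat_lit 33) (nat_lit 4) (nat_lit 547) (nat_lit 372) (nat_lit 281))) (XT.nd (nat_lit 78) (nat_lit 76) (nat_lit 0) (XT.lf (nat_lit 0) (nat_lit 17198426176) (nat_lit 76) (nat_lit 21292287318) (nat_lit 76) (nat_lit 12434410622) (nat_lit 32) (nat_lit 4) (nat_lit 33) (nat_lit 5) (nat_lit 33) (nat_lit 4) (nat_lit 548) (nat_lit 372) (nat_lit 280)) (XT.lf (nat_lit 0) (nat_lit 816300957) (nat_lit 152) (nat_lit 7218991225) (nat_lit 76) (nat_lit 44011759472) (nat_lit 31) (nat_lit 5) (nat_lit 33) (nat_lit 5) (nat_lit 32) (nat_lit 4) (nat_lit 549) (nat_lit 372) (nat_lit 279)))))) (XT.nd (nat_lit 55224) (nat_lit 0) (nat_lit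 8968) (XT.nd (nat_lit 312) (nat_lit 76) (nat_lit 0) (XT.nd (nat_lit 156) (nat_lit 152) (nat_lit 0) (XT.nd (nat_lit 78) (nat_lit 0) (nat_lit 0) (XT.lf (nat_lit 0) (nat_lit 14420413270) (nat_lit 152) (nat_lit 32986659098) (nat_lit 0) (nat_lit 5785697362) (nat_lit 30) (nat_lit 5) (nat_lit 32) (nat_lit 4) (nat_lit 30) (nat_lit 4) (nat_lit 550) (nat_lit 372) (nat_lit 278)) (XT.lf (nat_lit 0) (nat_lit 28540127209) (nat_lit 152) (nat_lit 5940757140) (nat_lit 0) (nat_lit 19888750714) (nat_lit 30) (nat_lit 5) (nat_lit 32) (nat_lit 4) (nat_lit 30) (nat_lit 4) (nat_lit 551) (nat_lit 372) (nat_lit 277))) (XT.nd (nat_lit 78) (nat_lit 76) (nat_lit 0) (XT.lf (nat_lit 0) (nat_lit 22261849777) (nat_lit 76) (nat_lit 20991209823) (nat_lit 76) (nat_lit 12323658002) (nat_lit 29) (nat_lit 4) (nat_lit 30) (nat_lit 5) (nat_lit 30) (nat_lit 4) (nat_lit 552) (nat_lit 372) (nat_lit 276)) (XT.lf (nat_lit 0) (nat_lit 1572617978) (nat_lit 152)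 (nat_lit 5490841525) (nat_lit 76) (nat_lit 49755608633) (nat_lit 28) (nat_lit 5) (nat_lit 30) (nat_lit 5) (nat_lit 29) (nat_lit 4) (nat_lit 553) (nat_lit 372) (nat_lit 275)))) (XT.nd (nat_lit 54756) (nat_lit 0) (nat_lit 10944) (XT.nd (nat_lit 54678) (nat_lit 0) (nat_lit 11324) (XT.lf (nat_lit 0) (nat_lit 15893134390) (nat_lit 152) (nat_lit 34746256970) (nat_lit 0) (nat_lit 7447986022) (nat_lit 27) (nat_lit 5) (nat_lit 29) (nat_lit 4) (nat_lit 27) (nat_lit 4) (nat_lit 554) (nat_lit 372) (nat_lit 274)) (XT.lf (nat_lit 0) (nat_lit 225579063) (nat_lit 304) (nat_lit 4339576723) (nat_lit 0) (nat_lit 225579063) (nat_lit 176) (nat_lit 5) (nat_lit 180) (nat_lit 4) (nat_lit 176) (nat_lit 4) (nat_lit 454) (nat_lit 373) (nat_lit 373))) (XT.nd (nat_lit 78) (nat_lit 380) (nat_lit 0) (XT.lf (nat_lit 0) (nat_lit 5219987609) (nat_lit 304) (nat_lit 39315413) (nat_lit 0) (nat_lit 4442793505) (nat_lit 176) (nat_lit 5) (nat_lit 180)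 (nat_lit 4) (nat_lit 176) (nat_lit 4) (nat_lit 455) (nat_lit 373) (nat_lit 372)) (XT.lf (nat_lit 0) (nat_lit 277178439) (nat_lit 380) (nat_lit 969079252) (nat_lit 76) (nat_lit 8580671018) (nat_lit 171) (nat_lit 5) (nat_lit 176) (nat_lit 5) (nat_lit 172) (nat_lit 4) (nat_lit 456) (nat_lit 373) (nat_lit 371))))) (XT.nd (nat_lit 312) (nat_lit 988) (nat_lit 0) (XT.nd (nat_lit 156) (nat_lit 532) (nat_lit 0) (XT.nd (nat_lit 78) (nat_lit 228) (nat_lit 0) (XT.lf (nat_lit 0) (nat_lit 5087941757) (nat_lit 304) (nat_lit 1976710201) (nat_lit 0) (nat_lit 2889561690) (nat_lit 168) (nat_lit 5) (nat_lit 172) (nat_lit 4) (nat_lit 168) (nat_lit 4) (nat_lit 457) (nat_lit 373) (nat_lit 370)) (XT.lf (nat_lit 0) (nat_lit 7079776489) (nat_lit 228) (nat_lit 2947461912) (nat_lit 228) (nat_lit 58554950) (nat_lit 165) (nat_lit 4) (nat_lit 168) (nat_lit 5) (nat_lit 168) (nat_lit 4) (nat_lit 458) (nat_lit 373) (nat_lit 369))) (XT.nd (nat_lit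 78) (nat_lit 228) (nat_lit 0) (XT.lf (nat_lit 0) (nat_lit 4784316316) (nat_lit 304) (nat_lit 4107338600) (nat_lit 0) (nat_lit 1328664449) (nat_lit 161) (nat_lit 5) (nat_lit 165) (nat_lit 4) (nat_lit 161) (nat_lit 4) (nat_lit 459) (nat_lit 373) (nat_lit 368)) (XT.lf (nat_lit 0) (nat_lit 5104291139) (nat_lit 228) (nat_lit 4671018183) (nat_lit 228) (nat_lit 583436388) (nat_lit 158) (nat_lit 4) (nat_lit 161) (nat_lit 5) (nat_lit 161) (nat_lit 4) (nat_lit 460) (nat_lit 373) (nat_lit 367)))) (XT.nd (nat_lit 156) (nat_lit 456) (nat_lit 0) (XT.nd (nat_lit 78) (nat_lit 228) (nat_lit 0) (XT.lf (nat_lit 0) (nat_lit 4037505142) (nat_lit 228) (nat_lit 267229409) (nat_lit 304) (nat_lit 6196034146) (nat_lit 154) (nat_lit 5) (nat_lit 157) (nat_lit 5) (nat_lit 158) (nat_lit 4) (nat_lit 461) (nat_lit 373) (nat_lit 366)) (XT.lf (nat_lit 0) (nat_lit 2904283003) (nat_lit 228) (nat_lit 6442261285) (nat_lit 228) (nat_lit 1299775302) (nat_lit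 151) (nat_lit 4) (nat_lit 154) (nat_lit 5) (nat_lit 154) (nat_lit 4) (nat_lit 462) (nat_lit 373) (nat_lit 365))) (XT.nd (nat_lit 78) (nat_lit 228) (nat_lit 0) (XT.lf (nat_lit 0) (nat_lit 1709276254) (nat_lit 152) (nat_lit 1942558126) (nat_lit 228) (nat_lit 7143879830) (nat_lit 148) (nat_lit 5) (nat_lit 150) (nat_lit 5) (nat_lit 151) (nat_lit 4) (nat_lit 463) (nat_lit 373) (nat_lit 364)) (XT.lf (nat_lit 0) (nat_lit 448294104) (nat_lit 228) (nat_lit 8283883825) (nat_lit 228) (nat_lit 2216839313) (nat_lit 145) (nat_lit 4) (nat_lit 148) (nat_lit 5) (nat_lit 148) (nat_lit 4) (nat_lit 464) (nat_lit 373) (nat_lit 363))))))))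
noncomputable def xc40 : XT := (XT.nd (nat_lit 2418) (nat_lit 2660) (nat_lit 0) (XT.nd (nat_lit 1170) (nat_lit 1976) (nat_lit 0) (XT.nd (nat_lit 546) (nat_lit 1216) (nat_lit 0) (XT.nd (nat_lit 234) (nat_lit 760) (nat_lit 0) (XT.nd (nat_lit 78) (nat_lit 456) (nat_lit 0) (XT.lf (nat_lit 0) (nat_lit 2811615768) (nat_lit 304) (nat_lit 873281362) (nat_lit 76) (nat_lit 7420918672) (nat_lit 144) (nat_lit 5) (nat_lit 148) (nat_lit 5) (nat_lit 145) (nat_lit 4) (nat_lit 465) (nat_lit 373) (nat_lit 362)) (XT.nd (nat_lit 78) (nat_lit 304) (nat_lit 0) (XT.lf (nat_lit 0) (nat_lit 7944085123) (nat_lit 228) (nat_lit 2252067342) (nat_lit 0) (nat_lit 1070577654) (nat_lit 142) (nat_lit 5) (nat_lit 145) (nat_lit 4) (nat_lit 142) (nat_lit 4) (nat_lit 466) (nat_lit 373) (nat_lit 361)) (XT.lf (nat_lit 0) (nat_lit 1783877106) (nat_lit 304) (nat_lit 3722452157) (nat_lit 76) (nat_lit 5924998545) (nat_lit 138) (nat_lit 5) (nat_lit 142) (nat_lit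 5) (nat_lit 139) (nat_lit 4) (nat_lit 467) (nat_lit 373) (nat_lit 360)))) (XT.nd (nat_lit 156) (nat_lit 304) (nat_lit 0) (XT.nd (nat_lit 78) (nat_lit 304) (nat_lit 0) (XT.lf (nat_lit 0) (nat_lit 6332544092) (nat_lit 152) (nat_lit 629419652) (nat_lit 228) (nat_lit 4638359862) (nat_lit 136) (nat_lit 5) (nat_lit 138) (nat_lit 5) (nat_lit 139) (nat_lit 4) (nat_lit 468) (nat_lit 373) (nat_lit 359)) (XT.lf (nat_lit 0) (nat_lit 539986405) (nat_lit 304) (nat_lit 6907191912) (nat_lit 76) (nat_lit 4326187763) (nat_lit 132) (nat_lit 5) (nat_lit 136) (nat_lit 5) (nat_lit 133) (nat_lit 4) (nat_lit 469) (nat_lit 373) (nat_lit 358))) (XT.nd (nat_lit 78) (nat_lit 152) (nat_lit 0) (XT.lf (nat_lit 0) (nat_lit 3300532502) (nat_lit 152) (nat_lit 2473692594) (nat_lit 228) (nat_lit 6176185437) (nat_lit 130) (nat_lit 5) (nat_lit 132) (nat_lit 5) (nat_lit 133) (nat_lit 4) (nat_lit 470) (nat_lit 373) (nat_lit 357)) (XT.lf (nat_lit 0) (nat_lit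 1657800652) (nat_lit 152) (nat_lit 9522100517) (nat_lit 152) (nat_lit 952434285) (nat_lit 128) (nat_lit 4) (nat_lit 130) (nat_lit 5) (nat_lit 130) (nat_lit 4) (nat_lit 471) (nat_lit 373) (nat_lit 356))))) (XT.nd (nat_lit 312) (nat_lit 608) (nat_lit 0) (XT.nd (nat_lit 156) (nat_lit 380) (nat_lit 0) (XT.nd (nat_lit 78) (nat_lit 152) (nat_lit 0) (XT.lf (nat_lit 0) (nat_lit 4357126336) (nat_lit 228) (nat_lit 107027768) (nat_lit 76) (nat_lit 7853823321) (nat_lit 127) (nat_lit 5) (nat_lit 130) (nat_lit 5) (nat_lit 128) (nat_lit 4) (nat_lit 472) (nat_lit 373) (nat_lit 355)) (XT.lf (nat_lit 0) (nat_lit 9821906871) (nat_lit 228) (nat_lit 1916278391) (nat_lit 0) (nat_lit 770269528) (nat_lit 125) (nat_lit 5) (nat_lit 128) (nat_lit 4) (nat_lit 125) (nat_lit 4) (nat_lit 473) (nat_lit 373) (nat_lit 354))) (XT.nd (nat_lit 78) (nat_lit 152) (nat_lit 0) (XT.lf (nat_lit 0) (nat_lit 2729370132) (nat_lit 228) (nat_lit 3860900253) (nat_lit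 76) (nat_lit 6112476360) (nat_lit 122) (nat_lit 5) (nat_lit 125) (nat_lit 5) (nat_lit 123) (nat_lit 4) (nat_lit 474) (nat_lit 373) (nat_lit 353)) (XT.lf (nat_lit 0) (nat_lit 6999913754) (nat_lit 152) (nat_lit 1246947749) (nat_lit 228) (nat_lit 4655416398) (nat_lit 120) (nat_lit 5) (nat_lit 122) (nat_lit 5) (nat_lit 123) (nat_lit 4) (nat_lit 475) (nat_lit 373) (nat_lit 352)))) (XT.nd (nat_lit 156) (nat_lit 228) (nat_lit 0) (XT.nd (nat_lit 78) (nat_lit 152) (nat_lit 0) (XT.lf (nat_lit 0) (nat_lit 841844569) (nat_lit 228) (nat_lit 8068739590) (nat_lit 76) (nat_lit 4195900789) (nat_lit 117) (nat_lit 5) (nat_lit 120) (nat_lit 5) (nat_lit 118) (nat_lit 4) (nat_lit 476) (nat_lit 373) (nat_lit 351)) (XT.lf (nat_lit 0) (nat_lit 2940184536) (nat_lit 152) (nat_lit 3477912140) (nat_lit 228) (nat_lit 6897110562) (nat_lit 115) (nat_lit 5) (nat_lit 117) (nat_lit 5) (nat_lit 118) (nat_lit 4) (nat_lit 477) (nat_lit 373) (nat_lit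 350))) (XT.nd (nat_lit 78) (nat_lit 76) (nat_lit 0) (XT.lf (nat_lit 0) (nat_lit 739762374) (nat_lit 152) (nat_lit 11438827142) (nat_lit 152) (nat_lit 1351094160) (nat_lit 113) (nat_lit 4) (nat_lit 115) (nat_lit 5) (nat_lit 115) (nat_lit 4) (nat_lit 478) (nat_lit 373) (nat_lit 349)) (XT.lf (nat_lit 0) (nat_lit 4323807916) (nat_lit 228) (nat_lit 1594890849) (nat_lit 76) (nat_lit 7829210651) (nat_lit 112) (nat_lit 5) (nat_lit 115) (nat_lit 5) (nat_lit 113) (nat_lit 4) (nat_lit 479) (nat_lit 373) (nat_lit 348)))))) (XT.nd (nat_lit 624) (nat_lit 912) (nat_lit 0) (XT.nd (nat_lit 312) (nat_lit 456) (nat_lit 0) (XT.nd (nat_lit 156) (nat_lit 228) (nat_lit 0) (XT.nd (nat_lit 78) (nat_lit 228) (nat_lit 0) (XT.lf (nat_lit 0) (nat_lit 9951053785) (nat_lit 152) (nat_lit 196471626) (nat_lit 228) (nat_lit 3824584466) (nat_lit 110) (nat_lit 5) (nat_lit 112) (nat_lit 5) (nat_lit 113) (nat_lit 4) (nat_lit 480) (nat_lit 373) (nat_lit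 347)) (XT.lf (nat_lit 0) (nat_lit 1960026180) (nat_lit 228) (nat_lit 6619768181) (nat_lit 76) (nat_lit 5621031978) (nat_lit 107) (nat_lit 5) (nat_lit 110) (nat_lit 5) (nat_lit 108) (nat_lit 4) (nat_lit 481) (nat_lit 373) (nat_lit 346))) (XT.nd (nat_lit 78) (nat_lit 152) (nat_lit 0) (XT.lf (nat_lit 0) (nat_lit 5071003056) (nat_lit 76) (nat_lit 2772537944) (nat_lit 152) (nat_lit 6591661092) (nat_lit 106) (nat_lit 5) (nat_lit 107) (nat_lit 5) (nat_lit 108) (nat_lit 4) (nat_lit 482) (nat_lit 373) (nat_lit 345)) (XT.lf (nat_lit 0) (nat_lit 2422857122) (nat_lit 152) (nat_lit 11513179101) (nat_lit 152) (nat_lit 739599519) (nat_lit 104) (nat_lit 4) (nat_lit 106) (nat_lit 5) (nat_lit 106) (nat_lit 4) (nat_lit 483) (nat_lit 373) (nat_lit 344)))) (XT.nd (nat_lit 156) (nat_lit 304) (nat_lit 0) (XT.nd (nat_lit 78) (nat_lit 76) (nat_lit 0) (XT.lf (nat_lit 0) (nat_lit 5218751491) (nat_lit 228) (nat_lit 410828782) (nat_lit 76)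 (nat_lit 9291160522) (nat_lit 103) (nat_lit 5) (nat_lit 106) (nat_lit 5) (nat_lit 104) (nat_lit 4) (nat_lit 484) (nat_lit 373) (nat_lit 343)) (XT.lf (nat_lit 0) (nat_lit 11373058833) (nat_lit 152) (nat_lit 3328300039) (nat_lit 0) (nat_lit 470659111) (nat_lit 102) (nat_lit 5) (nat_lit 104) (nat_lit 4) (nat_lit 102) (nat_lit 4) (nat_lit 485) (nat_lit 373) (nat_lit 342))) (XT.nd (nat_lit 78) (nat_lit 76) (nat_lit 0) (XT.lf (nat_lit 0) (nat_lit 2297520664) (nat_lit 228) (nat_lit 6450118516) (nat_lit 76) (nat_lit 6680711050) (nat_lit 99) (nat_lit 5) (nat_lit 102) (nat_lit 5) (nat_lit 100) (nat_lit 4) (nat_lit 486) (nat_lit 373) (nat_lit 341)) (XT.lf (nat_lit 0) (nat_lit 5946741272) (nat_lit 76) (nat_lit 2558848322) (nat_lit 152) (nat_lit 7185503678) (nat_lit 98) (nat_lit 5) (nat_lit 99) (nat_lit 5) (nat_lit 100) (nat_lit 4) (nat_lit 487) (nat_lit 373) (nat_lit 340))))) (XT.nd (nat_lit 312) (nat_lit 380) (nat_lit 0) (XT.nd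 (nat_lit 156) (nat_lit 304) (nat_lit 0) (XT.nd (nat_lit 78) (nat_lit 76) (nat_lit 0) (XT.lf (nat_lit 0) (nat_lit 2741726674) (nat_lit 152) (nat_lit 12201166825) (nat_lit 152) (nat_lit 1017536028) (nat_lit 96) (nat_lit 4) (nat_lit 98) (nat_lit 5) (nat_lit 98) (nat_lit 4) (nat_lit 488) (nat_lit 373) (nat_lit 339)) (XT.lf (nat_lit 0) (nat_lit 5270358726) (nat_lit 228) (nat_lit 672882623) (nat_lit 76) (nat_lit 10291896485) (nat_lit 95) (nat_lit 5) (nat_lit 98) (nat_lit 5) (nat_lit 96) (nat_lit 4) (nat_lit 489) (nat_lit 373) (nat_lit 338))) (XT.nd (nat_lit 78) (nat_lit 228) (nat_lit 0) (XT.lf (nat_lit 0) (nat_lit 11767059861) (nat_lit 152) (nat_lit 4200226888) (nat_lit 0) (nat_lit 549280424) (nat_lit 94) (nat_lit 5) (nat_lit 96) (nat_lit 4) (nat_lit 94) (nat_lit 4) (nat_lit 490) (nat_lit 373) (nat_lit 337)) (XT.lf (nat_lit 0) (nat_lit 1688515912) (nat_lit 228) (nat_lit 7962212015) (nat_lit 76) (nat_lit 7153179588) (nat_lit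 91) (nat_lit 5) (nat_lit 94) (nat_lit 5) (nat_lit 92) (nat_lit 4) (nat_lit 491) (nat_lit 373) (nat_lit 336)))) (XT.nd (nat_lit 156) (nat_lit 152) (nat_lit 0) (XT.nd (nat_lit 78) (nat_lit 152) (nat_lit 0) (XT.lf (nat_lit 0) (nat_lit 5157468747) (nat_lit 76) (nat_lit 3076262654) (nat_lit 152) (nat_lit 8864441158) (nat_lit 90) (nat_lit 5) (nat_lit 91) (nat_lit 5) (nat_lit 92) (nat_lit 4) (nat_lit 492) (nat_lit 373) (nat_lit 335)) (XT.lf (nat_lit 0) (nat_lit 1265172096) (nat_lit 152) (nat_lit 13756308483) (nat_lit 152) (nat_lit 2378400236) (nat_lit 88) (nat_lit 4) (nat_lit 90) (nat_lit 5) (nat_lit 90) (nat_lit 4) (nat_lit 493) (nat_lit 373) (nat_lit 334))) (XT.nd (nat_lit 78) (nat_lit 76) (nat_lit 0) (XT.lf (nat_lit 0) (nat_lit 4287885325) (nat_lit 228) (nat_lit 2826427321) (nat_lit 76) (nat_lit 10592999092) (nat_lit 87) (nat_lit 5) (nat_lit 90) (nat_lit 5) (nat_lit 88) (nat_lit 4) (nat_lit 494) (nat_lit 373) (nat_lit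 333)) (XT.lf (nat_lit 0) (nat_lit 10916799631) (nat_lit 76) (nat_lit 214287207) (nat_lit 152) (nat_lit 6891430895) (nat_lit 86) (nat_lit 5) (nat_lit 87) (nat_lit 5) (nat_lit 88) (nat_lit 4) (nat_lit 495) (nat_lit 373) (nat_lit 332))))))) (XT.nd (nat_lit 1170) (nat_lit 1216) (nat_lit 0) (XT.nd (nat_lit 546) (nat_lit 684) (nat_lit 0) (XT.nd (nat_lit 234) (nat_lit 456) (nat_lit 0) (XT.nd (nat_lit 78) (nat_lit 152) (nat_lit 0) (XT.lf (nat_lit 0) (nat_lit 6694072092) (nat_lit 152) (nat_lit 11564904230) (nat_lit 152) (nat_lit 85822343) (nat_lit 84) (nat_lit 4) (nat_lit 86) (nat_lit 5) (nat_lit 86) (nat_lit 4) (nat_lit 496) (nat_lit 373) (nat_lit 331)) (XT.nd (nat_lit 78) (nat_lit 0) (nat_lit 0) (XT.lf (nat_lit 0) (nat_lit 2198395393) (nat_lit 76) (nat_lit 4606210667) (nat_lit 152) (nat_lit 11869672844) (nat_lit 82) (nat_lit 5) (nat_lit 83) (nat_lit 5) (nat_lit 84) (nat_lit 4) (nat_lit 497) (nat_lit 373) (nat_lit 330))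 (XT.lf (nat_lit 0) (nat_lit 13963658377) (nat_lit 152) (nat_lit 2489121301) (nat_lit 0) (nat_lit 2558929768) (nat_lit 82) (nat_lit 5) (nat_lit 84) (nat_lit 4) (nat_lit 82) (nat_lit 4) (nat_lit 498) (nat_lit 373) (nat_lit 329)))) (XT.nd (nat_lit 156) (nat_lit 152) (nat_lit 0) (XT.nd (nat_lit 78) (nat_lit 76) (nat_lit 0) (XT.lf (nat_lit 0) (nat_lit 2023491675) (nat_lit 228) (nat_lit 7421383570) (nat_lit 76) (nat_lit 9911301391) (nat_lit 79) (nat_lit 5) (nat_lit 82) (nat_lit 5) (nat_lit 80) (nat_lit 4) (nat_lit 499) (nat_lit 373) (nat_lit 328)) (XT.lf (nat_lit 0) (nat_lit 7070186754) (nat_lit 76) (nat_lit 2151478195) (nat_lit 152) (nat_lit 10487335550) (nat_lit 78) (nat_lit 5) (nat_lit 79) (nat_lit 5) (nat_lit 80) (nat_lit 4) (nat_lit 500) (nat_lit 373) (nat_lit 327))) (XT.nd (nat_lit 78) (nat_lit 76) (nat_lit 0) (XT.lf (nat_lit 0) (nat_lit 1913629915) (nat_lit 76) (nat_lit 14790499722) (nat_lit 76) (nat_lit 3366229472)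 (nat_lit 77) (nat_lit 4) (nat_lit 78) (nat_lit 5) (nat_lit 78) (nat_lit 4) (nat_lit 501) (nat_lit 373) (nat_lit 326)) (XT.lf (nat_lit 0) (nat_lit 3964066009) (nat_lit 152) (nat_lit 3487693454) (nat_lit 76) (nat_lit 12987465090) (nat_lit 76) (nat_lit 5) (nat_lit 78) (nat_lit 5) (nat_lit 77) (nat_lit 4) (nat_lit 502) (nat_lit 373) (nat_lit 325))))) (XT.nd (nat_lit 312) (nat_lit 380) (nat_lit 0) (XT.nd (nat_lit 156) (nat_lit 152) (nat_lit 0) (XT.nd (nat_lit 78) (nat_lit 76) (nat_lit 0) (XT.lf (nat_lit 0) (nat_lit 11485636865) (nat_lit 152) (nat_lit 9148631302) (nat_lit 0) (nat_lit 182717572) (nat_lit 75) (nat_lit 5) (nat_lit 77) (nat_lit 4) (nat_lit 75) (nat_lit 4) (nat_lit 503) (nat_lit 373) (nat_lit 324)) (XT.lf (nat_lit 0) (nat_lit 6043622638) (nat_lit 76) (nat_lit 13281850268) (nat_lit 76) (nat_lit 1877828685) (nat_lit 74) (nat_lit 4) (nat_lit 75) (nat_lit 5) (nat_lit 75) (nat_lit 4) (nat_lit 504) (nat_lit 373)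 (nat_lit 323))) (XT.nd (nat_lit 78) (nat_lit 0) (nat_lit 0) (XT.lf (nat_lit 0) (nat_lit 79847670) (nat_lit 76) (nat_lit 5625584258) (nat_lit 152) (nat_lit 15893523947) (nat_lit 72) (nat_lit 5) (nat_lit 73) (nat_lit 5) (nat_lit 74) (nat_lit 4) (nat_lit 505) (nat_lit 373) (nat_lit 322)) (XT.lf (nat_lit 0) (nat_lit 13580122406) (nat_lit 152) (nat_lit 6102314446) (nat_lit 0) (nat_lit 2320435269) (nat_lit 72) (nat_lit 5) (nat_lit 74) (nat_lit 4) (nat_lit 72) (nat_lit 4) (nat_lit 506) (nat_lit 373) (nat_lit 321)))) (XT.nd (nat_lit 156) (nat_lit 152) (nat_lit 0) (XT.nd (nat_lit 78) (nat_lit 152) (nat_lit 0) (XT.lf (nat_lit 0) (nat_lit 9770277671) (nat_lit 76) (nat_lit 11997914779) (nat_lit 76) (nat_lit 648399566) (nat_lit 71) (nat_lit 4) (nat_lit 72) (nat_lit 5) (nat_lit 72) (nat_lit 4) (nat_lit 507) (nat_lit 373) (nat_lit 320)) (XT.lf (nat_lit 0) (nat_lit 3253691518) (nat_lit 76) (nat_lit 3982967818) (nat_lit 152) (nat_lit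 15603309784) (nat_lit 69) (nat_lit 5) (nat_lit 70) (nat_lit 5) (nat_lit 71) (nat_lit 4) (nat_lit 508) (nat_lit 373) (nat_lit 319))) (XT.nd (nat_lit 78) (nat_lit 152) (nat_lit 0) (XT.lf (nat_lit 0) (nat_lit 15442949376) (nat_lit 152) (nat_lit 3572848944) (nat_lit 0) (nat_lit 4257125578) (nat_lit 69) (nat_lit 5) (nat_lit 71) (nat_lit 4) (nat_lit 69) (nat_lit 4) (nat_lit 509) (nat_lit 373) (nat_lit 318)) (XT.lf (nat_lit 0) (nat_lit 268204145) (nat_lit 152) (nat_lit 10721180464) (nat_lit 76) (nat_lit 12726579416) (nat_lit 67) (nat_lit 5) (nat_lit 69) (nat_lit 5) (nat_lit 68) (nat_lit 4) (nat_lit 510) (nat_lit 373) (nat_lit 317)))))) (XT.nd (nat_lit 624) (nat_lit 684) (nat_lit 0) (XT.nd (nat_lit 312) (nat_lit 228) (nat_lit 0) (XT.nd (nat_lit 156) (nat_lit 228) (nat_lit 0) (XT.nd (nat_lit 78) (nat_lit 0) (nat_lit 0) (XT.lf (nat_lit 0) (nat_lit 5860213879) (nat_lit 76) (nat_lit 2614335502) (nat_lit 152) (nat_lit 15694742637)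 (nat_lit 66) (nat_lit 5) (nat_lit 67) (nat_lit 5) (nat_lit 68) (nat_lit 4) (nat_lit 511) (nat_lit 373) (nat_lit 316)) (XT.lf (nat_lit 0) (nat_lit 17024127873) (nat_lit 152) (nat_lit 1670830723) (nat_lit 0) (nat_lit 5938350237) (nat_lit 66) (nat_lit 5) (nat_lit 68) (nat_lit 4) (nat_lit 66) (nat_lit 4) (nat_lit 512) (nat_lit 373) (nat_lit 315))) (XT.nd (nat_lit 78) (nat_lit 76) (nat_lit 0) (XT.lf (nat_lit 0) (nat_lit 813897018) (nat_lit 152) (nat_lit 9504477799) (nat_lit 76) (nat_lit 14789394896) (nat_lit 64) (nat_lit 5) (nat_lit 66) (nat_lit 5) (nat_lit 65) (nat_lit 4) (nat_lit 513) (nat_lit 373) (nat_lit 314)) (XT.lf (nat_lit 0) (nat_lit 7776321440) (nat_lit 76) (nat_lit 1584198720) (nat_lit 152) (nat_lit 16232970657) (nat_lit 63) (nat_lit 5) (nat_lit 64) (nat_lit 5) (nat_lit 65) (nat_lit 4) (nat_lit 514) (nat_lit 373) (nat_lit 313)))) (XT.nd (nat_lit 156) (nat_lit 76) (nat_lit 0) (XT.nd (nat_lit 78) (nat_lit 152)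 (nat_lit 0) (XT.lf (nat_lit 0) (nat_lit 18263796890) (nat_lit 152) (nat_lit 526653252) (nat_lit 0) (nat_lit 7300326005) (nat_lit 63) (nat_lit 5) (nat_lit 65) (nat_lit 4) (nat_lit 63) (nat_lit 4) (nat_lit 515) (nat_lit 373) (nat_lit 312)) (XT.lf (nat_lit 0) (nat_lit 933889205) (nat_lit 152) (nat_lit 9130679401) (nat_lit 76) (nat_lit 16534604450) (nat_lit 61) (nat_lit 5) (nat_lit 63) (nat_lit 5) (nat_lit 62) (nat_lit 4) (nat_lit 516) (nat_lit 373) (nat_lit 311))) (XT.nd (nat_lit 78) (nat_lit 0) (nat_lit 0) (XT.lf (nat_lit 0) (nat_lit 8856846523) (nat_lit 76) (nat_lit 968025181) (nat_lit 152) (nat_lit 17294887465) (nat_lit 60) (nat_lit 5) (nat_lit 61) (nat_lit 5) (nat_lit 62) (nat_lit 4) (nat_lit 517) (nat_lit 373) (nat_lit 310)) (XT.lf (nat_lit 0) (nat_lit 19090622906) (nat_lit 152) (nat_lit 293835289) (nat_lit 0) (nat_lit 8268263705) (nat_lit 60) (nat_lit 5) (nat_lit 62) (nat_lit 4) (nat_lit 60) (nat_lit 4) (nat_lit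 518) (nat_lit 373) (nat_lit 309))))) (XT.nd (nat_lit 312) (nat_lit 380) (nat_lit 0) (XT.nd (nat_lit 156) (nat_lit 76) (nat_lit 0) (XT.nd (nat_lit 78) (nat_lit 76) (nat_lit 0) (XT.lf (nat_lit 0) (nat_lit 548352664) (nat_lit 152) (nat_lit 9765181178) (nat_lit 76) (nat_lit 17884291420) (nat_lit 58) (nat_lit 5) (nat_lit 60) (nat_lit 5) (nat_lit 59) (nat_lit 4) (nat_lit 519) (nat_lit 373) (nat_lit 308)) (XT.lf (nat_lit 0) (nat_lit 8930841816) (nat_lit 76) (nat_lit 854146541) (nat_lit 152) (nat_lit 18971001558) (nat_lit 57) (nat_lit 5) (nat_lit 58) (nat_lit 5) (nat_lit 59) (nat_lit 4) (nat_lit 520) (nat_lit 373) (nat_lit 307))) (XT.nd (nat_lit 78) (nat_lit 76) (nat_lit 0) (XT.lf (nat_lit 0) (nat_lit 19419933002) (nat_lit 152) (nat_lit 1152881937) (nat_lit 0) (nat_lit 8754448460) (nat_lit 57) (nat_lit 5) (nat_lit 59) (nat_lit 4) (nat_lit 57) (nat_lit 4) (nat_lit 521) (nat_lit 373) (nat_lit 306)) (XT.lf (nat_lit 0) (nat_lit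 18305545354) (nat_lit 76) (nat_lit 11160838179) (nat_lit 76) (nat_lit 445618010) (nat_lit 56) (nat_lit 4) (nat_lit 57) (nat_lit 5) (nat_lit 57) (nat_lit 4) (nat_lit 522) (nat_lit 373) (nat_lit 305)))) (XT.nd (nat_lit 156) (nat_lit 228) (nat_lit 0) (XT.nd (nat_lit 78) (nat_lit 0) (nat_lit 0) (XT.lf (nat_lit 0) (nat_lit 7797280456) (nat_lit 76) (nat_lit 1345964687) (nat_lit 152) (nat_lit 21367611713) (nat_lit 54) (nat_lit 5) (nat_lit 55) (nat_lit 5) (nat_lit 56) (nat_lit 4) (nat_lit 523) (nat_lit 373) (nat_lit 304)) (XT.lf (nat_lit 0) (nat_lit 19151540515) (nat_lit 152) (nat_lit 3315765040) (nat_lit 0) (nat_lit 8656018394) (nat_lit 54) (nat_lit 5) (nat_lit 56) (nat_lit 4) (nat_lit 54) (nat_lit 4) (nat_lit 524) (nat_lit 373) (nat_lit 303))) (XT.nd (nat_lit 78) (nat_lit 152) (nat_lit 0) (XT.lf (nat_lit 0) (nat_lit 16860397031) (nat_lit 76) (nat_lit 12715010049) (nat_lit 76) (nat_lit 2175298467) (nat_lit 53) (nat_lit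 4) (nat_lit 54) (nat_lit 5) (nat_lit 54) (nat_lit 4) (nat_lit 525) (nat_lit 373) (nat_lit 302)) (XT.lf (nat_lit 0) (nat_lit 5220065610) (nat_lit 76) (nat_lit 2564505611) (nat_lit 152) (nat_lit 24609336728) (nat_lit 51) (nat_lit 5) (nat_lit 52) (nat_lit 5) (nat_lit 53) (nat_lit 4) (nat_lit 526) (nat_lit 373) (nat_lit 301))))))))
noncomputable def xc41 : XT := (XT.nd (nat_lit 56862) (nat_lit 0) (nat_lit 5396) (XT.nd (nat_lit 1170) (nat_lit 760) (nat_lit 0) (XT.nd (nat_lit 546) (nat_lit 532) (nat_lit 0) (XT.nd (nat_lit 234) (nat_lit 228) (nat_lit 0) (XT.nd (nat_lit 78) (nat_lit 228) (nat_lit 0) (XT.lf (nat_lit 0) (nat_lit 18167214476) (nat_lit 152) (nat_lit 7031122639) (nat_lit 0) (nat_lit 7852392364) (nat_lit 51) (nat_lit 5) (nat_lit 53) (nat_lit 4) (nat_lit 51) (nat_lit 4) (nat_lit 527) (nat_lit 373) (nat_lit 300)) (XT.nd (nat_lit 78) (nat_lit 152) (nat_lit 0) (XT.lf (nat_lit 0) (nat_lit 13844785059) (nat_lit 76)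 (nat_lit 15116773977) (nat_lit 76) (nat_lit 4762690102) (nat_lit 50) (nat_lit 4) (nat_lit 51) (nat_lit 5) (nat_lit 51) (nat_lit 4) (nat_lit 528) (nat_lit 373) (nat_lit 299)) (XT.lf (nat_lit 0) (nat_lit 922238469) (nat_lit 76) (nat_lit 4651377570) (nat_lit 152) (nat_lit 28842055620) (nat_lit 48) (nat_lit 5) (nat_lit 49) (nat_lit 5) (nat_lit 50) (nat_lit 4) (nat_lit 529) (nat_lit 373) (nat_lit 298)))) (XT.nd (nat_lit 156) (nat_lit 152) (nat_lit 0) (XT.nd (nat_lit 78) (nat_lit 76) (nat_lit 0) (XT.lf (nat_lit 0) (nat_lit 16327736226) (nat_lit 152) (nat_lit 12590293040) (nat_lit 0) (nat_lit 6202289556) (nat_lit 48) (nat_lit 5) (nat_lit 50) (nat_lit 4) (nat_lit 48) (nat_lit 4) (nat_lit 530) (nat_lit 373) (nat_lit 297)) (XT.lf (nat_lit 0) (nat_lit 8956099163) (nat_lit 76) (nat_lit 18524033511) (nat_lit 76) (nat_lit 8363703273) (nat_lit 47) (nat_lit 4) (nat_lit 48) (nat_lit 5) (nat_lit 48) (nat_lit 4) (nat_lit 531) (nat_lit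 373) (nat_lit 296))) (XT.nd (nat_lit 78) (nat_lit 76) (nat_lit 0) (XT.lf (nat_lit 0) (nat_lit 2403562521) (nat_lit 152) (nat_lit 5314965861) (nat_lit 76) (nat_lit 28867686820) (nat_lit 46) (nat_lit 5) (nat_lit 48) (nat_lit 5) (nat_lit 47) (nat_lit 4) (nat_lit 532) (nat_lit 373) (nat_lit 295)) (XT.lf (nat_lit 0) (nat_lit 13469477521) (nat_lit 152) (nat_lit 20334317445) (nat_lit 0) (nat_lit 3540274716) (nat_lit 45) (nat_lit 5) (nat_lit 47) (nat_lit 4) (nat_lit 45) (nat_lit 4) (nat_lit 533) (nat_lit 373) (nat_lit 294))))) (XT.nd (nat_lit 312) (nat_lit 304) (nat_lit 0) (XT.nd (nat_lit 156) (nat_lit 152) (nat_lit 0) (XT.nd (nat_lit 78) (nat_lit 0) (nat_lit 0) (XT.lf (nat_lit 0) (nat_lit 1839726655) (nat_lit 76) (nat_lit 23121162049) (nat_lit 76) (nat_lit 13160965645) (nat_lit 44) (nat_lit 4) (nat_lit 45) (nat_lit 5) (nat_lit 45) (nat_lit 4) (nat_lit 534) (nat_lit 373) (nat_lit 293)) (XT.lf (nat_lit 0) (nat_lit 24987563189)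 (nat_lit 76) (nat_lit 11960581834) (nat_lit 76) (nat_lit 1970294558) (nat_lit 44) (nat_lit 4) (nat_lit 45) (nat_lit 5) (nat_lit 45) (nat_lit 4) (nat_lit 535) (nat_lit 373) (nat_lit 292))) (XT.nd (nat_lit 78) (nat_lit 0) (nat_lit 0) (XT.lf (nat_lit 0) (nat_lit 9069871675) (nat_lit 76) (nat_lit 333760536) (nat_lit 152) (nat_lit 30331514210) (nat_lit 42) (nat_lit 5) (nat_lit 43) (nat_lit 5) (nat_lit 44) (nat_lit 4) (nat_lit 536) (nat_lit 373) (nat_lit 291)) (XT.lf (nat_lit 0) (nat_lit 21280009868) (nat_lit 152) (nat_lit 7764933551) (nat_lit 0) (nat_lit 11524800889) (nat_lit 42) (nat_lit 5) (nat_lit 44) (nat_lit 4) (nat_lit 42) (nat_lit 4) (nat_lit 537) (nat_lit 373) (nat_lit 290)))) (XT.nd (nat_lit 156) (nat_lit 152) (nat_lit 0) (XT.nd (nat_lit 78) (nat_lit 76) (nat_lit 0) (XT.lf (nat_lit 0) (nat_lit 16028784484) (nat_lit 76) (nat_lit 17589683206) (nat_lit 76) (nat_lit 7807738876) (nat_lit 41) (nat_lit 4) (nat_lit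 42) (nat_lit 5) (nat_lit 42) (nat_lit 4) (nat_lit 538) (nat_lit 373) (nat_lit 289)) (XT.lf (nat_lit 0) (nat_lit 3967905216) (nat_lit 152) (nat_lit 1753053390) (nat_lit 76) (nat_lit 36585417017) (nat_lit 40) (nat_lit 5) (nat_lit 42) (nat_lit 5) (nat_lit 41) (nat_lit 4) (nat_lit 539) (nat_lit 373) (nat_lit 288))) (XT.nd (nat_lit 78) (nat_lit 76) (nat_lit 0) (XT.lf (nat_lit 0) (nat_lit 16174629656) (nat_lit 152) (nat_lit 20401029829) (nat_lit 0) (nat_lit 6627929062) (nat_lit 39) (nat_lit 5) (nat_lit 41) (nat_lit 4) (nat_lit 39) (nat_lit 4) (nat_lit 540) (nat_lit 373) (nat_lit 287)) (XT.lf (nat_lit 0) (nat_lit 3923175691) (nat_lit 76) (nat_lit 24886565648) (nat_lit 76) (nat_lit 15316111041) (nat_lit 38) (nat_lit 4) (nat_lit 39) (nat_lit 5) (nat_lit 39) (nat_lit 4) (nat_lit 541) (nat_lit 373) (nat_lit 286)))))) (XT.nd (nat_lit 624) (nat_lit 304) (nat_lit 0) (XT.nd (nat_lit 312) (nat_lit 228) (nat_lit 0) (XT.nd (nat_lit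 156) (nat_lit 76) (nat_lit 0) (XT.nd (nat_lit 78) (nat_lit 152) (nat_lit 0) (XT.lf (nat_lit 0) (nat_lit 29296140893) (nat_lit 76) (nat_lit 12684233024) (nat_lit 76) (nat_lit 3090716269) (nat_lit 38) (nat_lit 4) (nat_lit 39) (nat_lit 5) (nat_lit 39) (nat_lit 4) (nat_lit 542) (nat_lit 373) (nat_lit 285)) (XT.lf (nat_lit 0) (nat_lit 9357839566) (nat_lit 152) (nat_lit 36660844091) (nat_lit 0) (nat_lit 22007343) (nat_lit 36) (nat_lit 5) (nat_lit 38) (nat_lit 4) (nat_lit 36) (nat_lit 4) (nat_lit 543) (nat_lit 373) (nat_lit 284))) (XT.nd (nat_lit 78) (nat_lit 76) (nat_lit 0) (XT.lf (nat_lit 0) (nat_lit 22355641110) (nat_lit 152) (nat_lit 11676979737) (nat_lit 0) (nat_lit 12998703754) (nat_lit 36) (nat_lit 5) (nat_lit 38) (nat_lit 4) (nat_lit 36) (nat_lit 4) (nat_lit 544) (nat_lit 373) (nat_lit 283)) (XT.lf (nat_lit 0) (nat_lit 14239832157) (nat_lit 76) (nat_lit 21593290266) (nat_lit 76) (nat_lit 12215862490) (nat_lit 35)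 (nat_lit 4) (nat_lit 36) (nat_lit 5) (nat_lit 36) (nat_lit 4) (nat_lit 545) (nat_lit 373) (nat_lit 282)))) (XT.nd (nat_lit 156) (nat_lit 76) (nat_lit 0) (XT.nd (nat_lit 78) (nat_lit 76) (nat_lit 0) (XT.lf (nat_lit 0) (nat_lit 677656291) (nat_lit 152) (nat_lit 8021679115) (nat_lit 76) (nat_lit 40395502819) (nat_lit 34) (nat_lit 5) (nat_lit 36) (nat_lit 5) (nat_lit 35) (nat_lit 4) (nat_lit 546) (nat_lit 373) (nat_lit 281)) (XT.lf (nat_lit 0) (nat_lit 13892950703) (nat_lit 152) (nat_lit 31519487057) (nat_lit 0) (nat_lit 4750586068) (nat_lit 33) (nat_lit 5) (nat_lit 35) (nat_lit 4) (nat_lit 33) (nat_lit 4) (nat_lit 547) (nat_lit 373) (nat_lit 280))) (XT.nd (nat_lit 78) (nat_lit 76) (nat_lit 0) (XT.lf (nat_lit 0) (nat_lit 27626911729) (nat_lit 152) (nat_lit 5166335481) (nat_lit 0) (nat_lit 18466341622) (nat_lit 33) (nat_lit 5) (nat_lit 35) (nat_lit 4) (nat_lit 33) (nat_lit 4) (nat_lit 548) (nat_lit 373) (nat_lit 279))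 (XT.lf (nat_lit 0) (nat_lit 22323981216) (nat_lit 76) (nat_lit 19619104566) (nat_lit 76) (nat_lit 10440859243) (nat_lit 32) (nat_lit 4) (nat_lit 33) (nat_lit 5) (nat_lit 33) (nat_lit 4) (nat_lit 549) (nat_lit 373) (nat_lit 278))))) (XT.nd (nat_lit 312) (nat_lit 76) (nat_lit 0) (XT.nd (nat_lit 156) (nat_lit 76) (nat_lit 0) (XT.nd (nat_lit 78) (nat_lit 76) (nat_lit 0) (XT.lf (nat_lit 0) (nat_lit 3093608555) (nat_lit 152) (nat_lit 2915380360) (nat_lit 76) (nat_lit 47531886633) (nat_lit 31) (nat_lit 5) (nat_lit 33) (nat_lit 5) (nat_lit 32) (nat_lit 4) (nat_lit 550) (nat_lit 373) (nat_lit 277)) (XT.lf (nat_lit 0) (nat_lit 17104839361) (nat_lit 152) (nat_lit 29455070384) (nat_lit 0) (nat_lit 8161085658) (nat_lit 30) (nat_lit 5) (nat_lit 32) (nat_lit 4) (nat_lit 30) (nat_lit 4) (nat_lit 551) (nat_lit 373) (nat_lit 276))) (XT.nd (nat_lit 78) (nat_lit 76) (nat_lit 0) (XT.lf (nat_lit 0) (nat_lit 31582557911) (nat_lit 152)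 (nat_lit 1729476469) (nat_lit 0) (nat_lit 22623100007) (nat_lit 30) (nat_lit 5) (nat_lit 32) (nat_lit 4) (nat_lit 30) (nat_lit 4) (nat_lit 552) (nat_lit 373) (nat_lit 275)) (XT.lf (nat_lit 0) (nat_lit 27276174309) (nat_lit 76) (nat_lit 19438808374) (nat_lit 76) (nat_lit 10464103674) (nat_lit 29) (nat_lit 4) (nat_lit 30) (nat_lit 5) (nat_lit 30) (nat_lit 4) (nat_lit 553) (nat_lit 373) (nat_lit 274)))) (XT.nd (nat_lit 54600) (nat_lit 0) (nat_lit 11248) (XT.nd (nat_lit 54522) (nat_lit 0) (nat_lit 11856) (XT.lf (nat_lit 0) (nat_lit 3741896612) (nat_lit 152) (nat_lit 1393457292) (nat_lit 76) (nat_lit 53324620600) (nat_lit 28) (nat_lit 5) (nat_lit 30) (nat_lit 5) (nat_lit 29) (nat_lit 4) (nat_lit 554) (nat_lit 373) (nat_lit 273)) (XT.lf (nat_lit 0) (nat_lit 677347221) (nat_lit 380) (nat_lit 3318932293) (nat_lit 0) (nat_lit 677347221) (nat_lit 184) (nat_lit 5) (nat_lit 189) (nat_lit 4) (nat_lit 184) (nat_lit 4) (nat_lit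 452) (nat_lit 374) (nat_lit 374))) (XT.nd (nat_lit 78) (nat_lit 304) (nat_lit 0) (XT.lf (nat_lit 0) (nat_lit 1767529394) (nat_lit 304) (nat_lit 4260035180) (nat_lit 304) (nat_lit 3435509956) (nat_lit 180) (nat_lit 4) (nat_lit 184) (nat_lit 5) (nat_lit 184) (nat_lit 4) (nat_lit 453) (nat_lit 374) (nat_lit 373)) (XT.lf (nat_lit 0) (nat_lit 812852379) (nat_lit 228) (nat_lit 388077438) (nat_lit 304) (nat_lit 8382063431) (nat_lit 176) (nat_lit 5) (nat_lit 179) (nat_lit 5) (nat_lit 180) (nat_lit 4) (nat_lit 454) (nat_lit 374) (nat_lit 372))))))) (XT.nd (nat_lit 1248) (nat_lit 2356) (nat_lit 0) (XT.nd (nat_lit 624) (nat_lit 1596) (nat_lit 0) (XT.nd (nat_lit 312) (nat_lit 988) (nat_lit 0) (XT.nd (nat_lit 156) (nat_lit 532) (nat_lit 0) (XT.nd (nat_lit 78) (nat_lit 380) (nat_lit 0) (XT.lf (nat_lit 0) (nat_lit 5913146655) (nat_lit 304) (nat_lit 211287921) (nat_lit 0) (nat_lit 3580885243) (nat_lit 176) (nat_lit 5) (nat_lit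 180) (nat_lit 4) (nat_lit 176) (nat_lit 4) (nat_lit 455) (nat_lit 374) (nat_lit 371)) (XT.lf (nat_lit 0) (nat_lit 899282446) (nat_lit 380) (nat_lit 1239298029) (nat_lit 76) (nat_lit 7693004907) (nat_lit 171) (nat_lit 5) (nat_lit 176) (nat_lit 5) (nat_lit 172) (nat_lit 4) (nat_lit 456) (nat_lit 374) (nat_lit 370))) (XT.nd (nat_lit 78) (nat_lit 304) (nat_lit 0) (XT.lf (nat_lit 0) (nat_lit 5646543225) (nat_lit 304) (nat_lit 2333791257) (nat_lit 0) (nat_lit 1980442160) (nat_lit 168) (nat_lit 5) (nat_lit 172) (nat_lit 4) (nat_lit 168) (nat_lit 4) (nat_lit 457) (nat_lit 374) (nat_lit 369)) (XT.lf (nat_lit 0) (nat_lit 428266808) (nat_lit 304) (nat_lit 3467133904) (nat_lit 76) (nat_lit 6198482111) (nat_lit 164) (nat_lit 5) (nat_lit 168) (nat_lit 5) (nat_lit 165) (nat_lit 4) (nat_lit 458) (nat_lit 374) (nat_lit 368)))) (XT.nd (nat_lit 156) (nat_lit 532) (nat_lit 0) (XT.nd (nat_lit 78) (nat_lit 228) (nat_lit 0) (XT.lf (nat_lit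 0) (nat_lit 5204647192) (nat_lit 304) (nat_lit 4663198334) (nat_lit 0) (nat_lit 362508015) (nat_lit 161) (nat_lit 5) (nat_lit 165) (nat_lit 4) (nat_lit 161) (nat_lit 4) (nat_lit 459) (nat_lit 374) (nat_lit 367)) (XT.lf (nat_lit 0) (nat_lit 4452276677) (nat_lit 228) (nat_lit 5686930345) (nat_lit 228) (nat_lit 231266965) (nat_lit 158) (nat_lit 4) (nat_lit 161) (nat_lit 5) (nat_lit 161) (nat_lit 4) (nat_lit 460) (nat_lit 374) (nat_lit 366))) (XT.nd (nat_lit 78) (nat_lit 228) (nat_lit 0) (XT.lf (nat_lit 0) (nat_lit 3271826425) (nat_lit 228) (nat_lit 1320855530) (nat_lit 304) (nat_lit 5921435004) (nat_lit 154) (nat_lit 5) (nat_lit 157) (nat_lit 5) (nat_lit 158) (nat_lit 4) (nat_lit 461) (nat_lit 374) (nat_lit 365)) (XT.lf (nat_lit 0) (nat_lit 2034461658) (nat_lit 228) (nat_lit 7531889474) (nat_lit 228) (nat_lit 1095361951) (nat_lit 151) (nat_lit 4) (nat_lit 154) (nat_lit 5) (nat_lit 154) (nat_lit 4) (nat_lit 462) (nat_lit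 374) (nat_lit 364))))) (XT.nd (nat_lit 312) (nat_lit 912) (nat_lit 0) (XT.nd (nat_lit 156) (nat_lit 456) (nat_lit 0) (XT.nd (nat_lit 78) (nat_lit 0) (nat_lit 0) (XT.lf (nat_lit 0) (nat_lit 718653863) (nat_lit 152) (nat_lit 3074592290) (nat_lit 228) (nat_lit 7019573938) (nat_lit 148) (nat_lit 5) (nat_lit 150) (nat_lit 5) (nat_lit 151) (nat_lit 4) (nat_lit 463) (nat_lit 374) (nat_lit 363)) (XT.lf (nat_lit 0) (nat_lit 8809218169) (nat_lit 228) (nat_lit 641722934) (nat_lit 0) (nat_lit 1517114095) (nat_lit 148) (nat_lit 5) (nat_lit 151) (nat_lit 4) (nat_lit 148) (nat_lit 4) (nat_lit 464) (nat_lit 374) (nat_lit 362))) (XT.nd (nat_lit 78) (nat_lit 152) (nat_lit 0) (XT.lf (nat_lit 0) (nat_lit 2813099355) (nat_lit 304) (nat_lit 2080363702) (nat_lit 76) (nat_lit 6233036453) (nat_lit 144) (nat_lit 5) (nat_lit 148) (nat_lit 5) (nat_lit 145) (nat_lit 4) (nat_lit 465) (nat_lit 374) (nat_lit 361)) (XT.lf (nat_lit 0) (nat_lit 7710625205)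 (nat_lit 152) (nat_lit 164203499) (nat_lit 228) (nat_lit 3414708172) (nat_lit 142) (nat_lit 5) (nat_lit 144) (nat_lit 5) (nat_lit 145) (nat_lit 4) (nat_lit 466) (nat_lit 374) (nat_lit 360)))) (XT.nd (nat_lit 156) (nat_lit 456) (nat_lit 0) (XT.nd (nat_lit 78) (nat_lit 152) (nat_lit 0) (XT.lf (nat_lit 0) (nat_lit 1630280056) (nat_lit 304) (nat_lit 5181300690) (nat_lit 76) (nat_lit 4644481080) (nat_lit 138) (nat_lit 5) (nat_lit 142) (nat_lit 5) (nat_lit 139) (nat_lit 4) (nat_lit 467) (nat_lit 374) (nat_lit 359)) (XT.lf (nat_lit 0) (nat_lit 4760502294) (nat_lit 152) (nat_lit 1985554078) (nat_lit 228) (nat_lit 4880871338) (nat_lit 136) (nat_lit 5) (nat_lit 138) (nat_lit 5) (nat_lit 139) (nat_lit 4) (nat_lit 468) (nat_lit 374) (nat_lit 358))) (XT.nd (nat_lit 78) (nat_lit 152) (nat_lit 0) (XT.lf (nat_lit 0) (nat_lit 225110981) (nat_lit 304) (nat_lit 8634583612) (nat_lit 76) (nat_lit 2942659146) (nat_lit 132) (nat_lit 5)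 (nat_lit 136) (nat_lit 5) (nat_lit 133) (nat_lit 4) (nat_lit 469) (nat_lit 374) (nat_lit 357)) (XT.lf (nat_lit 0) (nat_lit 1454221701) (nat_lit 152) (nat_lit 3940552870) (nat_lit 228) (nat_lit 6586561584) (nat_lit 130) (nat_lit 5) (nat_lit 132) (nat_lit 5) (nat_lit 133) (nat_lit 4) (nat_lit 470) (nat_lit 374) (nat_lit 356)))))) (XT.nd (nat_lit 624) (nat_lit 1216) (nat_lit 0) (XT.nd (nat_lit 312) (nat_lit 532) (nat_lit 0) (XT.nd (nat_lit 156) (nat_lit 380) (nat_lit 0) (XT.nd (nat_lit 78) (nat_lit 228) (nat_lit 0) (XT.lf (nat_lit 0) (nat_lit 10723817793) (nat_lit 228) (nat_lit 320807225) (nat_lit 0) (nat_lit 1120935735) (nat_lit 130) (nat_lit 5) (nat_lit 133) (nat_lit 4) (nat_lit 130) (nat_lit 4) (nat_lit 471) (nat_lit 374) (nat_lit 355)) (XT.lf (nat_lit 0) (nat_lit 3827702418) (nat_lit 228) (nat_lit 2203838379) (nat_lit 76) (nat_lit 6321293584) (nat_lit 127) (nat_lit 5) (nat_lit 130) (nat_lit 5) (nat_lit 128) (nat_lit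 4) (nat_lit 472) (nat_lit 374) (nat_lit 354))) (XT.nd (nat_lit 78) (nat_lit 228) (nat_lit 0) (XT.lf (nat_lit 0) (nat_lit 8378996306) (nat_lit 152) (nat_lit 839452661) (nat_lit 228) (nat_lit 3327084433) (nat_lit 125) (nat_lit 5) (nat_lit 127) (nat_lit 5) (nat_lit 128) (nat_lit 4) (nat_lit 473) (nat_lit 374) (nat_lit 353)) (XT.lf (nat_lit 0) (nat_lit 2024807826) (nat_lit 228) (nat_lit 6262785139) (nat_lit 76) (nat_lit 4454713451) (nat_lit 122) (nat_lit 5) (nat_lit 125) (nat_lit 5) (nat_lit 123) (nat_lit 4) (nat_lit 474) (nat_lit 374) (nat_lit 352)))) (XT.nd (nat_lit 156) (nat_lit 228) (nat_lit 0) (XT.nd (nat_lit 78) (nat_lit 152) (nat_lit 0) (XT.lf (nat_lit 0) (nat_lit 4467499565) (nat_lit 152) (nat_lit 3005625598) (nat_lit 228) (nat_lit 5470788208) (nat_lit 120) (nat_lit 5) (nat_lit 122) (nat_lit 5) (nat_lit 123) (nat_lit 4) (nat_lit 475) (nat_lit 374) (nat_lit 351)) (XT.lf (nat_lit 0) (nat_lit 2355291153) (nat_lit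 152) (nat_lit 10748887915) (nat_lit 152) (nat_lit 46811994) (nat_lit 118) (nat_lit 4) (nat_lit 120) (nat_lit 5) (nat_lit 120) (nat_lit 4) (nat_lit 476) (nat_lit 374) (nat_lit 350))) (XT.nd (nat_lit 78) (nat_lit 0) (nat_lit 0) (XT.lf (nat_lit 0) (nat_lit 76400492) (nat_lit 152) (nat_lit 5381870278) (nat_lit 228) (nat_lit 7903619094) (nat_lit 115) (nat_lit 5) (nat_lit 117) (nat_lit 5) (nat_lit 118) (nat_lit 4) (nat_lit 477) (nat_lit 374) (nat_lit 349)) (XT.lf (nat_lit 0) (nat_lit 11148967722) (nat_lit 228) (nat_lit 2248400733) (nat_lit 0) (nat_lit 181092238) (nat_lit 115) (nat_lit 5) (nat_lit 118) (nat_lit 4) (nat_lit 115) (nat_lit 4) (nat_lit 478) (nat_lit 374) (nat_lit 348))))) (XT.nd (nat_lit 312) (nat_lit 532) (nat_lit 0) (XT.nd (nat_lit 156) (nat_lit 304) (nat_lit 0) (XT.nd (nat_lit 78) (nat_lit 152) (nat_lit 0) (XT.lf (nat_lit 0) (nat_lit 3199889873) (nat_lit 228) (nat_lit 4748300922) (nat_lit 76) (nat_lit 5850803989)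 (nat_lit 112) (nat_lit 5) (nat_lit 115) (nat_lit 5) (nat_lit 113) (nat_lit 4) (nat_lit 479) (nat_lit 374) (nat_lit 347)) (XT.lf (nat_lit 0) (nat_lit 6654039567) (nat_lit 152) (nat_lit 2294863930) (nat_lit 228) (nat_lit 5076533335) (nat_lit 110) (nat_lit 5) (nat_lit 112) (nat_lit 5) (nat_lit 113) (nat_lit 4) (nat_lit 480) (nat_lit 374) (nat_lit 346))) (XT.nd (nat_lit 78) (nat_lit 76) (nat_lit 0) (XT.lf (nat_lit 0) (nat_lit 635094942) (nat_lit 228) (nat_lit 10140447845) (nat_lit 76) (nat_lit 3481894356) (nat_lit 107) (nat_lit 5) (nat_lit 110) (nat_lit 5) (nat_lit 108) (nat_lit 4) (nat_lit 481) (nat_lit 374) (nat_lit 345)) (XT.lf (nat_lit 0) (nat_lit 1399179168) (nat_lit 76) (nat_lit 5041348684) (nat_lit 152) (nat_lit 8053627932) (nat_lit 106) (nat_lit 5) (nat_lit 107) (nat_lit 5) (nat_lit 108) (nat_lit 4) (nat_lit 482) (nat_lit 374) (nat_lit 344)))) (XT.nd (nat_lit 156) (nat_lit 304) (nat_lit 0) (XT.nd (nat_lit 78)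 (nat_lit 228) (nat_lit 0) (XT.lf (nat_lit 0) (nat_lit 12445277278) (nat_lit 152) (nat_lit 1413023536) (nat_lit 0) (nat_lit 878921412) (nat_lit 106) (nat_lit 5) (nat_lit 108) (nat_lit 4) (nat_lit 106) (nat_lit 4) (nat_lit 483) (nat_lit 374) (nat_lit 343)) (XT.lf (nat_lit 0) (nat_lit 3640127267) (nat_lit 228) (nat_lit 4401474916) (nat_lit 76) (nat_lit 6942870270) (nat_lit 103) (nat_lit 5) (nat_lit 106) (nat_lit 5) (nat_lit 104) (nat_lit 4) (nat_lit 484) (nat_lit 374) (nat_lit 342))) (XT.nd (nat_lit 78) (nat_lit 228) (nat_lit 0) (XT.lf (nat_lit 0) (nat_lit 7699483529) (nat_lit 76) (nat_lit 2009114064) (nat_lit 152) (nat_lit 5529727542) (nat_lit 102) (nat_lit 5) (nat_lit 103) (nat_lit 5) (nat_lit 104) (nat_lit 4) (nat_lit 485) (nat_lit 374) (nat_lit 341)) (XT.lf (nat_lit 0) (nat_lit 497132440) (nat_lit 228) (nat_lit 10855535057) (nat_lit 76) (nat_lit 4145591162) (nat_lit 99) (nat_lit 5) (nat_lit 102) (nat_lit 5) (nat_lit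 100) (nat_lit 4) (nat_lit 486) (nat_lit 374) (nat_lit 340))))))))
noncomputable def xc42 : XT := (XT.nd (nat_lit 2418) (nat_lit 2128) (nat_lit 0) (XT.nd (nat_lit 1170) (nat_lit 1292) (nat_lit 0) (XT.nd (nat_lit 546) (nat_lit 912) (nat_lit 0) (XT.nd (nat_lit 234) (nat_lit 380) (nat_lit 0) (XT.nd (nat_lit 78) (nat_lit 228) (nat_lit 0) (XT.lf (nat_lit 0) (nat_lit 1374541397) (nat_lit 76) (nat_lit 5245551915) (nat_lit 152) (nat_lit 9143461980) (nat_lit 98) (nat_lit 5) (nat_lit 99) (nat_lit 5) (nat_lit 100) (nat_lit 4) (nat_lit 487) (nat_lit 374) (nat_lit 339)) (XT.nd (nat_lit 78) (nat_lit 228) (nat_lit 0) (XT.lf (nat_lit 0) (nat_lit 12964171956) (nat_lit 152) (nat_lit 2008286937) (nat_lit 0) (nat_lit 1063229752) (nat_lit 98) (nat_lit 5) (nat_lit 100) (nat_lit 4) (nat_lit 98) (nat_lit 4) (nat_lit 488) (nat_lit 374) (nat_lit 338)) (XT.lf (nat_lit 0) (nat_lit 3195584640) (nat_lit 228) (nat_lit 5596507367) (nat_lit 76)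 (nat_lit 7520723809) (nat_lit 95) (nat_lit 5) (nat_lit 98) (nat_lit 5) (nat_lit 96) (nat_lit 4) (nat_lit 489) (nat_lit 374) (nat_lit 337)))) (XT.nd (nat_lit 156) (nat_lit 152) (nat_lit 0) (XT.nd (nat_lit 78) (nat_lit 152) (nat_lit 0) (XT.lf (nat_lit 0) (nat_lit 7223302931) (nat_lit 76) (nat_lit 2374790957) (nat_lit 152) (nat_lit 6998977332) (nat_lit 94) (nat_lit 5) (nat_lit 95) (nat_lit 5) (nat_lit 96) (nat_lit 4) (nat_lit 490) (nat_lit 374) (nat_lit 336)) (XT.lf (nat_lit 0) (nat_lit 3528450891) (nat_lit 152) (nat_lit 12715346647) (nat_lit 152) (nat_lit 644523788) (nat_lit 92) (nat_lit 4) (nat_lit 94) (nat_lit 5) (nat_lit 94) (nat_lit 4) (nat_lit 491) (nat_lit 374) (nat_lit 335))) (XT.nd (nat_lit 78) (nat_lit 76) (nat_lit 0) (XT.lf (nat_lit 0) (nat_lit 5824044522) (nat_lit 228) (nat_lit 410251974) (nat_lit 76) (nat_lit 10951152751) (nat_lit 91) (nat_lit 5) (nat_lit 94) (nat_lit 5) (nat_lit 92) (nat_lit 4) (nat_lit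 492) (nat_lit 374) (nat_lit 334)) (XT.lf (nat_lit 0) (nat_lit 12525658033) (nat_lit 152) (nat_lit 4468111636) (nat_lit 0) (nat_lit 495972180) (nat_lit 90) (nat_lit 5) (nat_lit 92) (nat_lit 4) (nat_lit 90) (nat_lit 4) (nat_lit 493) (nat_lit 374) (nat_lit 333))))) (XT.nd (nat_lit 312) (nat_lit 380) (nat_lit 0) (XT.nd (nat_lit 156) (nat_lit 228) (nat_lit 0) (XT.nd (nat_lit 78) (nat_lit 76) (nat_lit 0) (XT.lf (nat_lit 0) (nat_lit 1668907645) (nat_lit 228) (nat_lit 8790275453) (nat_lit 76) (nat_lit 7341248092) (nat_lit 87) (nat_lit 5) (nat_lit 90) (nat_lit 5) (nat_lit 88) (nat_lit 4) (nat_lit 494) (nat_lit 374) (nat_lit 332)) (XT.lf (nat_lit 0) (nat_lit 4759247997) (nat_lit 76) (nat_lit 3655310456) (nat_lit 152) (nat_lit 9704005507) (nat_lit 86) (nat_lit 5) (nat_lit 87) (nat_lit 5) (nat_lit 88) (nat_lit 4) (nat_lit 495) (nat_lit 374) (nat_lit 331))) (XT.nd (nat_lit 78) (nat_lit 76) (nat_lit 0) (XT.lf (nat_lit 0) (nat_lit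 274655856) (nat_lit 152) (nat_lit 15134728880) (nat_lit 152) (nat_lit 3035452298) (nat_lit 84) (nat_lit 4) (nat_lit 86) (nat_lit 5) (nat_lit 86) (nat_lit 4) (nat_lit 496) (nat_lit 374) (nat_lit 330)) (XT.lf (nat_lit 0) (nat_lit 3853162010) (nat_lit 228) (nat_lit 4409273256) (nat_lit 76) (nat_lit 10514514006) (nat_lit 83) (nat_lit 5) (nat_lit 86) (nat_lit 5) (nat_lit 84) (nat_lit 4) (nat_lit 497) (nat_lit 374) (nat_lit 329)))) (XT.nd (nat_lit 156) (nat_lit 152) (nat_lit 0) (XT.nd (nat_lit 78) (nat_lit 152) (nat_lit 0) (XT.lf (nat_lit 0) (nat_lit 9780059651) (nat_lit 76) (nat_lit 1126011849) (nat_lit 152) (nat_lit 8211492825) (nat_lit 82) (nat_lit 5) (nat_lit 83) (nat_lit 5) (nat_lit 84) (nat_lit 4) (nat_lit 498) (nat_lit 374) (nat_lit 328)) (XT.lf (nat_lit 0) (nat_lit 4908564770) (nat_lit 152) (nat_lit 13338769416) (nat_lit 152) (nat_lit 1218761107) (nat_lit 80) (nat_lit 4) (nat_lit 82) (nat_lit 5) (nat_lit 82) (nat_lit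 4) (nat_lit 499) (nat_lit 374) (nat_lit 327))) (XT.nd (nat_lit 78) (nat_lit 76) (nat_lit 0) (XT.lf (nat_lit 0) (nat_lit 5898213119) (nat_lit 228) (nat_lit 263840939) (nat_lit 76) (nat_lit 13660366211) (nat_lit 79) (nat_lit 5) (nat_lit 82) (nat_lit 5) (nat_lit 80) (nat_lit 4) (nat_lit 500) (nat_lit 374) (nat_lit 326)) (XT.lf (nat_lit 0) (nat_lit 13284166539) (nat_lit 152) (nat_lit 5609608417) (nat_lit 0) (nat_lit 1292899460) (nat_lit 78) (nat_lit 5) (nat_lit 80) (nat_lit 4) (nat_lit 78) (nat_lit 4) (nat_lit 501) (nat_lit 374) (nat_lit 325)))))) (XT.nd (nat_lit 624) (nat_lit 608) (nat_lit 0) (XT.nd (nat_lit 312) (nat_lit 304) (nat_lit 0) (XT.nd (nat_lit 156) (nat_lit 152) (nat_lit 0) (XT.nd (nat_lit 78) (nat_lit 76) (nat_lit 0) (XT.lf (nat_lit 0) (nat_lit 404332230) (nat_lit 152) (nat_lit 11277732069) (nat_lit 76) (nat_lit 8877269361) (nat_lit 76) (nat_lit 5) (nat_lit 78) (nat_lit 5) (nat_lit 77) (nat_lit 4) (nat_lit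 502) (nat_lit 374) (nat_lit 324)) (XT.lf (nat_lit 0) (nat_lit 3654096834) (nat_lit 76) (nat_lit 4157114343) (nat_lit 152) (nat_lit 13129324611) (nat_lit 75) (nat_lit 5) (nat_lit 76) (nat_lit 5) (nat_lit 77) (nat_lit 4) (nat_lit 503) (nat_lit 374) (nat_lit 323))) (XT.nd (nat_lit 78) (nat_lit 152) (nat_lit 0) (XT.lf (nat_lit 0) (nat_lit 15517205802) (nat_lit 152) (nat_lit 2241857538) (nat_lit 0) (nat_lit 3571803718) (nat_lit 75) (nat_lit 5) (nat_lit 77) (nat_lit 4) (nat_lit 75) (nat_lit 4) (nat_lit 504) (nat_lit 374) (nat_lit 322)) (XT.lf (nat_lit 0) (nat_lit 1787679918) (nat_lit 152) (nat_lit 8411710455) (nat_lit 76) (nat_lit 11530027798) (nat_lit 73) (nat_lit 5) (nat_lit 75) (nat_lit 5) (nat_lit 74) (nat_lit 4) (nat_lit 505) (nat_lit 374) (nat_lit 321)))) (XT.nd (nat_lit 156) (nat_lit 152) (nat_lit 0) (XT.nd (nat_lit 78) (nat_lit 76) (nat_lit 0) (XT.lf (nat_lit 0) (nat_lit 7195976600) (nat_lit 76) (nat_lit 2325796900)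 (nat_lit 152) (nat_lit 12615778984) (nat_lit 72) (nat_lit 5) (nat_lit 73) (nat_lit 5) (nat_lit 74) (nat_lit 4) (nat_lit 506) (nat_lit 374) (nat_lit 320)) (XT.lf (nat_lit 0) (nat_lit 708800472) (nat_lit 76) (nat_lit 16856918141) (nat_lit 76) (nat_lit 4989877673) (nat_lit 71) (nat_lit 4) (nat_lit 72) (nat_lit 5) (nat_lit 72) (nat_lit 4) (nat_lit 507) (nat_lit 374) (nat_lit 319))) (XT.nd (nat_lit 78) (nat_lit 76) (nat_lit 0) (XT.lf (nat_lit 0) (nat_lit 2913984143) (nat_lit 152) (nat_lit 6036324232) (nat_lit 76) (nat_lit 14031894600) (nat_lit 70) (nat_lit 5) (nat_lit 72) (nat_lit 5) (nat_lit 71) (nat_lit 4) (nat_lit 508) (nat_lit 374) (nat_lit 318)) (XT.lf (nat_lit 0) (nat_lit 10265801621) (nat_lit 76) (nat_lit 719281668) (nat_lit 152) (nat_lit 12434130334) (nat_lit 69) (nat_lit 5) (nat_lit 70) (nat_lit 5) (nat_lit 71) (nat_lit 4) (nat_lit 509) (nat_lit 374) (nat_lit 317))))) (XT.nd (nat_lit 312) (nat_lit 304) (nat_lit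 0) (XT.nd (nat_lit 156) (nat_lit 152) (nat_lit 0) (XT.nd (nat_lit 78) (nat_lit 76) (nat_lit 0) (XT.lf (nat_lit 0) (nat_lit 3166149320) (nat_lit 76) (nat_lit 16230567503) (nat_lit 76) (nat_lit 4469666009) (nat_lit 68) (nat_lit 4) (nat_lit 69) (nat_lit 5) (nat_lit 69) (nat_lit 4) (nat_lit 510) (nat_lit 374) (nat_lit 316)) (XT.lf (nat_lit 0) (nat_lit 3734005881) (nat_lit 152) (nat_lit 4256099152) (nat_lit 76) (nat_lit 16333591658) (nat_lit 67) (nat_lit 5) (nat_lit 69) (nat_lit 5) (nat_lit 68) (nat_lit 4) (nat_lit 511) (nat_lit 374) (nat_lit 315))) (XT.nd (nat_lit 78) (nat_lit 76) (nat_lit 0) (XT.lf (nat_lit 0) (nat_lit 12156251681) (nat_lit 152) (nat_lit 12041330774) (nat_lit 0) (nat_lit 593951159) (nat_lit 66) (nat_lit 5) (nat_lit 68) (nat_lit 4) (nat_lit 66) (nat_lit 4) (nat_lit 512) (nat_lit 374) (nat_lit 314)) (XT.lf (nat_lit 0) (nat_lit 4969349406) (nat_lit 76) (nat_lit 15966038038) (nat_lit 76) (nat_lit 4334891776)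 (nat_lit 65) (nat_lit 4) (nat_lit 66) (nat_lit 5) (nat_lit 66) (nat_lit 4) (nat_lit 513) (nat_lit 374) (nat_lit 313)))) (XT.nd (nat_lit 156) (nat_lit 152) (nat_lit 0) (XT.nd (nat_lit 78) (nat_lit 76) (nat_lit 0) (XT.lf (nat_lit 0) (nat_lit 4189048033) (nat_lit 152) (nat_lit 3194219278) (nat_lit 76) (nat_lit 18377201400) (nat_lit 64) (nat_lit 5) (nat_lit 66) (nat_lit 5) (nat_lit 65) (nat_lit 4) (nat_lit 514) (nat_lit 374) (nat_lit 312)) (XT.lf (nat_lit 0) (nat_lit 12972470696) (nat_lit 152) (nat_lit 11736680712) (nat_lit 0) (nat_lit 1552198367) (nat_lit 63) (nat_lit 5) (nat_lit 65) (nat_lit 4) (nat_lit 63) (nat_lit 4) (nat_lit 515) (nat_lit 374) (nat_lit 311))) (XT.nd (nat_lit 78) (nat_lit 76) (nat_lit 0) (XT.lf (nat_lit 0) (nat_lit 5981370684) (nat_lit 76) (nat_lit 16137176576) (nat_lit 76) (nat_lit 4655735699) (nat_lit 62) (nat_lit 4) (nat_lit 63) (nat_lit 5) (nat_lit 63) (nat_lit 4) (nat_lit 516) (nat_lit 374)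 (nat_lit 310)) (XT.lf (nat_lit 0) (nat_lit 4209439275) (nat_lit 152) (nat_lit 2995666087) (nat_lit 76) (nat_lit 20094606159) (nat_lit 61) (nat_lit 5) (nat_lit 63) (nat_lit 5) (nat_lit 62) (nat_lit 4) (nat_lit 517) (nat_lit 374) (nat_lit 309))))))) (XT.nd (nat_lit 1248) (nat_lit 988) (nat_lit 0) (XT.nd (nat_lit 624) (nat_lit 532) (nat_lit 0) (XT.nd (nat_lit 312) (nat_lit 304) (nat_lit 0) (XT.nd (nat_lit 156) (nat_lit 152) (nat_lit 0) (XT.nd (nat_lit 78) (nat_lit 76) (nat_lit 0) (XT.lf (nat_lit 0) (nat_lit 13354089270) (nat_lit 152) (nat_lit 12388793937) (nat_lit 0) (nat_lit 2093424182) (nat_lit 60) (nat_lit 5) (nat_lit 62) (nat_lit 4) (nat_lit 60) (nat_lit 4) (nat_lit 518) (nat_lit 374) (nat_lit 308)) (XT.lf (nat_lit 0) (nat_lit 6040881117) (nat_lit 76) (nat_lit 16830097879) (nat_lit 76) (nat_lit 5515085329) (nat_lit 59) (nat_lit 4) (nat_lit 60) (nat_lit 5) (nat_lit 60) (nat_lit 4) (nat_lit 519) (nat_lit 374) (nat_lit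 307))) (XT.nd (nat_lit 78) (nat_lit 76) (nat_lit 0) (XT.lf (nat_lit 0) (nat_lit 3712766972) (nat_lit 152) (nat_lit 3830860122) (nat_lit 76) (nat_lit 21405684486) (nat_lit 58) (nat_lit 5) (nat_lit 60) (nat_lit 5) (nat_lit 59) (nat_lit 4) (nat_lit 520) (nat_lit 374) (nat_lit 306)) (XT.lf (nat_lit 0) (nat_lit 13214955063) (nat_lit 152) (nat_lit 14181070126) (nat_lit 0) (nat_lit 2128542661) (nat_lit 57) (nat_lit 5) (nat_lit 59) (nat_lit 4) (nat_lit 57) (nat_lit 4) (nat_lit 521) (nat_lit 374) (nat_lit 305)))) (XT.nd (nat_lit 156) (nat_lit 152) (nat_lit 0) (XT.nd (nat_lit 78) (nat_lit 76) (nat_lit 0) (XT.lf (nat_lit 0) (nat_lit 4958192062) (nat_lit 76) (nat_lit 18145275785) (nat_lit 76) (nat_lit 7010576367) (nat_lit 56) (nat_lit 4) (nat_lit 57) (nat_lit 5) (nat_lit 57) (nat_lit 4) (nat_lit 522) (nat_lit 374) (nat_lit 304)) (XT.lf (nat_lit 0) (nat_lit 2601819560) (nat_lit 152) (nat_lit 5899886308) (nat_lit 76) (nat_lit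 22216224128) (nat_lit 55) (nat_lit 5) (nat_lit 57) (nat_lit 5) (nat_lit 56) (nat_lit 4) (nat_lit 523) (nat_lit 374) (nat_lit 303))) (XT.nd (nat_lit 78) (nat_lit 76) (nat_lit 0) (XT.lf (nat_lit 0) (nat_lit 12453320518) (nat_lit 152) (nat_lit 17328552354) (nat_lit 0) (nat_lit 1553228129) (nat_lit 54) (nat_lit 5) (nat_lit 56) (nat_lit 4) (nat_lit 54) (nat_lit 4) (nat_lit 524) (nat_lit 374) (nat_lit 302)) (XT.lf (nat_lit 0) (nat_lit 2510552864) (nat_lit 76) (nat_lit 20199962373) (nat_lit 76) (nat_lit 9256967594) (nat_lit 53) (nat_lit 4) (nat_lit 54) (nat_lit 5) (nat_lit 54) (nat_lit 4) (nat_lit 525) (nat_lit 374) (nat_lit 301))))) (XT.nd (nat_lit 312) (nat_lit 304) (nat_lit 0) (XT.nd (nat_lit 156) (nat_lit 76) (nat_lit 0) (XT.nd (nat_lit 78) (nat_lit 76) (nat_lit 0) (XT.lf (nat_lit 0) (nat_lit 762192435) (nat_lit 152) (nat_lit 9437396939) (nat_lit 76) (nat_lit 22415505089) (nat_lit 52) (nat_lit 5) (nat_lit 54) (nat_lit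 5) (nat_lit 53) (nat_lit 4) (nat_lit 526) (nat_lit 374) (nat_lit 300)) (XT.lf (nat_lit 0) (nat_lit 10949306626) (nat_lit 152) (nat_lit 22083136839) (nat_lit 0) (nat_lit 245338471) (nat_lit 51) (nat_lit 5) (nat_lit 53) (nat_lit 4) (nat_lit 51) (nat_lit 4) (nat_lit 527) (nat_lit 374) (nat_lit 299))) (XT.nd (nat_lit 78) (nat_lit 76) (nat_lit 0) (XT.lf (nat_lit 0) (nat_lit 21582706068) (nat_lit 152) (nat_lit 1532804254) (nat_lit 0) (nat_lit 10840619696) (nat_lit 51) (nat_lit 5) (nat_lit 53) (nat_lit 4) (nat_lit 51) (nat_lit 4) (nat_lit 528) (nat_lit 374) (nat_lit 298)) (XT.lf (nat_lit 0) (nat_lit 19913407616) (nat_lit 76) (nat_lit 12758210053) (nat_lit 76) (nat_lit 1979115704) (nat_lit 50) (nat_lit 4) (nat_lit 51) (nat_lit 5) (nat_lit 51) (nat_lit 4) (nat_lit 529) (nat_lit 374) (nat_lit 297)))) (XT.nd (nat_lit 156) (nat_lit 152) (nat_lit 0) (XT.nd (nat_lit 78) (nat_lit 0) (nat_lit 0) (XT.lf (nat_lit 0) (nat_lit 6604312762)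 (nat_lit 76) (nat_lit 1976641516) (nat_lit 152) (nat_lit 26781977149) (nat_lit 48) (nat_lit 5) (nat_lit 49) (nat_lit 5) (nat_lit 50) (nat_lit 4) (nat_lit 530) (nat_lit 374) (nat_lit 296)) (XT.lf (nat_lit 0) (nat_lit 19601240462) (nat_lit 152) (nat_lit 7421822254) (nat_lit 0) (nat_lit 9067349207) (nat_lit 48) (nat_lit 5) (nat_lit 50) (nat_lit 4) (nat_lit 48) (nat_lit 4) (nat_lit 531) (nat_lit 374) (nat_lit 295))) (XT.nd (nat_lit 78) (nat_lit 76) (nat_lit 0) (XT.lf (nat_lit 0) (nat_lit 14716587405) (nat_lit 76) (nat_lit 16343334160) (nat_lit 76) (nat_lit 5776561796) (nat_lit 47) (nat_lit 4) (nat_lit 48) (nat_lit 5) (nat_lit 48) (nat_lit 4) (nat_lit 532) (nat_lit 374) (nat_lit 294)) (XT.lf (nat_lit 0) (nat_lit 5177292646) (nat_lit 152) (nat_lit 88791697) (nat_lit 76) (nat_lit 32336662852) (nat_lit 46) (nat_lit 5) (nat_lit 48) (nat_lit 5) (nat_lit 47) (nat_lit 4) (nat_lit 533) (nat_lit 374) (nat_lit 293)))))) (XT.nd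 (nat_lit 624) (nat_lit 456) (nat_lit 0) (XT.nd (nat_lit 312) (nat_lit 228) (nat_lit 0) (XT.nd (nat_lit 156) (nat_lit 152) (nat_lit 0) (XT.nd (nat_lit 78) (nat_lit 76) (nat_lit 0) (XT.lf (nat_lit 0) (nat_lit 16573315730) (nat_lit 152) (nat_lit 15556848865) (nat_lit 0) (nat_lit 6253228964) (nat_lit 45) (nat_lit 5) (nat_lit 47) (nat_lit 4) (nat_lit 45) (nat_lit 4) (nat_lit 534) (nat_lit 374) (nat_lit 292)) (XT.lf (nat_lit 0) (nat_lit 7229597949) (nat_lit 76) (nat_lit 21152517894) (nat_lit 76) (nat_lit 10803216688) (nat_lit 44) (nat_lit 4) (nat_lit 45) (nat_lit 5) (nat_lit 45) (nat_lit 4) (nat_lit 535) (nat_lit 374) (nat_lit 291))) (XT.nd (nat_lit 78) (nat_lit 76) (nat_lit 0) (XT.lf (nat_lit 0) (nat_lit 630455066) (nat_lit 152) (nat_lit 9097840953) (nat_lit 76) (nat_lit 30279669138) (nat_lit 43) (nat_lit 5) (nat_lit 45) (nat_lit 5) (nat_lit 44) (nat_lit 4) (nat_lit 536) (nat_lit 374) (nat_lit 290)) (XT.lf (nat_lit 0)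 (nat_lit 12301033202) (nat_lit 152) (nat_lit 26348808684) (nat_lit 0) (nat_lit 2198895193) (nat_lit 42) (nat_lit 5) (nat_lit 44) (nat_lit 4) (nat_lit 42) (nat_lit 4) (nat_lit 537) (nat_lit 374) (nat_lit 289)))) (XT.nd (nat_lit 156) (nat_lit 152) (nat_lit 0) (XT.nd (nat_lit 78) (nat_lit 76) (nat_lit 0) (XT.lf (nat_lit 0) (nat_lit 24460736945) (nat_lit 152) (nat_lit 2917182777) (nat_lit 0) (nat_lit 14332642284) (nat_lit 42) (nat_lit 5) (nat_lit 44) (nat_lit 4) (nat_lit 42) (nat_lit 4) (nat_lit 538) (nat_lit 374) (nat_lit 288)) (XT.lf (nat_lit 0) (nat_lit 21540536027) (nat_lit 76) (nat_lit 15603124094) (nat_lit 76) (nat_lit 5449828802) (nat_lit 41) (nat_lit 4) (nat_lit 42) (nat_lit 5) (nat_lit 42) (nat_lit 4) (nat_lit 539) (nat_lit 374) (nat_lit 287))) (XT.nd (nat_lit 78) (nat_lit 0) (nat_lit 0) (XT.lf (nat_lit 0) (nat_lit 3190075344) (nat_lit 76) (nat_lit 3395066167) (nat_lit 152) (nat_lit 36915474988) (nat_lit 39)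 (nat_lit 5) (nat_lit 40) (nat_lit 5) (nat_lit 41) (nat_lit 4) (nat_lit 540) (nat_lit 374) (nat_lit 286)) (XT.lf (nat_lit 0) (nat_lit 19125970016) (nat_lit 152) (nat_lit 16078153243) (nat_lit 0) (nat_lit 9221585610) (nat_lit 39) (nat_lit 5) (nat_lit 41) (nat_lit 4) (nat_lit 39) (nat_lit 4) (nat_lit 541) (nat_lit 374) (nat_lit 285))))) (XT.nd (nat_lit 312) (nat_lit 228) (nat_lit 0) (XT.nd (nat_lit 156) (nat_lit 152) (nat_lit 0) (XT.nd (nat_lit 78) (nat_lit 0) (nat_lit 0) (XT.lf (nat_lit 0) (nat_lit 8927396996) (nat_lit 76) (nat_lit 23187882133) (nat_lit 76) (nat_lit 13261107292) (nat_lit 38) (nat_lit 4) (nat_lit 39) (nat_lit 5) (nat_lit 39) (nat_lit 4) (nat_lit 542) (nat_lit 374) (nat_lit 284)) (XT.lf (nat_lit 0) (nat_lit 34919225153) (nat_lit 76) (nat_lit 10690701292) (nat_lit 76) (nat_lit 742188164) (nat_lit 38) (nat_lit 4) (nat_lit 39) (nat_lit 5) (nat_lit 39) (nat_lit 4) (nat_lit 543) (nat_lit 374) (nat_lit 283)))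 (XT.nd (nat_lit 78) (nat_lit 0) (nat_lit 0) (XT.lf (nat_lit 0) (nat_lit 12030913827) (nat_lit 152) (nat_lit 32967551123) (nat_lit 0) (nat_lit 2351672798) (nat_lit 36) (nat_lit 5) (nat_lit 38) (nat_lit 4) (nat_lit 36) (nat_lit 4) (nat_lit 544) (nat_lit 374) (nat_lit 282)) (XT.lf (nat_lit 0) (nat_lit 25348969637) (nat_lit 152) (nat_lit 7373776225) (nat_lit 0) (nat_lit 15649834997) (nat_lit 36) (nat_lit 5) (nat_lit 38) (nat_lit 4) (nat_lit 36) (nat_lit 4) (nat_lit 545) (nat_lit 374) (nat_lit 281)))) (XT.nd (nat_lit 156) (nat_lit 76) (nat_lit 0) (XT.nd (nat_lit 78) (nat_lit 76) (nat_lit 0) (XT.lf (nat_lit 0) (nat_lit 19274917350) (nat_lit 76) (nat_lit 19932501629) (nat_lit 76) (nat_lit 10214052802) (nat_lit 35) (nat_lit 4) (nat_lit 36) (nat_lit 5) (nat_lit 36) (nat_lit 4) (nat_lit 546) (nat_lit 374) (nat_lit 280)) (XT.lf (nat_lit 0) (nat_lit 2952424602) (nat_lit 152) (nat_lit 3743778520) (nat_lit 76) (nat_lit 43803843705)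 (nat_lit 34) (nat_lit 5) (nat_lit 36) (nat_lit 5) (nat_lit 35) (nat_lit 4) (nat_lit 547) (nat_lit 374) (nat_lit 279))) (XT.nd (nat_lit 78) (nat_lit 0) (nat_lit 0) (XT.lf (nat_lit 0) (nat_lit 16563079790) (nat_lit 152) (nat_lit 27945419356) (nat_lit 0) (nat_lit 7091811891) (nat_lit 33) (nat_lit 5) (nat_lit 35) (nat_lit 4) (nat_lit 33) (nat_lit 4) (nat_lit 548) (nat_lit 374) (nat_lit 278)) (XT.lf (nat_lit 0) (nat_lit 30643428369) (nat_lit 152) (nat_lit 933313592) (nat_lit 0) (nat_lit 21155000066) (nat_lit 33) (nat_lit 5) (nat_lit 35) (nat_lit 4) (nat_lit 33) (nat_lit 4) (nat_lit 549) (nat_lit 374) (nat_lit 277))))))))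
noncomputable def xc43 : XT := (XT.nd (nat_lit 56706) (nat_lit 0) (nat_lit 3268) (XT.nd (nat_lit 55458) (nat_lit 0) (nat_lit 6916) (XT.nd (nat_lit 54834) (nat_lit 0) (nat_lit 10032) (XT.nd (nat_lit 234) (nat_lit 76) (nat_lit 0) (XT.nd (nat_lit 78) (nat_lit 152) (nat_lit 0) (XT.lf (nat_lit 0) (nat_lit 27338692882) (nat_lit 76) (nat_lit 18028441798) (nat_lit 76) (nat_lit 8523352908) (nat_lit 32) (nat_lit 4) (nat_lit 33) (nat_lit 5) (nat_lit 33) (nat_lit 4) (nat_lit 550) (nat_lit 374) (nat_lit 276)) (XT.nd (nat_lit 78) (nat_lit 0) (nat_lit 0) (XT.lf (nat_lit 0) (nat_lit 1282895891) (nat_lit 76) (nat_lit 4039350466) (nat_lit 152) (nat_lit 49760777649) (nat_lit 30) (nat_lit 5) (nat_lit 31) (nat_lit 5) (nat_lit 32) (nat_lit 4) (nat_lit 551) (nat_lit 374) (nat_lit 275)) (XT.lf (nat_lit 0) (nat_lit 19740534916) (nat_lit 152) (nat_lit 26077068724) (nat_lit 0) (nat_lit 10481342278) (nat_lit 30) (nat_lit 5) (nat_lit 32) (nat_lit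 4) (nat_lit 30) (nat_lit 4) (nat_lit 552) (nat_lit 374) (nat_lit 274)))) (XT.nd (nat_lit 54444) (nat_lit 0) (nat_lit 12160) (XT.nd (nat_lit 78) (nat_lit 0) (nat_lit 0) (XT.lf (nat_lit 0) (nat_lit 2403059517) (nat_lit 76) (nat_lit 32210803328) (nat_lit 76) (nat_lit 22936807974) (nat_lit 29) (nat_lit 4) (nat_lit 30) (nat_lit 5) (nat_lit 30) (nat_lit 4) (nat_lit 553) (nat_lit 374) (nat_lit 273)) (XT.lf (nat_lit 0) (nat_lit 32191423472) (nat_lit 76) (nat_lit 17965098514) (nat_lit 76) (nat_lit 8676731592) (nat_lit 29) (nat_lit 4) (nat_lit 30) (nat_lit 5) (nat_lit 30) (nat_lit 4) (nat_lit 554) (nat_lit 374) (nat_lit 272))) (XT.nd (nat_lit 78) (nat_lit 304) (nat_lit 0) (XT.lf (nat_lit 0) (nat_lit 1135525000) (nat_lit 380) (nat_lit 2290495742) (nat_lit 0) (nat_lit 1135525000) (nat_lit 193) (nat_lit 5) (nat_lit 198) (nat_lit 4) (nat_lit 193) (nat_lit 4) (nat_lit 450) (nat_lit 375) (nat_lit 375)) (XT.lf (nat_lit 0) (nat_lit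 3596929507) (nat_lit 304) (nat_lit 3255995359) (nat_lit 304) (nat_lit 2381256548) (nat_lit 189) (nat_lit 4) (nat_lit 193) (nat_lit 5) (nat_lit 193) (nat_lit 4) (nat_lit 451) (nat_lit 375) (nat_lit 374))))) (XT.nd (nat_lit 312) (nat_lit 1140) (nat_lit 0) (XT.nd (nat_lit 156) (nat_lit 304) (nat_lit 0) (XT.nd (nat_lit 78) (nat_lit 304) (nat_lit 0) (XT.lf (nat_lit 0) (nat_lit 2150381897) (nat_lit 380) (nat_lit 6721884578) (nat_lit 0) (nat_lit 476595691) (nat_lit 184) (nat_lit 5) (nat_lit 189) (nat_lit 4) (nat_lit 184) (nat_lit 4) (nat_lit 452) (nat_lit 375) (nat_lit 373)) (XT.lf (nat_lit 0) (nat_lit 1598640976) (nat_lit 304) (nat_lit 5170974462) (nat_lit 304) (nat_lit 2696678329) (nat_lit 180) (nat_lit 4) (nat_lit 184) (nat_lit 5) (nat_lit 184) (nat_lit 4) (nat_lit 453) (nat_lit 375) (nat_lit 372))) (XT.nd (nat_lit 78) (nat_lit 0) (nat_lit 0) (XT.lf (nat_lit 0) (nat_lit 546642883) (nat_lit 228) (nat_lit 1324358653)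 (nat_lit 304) (nat_lit 7716629528) (nat_lit 176) (nat_lit 5) (nat_lit 179) (nat_lit 5) (nat_lit 180) (nat_lit 4) (nat_lit 454) (nat_lit 375) (nat_lit 371)) (XT.lf (nat_lit 0) (nat_lit 6522876318) (nat_lit 304) (nat_lit 555383203) (nat_lit 0) (nat_lit 2633509698) (nat_lit 176) (nat_lit 5) (nat_lit 180) (nat_lit 4) (nat_lit 176) (nat_lit 4) (nat_lit 455) (nat_lit 375) (nat_lit 370)))) (XT.nd (nat_lit 156) (nat_lit 532) (nat_lit 0) (XT.nd (nat_lit 78) (nat_lit 228) (nat_lit 0) (XT.lf (nat_lit 0) (nat_lit 1436251693) (nat_lit 380) (nat_lit 1685018383) (nat_lit 76) (nat_lit 6718228145) (nat_lit 171) (nat_lit 5) (nat_lit 176) (nat_lit 5) (nat_lit 172) (nat_lit 4) (nat_lit 456) (nat_lit 375) (nat_lit 369)) (XT.lf (nat_lit 0) (nat_lit 6118925466) (nat_lit 304) (nat_lit 2869802822) (nat_lit 0) (nat_lit 981900013) (nat_lit 168) (nat_lit 5) (nat_lit 172) (nat_lit 4) (nat_lit 168) (nat_lit 4) (nat_lit 457) (nat_lit 375) (nat_lit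 368))) (XT.nd (nat_lit 78) (nat_lit 228) (nat_lit 0) (XT.lf (nat_lit 0) (nat_lit 825929156) (nat_lit 304) (nat_lit 4111277092) (nat_lit 76) (nat_lit 5168071270) (nat_lit 164) (nat_lit 5) (nat_lit 168) (nat_lit 5) (nat_lit 165) (nat_lit 4) (nat_lit 458) (nat_lit 375) (nat_lit 367)) (XT.lf (nat_lit 0) (nat_lit 4831606713) (nat_lit 228) (nat_lit 710979454) (nat_lit 304) (nat_lit 4700954877) (nat_lit 161) (nat_lit 5) (nat_lit 164) (nat_lit 5) (nat_lit 165) (nat_lit 4) (nat_lit 459) (nat_lit 375) (nat_lit 366)))))) (XT.nd (nat_lit 624) (nat_lit 1368) (nat_lit 0) (XT.nd (nat_lit 312) (nat_lit 912) (nat_lit 0) (XT.nd (nat_lit 156) (nat_lit 304) (nat_lit 0) (XT.nd (nat_lit 78) (nat_lit 228) (nat_lit 0) (XT.lf (nat_lit 0) (nat_lit 27422937) (nat_lit 304) (nat_lit 6772843485) (nat_lit 76) (nat_lit 3585296275) (nat_lit 157) (nat_lit 5) (nat_lit 161) (nat_lit 5) (nat_lit 158) (nat_lit 4) (nat_lit 460) (nat_lit 375) (nat_lit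 365)) (XT.lf (nat_lit 0) (nat_lit 2315113935) (nat_lit 228) (nat_lit 2474014826) (nat_lit 304) (nat_lit 5741743135) (nat_lit 154) (nat_lit 5) (nat_lit 157) (nat_lit 5) (nat_lit 158) (nat_lit 4) (nat_lit 461) (nat_lit 375) (nat_lit 364))) (XT.nd (nat_lit 78) (nat_lit 76) (nat_lit 0) (XT.lf (nat_lit 0) (nat_lit 969799716) (nat_lit 228) (nat_lit 8723474112) (nat_lit 228) (nat_lit 987280900) (nat_lit 151) (nat_lit 4) (nat_lit 154) (nat_lit 5) (nat_lit 154) (nat_lit 4) (nat_lit 462) (nat_lit 375) (nat_lit 363)) (XT.lf (nat_lit 0) (nat_lit 3844261209) (nat_lit 304) (nat_lit 461574322) (nat_lit 76) (nat_lit 6527444673) (nat_lit 150) (nat_lit 5) (nat_lit 154) (nat_lit 5) (nat_lit 151) (nat_lit 4) (nat_lit 463) (nat_lit 375) (nat_lit 362)))) (XT.nd (nat_lit 156) (nat_lit 456) (nat_lit 0) (XT.nd (nat_lit 78) (nat_lit 304) (nat_lit 0) (XT.lf (nat_lit 0) (nat_lit 8796079706) (nat_lit 228) (nat_lit 1921816783) (nat_lit 0) (nat_lit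 272544328) (nat_lit 148) (nat_lit 5) (nat_lit 151) (nat_lit 4) (nat_lit 148) (nat_lit 4) (nat_lit 464) (nat_lit 375) (nat_lit 361)) (XT.lf (nat_lit 0) (nat_lit 2717989259) (nat_lit 304) (nat_lit 3490338851) (nat_lit 76) (nat_lit 4942376489) (nat_lit 144) (nat_lit 5) (nat_lit 148) (nat_lit 5) (nat_lit 145) (nat_lit 4) (nat_lit 465) (nat_lit 375) (nat_lit 360))) (XT.nd (nat_lit 78) (nat_lit 304) (nat_lit 0) (XT.lf (nat_lit 0) (nat_lit 6191285231) (nat_lit 152) (nat_lit 1527610085) (nat_lit 228) (nat_lit 3596672171) (nat_lit 142) (nat_lit 5) (nat_lit 144) (nat_lit 5) (nat_lit 145) (nat_lit 4) (nat_lit 466) (nat_lit 375) (nat_lit 359)) (XT.lf (nat_lit 0) (nat_lit 1376261338) (nat_lit 304) (nat_lit 6851424326) (nat_lit 76) (nat_lit 3256728190) (nat_lit 138) (nat_lit 5) (nat_lit 142) (nat_lit 5) (nat_lit 139) (nat_lit 4) (nat_lit 467) (nat_lit 375) (nat_lit 358))))) (XT.nd (nat_lit 312) (nat_lit 760) (nat_lit 0) (XT.nd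 (nat_lit 156) (nat_lit 228) (nat_lit 0) (XT.nd (nat_lit 78) (nat_lit 228) (nat_lit 0) (XT.lf (nat_lit 0) (nat_lit 2975431846) (nat_lit 152) (nat_lit 3453622449) (nat_lit 228) (nat_lit 5228115698) (nat_lit 136) (nat_lit 5) (nat_lit 138) (nat_lit 5) (nat_lit 139) (nat_lit 4) (nat_lit 468) (nat_lit 375) (nat_lit 357)) (XT.lf (nat_lit 0) (nat_lit 1251036858) (nat_lit 228) (nat_lit 10385833914) (nat_lit 228) (nat_lit 198136339) (nat_lit 133) (nat_lit 4) (nat_lit 136) (nat_lit 5) (nat_lit 136) (nat_lit 4) (nat_lit 469) (nat_lit 375) (nat_lit 356))) (XT.nd (nat_lit 78) (nat_lit 152) (nat_lit 0) (XT.lf (nat_lit 0) (nat_lit 4915951403) (nat_lit 304) (nat_lit 602114064) (nat_lit 76) (nat_lit 6497765154) (nat_lit 132) (nat_lit 5) (nat_lit 136) (nat_lit 5) (nat_lit 133) (nat_lit 4) (nat_lit 470) (nat_lit 375) (nat_lit 355)) (XT.lf (nat_lit 0) (nat_lit 9708066123) (nat_lit 152) (nat_lit 475130692) (nat_lit 228) (nat_lit 2018713008)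 (nat_lit 130) (nat_lit 5) (nat_lit 132) (nat_lit 5) (nat_lit 133) (nat_lit 4) (nat_lit 471) (nat_lit 375) (nat_lit 354)))) (XT.nd (nat_lit 156) (nat_lit 380) (nat_lit 0) (XT.nd (nat_lit 78) (nat_lit 152) (nat_lit 0) (XT.lf (nat_lit 0) (nat_lit 3190775560) (nat_lit 228) (nat_lit 4527595170) (nat_lit 76) (nat_lit 4673116207) (nat_lit 127) (nat_lit 5) (nat_lit 130) (nat_lit 5) (nat_lit 128) (nat_lit 4) (nat_lit 472) (nat_lit 375) (nat_lit 353)) (XT.lf (nat_lit 0) (nat_lit 5928975643) (nat_lit 152) (nat_lit 2585176810) (nat_lit 228) (nat_lit 4072055204) (nat_lit 125) (nat_lit 5) (nat_lit 127) (nat_lit 5) (nat_lit 128) (nat_lit 4) (nat_lit 473) (nat_lit 375) (nat_lit 352))) (XT.nd (nat_lit 78) (nat_lit 152) (nat_lit 0) (XT.lf (nat_lit 0) (nat_lit 1208101884) (nat_lit 228) (nat_lit 8901385518) (nat_lit 76) (nat_lit 2676296851) (nat_lit 122) (nat_lit 5) (nat_lit 125) (nat_lit 5) (nat_lit 123) (nat_lit 4) (nat_lit 474)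 (nat_lit 375) (nat_lit 351)) (XT.lf (nat_lit 0) (nat_lit 1696068308) (nat_lit 152) (nat_lit 4890185057) (nat_lit 228) (nat_lit 6403243379) (nat_lit 120) (nat_lit 5) (nat_lit 122) (nat_lit 5) (nat_lit 123) (nat_lit 4) (nat_lit 475) (nat_lit 375) (nat_lit 350))))))) (XT.nd (nat_lit 1248) (nat_lit 1672) (nat_lit 0) (XT.nd (nat_lit 624) (nat_lit 912) (nat_lit 0) (XT.nd (nat_lit 312) (nat_lit 456) (nat_lit 0) (XT.nd (nat_lit 156) (nat_lit 380) (nat_lit 0) (XT.nd (nat_lit 78) (nat_lit 228) (nat_lit 0) (XT.lf (nat_lit 0) (nat_lit 12133208052) (nat_lit 228) (nat_lit 568500954) (nat_lit 0) (nat_lit 497388950) (nat_lit 120) (nat_lit 5) (nat_lit 123) (nat_lit 4) (nat_lit 120) (nat_lit 4) (nat_lit 476) (nat_lit 375) (nat_lit 349)) (XT.lf (nat_lit 0) (nat_lit 4409458943) (nat_lit 228) (nat_lit 2977640022) (nat_lit 76) (nat_lit 6024680782) (nat_lit 117) (nat_lit 5) (nat_lit 120) (nat_lit 5) (nat_lit 118) (nat_lit 4) (nat_lit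 477) (nat_lit 375) (nat_lit 348))) (XT.nd (nat_lit 78) (nat_lit 228) (nat_lit 0) (XT.lf (nat_lit 0) (nat_lit 8140341599) (nat_lit 152) (nat_lit 1886097422) (nat_lit 228) (nat_lit 3604123559) (nat_lit 115) (nat_lit 5) (nat_lit 117) (nat_lit 5) (nat_lit 118) (nat_lit 4) (nat_lit 478) (nat_lit 375) (nat_lit 347)) (XT.lf (nat_lit 0) (nat_lit 1954942052) (nat_lit 228) (nat_lit 8157226368) (nat_lit 76) (nat_lit 3742064616) (nat_lit 112) (nat_lit 5) (nat_lit 115) (nat_lit 5) (nat_lit 113) (nat_lit 4) (nat_lit 479) (nat_lit 375) (nat_lit 346)))) (XT.nd (nat_lit 156) (nat_lit 152) (nat_lit 0) (XT.nd (nat_lit 78) (nat_lit 152) (nat_lit 0) (XT.lf (nat_lit 0) (nat_lit 3098779430) (nat_lit 152) (nat_lit 4529242701) (nat_lit 228) (nat_lit 6454931413) (nat_lit 110) (nat_lit 5) (nat_lit 112) (nat_lit 5) (nat_lit 113) (nat_lit 4) (nat_lit 480) (nat_lit 375) (nat_lit 345)) (XT.lf (nat_lit 0) (nat_lit 381988237) (nat_lit 152) (nat_lit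 13103435695) (nat_lit 152) (nat_lit 832688757) (nat_lit 108) (nat_lit 4) (nat_lit 110) (nat_lit 5) (nat_lit 110) (nat_lit 4) (nat_lit 481) (nat_lit 375) (nat_lit 344))) (XT.nd (nat_lit 78) (nat_lit 76) (nat_lit 0) (XT.lf (nat_lit 0) (nat_lit 4934003248) (nat_lit 228) (nat_lit 2492974513) (nat_lit 76) (nat_lit 7129743806) (nat_lit 107) (nat_lit 5) (nat_lit 110) (nat_lit 5) (nat_lit 108) (nat_lit 4) (nat_lit 482) (nat_lit 375) (nat_lit 343)) (XT.lf (nat_lit 0) (nat_lit 9314883597) (nat_lit 76) (nat_lit 1549746664) (nat_lit 152) (nat_lit 3937381825) (nat_lit 106) (nat_lit 5) (nat_lit 107) (nat_lit 5) (nat_lit 108) (nat_lit 4) (nat_lit 483) (nat_lit 375) (nat_lit 342))))) (XT.nd (nat_lit 312) (nat_lit 380) (nat_lit 0) (XT.nd (nat_lit 156) (nat_lit 228) (nat_lit 0) (XT.nd (nat_lit 78) (nat_lit 76) (nat_lit 0) (XT.lf (nat_lit 0) (nat_lit 1930223897) (nat_lit 228) (nat_lit 8668920478) (nat_lit 76) (nat_lit 4453490077)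 (nat_lit 103) (nat_lit 5) (nat_lit 106) (nat_lit 5) (nat_lit 104) (nat_lit 4) (nat_lit 484) (nat_lit 375) (nat_lit 341)) (XT.lf (nat_lit 0) (nat_lit 3270486723) (nat_lit 76) (nat_lit 4645497245) (nat_lit 152) (nat_lit 7392984844) (nat_lit 102) (nat_lit 5) (nat_lit 103) (nat_lit 5) (nat_lit 104) (nat_lit 4) (nat_lit 485) (nat_lit 375) (nat_lit 340))) (XT.nd (nat_lit 78) (nat_lit 76) (nat_lit 0) (XT.lf (nat_lit 0) (nat_lit 7654623) (nat_lit 152) (nat_lit 14095201361) (nat_lit 152) (nat_lit 1469491776) (nat_lit 100) (nat_lit 4) (nat_lit 102) (nat_lit 5) (nat_lit 102) (nat_lit 4) (nat_lit 486) (nat_lit 375) (nat_lit 339)) (XT.lf (nat_lit 0) (nat_lit 4628972720) (nat_lit 228) (nat_lit 3422617404) (nat_lit 76) (nat_lit 7788073521) (nat_lit 99) (nat_lit 5) (nat_lit 102) (nat_lit 5) (nat_lit 100) (nat_lit 4) (nat_lit 487) (nat_lit 375) (nat_lit 338)))) (XT.nd (nat_lit 156) (nat_lit 76) (nat_lit 0) (XT.nd (nat_lit 78) (nat_lit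 228) (nat_lit 0) (XT.lf (nat_lit 0) (nat_lit 9098296798) (nat_lit 76) (nat_lit 1791264219) (nat_lit 152) (nat_lit 5224741020) (nat_lit 98) (nat_lit 5) (nat_lit 99) (nat_lit 5) (nat_lit 100) (nat_lit 4) (nat_lit 488) (nat_lit 375) (nat_lit 337)) (XT.lf (nat_lit 0) (nat_lit 977781299) (nat_lit 228) (nat_lit 10821039933) (nat_lit 76) (nat_lit 4596427116) (nat_lit 95) (nat_lit 5) (nat_lit 98) (nat_lit 5) (nat_lit 96) (nat_lit 4) (nat_lit 489) (nat_lit 375) (nat_lit 336))) (XT.nd (nat_lit 78) (nat_lit 0) (nat_lit 0) (XT.lf (nat_lit 0) (nat_lit 1820064272) (nat_lit 76) (nat_lit 5469650074) (nat_lit 152) (nat_lit 9392506995) (nat_lit 94) (nat_lit 5) (nat_lit 95) (nat_lit 5) (nat_lit 96) (nat_lit 4) (nat_lit 490) (nat_lit 375) (nat_lit 335)) (XT.lf (nat_lit 0) (nat_lit 13833211549) (nat_lit 152) (nat_lit 2072408556) (nat_lit 0) (nat_lit 1070917828) (nat_lit 94) (nat_lit 5) (nat_lit 96) (nat_lit 4) (nat_lit 94) (nat_lit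 4) (nat_lit 491) (nat_lit 375) (nat_lit 334)))))) (XT.nd (nat_lit 624) (nat_lit 760) (nat_lit 0) (XT.nd (nat_lit 312) (nat_lit 380) (nat_lit 0) (XT.nd (nat_lit 156) (nat_lit 228) (nat_lit 0) (XT.nd (nat_lit 78) (nat_lit 76) (nat_lit 0) (XT.lf (nat_lit 0) (nat_lit 3314991032) (nat_lit 228) (nat_lit 6190375998) (nat_lit 76) (nat_lit 7770790046) (nat_lit 91) (nat_lit 5) (nat_lit 94) (nat_lit 5) (nat_lit 92) (nat_lit 4) (nat_lit 492) (nat_lit 375) (nat_lit 333)) (XT.lf (nat_lit 0) (nat_lit 7058783857) (nat_lit 76) (nat_lit 2858220052) (nat_lit 152) (nat_lit 7666434056) (nat_lit 90) (nat_lit 5) (nat_lit 91) (nat_lit 5) (nat_lit 92) (nat_lit 4) (nat_lit 493) (nat_lit 375) (nat_lit 332))) (XT.nd (nat_lit 78) (nat_lit 76) (nat_lit 0) (XT.lf (nat_lit 0) (nat_lit 2805166866) (nat_lit 152) (nat_lit 13964655556) (nat_lit 152) (nat_lit 1128533031) (nat_lit 88) (nat_lit 4) (nat_lit 90) (nat_lit 5) (nat_lit 90) (nat_lit 4) (nat_lit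 494) (nat_lit 375) (nat_lit 331)) (XT.lf (nat_lit 0) (nat_lit 5556147463) (nat_lit 228) (nat_lit 1697092388) (nat_lit 76) (nat_lit 10966063823) (nat_lit 87) (nat_lit 5) (nat_lit 90) (nat_lit 5) (nat_lit 88) (nat_lit 4) (nat_lit 495) (nat_lit 375) (nat_lit 330)))) (XT.nd (nat_lit 156) (nat_lit 76) (nat_lit 0) (XT.nd (nat_lit 78) (nat_lit 228) (nat_lit 0) (XT.lf (nat_lit 0) (nat_lit 12186790380) (nat_lit 76) (nat_lit 275640724) (nat_lit 152) (nat_lit 6085802160) (nat_lit 86) (nat_lit 5) (nat_lit 87) (nat_lit 5) (nat_lit 88) (nat_lit 4) (nat_lit 496) (nat_lit 375) (nat_lit 329)) (XT.lf (nat_lit 0) (nat_lit 759575349) (nat_lit 228) (nat_lit 11316178855) (nat_lit 76) (nat_lit 6808553982) (nat_lit 83) (nat_lit 5) (nat_lit 86) (nat_lit 5) (nat_lit 84) (nat_lit 4) (nat_lit 497) (nat_lit 375) (nat_lit 328))) (XT.nd (nat_lit 78) (nat_lit 0) (nat_lit 0) (XT.lf (nat_lit 0) (nat_lit 2664870918) (nat_lit 76) (nat_lit 5043173809)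 (nat_lit 152) (nat_lit 11520011932) (nat_lit 82) (nat_lit 5) (nat_lit 83) (nat_lit 5) (nat_lit 84) (nat_lit 4) (nat_lit 498) (nat_lit 375) (nat_lit 327)) (XT.lf (nat_lit 0) (nat_lit 14928495236) (nat_lit 152) (nat_lit 2444756975) (nat_lit 0) (nat_lit 2206959993) (nat_lit 82) (nat_lit 5) (nat_lit 84) (nat_lit 4) (nat_lit 82) (nat_lit 4) (nat_lit 499) (nat_lit 375) (nat_lit 326))))) (XT.nd (nat_lit 312) (nat_lit 304) (nat_lit 0) (XT.nd (nat_lit 156) (nat_lit 152) (nat_lit 0) (XT.nd (nat_lit 78) (nat_lit 76) (nat_lit 0) (XT.lf (nat_lit 0) (nat_lit 2472100779) (nat_lit 228) (nat_lit 7816962178) (nat_lit 76) (nat_lit 9650268787) (nat_lit 79) (nat_lit 5) (nat_lit 82) (nat_lit 5) (nat_lit 80) (nat_lit 4) (nat_lit 500) (nat_lit 375) (nat_lit 325)) (XT.lf (nat_lit 0) (nat_lit 6817815343) (nat_lit 76) (nat_lit 2917957714) (nat_lit 152) (nat_lit 10571481463) (nat_lit 78) (nat_lit 5) (nat_lit 79) (nat_lit 5) (nat_lit 80) (nat_lit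 4) (nat_lit 501) (nat_lit 375) (nat_lit 324))) (XT.nd (nat_lit 78) (nat_lit 76) (nat_lit 0) (XT.lf (nat_lit 0) (nat_lit 1208709665) (nat_lit 76) (nat_lit 16074207951) (nat_lit 76) (nat_lit 3401330880) (nat_lit 77) (nat_lit 4) (nat_lit 78) (nat_lit 5) (nat_lit 78) (nat_lit 4) (nat_lit 502) (nat_lit 375) (nat_lit 323)) (XT.lf (nat_lit 0) (nat_lit 4001994016) (nat_lit 152) (nat_lit 4649931506) (nat_lit 76) (nat_lit 12416603935) (nat_lit 76) (nat_lit 5) (nat_lit 78) (nat_lit 5) (nat_lit 77) (nat_lit 4) (nat_lit 503) (nat_lit 375) (nat_lit 322)))) (XT.nd (nat_lit 156) (nat_lit 152) (nat_lit 0) (XT.nd (nat_lit 78) (nat_lit 76) (nat_lit 0) (XT.lf (nat_lit 0) (nat_lit 10661556848) (nat_lit 76) (nat_lit 931395748) (nat_lit 152) (nat_lit 9869359386) (nat_lit 75) (nat_lit 5) (nat_lit 76) (nat_lit 5) (nat_lit 77) (nat_lit 4) (nat_lit 504) (nat_lit 375) (nat_lit 321)) (XT.lf (nat_lit 0) (nat_lit 4548647806) (nat_lit 76) (nat_lit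 14953149513) (nat_lit 76) (nat_lit 2363406281) (nat_lit 74) (nat_lit 4) (nat_lit 75) (nat_lit 5) (nat_lit 75) (nat_lit 4) (nat_lit 505) (nat_lit 375) (nat_lit 320))) (XT.nd (nat_lit 78) (nat_lit 76) (nat_lit 0) (XT.lf (nat_lit 0) (nat_lit 5313928815) (nat_lit 152) (nat_lit 1892295811) (nat_lit 76) (nat_lit 15070881312) (nat_lit 73) (nat_lit 5) (nat_lit 75) (nat_lit 5) (nat_lit 74) (nat_lit 4) (nat_lit 506) (nat_lit 375) (nat_lit 319)) (XT.lf (nat_lit 0) (nat_lit 13251757374) (nat_lit 152) (nat_lit 8589753622) (nat_lit 0) (nat_lit 856822393) (nat_lit 72) (nat_lit 5) (nat_lit 74) (nat_lit 4) (nat_lit 72) (nat_lit 4) (nat_lit 507) (nat_lit 375) (nat_lit 318))))))))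
noncomputable def xc44 : XT := (XT.nd (nat_lit 2418) (nat_lit 988) (nat_lit 0) (XT.nd (nat_lit 1170) (nat_lit 1140) (nat_lit 0) (XT.nd (nat_lit 546) (nat_lit 608) (nat_lit 0) (XT.nd (nat_lit 234) (nat_lit 304) (nat_lit 0) (XT.nd (nat_lit 78) (nat_lit 152) (nat_lit 0) (XT.lf (nat_lit 0) (nat_lit 7440664746) (nat_lit 76) (nat_lit 14082899160) (nat_lit 76) (nat_lit 1605758765) (nat_lit 71) (nat_lit 4) (nat_lit 72) (nat_lit 5) (nat_lit 72) (nat_lit 4) (nat_lit 508) (nat_lit 375) (nat_lit 317)) (XT.nd (nat_lit 78) (nat_lit 0) (nat_lit 0) (XT.lf (nat_lit 0) (nat_lit 371953483) (nat_lit 76) (nat_lit 5996965215) (nat_lit 152) (nat_lit 17201710501) (nat_lit 69) (nat_lit 5) (nat_lit 70) (nat_lit 5) (nat_lit 71) (nat_lit 4) (nat_lit 509) (nat_lit 375) (nat_lit 316)) (XT.lf (nat_lit 0) (nat_lit 14666780209) (nat_lit 152) (nat_lit 6954095911) (nat_lit 0) (nat_lit 2400335585) (nat_lit 69) (nat_lit 5) (nat_lit 71) (nat_lit 4)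 (nat_lit 69) (nat_lit 4) (nat_lit 510) (nat_lit 375) (nat_lit 315)))) (XT.nd (nat_lit 156) (nat_lit 76) (nat_lit 0) (XT.nd (nat_lit 78) (nat_lit 152) (nat_lit 0) (XT.lf (nat_lit 0) (nat_lit 9783354210) (nat_lit 76) (nat_lit 13519383011) (nat_lit 76) (nat_lit 1179899942) (nat_lit 68) (nat_lit 4) (nat_lit 69) (nat_lit 5) (nat_lit 69) (nat_lit 4) (nat_lit 511) (nat_lit 375) (nat_lit 314)) (XT.lf (nat_lit 0) (nat_lit 2053418893) (nat_lit 76) (nat_lit 5071612177) (nat_lit 152) (nat_lit 17829993565) (nat_lit 66) (nat_lit 5) (nat_lit 67) (nat_lit 5) (nat_lit 68) (nat_lit 4) (nat_lit 512) (nat_lit 375) (nat_lit 313))) (XT.nd (nat_lit 78) (nat_lit 76) (nat_lit 0) (XT.lf (nat_lit 0) (nat_lit 15776053123) (nat_lit 152) (nat_lit 6001274440) (nat_lit 0) (nat_lit 3660286210) (nat_lit 66) (nat_lit 5) (nat_lit 68) (nat_lit 4) (nat_lit 66) (nat_lit 4) (nat_lit 513) (nat_lit 375) (nat_lit 312)) (XT.lf (nat_lit 0) (nat_lit 11456968340)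 (nat_lit 76) (nat_lit 13327715386) (nat_lit 76) (nat_lit 1147054759) (nat_lit 65) (nat_lit 4) (nat_lit 66) (nat_lit 5) (nat_lit 66) (nat_lit 4) (nat_lit 514) (nat_lit 375) (nat_lit 311))))) (XT.nd (nat_lit 312) (nat_lit 228) (nat_lit 0) (XT.nd (nat_lit 156) (nat_lit 228) (nat_lit 0) (XT.nd (nat_lit 78) (nat_lit 0) (nat_lit 0) (XT.lf (nat_lit 0) (nat_lit 2984992420) (nat_lit 76) (nat_lit 4516808885) (nat_lit 152) (nat_lit 18935857634) (nat_lit 63) (nat_lit 5) (nat_lit 64) (nat_lit 5) (nat_lit 65) (nat_lit 4) (nat_lit 515) (nat_lit 375) (nat_lit 310)) (XT.lf (nat_lit 0) (nat_lit 16516343720) (nat_lit 152) (nat_lit 5868290407) (nat_lit 0) (nat_lit 4569904128) (nat_lit 63) (nat_lit 5) (nat_lit 65) (nat_lit 4) (nat_lit 63) (nat_lit 4) (nat_lit 516) (nat_lit 375) (nat_lit 309))) (XT.nd (nat_lit 78) (nat_lit 152) (nat_lit 0) (XT.lf (nat_lit 0) (nat_lit 12320317328) (nat_lit 76) (nat_lit 13583809754) (nat_lit 76) (nat_lit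 1579712939) (nat_lit 62) (nat_lit 4) (nat_lit 63) (nat_lit 5) (nat_lit 63) (nat_lit 4) (nat_lit 517) (nat_lit 375) (nat_lit 308)) (XT.lf (nat_lit 0) (nat_lit 3014318831) (nat_lit 76) (nat_lit 4411490790) (nat_lit 152) (nat_lit 20600180521) (nat_lit 60) (nat_lit 5) (nat_lit 61) (nat_lit 5) (nat_lit 62) (nat_lit 4) (nat_lit 518) (nat_lit 375) (nat_lit 307)))) (XT.nd (nat_lit 156) (nat_lit 152) (nat_lit 0) (XT.nd (nat_lit 78) (nat_lit 76) (nat_lit 0) (XT.lf (nat_lit 0) (nat_lit 16812545694) (nat_lit 152) (nat_lit 6716135312) (nat_lit 0) (nat_lit 5050970778) (nat_lit 60) (nat_lit 5) (nat_lit 62) (nat_lit 4) (nat_lit 60) (nat_lit 4) (nat_lit 519) (nat_lit 375) (nat_lit 306)) (XT.lf (nat_lit 0) (nat_lit 12207171932) (nat_lit 76) (nat_lit 14376239163) (nat_lit 76) (nat_lit 2563436550) (nat_lit 59) (nat_lit 4) (nat_lit 60) (nat_lit 5) (nat_lit 60) (nat_lit 4) (nat_lit 520) (nat_lit 375) (nat_lit 305))) (XT.nd (nat_lit 78)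 (nat_lit 0) (nat_lit 0) (XT.lf (nat_lit 0) (nat_lit 1962311179) (nat_lit 76) (nat_lit 4847959470) (nat_lit 152) (nat_lit 22917927676) (nat_lit 57) (nat_lit 5) (nat_lit 58) (nat_lit 5) (nat_lit 59) (nat_lit 4) (nat_lit 521) (nat_lit 375) (nat_lit 304)) (XT.lf (nat_lit 0) (nat_lit 16575749035) (nat_lit 152) (nat_lit 8733775751) (nat_lit 0) (nat_lit 5011841019) (nat_lit 57) (nat_lit 5) (nat_lit 59) (nat_lit 4) (nat_lit 57) (nat_lit 4) (nat_lit 522) (nat_lit 375) (nat_lit 303)))))) (XT.nd (nat_lit 624) (nat_lit 532) (nat_lit 0) (XT.nd (nat_lit 312) (nat_lit 304) (nat_lit 0) (XT.nd (nat_lit 156) (nat_lit 152) (nat_lit 0) (XT.nd (nat_lit 78) (nat_lit 76) (nat_lit 0) (XT.lf (nat_lit 0) (nat_lit 10922088553) (nat_lit 76) (nat_lit 15808387282) (nat_lit 76) (nat_lit 4198964121) (nat_lit 56) (nat_lit 4) (nat_lit 57) (nat_lit 5) (nat_lit 57) (nat_lit 4) (nat_lit 523) (nat_lit 375) (nat_lit 302)) (XT.lf (nat_lit 0) (nat_lit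 5556535125) (nat_lit 152) (nat_lit 373846317) (nat_lit 76) (nat_lit 25622778645) (nat_lit 55) (nat_lit 5) (nat_lit 57) (nat_lit 5) (nat_lit 56) (nat_lit 4) (nat_lit 524) (nat_lit 375) (nat_lit 301))) (XT.nd (nat_lit 78) (nat_lit 76) (nat_lit 0) (XT.lf (nat_lit 0) (nat_lit 15700993471) (nat_lit 152) (nat_lit 12142776956) (nat_lit 0) (nat_lit 4345153656) (nat_lit 54) (nat_lit 5) (nat_lit 56) (nat_lit 4) (nat_lit 54) (nat_lit 4) (nat_lit 525) (nat_lit 375) (nat_lit 300)) (XT.lf (nat_lit 0) (nat_lit 8235563851) (nat_lit 76) (nat_lit 18000937626) (nat_lit 76) (nat_lit 6604658194) (nat_lit 53) (nat_lit 4) (nat_lit 54) (nat_lit 5) (nat_lit 54) (nat_lit 4) (nat_lit 526) (nat_lit 375) (nat_lit 299)))) (XT.nd (nat_lit 156) (nat_lit 152) (nat_lit 0) (XT.nd (nat_lit 78) (nat_lit 76) (nat_lit 0) (XT.lf (nat_lit 0) (nat_lit 3574226378) (nat_lit 152) (nat_lit 4179861647) (nat_lit 76) (nat_lit 25755777137) (nat_lit 52) (nat_lit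 5) (nat_lit 54) (nat_lit 5) (nat_lit 53) (nat_lit 4) (nat_lit 527) (nat_lit 375) (nat_lit 298)) (XT.lf (nat_lit 0) (nat_lit 14064654910) (nat_lit 152) (nat_lit 17202667775) (nat_lit 0) (nat_lit 2925179753) (nat_lit 51) (nat_lit 5) (nat_lit 53) (nat_lit 4) (nat_lit 51) (nat_lit 4) (nat_lit 528) (nat_lit 375) (nat_lit 297))) (XT.nd (nat_lit 78) (nat_lit 76) (nat_lit 0) (XT.lf (nat_lit 0) (nat_lit 3878411026) (nat_lit 76) (nat_lit 21094756024) (nat_lit 76) (nat_lit 9919350791) (nat_lit 50) (nat_lit 4) (nat_lit 51) (nat_lit 5) (nat_lit 51) (nat_lit 4) (nat_lit 529) (nat_lit 375) (nat_lit 296)) (XT.lf (nat_lit 0) (nat_lit 705926117) (nat_lit 152) (nat_lit 9777258782) (nat_lit 76) (nat_lit 25126512920) (nat_lit 49) (nat_lit 5) (nat_lit 51) (nat_lit 5) (nat_lit 50) (nat_lit 4) (nat_lit 530) (nat_lit 375) (nat_lit 295))))) (XT.nd (nat_lit 312) (nat_lit 228) (nat_lit 0) (XT.nd (nat_lit 156) (nat_lit 228) (nat_lit 0) (XT.nd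 (nat_lit 78) (nat_lit 0) (nat_lit 0) (XT.lf (nat_lit 0) (nat_lit 11521406519) (nat_lit 152) (nat_lit 24217166152) (nat_lit 0) (nat_lit 604749875) (nat_lit 48) (nat_lit 5) (nat_lit 50) (nat_lit 4) (nat_lit 48) (nat_lit 4) (nat_lit 531) (nat_lit 375) (nat_lit 294)) (XT.lf (nat_lit 0) (nat_lit 22813155656) (nat_lit 152) (nat_lit 2416670740) (nat_lit 0) (nat_lit 11864575606) (nat_lit 48) (nat_lit 5) (nat_lit 50) (nat_lit 4) (nat_lit 48) (nat_lit 4) (nat_lit 532) (nat_lit 375) (nat_lit 293))) (XT.nd (nat_lit 78) (nat_lit 152) (nat_lit 0) (XT.lf (nat_lit 0) (nat_lit 20334638206) (nat_lit 76) (nat_lit 14254295552) (nat_lit 76) (nat_lit 3274721903) (nat_lit 47) (nat_lit 4) (nat_lit 48) (nat_lit 5) (nat_lit 48) (nat_lit 4) (nat_lit 533) (nat_lit 375) (nat_lit 292)) (XT.lf (nat_lit 0) (nat_lit 5084222382) (nat_lit 76) (nat_lit 2843800723) (nat_lit 152) (nat_lit 30724938723) (nat_lit 45) (nat_lit 5) (nat_lit 46) (nat_lit 5)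 (nat_lit 47) (nat_lit 4) (nat_lit 534) (nat_lit 375) (nat_lit 291)))) (XT.nd (nat_lit 156) (nat_lit 152) (nat_lit 0) (XT.nd (nat_lit 78) (nat_lit 76) (nat_lit 0) (XT.lf (nat_lit 0) (nat_lit 19615292168) (nat_lit 152) (nat_lit 10945320659) (nat_lit 0) (nat_lit 8897933954) (nat_lit 45) (nat_lit 5) (nat_lit 47) (nat_lit 4) (nat_lit 45) (nat_lit 4) (nat_lit 535) (nat_lit 375) (nat_lit 290)) (XT.lf (nat_lit 0) (nat_lit 12474932955) (nat_lit 76) (nat_lit 19277640121) (nat_lit 76) (nat_lit 8532744496) (nat_lit 44) (nat_lit 4) (nat_lit 45) (nat_lit 5) (nat_lit 45) (nat_lit 4) (nat_lit 536) (nat_lit 375) (nat_lit 289))) (XT.nd (nat_lit 78) (nat_lit 76) (nat_lit 0) (XT.lf (nat_lit 0) (nat_lit 3119212711) (nat_lit 152) (nat_lit 4439629171) (nat_lit 76) (nat_lit 33575262082) (nat_lit 43) (nat_lit 5) (nat_lit 45) (nat_lit 5) (nat_lit 44) (nat_lit 4) (nat_lit 537) (nat_lit 375) (nat_lit 288)) (XT.lf (nat_lit 0) (nat_lit 15138342626)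 (nat_lit 152) (nat_lit 22206555682) (nat_lit 0) (nat_lit 4655247843) (nat_lit 42) (nat_lit 5) (nat_lit 44) (nat_lit 4) (nat_lit 42) (nat_lit 4) (nat_lit 538) (nat_lit 375) (nat_lit 287))))))) (XT.nd (nat_lit 1170) (nat_lit 76) (nat_lit 0) (XT.nd (nat_lit 546) (nat_lit 456) (nat_lit 0) (XT.nd (nat_lit 234) (nat_lit 228) (nat_lit 0) (XT.nd (nat_lit 78) (nat_lit 152) (nat_lit 0) (XT.lf (nat_lit 0) (nat_lit 1819859642) (nat_lit 76) (nat_lit 25788579838) (nat_lit 76) (nat_lit 15281018422) (nat_lit 41) (nat_lit 4) (nat_lit 42) (nat_lit 5) (nat_lit 42) (nat_lit 4) (nat_lit 539) (nat_lit 375) (nat_lit 286)) (XT.nd (nat_lit 78) (nat_lit 152) (nat_lit 0) (XT.lf (nat_lit 0) (nat_lit 26928846564) (nat_lit 76) (nat_lit 13701296422) (nat_lit 76) (nat_lit 3169980994) (nat_lit 41) (nat_lit 4) (nat_lit 42) (nat_lit 5) (nat_lit 42) (nat_lit 4) (nat_lit 540) (nat_lit 375) (nat_lit 285)) (XT.lf (nat_lit 0) (nat_lit 8028596167) (nat_lit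 76) (nat_lit 1125578090) (nat_lit 152) (nat_lit 35580312217) (nat_lit 39) (nat_lit 5) (nat_lit 40) (nat_lit 5) (nat_lit 41) (nat_lit 4) (nat_lit 541) (nat_lit 375) (nat_lit 284)))) (XT.nd (nat_lit 156) (nat_lit 152) (nat_lit 0) (XT.nd (nat_lit 78) (nat_lit 76) (nat_lit 0) (XT.lf (nat_lit 0) (nat_lit 22024286274) (nat_lit 152) (nat_lit 11908874237) (nat_lit 0) (nat_lit 11755579466) (nat_lit 39) (nat_lit 5) (nat_lit 41) (nat_lit 4) (nat_lit 39) (nat_lit 4) (nat_lit 542) (nat_lit 375) (nat_lit 283)) (XT.lf (nat_lit 0) (nat_lit 13801238356) (nat_lit 76) (nat_lit 21578607214) (nat_lit 76) (nat_lit 11288795274) (nat_lit 38) (nat_lit 4) (nat_lit 39) (nat_lit 5) (nat_lit 39) (nat_lit 4) (nat_lit 543) (nat_lit 375) (nat_lit 282))) (XT.nd (nat_lit 78) (nat_lit 76) (nat_lit 0) (XT.lf (nat_lit 0) (nat_lit 1506672336) (nat_lit 152) (nat_lit 7251757517) (nat_lit 76) (nat_lit 38916778679) (nat_lit 37) (nat_lit 5) (nat_lit 39)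 (nat_lit 5) (nat_lit 38) (nat_lit 4) (nat_lit 544) (nat_lit 375) (nat_lit 281)) (XT.lf (nat_lit 0) (nat_lit 14646850265) (nat_lit 152) (nat_lit 29438603963) (nat_lit 0) (nat_lit 4617533788) (nat_lit 36) (nat_lit 5) (nat_lit 38) (nat_lit 4) (nat_lit 36) (nat_lit 4) (nat_lit 545) (nat_lit 375) (nat_lit 280))))) (XT.nd (nat_lit 312) (nat_lit 228) (nat_lit 0) (XT.nd (nat_lit 156) (nat_lit 152) (nat_lit 0) (XT.nd (nat_lit 78) (nat_lit 76) (nat_lit 0) (XT.lf (nat_lit 0) (nat_lit 28298767876) (nat_lit 152) (nat_lit 3208607285) (nat_lit 0) (nat_lit 18250699762) (nat_lit 36) (nat_lit 5) (nat_lit 38) (nat_lit 4) (nat_lit 36) (nat_lit 4) (nat_lit 546) (nat_lit 375) (nat_lit 279)) (XT.lf (nat_lit 0) (nat_lit 24196543349) (nat_lit 76) (nat_lit 18354411690) (nat_lit 76) (nat_lit 8288138103) (nat_lit 35) (nat_lit 4) (nat_lit 36) (nat_lit 5) (nat_lit 36) (nat_lit 4) (nat_lit 547) (nat_lit 375) (nat_lit 278))) (XT.nd (nat_lit 78)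 (nat_lit 0) (nat_lit 0) (XT.lf (nat_lit 0) (nat_lit 411097780) (nat_lit 76) (nat_lit 4758875905) (nat_lit 152) (nat_lit 46781202064) (nat_lit 33) (nat_lit 5) (nat_lit 34) (nat_lit 5) (nat_lit 35) (nat_lit 4) (nat_lit 548) (nat_lit 375) (nat_lit 277)) (XT.lf (nat_lit 0) (nat_lit 19183961784) (nat_lit 152) (nat_lit 24523576156) (nat_lit 0) (nat_lit 9377059641) (nat_lit 33) (nat_lit 5) (nat_lit 35) (nat_lit 4) (nat_lit 33) (nat_lit 4) (nat_lit 549) (nat_lit 375) (nat_lit 276)))) (XT.nd (nat_lit 156) (nat_lit 152) (nat_lit 0) (XT.nd (nat_lit 78) (nat_lit 0) (nat_lit 0) (XT.lf (nat_lit 0) (nat_lit 3237994043) (nat_lit 76) (nat_lit 30417988581) (nat_lit 76) (nat_lit 20594911112) (nat_lit 32) (nat_lit 4) (nat_lit 33) (nat_lit 5) (nat_lit 33) (nat_lit 4) (nat_lit 550) (nat_lit 375) (nat_lit 275)) (XT.lf (nat_lit 0) (nat_lit 32254425568) (nat_lit 76) (nat_lit 16515156202) (nat_lit 76) (nat_lit 6676374532) (nat_lit 32) (nat_lit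 4) (nat_lit 33) (nat_lit 5) (nat_lit 33) (nat_lit 4) (nat_lit 551) (nat_lit 375) (nat_lit 274))) (XT.nd (nat_lit 78) (nat_lit 0) (nat_lit 0) (XT.lf (nat_lit 0) (nat_lit 5417433388) (nat_lit 76) (nat_lit 2105454225) (nat_lit 152) (nat_lit 49151395145) (nat_lit 30) (nat_lit 5) (nat_lit 31) (nat_lit 5) (nat_lit 32) (nat_lit 4) (nat_lit 552) (nat_lit 375) (nat_lit 273)) (XT.lf (nat_lit 0) (nat_lit 22333458263) (nat_lit 152) (nat_lit 22842363374) (nat_lit 0) (nat_lit 12752068766) (nat_lit 30) (nat_lit 5) (nat_lit 32) (nat_lit 4) (nat_lit 30) (nat_lit 4) (nat_lit 553) (nat_lit 375) (nat_lit 272)))))) (XT.nd (nat_lit 54756) (nat_lit 0) (nat_lit 9500) (XT.nd (nat_lit 54444) (nat_lit 0) (nat_lit 11172) (XT.nd (nat_lit 54288) (nat_lit 0) (nat_lit 12464) (XT.nd (nat_lit 54210) (nat_lit 0) (nat_lit 13148) (XT.lf (nat_lit 0) (nat_lit 6452786190) (nat_lit 76) (nat_lit 31180162271) (nat_lit 76) (nat_lit 21584819795) (nat_lit 29)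 (nat_lit 4) (nat_lit 30) (nat_lit 5) (nat_lit 30) (nat_lit 4) (nat_lit 554) (nat_lit 375) (nat_lit 271)) (XT.lf (nat_lit 0) (nat_lit 1602047961) (nat_lit 380) (nat_lit 1250320033) (nat_lit 0) (nat_lit 1602047961) (nat_lit 202) (nat_lit 5) (nat_lit 207) (nat_lit 4) (nat_lit 202) (nat_lit 4) (nat_lit 448) (nat_lit 376) (nat_lit 376))) (XT.nd (nat_lit 78) (nat_lit 380) (nat_lit 0) (XT.lf (nat_lit 0) (nat_lit 5455969499) (nat_lit 304) (nat_lit 2243654600) (nat_lit 304) (nat_lit 1315644195) (nat_lit 198) (nat_lit 4) (nat_lit 202) (nat_lit 5) (nat_lit 202) (nat_lit 4) (nat_lit 449) (nat_lit 376) (nat_lit 375)) (XT.lf (nat_lit 0) (nat_lit 3119284422) (nat_lit 380) (nat_lit 4661826403) (nat_lit 0) (nat_lit 1343564636) (nat_lit 193) (nat_lit 5) (nat_lit 198) (nat_lit 4) (nat_lit 193) (nat_lit 4) (nat_lit 450) (nat_lit 376) (nat_lit 374)))) (XT.nd (nat_lit 156) (nat_lit 608) (nat_lit 0) (XT.nd (nat_lit 78) (nat_lit 380) (nat_lit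 0) (XT.lf (nat_lit 0) (nat_lit 3434443396) (nat_lit 304) (nat_lit 4213943730) (nat_lit 304) (nat_lit 1588962962) (nat_lit 189) (nat_lit 4) (nat_lit 193) (nat_lit 5) (nat_lit 193) (nat_lit 4) (nat_lit 451) (nat_lit 376) (nat_lit 373)) (XT.lf (nat_lit 0) (nat_lit 2374777356) (nat_lit 304) (nat_lit 494327741) (nat_lit 380) (nat_lit 6484442006) (nat_lit 184) (nat_lit 5) (nat_lit 188) (nat_lit 5) (nat_lit 189) (nat_lit 4) (nat_lit 452) (nat_lit 376) (nat_lit 372))) (XT.nd (nat_lit 78) (nat_lit 304) (nat_lit 0) (XT.lf (nat_lit 0) (nat_lit 1260716566) (nat_lit 304) (nat_lit 6169123768) (nat_lit 304) (nat_lit 2042894721) (nat_lit 180) (nat_lit 4) (nat_lit 184) (nat_lit 5) (nat_lit 184) (nat_lit 4) (nat_lit 453) (nat_lit 376) (nat_lit 371)) (XT.lf (nat_lit 0) (nat_lit 108010968) (nat_lit 228) (nat_lit 2349524695) (nat_lit 304) (nat_lit 7137984229) (nat_lit 176) (nat_lit 5) (nat_lit 179) (nat_lit 5) (nat_lit 180) (nat_lit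 4) (nat_lit 454) (nat_lit 376) (nat_lit 370))))) (XT.nd (nat_lit 312) (nat_lit 760) (nat_lit 0) (XT.nd (nat_lit 156) (nat_lit 532) (nat_lit 0) (XT.nd (nat_lit 78) (nat_lit 380) (nat_lit 0) (XT.lf (nat_lit 0) (nat_lit 7049709370) (nat_lit 304) (nat_lit 1071901926) (nat_lit 0) (nat_lit 1599839067) (nat_lit 176) (nat_lit 5) (nat_lit 180) (nat_lit 4) (nat_lit 176) (nat_lit 4) (nat_lit 455) (nat_lit 376) (nat_lit 369)) (XT.lf (nat_lit 0) (nat_lit 1888555378) (nat_lit 380) (nat_lit 2306629779) (nat_lit 76) (nat_lit 5655488985) (nat_lit 171) (nat_lit 5) (nat_lit 176) (nat_lit 5) (nat_lit 172) (nat_lit 4) (nat_lit 456) (nat_lit 376) (nat_lit 368))) (XT.nd (nat_lit 78) (nat_lit 304) (nat_lit 0) (XT.lf (nat_lit 0) (nat_lit 6397484122) (nat_lit 228) (nat_lit 109065523) (nat_lit 304) (nat_lit 3477196138) (nat_lit 168) (nat_lit 5) (nat_lit 171) (nat_lit 5) (nat_lit 172) (nat_lit 4) (nat_lit 457) (nat_lit 376) (nat_lit 367))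 (XT.lf (nat_lit 0) (nat_lit 1135922181) (nat_lit 304) (nat_lit 4938446403) (nat_lit 76) (nat_lit 4045635694) (nat_lit 164) (nat_lit 5) (nat_lit 168) (nat_lit 5) (nat_lit 165) (nat_lit 4) (nat_lit 458) (nat_lit 376) (nat_lit 366)))) (XT.nd (nat_lit 156) (nat_lit 228) (nat_lit 0) (XT.nd (nat_lit 78) (nat_lit 304) (nat_lit 0) (XT.lf (nat_lit 0) (nat_lit 3908124417) (nat_lit 228) (nat_lit 1887943095) (nat_lit 304) (nat_lit 4463896718) (nat_lit 161) (nat_lit 5) (nat_lit 164) (nat_lit 5) (nat_lit 165) (nat_lit 4) (nat_lit 459) (nat_lit 376) (nat_lit 365)) (XT.lf (nat_lit 0) (nat_lit 190701809) (nat_lit 304) (nat_lit 7820202705) (nat_lit 76) (nat_lit 2393088622) (nat_lit 157) (nat_lit 5) (nat_lit 161) (nat_lit 5) (nat_lit 158) (nat_lit 4) (nat_lit 460) (nat_lit 376) (nat_lit 364))) (XT.nd (nat_lit 78) (nat_lit 0) (nat_lit 0) (XT.lf (nat_lit 0) (nat_lit 1166531710) (nat_lit 228) (nat_lit 3727714913) (nat_lit 304) (nat_lit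 5656801529) (nat_lit 154) (nat_lit 5) (nat_lit 157) (nat_lit 5) (nat_lit 158) (nat_lit 4) (nat_lit 461) (nat_lit 376) (nat_lit 363)) (XT.lf (nat_lit 0) (nat_lit 9730217024) (nat_lit 304) (nat_lit 284961811) (nat_lit 0) (nat_lit 687598342) (nat_lit 154) (nat_lit 5) (nat_lit 158) (nat_lit 4) (nat_lit 154) (nat_lit 4) (nat_lit 462) (nat_lit 376) (nat_lit 362))))))))
noncomputable def xc45 : XT := (XT.nd (nat_lit 2418) (nat_lit 2736) (nat_lit 0) (XT.nd (nat_lit 1170) (nat_lit 2052) (nat_lit 0) (XT.nd (nat_lit 546) (nat_lit 1444) (nat_lit 0) (XT.nd (nat_lit 234) (nat_lit 608) (nat_lit 0) (XT.nd (nat_lit 78) (nat_lit 456) (nat_lit 0) (XT.lf (nat_lit 0) (nat_lit 3809223972) (nat_lit 304) (nat_lit 1823710879) (nat_lit 76) (nat_lit 5224048582) (nat_lit 150) (nat_lit 5) (nat_lit 154) (nat_lit 5) (nat_lit 151) (nat_lit 4) (nat_lit 463) (nat_lit 376) (nat_lit 361)) (XT.nd (nat_lit 78) (nat_lit 304) (nat_lit 0) (XT.lf (nat_lit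 0) (nat_lit 7603624120) (nat_lit 152) (nat_lit 1095346807) (nat_lit 228) (nat_lit 2317036138) (nat_lit 148) (nat_lit 5) (nat_lit 150) (nat_lit 5) (nat_lit 151) (nat_lit 4) (nat_lit 464) (nat_lit 376) (nat_lit 360)) (XT.lf (nat_lit 0) (nat_lit 2526202374) (nat_lit 304) (nat_lit 5104438823) (nat_lit 76) (nat_lit 3547811021) (nat_lit 144) (nat_lit 5) (nat_lit 148) (nat_lit 5) (nat_lit 145) (nat_lit 4) (nat_lit 465) (nat_lit 376) (nat_lit 359)))) (XT.nd (nat_lit 156) (nat_lit 152) (nat_lit 0) (XT.nd (nat_lit 78) (nat_lit 304) (nat_lit 0) (XT.lf (nat_lit 0) (nat_lit 4466126014) (nat_lit 152) (nat_lit 2999526835) (nat_lit 228) (nat_lit 3879506726) (nat_lit 142) (nat_lit 5) (nat_lit 144) (nat_lit 5) (nat_lit 145) (nat_lit 4) (nat_lit 466) (nat_lit 376) (nat_lit 358)) (XT.lf (nat_lit 0) (nat_lit 1021598995) (nat_lit 304) (nat_lit 8734282396) (nat_lit 76) (nat_lit 1760527274) (nat_lit 138) (nat_lit 5) (nat_lit 142) (nat_lit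 5) (nat_lit 139) (nat_lit 4) (nat_lit 467) (nat_lit 376) (nat_lit 357))) (XT.nd (nat_lit 78) (nat_lit 0) (nat_lit 0) (XT.lf (nat_lit 0) (nat_lit 975772978) (nat_lit 152) (nat_lit 5034907545) (nat_lit 228) (nat_lit 5680396357) (nat_lit 136) (nat_lit 5) (nat_lit 138) (nat_lit 5) (nat_lit 139) (nat_lit 4) (nat_lit 468) (nat_lit 376) (nat_lit 356)) (XT.lf (nat_lit 0) (nat_lit 10999828312) (nat_lit 152) (nat_lit 148619259) (nat_lit 228) (nat_lit 722568621) (nat_lit 136) (nat_lit 5) (nat_lit 138) (nat_lit 5) (nat_lit 139) (nat_lit 4) (nat_lit 469) (nat_lit 376) (nat_lit 355))))) (XT.nd (nat_lit 312) (nat_lit 608) (nat_lit 0) (XT.nd (nat_lit 156) (nat_lit 380) (nat_lit 0) (XT.nd (nat_lit 78) (nat_lit 152) (nat_lit 0) (XT.lf (nat_lit 0) (nat_lit 4347559285) (nat_lit 304) (nat_lit 2849520765) (nat_lit 76) (nat_lit 4856537359) (nat_lit 132) (nat_lit 5) (nat_lit 136) (nat_lit 5) (nat_lit 133) (nat_lit 4) (nat_lit 470) (nat_lit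 376) (nat_lit 354)) (XT.lf (nat_lit 0) (nat_lit 7338564980) (nat_lit 152) (nat_lit 2210609072) (nat_lit 228) (nat_lit 2692492129) (nat_lit 130) (nat_lit 5) (nat_lit 132) (nat_lit 5) (nat_lit 133) (nat_lit 4) (nat_lit 471) (nat_lit 376) (nat_lit 353))) (XT.nd (nat_lit 78) (nat_lit 152) (nat_lit 0) (XT.lf (nat_lit 0) (nat_lit 2445789224) (nat_lit 228) (nat_lit 7080328607) (nat_lit 76) (nat_lit 2907851033) (nat_lit 127) (nat_lit 5) (nat_lit 130) (nat_lit 5) (nat_lit 128) (nat_lit 4) (nat_lit 472) (nat_lit 376) (nat_lit 352)) (XT.lf (nat_lit 0) (nat_lit 3247751829) (nat_lit 152) (nat_lit 4453098435) (nat_lit 228) (nat_lit 4929889391) (nat_lit 125) (nat_lit 5) (nat_lit 127) (nat_lit 5) (nat_lit 128) (nat_lit 4) (nat_lit 473) (nat_lit 376) (nat_lit 351)))) (XT.nd (nat_lit 156) (nat_lit 380) (nat_lit 0) (XT.nd (nat_lit 78) (nat_lit 0) (nat_lit 0) (XT.lf (nat_lit 0) (nat_lit 278538681) (nat_lit 228) (nat_lit 11779006961)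 (nat_lit 76) (nat_lit 775672604) (nat_lit 122) (nat_lit 5) (nat_lit 125) (nat_lit 5) (nat_lit 123) (nat_lit 4) (nat_lit 474) (nat_lit 376) (nat_lit 350)) (XT.lf (nat_lit 0) (nat_lit 5598129075) (nat_lit 228) (nat_lit 1291106112) (nat_lit 76) (nat_lit 6149452928) (nat_lit 122) (nat_lit 5) (nat_lit 125) (nat_lit 5) (nat_lit 123) (nat_lit 4) (nat_lit 475) (nat_lit 376) (nat_lit 349))) (XT.nd (nat_lit 78) (nat_lit 228) (nat_lit 0) (XT.lf (nat_lit 0) (nat_lit 9547042691) (nat_lit 152) (nat_lit 1538752422) (nat_lit 228) (nat_lit 2164273403) (nat_lit 120) (nat_lit 5) (nat_lit 122) (nat_lit 5) (nat_lit 123) (nat_lit 4) (nat_lit 476) (nat_lit 376) (nat_lit 348)) (XT.lf (nat_lit 0) (nat_lit 3244685769) (nat_lit 228) (nat_lit 6277505328) (nat_lit 76) (nat_lit 3943511151) (nat_lit 117) (nat_lit 5) (nat_lit 120) (nat_lit 5) (nat_lit 118) (nat_lit 4) (nat_lit 477) (nat_lit 376) (nat_lit 347)))))) (XT.nd (nat_lit 624) (nat_lit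 988) (nat_lit 0) (XT.nd (nat_lit 312) (nat_lit 532) (nat_lit 0) (XT.nd (nat_lit 156) (nat_lit 152) (nat_lit 0) (XT.nd (nat_lit 78) (nat_lit 228) (nat_lit 0) (XT.lf (nat_lit 0) (nat_lit 4698835854) (nat_lit 152) (nat_lit 4088974577) (nat_lit 228) (nat_lit 4898890796) (nat_lit 115) (nat_lit 5) (nat_lit 117) (nat_lit 5) (nat_lit 118) (nat_lit 4) (nat_lit 478) (nat_lit 376) (nat_lit 346)) (XT.lf (nat_lit 0) (nat_lit 587876633) (nat_lit 228) (nat_lit 11824645859) (nat_lit 76) (nat_lit 1501149942) (nat_lit 112) (nat_lit 5) (nat_lit 115) (nat_lit 5) (nat_lit 113) (nat_lit 4) (nat_lit 479) (nat_lit 376) (nat_lit 345))) (XT.nd (nat_lit 78) (nat_lit 152) (nat_lit 0) (XT.lf (nat_lit 0) (nat_lit 6190627400) (nat_lit 228) (nat_lit 703825651) (nat_lit 76) (nat_lit 7250050215) (nat_lit 112) (nat_lit 5) (nat_lit 115) (nat_lit 5) (nat_lit 113) (nat_lit 4) (nat_lit 480) (nat_lit 376) (nat_lit 344)) (XT.lf (nat_lit 0) (nat_lit 10814388581)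 (nat_lit 152) (nat_lit 1171123561) (nat_lit 228) (nat_lit 2396026210) (nat_lit 110) (nat_lit 5) (nat_lit 112) (nat_lit 5) (nat_lit 113) (nat_lit 4) (nat_lit 481) (nat_lit 376) (nat_lit 343)))) (XT.nd (nat_lit 156) (nat_lit 228) (nat_lit 0) (XT.nd (nat_lit 78) (nat_lit 76) (nat_lit 0) (XT.lf (nat_lit 0) (nat_lit 3314266272) (nat_lit 228) (nat_lit 6625879502) (nat_lit 76) (nat_lit 4683059869) (nat_lit 107) (nat_lit 5) (nat_lit 110) (nat_lit 5) (nat_lit 108) (nat_lit 4) (nat_lit 482) (nat_lit 376) (nat_lit 342)) (XT.lf (nat_lit 0) (nat_lit 5025529857) (nat_lit 76) (nat_lit 4138976201) (nat_lit 152) (nat_lit 5706402116) (nat_lit 106) (nat_lit 5) (nat_lit 107) (nat_lit 5) (nat_lit 108) (nat_lit 4) (nat_lit 483) (nat_lit 376) (nat_lit 341))) (XT.nd (nat_lit 78) (nat_lit 0) (nat_lit 0) (XT.lf (nat_lit 0) (nat_lit 87547288) (nat_lit 228) (nat_lit 13216894302) (nat_lit 76) (nat_lit 1820844756) (nat_lit 103) (nat_lit 5) (nat_lit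 106) (nat_lit 5) (nat_lit 104) (nat_lit 4) (nat_lit 484) (nat_lit 376) (nat_lit 340)) (XT.lf (nat_lit 0) (nat_lit 6002902423) (nat_lit 228) (nat_lit 1414243517) (nat_lit 76) (nat_lit 7966587275) (nat_lit 103) (nat_lit 5) (nat_lit 106) (nat_lit 5) (nat_lit 104) (nat_lit 4) (nat_lit 485) (nat_lit 376) (nat_lit 339))))) (XT.nd (nat_lit 312) (nat_lit 456) (nat_lit 0) (XT.nd (nat_lit 156) (nat_lit 228) (nat_lit 0) (XT.nd (nat_lit 78) (nat_lit 228) (nat_lit 0) (XT.lf (nat_lit 0) (nat_lit 10809671934) (nat_lit 76) (nat_lit 1313156384) (nat_lit 152) (nat_lit 3526292578) (nat_lit 102) (nat_lit 5) (nat_lit 103) (nat_lit 5) (nat_lit 104) (nat_lit 4) (nat_lit 486) (nat_lit 376) (nat_lit 338)) (XT.lf (nat_lit 0) (nat_lit 2512974631) (nat_lit 228) (nat_lit 8484478969) (nat_lit 76) (nat_lit 4922556634) (nat_lit 99) (nat_lit 5) (nat_lit 102) (nat_lit 5) (nat_lit 100) (nat_lit 4) (nat_lit 487) (nat_lit 376) (nat_lit 337))) (XT.nd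 (nat_lit 78) (nat_lit 152) (nat_lit 0) (XT.lf (nat_lit 0) (nat_lit 3863300237) (nat_lit 76) (nat_lit 4822275964) (nat_lit 152) (nat_lit 7511712347) (nat_lit 98) (nat_lit 5) (nat_lit 99) (nat_lit 5) (nat_lit 100) (nat_lit 4) (nat_lit 488) (nat_lit 376) (nat_lit 336)) (XT.lf (nat_lit 0) (nat_lit 117476336) (nat_lit 152) (nat_lit 14952070591) (nat_lit 152) (nat_lit 1412553183) (nat_lit 96) (nat_lit 4) (nat_lit 98) (nat_lit 5) (nat_lit 98) (nat_lit 4) (nat_lit 489) (nat_lit 376) (nat_lit 335)))) (XT.nd (nat_lit 156) (nat_lit 304) (nat_lit 0) (XT.nd (nat_lit 78) (nat_lit 76) (nat_lit 0) (XT.lf (nat_lit 0) (nat_lit 4871936676) (nat_lit 228) (nat_lit 3816592635) (nat_lit 76) (nat_lit 8082601650) (nat_lit 95) (nat_lit 5) (nat_lit 98) (nat_lit 5) (nat_lit 96) (nat_lit 4) (nat_lit 490) (nat_lit 376) (nat_lit 334)) (XT.lf (nat_lit 0) (nat_lit 9131890986) (nat_lit 76) (nat_lit 2198529984) (nat_lit 152) (nat_lit 5737577256)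 (nat_lit 94) (nat_lit 5) (nat_lit 95) (nat_lit 5) (nat_lit 96) (nat_lit 4) (nat_lit 491) (nat_lit 376) (nat_lit 333))) (XT.nd (nat_lit 78) (nat_lit 76) (nat_lit 0) (XT.lf (nat_lit 0) (nat_lit 654801811) (nat_lit 228) (nat_lit 12288594709) (nat_lit 76) (nat_lit 4428466088) (nat_lit 91) (nat_lit 5) (nat_lit 94) (nat_lit 5) (nat_lit 92) (nat_lit 4) (nat_lit 492) (nat_lit 376) (nat_lit 332)) (XT.lf (nat_lit 0) (nat_lit 768621087) (nat_lit 76) (nat_lit 6391445708) (nat_lit 152) (nat_lit 10521979400) (nat_lit 90) (nat_lit 5) (nat_lit 91) (nat_lit 5) (nat_lit 92) (nat_lit 4) (nat_lit 493) (nat_lit 376) (nat_lit 331))))))) (XT.nd (nat_lit 1248) (nat_lit 1216) (nat_lit 0) (XT.nd (nat_lit 624) (nat_lit 684) (nat_lit 0) (XT.nd (nat_lit 312) (nat_lit 380) (nat_lit 0) (XT.nd (nat_lit 156) (nat_lit 228) (nat_lit 0) (XT.nd (nat_lit 78) (nat_lit 228) (nat_lit 0) (XT.lf (nat_lit 0) (nat_lit 13915758186) (nat_lit 152) (nat_lit 3673664482)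 (nat_lit 0) (nat_lit 410455080) (nat_lit 90) (nat_lit 5) (nat_lit 92) (nat_lit 4) (nat_lit 90) (nat_lit 4) (nat_lit 494) (nat_lit 376) (nat_lit 330)) (XT.lf (nat_lit 0) (nat_lit 2585703654) (nat_lit 228) (nat_lit 8392197709) (nat_lit 76) (nat_lit 7345953114) (nat_lit 87) (nat_lit 5) (nat_lit 90) (nat_lit 5) (nat_lit 88) (nat_lit 4) (nat_lit 495) (nat_lit 376) (nat_lit 329))) (XT.nd (nat_lit 78) (nat_lit 152) (nat_lit 0) (XT.lf (nat_lit 0) (nat_lit 5289793433) (nat_lit 76) (nat_lit 4100790369) (nat_lit 152) (nat_lit 9265242602) (nat_lit 86) (nat_lit 5) (nat_lit 87) (nat_lit 5) (nat_lit 88) (nat_lit 4) (nat_lit 496) (nat_lit 376) (nat_lit 328)) (XT.lf (nat_lit 0) (nat_lit 400583258) (nat_lit 152) (nat_lit 16046020807) (nat_lit 152) (nat_lit 2549744067) (nat_lit 84) (nat_lit 4) (nat_lit 86) (nat_lit 5) (nat_lit 86) (nat_lit 4) (nat_lit 497) (nat_lit 376) (nat_lit 327)))) (XT.nd (nat_lit 156) (nat_lit 228) (nat_lit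 0) (XT.nd (nat_lit 78) (nat_lit 76) (nat_lit 0) (XT.lf (nat_lit 0) (nat_lit 4387868908) (nat_lit 228) (nat_lit 4709624277) (nat_lit 76) (nat_lit 10245157256) (nat_lit 83) (nat_lit 5) (nat_lit 86) (nat_lit 5) (nat_lit 84) (nat_lit 4) (nat_lit 498) (nat_lit 376) (nat_lit 326)) (XT.lf (nat_lit 0) (nat_lit 9622758558) (nat_lit 76) (nat_lit 1883134044) (nat_lit 152) (nat_lit 8191986395) (nat_lit 82) (nat_lit 5) (nat_lit 83) (nat_lit 5) (nat_lit 84) (nat_lit 4) (nat_lit 499) (nat_lit 376) (nat_lit 325))) (XT.nd (nat_lit 78) (nat_lit 76) (nat_lit 0) (XT.lf (nat_lit 0) (nat_lit 4316747547) (nat_lit 152) (nat_lit 14594726027) (nat_lit 152) (nat_lit 1150070743) (nat_lit 80) (nat_lit 4) (nat_lit 82) (nat_lit 5) (nat_lit 82) (nat_lit 4) (nat_lit 500) (nat_lit 376) (nat_lit 324)) (XT.lf (nat_lit 0) (nat_lit 6036629368) (nat_lit 228) (nat_lit 1297557085) (nat_lit 76) (nat_lit 13098594907) (nat_lit 79) (nat_lit 5) (nat_lit 82)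 (nat_lit 5) (nat_lit 80) (nat_lit 4) (nat_lit 501) (nat_lit 376) (nat_lit 323))))) (XT.nd (nat_lit 312) (nat_lit 380) (nat_lit 0) (XT.nd (nat_lit 156) (nat_lit 76) (nat_lit 0) (XT.nd (nat_lit 78) (nat_lit 152) (nat_lit 0) (XT.lf (nat_lit 0) (nat_lit 13483040262) (nat_lit 152) (nat_lit 7105018035) (nat_lit 0) (nat_lit 224739231) (nat_lit 78) (nat_lit 5) (nat_lit 80) (nat_lit 4) (nat_lit 78) (nat_lit 4) (nat_lit 502) (nat_lit 376) (nat_lit 322)) (XT.lf (nat_lit 0) (nat_lit 46091430) (nat_lit 152) (nat_lit 13262892991) (nat_lit 76) (nat_lit 7892351134) (nat_lit 76) (nat_lit 5) (nat_lit 78) (nat_lit 5) (nat_lit 77) (nat_lit 4) (nat_lit 503) (nat_lit 376) (nat_lit 321))) (XT.nd (nat_lit 78) (nat_lit 0) (nat_lit 0) (XT.lf (nat_lit 0) (nat_lit 1812180743) (nat_lit 76) (nat_lit 5707000509) (nat_lit 152) (nat_lit 14079473057) (nat_lit 75) (nat_lit 5) (nat_lit 76) (nat_lit 5) (nat_lit 77) (nat_lit 4) (nat_lit 504) (nat_lit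 376) (nat_lit 320)) (XT.lf (nat_lit 0) (nat_lit 15305646577) (nat_lit 152) (nat_lit 4543710836) (nat_lit 0) (nat_lit 2155860056) (nat_lit 75) (nat_lit 5) (nat_lit 77) (nat_lit 4) (nat_lit 75) (nat_lit 4) (nat_lit 505) (nat_lit 376) (nat_lit 319)))) (XT.nd (nat_lit 156) (nat_lit 152) (nat_lit 0) (XT.nd (nat_lit 78) (nat_lit 76) (nat_lit 0) (XT.lf (nat_lit 0) (nat_lit 984667928) (nat_lit 152) (nat_lit 11238122350) (nat_lit 76) (nat_lit 10197911454) (nat_lit 73) (nat_lit 5) (nat_lit 75) (nat_lit 5) (nat_lit 74) (nat_lit 4) (nat_lit 506) (nat_lit 376) (nat_lit 318)) (XT.lf (nat_lit 0) (nat_lit 4522218984) (nat_lit 76) (nat_lit 4267874023) (nat_lit 152) (nat_lit 14055808429) (nat_lit 72) (nat_lit 5) (nat_lit 73) (nat_lit 5) (nat_lit 74) (nat_lit 4) (nat_lit 507) (nat_lit 376) (nat_lit 317))) (XT.nd (nat_lit 78) (nat_lit 152) (nat_lit 0) (XT.lf (nat_lit 0) (nat_lit 16917627901) (nat_lit 152) (nat_lit 2459434310) (nat_lit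 0) (nat_lit 3904156800) (nat_lit 72) (nat_lit 5) (nat_lit 74) (nat_lit 4) (nat_lit 72) (nat_lit 4) (nat_lit 508) (nat_lit 376) (nat_lit 316)) (XT.lf (nat_lit 0) (nat_lit 1644303397) (nat_lit 152) (nat_lit 9753021691) (nat_lit 76) (nat_lit 12328361405) (nat_lit 70) (nat_lit 5) (nat_lit 72) (nat_lit 5) (nat_lit 71) (nat_lit 4) (nat_lit 509) (nat_lit 376) (nat_lit 315)))))) (XT.nd (nat_lit 624) (nat_lit 684) (nat_lit 0) (XT.nd (nat_lit 312) (nat_lit 228) (nat_lit 0) (XT.nd (nat_lit 156) (nat_lit 228) (nat_lit 0) (XT.nd (nat_lit 78) (nat_lit 0) (nat_lit 0) (XT.lf (nat_lit 0) (nat_lit 6710858503) (nat_lit 76) (nat_lit 3080789619) (nat_lit 152) (nat_lit 14389136511) (nat_lit 69) (nat_lit 5) (nat_lit 70) (nat_lit 5) (nat_lit 71) (nat_lit 4) (nat_lit 510) (nat_lit 376) (nat_lit 314)) (XT.lf (nat_lit 0) (nat_lit 18273214025) (nat_lit 152) (nat_lit 954031023) (nat_lit 0) (nat_lit 5419596906) (nat_lit 69) (nat_lit 5) (nat_lit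 71) (nat_lit 4) (nat_lit 69) (nat_lit 4) (nat_lit 511) (nat_lit 376) (nat_lit 313))) (XT.nd (nat_lit 78) (nat_lit 76) (nat_lit 0) (XT.lf (nat_lit 0) (nat_lit 1972754088) (nat_lit 152) (nat_lit 8917772059) (nat_lit 76) (nat_lit 14231998078) (nat_lit 67) (nat_lit 5) (nat_lit 69) (nat_lit 5) (nat_lit 68) (nat_lit 4) (nat_lit 512) (nat_lit 376) (nat_lit 312)) (XT.lf (nat_lit 0) (nat_lit 8264938399) (nat_lit 76) (nat_lit 2205131444) (nat_lit 152) (nat_lit 15139654826) (nat_lit 66) (nat_lit 5) (nat_lit 67) (nat_lit 5) (nat_lit 68) (nat_lit 4) (nat_lit 513) (nat_lit 376) (nat_lit 311)))) (XT.nd (nat_lit 156) (nat_lit 76) (nat_lit 0) (XT.nd (nat_lit 78) (nat_lit 152) (nat_lit 0) (XT.lf (nat_lit 0) (nat_lit 19317591755) (nat_lit 152) (nat_lit 147477007) (nat_lit 0) (nat_lit 6643613993) (nat_lit 66) (nat_lit 5) (nat_lit 68) (nat_lit 4) (nat_lit 66) (nat_lit 4) (nat_lit 514) (nat_lit 376) (nat_lit 310)) (XT.lf (nat_lit 0)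 (nat_lit 1907984629) (nat_lit 152) (nat_lit 8861937511) (nat_lit 76) (nat_lit 15848106271) (nat_lit 64) (nat_lit 5) (nat_lit 66) (nat_lit 5) (nat_lit 65) (nat_lit 4) (nat_lit 515) (nat_lit 376) (nat_lit 309))) (XT.nd (nat_lit 78) (nat_lit 0) (nat_lit 0) (XT.lf (nat_lit 0) (nat_lit 9051087241) (nat_lit 76) (nat_lit 1710302163) (nat_lit 152) (nat_lit 16378352557) (nat_lit 63) (nat_lit 5) (nat_lit 64) (nat_lit 5) (nat_lit 65) (nat_lit 4) (nat_lit 516) (nat_lit 376) (nat_lit 308)) (XT.lf (nat_lit 0) (nat_lit 19985440312) (nat_lit 152) (nat_lit 180930007) (nat_lit 0) (nat_lit 7507585483) (nat_lit 63) (nat_lit 5) (nat_lit 65) (nat_lit 4) (nat_lit 63) (nat_lit 4) (nat_lit 517) (nat_lit 376) (nat_lit 307))))) (XT.nd (nat_lit 312) (nat_lit 304) (nat_lit 0) (XT.nd (nat_lit 156) (nat_lit 152) (nat_lit 0) (XT.nd (nat_lit 78) (nat_lit 76) (nat_lit 0) (XT.lf (nat_lit 0) (nat_lit 1376599436) (nat_lit 152) (nat_lit 9737705434)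 (nat_lit 76) (nat_lit 17105351165) (nat_lit 61) (nat_lit 5) (nat_lit 63) (nat_lit 5) (nat_lit 62) (nat_lit 4) (nat_lit 518) (nat_lit 376) (nat_lit 306)) (XT.lf (nat_lit 0) (nat_lit 8912329808) (nat_lit 76) (nat_lit 1677471485) (nat_lit 152) (nat_lit 18188722503) (nat_lit 60) (nat_lit 5) (nat_lit 61) (nat_lit 5) (nat_lit 62) (nat_lit 4) (nat_lit 519) (nat_lit 376) (nat_lit 305))) (XT.nd (nat_lit 78) (nat_lit 152) (nat_lit 0) (XT.lf (nat_lit 0) (nat_lit 20199223646) (nat_lit 152) (nat_lit 1220265762) (nat_lit 0) (nat_lit 7931073631) (nat_lit 60) (nat_lit 5) (nat_lit 62) (nat_lit 4) (nat_lit 60) (nat_lit 4) (nat_lit 520) (nat_lit 376) (nat_lit 304)) (XT.lf (nat_lit 0) (nat_lit 292015639) (nat_lit 152) (nat_lit 11723645283) (nat_lit 76) (nat_lit 17919919867) (nat_lit 58) (nat_lit 5) (nat_lit 60) (nat_lit 5) (nat_lit 59) (nat_lit 4) (nat_lit 521) (nat_lit 376) (nat_lit 303)))) (XT.nd (nat_lit 156) (nat_lit 228) (nat_lit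 0) (XT.nd (nat_lit 78) (nat_lit 0) (nat_lit 0) (XT.lf (nat_lit 0) (nat_lit 7664149674) (nat_lit 76) (nat_lit 2201597765) (nat_lit 152) (nat_lit 20668753309) (nat_lit 57) (nat_lit 5) (nat_lit 58) (nat_lit 5) (nat_lit 59) (nat_lit 4) (nat_lit 522) (nat_lit 376) (nat_lit 302)) (XT.lf (nat_lit 0) (nat_lit 19867201279) (nat_lit 152) (nat_lit 3460181070) (nat_lit 0) (nat_lit 7819790818) (nat_lit 57) (nat_lit 5) (nat_lit 59) (nat_lit 4) (nat_lit 57) (nat_lit 4) (nat_lit 523) (nat_lit 376) (nat_lit 301))) (XT.nd (nat_lit 78) (nat_lit 152) (nat_lit 0) (XT.lf (nat_lit 0) (nat_lit 16731088497) (nat_lit 76) (nat_lit 13566787475) (nat_lit 76) (nat_lit 1476474626) (nat_lit 56) (nat_lit 4) (nat_lit 57) (nat_lit 5) (nat_lit 57) (nat_lit 4) (nat_lit 524) (nat_lit 376) (nat_lit 300)) (XT.lf (nat_lit 0) (nat_lit 5089919914) (nat_lit 76) (nat_lit 3393767557) (nat_lit 152) (nat_lit 23933246207) (nat_lit 54) (nat_lit 5) (nat_lit 55)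 (nat_lit 5) (nat_lit 56) (nat_lit 4) (nat_lit 525) (nat_lit 376) (nat_lit 299))))))))
noncomputable def xc46 : XT := (XT.nd (nat_lit 56394) (nat_lit 0) (nat_lit 6460) (XT.nd (nat_lit 1170) (nat_lit 836) (nat_lit 0) (XT.nd (nat_lit 546) (nat_lit 532) (nat_lit 0) (XT.nd (nat_lit 234) (nat_lit 228) (nat_lit 0) (XT.nd (nat_lit 78) (nat_lit 228) (nat_lit 0) (XT.lf (nat_lit 0) (nat_lit 18881113046) (nat_lit 152) (nat_lit 7128954912) (nat_lit 0) (nat_lit 7063243851) (nat_lit 54) (nat_lit 5) (nat_lit 56) (nat_lit 4) (nat_lit 54) (nat_lit 4) (nat_lit 526) (nat_lit 376) (nat_lit 298)) (XT.nd (nat_lit 78) (nat_lit 152) (nat_lit 0) (XT.lf (nat_lit 0) (nat_lit 13808009596) (nat_lit 76) (nat_lit 15896961968) (nat_lit 76) (nat_lit 4040974556) (nat_lit 53) (nat_lit 4) (nat_lit 54) (nat_lit 5) (nat_lit 54) (nat_lit 4) (nat_lit 527) (nat_lit 376) (nat_lit 297)) (XT.lf (nat_lit 0) (nat_lit 935600245) (nat_lit 76) (nat_lit 5383904993)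 (nat_lit 152) (nat_lit 28116507633) (nat_lit 51) (nat_lit 5) (nat_lit 52) (nat_lit 5) (nat_lit 53) (nat_lit 4) (nat_lit 528) (nat_lit 376) (nat_lit 296)))) (XT.nd (nat_lit 156) (nat_lit 152) (nat_lit 0) (XT.nd (nat_lit 78) (nat_lit 76) (nat_lit 0) (XT.lf (nat_lit 0) (nat_lit 17113485957) (nat_lit 152) (nat_lit 12493973400) (nat_lit 0) (nat_lit 5532004923) (nat_lit 51) (nat_lit 5) (nat_lit 53) (nat_lit 4) (nat_lit 51) (nat_lit 4) (nat_lit 529) (nat_lit 376) (nat_lit 295)) (XT.lf (nat_lit 0) (nat_lit 9168314486) (nat_lit 76) (nat_lit 19154158913) (nat_lit 76) (nat_lit 7538810338) (nat_lit 50) (nat_lit 4) (nat_lit 51) (nat_lit 5) (nat_lit 51) (nat_lit 4) (nat_lit 530) (nat_lit 376) (nat_lit 294))) (XT.nd (nat_lit 78) (nat_lit 76) (nat_lit 0) (XT.lf (nat_lit 0) (nat_lit 3276483698) (nat_lit 152) (nat_lit 4996967777) (nat_lit 76) (nat_lit 28328049948) (nat_lit 49) (nat_lit 5) (nat_lit 51) (nat_lit 5) (nat_lit 50) (nat_lit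 4) (nat_lit 531) (nat_lit 376) (nat_lit 293)) (XT.lf (nat_lit 0) (nat_lit 14414503064) (nat_lit 152) (nat_lit 19868141155) (nat_lit 0) (nat_lit 3074548607) (nat_lit 48) (nat_lit 5) (nat_lit 50) (nat_lit 4) (nat_lit 48) (nat_lit 4) (nat_lit 532) (nat_lit 376) (nat_lit 292))))) (XT.nd (nat_lit 312) (nat_lit 304) (nat_lit 0) (XT.nd (nat_lit 156) (nat_lit 152) (nat_lit 0) (XT.nd (nat_lit 78) (nat_lit 0) (nat_lit 0) (XT.lf (nat_lit 0) (nat_lit 2487069541) (nat_lit 76) (nat_lit 23507644669) (nat_lit 76) (nat_lit 12137599339) (nat_lit 47) (nat_lit 4) (nat_lit 48) (nat_lit 5) (nat_lit 48) (nat_lit 4) (nat_lit 533) (nat_lit 376) (nat_lit 291)) (XT.lf (nat_lit 0) (nat_lit 25824075202) (nat_lit 76) (nat_lit 12250650375) (nat_lit 76) (nat_lit 851390606) (nat_lit 47) (nat_lit 4) (nat_lit 48) (nat_lit 5) (nat_lit 48) (nat_lit 4) (nat_lit 534) (nat_lit 376) (nat_lit 290))) (XT.nd (nat_lit 78) (nat_lit 0) (nat_lit 0) (XT.lf (nat_lit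 0) (nat_lit 10117037462) (nat_lit 76) (nat_lit 496095918) (nat_lit 152) (nat_lit 29125994091) (nat_lit 45) (nat_lit 5) (nat_lit 46) (nat_lit 5) (nat_lit 47) (nat_lit 4) (nat_lit 535) (nat_lit 376) (nat_lit 289)) (XT.lf (nat_lit 0) (nat_lit 22602447291) (nat_lit 152) (nat_lit 6486957993) (nat_lit 0) (nat_lit 11480932036) (nat_lit 45) (nat_lit 5) (nat_lit 47) (nat_lit 4) (nat_lit 45) (nat_lit 4) (nat_lit 536) (nat_lit 376) (nat_lit 288)))) (XT.nd (nat_lit 156) (nat_lit 76) (nat_lit 0) (XT.nd (nat_lit 78) (nat_lit 152) (nat_lit 0) (XT.lf (nat_lit 0) (nat_lit 17588974579) (nat_lit 76) (nat_lit 17490568901) (nat_lit 76) (nat_lit 6343096994) (nat_lit 44) (nat_lit 4) (nat_lit 45) (nat_lit 5) (nat_lit 45) (nat_lit 4) (nat_lit 537) (nat_lit 376) (nat_lit 287)) (XT.lf (nat_lit 0) (nat_lit 76758793) (nat_lit 76) (nat_lit 5464832995) (nat_lit 152) (nat_lit 36756666663) (nat_lit 42) (nat_lit 5) (nat_lit 43) (nat_lit 5) (nat_lit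 44) (nat_lit 4) (nat_lit 538) (nat_lit 376) (nat_lit 286))) (XT.nd (nat_lit 78) (nat_lit 76) (nat_lit 0) (XT.lf (nat_lit 0) (nat_lit 17919082054) (nat_lit 152) (nat_lit 18223193239) (nat_lit 0) (nat_lit 7048073150) (nat_lit 42) (nat_lit 5) (nat_lit 44) (nat_lit 4) (nat_lit 42) (nat_lit 4) (nat_lit 539) (nat_lit 376) (nat_lit 285)) (XT.lf (nat_lit 0) (nat_lit 6478430632) (nat_lit 76) (nat_lit 24261342675) (nat_lit 76) (nat_lit 13367271623) (nat_lit 41) (nat_lit 4) (nat_lit 42) (nat_lit 5) (nat_lit 42) (nat_lit 4) (nat_lit 540) (nat_lit 376) (nat_lit 284)))))) (XT.nd (nat_lit 624) (nat_lit 380) (nat_lit 0) (XT.nd (nat_lit 312) (nat_lit 228) (nat_lit 0) (XT.nd (nat_lit 156) (nat_lit 76) (nat_lit 0) (XT.nd (nat_lit 78) (nat_lit 152) (nat_lit 0) (XT.lf (nat_lit 0) (nat_lit 32206590797) (nat_lit 76) (nat_lit 11878457104) (nat_lit 76) (nat_lit 961995616) (nat_lit 41) (nat_lit 4) (nat_lit 42) (nat_lit 5) (nat_lit 42) (nat_lit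 4) (nat_lit 541) (nat_lit 376) (nat_lit 283)) (XT.lf (nat_lit 0) (nat_lit 11674487340) (nat_lit 152) (nat_lit 33279783259) (nat_lit 0) (nat_lit 1054875909) (nat_lit 39) (nat_lit 5) (nat_lit 41) (nat_lit 4) (nat_lit 39) (nat_lit 4) (nat_lit 542) (nat_lit 376) (nat_lit 282))) (XT.nd (nat_lit 78) (nat_lit 76) (nat_lit 0) (XT.lf (nat_lit 0) (nat_lit 24876114077) (nat_lit 152) (nat_lit 7881539085) (nat_lit 0) (nat_lit 14236012227) (nat_lit 39) (nat_lit 5) (nat_lit 41) (nat_lit 4) (nat_lit 39) (nat_lit 4) (nat_lit 543) (nat_lit 376) (nat_lit 281)) (XT.lf (nat_lit 0) (nat_lit 18556890598) (nat_lit 76) (nat_lit 20053365391) (nat_lit 76) (nat_lit 9393369929) (nat_lit 38) (nat_lit 4) (nat_lit 39) (nat_lit 5) (nat_lit 39) (nat_lit 4) (nat_lit 544) (nat_lit 376) (nat_lit 280)))) (XT.nd (nat_lit 156) (nat_lit 76) (nat_lit 0) (XT.nd (nat_lit 78) (nat_lit 76) (nat_lit 0) (XT.lf (nat_lit 0) (nat_lit 3678565784) (nat_lit 152) (nat_lit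 3211821106) (nat_lit 76) (nat_lit 42151273612) (nat_lit 37) (nat_lit 5) (nat_lit 39) (nat_lit 5) (nat_lit 38) (nat_lit 4) (nat_lit 545) (nat_lit 376) (nat_lit 279)) (XT.lf (nat_lit 0) (nat_lit 17211818054) (nat_lit 152) (nat_lit 26063138562) (nat_lit 0) (nat_lit 6825350786) (nat_lit 36) (nat_lit 5) (nat_lit 38) (nat_lit 4) (nat_lit 36) (nat_lit 4) (nat_lit 546) (nat_lit 376) (nat_lit 278))) (XT.nd (nat_lit 78) (nat_lit 0) (nat_lit 0) (XT.lf (nat_lit 0) (nat_lit 846233501) (nat_lit 76) (nat_lit 30373284624) (nat_lit 76) (nat_lit 19969142141) (nat_lit 35) (nat_lit 4) (nat_lit 36) (nat_lit 5) (nat_lit 36) (nat_lit 4) (nat_lit 547) (nat_lit 376) (nat_lit 277)) (XT.lf (nat_lit 0) (nat_lit 29016490436) (nat_lit 76) (nat_lit 16853894086) (nat_lit 76) (nat_lit 6432591198) (nat_lit 35) (nat_lit 4) (nat_lit 36) (nat_lit 5) (nat_lit 36) (nat_lit 4) (nat_lit 548) (nat_lit 376) (nat_lit 276))))) (XT.nd (nat_lit 312) (nat_lit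 152) (nat_lit 0) (XT.nd (nat_lit 156) (nat_lit 76) (nat_lit 0) (XT.nd (nat_lit 78) (nat_lit 0) (nat_lit 0) (XT.lf (nat_lit 0) (nat_lit 4518004610) (nat_lit 76) (nat_lit 2849467352) (nat_lit 152) (nat_lit 46080964079) (nat_lit 33) (nat_lit 5) (nat_lit 34) (nat_lit 5) (nat_lit 35) (nat_lit 4) (nat_lit 549) (nat_lit 376) (nat_lit 275)) (XT.lf (nat_lit 0) (nat_lit 21761544546) (nat_lit 152) (nat_lit 21243630900) (nat_lit 0) (nat_lit 11611895225) (nat_lit 33) (nat_lit 5) (nat_lit 35) (nat_lit 4) (nat_lit 33) (nat_lit 4) (nat_lit 550) (nat_lit 376) (nat_lit 274))) (XT.nd (nat_lit 78) (nat_lit 0) (nat_lit 0) (XT.lf (nat_lit 0) (nat_lit 7311417262) (nat_lit 76) (nat_lit 29336218676) (nat_lit 76) (nat_lit 19171322559) (nat_lit 32) (nat_lit 4) (nat_lit 33) (nat_lit 5) (nat_lit 33) (nat_lit 4) (nat_lit 551) (nat_lit 376) (nat_lit 273)) (XT.lf (nat_lit 0) (nat_lit 37082527654) (nat_lit 76) (nat_lit 15074388012) (nat_lit 76)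 (nat_lit 4894689179) (nat_lit 32) (nat_lit 4) (nat_lit 33) (nat_lit 5) (nat_lit 33) (nat_lit 4) (nat_lit 552) (nat_lit 376) (nat_lit 272)))) (XT.nd (nat_lit 54132) (nat_lit 0) (nat_lit 13452) (XT.nd (nat_lit 78) (nat_lit 0) (nat_lit 0) (XT.lf (nat_lit 0) (nat_lit 9440876947) (nat_lit 76) (nat_lit 231510909) (nat_lit 152) (nat_lit 48644406381) (nat_lit 30) (nat_lit 5) (nat_lit 31) (nat_lit 5) (nat_lit 32) (nat_lit 4) (nat_lit 553) (nat_lit 376) (nat_lit 271)) (XT.lf (nat_lit 0) (nat_lit 24889320527) (nat_lit 152) (nat_lit 19741210096) (nat_lit 0) (nat_lit 14978618216) (nat_lit 30) (nat_lit 5) (nat_lit 32) (nat_lit 4) (nat_lit 30) (nat_lit 4) (nat_lit 554) (nat_lit 376) (nat_lit 270))) (XT.nd (nat_lit 78) (nat_lit 380) (nat_lit 0) (XT.lf (nat_lit 0) (nat_lit 2078820767) (nat_lit 456) (nat_lit 194529551) (nat_lit 0) (nat_lit 2078820767) (nat_lit 212) (nat_lit 5) (nat_lit 218) (nat_lit 4) (nat_lit 212) (nat_lit 4) (nat_lit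 446) (nat_lit 377) (nat_lit 377)) (XT.lf (nat_lit 0) (nat_lit 7352362404) (nat_lit 380) (nat_lit 1219178994) (nat_lit 380) (nat_lit 234652756) (nat_lit 207) (nat_lit 4) (nat_lit 212) (nat_lit 5) (nat_lit 212) (nat_lit 4) (nat_lit 447) (nat_lit 377) (nat_lit 376))))))) (XT.nd (nat_lit 1248) (nat_lit 2660) (nat_lit 0) (XT.nd (nat_lit 624) (nat_lit 1976) (nat_lit 0) (XT.nd (nat_lit 312) (nat_lit 988) (nat_lit 0) (XT.nd (nat_lit 156) (nat_lit 684) (nat_lit 0) (XT.nd (nat_lit 78) (nat_lit 304) (nat_lit 0) (XT.lf (nat_lit 0) (nat_lit 4107958307) (nat_lit 380) (nat_lit 2578337745) (nat_lit 0) (nat_lit 2224097186) (nat_lit 202) (nat_lit 5) (nat_lit 207) (nat_lit 4) (nat_lit 202) (nat_lit 4) (nat_lit 448) (nat_lit 377) (nat_lit 375)) (XT.lf (nat_lit 0) (nat_lit 5299789549) (nat_lit 304) (nat_lit 3251721528) (nat_lit 304) (nat_lit 466879432) (nat_lit 198) (nat_lit 4) (nat_lit 202) (nat_lit 5) (nat_lit 202) (nat_lit 4) (nat_lit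 449) (nat_lit 377) (nat_lit 374))) (XT.nd (nat_lit 78) (nat_lit 304) (nat_lit 0) (XT.lf (nat_lit 0) (nat_lit 3889009077) (nat_lit 380) (nat_lit 4904401791) (nat_lit 0) (nat_lit 336017905) (nat_lit 193) (nat_lit 5) (nat_lit 198) (nat_lit 4) (nat_lit 193) (nat_lit 4) (nat_lit 450) (nat_lit 377) (nat_lit 373)) (XT.lf (nat_lit 0) (nat_lit 3109329195) (nat_lit 304) (nat_lit 5255938703) (nat_lit 304) (nat_lit 878422306) (nat_lit 189) (nat_lit 4) (nat_lit 193) (nat_lit 5) (nat_lit 193) (nat_lit 4) (nat_lit 451) (nat_lit 377) (nat_lit 372)))) (XT.nd (nat_lit 156) (nat_lit 304) (nat_lit 0) (XT.nd (nat_lit 78) (nat_lit 304) (nat_lit 0) (XT.lf (nat_lit 0) (nat_lit 1951805324) (nat_lit 304) (nat_lit 1560427014) (nat_lit 380) (nat_lit 5849057826) (nat_lit 184) (nat_lit 5) (nat_lit 188) (nat_lit 5) (nat_lit 189) (nat_lit 4) (nat_lit 452) (nat_lit 377) (nat_lit 371)) (XT.lf (nat_lit 0) (nat_lit 753460891) (nat_lit 304) (nat_lit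 7255355267) (nat_lit 304) (nat_lit 1473587863) (nat_lit 180) (nat_lit 4) (nat_lit 184) (nat_lit 5) (nat_lit 184) (nat_lit 4) (nat_lit 453) (nat_lit 377) (nat_lit 370))) (XT.nd (nat_lit 78) (nat_lit 228) (nat_lit 0) (XT.lf (nat_lit 0) (nat_lit 2965883949) (nat_lit 380) (nat_lit 493602969) (nat_lit 76) (nat_lit 6147034529) (nat_lit 179) (nat_lit 5) (nat_lit 184) (nat_lit 5) (nat_lit 180) (nat_lit 4) (nat_lit 454) (nat_lit 377) (nat_lit 369)) (XT.lf (nat_lit 0) (nat_lit 7494106151) (nat_lit 304) (nat_lit 1761295417) (nat_lit 0) (nat_lit 478970142) (nat_lit 176) (nat_lit 5) (nat_lit 180) (nat_lit 4) (nat_lit 176) (nat_lit 4) (nat_lit 455) (nat_lit 377) (nat_lit 368))))) (XT.nd (nat_lit 312) (nat_lit 836) (nat_lit 0) (XT.nd (nat_lit 156) (nat_lit 532) (nat_lit 0) (XT.nd (nat_lit 78) (nat_lit 228) (nat_lit 0) (XT.lf (nat_lit 0) (nat_lit 2256588718) (nat_lit 380) (nat_lit 3104675371) (nat_lit 76) (nat_lit 4503858821) (nat_lit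 171) (nat_lit 5) (nat_lit 176) (nat_lit 5) (nat_lit 172) (nat_lit 4) (nat_lit 456) (nat_lit 377) (nat_lit 367)) (XT.lf (nat_lit 0) (nat_lit 5506590865) (nat_lit 228) (nat_lit 1312635322) (nat_lit 304) (nat_lit 3180630209) (nat_lit 168) (nat_lit 5) (nat_lit 171) (nat_lit 5) (nat_lit 172) (nat_lit 4) (nat_lit 457) (nat_lit 377) (nat_lit 366))) (XT.nd (nat_lit 78) (nat_lit 228) (nat_lit 0) (XT.lf (nat_lit 0) (nat_lit 1358516752) (nat_lit 304) (nat_lit 5949364608) (nat_lit 76) (nat_lit 2830194611) (nat_lit 164) (nat_lit 5) (nat_lit 168) (nat_lit 5) (nat_lit 165) (nat_lit 4) (nat_lit 458) (nat_lit 377) (nat_lit 365)) (XT.lf (nat_lit 0) (nat_lit 2799562013) (nat_lit 228) (nat_lit 3162196703) (nat_lit 304) (nat_lit 4317985353) (nat_lit 161) (nat_lit 5) (nat_lit 164) (nat_lit 5) (nat_lit 165) (nat_lit 4) (nat_lit 459) (nat_lit 377) (nat_lit 364)))) (XT.nd (nat_lit 156) (nat_lit 532) (nat_lit 0) (XT.nd (nat_lit 78) (nat_lit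 0) (nat_lit 0) (XT.lf (nat_lit 0) (nat_lit 263225171) (nat_lit 304) (nat_lit 9058967061) (nat_lit 76) (nat_lit 1103655872) (nat_lit 157) (nat_lit 5) (nat_lit 161) (nat_lit 5) (nat_lit 158) (nat_lit 4) (nat_lit 460) (nat_lit 377) (nat_lit 363)) (XT.lf (nat_lit 0) (nat_lit 4909808864) (nat_lit 304) (nat_lit 171510471) (nat_lit 76) (nat_lit 5493293572) (nat_lit 157) (nat_lit 5) (nat_lit 161) (nat_lit 5) (nat_lit 158) (nat_lit 4) (nat_lit 461) (nat_lit 377) (nat_lit 362))) (XT.nd (nat_lit 78) (nat_lit 304) (nat_lit 0) (XT.lf (nat_lit 0) (nat_lit 9007538738) (nat_lit 228) (nat_lit 684674351) (nat_lit 304) (nat_lit 1035736759) (nat_lit 154) (nat_lit 5) (nat_lit 157) (nat_lit 5) (nat_lit 158) (nat_lit 4) (nat_lit 462) (nat_lit 377) (nat_lit 361)) (XT.lf (nat_lit 0) (nat_lit 3681195686) (nat_lit 304) (nat_lit 3382969547) (nat_lit 76) (nat_lit 3819992496) (nat_lit 150) (nat_lit 5) (nat_lit 154) (nat_lit 5) (nat_lit 151)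 (nat_lit 4) (nat_lit 463) (nat_lit 377) (nat_lit 360)))))) (XT.nd (nat_lit 624) (nat_lit 1140) (nat_lit 0) (XT.nd (nat_lit 312) (nat_lit 608) (nat_lit 0) (XT.nd (nat_lit 156) (nat_lit 456) (nat_lit 0) (XT.nd (nat_lit 78) (nat_lit 304) (nat_lit 0) (XT.lf (nat_lit 0) (nat_lit 5937113406) (nat_lit 152) (nat_lit 2573838252) (nat_lit 228) (nat_lit 2534030282) (nat_lit 148) (nat_lit 5) (nat_lit 150) (nat_lit 5) (nat_lit 151) (nat_lit 4) (nat_lit 464) (nat_lit 377) (nat_lit 359)) (XT.lf (nat_lit 0) (nat_lit 2237571120) (nat_lit 304) (nat_lit 6924074000) (nat_lit 76) (nat_lit 2048121495) (nat_lit 144) (nat_lit 5) (nat_lit 148) (nat_lit 5) (nat_lit 145) (nat_lit 4) (nat_lit 465) (nat_lit 377) (nat_lit 358))) (XT.nd (nat_lit 78) (nat_lit 304) (nat_lit 0) (XT.lf (nat_lit 0) (nat_lit 2533640132) (nat_lit 152) (nat_lit 4581239889) (nat_lit 228) (nat_lit 4263458974) (nat_lit 142) (nat_lit 5) (nat_lit 144) (nat_lit 5) (nat_lit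 145) (nat_lit 4) (nat_lit 466) (nat_lit 377) (nat_lit 357)) (XT.lf (nat_lit 0) (nat_lit 565983128) (nat_lit 304) (nat_lit 10831520117) (nat_lit 76) (nat_lit 154570974) (nat_lit 138) (nat_lit 5) (nat_lit 142) (nat_lit 5) (nat_lit 139) (nat_lit 4) (nat_lit 467) (nat_lit 377) (nat_lit 356)))) (XT.nd (nat_lit 156) (nat_lit 456) (nat_lit 0) (XT.nd (nat_lit 78) (nat_lit 152) (nat_lit 0) (XT.lf (nat_lit 0) (nat_lit 5502491255) (nat_lit 304) (nat_lit 1216020393) (nat_lit 76) (nat_lit 5009808698) (nat_lit 138) (nat_lit 5) (nat_lit 142) (nat_lit 5) (nat_lit 139) (nat_lit 4) (nat_lit 468) (nat_lit 377) (nat_lit 355)) (XT.lf (nat_lit 0) (nat_lit 8709059284) (nat_lit 152) (nat_lit 1876622865) (nat_lit 228) (nat_lit 1324215483) (nat_lit 136) (nat_lit 5) (nat_lit 138) (nat_lit 5) (nat_lit 139) (nat_lit 4) (nat_lit 469) (nat_lit 377) (nat_lit 354))) (XT.nd (nat_lit 78) (nat_lit 152) (nat_lit 0) (XT.lf (nat_lit 0) (nat_lit 3675122696)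 (nat_lit 304) (nat_lit 5318339256) (nat_lit 76) (nat_lit 3101686951) (nat_lit 132) (nat_lit 5) (nat_lit 136) (nat_lit 5) (nat_lit 133) (nat_lit 4) (nat_lit 470) (nat_lit 377) (nat_lit 353)) (XT.lf (nat_lit 0) (nat_lit 4745498914) (nat_lit 152) (nat_lit 4064707022) (nat_lit 228) (nat_lit 3474988316) (nat_lit 130) (nat_lit 5) (nat_lit 132) (nat_lit 5) (nat_lit 133) (nat_lit 4) (nat_lit 471) (nat_lit 377) (nat_lit 352))))) (XT.nd (nat_lit 312) (nat_lit 532) (nat_lit 0) (XT.nd (nat_lit 156) (nat_lit 228) (nat_lit 0) (XT.nd (nat_lit 78) (nat_lit 152) (nat_lit 0) (XT.lf (nat_lit 0) (nat_lit 1592092451) (nat_lit 228) (nat_lit 9864269234) (nat_lit 76) (nat_lit 1023955598) (nat_lit 127) (nat_lit 5) (nat_lit 130) (nat_lit 5) (nat_lit 128) (nat_lit 4) (nat_lit 472) (nat_lit 377) (nat_lit 351)) (XT.lf (nat_lit 0) (nat_lit 332982047) (nat_lit 152) (nat_lit 6444849700) (nat_lit 228) (nat_lit 5901336557) (nat_lit 125) (nat_lit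 5) (nat_lit 127) (nat_lit 5) (nat_lit 128) (nat_lit 4) (nat_lit 473) (nat_lit 377) (nat_lit 350))) (XT.nd (nat_lit 78) (nat_lit 228) (nat_lit 0) (XT.lf (nat_lit 0) (nat_lit 10889708956) (nat_lit 152) (nat_lit 1246211752) (nat_lit 228) (nat_lit 747561965) (nat_lit 125) (nat_lit 5) (nat_lit 127) (nat_lit 5) (nat_lit 128) (nat_lit 4) (nat_lit 474) (nat_lit 377) (nat_lit 349)) (XT.lf (nat_lit 0) (nat_lit 4513869730) (nat_lit 228) (nat_lit 4484492731) (nat_lit 76) (nat_lit 4092988580) (nat_lit 122) (nat_lit 5) (nat_lit 125) (nat_lit 5) (nat_lit 123) (nat_lit 4) (nat_lit 475) (nat_lit 377) (nat_lit 348)))) (XT.nd (nat_lit 156) (nat_lit 152) (nat_lit 0) (XT.nd (nat_lit 78) (nat_lit 228) (nat_lit 0) (XT.lf (nat_lit 0) (nat_lit 6216599473) (nat_lit 152) (nat_lit 3713090345) (nat_lit 228) (nat_lit 3375197515) (nat_lit 120) (nat_lit 5) (nat_lit 122) (nat_lit 5) (nat_lit 123) (nat_lit 4) (nat_lit 476) (nat_lit 377) (nat_lit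 347)) (XT.lf (nat_lit 0) (nat_lit 1962199079) (nat_lit 228) (nat_lit 9827569653) (nat_lit 76) (nat_lit 1733957785) (nat_lit 117) (nat_lit 5) (nat_lit 120) (nat_lit 5) (nat_lit 118) (nat_lit 4) (nat_lit 477) (nat_lit 377) (nat_lit 346))) (XT.nd (nat_lit 78) (nat_lit 0) (nat_lit 0) (XT.lf (nat_lit 0) (nat_lit 1004364261) (nat_lit 152) (nat_lit 6425859980) (nat_lit 228) (nat_lit 6316754710) (nat_lit 115) (nat_lit 5) (nat_lit 117) (nat_lit 5) (nat_lit 118) (nat_lit 4) (nat_lit 478) (nat_lit 377) (nat_lit 345)) (XT.lf (nat_lit 0) (nat_lit 12217351858) (nat_lit 152) (nat_lit 864761231) (nat_lit 228) (nat_lit 894222108) (nat_lit 115) (nat_lit 5) (nat_lit 117) (nat_lit 5) (nat_lit 118) (nat_lit 4) (nat_lit 479) (nat_lit 377) (nat_lit 344))))))))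
noncomputable def xc47 : XT := (XT.nd (nat_lit 2418) (nat_lit 2280) (nat_lit 0) (XT.nd (nat_lit 1170) (nat_lit 1520) (nat_lit 0) (XT.nd (nat_lit 546) (nat_lit 912) (nat_lit 0) (XT.nd (nat_lit 234) (nat_lit 380) (nat_lit 0) (XT.nd (nat_lit 78) (nat_lit 380) (nat_lit 0) (XT.lf (nat_lit 0) (nat_lit 4660888744) (nat_lit 228) (nat_lit 4705484742) (nat_lit 76) (nat_lit 4843003528) (nat_lit 112) (nat_lit 5) (nat_lit 115) (nat_lit 5) (nat_lit 113) (nat_lit 4) (nat_lit 480) (nat_lit 377) (nat_lit 343)) (XT.nd (nat_lit 78) (nat_lit 228) (nat_lit 0) (XT.lf (nat_lit 0) (nat_lit 6661258801) (nat_lit 152) (nat_lit 3716377585) (nat_lit 228) (nat_lit 4071120246) (nat_lit 110) (nat_lit 5) (nat_lit 112) (nat_lit 5) (nat_lit 113) (nat_lit 4) (nat_lit 481) (nat_lit 377) (nat_lit 342)) (XT.lf (nat_lit 0) (nat_lit 1566451856) (nat_lit 228) (nat_lit 11030450101) (nat_lit 76) (nat_lit 2097167646) (nat_lit 107) (nat_lit 5) (nat_lit 110)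 (nat_lit 5) (nat_lit 108) (nat_lit 4) (nat_lit 482) (nat_lit 377) (nat_lit 341)))) (XT.nd (nat_lit 156) (nat_lit 304) (nat_lit 0) (XT.nd (nat_lit 78) (nat_lit 0) (nat_lit 0) (XT.lf (nat_lit 0) (nat_lit 461264874) (nat_lit 76) (nat_lit 6873537372) (nat_lit 152) (nat_lit 7609426952) (nat_lit 106) (nat_lit 5) (nat_lit 107) (nat_lit 5) (nat_lit 108) (nat_lit 4) (nat_lit 483) (nat_lit 377) (nat_lit 340)) (XT.lf (nat_lit 0) (nat_lit 12381873225) (nat_lit 76) (nat_lit 929428574) (nat_lit 152) (nat_lit 1889539574) (nat_lit 106) (nat_lit 5) (nat_lit 107) (nat_lit 5) (nat_lit 108) (nat_lit 4) (nat_lit 484) (nat_lit 377) (nat_lit 339))) (XT.nd (nat_lit 78) (nat_lit 76) (nat_lit 0) (XT.lf (nat_lit 0) (nat_lit 3988010415) (nat_lit 228) (nat_lit 6317532612) (nat_lit 76) (nat_lit 5156530774) (nat_lit 103) (nat_lit 5) (nat_lit 106) (nat_lit 5) (nat_lit 104) (nat_lit 4) (nat_lit 485) (nat_lit 377) (nat_lit 338)) (XT.lf (nat_lit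 0) (nat_lit 5738678968) (nat_lit 76) (nat_lit 4283781704) (nat_lit 152) (nat_lit 5707565419) (nat_lit 102) (nat_lit 5) (nat_lit 103) (nat_lit 5) (nat_lit 104) (nat_lit 4) (nat_lit 486) (nat_lit 377) (nat_lit 337))))) (XT.nd (nat_lit 312) (nat_lit 380) (nat_lit 0) (XT.nd (nat_lit 156) (nat_lit 304) (nat_lit 0) (XT.nd (nat_lit 78) (nat_lit 0) (nat_lit 0) (XT.lf (nat_lit 0) (nat_lit 257037183) (nat_lit 228) (nat_lit 13842288536) (nat_lit 76) (nat_lit 1905735935) (nat_lit 99) (nat_lit 5) (nat_lit 102) (nat_lit 5) (nat_lit 100) (nat_lit 4) (nat_lit 487) (nat_lit 377) (nat_lit 336)) (XT.lf (nat_lit 0) (nat_lit 6355934642) (nat_lit 228) (nat_lit 1638810171) (nat_lit 76) (nat_lit 8289806589) (nat_lit 99) (nat_lit 5) (nat_lit 102) (nat_lit 5) (nat_lit 100) (nat_lit 4) (nat_lit 488) (nat_lit 377) (nat_lit 335))) (XT.nd (nat_lit 78) (nat_lit 228) (nat_lit 0) (XT.lf (nat_lit 0) (nat_lit 11009792576) (nat_lit 76) (nat_lit 1661768977)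 (nat_lit 152) (nat_lit 3899852027) (nat_lit 98) (nat_lit 5) (nat_lit 99) (nat_lit 5) (nat_lit 100) (nat_lit 4) (nat_lit 489) (nat_lit 377) (nat_lit 334)) (XT.lf (nat_lit 0) (nat_lit 2325715451) (nat_lit 228) (nat_lit 9725966622) (nat_lit 76) (nat_lit 4812703682) (nat_lit 95) (nat_lit 5) (nat_lit 98) (nat_lit 5) (nat_lit 96) (nat_lit 4) (nat_lit 490) (nat_lit 377) (nat_lit 333)))) (XT.nd (nat_lit 156) (nat_lit 304) (nat_lit 0) (XT.nd (nat_lit 78) (nat_lit 0) (nat_lit 0) (XT.lf (nat_lit 0) (nat_lit 3036522484) (nat_lit 76) (nat_lit 5653726553) (nat_lit 152) (nat_lit 8473822780) (nat_lit 94) (nat_lit 5) (nat_lit 95) (nat_lit 5) (nat_lit 96) (nat_lit 4) (nat_lit 491) (nat_lit 377) (nat_lit 332)) (XT.lf (nat_lit 0) (nat_lit 15282307638) (nat_lit 152) (nat_lit 1234812122) (nat_lit 0) (nat_lit 954531574) (nat_lit 94) (nat_lit 5) (nat_lit 96) (nat_lit 4) (nat_lit 94) (nat_lit 4) (nat_lit 492) (nat_lit 377) (nat_lit 331)))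 (XT.nd (nat_lit 78) (nat_lit 76) (nat_lit 0) (XT.lf (nat_lit 0) (nat_lit 4303802736) (nat_lit 228) (nat_lit 5735204201) (nat_lit 76) (nat_lit 7745104812) (nat_lit 91) (nat_lit 5) (nat_lit 94) (nat_lit 5) (nat_lit 92) (nat_lit 4) (nat_lit 493) (nat_lit 377) (nat_lit 330)) (XT.lf (nat_lit 0) (nat_lit 7645864850) (nat_lit 76) (nat_lit 3318538016) (nat_lit 152) (nat_lit 7140393418) (nat_lit 90) (nat_lit 5) (nat_lit 91) (nat_lit 5) (nat_lit 92) (nat_lit 4) (nat_lit 494) (nat_lit 377) (nat_lit 329)))))) (XT.nd (nat_lit 624) (nat_lit 608) (nat_lit 0) (XT.nd (nat_lit 312) (nat_lit 380) (nat_lit 0) (XT.nd (nat_lit 156) (nat_lit 304) (nat_lit 0) (XT.nd (nat_lit 78) (nat_lit 76) (nat_lit 0) (XT.lf (nat_lit 0) (nat_lit 3003387445) (nat_lit 152) (nat_lit 14874166204) (nat_lit 152) (nat_lit 555966211) (nat_lit 88) (nat_lit 4) (nat_lit 90) (nat_lit 5) (nat_lit 90) (nat_lit 4) (nat_lit 495) (nat_lit 377) (nat_lit 328)) (XT.lf (nat_lit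 0) (nat_lit 6174831254) (nat_lit 228) (nat_lit 1911365902) (nat_lit 76) (nat_lit 10682003131) (nat_lit 87) (nat_lit 5) (nat_lit 90) (nat_lit 5) (nat_lit 88) (nat_lit 4) (nat_lit 496) (nat_lit 377) (nat_lit 327))) (XT.nd (nat_lit 78) (nat_lit 228) (nat_lit 0) (XT.lf (nat_lit 0) (nat_lit 12115079114) (nat_lit 76) (nat_lit 1030583707) (nat_lit 152) (nat_lit 5965615074) (nat_lit 86) (nat_lit 5) (nat_lit 87) (nat_lit 5) (nat_lit 88) (nat_lit 4) (nat_lit 497) (nat_lit 377) (nat_lit 326)) (XT.lf (nat_lit 0) (nat_lit 925502493) (nat_lit 228) (nat_lit 12384664730) (nat_lit 76) (nat_lit 6151792791) (nat_lit 83) (nat_lit 5) (nat_lit 86) (nat_lit 5) (nat_lit 84) (nat_lit 4) (nat_lit 498) (nat_lit 377) (nat_lit 325)))) (XT.nd (nat_lit 156) (nat_lit 304) (nat_lit 0) (XT.nd (nat_lit 78) (nat_lit 0) (nat_lit 0) (XT.lf (nat_lit 0) (nat_lit 1730157433) (nat_lit 76) (nat_lit 6204514361) (nat_lit 152) (nat_lit 11885782606) (nat_lit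 82) (nat_lit 5) (nat_lit 83) (nat_lit 5) (nat_lit 84) (nat_lit 4) (nat_lit 499) (nat_lit 377) (nat_lit 324)) (XT.lf (nat_lit 0) (nat_lit 15224296588) (nat_lit 152) (nat_lit 3804736986) (nat_lit 0) (nat_lit 1158565024) (nat_lit 82) (nat_lit 5) (nat_lit 84) (nat_lit 4) (nat_lit 82) (nat_lit 4) (nat_lit 500) (nat_lit 377) (nat_lit 323))) (XT.nd (nat_lit 78) (nat_lit 76) (nat_lit 0) (XT.lf (nat_lit 0) (nat_lit 2227246850) (nat_lit 228) (nat_lit 9648555816) (nat_lit 76) (nat_lit 8686249646) (nat_lit 79) (nat_lit 5) (nat_lit 82) (nat_lit 5) (nat_lit 80) (nat_lit 4) (nat_lit 501) (nat_lit 377) (nat_lit 322)) (XT.lf (nat_lit 0) (nat_lit 5129829316) (nat_lit 76) (nat_lit 4427214293) (nat_lit 152) (nat_lit 11388523472) (nat_lit 78) (nat_lit 5) (nat_lit 79) (nat_lit 5) (nat_lit 80) (nat_lit 4) (nat_lit 502) (nat_lit 377) (nat_lit 321))))) (XT.nd (nat_lit 312) (nat_lit 304) (nat_lit 0) (XT.nd (nat_lit 156) (nat_lit 152) (nat_lit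 0) (XT.nd (nat_lit 78) (nat_lit 152) (nat_lit 0) (XT.lf (nat_lit 0) (nat_lit 17171615440) (nat_lit 152) (nat_lit 946018848) (nat_lit 0) (nat_lit 3221006920) (nat_lit 78) (nat_lit 5) (nat_lit 80) (nat_lit 4) (nat_lit 78) (nat_lit 4) (nat_lit 503) (nat_lit 377) (nat_lit 320)) (XT.lf (nat_lit 0) (nat_lit 3328743712) (nat_lit 152) (nat_lit 7285781702) (nat_lit 76) (nat_lit 11124395412) (nat_lit 76) (nat_lit 5) (nat_lit 78) (nat_lit 5) (nat_lit 77) (nat_lit 4) (nat_lit 504) (nat_lit 377) (nat_lit 319))) (XT.nd (nat_lit 78) (nat_lit 76) (nat_lit 0) (XT.lf (nat_lit 0) (nat_lit 8179044263) (nat_lit 76) (nat_lit 2812090601) (nat_lit 152) (nat_lit 11158071506) (nat_lit 75) (nat_lit 5) (nat_lit 76) (nat_lit 5) (nat_lit 77) (nat_lit 4) (nat_lit 505) (nat_lit 377) (nat_lit 318)) (XT.lf (nat_lit 0) (nat_lit 1544715208) (nat_lit 76) (nat_lit 17415387956) (nat_lit 76) (nat_lit 3609396465) (nat_lit 74) (nat_lit 4) (nat_lit 75) (nat_lit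 5) (nat_lit 75) (nat_lit 4) (nat_lit 506) (nat_lit 377) (nat_lit 317)))) (XT.nd (nat_lit 156) (nat_lit 152) (nat_lit 0) (XT.nd (nat_lit 78) (nat_lit 76) (nat_lit 0) (XT.lf (nat_lit 0) (nat_lit 4192145822) (nat_lit 152) (nat_lit 5378140885) (nat_lit 76) (nat_lit 13427683095) (nat_lit 73) (nat_lit 5) (nat_lit 75) (nat_lit 5) (nat_lit 74) (nat_lit 4) (nat_lit 507) (nat_lit 377) (nat_lit 316)) (XT.lf (nat_lit 0) (nat_lit 10794254560) (nat_lit 76) (nat_lit 1403904329) (nat_lit 152) (nat_lit 11238774283) (nat_lit 72) (nat_lit 5) (nat_lit 73) (nat_lit 5) (nat_lit 74) (nat_lit 4) (nat_lit 508) (nat_lit 377) (nat_lit 315))) (XT.nd (nat_lit 78) (nat_lit 76) (nat_lit 0) (XT.lf (nat_lit 0) (nat_lit 3557516525) (nat_lit 76) (nat_lit 16982540232) (nat_lit 76) (nat_lit 3346137830) (nat_lit 71) (nat_lit 4) (nat_lit 72) (nat_lit 5) (nat_lit 72) (nat_lit 4) (nat_lit 509) (nat_lit 377) (nat_lit 314)) (XT.lf (nat_lit 0) (nat_lit 4772113754)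 (nat_lit 152) (nat_lit 4022049924) (nat_lit 76) (nat_lit 15550925782) (nat_lit 70) (nat_lit 5) (nat_lit 72) (nat_lit 5) (nat_lit 71) (nat_lit 4) (nat_lit 510) (nat_lit 377) (nat_lit 313))))))) (XT.nd (nat_lit 1248) (nat_lit 1064) (nat_lit 0) (XT.nd (nat_lit 624) (nat_lit 608) (nat_lit 0) (XT.nd (nat_lit 312) (nat_lit 304) (nat_lit 0) (XT.nd (nat_lit 156) (nat_lit 152) (nat_lit 0) (XT.nd (nat_lit 78) (nat_lit 76) (nat_lit 0) (XT.lf (nat_lit 0) (nat_lit 12876692143) (nat_lit 76) (nat_lit 254856675) (nat_lit 152) (nat_lit 11683262011) (nat_lit 69) (nat_lit 5) (nat_lit 70) (nat_lit 5) (nat_lit 71) (nat_lit 4) (nat_lit 511) (nat_lit 377) (nat_lit 312)) (XT.lf (nat_lit 0) (nat_lit 4966546954) (nat_lit 76) (nat_lit 16887269329) (nat_lit 76) (nat_lit 3441446321) (nat_lit 68) (nat_lit 4) (nat_lit 69) (nat_lit 5) (nat_lit 69) (nat_lit 4) (nat_lit 512) (nat_lit 377) (nat_lit 311))) (XT.nd (nat_lit 78) (nat_lit 76) (nat_lit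 0) (XT.lf (nat_lit 0) (nat_lit 5014627076) (nat_lit 152) (nat_lit 3331023756) (nat_lit 76) (nat_lit 17441056689) (nat_lit 67) (nat_lit 5) (nat_lit 69) (nat_lit 5) (nat_lit 68) (nat_lit 4) (nat_lit 513) (nat_lit 377) (nat_lit 310)) (XT.lf (nat_lit 0) (nat_lit 13741229282) (nat_lit 152) (nat_lit 11985203994) (nat_lit 0) (nat_lit 562860034) (nat_lit 66) (nat_lit 5) (nat_lit 68) (nat_lit 4) (nat_lit 66) (nat_lit 4) (nat_lit 514) (nat_lit 377) (nat_lit 309)))) (XT.nd (nat_lit 156) (nat_lit 152) (nat_lit 0) (XT.nd (nat_lit 78) (nat_lit 76) (nat_lit 0) (XT.lf (nat_lit 0) (nat_lit 5645736144) (nat_lit 76) (nat_lit 17197780166) (nat_lit 76) (nat_lit 3960023978) (nat_lit 65) (nat_lit 4) (nat_lit 66) (nat_lit 5) (nat_lit 66) (nat_lit 4) (nat_lit 515) (nat_lit 377) (nat_lit 308)) (XT.lf (nat_lit 0) (nat_lit 4855596840) (nat_lit 152) (nat_lit 3438551824) (nat_lit 76) (nat_lit 19035699007) (nat_lit 64) (nat_lit 5) (nat_lit 66)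 (nat_lit 5) (nat_lit 65) (nat_lit 4) (nat_lit 516) (nat_lit 377) (nat_lit 307))) (XT.nd (nat_lit 78) (nat_lit 76) (nat_lit 0) (XT.lf (nat_lit 0) (nat_lit 13954293790) (nat_lit 152) (nat_lit 12921750472) (nat_lit 0) (nat_lit 991777967) (nat_lit 63) (nat_lit 5) (nat_lit 65) (nat_lit 4) (nat_lit 63) (nat_lit 4) (nat_lit 517) (nat_lit 377) (nat_lit 306)) (XT.lf (nat_lit 0) (nat_lit 5446753309) (nat_lit 76) (nat_lit 17993516851) (nat_lit 76) (nat_lit 4978236501) (nat_lit 62) (nat_lit 4) (nat_lit 63) (nat_lit 5) (nat_lit 63) (nat_lit 4) (nat_lit 518) (nat_lit 377) (nat_lit 305))))) (XT.nd (nat_lit 312) (nat_lit 304) (nat_lit 0) (XT.nd (nat_lit 156) (nat_lit 152) (nat_lit 0) (XT.nd (nat_lit 78) (nat_lit 76) (nat_lit 0) (XT.lf (nat_lit 0) (nat_lit 4219248252) (nat_lit 152) (nat_lit 4501434092) (nat_lit 76) (nat_lit 20261513596) (nat_lit 61) (nat_lit 5) (nat_lit 63) (nat_lit 5) (nat_lit 62) (nat_lit 4) (nat_lit 519) (nat_lit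 377) (nat_lit 304)) (XT.lf (nat_lit 0) (nat_lit 13689237753) (nat_lit 152) (nat_lit 14914159909) (nat_lit 0) (nat_lit 955020594) (nat_lit 60) (nat_lit 5) (nat_lit 62) (nat_lit 4) (nat_lit 60) (nat_lit 4) (nat_lit 520) (nat_lit 377) (nat_lit 303))) (XT.nd (nat_lit 78) (nat_lit 76) (nat_lit 0) (XT.lf (nat_lit 0) (nat_lit 4195293761) (nat_lit 76) (nat_lit 19367080002) (nat_lit 76) (nat_lit 6585982244) (nat_lit 59) (nat_lit 4) (nat_lit 60) (nat_lit 5) (nat_lit 60) (nat_lit 4) (nat_lit 521) (nat_lit 377) (nat_lit 302)) (XT.lf (nat_lit 0) (nat_lit 3016237273) (nat_lit 152) (nat_lit 6703651237) (nat_lit 76) (nat_lit 21032287648) (nat_lit 58) (nat_lit 5) (nat_lit 60) (nat_lit 5) (nat_lit 59) (nat_lit 4) (nat_lit 522) (nat_lit 377) (nat_lit 301)))) (XT.nd (nat_lit 156) (nat_lit 152) (nat_lit 0) (XT.nd (nat_lit 78) (nat_lit 76) (nat_lit 0) (XT.lf (nat_lit 0) (nat_lit 12852717761) (nat_lit 152) (nat_lit 18160286955) (nat_lit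 0) (nat_lit 356793137) (nat_lit 57) (nat_lit 5) (nat_lit 59) (nat_lit 4) (nat_lit 57) (nat_lit 4) (nat_lit 523) (nat_lit 377) (nat_lit 300)) (XT.lf (nat_lit 0) (nat_lit 1686769864) (nat_lit 76) (nat_lit 21426444139) (nat_lit 76) (nat_lit 8888866710) (nat_lit 56) (nat_lit 4) (nat_lit 57) (nat_lit 5) (nat_lit 57) (nat_lit 4) (nat_lit 524) (nat_lit 377) (nat_lit 299))) (XT.nd (nat_lit 78) (nat_lit 76) (nat_lit 0) (XT.lf (nat_lit 0) (nat_lit 1141459113) (nat_lit 152) (nat_lit 10260855044) (nat_lit 76) (nat_lit 21246721644) (nat_lit 55) (nat_lit 5) (nat_lit 57) (nat_lit 5) (nat_lit 56) (nat_lit 4) (nat_lit 525) (nat_lit 377) (nat_lit 298)) (XT.lf (nat_lit 0) (nat_lit 10410536358) (nat_lit 76) (nat_lit 933214955) (nat_lit 152) (nat_lit 21967516689) (nat_lit 54) (nat_lit 5) (nat_lit 55) (nat_lit 5) (nat_lit 56) (nat_lit 4) (nat_lit 526) (nat_lit 377) (nat_lit 297)))))) (XT.nd (nat_lit 624) (nat_lit 532) (nat_lit 0) (XT.nd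 (nat_lit 312) (nat_lit 304) (nat_lit 0) (XT.nd (nat_lit 156) (nat_lit 152) (nat_lit 0) (XT.nd (nat_lit 78) (nat_lit 76) (nat_lit 0) (XT.lf (nat_lit 0) (nat_lit 22001123373) (nat_lit 152) (nat_lit 2273443455) (nat_lit 0) (nat_lit 9714330144) (nat_lit 54) (nat_lit 5) (nat_lit 56) (nat_lit 4) (nat_lit 54) (nat_lit 4) (nat_lit 527) (nat_lit 377) (nat_lit 296)) (XT.lf (nat_lit 0) (nat_lit 19241930183) (nat_lit 76) (nat_lit 13881643673) (nat_lit 76) (nat_lit 1558920369) (nat_lit 53) (nat_lit 4) (nat_lit 54) (nat_lit 5) (nat_lit 54) (nat_lit 4) (nat_lit 528) (nat_lit 377) (nat_lit 295))) (XT.nd (nat_lit 78) (nat_lit 0) (nat_lit 0) (XT.lf (nat_lit 0) (nat_lit 5984443827) (nat_lit 76) (nat_lit 3051049127) (nat_lit 152) (nat_lit 26357801926) (nat_lit 51) (nat_lit 5) (nat_lit 52) (nat_lit 5) (nat_lit 53) (nat_lit 4) (nat_lit 529) (nat_lit 377) (nat_lit 294)) (XT.lf (nat_lit 0) (nat_lit 20102987622) (nat_lit 152) (nat_lit 7943941620)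 (nat_lit 0) (nat_lit 8072429938) (nat_lit 51) (nat_lit 5) (nat_lit 53) (nat_lit 4) (nat_lit 51) (nat_lit 4) (nat_lit 530) (nat_lit 377) (nat_lit 293)))) (XT.nd (nat_lit 156) (nat_lit 152) (nat_lit 0) (XT.nd (nat_lit 78) (nat_lit 76) (nat_lit 0) (XT.lf (nat_lit 0) (nat_lit 14319932050) (nat_lit 76) (nat_lit 17303069861) (nat_lit 76) (nat_lit 5240588770) (nat_lit 50) (nat_lit 4) (nat_lit 51) (nat_lit 5) (nat_lit 51) (nat_lit 4) (nat_lit 531) (nat_lit 377) (nat_lit 292)) (XT.lf (nat_lit 0) (nat_lit 5777813176) (nat_lit 152) (nat_lit 364513940) (nat_lit 76) (nat_lit 31485122702) (nat_lit 49) (nat_lit 5) (nat_lit 51) (nat_lit 5) (nat_lit 50) (nat_lit 4) (nat_lit 532) (nat_lit 377) (nat_lit 291))) (XT.nd (nat_lit 78) (nat_lit 76) (nat_lit 0) (XT.lf (nat_lit 0) (nat_lit 17248158205) (nat_lit 152) (nat_lit 15680002167) (nat_lit 0) (nat_lit 5477706204) (nat_lit 48) (nat_lit 5) (nat_lit 50) (nat_lit 4) (nat_lit 48) (nat_lit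 4) (nat_lit 533) (nat_lit 377) (nat_lit 290)) (XT.lf (nat_lit 0) (nat_lit 7298961093) (nat_lit 76) (nat_lit 21852413772) (nat_lit 76) (nat_lit 10053598237) (nat_lit 47) (nat_lit 4) (nat_lit 48) (nat_lit 5) (nat_lit 48) (nat_lit 4) (nat_lit 534) (nat_lit 377) (nat_lit 289))))) (XT.nd (nat_lit 312) (nat_lit 304) (nat_lit 0) (XT.nd (nat_lit 156) (nat_lit 76) (nat_lit 0) (XT.nd (nat_lit 78) (nat_lit 76) (nat_lit 0) (XT.lf (nat_lit 0) (nat_lit 1470623731) (nat_lit 152) (nat_lit 8840986771) (nat_lit 76) (nat_lit 29712623763) (nat_lit 46) (nat_lit 5) (nat_lit 48) (nat_lit 5) (nat_lit 47) (nat_lit 4) (nat_lit 535) (nat_lit 377) (nat_lit 288)) (XT.lf (nat_lit 0) (nat_lit 13255446957) (nat_lit 152) (nat_lit 25858537680) (nat_lit 0) (nat_lit 1747594243) (nat_lit 45) (nat_lit 5) (nat_lit 47) (nat_lit 4) (nat_lit 45) (nat_lit 4) (nat_lit 536) (nat_lit 377) (nat_lit 287))) (XT.nd (nat_lit 78) (nat_lit 76) (nat_lit 0) (XT.lf (nat_lit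 0) (nat_lit 25541522084) (nat_lit 152) (nat_lit 2169621889) (nat_lit 0) (nat_lit 14008468738) (nat_lit 45) (nat_lit 5) (nat_lit 47) (nat_lit 4) (nat_lit 45) (nat_lit 4) (nat_lit 537) (nat_lit 377) (nat_lit 286)) (XT.lf (nat_lit 0) (nat_lit 22584353907) (nat_lit 76) (nat_lit 15785669205) (nat_lit 76) (nat_lit 4228149226) (nat_lit 44) (nat_lit 4) (nat_lit 45) (nat_lit 5) (nat_lit 45) (nat_lit 4) (nat_lit 538) (nat_lit 377) (nat_lit 285)))) (XT.nd (nat_lit 156) (nat_lit 152) (nat_lit 0) (XT.nd (nat_lit 78) (nat_lit 0) (nat_lit 0) (XT.lf (nat_lit 0) (nat_lit 4547517477) (nat_lit 76) (nat_lit 3397699994) (nat_lit 152) (nat_lit 35554863105) (nat_lit 42) (nat_lit 5) (nat_lit 43) (nat_lit 5) (nat_lit 44) (nat_lit 4) (nat_lit 539) (nat_lit 377) (nat_lit 284)) (XT.lf (nat_lit 0) (nat_lit 20649687930) (nat_lit 152) (nat_lit 14387233636) (nat_lit 0) (nat_lit 9383342163) (nat_lit 42) (nat_lit 5) (nat_lit 44) (nat_lit 4) (nat_lit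 42) (nat_lit 4) (nat_lit 540) (nat_lit 377) (nat_lit 283))) (XT.nd (nat_lit 78) (nat_lit 76) (nat_lit 0) (XT.lf (nat_lit 0) (nat_lit 11012471741) (nat_lit 76) (nat_lit 22820369158) (nat_lit 76) (nat_lit 11532285104) (nat_lit 41) (nat_lit 4) (nat_lit 42) (nat_lit 5) (nat_lit 42) (nat_lit 4) (nat_lit 541) (nat_lit 377) (nat_lit 282)) (XT.lf (nat_lit 0) (nat_lit 1156996336) (nat_lit 152) (nat_lit 8960486622) (nat_lit 76) (nat_lit 36217398294) (nat_lit 40) (nat_lit 5) (nat_lit 42) (nat_lit 5) (nat_lit 41) (nat_lit 4) (nat_lit 542) (nat_lit 377) (nat_lit 281))))))))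
noncomputable def xc48 : XT := (XT.nd (nat_lit 56238) (nat_lit 0) (nat_lit 4636) (XT.nd (nat_lit 54990) (nat_lit 0) (nat_lit 9424) (XT.nd (nat_lit 546) (nat_lit 380) (nat_lit 0) (XT.nd (nat_lit 234) (nat_lit 228) (nat_lit 0) (XT.nd (nat_lit 78) (nat_lit 76) (nat_lit 0) (XT.lf (nat_lit 0) (nat_lit 14152002751) (nat_lit 152) (nat_lit 30021282214) (nat_lit 0) (nat_lit 3152313814) (nat_lit 39) (nat_lit 5) (nat_lit 41) (nat_lit 4) (nat_lit 39) (nat_lit 4) (nat_lit 543) (nat_lit 377) (nat_lit 280)) (XT.nd (nat_lit 78) (nat_lit 76) (nat_lit 0) (XT.lf (nat_lit 0) (nat_lit 27687718656) (nat_lit 152) (nat_lit 3985077934) (nat_lit 0) (nat_lit 16668715533) (nat_lit 39) (nat_lit 5) (nat_lit 41) (nat_lit 4) (nat_lit 39) (nat_lit 4) (nat_lit 544) (nat_lit 377) (nat_lit 279)) (XT.lf (nat_lit 0) (nat_lit 23205985940) (nat_lit 76) (nat_lit 18607082444) (nat_lit 76) (nat_lit 7569327683) (nat_lit 38) (nat_lit 4) (nat_lit 39) (nat_lit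 5) (nat_lit 39) (nat_lit 4) (nat_lit 545) (nat_lit 377) (nat_lit 278)))) (XT.nd (nat_lit 156) (nat_lit 76) (nat_lit 0) (XT.nd (nat_lit 78) (nat_lit 0) (nat_lit 0) (XT.lf (nat_lit 0) (nat_lit 718945317) (nat_lit 76) (nat_lit 5081500766) (nat_lit 152) (nat_lit 44652115246) (nat_lit 36) (nat_lit 5) (nat_lit 37) (nat_lit 5) (nat_lit 38) (nat_lit 4) (nat_lit 546) (nat_lit 377) (nat_lit 277)) (XT.lf (nat_lit 0) (nat_lit 19731718906) (nat_lit 152) (nat_lit 22830871609) (nat_lit 0) (nat_lit 8980616527) (nat_lit 36) (nat_lit 5) (nat_lit 38) (nat_lit 4) (nat_lit 36) (nat_lit 4) (nat_lit 547) (nat_lit 377) (nat_lit 276))) (XT.nd (nat_lit 78) (nat_lit 0) (nat_lit 0) (XT.lf (nat_lit 0) (nat_lit 4846427095) (nat_lit 76) (nat_lit 29293075440) (nat_lit 76) (nat_lit 18525312475) (nat_lit 35) (nat_lit 4) (nat_lit 36) (nat_lit 5) (nat_lit 36) (nat_lit 4) (nat_lit 548) (nat_lit 377) (nat_lit 275)) (XT.lf (nat_lit 0) (nat_lit 33746020672)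 (nat_lit 76) (nat_lit 15426105352) (nat_lit 76) (nat_lit 4642167060) (nat_lit 35) (nat_lit 4) (nat_lit 36) (nat_lit 5) (nat_lit 36) (nat_lit 4) (nat_lit 549) (nat_lit 377) (nat_lit 274))))) (XT.nd (nat_lit 312) (nat_lit 152) (nat_lit 0) (XT.nd (nat_lit 156) (nat_lit 76) (nat_lit 0) (XT.nd (nat_lit 78) (nat_lit 0) (nat_lit 0) (XT.lf (nat_lit 0) (nat_lit 8513073352) (nat_lit 76) (nat_lit 1000579772) (nat_lit 152) (nat_lit 45480478452) (nat_lit 33) (nat_lit 5) (nat_lit 34) (nat_lit 5) (nat_lit 35) (nat_lit 4) (nat_lit 550) (nat_lit 377) (nat_lit 273)) (XT.lf (nat_lit 0) (nat_lit 24301528132) (nat_lit 152) (nat_lit 18095802170) (nat_lit 0) (nat_lit 13801635618) (nat_lit 33) (nat_lit 5) (nat_lit 35) (nat_lit 4) (nat_lit 33) (nat_lit 4) (nat_lit 551) (nat_lit 377) (nat_lit 272))) (XT.nd (nat_lit 78) (nat_lit 0) (nat_lit 0) (XT.lf (nat_lit 0) (nat_lit 11278788245) (nat_lit 76) (nat_lit 28336477201) (nat_lit 76) (nat_lit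 17822213120) (nat_lit 32) (nat_lit 4) (nat_lit 33) (nat_lit 5) (nat_lit 33) (nat_lit 4) (nat_lit 552) (nat_lit 377) (nat_lit 271)) (XT.lf (nat_lit 0) (nat_lit 41833866070) (nat_lit 76) (nat_lit 13701543890) (nat_lit 76) (nat_lit 3173326829) (nat_lit 32) (nat_lit 4) (nat_lit 33) (nat_lit 5) (nat_lit 33) (nat_lit 4) (nat_lit 553) (nat_lit 377) (nat_lit 270)))) (XT.nd (nat_lit 53976) (nat_lit 0) (nat_lit 13832) (XT.nd (nat_lit 53898) (nat_lit 0) (nat_lit 14288) (XT.lf (nat_lit 0) (nat_lit 11791197903) (nat_lit 152) (nat_lit 46663762642) (nat_lit 0) (nat_lit 1556475920) (nat_lit 30) (nat_lit 5) (nat_lit 32) (nat_lit 4) (nat_lit 30) (nat_lit 4) (nat_lit 554) (nat_lit 377) (nat_lit 269)) (XT.lf (nat_lit 0) (nat_lit 898235940) (nat_lit 380) (nat_lit 1678129653) (nat_lit 380) (nat_lit 1678129653) (nat_lit 218) (nat_lit 4) (nat_lit 223) (nat_lit 5) (nat_lit 223) (nat_lit 4) (nat_lit 444) (nat_lit 378) (nat_lit 378))) (XT.nd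 (nat_lit 78) (nat_lit 0) (nat_lit 0) (XT.lf (nat_lit 0) (nat_lit 692071977) (nat_lit 380) (nat_lit 163374260) (nat_lit 456) (nat_lit 7750941546) (nat_lit 212) (nat_lit 5) (nat_lit 217) (nat_lit 5) (nat_lit 218) (nat_lit 4) (nat_lit 445) (nat_lit 378) (nat_lit 377)) (XT.lf (nat_lit 0) (nat_lit 5120403978) (nat_lit 456) (nat_lit 463663242) (nat_lit 0) (nat_lit 3121815715) (nat_lit 212) (nat_lit 5) (nat_lit 218) (nat_lit 4) (nat_lit 212) (nat_lit 4) (nat_lit 446) (nat_lit 378) (nat_lit 376)))))) (XT.nd (nat_lit 624) (nat_lit 1900) (nat_lit 0) (XT.nd (nat_lit 312) (nat_lit 1064) (nat_lit 0) (XT.nd (nat_lit 156) (nat_lit 684) (nat_lit 0) (XT.nd (nat_lit 78) (nat_lit 304) (nat_lit 0) (XT.lf (nat_lit 0) (nat_lit 660634917) (nat_lit 456) (nat_lit 1613350096) (nat_lit 76) (nat_lit 6535094735) (nat_lit 206) (nat_lit 5) (nat_lit 212) (nat_lit 5) (nat_lit 207) (nat_lit 4) (nat_lit 447) (nat_lit 378) (nat_lit 375)) (XT.lf (nat_lit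 0) (nat_lit 4936474122) (nat_lit 380) (nat_lit 2811498670) (nat_lit 0) (nat_lit 1167105788) (nat_lit 202) (nat_lit 5) (nat_lit 207) (nat_lit 4) (nat_lit 202) (nat_lit 4) (nat_lit 448) (nat_lit 378) (nat_lit 374))) (XT.nd (nat_lit 78) (nat_lit 304) (nat_lit 0) (XT.lf (nat_lit 0) (nat_lit 297461267) (nat_lit 380) (nat_lit 4040260772) (nat_lit 76) (nat_lit 4686828138) (nat_lit 197) (nat_lit 5) (nat_lit 202) (nat_lit 5) (nat_lit 198) (nat_lit 4) (nat_lit 449) (nat_lit 378) (nat_lit 373)) (XT.lf (nat_lit 0) (nat_lit 3820827489) (nat_lit 304) (nat_lit 767446212) (nat_lit 380) (nat_lit 4548860557) (nat_lit 193) (nat_lit 5) (nat_lit 197) (nat_lit 5) (nat_lit 198) (nat_lit 4) (nat_lit 450) (nat_lit 378) (nat_lit 372)))) (XT.nd (nat_lit 156) (nat_lit 380) (nat_lit 0) (XT.nd (nat_lit 78) (nat_lit 380) (nat_lit 0) (XT.lf (nat_lit 0) (nat_lit 2621302825) (nat_lit 304) (nat_lit 6382890759) (nat_lit 304) (nat_lit 249013720) (nat_lit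 189) (nat_lit 4) (nat_lit 193) (nat_lit 5) (nat_lit 193) (nat_lit 4) (nat_lit 451) (nat_lit 378) (nat_lit 371)) (XT.lf (nat_lit 0) (nat_lit 1362504587) (nat_lit 304) (nat_lit 2713148481) (nat_lit 380) (nat_lit 5296585224) (nat_lit 184) (nat_lit 5) (nat_lit 188) (nat_lit 5) (nat_lit 189) (nat_lit 4) (nat_lit 452) (nat_lit 378) (nat_lit 370))) (XT.nd (nat_lit 78) (nat_lit 76) (nat_lit 0) (XT.lf (nat_lit 0) (nat_lit 76430719) (nat_lit 304) (nat_lit 8430618094) (nat_lit 304) (nat_lit 988260302) (nat_lit 180) (nat_lit 4) (nat_lit 184) (nat_lit 5) (nat_lit 184) (nat_lit 4) (nat_lit 453) (nat_lit 378) (nat_lit 369)) (XT.lf (nat_lit 0) (nat_lit 3394351625) (nat_lit 380) (nat_lit 1263066694) (nat_lit 76) (nat_lit 4963291193) (nat_lit 179) (nat_lit 5) (nat_lit 184) (nat_lit 5) (nat_lit 180) (nat_lit 4) (nat_lit 454) (nat_lit 378) (nat_lit 368))))) (XT.nd (nat_lit 312) (nat_lit 760) (nat_lit 0) (XT.nd (nat_lit 156) (nat_lit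 532) (nat_lit 0) (XT.nd (nat_lit 78) (nat_lit 380) (nat_lit 0) (XT.lf (nat_lit 0) (nat_lit 7119006151) (nat_lit 228) (nat_lit 744606429) (nat_lit 304) (nat_lit 1886717241) (nat_lit 176) (nat_lit 5) (nat_lit 179) (nat_lit 5) (nat_lit 180) (nat_lit 4) (nat_lit 455) (nat_lit 378) (nat_lit 367)) (XT.lf (nat_lit 0) (nat_lit 2540673295) (nat_lit 380) (nat_lit 4079852482) (nat_lit 76) (nat_lit 3262331373) (nat_lit 171) (nat_lit 5) (nat_lit 176) (nat_lit 5) (nat_lit 172) (nat_lit 4) (nat_lit 456) (nat_lit 378) (nat_lit 366))) (XT.nd (nat_lit 78) (nat_lit 304) (nat_lit 0) (XT.lf (nat_lit 0) (nat_lit 4437282524) (nat_lit 228) (nat_lit 2610319310) (nat_lit 304) (nat_lit 2971661177) (nat_lit 168) (nat_lit 5) (nat_lit 171) (nat_lit 5) (nat_lit 172) (nat_lit 4) (nat_lit 457) (nat_lit 378) (nat_lit 365)) (XT.lf (nat_lit 0) (nat_lit 1493907369) (nat_lit 304) (nat_lit 7144915032) (nat_lit 76) (nat_lit 1520685988) (nat_lit 164) (nat_lit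 5) (nat_lit 168) (nat_lit 5) (nat_lit 165) (nat_lit 4) (nat_lit 458) (nat_lit 378) (nat_lit 364)))) (XT.nd (nat_lit 156) (nat_lit 456) (nat_lit 0) (XT.nd (nat_lit 78) (nat_lit 76) (nat_lit 0) (XT.lf (nat_lit 0) (nat_lit 1504950854) (nat_lit 228) (nat_lit 4534853702) (nat_lit 304) (nat_lit 4263093287) (nat_lit 161) (nat_lit 5) (nat_lit 164) (nat_lit 5) (nat_lit 165) (nat_lit 4) (nat_lit 459) (nat_lit 378) (nat_lit 363)) (XT.lf (nat_lit 0) (nat_lit 248245136) (nat_lit 304) (nat_lit 41122985) (nat_lit 76) (nat_lit 10161682911) (nat_lit 160) (nat_lit 5) (nat_lit 164) (nat_lit 5) (nat_lit 161) (nat_lit 5) (nat_lit 460) (nat_lit 378) (nat_lit 362))) (XT.nd (nat_lit 78) (nat_lit 228) (nat_lit 0) (XT.lf (nat_lit 0) (nat_lit 4847224840) (nat_lit 304) (nat_lit 1677048388) (nat_lit 76) (nat_lit 4076971655) (nat_lit 157) (nat_lit 5) (nat_lit 161) (nat_lit 5) (nat_lit 158) (nat_lit 4) (nat_lit 461) (nat_lit 378) (nat_lit 361))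 (XT.lf (nat_lit 0) (nat_lit 7398479948) (nat_lit 228) (nat_lit 2172560260) (nat_lit 304) (nat_lit 1185300182) (nat_lit 154) (nat_lit 5) (nat_lit 157) (nat_lit 5) (nat_lit 158) (nat_lit 4) (nat_lit 462) (nat_lit 378) (nat_lit 360))))))) (XT.nd (nat_lit 1170) (nat_lit 2128) (nat_lit 0) (XT.nd (nat_lit 546) (nat_lit 1292) (nat_lit 0) (XT.nd (nat_lit 234) (nat_lit 608) (nat_lit 0) (XT.nd (nat_lit 78) (nat_lit 456) (nat_lit 0) (XT.lf (nat_lit 0) (nat_lit 3460064482) (nat_lit 304) (nat_lit 5140712786) (nat_lit 76) (nat_lit 2314049572) (nat_lit 150) (nat_lit 5) (nat_lit 154) (nat_lit 5) (nat_lit 151) (nat_lit 4) (nat_lit 463) (nat_lit 378) (nat_lit 359)) (XT.nd (nat_lit 78) (nat_lit 304) (nat_lit 0) (XT.lf (nat_lit 0) (nat_lit 4070387881) (nat_lit 152) (nat_lit 4158797725) (nat_lit 228) (nat_lit 2848285315) (nat_lit 148) (nat_lit 5) (nat_lit 150) (nat_lit 5) (nat_lit 151) (nat_lit 4) (nat_lit 464) (nat_lit 378) (nat_lit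 358)) (XT.lf (nat_lit 0) (nat_lit 1851843293) (nat_lit 304) (nat_lit 8950834352) (nat_lit 76) (nat_lit 441997502) (nat_lit 144) (nat_lit 5) (nat_lit 148) (nat_lit 5) (nat_lit 145) (nat_lit 4) (nat_lit 465) (nat_lit 378) (nat_lit 357)))) (XT.nd (nat_lit 156) (nat_lit 380) (nat_lit 0) (XT.nd (nat_lit 78) (nat_lit 76) (nat_lit 0) (XT.lf (nat_lit 0) (nat_lit 392139004) (nat_lit 152) (nat_lit 6274131327) (nat_lit 228) (nat_lit 4748864407) (nat_lit 142) (nat_lit 5) (nat_lit 144) (nat_lit 5) (nat_lit 145) (nat_lit 4) (nat_lit 466) (nat_lit 378) (nat_lit 356)) (XT.lf (nat_lit 0) (nat_lit 39419822) (nat_lit 228) (nat_lit 1538684147) (nat_lit 76) (nat_lit 10012425580) (nat_lit 141) (nat_lit 5) (nat_lit 144) (nat_lit 5) (nat_lit 142) (nat_lit 5) (nat_lit 467) (nat_lit 378) (nat_lit 355))) (XT.nd (nat_lit 78) (nat_lit 152) (nat_lit 0) (XT.lf (nat_lit 0) (nat_lit 4903588145) (nat_lit 304) (nat_lit 3602785648) (nat_lit 76) (nat_lit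 3262572768) (nat_lit 138) (nat_lit 5) (nat_lit 142) (nat_lit 5) (nat_lit 139) (nat_lit 4) (nat_lit 468) (nat_lit 378) (nat_lit 354)) (XT.lf (nat_lit 0) (nat_lit 6202196154) (nat_lit 152) (nat_lit 3719771204) (nat_lit 228) (nat_lit 2030501511) (nat_lit 136) (nat_lit 5) (nat_lit 138) (nat_lit 5) (nat_lit 139) (nat_lit 4) (nat_lit 469) (nat_lit 378) (nat_lit 353))))) (XT.nd (nat_lit 312) (nat_lit 608) (nat_lit 0) (XT.nd (nat_lit 156) (nat_lit 228) (nat_lit 0) (XT.nd (nat_lit 78) (nat_lit 152) (nat_lit 0) (XT.lf (nat_lit 0) (nat_lit 2898054069) (nat_lit 304) (nat_lit 8010726759) (nat_lit 76) (nat_lit 1231680564) (nat_lit 132) (nat_lit 5) (nat_lit 136) (nat_lit 5) (nat_lit 133) (nat_lit 4) (nat_lit 470) (nat_lit 378) (nat_lit 352)) (XT.lf (nat_lit 0) (nat_lit 1926602140) (nat_lit 152) (nat_lit 6039044628) (nat_lit 228) (nat_lit 4366885304) (nat_lit 130) (nat_lit 5) (nat_lit 132) (nat_lit 5) (nat_lit 133) (nat_lit 4)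 (nat_lit 471) (nat_lit 378) (nat_lit 351))) (XT.nd (nat_lit 78) (nat_lit 152) (nat_lit 0) (XT.lf (nat_lit 0) (nat_lit 642021091) (nat_lit 228) (nat_lit 354127361) (nat_lit 76) (nat_lit 11534031787) (nat_lit 129) (nat_lit 5) (nat_lit 132) (nat_lit 5) (nat_lit 130) (nat_lit 5) (nat_lit 472) (nat_lit 378) (nat_lit 350)) (XT.lf (nat_lit 0) (nat_lit 5771377574) (nat_lit 228) (nat_lit 2762893589) (nat_lit 76) (nat_lit 4196452144) (nat_lit 127) (nat_lit 5) (nat_lit 130) (nat_lit 5) (nat_lit 128) (nat_lit 4) (nat_lit 473) (nat_lit 378) (nat_lit 349)))) (XT.nd (nat_lit 156) (nat_lit 228) (nat_lit 0) (XT.nd (nat_lit 78) (nat_lit 228) (nat_lit 0) (XT.lf (nat_lit 0) (nat_lit 7667752646) (nat_lit 152) (nat_lit 3395011078) (nat_lit 228) (nat_lit 1874275578) (nat_lit 125) (nat_lit 5) (nat_lit 127) (nat_lit 5) (nat_lit 128) (nat_lit 4) (nat_lit 474) (nat_lit 378) (nat_lit 348)) (XT.lf (nat_lit 0) (nat_lit 3316224271) (nat_lit 228)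 (nat_lit 7919978290) (nat_lit 76) (nat_lit 1911818086) (nat_lit 122) (nat_lit 5) (nat_lit 125) (nat_lit 5) (nat_lit 123) (nat_lit 4) (nat_lit 475) (nat_lit 378) (nat_lit 347))) (XT.nd (nat_lit 78) (nat_lit 76) (nat_lit 0) (XT.lf (nat_lit 0) (nat_lit 2641379906) (nat_lit 152) (nat_lit 6017625711) (nat_lit 228) (nat_lit 4704742983) (nat_lit 120) (nat_lit 5) (nat_lit 122) (nat_lit 5) (nat_lit 123) (nat_lit 4) (nat_lit 476) (nat_lit 378) (nat_lit 346)) (XT.lf (nat_lit 0) (nat_lit 567310233) (nat_lit 228) (nat_lit 50152116) (nat_lit 76) (nat_lit 12968247945) (nat_lit 119) (nat_lit 5) (nat_lit 122) (nat_lit 5) (nat_lit 120) (nat_lit 5) (nat_lit 477) (nat_lit 378) (nat_lit 345)))))) (XT.nd (nat_lit 624) (nat_lit 912) (nat_lit 0) (XT.nd (nat_lit 312) (nat_lit 532) (nat_lit 0) (XT.nd (nat_lit 156) (nat_lit 380) (nat_lit 0) (XT.nd (nat_lit 78) (nat_lit 152) (nat_lit 0) (XT.lf (nat_lit 0) (nat_lit 5980815862) (nat_lit 228)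 (nat_lit 2888808406) (nat_lit 76) (nat_lit 4940974502) (nat_lit 117) (nat_lit 5) (nat_lit 120) (nat_lit 5) (nat_lit 118) (nat_lit 4) (nat_lit 478) (nat_lit 378) (nat_lit 344)) (XT.lf (nat_lit 0) (nat_lit 8197165993) (nat_lit 152) (nat_lit 3369235213) (nat_lit 228) (nat_lit 2475543359) (nat_lit 115) (nat_lit 5) (nat_lit 117) (nat_lit 5) (nat_lit 118) (nat_lit 4) (nat_lit 479) (nat_lit 378) (nat_lit 343))) (XT.nd (nat_lit 78) (nat_lit 152) (nat_lit 0) (XT.lf (nat_lit 0) (nat_lit 3007682137) (nat_lit 228) (nat_lit 8970162786) (nat_lit 76) (nat_lit 2300680176) (nat_lit 112) (nat_lit 5) (nat_lit 115) (nat_lit 5) (nat_lit 113) (nat_lit 4) (nat_lit 480) (nat_lit 378) (nat_lit 342)) (XT.lf (nat_lit 0) (nat_lit 2241967608) (nat_lit 152) (nat_lit 6402879613) (nat_lit 228) (nat_lit 5875445376) (nat_lit 110) (nat_lit 5) (nat_lit 112) (nat_lit 5) (nat_lit 113) (nat_lit 4) (nat_lit 481) (nat_lit 378) (nat_lit 341)))) (XT.nd (nat_lit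 156) (nat_lit 304) (nat_lit 0) (XT.nd (nat_lit 78) (nat_lit 228) (nat_lit 0) (XT.lf (nat_lit 0) (nat_lit 13836897261) (nat_lit 152) (nat_lit 630367230) (nat_lit 228) (nat_lit 301565312) (nat_lit 110) (nat_lit 5) (nat_lit 112) (nat_lit 5) (nat_lit 113) (nat_lit 4) (nat_lit 482) (nat_lit 378) (nat_lit 340)) (XT.lf (nat_lit 0) (nat_lit 5416041553) (nat_lit 228) (nat_lit 4296392902) (nat_lit 76) (nat_lit 5308341123) (nat_lit 107) (nat_lit 5) (nat_lit 110) (nat_lit 5) (nat_lit 108) (nat_lit 4) (nat_lit 483) (nat_lit 378) (nat_lit 339))) (XT.nd (nat_lit 78) (nat_lit 228) (nat_lit 0) (XT.lf (nat_lit 0) (nat_lit 7470809103) (nat_lit 76) (nat_lit 3843125131) (nat_lit 152) (nat_lit 3965812086) (nat_lit 106) (nat_lit 5) (nat_lit 107) (nat_lit 5) (nat_lit 108) (nat_lit 4) (nat_lit 484) (nat_lit 378) (nat_lit 338)) (XT.lf (nat_lit 0) (nat_lit 1838109440) (nat_lit 228) (nat_lit 11507483963) (nat_lit 76) (nat_lit 2199408757) (nat_lit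 103) (nat_lit 5) (nat_lit 106) (nat_lit 5) (nat_lit 104) (nat_lit 4) (nat_lit 485) (nat_lit 378) (nat_lit 337))))) (XT.nd (nat_lit 312) (nat_lit 532) (nat_lit 0) (XT.nd (nat_lit 156) (nat_lit 304) (nat_lit 0) (XT.nd (nat_lit 78) (nat_lit 0) (nat_lit 0) (XT.lf (nat_lit 0) (nat_lit 377360900) (nat_lit 76) (nat_lit 7408002187) (nat_lit 152) (nat_lit 8030207591) (nat_lit 102) (nat_lit 5) (nat_lit 103) (nat_lit 5) (nat_lit 104) (nat_lit 4) (nat_lit 486) (nat_lit 378) (nat_lit 336)) (XT.lf (nat_lit 0) (nat_lit 12720473041) (nat_lit 76) (nat_lit 1235192569) (nat_lit 152) (nat_lit 2137252353) (nat_lit 102) (nat_lit 5) (nat_lit 103) (nat_lit 5) (nat_lit 104) (nat_lit 4) (nat_lit 487) (nat_lit 378) (nat_lit 335))) (XT.nd (nat_lit 78) (nat_lit 76) (nat_lit 0) (XT.lf (nat_lit 0) (nat_lit 3922583999) (nat_lit 228) (nat_lit 7364156060) (nat_lit 76) (nat_lit 5088707289) (nat_lit 99) (nat_lit 5) (nat_lit 102) (nat_lit 5) (nat_lit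 100) (nat_lit 4) (nat_lit 488) (nat_lit 378) (nat_lit 334)) (XT.lf (nat_lit 0) (nat_lit 5104250289) (nat_lit 76) (nat_lit 5042724365) (nat_lit 152) (nat_lit 6518072253) (nat_lit 98) (nat_lit 5) (nat_lit 99) (nat_lit 5) (nat_lit 100) (nat_lit 4) (nat_lit 489) (nat_lit 378) (nat_lit 333)))) (XT.nd (nat_lit 156) (nat_lit 304) (nat_lit 0) (XT.nd (nat_lit 78) (nat_lit 76) (nat_lit 0) (XT.lf (nat_lit 0) (nat_lit 1010132003) (nat_lit 152) (nat_lit 15576344632) (nat_lit 152) (nat_lit 376007005) (nat_lit 96) (nat_lit 4) (nat_lit 98) (nat_lit 5) (nat_lit 98) (nat_lit 4) (nat_lit 490) (nat_lit 378) (nat_lit 332)) (XT.lf (nat_lit 0) (nat_lit 5932346476) (nat_lit 228) (nat_lit 3310600564) (nat_lit 76) (nat_lit 8021236883) (nat_lit 95) (nat_lit 5) (nat_lit 98) (nat_lit 5) (nat_lit 96) (nat_lit 4) (nat_lit 491) (nat_lit 378) (nat_lit 331))) (XT.nd (nat_lit 78) (nat_lit 228) (nat_lit 0) (XT.lf (nat_lit 0) (nat_lit 9769006891) (nat_lit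 76) (nat_lit 2679634943) (nat_lit 152) (nat_lit 5125394764) (nat_lit 94) (nat_lit 5) (nat_lit 95) (nat_lit 5) (nat_lit 96) (nat_lit 4) (nat_lit 492) (nat_lit 378) (nat_lit 330)) (XT.lf (nat_lit 0) (nat_lit 1300034441) (nat_lit 228) (nat_lit 12551108455) (nat_lit 76) (nat_lit 4039951359) (nat_lit 91) (nat_lit 5) (nat_lit 94) (nat_lit 5) (nat_lit 92) (nat_lit 4) (nat_lit 493) (nat_lit 378) (nat_lit 329))))))))
noncomputable def xc49 : XT := (XT.nd (nat_lit 2418) (nat_lit 1900) (nat_lit 0) (XT.nd (nat_lit 1170) (nat_lit 1140) (nat_lit 0) (XT.nd (nat_lit 546) (nat_lit 760) (nat_lit 0) (XT.nd (nat_lit 234) (nat_lit 380) (nat_lit 0) (XT.nd (nat_lit 78) (nat_lit 228) (nat_lit 0) (XT.lf (nat_lit 0) (nat_lit 629722280) (nat_lit 76) (nat_lit 7230264752) (nat_lit 152) (nat_lit 10354811425) (nat_lit 90) (nat_lit 5) (nat_lit 91) (nat_lit 5) (nat_lit 92) (nat_lit 4) (nat_lit 494) (nat_lit 378) (nat_lit 328)) (XT.nd (nat_lit 78)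 (nat_lit 228) (nat_lit 0) (XT.lf (nat_lit 0) (nat_lit 14335967660) (nat_lit 76) (nat_lit 340847419) (nat_lit 152) (nat_lit 3869596866) (nat_lit 90) (nat_lit 5) (nat_lit 91) (nat_lit 5) (nat_lit 92) (nat_lit 4) (nat_lit 495) (nat_lit 378) (nat_lit 327)) (XT.lf (nat_lit 0) (nat_lit 2847807317) (nat_lit 228) (nat_lit 9351029114) (nat_lit 76) (nat_lit 6685553363) (nat_lit 87) (nat_lit 5) (nat_lit 90) (nat_lit 5) (nat_lit 88) (nat_lit 4) (nat_lit 496) (nat_lit 378) (nat_lit 326)))) (XT.nd (nat_lit 156) (nat_lit 304) (nat_lit 0) (XT.nd (nat_lit 78) (nat_lit 0) (nat_lit 0) (XT.lf (nat_lit 0) (nat_lit 4464531292) (nat_lit 76) (nat_lit 5248439487) (nat_lit 152) (nat_lit 9517666878) (nat_lit 86) (nat_lit 5) (nat_lit 87) (nat_lit 5) (nat_lit 88) (nat_lit 4) (nat_lit 497) (nat_lit 378) (nat_lit 325)) (XT.lf (nat_lit 0) (nat_lit 16832738501) (nat_lit 152) (nat_lit 842671506) (nat_lit 0) (nat_lit 1910403885) (nat_lit 86) (nat_lit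 5) (nat_lit 88) (nat_lit 4) (nat_lit 86) (nat_lit 4) (nat_lit 498) (nat_lit 378) (nat_lit 324))) (XT.nd (nat_lit 78) (nat_lit 76) (nat_lit 0) (XT.lf (nat_lit 0) (nat_lit 4252816584) (nat_lit 228) (nat_lit 6399594152) (nat_lit 76) (nat_lit 9294401656) (nat_lit 83) (nat_lit 5) (nat_lit 86) (nat_lit 5) (nat_lit 84) (nat_lit 4) (nat_lit 499) (nat_lit 378) (nat_lit 323)) (XT.lf (nat_lit 0) (nat_lit 8076352965) (nat_lit 76) (nat_lit 3360309203) (nat_lit 152) (nat_lit 8880467987) (nat_lit 82) (nat_lit 5) (nat_lit 83) (nat_lit 5) (nat_lit 84) (nat_lit 4) (nat_lit 500) (nat_lit 378) (nat_lit 322))))) (XT.nd (nat_lit 312) (nat_lit 380) (nat_lit 0) (XT.nd (nat_lit 156) (nat_lit 152) (nat_lit 0) (XT.nd (nat_lit 78) (nat_lit 76) (nat_lit 0) (XT.lf (nat_lit 0) (nat_lit 2303843398) (nat_lit 152) (nat_lit 16596492805) (nat_lit 152) (nat_lit 1796292226) (nat_lit 80) (nat_lit 4) (nat_lit 82) (nat_lit 5) (nat_lit 82) (nat_lit 4) (nat_lit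 501) (nat_lit 378) (nat_lit 321)) (XT.lf (nat_lit 0) (nat_lit 5488243191) (nat_lit 228) (nat_lit 3757224463) (nat_lit 76) (nat_lit 11837603132) (nat_lit 79) (nat_lit 5) (nat_lit 82) (nat_lit 5) (nat_lit 80) (nat_lit 4) (nat_lit 502) (nat_lit 378) (nat_lit 320))) (XT.nd (nat_lit 78) (nat_lit 76) (nat_lit 0) (XT.lf (nat_lit 0) (nat_lit 11403916262) (nat_lit 76) (nat_lit 1599814284) (nat_lit 152) (nat_lit 8475387069) (nat_lit 78) (nat_lit 5) (nat_lit 79) (nat_lit 5) (nat_lit 80) (nat_lit 4) (nat_lit 503) (nat_lit 378) (nat_lit 319)) (XT.lf (nat_lit 0) (nat_lit 5132108779) (nat_lit 76) (nat_lit 15699552209) (nat_lit 76) (nat_lit 1052775835) (nat_lit 77) (nat_lit 4) (nat_lit 78) (nat_lit 5) (nat_lit 78) (nat_lit 4) (nat_lit 504) (nat_lit 378) (nat_lit 318)))) (XT.nd (nat_lit 156) (nat_lit 228) (nat_lit 0) (XT.nd (nat_lit 78) (nat_lit 76) (nat_lit 0) (XT.lf (nat_lit 0) (nat_lit 6521517267) (nat_lit 152) (nat_lit 1495308043)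 (nat_lit 76) (nat_lit 14281460053) (nat_lit 76) (nat_lit 5) (nat_lit 78) (nat_lit 5) (nat_lit 77) (nat_lit 4) (nat_lit 505) (nat_lit 378) (nat_lit 317)) (XT.lf (nat_lit 0) (nat_lit 14374550474) (nat_lit 76) (nat_lit 6341223) (nat_lit 152) (nat_lit 8340974889) (nat_lit 75) (nat_lit 5) (nat_lit 76) (nat_lit 5) (nat_lit 77) (nat_lit 4) (nat_lit 506) (nat_lit 378) (nat_lit 316))) (XT.nd (nat_lit 78) (nat_lit 152) (nat_lit 0) (XT.lf (nat_lit 0) (nat_lit 7546263552) (nat_lit 76) (nat_lit 15037756063) (nat_lit 76) (nat_lit 570896756) (nat_lit 74) (nat_lit 4) (nat_lit 75) (nat_lit 5) (nat_lit 75) (nat_lit 4) (nat_lit 507) (nat_lit 378) (nat_lit 315)) (XT.lf (nat_lit 0) (nat_lit 307908084) (nat_lit 76) (nat_lit 7008473136) (nat_lit 152) (nat_lit 16281559552) (nat_lit 72) (nat_lit 5) (nat_lit 73) (nat_lit 5) (nat_lit 74) (nat_lit 4) (nat_lit 508) (nat_lit 378) (nat_lit 314)))))) (XT.nd (nat_lit 624) (nat_lit 608) (nat_lit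 0) (XT.nd (nat_lit 312) (nat_lit 304) (nat_lit 0) (XT.nd (nat_lit 156) (nat_lit 152) (nat_lit 0) (XT.nd (nat_lit 78) (nat_lit 76) (nat_lit 0) (XT.lf (nat_lit 0) (nat_lit 15541177394) (nat_lit 152) (nat_lit 7162123099) (nat_lit 0) (nat_lit 1347414876) (nat_lit 72) (nat_lit 5) (nat_lit 74) (nat_lit 4) (nat_lit 72) (nat_lit 4) (nat_lit 509) (nat_lit 378) (nat_lit 313)) (XT.lf (nat_lit 0) (nat_lit 9452864754) (nat_lit 76) (nat_lit 14662895528) (nat_lit 76) (nat_lit 398221898) (nat_lit 71) (nat_lit 4) (nat_lit 72) (nat_lit 5) (nat_lit 72) (nat_lit 4) (nat_lit 510) (nat_lit 378) (nat_lit 312))) (XT.nd (nat_lit 78) (nat_lit 0) (nat_lit 0) (XT.lf (nat_lit 0) (nat_lit 1565624852) (nat_lit 76) (nat_lit 6266465897) (nat_lit 152) (nat_lit 17155834554) (nat_lit 69) (nat_lit 5) (nat_lit 70) (nat_lit 5) (nat_lit 71) (nat_lit 4) (nat_lit 511) (nat_lit 378) (nat_lit 311)) (XT.lf (nat_lit 0) (nat_lit 16420704329) (nat_lit 152) (nat_lit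 6611910089) (nat_lit 0) (nat_lit 2439772393) (nat_lit 69) (nat_lit 5) (nat_lit 71) (nat_lit 4) (nat_lit 69) (nat_lit 4) (nat_lit 512) (nat_lit 378) (nat_lit 310)))) (XT.nd (nat_lit 156) (nat_lit 76) (nat_lit 0) (XT.nd (nat_lit 78) (nat_lit 152) (nat_lit 0) (XT.lf (nat_lit 0) (nat_lit 10741667982) (nat_lit 76) (nat_lit 14635176948) (nat_lit 76) (nat_lit 591241408) (nat_lit 68) (nat_lit 4) (nat_lit 69) (nat_lit 5) (nat_lit 69) (nat_lit 4) (nat_lit 513) (nat_lit 378) (nat_lit 309)) (XT.lf (nat_lit 0) (nat_lit 2128808001) (nat_lit 76) (nat_lit 5868193027) (nat_lit 152) (nat_lit 18478338617) (nat_lit 66) (nat_lit 5) (nat_lit 67) (nat_lit 5) (nat_lit 68) (nat_lit 4) (nat_lit 514) (nat_lit 378) (nat_lit 308))) (XT.nd (nat_lit 78) (nat_lit 76) (nat_lit 0) (XT.lf (nat_lit 0) (nat_lit 16961355998) (nat_lit 152) (nat_lit 6822945730) (nat_lit 0) (nat_lit 3209422961) (nat_lit 66) (nat_lit 5) (nat_lit 68) (nat_lit 4) (nat_lit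 66) (nat_lit 4) (nat_lit 515) (nat_lit 378) (nat_lit 307)) (XT.lf (nat_lit 0) (nat_lit 11282787177) (nat_lit 76) (nat_lit 15024699935) (nat_lit 76) (nat_lit 1216789012) (nat_lit 65) (nat_lit 4) (nat_lit 66) (nat_lit 5) (nat_lit 66) (nat_lit 4) (nat_lit 516) (nat_lit 378) (nat_lit 306))))) (XT.nd (nat_lit 312) (nat_lit 228) (nat_lit 0) (XT.nd (nat_lit 156) (nat_lit 228) (nat_lit 0) (XT.nd (nat_lit 78) (nat_lit 0) (nat_lit 0) (XT.lf (nat_lit 0) (nat_lit 1857190031) (nat_lit 76) (nat_lit 5886380617) (nat_lit 152) (nat_lit 20323893461) (nat_lit 63) (nat_lit 5) (nat_lit 64) (nat_lit 5) (nat_lit 65) (nat_lit 4) (nat_lit 517) (nat_lit 378) (nat_lit 305)) (XT.lf (nat_lit 0) (nat_lit 17094193590) (nat_lit 152) (nat_lit 7943553042) (nat_lit 0) (nat_lit 3584462606) (nat_lit 63) (nat_lit 5) (nat_lit 65) (nat_lit 4) (nat_lit 63) (nat_lit 4) (nat_lit 518) (nat_lit 378) (nat_lit 304))) (XT.nd (nat_lit 78) (nat_lit 152) (nat_lit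 0) (XT.lf (nat_lit 0) (nat_lit 10923399481) (nat_lit 76) (nat_lit 15913163598) (nat_lit 76) (nat_lit 2353696987) (nat_lit 62) (nat_lit 4) (nat_lit 63) (nat_lit 5) (nat_lit 63) (nat_lit 4) (nat_lit 519) (nat_lit 378) (nat_lit 303)) (XT.lf (nat_lit 0) (nat_lit 586007588) (nat_lit 76) (nat_lit 6405993010) (nat_lit 152) (nat_lit 22780267253) (nat_lit 60) (nat_lit 5) (nat_lit 61) (nat_lit 5) (nat_lit 62) (nat_lit 4) (nat_lit 520) (nat_lit 378) (nat_lit 302)))) (XT.nd (nat_lit 156) (nat_lit 152) (nat_lit 0) (XT.nd (nat_lit 78) (nat_lit 76) (nat_lit 0) (XT.lf (nat_lit 0) (nat_lit 16737629136) (nat_lit 152) (nat_lit 10147699070) (nat_lit 0) (nat_lit 3480702703) (nat_lit 60) (nat_lit 5) (nat_lit 62) (nat_lit 4) (nat_lit 60) (nat_lit 4) (nat_lit 521) (nat_lit 378) (nat_lit 301)) (XT.lf (nat_lit 0) (nat_lit 9483921684) (nat_lit 76) (nat_lit 17395838609) (nat_lit 76) (nat_lit 4094722715) (nat_lit 59) (nat_lit 4) (nat_lit 60)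 (nat_lit 5) (nat_lit 60) (nat_lit 4) (nat_lit 522) (nat_lit 378) (nat_lit 300))) (XT.nd (nat_lit 78) (nat_lit 76) (nat_lit 0) (XT.lf (nat_lit 0) (nat_lit 5666306976) (nat_lit 152) (nat_lit 1841415120) (nat_lit 76) (nat_lit 24090224120) (nat_lit 58) (nat_lit 5) (nat_lit 60) (nat_lit 5) (nat_lit 59) (nat_lit 4) (nat_lit 523) (nat_lit 378) (nat_lit 299)) (XT.lf (nat_lit 0) (nat_lit 15795369608) (nat_lit 152) (nat_lit 13639230115) (nat_lit 0) (nat_lit 2799572435) (nat_lit 57) (nat_lit 5) (nat_lit 59) (nat_lit 4) (nat_lit 57) (nat_lit 4) (nat_lit 524) (nat_lit 378) (nat_lit 298))))))) (XT.nd (nat_lit 1248) (nat_lit 760) (nat_lit 0) (XT.nd (nat_lit 624) (nat_lit 608) (nat_lit 0) (XT.nd (nat_lit 312) (nat_lit 228) (nat_lit 0) (XT.nd (nat_lit 156) (nat_lit 152) (nat_lit 0) (XT.nd (nat_lit 78) (nat_lit 76) (nat_lit 0) (XT.lf (nat_lit 0) (nat_lit 6753573061) (nat_lit 76) (nat_lit 19583848683) (nat_lit 76) (nat_lit 6548789747)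 (nat_lit 56) (nat_lit 4) (nat_lit 57) (nat_lit 5) (nat_lit 57) (nat_lit 4) (nat_lit 525) (nat_lit 378) (nat_lit 297)) (XT.lf (nat_lit 0) (nat_lit 3657135916) (nat_lit 152) (nat_lit 5649191243) (nat_lit 76) (nat_lit 24247729841) (nat_lit 55) (nat_lit 5) (nat_lit 57) (nat_lit 5) (nat_lit 56) (nat_lit 4) (nat_lit 526) (nat_lit 378) (nat_lit 296))) (XT.nd (nat_lit 78) (nat_lit 76) (nat_lit 0) (XT.lf (nat_lit 0) (nat_lit 14154025009) (nat_lit 152) (nat_lit 18656785585) (nat_lit 0) (nat_lit 1425689930) (nat_lit 54) (nat_lit 5) (nat_lit 56) (nat_lit 4) (nat_lit 54) (nat_lit 4) (nat_lit 527) (nat_lit 378) (nat_lit 295)) (XT.lf (nat_lit 0) (nat_lit 2485225897) (nat_lit 76) (nat_lit 22606811861) (nat_lit 76) (nat_lit 9843593214) (nat_lit 53) (nat_lit 4) (nat_lit 54) (nat_lit 5) (nat_lit 54) (nat_lit 4) (nat_lit 528) (nat_lit 378) (nat_lit 294)))) (XT.nd (nat_lit 156) (nat_lit 76) (nat_lit 0) (XT.nd (nat_lit 78) (nat_lit 76)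 (nat_lit 0) (XT.lf (nat_lit 0) (nat_lit 831605739) (nat_lit 152) (nat_lit 11108926536) (nat_lit 76) (nat_lit 23710714877) (nat_lit 52) (nat_lit 5) (nat_lit 54) (nat_lit 5) (nat_lit 53) (nat_lit 4) (nat_lit 529) (nat_lit 378) (nat_lit 293)) (XT.lf (nat_lit 0) (nat_lit 10896539660) (nat_lit 76) (nat_lit 791394801) (nat_lit 152) (nat_lit 24695712026) (nat_lit 51) (nat_lit 5) (nat_lit 52) (nat_lit 5) (nat_lit 53) (nat_lit 4) (nat_lit 530) (nat_lit 378) (nat_lit 292))) (XT.nd (nat_lit 78) (nat_lit 76) (nat_lit 0) (XT.lf (nat_lit 0) (nat_lit 23040036235) (nat_lit 152) (nat_lit 3540115479) (nat_lit 0) (nat_lit 10552763707) (nat_lit 51) (nat_lit 5) (nat_lit 53) (nat_lit 4) (nat_lit 51) (nat_lit 4) (nat_lit 531) (nat_lit 378) (nat_lit 291)) (XT.lf (nat_lit 0) (nat_lit 19346163182) (nat_lit 76) (nat_lit 15535694033) (nat_lit 76) (nat_lit 3018330632) (nat_lit 50) (nat_lit 4) (nat_lit 51) (nat_lit 5) (nat_lit 51) (nat_lit 4)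 (nat_lit 532) (nat_lit 378) (nat_lit 290))))) (XT.nd (nat_lit 312) (nat_lit 304) (nat_lit 0) (XT.nd (nat_lit 156) (nat_lit 152) (nat_lit 0) (XT.nd (nat_lit 78) (nat_lit 0) (nat_lit 0) (XT.lf (nat_lit 0) (nat_lit 4214628909) (nat_lit 76) (nat_lit 4042123183) (nat_lit 152) (nat_lit 30430347809) (nat_lit 48) (nat_lit 5) (nat_lit 49) (nat_lit 5) (nat_lit 50) (nat_lit 4) (nat_lit 533) (nat_lit 378) (nat_lit 289)) (XT.lf (nat_lit 0) (nat_lit 20028983146) (nat_lit 152) (nat_lit 11640850697) (nat_lit 0) (nat_lit 7820302202) (nat_lit 48) (nat_lit 5) (nat_lit 50) (nat_lit 4) (nat_lit 48) (nat_lit 4) (nat_lit 534) (nat_lit 378) (nat_lit 288))) (XT.nd (nat_lit 78) (nat_lit 76) (nat_lit 0) (XT.lf (nat_lit 0) (nat_lit 11983270171) (nat_lit 76) (nat_lit 20283026022) (nat_lit 76) (nat_lit 8047609727) (nat_lit 47) (nat_lit 4) (nat_lit 48) (nat_lit 5) (nat_lit 48) (nat_lit 4) (nat_lit 535) (nat_lit 378) (nat_lit 287)) (XT.lf (nat_lit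 0) (nat_lit 3711409374) (nat_lit 152) (nat_lit 4727211916) (nat_lit 76) (nat_lit 32720435308) (nat_lit 46) (nat_lit 5) (nat_lit 48) (nat_lit 5) (nat_lit 47) (nat_lit 4) (nat_lit 536) (nat_lit 378) (nat_lit 286)))) (XT.nd (nat_lit 156) (nat_lit 152) (nat_lit 0) (XT.nd (nat_lit 78) (nat_lit 76) (nat_lit 0) (XT.lf (nat_lit 0) (nat_lit 15848257331) (nat_lit 152) (nat_lit 22253764836) (nat_lit 0) (nat_lit 3919545120) (nat_lit 45) (nat_lit 5) (nat_lit 47) (nat_lit 4) (nat_lit 45) (nat_lit 4) (nat_lit 537) (nat_lit 378) (nat_lit 285)) (XT.lf (nat_lit 0) (nat_lit 2058396944) (nat_lit 76) (nat_lit 26400368019) (nat_lit 76) (nat_lit 14447901795) (nat_lit 44) (nat_lit 4) (nat_lit 45) (nat_lit 5) (nat_lit 45) (nat_lit 4) (nat_lit 538) (nat_lit 378) (nat_lit 284))) (XT.nd (nat_lit 78) (nat_lit 152) (nat_lit 0) (XT.lf (nat_lit 0) (nat_lit 27473129779) (nat_lit 76) (nat_lit 14157611641) (nat_lit 76) (nat_lit 2182083269) (nat_lit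 44) (nat_lit 4) (nat_lit 45) (nat_lit 5) (nat_lit 45) (nat_lit 4) (nat_lit 539) (nat_lit 378) (nat_lit 283)) (XT.lf (nat_lit 0) (nat_lit 8895891272) (nat_lit 76) (nat_lit 1396626008) (nat_lit 152) (nat_lit 34449293372) (nat_lit 42) (nat_lit 5) (nat_lit 43) (nat_lit 5) (nat_lit 44) (nat_lit 4) (nat_lit 540) (nat_lit 378) (nat_lit 282)))))) (XT.nd (nat_lit 624) (nat_lit 304) (nat_lit 0) (XT.nd (nat_lit 312) (nat_lit 228) (nat_lit 0) (XT.nd (nat_lit 156) (nat_lit 152) (nat_lit 0) (XT.nd (nat_lit 78) (nat_lit 76) (nat_lit 0) (XT.lf (nat_lit 0) (nat_lit 23336322892) (nat_lit 152) (nat_lit 10687777595) (nat_lit 0) (nat_lit 11666752898) (nat_lit 42) (nat_lit 5) (nat_lit 44) (nat_lit 4) (nat_lit 42) (nat_lit 4) (nat_lit 541) (nat_lit 378) (nat_lit 281)) (XT.lf (nat_lit 0) (nat_lit 15433418228) (nat_lit 76) (nat_lit 21460665219) (nat_lit 76) (nat_lit 9770604805) (nat_lit 41) (nat_lit 4) (nat_lit 42) (nat_lit 5) (nat_lit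 42) (nat_lit 4) (nat_lit 542) (nat_lit 378) (nat_lit 280))) (XT.nd (nat_lit 78) (nat_lit 76) (nat_lit 0) (XT.lf (nat_lit 0) (nat_lit 3198037325) (nat_lit 152) (nat_lit 5217938254) (nat_lit 76) (nat_lit 39248758585) (nat_lit 40) (nat_lit 5) (nat_lit 42) (nat_lit 5) (nat_lit 41) (nat_lit 4) (nat_lit 543) (nat_lit 378) (nat_lit 279)) (XT.lf (nat_lit 0) (nat_lit 16581729005) (nat_lit 152) (nat_lit 26909389299) (nat_lit 0) (nat_lit 5194089965) (nat_lit 39) (nat_lit 5) (nat_lit 41) (nat_lit 4) (nat_lit 39) (nat_lit 4) (nat_lit 544) (nat_lit 378) (nat_lit 278)))) (XT.nd (nat_lit 156) (nat_lit 152) (nat_lit 0) (XT.nd (nat_lit 78) (nat_lit 76) (nat_lit 0) (XT.lf (nat_lit 0) (nat_lit 30465113489) (nat_lit 152) (nat_lit 208968737) (nat_lit 0) (nat_lit 19059268976) (nat_lit 39) (nat_lit 5) (nat_lit 41) (nat_lit 4) (nat_lit 39) (nat_lit 4) (nat_lit 545) (nat_lit 378) (nat_lit 277)) (XT.lf (nat_lit 0) (nat_lit 27759634294) (nat_lit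 76) (nat_lit 17234967921) (nat_lit 76) (nat_lit 5811448192) (nat_lit 38) (nat_lit 4) (nat_lit 39) (nat_lit 5) (nat_lit 39) (nat_lit 4) (nat_lit 546) (nat_lit 378) (nat_lit 276))) (XT.nd (nat_lit 78) (nat_lit 0) (nat_lit 0) (XT.lf (nat_lit 0) (nat_lit 4598521255) (nat_lit 76) (nat_lit 3302563172) (nat_lit 152) (nat_lit 44007251894) (nat_lit 36) (nat_lit 5) (nat_lit 37) (nat_lit 5) (nat_lit 38) (nat_lit 4) (nat_lit 547) (nat_lit 378) (nat_lit 275)) (XT.lf (nat_lit 0) (nat_lit 22212205029) (nat_lit 152) (nat_lit 19732065917) (nat_lit 0) (nat_lit 11088573262) (nat_lit 36) (nat_lit 5) (nat_lit 38) (nat_lit 4) (nat_lit 36) (nat_lit 4) (nat_lit 548) (nat_lit 378) (nat_lit 274))))) (XT.nd (nat_lit 312) (nat_lit 76) (nat_lit 0) (XT.nd (nat_lit 156) (nat_lit 152) (nat_lit 0) (XT.nd (nat_lit 78) (nat_lit 0) (nat_lit 0) (XT.lf (nat_lit 0) (nat_lit 8738456338) (nat_lit 76) (nat_lit 28294774929) (nat_lit 76) (nat_lit 17155438962)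 (nat_lit 35) (nat_lit 4) (nat_lit 36) (nat_lit 5) (nat_lit 36) (nat_lit 4) (nat_lit 549) (nat_lit 378) (nat_lit 273)) (XT.lf (nat_lit 0) (nat_lit 38395912389) (nat_lit 76) (nat_lit 14066468344) (nat_lit 76) (nat_lit 2911885580) (nat_lit 35) (nat_lit 4) (nat_lit 36) (nat_lit 5) (nat_lit 36) (nat_lit 4) (nat_lit 550) (nat_lit 378) (nat_lit 272))) (XT.nd (nat_lit 78) (nat_lit 0) (nat_lit 0) (XT.lf (nat_lit 0) (nat_lit 11621328075) (nat_lit 152) (nat_lit 44190692311) (nat_lit 0) (nat_lit 777264503) (nat_lit 33) (nat_lit 5) (nat_lit 35) (nat_lit 4) (nat_lit 33) (nat_lit 4) (nat_lit 551) (nat_lit 378) (nat_lit 271)) (XT.lf (nat_lit 0) (nat_lit 26809381827) (nat_lit 152) (nat_lit 15070820964) (nat_lit 0) (nat_lit 15951365276) (nat_lit 33) (nat_lit 5) (nat_lit 35) (nat_lit 4) (nat_lit 33) (nat_lit 4) (nat_lit 552) (nat_lit 378) (nat_lit 270)))) (XT.nd (nat_lit 53820) (nat_lit 0) (nat_lit 14516) (XT.nd (nat_lit 78) (nat_lit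 0) (nat_lit 0) (XT.lf (nat_lit 0) (nat_lit 15150028190) (nat_lit 76) (nat_lit 27414653302) (nat_lit 76) (nat_lit 16543090169) (nat_lit 32) (nat_lit 4) (nat_lit 33) (nat_lit 5) (nat_lit 33) (nat_lit 4) (nat_lit 553) (nat_lit 378) (nat_lit 269)) (XT.lf (nat_lit 0) (nat_lit 46518859041) (nat_lit 76) (nat_lit 12392281259) (nat_lit 76) (nat_lit 1507566106) (nat_lit 32) (nat_lit 4) (nat_lit 33) (nat_lit 5) (nat_lit 33) (nat_lit 4) (nat_lit 554) (nat_lit 378) (nat_lit 268))) (XT.nd (nat_lit 78) (nat_lit 456) (nat_lit 0) (XT.lf (nat_lit 0) (nat_lit 2018598714) (nat_lit 456) (nat_lit 1071468583) (nat_lit 456) (nat_lit 1071468583) (nat_lit 229) (nat_lit 4) (nat_lit 235) (nat_lit 5) (nat_lit 235) (nat_lit 4) (nat_lit 442) (nat_lit 379) (nat_lit 379)) (XT.lf (nat_lit 0) (nat_lit 1987390838) (nat_lit 456) (nat_lit 5516449896) (nat_lit 0) (nat_lit 911572436) (nat_lit 223) (nat_lit 5) (nat_lit 229) (nat_lit 4) (nat_lit 223) (nat_lit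 4) (nat_lit 443) (nat_lit 379) (nat_lit 378))))))))
noncomputable def xc50 : XT := (XT.nd (nat_lit 2418) (nat_lit 3800) (nat_lit 0) (XT.nd (nat_lit 1170) (nat_lit 2964) (nat_lit 0) (XT.nd (nat_lit 546) (nat_lit 2204) (nat_lit 0) (XT.nd (nat_lit 234) (nat_lit 1444) (nat_lit 0) (XT.nd (nat_lit 78) (nat_lit 456) (nat_lit 0) (XT.lf (nat_lit 0) (nat_lit 1723497766) (nat_lit 380) (nat_lit 4453669190) (nat_lit 380) (nat_lit 2333366902) (nat_lit 218) (nat_lit 4) (nat_lit 223) (nat_lit 5) (nat_lit 223) (nat_lit 4) (nat_lit 444) (nat_lit 379) (nat_lit 377)) (XT.nd (nat_lit 78) (nat_lit 0) (nat_lit 0) (XT.lf (nat_lit 0) (nat_lit 532759951) (nat_lit 380) (nat_lit 1273705203) (nat_lit 456) (nat_lit 6802730186) (nat_lit 212) (nat_lit 5) (nat_lit 217) (nat_lit 5) (nat_lit 218) (nat_lit 4) (nat_lit 445) (nat_lit 379) (nat_lit 376)) (XT.lf (nat_lit 0) (nat_lit 6010944297) (nat_lit 456) (nat_lit 687540848) (nat_lit 0) (nat_lit 2012021431)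 (nat_lit 212) (nat_lit 5) (nat_lit 218) (nat_lit 4) (nat_lit 212) (nat_lit 4) (nat_lit 446) (nat_lit 379) (nat_lit 375)))) (XT.nd (nat_lit 156) (nat_lit 684) (nat_lit 0) (XT.nd (nat_lit 78) (nat_lit 304) (nat_lit 0) (XT.lf (nat_lit 0) (nat_lit 1477516129) (nat_lit 456) (nat_lit 1927575527) (nat_lit 76) (nat_lit 5409910322) (nat_lit 206) (nat_lit 5) (nat_lit 212) (nat_lit 5) (nat_lit 207) (nat_lit 4) (nat_lit 447) (nat_lit 379) (nat_lit 374)) (XT.lf (nat_lit 0) (nat_lit 5690367312) (nat_lit 380) (nat_lit 3200326575) (nat_lit 0) (nat_lit 32198142) (nat_lit 202) (nat_lit 5) (nat_lit 207) (nat_lit 4) (nat_lit 202) (nat_lit 4) (nat_lit 448) (nat_lit 379) (nat_lit 373))) (XT.nd (nat_lit 78) (nat_lit 304) (nat_lit 0) (XT.lf (nat_lit 0) (nat_lit 976379271) (nat_lit 380) (nat_lit 4525380230) (nat_lit 76) (nat_lit 3531968552) (nat_lit 197) (nat_lit 5) (nat_lit 202) (nat_lit 5) (nat_lit 198) (nat_lit 4) (nat_lit 449) (nat_lit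 379) (nat_lit 372)) (XT.lf (nat_lit 0) (nat_lit 3253282433) (nat_lit 304) (nat_lit 1961120428) (nat_lit 380) (nat_lit 3933494384) (nat_lit 193) (nat_lit 5) (nat_lit 197) (nat_lit 5) (nat_lit 198) (nat_lit 4) (nat_lit 450) (nat_lit 379) (nat_lit 371))))) (XT.nd (nat_lit 312) (nat_lit 1140) (nat_lit 0) (XT.nd (nat_lit 156) (nat_lit 380) (nat_lit 0) (XT.nd (nat_lit 78) (nat_lit 304) (nat_lit 0) (XT.lf (nat_lit 0) (nat_lit 293962339) (nat_lit 380) (nat_lit 7298853832) (nat_lit 76) (nat_lit 1673007072) (nat_lit 188) (nat_lit 5) (nat_lit 193) (nat_lit 5) (nat_lit 189) (nat_lit 4) (nat_lit 451) (nat_lit 379) (nat_lit 370)) (XT.lf (nat_lit 0) (nat_lit 606360223) (nat_lit 304) (nat_lit 3953499376) (nat_lit 380) (nat_lit 4826541456) (nat_lit 184) (nat_lit 5) (nat_lit 188) (nat_lit 5) (nat_lit 189) (nat_lit 4) (nat_lit 452) (nat_lit 379) (nat_lit 369))) (XT.nd (nat_lit 78) (nat_lit 380) (nat_lit 0) (XT.lf (nat_lit 0) (nat_lit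 8753530042) (nat_lit 304) (nat_lit 180590543) (nat_lit 380) (nat_lit 577066619) (nat_lit 184) (nat_lit 5) (nat_lit 188) (nat_lit 5) (nat_lit 189) (nat_lit 4) (nat_lit 453) (nat_lit 379) (nat_lit 368)) (XT.lf (nat_lit 0) (nat_lit 3742274813) (nat_lit 380) (nat_lit 2203160234) (nat_lit 76) (nat_lit 3692692584) (nat_lit 179) (nat_lit 5) (nat_lit 184) (nat_lit 5) (nat_lit 180) (nat_lit 4) (nat_lit 454) (nat_lit 379) (nat_lit 367)))) (XT.nd (nat_lit 156) (nat_lit 532) (nat_lit 0) (XT.nd (nat_lit 78) (nat_lit 380) (nat_lit 0) (XT.lf (nat_lit 0) (nat_lit 6088232771) (nat_lit 228) (nat_lit 2068725522) (nat_lit 304) (nat_lit 1612428147) (nat_lit 176) (nat_lit 5) (nat_lit 179) (nat_lit 5) (nat_lit 180) (nat_lit 4) (nat_lit 455) (nat_lit 379) (nat_lit 366)) (XT.lf (nat_lit 0) (nat_lit 2741057337) (nat_lit 380) (nat_lit 5233013207) (nat_lit 76) (nat_lit 1929821811) (nat_lit 171) (nat_lit 5) (nat_lit 176) (nat_lit 5) (nat_lit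 172) (nat_lit 4) (nat_lit 456) (nat_lit 379) (nat_lit 365))) (XT.nd (nat_lit 78) (nat_lit 304) (nat_lit 0) (XT.lf (nat_lit 0) (nat_lit 3188624751) (nat_lit 228) (nat_lit 4003251385) (nat_lit 304) (nat_lit 2850106449) (nat_lit 168) (nat_lit 5) (nat_lit 171) (nat_lit 5) (nat_lit 172) (nat_lit 4) (nat_lit 457) (nat_lit 379) (nat_lit 364)) (XT.lf (nat_lit 0) (nat_lit 1542212334) (nat_lit 304) (nat_lit 8526142331) (nat_lit 76) (nat_lit 115965592) (nat_lit 164) (nat_lit 5) (nat_lit 168) (nat_lit 5) (nat_lit 165) (nat_lit 4) (nat_lit 458) (nat_lit 379) (nat_lit 363)))))) (XT.nd (nat_lit 624) (nat_lit 1444) (nat_lit 0) (XT.nd (nat_lit 312) (nat_lit 760) (nat_lit 0) (XT.nd (nat_lit 156) (nat_lit 456) (nat_lit 0) (XT.nd (nat_lit 78) (nat_lit 76) (nat_lit 0) (XT.lf (nat_lit 0) (nat_lit 23159727) (nat_lit 228) (nat_lit 6007113501) (nat_lit 304) (nat_lit 4299172556) (nat_lit 161) (nat_lit 5) (nat_lit 164) (nat_lit 5) (nat_lit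 165) (nat_lit 4) (nat_lit 459) (nat_lit 379) (nat_lit 362)) (XT.lf (nat_lit 0) (nat_lit 169438469) (nat_lit 304) (nat_lit 1620926843) (nat_lit 76) (nat_lit 8688547936) (nat_lit 160) (nat_lit 5) (nat_lit 164) (nat_lit 5) (nat_lit 161) (nat_lit 5) (nat_lit 460) (nat_lit 379) (nat_lit 361))) (XT.nd (nat_lit 78) (nat_lit 228) (nat_lit 0) (XT.lf (nat_lit 0) (nat_lit 4695226449) (nat_lit 304) (nat_lit 3374160793) (nat_lit 76) (nat_lit 2561916510) (nat_lit 157) (nat_lit 5) (nat_lit 161) (nat_lit 5) (nat_lit 158) (nat_lit 4) (nat_lit 461) (nat_lit 379) (nat_lit 360)) (XT.lf (nat_lit 0) (nat_lit 5596176419) (nat_lit 228) (nat_lit 3763674923) (nat_lit 304) (nat_lit 1428324505) (nat_lit 154) (nat_lit 5) (nat_lit 157) (nat_lit 5) (nat_lit 158) (nat_lit 4) (nat_lit 462) (nat_lit 379) (nat_lit 359)))) (XT.nd (nat_lit 156) (nat_lit 304) (nat_lit 0) (XT.nd (nat_lit 78) (nat_lit 152) (nat_lit 0) (XT.lf (nat_lit 0) (nat_lit 3145637138)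 (nat_lit 304) (nat_lit 7098476489) (nat_lit 76) (nat_lit 704903936) (nat_lit 150) (nat_lit 5) (nat_lit 154) (nat_lit 5) (nat_lit 151) (nat_lit 4) (nat_lit 463) (nat_lit 379) (nat_lit 358)) (XT.lf (nat_lit 0) (nat_lit 2001816426) (nat_lit 152) (nat_lit 5851610141) (nat_lit 228) (nat_lit 3260075828) (nat_lit 148) (nat_lit 5) (nat_lit 150) (nat_lit 5) (nat_lit 151) (nat_lit 4) (nat_lit 464) (nat_lit 379) (nat_lit 357))) (XT.nd (nat_lit 78) (nat_lit 0) (nat_lit 0) (XT.lf (nat_lit 0) (nat_lit 83873140) (nat_lit 228) (nat_lit 1297278949) (nat_lit 304) (nat_lit 9901682125) (nat_lit 144) (nat_lit 5) (nat_lit 147) (nat_lit 5) (nat_lit 148) (nat_lit 5) (nat_lit 465) (nat_lit 379) (nat_lit 356)) (XT.lf (nat_lit 0) (nat_lit 6138274901) (nat_lit 304) (nat_lit 1921997071) (nat_lit 76) (nat_lit 3394741692) (nat_lit 144) (nat_lit 5) (nat_lit 148) (nat_lit 5) (nat_lit 145) (nat_lit 4) (nat_lit 466) (nat_lit 379) (nat_lit 355)))))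 (XT.nd (nat_lit 312) (nat_lit 532) (nat_lit 0) (XT.nd (nat_lit 156) (nat_lit 456) (nat_lit 0) (XT.nd (nat_lit 78) (nat_lit 304) (nat_lit 0) (XT.lf (nat_lit 0) (nat_lit 7629722718) (nat_lit 152) (nat_lit 3413641623) (nat_lit 228) (nat_lit 588838011) (nat_lit 142) (nat_lit 5) (nat_lit 144) (nat_lit 5) (nat_lit 145) (nat_lit 4) (nat_lit 467) (nat_lit 379) (nat_lit 354)) (XT.lf (nat_lit 0) (nat_lit 4204068156) (nat_lit 304) (nat_lit 6205649153) (nat_lit 76) (nat_lit 1403555109) (nat_lit 138) (nat_lit 5) (nat_lit 142) (nat_lit 5) (nat_lit 139) (nat_lit 4) (nat_lit 468) (nat_lit 379) (nat_lit 353))) (XT.nd (nat_lit 78) (nat_lit 304) (nat_lit 0) (XT.lf (nat_lit 0) (nat_lit 3477048456) (nat_lit 152) (nat_lit 5679674794) (nat_lit 228) (nat_lit 2842043849) (nat_lit 136) (nat_lit 5) (nat_lit 138) (nat_lit 5) (nat_lit 139) (nat_lit 4) (nat_lit 469) (nat_lit 379) (nat_lit 352)) (XT.lf (nat_lit 0) (nat_lit 1252933437) (nat_lit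 228) (nat_lit 770144071) (nat_lit 304) (nat_lit 10166294869) (nat_lit 132) (nat_lit 5) (nat_lit 135) (nat_lit 5) (nat_lit 136) (nat_lit 5) (nat_lit 470) (nat_lit 379) (nat_lit 351)))) (XT.nd (nat_lit 156) (nat_lit 380) (nat_lit 0) (XT.nd (nat_lit 78) (nat_lit 152) (nat_lit 0) (XT.lf (nat_lit 0) (nat_lit 7025530364) (nat_lit 304) (nat_lit 1098721739) (nat_lit 76) (nat_lit 4259145744) (nat_lit 132) (nat_lit 5) (nat_lit 136) (nat_lit 5) (nat_lit 133) (nat_lit 4) (nat_lit 471) (nat_lit 379) (nat_lit 350)) (XT.lf (nat_lit 0) (nat_lit 9066606175) (nat_lit 152) (nat_lit 3128937689) (nat_lit 228) (nat_lit 387176779) (nat_lit 130) (nat_lit 5) (nat_lit 132) (nat_lit 5) (nat_lit 133) (nat_lit 4) (nat_lit 472) (nat_lit 379) (nat_lit 349))) (XT.nd (nat_lit 78) (nat_lit 152) (nat_lit 0) (XT.lf (nat_lit 0) (nat_lit 4658994217) (nat_lit 228) (nat_lit 6086456835) (nat_lit 76) (nat_lit 2040647077) (nat_lit 127) (nat_lit 5) (nat_lit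 130) (nat_lit 5) (nat_lit 128) (nat_lit 4) (nat_lit 473) (nat_lit 379) (nat_lit 348)) (XT.lf (nat_lit 0) (nat_lit 4209020990) (nat_lit 152) (nat_lit 5670313660) (nat_lit 228) (nat_lit 3115211377) (nat_lit 125) (nat_lit 5) (nat_lit 127) (nat_lit 5) (nat_lit 128) (nat_lit 4) (nat_lit 474) (nat_lit 379) (nat_lit 347))))))) (XT.nd (nat_lit 1248) (nat_lit 1748) (nat_lit 0) (XT.nd (nat_lit 624) (nat_lit 912) (nat_lit 0) (XT.nd (nat_lit 312) (nat_lit 532) (nat_lit 0) (XT.nd (nat_lit 156) (nat_lit 380) (nat_lit 0) (XT.nd (nat_lit 78) (nat_lit 0) (nat_lit 0) (XT.lf (nat_lit 0) (nat_lit 1604183319) (nat_lit 152) (nat_lit 403844898) (nat_lit 228) (nat_lit 11200601774) (nat_lit 122) (nat_lit 5) (nat_lit 124) (nat_lit 5) (nat_lit 125) (nat_lit 5) (nat_lit 475) (nat_lit 379) (nat_lit 346)) (XT.lf (nat_lit 0) (nat_lit 7283991812) (nat_lit 228) (nat_lit 1158679983) (nat_lit 76) (nat_lit 4983691166) (nat_lit 122) (nat_lit 5) (nat_lit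 125) (nat_lit 5) (nat_lit 123) (nat_lit 4) (nat_lit 476) (nat_lit 379) (nat_lit 345))) (XT.nd (nat_lit 78) (nat_lit 228) (nat_lit 0) (XT.lf (nat_lit 0) (nat_lit 9650902315) (nat_lit 152) (nat_lit 3090104012) (nat_lit 228) (nat_lit 908939389) (nat_lit 120) (nat_lit 5) (nat_lit 122) (nat_lit 5) (nat_lit 123) (nat_lit 4) (nat_lit 477) (nat_lit 379) (nat_lit 344)) (XT.lf (nat_lit 0) (nat_lit 4422122862) (nat_lit 228) (nat_lit 7016961746) (nat_lit 76) (nat_lit 2439017547) (nat_lit 117) (nat_lit 5) (nat_lit 120) (nat_lit 5) (nat_lit 118) (nat_lit 4) (nat_lit 478) (nat_lit 379) (nat_lit 343)))) (XT.nd (nat_lit 156) (nat_lit 152) (nat_lit 0) (XT.nd (nat_lit 78) (nat_lit 228) (nat_lit 0) (XT.lf (nat_lit 0) (nat_lit 3919358924) (nat_lit 152) (nat_lit 6011001606) (nat_lit 228) (nat_lit 4181408281) (nat_lit 115) (nat_lit 5) (nat_lit 117) (nat_lit 5) (nat_lit 118) (nat_lit 4) (nat_lit 479) (nat_lit 379) (nat_lit 342)) (XT.lf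 (nat_lit 0) (nat_lit 846593154) (nat_lit 152) (nat_lit 386686945) (nat_lit 228) (nat_lit 13118616325) (nat_lit 112) (nat_lit 5) (nat_lit 114) (nat_lit 5) (nat_lit 115) (nat_lit 5) (nat_lit 480) (nat_lit 379) (nat_lit 341))) (XT.nd (nat_lit 78) (nat_lit 152) (nat_lit 0) (XT.lf (nat_lit 0) (nat_lit 6809155951) (nat_lit 228) (nat_lit 2399589970) (nat_lit 76) (nat_lit 5386757072) (nat_lit 112) (nat_lit 5) (nat_lit 115) (nat_lit 5) (nat_lit 113) (nat_lit 4) (nat_lit 481) (nat_lit 379) (nat_lit 340)) (XT.lf (nat_lit 0) (nat_lit 9081848671) (nat_lit 152) (nat_lit 3490595436) (nat_lit 228) (nat_lit 2273370348) (nat_lit 110) (nat_lit 5) (nat_lit 112) (nat_lit 5) (nat_lit 113) (nat_lit 4) (nat_lit 482) (nat_lit 379) (nat_lit 339))))) (XT.nd (nat_lit 312) (nat_lit 380) (nat_lit 0) (XT.nd (nat_lit 156) (nat_lit 228) (nat_lit 0) (XT.nd (nat_lit 78) (nat_lit 76) (nat_lit 0) (XT.lf (nat_lit 0) (nat_lit 3371544680) (nat_lit 228)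 (nat_lit 9322656155) (nat_lit 76) (nat_lit 2407463447) (nat_lit 107) (nat_lit 5) (nat_lit 110) (nat_lit 5) (nat_lit 108) (nat_lit 4) (nat_lit 483) (nat_lit 379) (nat_lit 338)) (XT.lf (nat_lit 0) (nat_lit 2278591316) (nat_lit 76) (nat_lit 6906146263) (nat_lit 152) (nat_lit 6178438788) (nat_lit 106) (nat_lit 5) (nat_lit 107) (nat_lit 5) (nat_lit 108) (nat_lit 4) (nat_lit 484) (nat_lit 379) (nat_lit 337))) (XT.nd (nat_lit 78) (nat_lit 228) (nat_lit 0) (XT.lf (nat_lit 0) (nat_lit 14289057501) (nat_lit 76) (nat_lit 907595658) (nat_lit 152) (nat_lit 435151539) (nat_lit 106) (nat_lit 5) (nat_lit 107) (nat_lit 5) (nat_lit 108) (nat_lit 4) (nat_lit 485) (nat_lit 379) (nat_lit 336)) (XT.lf (nat_lit 0) (nat_lit 5460325476) (nat_lit 228) (nat_lit 5175955258) (nat_lit 76) (nat_lit 5268026331) (nat_lit 103) (nat_lit 5) (nat_lit 106) (nat_lit 5) (nat_lit 104) (nat_lit 4) (nat_lit 486) (nat_lit 379) (nat_lit 335)))) (XT.nd (nat_lit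 156) (nat_lit 76) (nat_lit 0) (XT.nd (nat_lit 78) (nat_lit 228) (nat_lit 0) (XT.lf (nat_lit 0) (nat_lit 6999976585) (nat_lit 76) (nat_lit 4545676635) (nat_lit 152) (nat_lit 4638550684) (nat_lit 102) (nat_lit 5) (nat_lit 103) (nat_lit 5) (nat_lit 104) (nat_lit 4) (nat_lit 487) (nat_lit 379) (nat_lit 334)) (XT.lf (nat_lit 0) (nat_lit 1346261639) (nat_lit 228) (nat_lit 13393127060) (nat_lit 76) (nat_lit 1731781205) (nat_lit 99) (nat_lit 5) (nat_lit 102) (nat_lit 5) (nat_lit 100) (nat_lit 4) (nat_lit 488) (nat_lit 379) (nat_lit 333))) (XT.nd (nat_lit 78) (nat_lit 76) (nat_lit 0) (XT.lf (nat_lit 0) (nat_lit 7488122487) (nat_lit 228) (nat_lit 1087389035) (nat_lit 76) (nat_lit 8187734119) (nat_lit 99) (nat_lit 5) (nat_lit 102) (nat_lit 5) (nat_lit 100) (nat_lit 4) (nat_lit 489) (nat_lit 379) (nat_lit 332)) (XT.lf (nat_lit 0) (nat_lit 11691366645) (nat_lit 76) (nat_lit 2169302518) (nat_lit 152) (nat_lit 3202022146) (nat_lit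 98) (nat_lit 5) (nat_lit 99) (nat_lit 5) (nat_lit 100) (nat_lit 4) (nat_lit 490) (nat_lit 379) (nat_lit 331)))))) (XT.nd (nat_lit 624) (nat_lit 836) (nat_lit 0) (XT.nd (nat_lit 312) (nat_lit 380) (nat_lit 0) (XT.nd (nat_lit 156) (nat_lit 228) (nat_lit 0) (XT.nd (nat_lit 78) (nat_lit 76) (nat_lit 0) (XT.lf (nat_lit 0) (nat_lit 3054114387) (nat_lit 228) (nat_lit 9915408028) (nat_lit 76) (nat_lit 4398905279) (nat_lit 95) (nat_lit 5) (nat_lit 98) (nat_lit 5) (nat_lit 96) (nat_lit 4) (nat_lit 491) (nat_lit 379) (nat_lit 330)) (XT.lf (nat_lit 0) (nat_lit 2970167578) (nat_lit 76) (nat_lit 6502529714) (nat_lit 152) (nat_lit 8208514704) (nat_lit 94) (nat_lit 5) (nat_lit 95) (nat_lit 5) (nat_lit 96) (nat_lit 4) (nat_lit 492) (nat_lit 379) (nat_lit 329))) (XT.nd (nat_lit 78) (nat_lit 228) (nat_lit 0) (XT.lf (nat_lit 0) (nat_lit 16120958425) (nat_lit 152) (nat_lit 1682055813) (nat_lit 0) (nat_lit 199252463) (nat_lit 94) (nat_lit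 5) (nat_lit 96) (nat_lit 4) (nat_lit 94) (nat_lit 4) (nat_lit 493) (nat_lit 379) (nat_lit 328)) (XT.lf (nat_lit 0) (nat_lit 4660411143) (nat_lit 228) (nat_lit 6592986896) (nat_lit 76) (nat_lit 7074763951) (nat_lit 91) (nat_lit 5) (nat_lit 94) (nat_lit 5) (nat_lit 92) (nat_lit 4) (nat_lit 494) (nat_lit 379) (nat_lit 327)))) (XT.nd (nat_lit 156) (nat_lit 152) (nat_lit 0) (XT.nd (nat_lit 78) (nat_lit 152) (nat_lit 0) (XT.lf (nat_lit 0) (nat_lit 6921164302) (nat_lit 76) (nat_lit 4459554503) (nat_lit 152) (nat_lit 7281952510) (nat_lit 90) (nat_lit 5) (nat_lit 91) (nat_lit 5) (nat_lit 92) (nat_lit 4) (nat_lit 495) (nat_lit 379) (nat_lit 326)) (XT.lf (nat_lit 0) (nat_lit 1860596512) (nat_lit 152) (nat_lit 16488170356) (nat_lit 152) (nat_lit 657065561) (nat_lit 88) (nat_lit 4) (nat_lit 90) (nat_lit 5) (nat_lit 90) (nat_lit 4) (nat_lit 496) (nat_lit 379) (nat_lit 325))) (XT.nd (nat_lit 78) (nat_lit 76) (nat_lit 0) (XT.lf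 (nat_lit 0) (nat_lit 6146813170) (nat_lit 228) (nat_lit 3470279322) (nat_lit 76) (nat_lit 9737400681) (nat_lit 87) (nat_lit 5) (nat_lit 90) (nat_lit 5) (nat_lit 88) (nat_lit 4) (nat_lit 497) (nat_lit 379) (nat_lit 324)) (XT.lf (nat_lit 0) (nat_lit 10699343184) (nat_lit 76) (nat_lit 2483634530) (nat_lit 152) (nat_lit 6529199989) (nat_lit 86) (nat_lit 5) (nat_lit 87) (nat_lit 5) (nat_lit 88) (nat_lit 4) (nat_lit 498) (nat_lit 379) (nat_lit 323))))) (XT.nd (nat_lit 312) (nat_lit 304) (nat_lit 0) (XT.nd (nat_lit 156) (nat_lit 304) (nat_lit 0) (XT.nd (nat_lit 78) (nat_lit 0) (nat_lit 0) (XT.lf (nat_lit 0) (nat_lit 414518502) (nat_lit 228) (nat_lit 14860060233) (nat_lit 76) (nat_lit 4803762386) (nat_lit 83) (nat_lit 5) (nat_lit 86) (nat_lit 5) (nat_lit 84) (nat_lit 4) (nat_lit 499) (nat_lit 379) (nat_lit 322)) (XT.lf (nat_lit 0) (nat_lit 7490542486) (nat_lit 228) (nat_lit 599866904) (nat_lit 76) (nat_lit 12361484324)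 (nat_lit 83) (nat_lit 5) (nat_lit 86) (nat_lit 5) (nat_lit 84) (nat_lit 4) (nat_lit 500) (nat_lit 379) (nat_lit 321))) (XT.nd (nat_lit 78) (nat_lit 228) (nat_lit 0) (XT.lf (nat_lit 0) (nat_lit 14251616321) (nat_lit 76) (nat_lit 604731838) (nat_lit 152) (nat_lit 5977980058) (nat_lit 82) (nat_lit 5) (nat_lit 83) (nat_lit 5) (nat_lit 84) (nat_lit 4) (nat_lit 501) (nat_lit 379) (nat_lit 320)) (XT.lf (nat_lit 0) (nat_lit 1287067299) (nat_lit 228) (nat_lit 12926018436) (nat_lit 76) (nat_lit 7011923551) (nat_lit 79) (nat_lit 5) (nat_lit 82) (nat_lit 5) (nat_lit 80) (nat_lit 4) (nat_lit 502) (nat_lit 379) (nat_lit 319)))) (XT.nd (nat_lit 156) (nat_lit 228) (nat_lit 0) (XT.nd (nat_lit 78) (nat_lit 0) (nat_lit 0) (XT.lf (nat_lit 0) (nat_lit 1994973429) (nat_lit 76) (nat_lit 6687913960) (nat_lit 152) (nat_lit 12941758905) (nat_lit 78) (nat_lit 5) (nat_lit 79) (nat_lit 5) (nat_lit 80) (nat_lit 4) (nat_lit 503) (nat_lit 379)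 (nat_lit 318)) (XT.lf (nat_lit 0) (nat_lit 16383404771) (nat_lit 152) (nat_lit 4530197973) (nat_lit 0) (nat_lit 1120185308) (nat_lit 78) (nat_lit 5) (nat_lit 80) (nat_lit 4) (nat_lit 78) (nat_lit 4) (nat_lit 504) (nat_lit 379) (nat_lit 317))) (XT.nd (nat_lit 78) (nat_lit 76) (nat_lit 0) (XT.lf (nat_lit 0) (nat_lit 1939627091) (nat_lit 152) (nat_lit 11410448042) (nat_lit 76) (nat_lit 9101107415) (nat_lit 76) (nat_lit 5) (nat_lit 78) (nat_lit 5) (nat_lit 77) (nat_lit 4) (nat_lit 505) (nat_lit 379) (nat_lit 316)) (XT.lf (nat_lit 0) (nat_lit 4206010350) (nat_lit 76) (nat_lit 5466948666) (nat_lit 152) (nat_lit 13205586176) (nat_lit 75) (nat_lit 5) (nat_lit 76) (nat_lit 5) (nat_lit 77) (nat_lit 4) (nat_lit 506) (nat_lit 379) (nat_lit 315))))))))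
noncomputable def xc51 : XT := (XT.nd (nat_lit 2418) (nat_lit 1064) (nat_lit 0) (XT.nd (nat_lit 1170) (nat_lit 1064) (nat_lit 0) (XT.nd (nat_lit 546) (nat_lit 684) (nat_lit 0) (XT.nd (nat_lit 234) (nat_lit 228) (nat_lit 0) (XT.nd (nat_lit 78) (nat_lit 228) (nat_lit 0) (XT.lf (nat_lit 0) (nat_lit 17722807377) (nat_lit 152) (nat_lit 2928741402) (nat_lit 0) (nat_lit 2664644723) (nat_lit 75) (nat_lit 5) (nat_lit 77) (nat_lit 4) (nat_lit 75) (nat_lit 4) (nat_lit 507) (nat_lit 379) (nat_lit 314)) (XT.nd (nat_lit 78) (nat_lit 76) (nat_lit 0) (XT.lf (nat_lit 0) (nat_lit 2331714123) (nat_lit 152) (nat_lit 10400012582) (nat_lit 76) (nat_lit 11030745245) (nat_lit 73) (nat_lit 5) (nat_lit 75) (nat_lit 5) (nat_lit 74) (nat_lit 4) (nat_lit 508) (nat_lit 379) (nat_lit 313)) (XT.lf (nat_lit 0) (nat_lit 5932792241) (nat_lit 76) (nat_lit 4480618073) (nat_lit 152) (nat_lit 13806129360) (nat_lit 72) (nat_lit 5) (nat_lit 73) (nat_lit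 5) (nat_lit 74) (nat_lit 4) (nat_lit 509) (nat_lit 379) (nat_lit 312)))) (XT.nd (nat_lit 156) (nat_lit 76) (nat_lit 0) (XT.nd (nat_lit 78) (nat_lit 152) (nat_lit 0) (XT.lf (nat_lit 0) (nat_lit 18826692365) (nat_lit 152) (nat_lit 1866631594) (nat_lit 0) (nat_lit 3994321675) (nat_lit 72) (nat_lit 5) (nat_lit 74) (nat_lit 4) (nat_lit 72) (nat_lit 4) (nat_lit 510) (nat_lit 379) (nat_lit 311)) (XT.lf (nat_lit 0) (nat_lit 2415081755) (nat_lit 152) (nat_lit 9996595251) (nat_lit 76) (nat_lit 12753313459) (nat_lit 70) (nat_lit 5) (nat_lit 72) (nat_lit 5) (nat_lit 71) (nat_lit 4) (nat_lit 511) (nat_lit 379) (nat_lit 310))) (XT.nd (nat_lit 78) (nat_lit 0) (nat_lit 0) (XT.lf (nat_lit 0) (nat_lit 7070963240) (nat_lit 76) (nat_lit 3783750142) (nat_lit 152) (nat_lit 14799208163) (nat_lit 69) (nat_lit 5) (nat_lit 70) (nat_lit 5) (nat_lit 71) (nat_lit 4) (nat_lit 512) (nat_lit 379) (nat_lit 309)) (XT.lf (nat_lit 0) (nat_lit 19644716145)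 (nat_lit 152) (nat_lit 1454598786) (nat_lit 0) (nat_lit 5055290386) (nat_lit 69) (nat_lit 5) (nat_lit 71) (nat_lit 4) (nat_lit 69) (nat_lit 4) (nat_lit 513) (nat_lit 379) (nat_lit 308))))) (XT.nd (nat_lit 312) (nat_lit 304) (nat_lit 0) (XT.nd (nat_lit 156) (nat_lit 152) (nat_lit 0) (XT.nd (nat_lit 78) (nat_lit 76) (nat_lit 0) (XT.lf (nat_lit 0) (nat_lit 2132488926) (nat_lit 152) (nat_lit 10319860178) (nat_lit 76) (nat_lit 14213057190) (nat_lit 67) (nat_lit 5) (nat_lit 69) (nat_lit 5) (nat_lit 68) (nat_lit 4) (nat_lit 514) (nat_lit 379) (nat_lit 307)) (XT.lf (nat_lit 0) (nat_lit 7497644616) (nat_lit 76) (nat_lit 3440342840) (nat_lit 152) (nat_lit 16250569674) (nat_lit 66) (nat_lit 5) (nat_lit 67) (nat_lit 5) (nat_lit 68) (nat_lit 4) (nat_lit 515) (nat_lit 379) (nat_lit 306))) (XT.nd (nat_lit 78) (nat_lit 152) (nat_lit 0) (XT.lf (nat_lit 0) (nat_lit 20116902152) (nat_lit 152) (nat_lit 1822794453) (nat_lit 0) (nat_lit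 5784428551) (nat_lit 66) (nat_lit 5) (nat_lit 68) (nat_lit 4) (nat_lit 66) (nat_lit 4) (nat_lit 516) (nat_lit 379) (nat_lit 305)) (XT.lf (nat_lit 0) (nat_lit 1416264014) (nat_lit 152) (nat_lit 11510222177) (nat_lit 76) (nat_lit 15344517097) (nat_lit 64) (nat_lit 5) (nat_lit 66) (nat_lit 5) (nat_lit 65) (nat_lit 4) (nat_lit 517) (nat_lit 379) (nat_lit 304)))) (XT.nd (nat_lit 156) (nat_lit 228) (nat_lit 0) (XT.nd (nat_lit 78) (nat_lit 0) (nat_lit 0) (XT.lf (nat_lit 0) (nat_lit 7068325991) (nat_lit 76) (nat_lit 3525167513) (nat_lit 152) (nat_lit 18237456805) (nat_lit 63) (nat_lit 5) (nat_lit 64) (nat_lit 5) (nat_lit 65) (nat_lit 4) (nat_lit 518) (nat_lit 379) (nat_lit 303)) (XT.lf (nat_lit 0) (nat_lit 20172078296) (nat_lit 152) (nat_lit 3124031427) (nat_lit 0) (nat_lit 6107805043) (nat_lit 63) (nat_lit 5) (nat_lit 65) (nat_lit 4) (nat_lit 63) (nat_lit 4) (nat_lit 519) (nat_lit 379) (nat_lit 302))) (XT.nd (nat_lit 78)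 (nat_lit 76) (nat_lit 0) (XT.lf (nat_lit 0) (nat_lit 186631931) (nat_lit 152) (nat_lit 13732291030) (nat_lit 76) (nat_lit 16070826572) (nat_lit 61) (nat_lit 5) (nat_lit 63) (nat_lit 5) (nat_lit 62) (nat_lit 4) (nat_lit 520) (nat_lit 379) (nat_lit 301)) (XT.lf (nat_lit 0) (nat_lit 5613258557) (nat_lit 76) (nat_lit 4125622010) (nat_lit 152) (nat_lit 20850433501) (nat_lit 60) (nat_lit 5) (nat_lit 61) (nat_lit 5) (nat_lit 62) (nat_lit 4) (nat_lit 521) (nat_lit 379) (nat_lit 300)))))) (XT.nd (nat_lit 624) (nat_lit 532) (nat_lit 0) (XT.nd (nat_lit 312) (nat_lit 304) (nat_lit 0) (XT.nd (nat_lit 156) (nat_lit 152) (nat_lit 0) (XT.nd (nat_lit 78) (nat_lit 76) (nat_lit 0) (XT.lf (nat_lit 0) (nat_lit 19726056673) (nat_lit 152) (nat_lit 5537542772) (nat_lit 0) (nat_lit 5938815452) (nat_lit 60) (nat_lit 5) (nat_lit 62) (nat_lit 4) (nat_lit 60) (nat_lit 4) (nat_lit 522) (nat_lit 379) (nat_lit 299)) (XT.lf (nat_lit 0) (nat_lit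 14634844378) (nat_lit 76) (nat_lit 15511969783) (nat_lit 76) (nat_lit 1683075758) (nat_lit 59) (nat_lit 4) (nat_lit 60) (nat_lit 5) (nat_lit 60) (nat_lit 4) (nat_lit 523) (nat_lit 379) (nat_lit 298))) (XT.nd (nat_lit 78) (nat_lit 0) (nat_lit 0) (XT.lf (nat_lit 0) (nat_lit 2933269988) (nat_lit 76) (nat_lit 5343874656) (nat_lit 152) (nat_lit 24195507202) (nat_lit 57) (nat_lit 5) (nat_lit 58) (nat_lit 5) (nat_lit 59) (nat_lit 4) (nat_lit 524) (nat_lit 379) (nat_lit 297)) (XT.lf (nat_lit 0) (nat_lit 18679514713) (nat_lit 152) (nat_lit 9273342971) (nat_lit 0) (nat_lit 5176024028) (nat_lit 57) (nat_lit 5) (nat_lit 59) (nat_lit 4) (nat_lit 57) (nat_lit 4) (nat_lit 525) (nat_lit 379) (nat_lit 296)))) (XT.nd (nat_lit 156) (nat_lit 152) (nat_lit 0) (XT.nd (nat_lit 78) (nat_lit 76) (nat_lit 0) (XT.lf (nat_lit 0) (nat_lit 11684429948) (nat_lit 76) (nat_lit 17828646848) (nat_lit 76) (nat_lit 4288148186) (nat_lit 56) (nat_lit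 4) (nat_lit 57) (nat_lit 5) (nat_lit 57) (nat_lit 4) (nat_lit 526) (nat_lit 379) (nat_lit 295)) (XT.lf (nat_lit 0) (nat_lit 6105838615) (nat_lit 152) (nat_lit 1181576348) (nat_lit 76) (nat_lit 27203087600) (nat_lit 55) (nat_lit 5) (nat_lit 57) (nat_lit 5) (nat_lit 56) (nat_lit 4) (nat_lit 527) (nat_lit 379) (nat_lit 294))) (XT.nd (nat_lit 78) (nat_lit 76) (nat_lit 0) (XT.lf (nat_lit 0) (nat_lit 16915530393) (nat_lit 152) (nat_lit 14577288232) (nat_lit 0) (nat_lit 3700664076) (nat_lit 54) (nat_lit 5) (nat_lit 56) (nat_lit 4) (nat_lit 54) (nat_lit 4) (nat_lit 528) (nat_lit 379) (nat_lit 293)) (XT.lf (nat_lit 0) (nat_lit 7153501232) (nat_lit 76) (nat_lit 21004275324) (nat_lit 76) (nat_lit 7756527899) (nat_lit 53) (nat_lit 4) (nat_lit 54) (nat_lit 5) (nat_lit 54) (nat_lit 4) (nat_lit 529) (nat_lit 379) (nat_lit 292))))) (XT.nd (nat_lit 312) (nat_lit 304) (nat_lit 0) (XT.nd (nat_lit 156) (nat_lit 76) (nat_lit 0) (XT.nd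 (nat_lit 78) (nat_lit 76) (nat_lit 0) (XT.lf (nat_lit 0) (nat_lit 3124402874) (nat_lit 152) (nat_lit 6937132995) (nat_lit 76) (nat_lit 26591207463) (nat_lit 52) (nat_lit 5) (nat_lit 54) (nat_lit 5) (nat_lit 53) (nat_lit 4) (nat_lit 530) (nat_lit 379) (nat_lit 291)) (XT.lf (nat_lit 0) (nat_lit 14296716500) (nat_lit 152) (nat_lit 21736948140) (nat_lit 0) (nat_lit 1373741325) (nat_lit 51) (nat_lit 5) (nat_lit 53) (nat_lit 4) (nat_lit 51) (nat_lit 4) (nat_lit 531) (nat_lit 379) (nat_lit 290))) (XT.nd (nat_lit 78) (nat_lit 0) (nat_lit 0) (XT.lf (nat_lit 0) (nat_lit 743862810) (nat_lit 76) (nat_lit 25194505167) (nat_lit 76) (nat_lit 12242315552) (nat_lit 50) (nat_lit 4) (nat_lit 51) (nat_lit 5) (nat_lit 51) (nat_lit 4) (nat_lit 532) (nat_lit 379) (nat_lit 289)) (XT.lf (nat_lit 0) (nat_lit 24259315699) (nat_lit 76) (nat_lit 13846549543) (nat_lit 76) (nat_lit 865996395) (nat_lit 50) (nat_lit 4) (nat_lit 51) (nat_lit 5)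 (nat_lit 51) (nat_lit 4) (nat_lit 533) (nat_lit 379) (nat_lit 288)))) (XT.nd (nat_lit 156) (nat_lit 152) (nat_lit 0) (XT.nd (nat_lit 78) (nat_lit 0) (nat_lit 0) (XT.lf (nat_lit 0) (nat_lit 8674700019) (nat_lit 76) (nat_lit 2006477605) (nat_lit 152) (nat_lit 29101228613) (nat_lit 48) (nat_lit 5) (nat_lit 49) (nat_lit 5) (nat_lit 50) (nat_lit 4) (nat_lit 534) (nat_lit 379) (nat_lit 287)) (XT.lf (nat_lit 0) (nat_lit 22763305553) (nat_lit 152) (nat_lit 7739391390) (nat_lit 0) (nat_lit 10108134768) (nat_lit 48) (nat_lit 5) (nat_lit 50) (nat_lit 4) (nat_lit 48) (nat_lit 4) (nat_lit 535) (nat_lit 379) (nat_lit 286))) (XT.nd (nat_lit 78) (nat_lit 76) (nat_lit 0) (XT.lf (nat_lit 0) (nat_lit 16551779724) (nat_lit 76) (nat_lit 18794278455) (nat_lit 76) (nat_lit 6113907038) (nat_lit 47) (nat_lit 4) (nat_lit 48) (nat_lit 5) (nat_lit 48) (nat_lit 4) (nat_lit 536) (nat_lit 379) (nat_lit 285)) (XT.lf (nat_lit 0) (nat_lit 5893320918)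 (nat_lit 152) (nat_lit 741396585) (nat_lit 76) (nat_lit 35696989296) (nat_lit 46) (nat_lit 5) (nat_lit 48) (nat_lit 5) (nat_lit 47) (nat_lit 4) (nat_lit 537) (nat_lit 379) (nat_lit 284))))))) (XT.nd (nat_lit 1248) (nat_lit 76) (nat_lit 0) (XT.nd (nat_lit 624) (nat_lit 456) (nat_lit 0) (XT.nd (nat_lit 312) (nat_lit 228) (nat_lit 0) (XT.nd (nat_lit 156) (nat_lit 152) (nat_lit 0) (XT.nd (nat_lit 78) (nat_lit 76) (nat_lit 0) (XT.lf (nat_lit 0) (nat_lit 18392841601) (nat_lit 152) (nat_lit 18792309089) (nat_lit 0) (nat_lit 6034985229) (nat_lit 45) (nat_lit 5) (nat_lit 47) (nat_lit 4) (nat_lit 45) (nat_lit 4) (nat_lit 538) (nat_lit 379) (nat_lit 283)) (XT.lf (nat_lit 0) (nat_lit 6208736479) (nat_lit 76) (nat_lit 25151963875) (nat_lit 76) (nat_lit 12771717069) (nat_lit 44) (nat_lit 4) (nat_lit 45) (nat_lit 5) (nat_lit 45) (nat_lit 4) (nat_lit 539) (nat_lit 379) (nat_lit 282))) (XT.nd (nat_lit 78) (nat_lit 152) (nat_lit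 0) (XT.lf (nat_lit 0) (nat_lit 32266826222) (nat_lit 76) (nat_lit 12601354375) (nat_lit 76) (nat_lit 199369282) (nat_lit 44) (nat_lit 4) (nat_lit 45) (nat_lit 5) (nat_lit 45) (nat_lit 4) (nat_lit 540) (nat_lit 379) (nat_lit 281)) (XT.lf (nat_lit 0) (nat_lit 12594401056) (nat_lit 152) (nat_lit 32896718447) (nat_lit 0) (nat_lit 533148410) (nat_lit 42) (nat_lit 5) (nat_lit 44) (nat_lit 4) (nat_lit 42) (nat_lit 4) (nat_lit 541) (nat_lit 379) (nat_lit 280)))) (XT.nd (nat_lit 156) (nat_lit 152) (nat_lit 0) (XT.nd (nat_lit 78) (nat_lit 76) (nat_lit 0) (XT.lf (nat_lit 0) (nat_lit 25984894363) (nat_lit 152) (nat_lit 7114478365) (nat_lit 0) (nat_lit 13903748105) (nat_lit 42) (nat_lit 5) (nat_lit 44) (nat_lit 4) (nat_lit 42) (nat_lit 4) (nat_lit 542) (nat_lit 379) (nat_lit 279)) (XT.lf (nat_lit 0) (nat_lit 19752177523) (nat_lit 76) (nat_lit 20177522207) (nat_lit 76) (nat_lit 8077061763) (nat_lit 41) (nat_lit 4) (nat_lit 42)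 (nat_lit 5) (nat_lit 42) (nat_lit 4) (nat_lit 543) (nat_lit 379) (nat_lit 278))) (XT.nd (nat_lit 78) (nat_lit 76) (nat_lit 0) (XT.lf (nat_lit 0) (nat_lit 5185137931) (nat_lit 152) (nat_lit 1593382079) (nat_lit 76) (nat_lit 42259418008) (nat_lit 40) (nat_lit 5) (nat_lit 42) (nat_lit 5) (nat_lit 41) (nat_lit 4) (nat_lit 544) (nat_lit 379) (nat_lit 277)) (XT.lf (nat_lit 0) (nat_lit 18969242306) (nat_lit 152) (nat_lit 23934475312) (nat_lit 0) (nat_lit 7185341769) (nat_lit 39) (nat_lit 5) (nat_lit 41) (nat_lit 4) (nat_lit 39) (nat_lit 4) (nat_lit 545) (nat_lit 379) (nat_lit 276))))) (XT.nd (nat_lit 312) (nat_lit 228) (nat_lit 0) (XT.nd (nat_lit 156) (nat_lit 152) (nat_lit 0) (XT.nd (nat_lit 78) (nat_lit 0) (nat_lit 0) (XT.lf (nat_lit 0) (nat_lit 3525593862) (nat_lit 76) (nat_lit 29722374294) (nat_lit 76) (nat_lit 17921313353) (nat_lit 38) (nat_lit 4) (nat_lit 39) (nat_lit 5) (nat_lit 39) (nat_lit 4) (nat_lit 546) (nat_lit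 379) (nat_lit 275)) (XT.lf (nat_lit 0) (nat_lit 32228457610) (nat_lit 76) (nat_lit 15932498630) (nat_lit 76) (nat_lit 4114777102) (nat_lit 38) (nat_lit 4) (nat_lit 39) (nat_lit 5) (nat_lit 39) (nat_lit 4) (nat_lit 547) (nat_lit 379) (nat_lit 274))) (XT.nd (nat_lit 78) (nat_lit 0) (nat_lit 0) (XT.lf (nat_lit 0) (nat_lit 8373019053) (nat_lit 76) (nat_lit 1581126713) (nat_lit 152) (nat_lit 43456956859) (nat_lit 36) (nat_lit 5) (nat_lit 37) (nat_lit 5) (nat_lit 38) (nat_lit 4) (nat_lit 548) (nat_lit 379) (nat_lit 273)) (XT.lf (nat_lit 0) (nat_lit 24658696126) (nat_lit 152) (nat_lit 16757497741) (nat_lit 0) (nat_lit 13154229082) (nat_lit 36) (nat_lit 5) (nat_lit 38) (nat_lit 4) (nat_lit 36) (nat_lit 4) (nat_lit 549) (nat_lit 379) (nat_lit 272)))) (XT.nd (nat_lit 156) (nat_lit 152) (nat_lit 0) (XT.nd (nat_lit 78) (nat_lit 0) (nat_lit 0) (XT.lf (nat_lit 0) (nat_lit 12532174200) (nat_lit 76) (nat_lit 27374278208) (nat_lit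 76) (nat_lit 15855008449) (nat_lit 35) (nat_lit 4) (nat_lit 36) (nat_lit 5) (nat_lit 36) (nat_lit 4) (nat_lit 550) (nat_lit 379) (nat_lit 271)) (XT.lf (nat_lit 0) (nat_lit 42976492840) (nat_lit 76) (nat_lit 12770656599) (nat_lit 76) (nat_lit 1237015271) (nat_lit 35) (nat_lit 4) (nat_lit 36) (nat_lit 5) (nat_lit 36) (nat_lit 4) (nat_lit 551) (nat_lit 379) (nat_lit 270))) (XT.nd (nat_lit 78) (nat_lit 0) (nat_lit 0) (XT.lf (nat_lit 0) (nat_lit 13696965831) (nat_lit 152) (nat_lit 42052475924) (nat_lit 0) (nat_lit 2485709223) (nat_lit 33) (nat_lit 5) (nat_lit 35) (nat_lit 4) (nat_lit 33) (nat_lit 4) (nat_lit 552) (nat_lit 379) (nat_lit 269)) (XT.lf (nat_lit 0) (nat_lit 29290360286) (nat_lit 152) (nat_lit 12159899810) (nat_lit 0) (nat_lit 18065951657) (nat_lit 33) (nat_lit 5) (nat_lit 35) (nat_lit 4) (nat_lit 33) (nat_lit 4) (nat_lit 553) (nat_lit 379) (nat_lit 268)))))) (XT.nd (nat_lit 54132) (nat_lit 0) (nat_lit 11172)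 (XT.nd (nat_lit 53820) (nat_lit 0) (nat_lit 13680) (XT.nd (nat_lit 53664) (nat_lit 0) (nat_lit 14972) (XT.nd (nat_lit 53586) (nat_lit 0) (nat_lit 15884) (XT.lf (nat_lit 0) (nat_lit 18934603782) (nat_lit 76) (nat_lit 26566890039) (nat_lit 76) (nat_lit 15329712458) (nat_lit 32) (nat_lit 4) (nat_lit 33) (nat_lit 5) (nat_lit 33) (nat_lit 4) (nat_lit 554) (nat_lit 379) (nat_lit 267)) (XT.lf (nat_lit 0) (nat_lit 3166586926) (nat_lit 456) (nat_lit 453361926) (nat_lit 456) (nat_lit 453361926) (nat_lit 241) (nat_lit 4) (nat_lit 247) (nat_lit 5) (nat_lit 247) (nat_lit 4) (nat_lit 440) (nat_lit 380) (nat_lit 380))) (XT.nd (nat_lit 78) (nat_lit 456) (nat_lit 0) (XT.lf (nat_lit 0) (nat_lit 3148338955) (nat_lit 456) (nat_lit 3078548697) (nat_lit 0) (nat_lit 2007003212) (nat_lit 235) (nat_lit 5) (nat_lit 241) (nat_lit 4) (nat_lit 235) (nat_lit 4) (nat_lit 441) (nat_lit 380) (nat_lit 379)) (XT.lf (nat_lit 0) (nat_lit 3967302111)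 (nat_lit 456) (nat_lit 3303362263) (nat_lit 456) (nat_lit 1053933565) (nat_lit 229) (nat_lit 4) (nat_lit 235) (nat_lit 5) (nat_lit 235) (nat_lit 4) (nat_lit 442) (nat_lit 380) (nat_lit 378)))) (XT.nd (nat_lit 156) (nat_lit 456) (nat_lit 0) (XT.nd (nat_lit 78) (nat_lit 380) (nat_lit 0) (XT.lf (nat_lit 0) (nat_lit 2754425769) (nat_lit 380) (nat_lit 240486974) (nat_lit 456) (nat_lit 5423521386) (nat_lit 223) (nat_lit 5) (nat_lit 228) (nat_lit 5) (nat_lit 229) (nat_lit 4) (nat_lit 443) (nat_lit 380) (nat_lit 377)) (XT.lf (nat_lit 0) (nat_lit 1504511660) (nat_lit 380) (nat_lit 5626555454) (nat_lit 380) (nat_lit 1384098186) (nat_lit 218) (nat_lit 4) (nat_lit 223) (nat_lit 5) (nat_lit 223) (nat_lit 4) (nat_lit 444) (nat_lit 380) (nat_lit 376))) (XT.nd (nat_lit 78) (nat_lit 0) (nat_lit 0) (XT.lf (nat_lit 0) (nat_lit 224236733) (nat_lit 380) (nat_lit 2461093433) (nat_lit 456) (nat_lit 5929780996) (nat_lit 212) (nat_lit 5)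 (nat_lit 217) (nat_lit 5) (nat_lit 218) (nat_lit 4) (nat_lit 445) (nat_lit 380) (nat_lit 375)) (XT.lf (nat_lit 0) (nat_lit 6830040632) (nat_lit 456) (nat_lit 1060887542) (nat_lit 0) (nat_lit 827288960) (nat_lit 212) (nat_lit 5) (nat_lit 218) (nat_lit 4) (nat_lit 212) (nat_lit 4) (nat_lit 446) (nat_lit 380) (nat_lit 374))))) (XT.nd (nat_lit 312) (nat_lit 1064) (nat_lit 0) (XT.nd (nat_lit 156) (nat_lit 684) (nat_lit 0) (XT.nd (nat_lit 78) (nat_lit 304) (nat_lit 0) (XT.lf (nat_lit 0) (nat_lit 2221283578) (nat_lit 456) (nat_lit 2394526983) (nat_lit 76) (nat_lit 4208223125) (nat_lit 206) (nat_lit 5) (nat_lit 212) (nat_lit 5) (nat_lit 207) (nat_lit 4) (nat_lit 447) (nat_lit 380) (nat_lit 373)) (XT.lf (nat_lit 0) (nat_lit 5176747184) (nat_lit 304) (nat_lit 1205133920) (nat_lit 380) (nat_lit 2551611776) (nat_lit 202) (nat_lit 5) (nat_lit 206) (nat_lit 5) (nat_lit 207) (nat_lit 4) (nat_lit 448) (nat_lit 380) (nat_lit 372)))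 (XT.nd (nat_lit 78) (nat_lit 304) (nat_lit 0) (XT.lf (nat_lit 0) (nat_lit 1579578309) (nat_lit 380) (nat_lit 5169895294) (nat_lit 76) (nat_lit 2296593191) (nat_lit 197) (nat_lit 5) (nat_lit 202) (nat_lit 5) (nat_lit 198) (nat_lit 4) (nat_lit 449) (nat_lit 380) (nat_lit 371)) (XT.lf (nat_lit 0) (nat_lit 2525289022) (nat_lit 304) (nat_lit 3239360342) (nat_lit 380) (nat_lit 3397176601) (nat_lit 193) (nat_lit 5) (nat_lit 197) (nat_lit 5) (nat_lit 198) (nat_lit 4) (nat_lit 450) (nat_lit 380) (nat_lit 370)))) (XT.nd (nat_lit 156) (nat_lit 684) (nat_lit 0) (XT.nd (nat_lit 78) (nat_lit 0) (nat_lit 0) (XT.lf (nat_lit 0) (nat_lit 753539790) (nat_lit 380) (nat_lit 8134531014) (nat_lit 76) (nat_lit 393516065) (nat_lit 188) (nat_lit 5) (nat_lit 193) (nat_lit 5) (nat_lit 189) (nat_lit 4) (nat_lit 451) (nat_lit 380) (nat_lit 369)) (XT.lf (nat_lit 0) (nat_lit 4968324992) (nat_lit 380) (nat_lit 311097036) (nat_lit 76) (nat_lit 4124277298)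 (nat_lit 188) (nat_lit 5) (nat_lit 193) (nat_lit 5) (nat_lit 189) (nat_lit 4) (nat_lit 452) (nat_lit 380) (nat_lit 368))) (XT.nd (nat_lit 78) (nat_lit 380) (nat_lit 0) (XT.lf (nat_lit 0) (nat_lit 7760619299) (nat_lit 304) (nat_lit 1534286499) (nat_lit 380) (nat_lit 235011330) (nat_lit 184) (nat_lit 5) (nat_lit 188) (nat_lit 5) (nat_lit 189) (nat_lit 4) (nat_lit 453) (nat_lit 380) (nat_lit 367)) (XT.lf (nat_lit 0) (nat_lit 4009957523) (nat_lit 380) (nat_lit 3314705031) (nat_lit 76) (nat_lit 2334128469) (nat_lit 179) (nat_lit 5) (nat_lit 184) (nat_lit 5) (nat_lit 180) (nat_lit 4) (nat_lit 454) (nat_lit 380) (nat_lit 366))))))))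
noncomputable def xc52 : XT := (XT.nd (nat_lit 2418) (nat_lit 3040) (nat_lit 0) (XT.nd (nat_lit 1170) (nat_lit 2280) (nat_lit 0) (XT.nd (nat_lit 546) (nat_lit 1596) (nat_lit 0) (XT.nd (nat_lit 234) (nat_lit 836) (nat_lit 0) (XT.nd (nat_lit 78) (nat_lit 608) (nat_lit 0) (XT.lf (nat_lit 0) (nat_lit 4884692134) (nat_lit 228) (nat_lit 3485011690) (nat_lit 304) (nat_lit 1421995265) (nat_lit 176) (nat_lit 5) (nat_lit 179) (nat_lit 5) (nat_lit 180) (nat_lit 4) (nat_lit 455) (nat_lit 380) (nat_lit 365)) (XT.nd (nat_lit 78) (nat_lit 228) (nat_lit 0) (XT.lf (nat_lit 0) (nat_lit 2857915940) (nat_lit 380) (nat_lit 6565165164) (nat_lit 76) (nat_lit 505165808) (nat_lit 171) (nat_lit 5) (nat_lit 176) (nat_lit 5) (nat_lit 172) (nat_lit 4) (nat_lit 456) (nat_lit 380) (nat_lit 364)) (XT.lf (nat_lit 0) (nat_lit 1759526488) (nat_lit 228) (nat_lit 5492648672) (nat_lit 304) (nat_lit 2815859812) (nat_lit 168) (nat_lit 5) (nat_lit 171)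 (nat_lit 5) (nat_lit 172) (nat_lit 4) (nat_lit 457) (nat_lit 380) (nat_lit 363)))) (XT.nd (nat_lit 156) (nat_lit 532) (nat_lit 0) (XT.nd (nat_lit 78) (nat_lit 0) (nat_lit 0) (XT.lf (nat_lit 0) (nat_lit 104292111) (nat_lit 228) (nat_lit 1412762077) (nat_lit 304) (nat_lit 8695071659) (nat_lit 164) (nat_lit 5) (nat_lit 167) (nat_lit 5) (nat_lit 168) (nat_lit 5) (nat_lit 458) (nat_lit 380) (nat_lit 362)) (XT.lf (nat_lit 0) (nat_lit 5948989396) (nat_lit 304) (nat_lit 1614965163) (nat_lit 76) (nat_lit 2794981541) (nat_lit 164) (nat_lit 5) (nat_lit 168) (nat_lit 5) (nat_lit 165) (nat_lit 4) (nat_lit 459) (nat_lit 380) (nat_lit 361))) (XT.nd (nat_lit 78) (nat_lit 228) (nat_lit 0) (XT.lf (nat_lit 0) (nat_lit 2669729) (nat_lit 304) (nat_lit 3389656428) (nat_lit 76) (nat_lit 7117854940) (nat_lit 160) (nat_lit 5) (nat_lit 164) (nat_lit 5) (nat_lit 161) (nat_lit 5) (nat_lit 460) (nat_lit 380) (nat_lit 360)) (XT.lf (nat_lit 0)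 (nat_lit 4453680877) (nat_lit 304) (nat_lit 5264330601) (nat_lit 76) (nat_lit 946804301) (nat_lit 157) (nat_lit 5) (nat_lit 161) (nat_lit 5) (nat_lit 158) (nat_lit 4) (nat_lit 461) (nat_lit 380) (nat_lit 359))))) (XT.nd (nat_lit 312) (nat_lit 836) (nat_lit 0) (XT.nd (nat_lit 156) (nat_lit 228) (nat_lit 0) (XT.nd (nat_lit 78) (nat_lit 304) (nat_lit 0) (XT.lf (nat_lit 0) (nat_lit 3599053323) (nat_lit 228) (nat_lit 5459408635) (nat_lit 304) (nat_lit 1765022080) (nat_lit 154) (nat_lit 5) (nat_lit 157) (nat_lit 5) (nat_lit 158) (nat_lit 4) (nat_lit 462) (nat_lit 380) (nat_lit 358)) (XT.lf (nat_lit 0) (nat_lit 1718601043) (nat_lit 228) (nat_lit 1028928561) (nat_lit 304) (nat_lit 8238933451) (nat_lit 150) (nat_lit 5) (nat_lit 153) (nat_lit 5) (nat_lit 154) (nat_lit 5) (nat_lit 463) (nat_lit 380) (nat_lit 357))) (XT.nd (nat_lit 78) (nat_lit 228) (nat_lit 0) (XT.lf (nat_lit 0) (nat_lit 7385945542) (nat_lit 304) (nat_lit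 265131804) (nat_lit 76) (nat_lit 3501952523) (nat_lit 150) (nat_lit 5) (nat_lit 154) (nat_lit 5) (nat_lit 151) (nat_lit 4) (nat_lit 464) (nat_lit 380) (nat_lit 356)) (XT.lf (nat_lit 0) (nat_lit 840492805) (nat_lit 228) (nat_lit 2293213754) (nat_lit 76) (nat_lit 8190108402) (nat_lit 147) (nat_lit 5) (nat_lit 150) (nat_lit 5) (nat_lit 148) (nat_lit 5) (nat_lit 465) (nat_lit 380) (nat_lit 355)))) (XT.nd (nat_lit 156) (nat_lit 456) (nat_lit 0) (XT.nd (nat_lit 78) (nat_lit 152) (nat_lit 0) (XT.lf (nat_lit 0) (nat_lit 5517389209) (nat_lit 304) (nat_lit 4437267783) (nat_lit 76) (nat_lit 1543744921) (nat_lit 144) (nat_lit 5) (nat_lit 148) (nat_lit 5) (nat_lit 145) (nat_lit 4) (nat_lit 466) (nat_lit 380) (nat_lit 354)) (XT.lf (nat_lit 0) (nat_lit 4996302740) (nat_lit 152) (nat_lit 5362154627) (nat_lit 228) (nat_lit 1319054562) (nat_lit 142) (nat_lit 5) (nat_lit 144) (nat_lit 5) (nat_lit 145) (nat_lit 4) (nat_lit 467) (nat_lit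 380) (nat_lit 353))) (XT.nd (nat_lit 78) (nat_lit 152) (nat_lit 0) (XT.lf (nat_lit 0) (nat_lit 2828706932) (nat_lit 228) (nat_lit 580190265) (nat_lit 304) (nat_lit 8452272134) (nat_lit 138) (nat_lit 5) (nat_lit 141) (nat_lit 5) (nat_lit 142) (nat_lit 5) (nat_lit 468) (nat_lit 380) (nat_lit 352)) (XT.lf (nat_lit 0) (nat_lit 531234995) (nat_lit 152) (nat_lit 7758046172) (nat_lit 228) (nat_lit 3759551611) (nat_lit 136) (nat_lit 5) (nat_lit 138) (nat_lit 5) (nat_lit 139) (nat_lit 4) (nat_lit 469) (nat_lit 380) (nat_lit 351)))))) (XT.nd (nat_lit 624) (nat_lit 1064) (nat_lit 0) (XT.nd (nat_lit 312) (nat_lit 532) (nat_lit 0) (XT.nd (nat_lit 156) (nat_lit 380) (nat_lit 0) (XT.nd (nat_lit 78) (nat_lit 228) (nat_lit 0) (XT.lf (nat_lit 0) (nat_lit 1073155969) (nat_lit 228) (nat_lit 1825773761) (nat_lit 76) (nat_lit 9342283041) (nat_lit 135) (nat_lit 5) (nat_lit 138) (nat_lit 5) (nat_lit 136) (nat_lit 5) (nat_lit 470) (nat_lit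 380) (nat_lit 350)) (XT.lf (nat_lit 0) (nat_lit 5998993842) (nat_lit 304) (nat_lit 4312900296) (nat_lit 76) (nat_lit 2125643130) (nat_lit 132) (nat_lit 5) (nat_lit 136) (nat_lit 5) (nat_lit 133) (nat_lit 4) (nat_lit 471) (nat_lit 380) (nat_lit 349))) (XT.nd (nat_lit 78) (nat_lit 228) (nat_lit 0) (XT.lf (nat_lit 0) (nat_lit 5721722017) (nat_lit 152) (nat_lit 5378166403) (nat_lit 228) (nat_lit 1539045773) (nat_lit 130) (nat_lit 5) (nat_lit 132) (nat_lit 5) (nat_lit 133) (nat_lit 4) (nat_lit 472) (nat_lit 380) (nat_lit 348)) (XT.lf (nat_lit 0) (nat_lit 3195922570) (nat_lit 152) (nat_lit 242921405) (nat_lit 228) (nat_lit 9406523160) (nat_lit 127) (nat_lit 5) (nat_lit 129) (nat_lit 5) (nat_lit 130) (nat_lit 5) (nat_lit 473) (nat_lit 380) (nat_lit 347)))) (XT.nd (nat_lit 156) (nat_lit 304) (nat_lit 0) (XT.nd (nat_lit 78) (nat_lit 76) (nat_lit 0) (XT.lf (nat_lit 0) (nat_lit 510491796) (nat_lit 152) (nat_lit 8074107625)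 (nat_lit 228) (nat_lit 4471453673) (nat_lit 125) (nat_lit 5) (nat_lit 127) (nat_lit 5) (nat_lit 128) (nat_lit 4) (nat_lit 474) (nat_lit 380) (nat_lit 346)) (XT.lf (nat_lit 0) (nat_lit 626217362) (nat_lit 228) (nat_lit 2239909249) (nat_lit 76) (nat_lit 10405963054) (nat_lit 124) (nat_lit 5) (nat_lit 127) (nat_lit 5) (nat_lit 125) (nat_lit 5) (nat_lit 475) (nat_lit 380) (nat_lit 345))) (XT.nd (nat_lit 78) (nat_lit 152) (nat_lit 0) (XT.lf (nat_lit 0) (nat_lit 5819883039) (nat_lit 228) (nat_lit 5153535340) (nat_lit 76) (nat_lit 2518873664) (nat_lit 122) (nat_lit 5) (nat_lit 125) (nat_lit 5) (nat_lit 123) (nat_lit 4) (nat_lit 476) (nat_lit 380) (nat_lit 344)) (XT.lf (nat_lit 0) (nat_lit 5511235979) (nat_lit 152) (nat_lit 5690478628) (nat_lit 228) (nat_lit 2516416135) (nat_lit 120) (nat_lit 5) (nat_lit 122) (nat_lit 5) (nat_lit 123) (nat_lit 4) (nat_lit 477) (nat_lit 380) (nat_lit 343))))) (XT.nd (nat_lit 312) (nat_lit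 456) (nat_lit 0) (XT.nd (nat_lit 156) (nat_lit 380) (nat_lit 0) (XT.nd (nat_lit 78) (nat_lit 0) (nat_lit 0) (XT.lf (nat_lit 0) (nat_lit 2544550881) (nat_lit 152) (nat_lit 200505211) (nat_lit 228) (nat_lit 11204723813) (nat_lit 117) (nat_lit 5) (nat_lit 119) (nat_lit 5) (nat_lit 120) (nat_lit 5) (nat_lit 478) (nat_lit 380) (nat_lit 342)) (XT.lf (nat_lit 0) (nat_lit 8178519477) (nat_lit 228) (nat_lit 607712566) (nat_lit 76) (nat_lit 5399458163) (nat_lit 117) (nat_lit 5) (nat_lit 120) (nat_lit 5) (nat_lit 118) (nat_lit 4) (nat_lit 479) (nat_lit 380) (nat_lit 341))) (XT.nd (nat_lit 78) (nat_lit 228) (nat_lit 0) (XT.lf (nat_lit 0) (nat_lit 10591798136) (nat_lit 152) (nat_lit 3217669828) (nat_lit 228) (nat_lit 618176238) (nat_lit 115) (nat_lit 5) (nat_lit 117) (nat_lit 5) (nat_lit 118) (nat_lit 4) (nat_lit 480) (nat_lit 380) (nat_lit 340)) (XT.lf (nat_lit 0) (nat_lit 4869598802) (nat_lit 228) (nat_lit 7266170000) (nat_lit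 76) (nat_lit 2538665530) (nat_lit 112) (nat_lit 5) (nat_lit 115) (nat_lit 5) (nat_lit 113) (nat_lit 4) (nat_lit 481) (nat_lit 380) (nat_lit 339)))) (XT.nd (nat_lit 156) (nat_lit 76) (nat_lit 0) (XT.nd (nat_lit 78) (nat_lit 228) (nat_lit 0) (XT.lf (nat_lit 0) (nat_lit 4054594287) (nat_lit 152) (nat_lit 6496014382) (nat_lit 228) (nat_lit 4376605844) (nat_lit 110) (nat_lit 5) (nat_lit 112) (nat_lit 5) (nat_lit 113) (nat_lit 4) (nat_lit 482) (nat_lit 380) (nat_lit 338)) (XT.lf (nat_lit 0) (nat_lit 549729567) (nat_lit 152) (nat_lit 651625468) (nat_lit 228) (nat_lit 13985556058) (nat_lit 107) (nat_lit 5) (nat_lit 109) (nat_lit 5) (nat_lit 110) (nat_lit 5) (nat_lit 483) (nat_lit 380) (nat_lit 337))) (XT.nd (nat_lit 78) (nat_lit 76) (nat_lit 0) (XT.lf (nat_lit 0) (nat_lit 6952605162) (nat_lit 228) (nat_lit 3136886828) (nat_lit 76) (nat_lit 5360789811) (nat_lit 107) (nat_lit 5) (nat_lit 110) (nat_lit 5) (nat_lit 108) (nat_lit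 4) (nat_lit 484) (nat_lit 380) (nat_lit 336)) (XT.lf (nat_lit 0) (nat_lit 8749011312) (nat_lit 76) (nat_lit 4151366353) (nat_lit 152) (nat_lit 2820457088) (nat_lit 106) (nat_lit 5) (nat_lit 107) (nat_lit 5) (nat_lit 108) (nat_lit 4) (nat_lit 485) (nat_lit 380) (nat_lit 335))))))) (XT.nd (nat_lit 1170) (nat_lit 1292) (nat_lit 0) (XT.nd (nat_lit 546) (nat_lit 912) (nat_lit 0) (XT.nd (nat_lit 234) (nat_lit 532) (nat_lit 0) (XT.nd (nat_lit 78) (nat_lit 76) (nat_lit 0) (XT.lf (nat_lit 0) (nat_lit 3001038001) (nat_lit 228) (nat_lit 11016006770) (nat_lit 76) (nat_lit 1980596365) (nat_lit 103) (nat_lit 5) (nat_lit 106) (nat_lit 5) (nat_lit 104) (nat_lit 4) (nat_lit 486) (nat_lit 380) (nat_lit 334)) (XT.nd (nat_lit 78) (nat_lit 0) (nat_lit 0) (XT.lf (nat_lit 0) (nat_lit 981396947) (nat_lit 76) (nat_lit 8014480265) (nat_lit 152) (nat_lit 7284375721) (nat_lit 102) (nat_lit 5) (nat_lit 103) (nat_lit 5) (nat_lit 104) (nat_lit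 4) (nat_lit 487) (nat_lit 380) (nat_lit 333)) (XT.lf (nat_lit 0) (nat_lit 13441755370) (nat_lit 76) (nat_lit 1774548001) (nat_lit 152) (nat_lit 1353668055) (nat_lit 102) (nat_lit 5) (nat_lit 103) (nat_lit 5) (nat_lit 104) (nat_lit 4) (nat_lit 488) (nat_lit 380) (nat_lit 332)))) (XT.nd (nat_lit 156) (nat_lit 228) (nat_lit 0) (XT.nd (nat_lit 78) (nat_lit 76) (nat_lit 0) (XT.lf (nat_lit 0) (nat_lit 4734087321) (nat_lit 228) (nat_lit 7486482321) (nat_lit 76) (nat_lit 4644283778) (nat_lit 99) (nat_lit 5) (nat_lit 102) (nat_lit 5) (nat_lit 100) (nat_lit 4) (nat_lit 489) (nat_lit 380) (nat_lit 331)) (XT.lf (nat_lit 0) (nat_lit 5104289998) (nat_lit 76) (nat_lit 5907481364) (nat_lit 152) (nat_lit 6155373874) (nat_lit 98) (nat_lit 5) (nat_lit 99) (nat_lit 5) (nat_lit 100) (nat_lit 4) (nat_lit 490) (nat_lit 380) (nat_lit 330))) (XT.nd (nat_lit 78) (nat_lit 0) (nat_lit 0) (XT.lf (nat_lit 0) (nat_lit 23848899) (nat_lit 228)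 (nat_lit 16842924588) (nat_lit 76) (nat_lit 610996398) (nat_lit 95) (nat_lit 5) (nat_lit 98) (nat_lit 5) (nat_lit 96) (nat_lit 4) (nat_lit 491) (nat_lit 380) (nat_lit 329)) (XT.lf (nat_lit 0) (nat_lit 6382465348) (nat_lit 228) (nat_lit 4074882412) (nat_lit 76) (nat_lit 7335005666) (nat_lit 95) (nat_lit 5) (nat_lit 98) (nat_lit 5) (nat_lit 96) (nat_lit 4) (nat_lit 492) (nat_lit 380) (nat_lit 328))))) (XT.nd (nat_lit 312) (nat_lit 532) (nat_lit 0) (XT.nd (nat_lit 156) (nat_lit 76) (nat_lit 0) (XT.nd (nat_lit 78) (nat_lit 228) (nat_lit 0) (XT.lf (nat_lit 0) (nat_lit 9137084110) (nat_lit 76) (nat_lit 3820671654) (nat_lit 152) (nat_lit 5157841727) (nat_lit 94) (nat_lit 5) (nat_lit 95) (nat_lit 5) (nat_lit 96) (nat_lit 4) (nat_lit 493) (nat_lit 380) (nat_lit 327)) (XT.lf (nat_lit 0) (nat_lit 1307547840) (nat_lit 228) (nat_lit 14140896960) (nat_lit 76) (nat_lit 2998201090) (nat_lit 91) (nat_lit 5) (nat_lit 94) (nat_lit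 5) (nat_lit 92) (nat_lit 4) (nat_lit 494) (nat_lit 380) (nat_lit 326))) (XT.nd (nat_lit 78) (nat_lit 76) (nat_lit 0) (XT.lf (nat_lit 0) (nat_lit 7930938595) (nat_lit 228) (nat_lit 819756791) (nat_lit 76) (nat_lit 10033367555) (nat_lit 91) (nat_lit 5) (nat_lit 94) (nat_lit 5) (nat_lit 92) (nat_lit 4) (nat_lit 495) (nat_lit 380) (nat_lit 325)) (XT.lf (nat_lit 0) (nat_lit 13041279535) (nat_lit 76) (nat_lit 1777224453) (nat_lit 152) (nat_lit 4311134757) (nat_lit 90) (nat_lit 5) (nat_lit 91) (nat_lit 5) (nat_lit 92) (nat_lit 4) (nat_lit 496) (nat_lit 380) (nat_lit 324)))) (XT.nd (nat_lit 156) (nat_lit 228) (nat_lit 0) (XT.nd (nat_lit 78) (nat_lit 76) (nat_lit 0) (XT.lf (nat_lit 0) (nat_lit 2456401298) (nat_lit 228) (nat_lit 11671261506) (nat_lit 76) (nat_lit 5354920042) (nat_lit 87) (nat_lit 5) (nat_lit 90) (nat_lit 5) (nat_lit 88) (nat_lit 4) (nat_lit 497) (nat_lit 380) (nat_lit 323)) (XT.lf (nat_lit 0) (nat_lit 2277655511)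 (nat_lit 76) (nat_lit 7104555746) (nat_lit 152) (nat_lit 10461366948) (nat_lit 86) (nat_lit 5) (nat_lit 87) (nat_lit 5) (nat_lit 88) (nat_lit 4) (nat_lit 498) (nat_lit 380) (nat_lit 322))) (XT.nd (nat_lit 78) (nat_lit 228) (nat_lit 0) (XT.lf (nat_lit 0) (nat_lit 16576506772) (nat_lit 152) (nat_lit 3444542484) (nat_lit 0) (nat_lit 192533215) (nat_lit 86) (nat_lit 5) (nat_lit 88) (nat_lit 4) (nat_lit 86) (nat_lit 4) (nat_lit 499) (nat_lit 380) (nat_lit 321)) (XT.lf (nat_lit 0) (nat_lit 3446508820) (nat_lit 228) (nat_lit 9488662941) (nat_lit 76) (nat_lit 7654914693) (nat_lit 83) (nat_lit 5) (nat_lit 86) (nat_lit 5) (nat_lit 84) (nat_lit 4) (nat_lit 500) (nat_lit 380) (nat_lit 320)))))) (XT.nd (nat_lit 624) (nat_lit 608) (nat_lit 0) (XT.nd (nat_lit 312) (nat_lit 304) (nat_lit 0) (XT.nd (nat_lit 156) (nat_lit 304) (nat_lit 0) (XT.nd (nat_lit 78) (nat_lit 0) (nat_lit 0) (XT.lf (nat_lit 0) (nat_lit 5130008139) (nat_lit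 76) (nat_lit 5566169963) (nat_lit 152) (nat_lit 10279827117) (nat_lit 82) (nat_lit 5) (nat_lit 83) (nat_lit 5) (nat_lit 84) (nat_lit 4) (nat_lit 501) (nat_lit 380) (nat_lit 319)) (XT.lf (nat_lit 0) (nat_lit 18221909829) (nat_lit 152) (nat_lit 1120674587) (nat_lit 0) (nat_lit 2029160300) (nat_lit 82) (nat_lit 5) (nat_lit 84) (nat_lit 4) (nat_lit 82) (nat_lit 4) (nat_lit 502) (nat_lit 380) (nat_lit 318))) (XT.nd (nat_lit 78) (nat_lit 76) (nat_lit 0) (XT.lf (nat_lit 0) (nat_lit 4248805529) (nat_lit 228) (nat_lit 7657502378) (nat_lit 76) (nat_lit 9867741648) (nat_lit 79) (nat_lit 5) (nat_lit 82) (nat_lit 5) (nat_lit 80) (nat_lit 4) (nat_lit 503) (nat_lit 380) (nat_lit 317)) (XT.lf (nat_lit 0) (nat_lit 7655665355) (nat_lit 76) (nat_lit 4179533995) (nat_lit 152) (nat_lit 10351415823) (nat_lit 78) (nat_lit 5) (nat_lit 79) (nat_lit 5) (nat_lit 80) (nat_lit 4) (nat_lit 504) (nat_lit 380) (nat_lit 316)))) (XT.nd (nat_lit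 156) (nat_lit 152) (nat_lit 0) (XT.nd (nat_lit 78) (nat_lit 76) (nat_lit 0) (XT.lf (nat_lit 0) (nat_lit 847098358) (nat_lit 76) (nat_lit 18868831064) (nat_lit 76) (nat_lit 2893626304) (nat_lit 77) (nat_lit 4) (nat_lit 78) (nat_lit 5) (nat_lit 78) (nat_lit 4) (nat_lit 505) (nat_lit 380) (nat_lit 315)) (XT.lf (nat_lit 0) (nat_lit 4828267832) (nat_lit 152) (nat_lit 6253632141) (nat_lit 76) (nat_lit 11957890081) (nat_lit 76) (nat_lit 5) (nat_lit 78) (nat_lit 5) (nat_lit 77) (nat_lit 4) (nat_lit 506) (nat_lit 380) (nat_lit 314))) (XT.nd (nat_lit 78) (nat_lit 76) (nat_lit 0) (XT.lf (nat_lit 0) (nat_lit 9777406970) (nat_lit 76) (nat_lit 2986095146) (nat_lit 152) (nat_lit 10717374806) (nat_lit 75) (nat_lit 5) (nat_lit 76) (nat_lit 5) (nat_lit 77) (nat_lit 4) (nat_lit 507) (nat_lit 380) (nat_lit 313)) (XT.lf (nat_lit 0) (nat_lit 2373217940) (nat_lit 76) (nat_lit 18647560619) (nat_lit 76) (nat_lit 2911898554) (nat_lit 74)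 (nat_lit 4) (nat_lit 75) (nat_lit 5) (nat_lit 75) (nat_lit 4) (nat_lit 508) (nat_lit 380) (nat_lit 312))))) (XT.nd (nat_lit 312) (nat_lit 304) (nat_lit 0) (XT.nd (nat_lit 156) (nat_lit 152) (nat_lit 0) (XT.nd (nat_lit 78) (nat_lit 76) (nat_lit 0) (XT.lf (nat_lit 0) (nat_lit 5142982658) (nat_lit 152) (nat_lit 5366318380) (nat_lit 76) (nat_lit 13883792751) (nat_lit 73) (nat_lit 5) (nat_lit 75) (nat_lit 5) (nat_lit 74) (nat_lit 4) (nat_lit 509) (nat_lit 380) (nat_lit 311)) (XT.lf (nat_lit 0) (nat_lit 11404061818) (nat_lit 76) (nat_lit 2034106031) (nat_lit 152) (nat_lit 11426574926) (nat_lit 72) (nat_lit 5) (nat_lit 73) (nat_lit 5) (nat_lit 74) (nat_lit 4) (nat_lit 510) (nat_lit 380) (nat_lit 310))) (XT.nd (nat_lit 78) (nat_lit 76) (nat_lit 0) (XT.lf (nat_lit 0) (nat_lit 3336515153) (nat_lit 76) (nat_lit 18744492072) (nat_lit 76) (nat_lit 3266570285) (nat_lit 71) (nat_lit 4) (nat_lit 72) (nat_lit 5) (nat_lit 72) (nat_lit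 4) (nat_lit 511) (nat_lit 380) (nat_lit 309)) (XT.lf (nat_lit 0) (nat_lit 5143059181) (nat_lit 152) (nat_lit 5100515253) (nat_lit 76) (nat_lit 15596688617) (nat_lit 70) (nat_lit 5) (nat_lit 72) (nat_lit 5) (nat_lit 71) (nat_lit 4) (nat_lit 512) (nat_lit 380) (nat_lit 308)))) (XT.nd (nat_lit 156) (nat_lit 152) (nat_lit 0) (XT.nd (nat_lit 78) (nat_lit 76) (nat_lit 0) (XT.lf (nat_lit 0) (nat_lit 12428129034) (nat_lit 76) (nat_lit 1379862578) (nat_lit 152) (nat_lit 12536707428) (nat_lit 69) (nat_lit 5) (nat_lit 70) (nat_lit 5) (nat_lit 71) (nat_lit 4) (nat_lit 513) (nat_lit 380) (nat_lit 307)) (XT.lf (nat_lit 0) (nat_lit 3620646421) (nat_lit 76) (nat_lit 19222812764) (nat_lit 76) (nat_lit 4017491521) (nat_lit 68) (nat_lit 4) (nat_lit 69) (nat_lit 5) (nat_lit 69) (nat_lit 4) (nat_lit 514) (nat_lit 380) (nat_lit 306))) (XT.nd (nat_lit 78) (nat_lit 76) (nat_lit 0) (XT.lf (nat_lit 0) (nat_lit 4769358504) (nat_lit 152) (nat_lit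 5579501365) (nat_lit 76) (nat_lit 17039311656) (nat_lit 67) (nat_lit 5) (nat_lit 69) (nat_lit 5) (nat_lit 68) (nat_lit 4) (nat_lit 515) (nat_lit 380) (nat_lit 305)) (XT.lf (nat_lit 0) (nat_lit 12723019214) (nat_lit 76) (nat_lit 1089131429) (nat_lit 152) (nat_lit 14115672680) (nat_lit 66) (nat_lit 5) (nat_lit 67) (nat_lit 5) (nat_lit 68) (nat_lit 4) (nat_lit 516) (nat_lit 380) (nat_lit 304))))))))
noncomputable def xc53 : XT := (XT.nd (nat_lit 2418) (nat_lit 380) (nat_lit 0) (XT.nd (nat_lit 1170) (nat_lit 1064) (nat_lit 0) (XT.nd (nat_lit 546) (nat_lit 608) (nat_lit 0) (XT.nd (nat_lit 234) (nat_lit 228) (nat_lit 0) (XT.nd (nat_lit 78) (nat_lit 152) (nat_lit 0) (XT.lf (nat_lit 0) (nat_lit 3088856998) (nat_lit 76) (nat_lit 20156017953) (nat_lit 76) (nat_lit 5235230459) (nat_lit 65) (nat_lit 4) (nat_lit 66) (nat_lit 5) (nat_lit 66) (nat_lit 4) (nat_lit 517) (nat_lit 380) (nat_lit 303)) (XT.nd (nat_lit 78) (nat_lit 76)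 (nat_lit 0) (XT.lf (nat_lit 0) (nat_lit 3952012792) (nat_lit 152) (nat_lit 6947937153) (nat_lit 76) (nat_lit 18144376634) (nat_lit 64) (nat_lit 5) (nat_lit 66) (nat_lit 5) (nat_lit 65) (nat_lit 4) (nat_lit 518) (nat_lit 380) (nat_lit 302)) (XT.lf (nat_lit 0) (nat_lit 12139853816) (nat_lit 76) (nat_lit 1238798378) (nat_lit 152) (nat_lit 16243197288) (nat_lit 63) (nat_lit 5) (nat_lit 64) (nat_lit 5) (nat_lit 65) (nat_lit 4) (nat_lit 519) (nat_lit 380) (nat_lit 301)))) (XT.nd (nat_lit 156) (nat_lit 76) (nat_lit 0) (XT.nd (nat_lit 78) (nat_lit 76) (nat_lit 0) (XT.lf (nat_lit 0) (nat_lit 1580578587) (nat_lit 76) (nat_lit 21629669570) (nat_lit 76) (nat_lit 7002785359) (nat_lit 62) (nat_lit 4) (nat_lit 63) (nat_lit 5) (nat_lit 63) (nat_lit 4) (nat_lit 520) (nat_lit 380) (nat_lit 300)) (XT.lf (nat_lit 0) (nat_lit 2608700726) (nat_lit 152) (nat_lit 9375411197) (nat_lit 76) (nat_lit 18832828022) (nat_lit 61) (nat_lit 5) (nat_lit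 63) (nat_lit 5) (nat_lit 62) (nat_lit 4) (nat_lit 521) (nat_lit 380) (nat_lit 299))) (XT.nd (nat_lit 78) (nat_lit 0) (nat_lit 0) (XT.lf (nat_lit 0) (nat_lit 10503751461) (nat_lit 76) (nat_lit 1918774411) (nat_lit 152) (nat_lit 19012715504) (nat_lit 60) (nat_lit 5) (nat_lit 61) (nat_lit 5) (nat_lit 62) (nat_lit 4) (nat_lit 522) (nat_lit 380) (nat_lit 298)) (XT.lf (nat_lit 0) (nat_lit 22661413321) (nat_lit 152) (nat_lit 1071199198) (nat_lit 0) (nat_lit 8335560054) (nat_lit 60) (nat_lit 5) (nat_lit 62) (nat_lit 4) (nat_lit 60) (nat_lit 4) (nat_lit 523) (nat_lit 380) (nat_lit 297))))) (XT.nd (nat_lit 312) (nat_lit 304) (nat_lit 0) (XT.nd (nat_lit 156) (nat_lit 76) (nat_lit 0) (XT.nd (nat_lit 78) (nat_lit 76) (nat_lit 0) (XT.lf (nat_lit 0) (nat_lit 642640779) (nat_lit 152) (nat_lit 13060554248) (nat_lit 76) (nat_lit 19011813003) (nat_lit 58) (nat_lit 5) (nat_lit 60) (nat_lit 5) (nat_lit 59) (nat_lit 4) (nat_lit 524)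 (nat_lit 380) (nat_lit 296)) (XT.lf (nat_lit 0) (nat_lit 7609518411) (nat_lit 76) (nat_lit 3234201617) (nat_lit 152) (nat_lit 22533556658) (nat_lit 57) (nat_lit 5) (nat_lit 58) (nat_lit 5) (nat_lit 59) (nat_lit 4) (nat_lit 525) (nat_lit 380) (nat_lit 295))) (XT.nd (nat_lit 78) (nat_lit 76) (nat_lit 0) (XT.lf (nat_lit 0) (nat_lit 21511824008) (nat_lit 152) (nat_lit 5050587422) (nat_lit 0) (nat_lit 7492172333) (nat_lit 57) (nat_lit 5) (nat_lit 59) (nat_lit 4) (nat_lit 57) (nat_lit 4) (nat_lit 526) (nat_lit 380) (nat_lit 294)) (XT.lf (nat_lit 0) (nat_lit 16491791666) (nat_lit 76) (nat_lit 16155270513) (nat_lit 76) (nat_lit 2100735270) (nat_lit 56) (nat_lit 4) (nat_lit 57) (nat_lit 5) (nat_lit 57) (nat_lit 4) (nat_lit 527) (nat_lit 380) (nat_lit 293)))) (XT.nd (nat_lit 156) (nat_lit 152) (nat_lit 0) (XT.nd (nat_lit 78) (nat_lit 0) (nat_lit 0) (XT.lf (nat_lit 0) (nat_lit 3216647398) (nat_lit 76) (nat_lit 5308007864)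 (nat_lit 152) (nat_lit 26933487016) (nat_lit 54) (nat_lit 5) (nat_lit 55) (nat_lit 5) (nat_lit 56) (nat_lit 4) (nat_lit 528) (nat_lit 380) (nat_lit 292)) (XT.lf (nat_lit 0) (nat_lit 19625734200) (nat_lit 152) (nat_lit 10641715070) (nat_lit 0) (nat_lit 5915749837) (nat_lit 54) (nat_lit 5) (nat_lit 56) (nat_lit 4) (nat_lit 54) (nat_lit 4) (nat_lit 529) (nat_lit 380) (nat_lit 291))) (XT.nd (nat_lit 78) (nat_lit 76) (nat_lit 0) (XT.lf (nat_lit 0) (nat_lit 11698126590) (nat_lit 76) (nat_lit 19484586548) (nat_lit 76) (nat_lit 5743608586) (nat_lit 53) (nat_lit 4) (nat_lit 54) (nat_lit 5) (nat_lit 54) (nat_lit 4) (nat_lit 530) (nat_lit 380) (nat_lit 290)) (XT.lf (nat_lit 0) (nat_lit 5355800115) (nat_lit 152) (nat_lit 2898794598) (nat_lit 76) (nat_lit 29433595530) (nat_lit 52) (nat_lit 5) (nat_lit 54) (nat_lit 5) (nat_lit 53) (nat_lit 4) (nat_lit 531) (nat_lit 380) (nat_lit 289)))))) (XT.nd (nat_lit 624) (nat_lit 532) (nat_lit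 0) (XT.nd (nat_lit 312) (nat_lit 228) (nat_lit 0) (XT.nd (nat_lit 156) (nat_lit 152) (nat_lit 0) (XT.nd (nat_lit 78) (nat_lit 76) (nat_lit 0) (XT.lf (nat_lit 0) (nat_lit 16861521093) (nat_lit 152) (nat_lit 18140836865) (nat_lit 0) (nat_lit 3463187817) (nat_lit 51) (nat_lit 5) (nat_lit 53) (nat_lit 4) (nat_lit 51) (nat_lit 4) (nat_lit 532) (nat_lit 380) (nat_lit 288)) (XT.lf (nat_lit 0) (nat_lit 4972749201) (nat_lit 76) (nat_lit 23857898272) (nat_lit 76) (nat_lit 10432027586) (nat_lit 50) (nat_lit 4) (nat_lit 51) (nat_lit 5) (nat_lit 51) (nat_lit 4) (nat_lit 533) (nat_lit 380) (nat_lit 287))) (XT.nd (nat_lit 78) (nat_lit 76) (nat_lit 0) (XT.lf (nat_lit 0) (nat_lit 1198308454) (nat_lit 152) (nat_lit 11020039873) (nat_lit 76) (nat_lit 27860735185) (nat_lit 49) (nat_lit 5) (nat_lit 51) (nat_lit 5) (nat_lit 50) (nat_lit 4) (nat_lit 534) (nat_lit 380) (nat_lit 286)) (XT.lf (nat_lit 0) (nat_lit 13019805043) (nat_lit 76)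 (nat_lit 33578075) (nat_lit 152) (nat_lit 27860937513) (nat_lit 48) (nat_lit 5) (nat_lit 49) (nat_lit 5) (nat_lit 50) (nat_lit 4) (nat_lit 535) (nat_lit 380) (nat_lit 285)))) (XT.nd (nat_lit 156) (nat_lit 152) (nat_lit 0) (XT.nd (nat_lit 78) (nat_lit 76) (nat_lit 0) (XT.lf (nat_lit 0) (nat_lit 25457188708) (nat_lit 152) (nat_lit 3964895001) (nat_lit 0) (nat_lit 12346738883) (nat_lit 48) (nat_lit 5) (nat_lit 50) (nat_lit 4) (nat_lit 48) (nat_lit 4) (nat_lit 536) (nat_lit 380) (nat_lit 284)) (XT.lf (nat_lit 0) (nat_lit 21015730088) (nat_lit 76) (nat_lit 17381258522) (nat_lit 76) (nat_lit 4247054685) (nat_lit 47) (nat_lit 4) (nat_lit 48) (nat_lit 5) (nat_lit 48) (nat_lit 4) (nat_lit 537) (nat_lit 380) (nat_lit 283))) (XT.nd (nat_lit 78) (nat_lit 0) (nat_lit 0) (XT.lf (nat_lit 0) (nat_lit 3189284692) (nat_lit 76) (nat_lit 4863203326) (nat_lit 152) (nat_lit 35489694796) (nat_lit 45) (nat_lit 5) (nat_lit 46) (nat_lit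 5) (nat_lit 47) (nat_lit 4) (nat_lit 538) (nat_lit 380) (nat_lit 282)) (XT.lf (nat_lit 0) (nat_lit 20894986496) (nat_lit 152) (nat_lit 15464035105) (nat_lit 0) (nat_lit 8099203563) (nat_lit 45) (nat_lit 5) (nat_lit 47) (nat_lit 4) (nat_lit 45) (nat_lit 4) (nat_lit 539) (nat_lit 380) (nat_lit 281))))) (XT.nd (nat_lit 312) (nat_lit 304) (nat_lit 0) (XT.nd (nat_lit 156) (nat_lit 76) (nat_lit 0) (XT.nd (nat_lit 78) (nat_lit 76) (nat_lit 0) (XT.lf (nat_lit 0) (nat_lit 10248884543) (nat_lit 76) (nat_lit 23983235786) (nat_lit 76) (nat_lit 11166347721) (nat_lit 44) (nat_lit 4) (nat_lit 45) (nat_lit 5) (nat_lit 45) (nat_lit 4) (nat_lit 540) (nat_lit 380) (nat_lit 280)) (XT.lf (nat_lit 0) (nat_lit 1691586526) (nat_lit 152) (nat_lit 9403457835) (nat_lit 76) (nat_lit 35267799639) (nat_lit 43) (nat_lit 5) (nat_lit 45) (nat_lit 5) (nat_lit 44) (nat_lit 4) (nat_lit 541) (nat_lit 380) (nat_lit 279))) (XT.nd (nat_lit 78) (nat_lit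 0) (nat_lit 0) (XT.lf (nat_lit 0) (nat_lit 14863962975) (nat_lit 152) (nat_lit 30103102954) (nat_lit 0) (nat_lit 2381174532) (nat_lit 42) (nat_lit 5) (nat_lit 44) (nat_lit 4) (nat_lit 42) (nat_lit 4) (nat_lit 542) (nat_lit 380) (nat_lit 278)) (XT.lf (nat_lit 0) (nat_lit 28601072153) (nat_lit 152) (nat_lit 3657507816) (nat_lit 0) (nat_lit 16099532073) (nat_lit 42) (nat_lit 5) (nat_lit 44) (nat_lit 4) (nat_lit 42) (nat_lit 4) (nat_lit 543) (nat_lit 380) (nat_lit 277)))) (XT.nd (nat_lit 156) (nat_lit 76) (nat_lit 0) (XT.nd (nat_lit 78) (nat_lit 152) (nat_lit 0) (XT.lf (nat_lit 0) (nat_lit 23979163387) (nat_lit 76) (nat_lit 18966500462) (nat_lit 76) (nat_lit 6446754909) (nat_lit 41) (nat_lit 4) (nat_lit 42) (nat_lit 5) (nat_lit 42) (nat_lit 4) (nat_lit 544) (nat_lit 380) (nat_lit 276)) (XT.lf (nat_lit 0) (nat_lit 1961129192) (nat_lit 76) (nat_lit 5181013645) (nat_lit 152) (nat_lit 43312886606) (nat_lit 39) (nat_lit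 5) (nat_lit 40) (nat_lit 5) (nat_lit 41) (nat_lit 4) (nat_lit 545) (nat_lit 380) (nat_lit 275))) (XT.nd (nat_lit 78) (nat_lit 76) (nat_lit 0) (XT.lf (nat_lit 0) (nat_lit 21319883747) (nat_lit 152) (nat_lit 21087427409) (nat_lit 0) (nat_lit 9130969987) (nat_lit 39) (nat_lit 5) (nat_lit 41) (nat_lit 4) (nat_lit 39) (nat_lit 4) (nat_lit 546) (nat_lit 380) (nat_lit 274)) (XT.lf (nat_lit 0) (nat_lit 7161492054) (nat_lit 76) (nat_lit 28847522873) (nat_lit 76) (nat_lit 16642433786) (nat_lit 38) (nat_lit 4) (nat_lit 39) (nat_lit 5) (nat_lit 39) (nat_lit 4) (nat_lit 547) (nat_lit 380) (nat_lit 273))))))) (XT.nd (nat_lit 54600) (nat_lit 0) (nat_lit 9196) (XT.nd (nat_lit 53976) (nat_lit 0) (nat_lit 13604) (XT.nd (nat_lit 312) (nat_lit 152) (nat_lit 0) (XT.nd (nat_lit 156) (nat_lit 76) (nat_lit 0) (XT.nd (nat_lit 78) (nat_lit 152) (nat_lit 0) (XT.lf (nat_lit 0) (nat_lit 36622622384) (nat_lit 76) (nat_lit 14695403055) (nat_lit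 76) (nat_lit 2474609767) (nat_lit 38) (nat_lit 4) (nat_lit 39) (nat_lit 5) (nat_lit 39) (nat_lit 4) (nat_lit 548) (nat_lit 380) (nat_lit 272)) (XT.lf (nat_lit 0) (nat_lit 11965392068) (nat_lit 152) (nat_lit 42910920725) (nat_lit 0) (nat_lit 85741500) (nat_lit 36) (nat_lit 5) (nat_lit 38) (nat_lit 4) (nat_lit 36) (nat_lit 4) (nat_lit 549) (nat_lit 380) (nat_lit 271))) (XT.nd (nat_lit 78) (nat_lit 76) (nat_lit 0) (XT.lf (nat_lit 0) (nat_lit 27076395503) (nat_lit 152) (nat_lit 13898425941) (nat_lit 0) (nat_lit 15182373367) (nat_lit 36) (nat_lit 5) (nat_lit 38) (nat_lit 4) (nat_lit 36) (nat_lit 4) (nat_lit 550) (nat_lit 380) (nat_lit 270)) (XT.lf (nat_lit 0) (nat_lit 16236977367) (nat_lit 76) (nat_lit 26527733937) (nat_lit 76) (nat_lit 14619758823) (nat_lit 35) (nat_lit 4) (nat_lit 36) (nat_lit 5) (nat_lit 36) (nat_lit 4) (nat_lit 551) (nat_lit 380) (nat_lit 269)))) (XT.nd (nat_lit 156) (nat_lit 0) (nat_lit 0) (XT.nd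 (nat_lit 78) (nat_lit 76) (nat_lit 0) (XT.lf (nat_lit 0) (nat_lit 379391480) (nat_lit 152) (nat_lit 11151356991) (nat_lit 76) (nat_lit 47114446532) (nat_lit 34) (nat_lit 5) (nat_lit 36) (nat_lit 5) (nat_lit 35) (nat_lit 4) (nat_lit 552) (nat_lit 380) (nat_lit 268)) (XT.lf (nat_lit 0) (nat_lit 15735735975) (nat_lit 152) (nat_lit 40048957209) (nat_lit 0) (nat_lit 4148674114) (nat_lit 33) (nat_lit 5) (nat_lit 35) (nat_lit 4) (nat_lit 33) (nat_lit 4) (nat_lit 553) (nat_lit 380) (nat_lit 267))) (XT.nd (nat_lit 53430) (nat_lit 0) (nat_lit 16264) (XT.lf (nat_lit 0) (nat_lit 31749518831) (nat_lit 152) (nat_lit 9354703607) (nat_lit 0) (nat_lit 20150059929) (nat_lit 33) (nat_lit 5) (nat_lit 35) (nat_lit 4) (nat_lit 33) (nat_lit 4) (nat_lit 554) (nat_lit 380) (nat_lit 266)) (XT.lf (nat_lit 0) (nat_lit 179935395) (nat_lit 532) (nat_lit 3629710314) (nat_lit 0) (nat_lit 179935395) (nat_lit 247) (nat_lit 5) (nat_lit 254) (nat_lit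 4) (nat_lit 247) (nat_lit 4) (nat_lit 438) (nat_lit 381) (nat_lit 381))))) (XT.nd (nat_lit 312) (nat_lit 1292) (nat_lit 0) (XT.nd (nat_lit 156) (nat_lit 836) (nat_lit 0) (XT.nd (nat_lit 78) (nat_lit 532) (nat_lit 0) (XT.lf (nat_lit 0) (nat_lit 4340728414) (nat_lit 532) (nat_lit 591183463) (nat_lit 0) (nat_lit 3129885324) (nat_lit 247) (nat_lit 5) (nat_lit 254) (nat_lit 4) (nat_lit 247) (nat_lit 4) (nat_lit 439) (nat_lit 381) (nat_lit 380)) (XT.lf (nat_lit 0) (nat_lit 247382541) (nat_lit 532) (nat_lit 1884232345) (nat_lit 76) (nat_lit 6016445096) (nat_lit 240) (nat_lit 5) (nat_lit 247) (nat_lit 5) (nat_lit 241) (nat_lit 4) (nat_lit 440) (nat_lit 381) (nat_lit 379))) (XT.nd (nat_lit 78) (nat_lit 456) (nat_lit 0) (XT.lf (nat_lit 0) (nat_lit 4222142575) (nat_lit 456) (nat_lit 3217667454) (nat_lit 0) (nat_lit 797138062) (nat_lit 235) (nat_lit 5) (nat_lit 241) (nat_lit 4) (nat_lit 235) (nat_lit 4) (nat_lit 441) (nat_lit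 381) (nat_lit 378)) (XT.lf (nat_lit 0) (nat_lit 3757555087) (nat_lit 456) (nat_lit 4536222820) (nat_lit 456) (nat_lit 35399904) (nat_lit 229) (nat_lit 4) (nat_lit 235) (nat_lit 5) (nat_lit 235) (nat_lit 4) (nat_lit 442) (nat_lit 381) (nat_lit 377)))) (XT.nd (nat_lit 156) (nat_lit 456) (nat_lit 0) (XT.nd (nat_lit 78) (nat_lit 380) (nat_lit 0) (XT.lf (nat_lit 0) (nat_lit 2457669890) (nat_lit 380) (nat_lit 1484683159) (nat_lit 456) (nat_lit 4481905603) (nat_lit 223) (nat_lit 5) (nat_lit 228) (nat_lit 5) (nat_lit 229) (nat_lit 4) (nat_lit 443) (nat_lit 381) (nat_lit 376)) (XT.lf (nat_lit 0) (nat_lit 1139322215) (nat_lit 380) (nat_lit 6875942951) (nat_lit 380) (nat_lit 507623702) (nat_lit 218) (nat_lit 4) (nat_lit 223) (nat_lit 5) (nat_lit 223) (nat_lit 4) (nat_lit 444) (nat_lit 381) (nat_lit 375))) (XT.nd (nat_lit 78) (nat_lit 380) (nat_lit 0) (XT.lf (nat_lit 0) (nat_lit 3495056328) (nat_lit 456) (nat_lit 229205619)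 (nat_lit 76) (nat_lit 4899811057) (nat_lit 217) (nat_lit 5) (nat_lit 223) (nat_lit 5) (nat_lit 218) (nat_lit 4) (nat_lit 445) (nat_lit 381) (nat_lit 374)) (XT.lf (nat_lit 0) (nat_lit 7140615135) (nat_lit 380) (nat_lit 442042749) (nat_lit 456) (nat_lit 1146235985) (nat_lit 212) (nat_lit 5) (nat_lit 217) (nat_lit 5) (nat_lit 218) (nat_lit 4) (nat_lit 446) (nat_lit 381) (nat_lit 373)))))) (XT.nd (nat_lit 624) (nat_lit 1900) (nat_lit 0) (XT.nd (nat_lit 312) (nat_lit 1064) (nat_lit 0) (XT.nd (nat_lit 156) (nat_lit 684) (nat_lit 0) (XT.nd (nat_lit 78) (nat_lit 304) (nat_lit 0) (XT.lf (nat_lit 0) (nat_lit 2892587158) (nat_lit 456) (nat_lit 3014612480) (nat_lit 76) (nat_lit 2928983127) (nat_lit 206) (nat_lit 5) (nat_lit 212) (nat_lit 5) (nat_lit 207) (nat_lit 4) (nat_lit 447) (nat_lit 381) (nat_lit 372)) (XT.lf (nat_lit 0) (nat_lit 4476457951) (nat_lit 304) (nat_lit 2524666849) (nat_lit 380) (nat_lit 1946080444) (nat_lit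 202) (nat_lit 5) (nat_lit 206) (nat_lit 5) (nat_lit 207) (nat_lit 4) (nat_lit 448) (nat_lit 381) (nat_lit 371))) (XT.nd (nat_lit 78) (nat_lit 304) (nat_lit 0) (XT.lf (nat_lit 0) (nat_lit 2107585447) (nat_lit 380) (nat_lit 5974369133) (nat_lit 76) (nat_lit 979622603) (nat_lit 197) (nat_lit 5) (nat_lit 202) (nat_lit 5) (nat_lit 198) (nat_lit 4) (nat_lit 449) (nat_lit 381) (nat_lit 370)) (XT.lf (nat_lit 0) (nat_lit 1636211147) (nat_lit 304) (nat_lit 4603282863) (nat_lit 380) (nat_lit 2939438580) (nat_lit 193) (nat_lit 5) (nat_lit 197) (nat_lit 5) (nat_lit 198) (nat_lit 4) (nat_lit 450) (nat_lit 381) (nat_lit 369)))) (XT.nd (nat_lit 156) (nat_lit 684) (nat_lit 0) (XT.nd (nat_lit 78) (nat_lit 0) (nat_lit 0) (XT.lf (nat_lit 0) (nat_lit 153499267) (nat_lit 304) (nat_lit 991006250) (nat_lit 380) (nat_lit 8155792464) (nat_lit 188) (nat_lit 5) (nat_lit 192) (nat_lit 5) (nat_lit 193) (nat_lit 5) (nat_lit 451) (nat_lit 381)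 (nat_lit 368)) (XT.lf (nat_lit 0) (nat_lit 5305800142) (nat_lit 380) (nat_lit 1381749070) (nat_lit 76) (nat_lit 2736467192) (nat_lit 188) (nat_lit 5) (nat_lit 193) (nat_lit 5) (nat_lit 189) (nat_lit 4) (nat_lit 452) (nat_lit 381) (nat_lit 367))) (XT.nd (nat_lit 78) (nat_lit 304) (nat_lit 0) (XT.lf (nat_lit 0) (nat_lit 26182749) (nat_lit 380) (nat_lit 2950692427) (nat_lit 76) (nat_lit 6574967345) (nat_lit 183) (nat_lit 5) (nat_lit 188) (nat_lit 5) (nat_lit 184) (nat_lit 5) (nat_lit 453) (nat_lit 381) (nat_lit 366)) (XT.lf (nat_lit 0) (nat_lit 4197633653) (nat_lit 380) (nat_lit 4598672337) (nat_lit 76) (nat_lit 886411755) (nat_lit 179) (nat_lit 5) (nat_lit 184) (nat_lit 5) (nat_lit 180) (nat_lit 4) (nat_lit 454) (nat_lit 381) (nat_lit 365))))) (XT.nd (nat_lit 312) (nat_lit 988) (nat_lit 0) (XT.nd (nat_lit 156) (nat_lit 304) (nat_lit 0) (XT.nd (nat_lit 78) (nat_lit 380) (nat_lit 0) (XT.lf (nat_lit 0) (nat_lit 3507332605)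 (nat_lit 228) (nat_lit 4994702462) (nat_lit 304) (nat_lit 1315252199) (nat_lit 176) (nat_lit 5) (nat_lit 179) (nat_lit 5) (nat_lit 180) (nat_lit 4) (nat_lit 455) (nat_lit 381) (nat_lit 364)) (XT.lf (nat_lit 0) (nat_lit 1868241612) (nat_lit 304) (nat_lit 1033039809) (nat_lit 380) (nat_lit 7054362769) (nat_lit 171) (nat_lit 5) (nat_lit 175) (nat_lit 5) (nat_lit 176) (nat_lit 5) (nat_lit 456) (nat_lit 381) (nat_lit 363))) (XT.nd (nat_lit 78) (nat_lit 76) (nat_lit 0) (XT.lf (nat_lit 0) (nat_lit 148739006) (nat_lit 228) (nat_lit 7079812587) (nat_lit 304) (nat_lit 2868891342) (nat_lit 168) (nat_lit 5) (nat_lit 171) (nat_lit 5) (nat_lit 172) (nat_lit 4) (nat_lit 457) (nat_lit 381) (nat_lit 362)) (XT.lf (nat_lit 0) (nat_lit 1422645819) (nat_lit 304) (nat_lit 1604644434) (nat_lit 76) (nat_lit 7215532157) (nat_lit 167) (nat_lit 5) (nat_lit 171) (nat_lit 5) (nat_lit 168) (nat_lit 5) (nat_lit 458) (nat_lit 381) (nat_lit 361))))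 (XT.nd (nat_lit 156) (nat_lit 532) (nat_lit 0) (XT.nd (nat_lit 78) (nat_lit 228) (nat_lit 0) (XT.lf (nat_lit 0) (nat_lit 5782083597) (nat_lit 304) (nat_lit 3438866017) (nat_lit 76) (nat_lit 1170858898) (nat_lit 164) (nat_lit 5) (nat_lit 168) (nat_lit 5) (nat_lit 165) (nat_lit 4) (nat_lit 459) (nat_lit 381) (nat_lit 360)) (XT.lf (nat_lit 0) (nat_lit 5193477872) (nat_lit 228) (nat_lit 5094103632) (nat_lit 304) (nat_lit 257226214) (nat_lit 161) (nat_lit 5) (nat_lit 164) (nat_lit 5) (nat_lit 165) (nat_lit 4) (nat_lit 460) (nat_lit 381) (nat_lit 359))) (XT.nd (nat_lit 78) (nat_lit 228) (nat_lit 0) (XT.lf (nat_lit 0) (nat_lit 3344827600) (nat_lit 228) (nat_lit 785096289) (nat_lit 304) (nat_lit 6571659953) (nat_lit 157) (nat_lit 5) (nat_lit 160) (nat_lit 5) (nat_lit 161) (nat_lit 5) (nat_lit 461) (nat_lit 381) (nat_lit 358)) (XT.lf (nat_lit 0) (nat_lit 1405365601) (nat_lit 228) (nat_lit 7261243104) (nat_lit 304) (nat_lit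 2195687107) (nat_lit 154) (nat_lit 5) (nat_lit 157) (nat_lit 5) (nat_lit 158) (nat_lit 4) (nat_lit 462) (nat_lit 381) (nat_lit 357))))))))
noncomputable def xc54 : XT := (XT.nd (nat_lit 2418) (nat_lit 2736) (nat_lit 0) (XT.nd (nat_lit 1170) (nat_lit 1976) (nat_lit 0) (XT.nd (nat_lit 546) (nat_lit 1368) (nat_lit 0) (XT.nd (nat_lit 234) (nat_lit 684) (nat_lit 0) (XT.nd (nat_lit 78) (nat_lit 456) (nat_lit 0) (XT.lf (nat_lit 0) (nat_lit 2269420601) (nat_lit 304) (nat_lit 609433285) (nat_lit 76) (nat_lit 8148221349) (nat_lit 153) (nat_lit 5) (nat_lit 157) (nat_lit 5) (nat_lit 154) (nat_lit 5) (nat_lit 463) (nat_lit 381) (nat_lit 356)) (XT.nd (nat_lit 78) (nat_lit 228) (nat_lit 0) (XT.lf (nat_lit 0) (nat_lit 6844951857) (nat_lit 304) (nat_lit 2694643491) (nat_lit 76) (nat_lit 1655933996) (nat_lit 150) (nat_lit 5) (nat_lit 154) (nat_lit 5) (nat_lit 151) (nat_lit 4) (nat_lit 464) (nat_lit 381) (nat_lit 355)) (XT.lf (nat_lit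 0) (nat_lit 205386427) (nat_lit 228) (nat_lit 4874970407) (nat_lit 76) (nat_lit 6288016557) (nat_lit 147) (nat_lit 5) (nat_lit 150) (nat_lit 5) (nat_lit 148) (nat_lit 5) (nat_lit 465) (nat_lit 381) (nat_lit 354)))) (XT.nd (nat_lit 156) (nat_lit 304) (nat_lit 0) (XT.nd (nat_lit 78) (nat_lit 152) (nat_lit 0) (XT.lf (nat_lit 0) (nat_lit 4377712842) (nat_lit 228) (nat_lit 425680310) (nat_lit 304) (nat_lit 6741934572) (nat_lit 144) (nat_lit 5) (nat_lit 147) (nat_lit 5) (nat_lit 148) (nat_lit 5) (nat_lit 466) (nat_lit 381) (nat_lit 353)) (XT.lf (nat_lit 0) (nat_lit 2149682485) (nat_lit 152) (nat_lit 7425743628) (nat_lit 228) (nat_lit 2151083353) (nat_lit 142) (nat_lit 5) (nat_lit 144) (nat_lit 5) (nat_lit 145) (nat_lit 4) (nat_lit 467) (nat_lit 381) (nat_lit 352))) (XT.nd (nat_lit 78) (nat_lit 228) (nat_lit 0) (XT.lf (nat_lit 0) (nat_lit 2528442799) (nat_lit 228) (nat_lit 179039290) (nat_lit 76) (nat_lit 9204865196) (nat_lit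 141) (nat_lit 5) (nat_lit 144) (nat_lit 5) (nat_lit 142) (nat_lit 5) (nat_lit 468) (nat_lit 381) (nat_lit 351)) (XT.lf (nat_lit 0) (nat_lit 7344239473) (nat_lit 304) (nat_lit 2586344905) (nat_lit 76) (nat_lit 2171364586) (nat_lit 138) (nat_lit 5) (nat_lit 142) (nat_lit 5) (nat_lit 139) (nat_lit 4) (nat_lit 469) (nat_lit 381) (nat_lit 350))))) (XT.nd (nat_lit 312) (nat_lit 684) (nat_lit 0) (XT.nd (nat_lit 156) (nat_lit 228) (nat_lit 0) (XT.nd (nat_lit 78) (nat_lit 228) (nat_lit 0) (XT.lf (nat_lit 0) (nat_lit 31709442) (nat_lit 228) (nat_lit 5104099139) (nat_lit 76) (nat_lit 7160691790) (nat_lit 135) (nat_lit 5) (nat_lit 138) (nat_lit 5) (nat_lit 136) (nat_lit 5) (nat_lit 470) (nat_lit 381) (nat_lit 349)) (XT.lf (nat_lit 0) (nat_lit 4737929716) (nat_lit 228) (nat_lit 129939896) (nat_lit 304) (nat_lit 7627646149) (nat_lit 132) (nat_lit 5) (nat_lit 135) (nat_lit 5) (nat_lit 136) (nat_lit 5) (nat_lit 471) (nat_lit 381)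 (nat_lit 348))) (XT.nd (nat_lit 78) (nat_lit 76) (nat_lit 0) (XT.lf (nat_lit 0) (nat_lit 2144960843) (nat_lit 152) (nat_lit 7752283095) (nat_lit 228) (nat_lit 2801814900) (nat_lit 130) (nat_lit 5) (nat_lit 132) (nat_lit 5) (nat_lit 133) (nat_lit 4) (nat_lit 472) (nat_lit 381) (nat_lit 347)) (XT.lf (nat_lit 0) (nat_lit 2134194814) (nat_lit 228) (nat_lit 554807864) (nat_lit 76) (nat_lit 10218849404) (nat_lit 129) (nat_lit 5) (nat_lit 132) (nat_lit 5) (nat_lit 130) (nat_lit 5) (nat_lit 473) (nat_lit 381) (nat_lit 346)))) (XT.nd (nat_lit 156) (nat_lit 380) (nat_lit 0) (XT.nd (nat_lit 78) (nat_lit 152) (nat_lit 0) (XT.lf (nat_lit 0) (nat_lit 7210408227) (nat_lit 228) (nat_lit 3364114192) (nat_lit 76) (nat_lit 2546102384) (nat_lit 127) (nat_lit 5) (nat_lit 130) (nat_lit 5) (nat_lit 128) (nat_lit 4) (nat_lit 474) (nat_lit 381) (nat_lit 345)) (XT.lf (nat_lit 0) (nat_lit 7033779719) (nat_lit 152) (nat_lit 5434803775) (nat_lit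 228) (nat_lit 870307930) (nat_lit 125) (nat_lit 5) (nat_lit 127) (nat_lit 5) (nat_lit 128) (nat_lit 4) (nat_lit 475) (nat_lit 381) (nat_lit 344))) (XT.nd (nat_lit 78) (nat_lit 152) (nat_lit 0) (XT.lf (nat_lit 0) (nat_lit 4163369344) (nat_lit 152) (nat_lit 77383939) (nat_lit 228) (nat_lit 9321579572) (nat_lit 122) (nat_lit 5) (nat_lit 124) (nat_lit 5) (nat_lit 125) (nat_lit 5) (nat_lit 476) (nat_lit 381) (nat_lit 343)) (XT.lf (nat_lit 0) (nat_lit 1118670707) (nat_lit 152) (nat_lit 8426587092) (nat_lit 228) (nat_lit 4245234010) (nat_lit 120) (nat_lit 5) (nat_lit 122) (nat_lit 5) (nat_lit 123) (nat_lit 4) (nat_lit 477) (nat_lit 381) (nat_lit 342)))))) (XT.nd (nat_lit 624) (nat_lit 912) (nat_lit 0) (XT.nd (nat_lit 312) (nat_lit 456) (nat_lit 0) (XT.nd (nat_lit 156) (nat_lit 380) (nat_lit 0) (XT.nd (nat_lit 78) (nat_lit 152) (nat_lit 0) (XT.lf (nat_lit 0) (nat_lit 991227205) (nat_lit 228) (nat_lit 2015649865) (nat_lit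 76) (nat_lit 11017525267) (nat_lit 119) (nat_lit 5) (nat_lit 122) (nat_lit 5) (nat_lit 120) (nat_lit 5) (nat_lit 478) (nat_lit 381) (nat_lit 341)) (XT.lf (nat_lit 0) (nat_lit 6343609884) (nat_lit 228) (nat_lit 5318451148) (nat_lit 76) (nat_lit 2600684432) (nat_lit 117) (nat_lit 5) (nat_lit 120) (nat_lit 5) (nat_lit 118) (nat_lit 4) (nat_lit 479) (nat_lit 381) (nat_lit 340))) (XT.nd (nat_lit 78) (nat_lit 228) (nat_lit 0) (XT.lf (nat_lit 0) (nat_lit 5725538782) (nat_lit 152) (nat_lit 6169089494) (nat_lit 228) (nat_lit 2612469482) (nat_lit 115) (nat_lit 5) (nat_lit 117) (nat_lit 5) (nat_lit 118) (nat_lit 4) (nat_lit 480) (nat_lit 381) (nat_lit 339)) (XT.lf (nat_lit 0) (nat_lit 2347475202) (nat_lit 152) (nat_lit 459875252) (nat_lit 228) (nat_lit 11950319044) (nat_lit 112) (nat_lit 5) (nat_lit 114) (nat_lit 5) (nat_lit 115) (nat_lit 5) (nat_lit 481) (nat_lit 381) (nat_lit 338)))) (XT.nd (nat_lit 156) (nat_lit 304) (nat_lit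 0) (XT.nd (nat_lit 78) (nat_lit 152) (nat_lit 0) (XT.lf (nat_lit 0) (nat_lit 8412000164) (nat_lit 228) (nat_lit 1224881101) (nat_lit 76) (nat_lit 5375859579) (nat_lit 112) (nat_lit 5) (nat_lit 115) (nat_lit 5) (nat_lit 113) (nat_lit 4) (nat_lit 482) (nat_lit 381) (nat_lit 337)) (XT.lf (nat_lit 0) (nat_lit 10374140683) (nat_lit 152) (nat_lit 3849955983) (nat_lit 228) (nat_lit 1050189155) (nat_lit 110) (nat_lit 5) (nat_lit 112) (nat_lit 5) (nat_lit 113) (nat_lit 4) (nat_lit 483) (nat_lit 381) (nat_lit 336))) (XT.nd (nat_lit 78) (nat_lit 76) (nat_lit 0) (XT.lf (nat_lit 0) (nat_lit 4609501368) (nat_lit 228) (nat_lit 8792710272) (nat_lit 76) (nat_lit 2139109648) (nat_lit 107) (nat_lit 5) (nat_lit 110) (nat_lit 5) (nat_lit 108) (nat_lit 4) (nat_lit 484) (nat_lit 381) (nat_lit 335)) (XT.lf (nat_lit 0) (nat_lit 2920297885) (nat_lit 76) (nat_lit 7549109956) (nat_lit 152) (nat_lit 5345102701) (nat_lit 106) (nat_lit 5) (nat_lit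 107) (nat_lit 5) (nat_lit 108) (nat_lit 4) (nat_lit 485) (nat_lit 381) (nat_lit 334))))) (XT.nd (nat_lit 312) (nat_lit 380) (nat_lit 0) (XT.nd (nat_lit 156) (nat_lit 304) (nat_lit 0) (XT.nd (nat_lit 78) (nat_lit 152) (nat_lit 0) (XT.lf (nat_lit 0) (nat_lit 426376418) (nat_lit 152) (nat_lit 1053289929) (nat_lit 76) (nat_lit 14615357359) (nat_lit 105) (nat_lit 5) (nat_lit 107) (nat_lit 5) (nat_lit 106) (nat_lit 5) (nat_lit 486) (nat_lit 381) (nat_lit 333)) (XT.lf (nat_lit 0) (nat_lit 6355446020) (nat_lit 228) (nat_lit 5236311949) (nat_lit 76) (nat_lit 4787850917) (nat_lit 103) (nat_lit 5) (nat_lit 106) (nat_lit 5) (nat_lit 104) (nat_lit 4) (nat_lit 487) (nat_lit 381) (nat_lit 332))) (XT.nd (nat_lit 78) (nat_lit 228) (nat_lit 0) (XT.lf (nat_lit 0) (nat_lit 7061110203) (nat_lit 76) (nat_lit 5432100175) (nat_lit 152) (nat_lit 4178597139) (nat_lit 102) (nat_lit 5) (nat_lit 103) (nat_lit 5) (nat_lit 104) (nat_lit 4) (nat_lit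 488) (nat_lit 381) (nat_lit 331)) (XT.lf (nat_lit 0) (nat_lit 1833397542) (nat_lit 228) (nat_lit 14198223318) (nat_lit 76) (nat_lit 939810124) (nat_lit 99) (nat_lit 5) (nat_lit 102) (nat_lit 5) (nat_lit 100) (nat_lit 4) (nat_lit 489) (nat_lit 381) (nat_lit 330)))) (XT.nd (nat_lit 156) (nat_lit 304) (nat_lit 0) (XT.nd (nat_lit 78) (nat_lit 76) (nat_lit 0) (XT.lf (nat_lit 0) (nat_lit 8031391148) (nat_lit 228) (nat_lit 1764768420) (nat_lit 76) (nat_lit 7479954206) (nat_lit 99) (nat_lit 5) (nat_lit 102) (nat_lit 5) (nat_lit 100) (nat_lit 4) (nat_lit 490) (nat_lit 381) (nat_lit 329)) (XT.lf (nat_lit 0) (nat_lit 11145429928) (nat_lit 76) (nat_lit 3316673554) (nat_lit 152) (nat_lit 3126430710) (nat_lit 98) (nat_lit 5) (nat_lit 99) (nat_lit 5) (nat_lit 100) (nat_lit 4) (nat_lit 491) (nat_lit 381) (nat_lit 328))) (XT.nd (nat_lit 78) (nat_lit 76) (nat_lit 0) (XT.lf (nat_lit 0) (nat_lit 3167018277) (nat_lit 228) (nat_lit 11389000814)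 (nat_lit 76) (nat_lit 3351785735) (nat_lit 95) (nat_lit 5) (nat_lit 98) (nat_lit 5) (nat_lit 96) (nat_lit 4) (nat_lit 492) (nat_lit 381) (nat_lit 327)) (XT.lf (nat_lit 0) (nat_lit 1620127889) (nat_lit 76) (nat_lit 8020311206) (nat_lit 152) (nat_lit 8593666116) (nat_lit 94) (nat_lit 5) (nat_lit 95) (nat_lit 5) (nat_lit 96) (nat_lit 4) (nat_lit 493) (nat_lit 381) (nat_lit 326))))))) (XT.nd (nat_lit 1248) (nat_lit 1216) (nat_lit 0) (XT.nd (nat_lit 624) (nat_lit 684) (nat_lit 0) (XT.nd (nat_lit 312) (nat_lit 532) (nat_lit 0) (XT.nd (nat_lit 156) (nat_lit 76) (nat_lit 0) (XT.nd (nat_lit 78) (nat_lit 228) (nat_lit 0) (XT.lf (nat_lit 0) (nat_lit 15140116895) (nat_lit 76) (nat_lit 1223505630) (nat_lit 152) (nat_lit 2204905740) (nat_lit 94) (nat_lit 5) (nat_lit 95) (nat_lit 5) (nat_lit 96) (nat_lit 4) (nat_lit 494) (nat_lit 381) (nat_lit 325)) (XT.lf (nat_lit 0) (nat_lit 4386303516) (nat_lit 228) (nat_lit 8768017352) (nat_lit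 76) (nat_lit 5754516720) (nat_lit 91) (nat_lit 5) (nat_lit 94) (nat_lit 5) (nat_lit 92) (nat_lit 4) (nat_lit 495) (nat_lit 381) (nat_lit 324))) (XT.nd (nat_lit 78) (nat_lit 0) (nat_lit 0) (XT.lf (nat_lit 0) (nat_lit 4879118434) (nat_lit 76) (nat_lit 6287648653) (nat_lit 152) (nat_lit 8090859566) (nat_lit 90) (nat_lit 5) (nat_lit 91) (nat_lit 5) (nat_lit 92) (nat_lit 4) (nat_lit 496) (nat_lit 381) (nat_lit 323)) (XT.lf (nat_lit 0) (nat_lit 18189598800) (nat_lit 152) (nat_lit 618271112) (nat_lit 0) (nat_lit 807841254) (nat_lit 90) (nat_lit 5) (nat_lit 92) (nat_lit 4) (nat_lit 90) (nat_lit 4) (nat_lit 497) (nat_lit 381) (nat_lit 322)))) (XT.nd (nat_lit 156) (nat_lit 228) (nat_lit 0) (XT.nd (nat_lit 78) (nat_lit 76) (nat_lit 0) (XT.lf (nat_lit 0) (nat_lit 5470966614) (nat_lit 228) (nat_lit 6382954739) (nat_lit 76) (nat_lit 8124893410) (nat_lit 87) (nat_lit 5) (nat_lit 90) (nat_lit 5) (nat_lit 88) (nat_lit 4) (nat_lit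 498) (nat_lit 381) (nat_lit 321)) (XT.lf (nat_lit 0) (nat_lit 7929150921) (nat_lit 76) (nat_lit 4643412253) (nat_lit 152) (nat_lit 7779037005) (nat_lit 86) (nat_lit 5) (nat_lit 87) (nat_lit 5) (nat_lit 88) (nat_lit 4) (nat_lit 499) (nat_lit 381) (nat_lit 320))) (XT.nd (nat_lit 78) (nat_lit 76) (nat_lit 0) (XT.lf (nat_lit 0) (nat_lit 1970915167) (nat_lit 152) (nat_lit 17970951281) (nat_lit 152) (nat_lit 792063306) (nat_lit 84) (nat_lit 4) (nat_lit 86) (nat_lit 5) (nat_lit 86) (nat_lit 4) (nat_lit 500) (nat_lit 381) (nat_lit 319)) (XT.lf (nat_lit 0) (nat_lit 6396124050) (nat_lit 228) (nat_lit 4290054756) (nat_lit 76) (nat_lit 10436206431) (nat_lit 83) (nat_lit 5) (nat_lit 86) (nat_lit 5) (nat_lit 84) (nat_lit 4) (nat_lit 501) (nat_lit 381) (nat_lit 318))))) (XT.nd (nat_lit 312) (nat_lit 304) (nat_lit 0) (XT.nd (nat_lit 156) (nat_lit 152) (nat_lit 0) (XT.nd (nat_lit 78) (nat_lit 152) (nat_lit 0) (XT.lf (nat_lit 0)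 (nat_lit 10713418927) (nat_lit 76) (nat_lit 3119156651) (nat_lit 152) (nat_lit 7688227725) (nat_lit 82) (nat_lit 5) (nat_lit 83) (nat_lit 5) (nat_lit 84) (nat_lit 4) (nat_lit 502) (nat_lit 381) (nat_lit 317)) (XT.lf (nat_lit 0) (nat_lit 4257785304) (nat_lit 152) (nat_lit 17309612668) (nat_lit 152) (nat_lit 361517938) (nat_lit 80) (nat_lit 4) (nat_lit 82) (nat_lit 5) (nat_lit 82) (nat_lit 4) (nat_lit 503) (nat_lit 381) (nat_lit 316))) (XT.nd (nat_lit 78) (nat_lit 76) (nat_lit 0) (XT.lf (nat_lit 0) (nat_lit 7131596504) (nat_lit 228) (nat_lit 2555625402) (nat_lit 76) (nat_lit 12657374041) (nat_lit 79) (nat_lit 5) (nat_lit 82) (nat_lit 5) (nat_lit 80) (nat_lit 4) (nat_lit 504) (nat_lit 381) (nat_lit 315)) (XT.lf (nat_lit 0) (nat_lit 13164666754) (nat_lit 76) (nat_lit 1751411311) (nat_lit 152) (nat_lit 7854346035) (nat_lit 78) (nat_lit 5) (nat_lit 79) (nat_lit 5) (nat_lit 80) (nat_lit 4) (nat_lit 505) (nat_lit 381) (nat_lit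 314)))) (XT.nd (nat_lit 156) (nat_lit 152) (nat_lit 0) (XT.nd (nat_lit 78) (nat_lit 76) (nat_lit 0) (XT.lf (nat_lit 0) (nat_lit 6156767024) (nat_lit 76) (nat_lit 16871696579) (nat_lit 76) (nat_lit 177732694) (nat_lit 77) (nat_lit 4) (nat_lit 78) (nat_lit 5) (nat_lit 78) (nat_lit 4) (nat_lit 506) (nat_lit 381) (nat_lit 313)) (XT.lf (nat_lit 0) (nat_lit 7641088276) (nat_lit 152) (nat_lit 1257784282) (nat_lit 76) (nat_lit 14752058439) (nat_lit 76) (nat_lit 5) (nat_lit 78) (nat_lit 5) (nat_lit 77) (nat_lit 4) (nat_lit 507) (nat_lit 381) (nat_lit 312))) (XT.nd (nat_lit 78) (nat_lit 76) (nat_lit 0) (XT.lf (nat_lit 0) (nat_lit 15203367798) (nat_lit 76) (nat_lit 582641919) (nat_lit 152) (nat_lit 8320092248) (nat_lit 75) (nat_lit 5) (nat_lit 76) (nat_lit 5) (nat_lit 77) (nat_lit 4) (nat_lit 508) (nat_lit 381) (nat_lit 311)) (XT.lf (nat_lit 0) (nat_lit 7581428253) (nat_lit 76) (nat_lit 16705341281) (nat_lit 76) (nat_lit 284814057)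 (nat_lit 74) (nat_lit 4) (nat_lit 75) (nat_lit 5) (nat_lit 75) (nat_lit 4) (nat_lit 509) (nat_lit 381) (nat_lit 310)))))) (XT.nd (nat_lit 624) (nat_lit 608) (nat_lit 0) (XT.nd (nat_lit 312) (nat_lit 304) (nat_lit 0) (XT.nd (nat_lit 156) (nat_lit 152) (nat_lit 0) (XT.nd (nat_lit 78) (nat_lit 76) (nat_lit 0) (XT.lf (nat_lit 0) (nat_lit 7881226433) (nat_lit 152) (nat_lit 488478089) (nat_lit 76) (nat_lit 16677651381) (nat_lit 73) (nat_lit 5) (nat_lit 75) (nat_lit 5) (nat_lit 74) (nat_lit 4) (nat_lit 510) (nat_lit 381) (nat_lit 309)) (XT.lf (nat_lit 0) (nat_lit 16401213478) (nat_lit 152) (nat_lit 8801606124) (nat_lit 0) (nat_lit 331056719) (nat_lit 72) (nat_lit 5) (nat_lit 74) (nat_lit 4) (nat_lit 72) (nat_lit 4) (nat_lit 511) (nat_lit 381) (nat_lit 308))) (XT.nd (nat_lit 78) (nat_lit 76) (nat_lit 0) (XT.lf (nat_lit 0) (nat_lit 8429927426) (nat_lit 76) (nat_lit 16866402285) (nat_lit 76) (nat_lit 735076978) (nat_lit 71)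 (nat_lit 4) (nat_lit 72) (nat_lit 5) (nat_lit 72) (nat_lit 4) (nat_lit 512) (nat_lit 381) (nat_lit 307)) (XT.lf (nat_lit 0) (nat_lit 7800437934) (nat_lit 152) (nat_lit 355823240) (nat_lit 76) (nat_lit 18384106435) (nat_lit 70) (nat_lit 5) (nat_lit 72) (nat_lit 5) (nat_lit 71) (nat_lit 4) (nat_lit 513) (nat_lit 381) (nat_lit 306)))) (XT.nd (nat_lit 156) (nat_lit 152) (nat_lit 0) (XT.nd (nat_lit 78) (nat_lit 76) (nat_lit 0) (XT.lf (nat_lit 0) (nat_lit 16708178760) (nat_lit 152) (nat_lit 9419209646) (nat_lit 0) (nat_lit 933062770) (nat_lit 69) (nat_lit 5) (nat_lit 71) (nat_lit 4) (nat_lit 69) (nat_lit 4) (nat_lit 514) (nat_lit 381) (nat_lit 305)) (XT.lf (nat_lit 0) (nat_lit 8582410333) (nat_lit 76) (nat_lit 17419809269) (nat_lit 76) (nat_lit 1590345816) (nat_lit 68) (nat_lit 4) (nat_lit 69) (nat_lit 5) (nat_lit 69) (nat_lit 4) (nat_lit 515) (nat_lit 381) (nat_lit 304))) (XT.nd (nat_lit 78) (nat_lit 76) (nat_lit 0)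 (XT.lf (nat_lit 0) (nat_lit 7337639476) (nat_lit 152) (nat_lit 986819842) (nat_lit 76) (nat_lit 19812591818) (nat_lit 67) (nat_lit 5) (nat_lit 69) (nat_lit 5) (nat_lit 68) (nat_lit 4) (nat_lit 516) (nat_lit 381) (nat_lit 303)) (XT.lf (nat_lit 0) (nat_lit 16637842122) (nat_lit 152) (nat_lit 10886999161) (nat_lit 0) (nat_lit 1168467680) (nat_lit 66) (nat_lit 5) (nat_lit 68) (nat_lit 4) (nat_lit 66) (nat_lit 4) (nat_lit 517) (nat_lit 381) (nat_lit 302))))) (XT.nd (nat_lit 312) (nat_lit 304) (nat_lit 0) (XT.nd (nat_lit 156) (nat_lit 152) (nat_lit 0) (XT.nd (nat_lit 78) (nat_lit 76) (nat_lit 0) (XT.lf (nat_lit 0) (nat_lit 7897990599) (nat_lit 76) (nat_lit 18441131709) (nat_lit 76) (nat_lit 2923470249) (nat_lit 65) (nat_lit 4) (nat_lit 66) (nat_lit 5) (nat_lit 66) (nat_lit 4) (nat_lit 518) (nat_lit 381) (nat_lit 301)) (XT.lf (nat_lit 0) (nat_lit 6420710660) (nat_lit 152) (nat_lit 2530499417) (nat_lit 76) (nat_lit 20893933708)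 (nat_lit 64) (nat_lit 5) (nat_lit 66) (nat_lit 5) (nat_lit 65) (nat_lit 4) (nat_lit 519) (nat_lit 381) (nat_lit 300))) (XT.nd (nat_lit 78) (nat_lit 76) (nat_lit 0) (XT.lf (nat_lit 0) (nat_lit 16115138686) (nat_lit 152) (nat_lit 13365560908) (nat_lit 0) (nat_lit 959743344) (nat_lit 63) (nat_lit 5) (nat_lit 65) (nat_lit 4) (nat_lit 63) (nat_lit 4) (nat_lit 520) (nat_lit 381) (nat_lit 299)) (XT.lf (nat_lit 0) (nat_lit 6211246523) (nat_lit 76) (nat_lit 20018387696) (nat_lit 76) (nat_lit 4820089964) (nat_lit 62) (nat_lit 4) (nat_lit 63) (nat_lit 5) (nat_lit 63) (nat_lit 4) (nat_lit 521) (nat_lit 381) (nat_lit 298)))) (XT.nd (nat_lit 156) (nat_lit 152) (nat_lit 0) (XT.nd (nat_lit 78) (nat_lit 76) (nat_lit 0) (XT.lf (nat_lit 0) (nat_lit 4964716330) (nat_lit 152) (nat_lit 5161576385) (nat_lit 76) (nat_lit 21546815268) (nat_lit 61) (nat_lit 5) (nat_lit 63) (nat_lit 5) (nat_lit 62) (nat_lit 4) (nat_lit 522) (nat_lit 381)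 (nat_lit 297)) (XT.lf (nat_lit 0) (nat_lit 15051519366) (nat_lit 152) (nat_lit 17042893296) (nat_lit 0) (nat_lit 216189121) (nat_lit 60) (nat_lit 5) (nat_lit 62) (nat_lit 4) (nat_lit 60) (nat_lit 4) (nat_lit 523) (nat_lit 381) (nat_lit 296))) (XT.nd (nat_lit 78) (nat_lit 76) (nat_lit 0) (XT.lf (nat_lit 0) (nat_lit 3328156278) (nat_lit 76) (nat_lit 22254135875) (nat_lit 76) (nat_lit 7380687413) (nat_lit 59) (nat_lit 4) (nat_lit 60) (nat_lit 5) (nat_lit 60) (nat_lit 4) (nat_lit 524) (nat_lit 381) (nat_lit 295)) (XT.lf (nat_lit 0) (nat_lit 2869838425) (nat_lit 152) (nat_lit 9084684435) (nat_lit 76) (nat_lit 21675691174) (nat_lit 58) (nat_lit 5) (nat_lit 60) (nat_lit 5) (nat_lit 59) (nat_lit 4) (nat_lit 525) (nat_lit 381) (nat_lit 294))))))))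
noncomputable def xc55 : XT := (XT.nd (nat_lit 55692) (nat_lit 0) (nat_lit 7752) (XT.nd (nat_lit 1170) (nat_lit 836) (nat_lit 0) (XT.nd (nat_lit 546) (nat_lit 456) (nat_lit 0) (XT.nd (nat_lit 234) (nat_lit 304) (nat_lit 0) (XT.nd (nat_lit 78) (nat_lit 152) (nat_lit 0) (XT.lf (nat_lit 0) (nat_lit 12162669948) (nat_lit 76) (nat_lit 1191545058) (nat_lit 152) (nat_lit 20958817992) (nat_lit 57) (nat_lit 5) (nat_lit 58) (nat_lit 5) (nat_lit 59) (nat_lit 4) (nat_lit 526) (nat_lit 381) (nat_lit 293)) (XT.nd (nat_lit 78) (nat_lit 152) (nat_lit 0) (XT.lf (nat_lit 0) (nat_lit 24298684859) (nat_lit 152) (nat_lit 959522485) (nat_lit 0) (nat_lit 9753762448) (nat_lit 57) (nat_lit 5) (nat_lit 59) (nat_lit 4) (nat_lit 57) (nat_lit 4) (nat_lit 527) (nat_lit 381) (nat_lit 292)) (XT.lf (nat_lit 0) (nat_lit 18971298) (nat_lit 152) (nat_lit 14539291782) (nat_lit 76) (nat_lit 21168371157) (nat_lit 55) (nat_lit 5) (nat_lit 57) (nat_lit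 5) (nat_lit 56) (nat_lit 4) (nat_lit 528) (nat_lit 381) (nat_lit 291)))) (XT.nd (nat_lit 156) (nat_lit 228) (nat_lit 0) (XT.nd (nat_lit 78) (nat_lit 0) (nat_lit 0) (XT.lf (nat_lit 0) (nat_lit 7515137765) (nat_lit 76) (nat_lit 3383810358) (nat_lit 152) (nat_lit 25559376062) (nat_lit 54) (nat_lit 5) (nat_lit 55) (nat_lit 5) (nat_lit 56) (nat_lit 4) (nat_lit 529) (nat_lit 381) (nat_lit 290)) (XT.lf (nat_lit 0) (nat_lit 22290797956) (nat_lit 152) (nat_lit 6839096591) (nat_lit 0) (nat_lit 8076506184) (nat_lit 54) (nat_lit 5) (nat_lit 56) (nat_lit 4) (nat_lit 54) (nat_lit 4) (nat_lit 530) (nat_lit 381) (nat_lit 289))) (XT.nd (nat_lit 78) (nat_lit 152) (nat_lit 0) (XT.lf (nat_lit 0) (nat_lit 16130529829) (nat_lit 76) (nat_lit 18042715402) (nat_lit 76) (nat_lit 3799209191) (nat_lit 53) (nat_lit 4) (nat_lit 54) (nat_lit 5) (nat_lit 54) (nat_lit 4) (nat_lit 531) (nat_lit 381) (nat_lit 288)) (XT.lf (nat_lit 0) (nat_lit 1037169116)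 (nat_lit 76) (nat_lit 6504229337) (nat_lit 152) (nat_lit 31216684647) (nat_lit 51) (nat_lit 5) (nat_lit 52) (nat_lit 5) (nat_lit 53) (nat_lit 4) (nat_lit 532) (nat_lit 381) (nat_lit 287))))) (XT.nd (nat_lit 312) (nat_lit 228) (nat_lit 0) (XT.nd (nat_lit 156) (nat_lit 152) (nat_lit 0) (XT.nd (nat_lit 78) (nat_lit 76) (nat_lit 0) (XT.lf (nat_lit 0) (nat_lit 19380660248) (nat_lit 152) (nat_lit 14680707442) (nat_lit 0) (nat_lit 5497740680) (nat_lit 51) (nat_lit 5) (nat_lit 53) (nat_lit 4) (nat_lit 51) (nat_lit 4) (nat_lit 533) (nat_lit 381) (nat_lit 286)) (XT.lf (nat_lit 0) (nat_lit 9087027828) (nat_lit 76) (nat_lit 22601307904) (nat_lit 76) (nat_lit 8692431685) (nat_lit 50) (nat_lit 4) (nat_lit 51) (nat_lit 5) (nat_lit 51) (nat_lit 4) (nat_lit 534) (nat_lit 381) (nat_lit 285))) (XT.nd (nat_lit 78) (nat_lit 76) (nat_lit 0) (XT.lf (nat_lit 0) (nat_lit 3188145041) (nat_lit 152) (nat_lit 7462142415) (nat_lit 76) (nat_lit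 30572547390) (nat_lit 49) (nat_lit 5) (nat_lit 51) (nat_lit 5) (nat_lit 50) (nat_lit 4) (nat_lit 535) (nat_lit 381) (nat_lit 284)) (XT.lf (nat_lit 0) (nat_lit 15397063794) (nat_lit 152) (nat_lit 24841039833) (nat_lit 0) (nat_lit 1845079829) (nat_lit 48) (nat_lit 5) (nat_lit 50) (nat_lit 4) (nat_lit 48) (nat_lit 4) (nat_lit 536) (nat_lit 381) (nat_lit 283)))) (XT.nd (nat_lit 156) (nat_lit 152) (nat_lit 0) (XT.nd (nat_lit 78) (nat_lit 76) (nat_lit 0) (XT.lf (nat_lit 0) (nat_lit 28116449649) (nat_lit 152) (nat_lit 307163436) (nat_lit 0) (nat_lit 14541403536) (nat_lit 48) (nat_lit 5) (nat_lit 50) (nat_lit 4) (nat_lit 48) (nat_lit 4) (nat_lit 537) (nat_lit 381) (nat_lit 282)) (XT.lf (nat_lit 0) (nat_lit 25385854146) (nat_lit 76) (nat_lit 16039327169) (nat_lit 76) (nat_lit 2441890621) (nat_lit 47) (nat_lit 4) (nat_lit 48) (nat_lit 5) (nat_lit 48) (nat_lit 4) (nat_lit 538) (nat_lit 381) (nat_lit 281))) (XT.nd (nat_lit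 78) (nat_lit 0) (nat_lit 0) (XT.lf (nat_lit 0) (nat_lit 7025297928) (nat_lit 76) (nat_lit 3144393087) (nat_lit 152) (nat_lit 34622484506) (nat_lit 45) (nat_lit 5) (nat_lit 46) (nat_lit 5) (nat_lit 47) (nat_lit 4) (nat_lit 539) (nat_lit 381) (nat_lit 280)) (XT.lf (nat_lit 0) (nat_lit 23360237115) (nat_lit 152) (nat_lit 12259332105) (nat_lit 0) (nat_lit 10117246856) (nat_lit 45) (nat_lit 5) (nat_lit 47) (nat_lit 4) (nat_lit 45) (nat_lit 4) (nat_lit 540) (nat_lit 381) (nat_lit 279)))))) (XT.nd (nat_lit 624) (nat_lit 304) (nat_lit 0) (XT.nd (nat_lit 312) (nat_lit 304) (nat_lit 0) (XT.nd (nat_lit 156) (nat_lit 76) (nat_lit 0) (XT.nd (nat_lit 78) (nat_lit 76) (nat_lit 0) (XT.lf (nat_lit 0) (nat_lit 14189008230) (nat_lit 76) (nat_lit 22889850396) (nat_lit 76) (nat_lit 9626966525) (nat_lit 44) (nat_lit 4) (nat_lit 45) (nat_lit 5) (nat_lit 45) (nat_lit 4) (nat_lit 541) (nat_lit 381) (nat_lit 278)) (XT.lf (nat_lit 0) (nat_lit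 3526601973) (nat_lit 152) (nat_lit 6123196051) (nat_lit 76) (nat_lit 38050399773) (nat_lit 43) (nat_lit 5) (nat_lit 45) (nat_lit 5) (nat_lit 44) (nat_lit 4) (nat_lit 542) (nat_lit 381) (nat_lit 277))) (XT.nd (nat_lit 78) (nat_lit 0) (nat_lit 0) (XT.lf (nat_lit 0) (nat_lit 17093018717) (nat_lit 152) (nat_lit 27442696140) (nat_lit 0) (nat_lit 4179475325) (nat_lit 42) (nat_lit 5) (nat_lit 44) (nat_lit 4) (nat_lit 42) (nat_lit 4) (nat_lit 543) (nat_lit 381) (nat_lit 276)) (XT.lf (nat_lit 0) (nat_lit 31190305145) (nat_lit 152) (nat_lit 307524407) (nat_lit 0) (nat_lit 18259086537) (nat_lit 42) (nat_lit 5) (nat_lit 44) (nat_lit 4) (nat_lit 42) (nat_lit 4) (nat_lit 544) (nat_lit 381) (nat_lit 275)))) (XT.nd (nat_lit 156) (nat_lit 76) (nat_lit 0) (XT.nd (nat_lit 78) (nat_lit 152) (nat_lit 0) (XT.lf (nat_lit 0) (nat_lit 28124328219) (nat_lit 76) (nat_lit 17823413837) (nat_lit 76) (nat_lit 4875034824) (nat_lit 41) (nat_lit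 4) (nat_lit 42) (nat_lit 5) (nat_lit 42) (nat_lit 4) (nat_lit 545) (nat_lit 381) (nat_lit 274)) (XT.lf (nat_lit 0) (nat_lit 5446276109) (nat_lit 76) (nat_lit 3623337540) (nat_lit 152) (nat_lit 42847667474) (nat_lit 39) (nat_lit 5) (nat_lit 40) (nat_lit 5) (nat_lit 41) (nat_lit 4) (nat_lit 546) (nat_lit 381) (nat_lit 273))) (XT.nd (nat_lit 78) (nat_lit 76) (nat_lit 0) (XT.lf (nat_lit 0) (nat_lit 23638775361) (nat_lit 152) (nat_lit 18359618370) (nat_lit 0) (nat_lit 11035654074) (nat_lit 39) (nat_lit 5) (nat_lit 41) (nat_lit 4) (nat_lit 39) (nat_lit 4) (nat_lit 547) (nat_lit 381) (nat_lit 272)) (XT.lf (nat_lit 0) (nat_lit 10703823267) (nat_lit 76) (nat_lit 28047831536) (nat_lit 76) (nat_lit 15429463453) (nat_lit 38) (nat_lit 4) (nat_lit 39) (nat_lit 5) (nat_lit 39) (nat_lit 4) (nat_lit 548) (nat_lit 381) (nat_lit 271))))) (XT.nd (nat_lit 312) (nat_lit 76) (nat_lit 0) (XT.nd (nat_lit 156) (nat_lit 76) (nat_lit 0) (XT.nd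 (nat_lit 78) (nat_lit 152) (nat_lit 0) (XT.lf (nat_lit 0) (nat_lit 40951870425) (nat_lit 76) (nat_lit 13519646678) (nat_lit 76) (nat_lit 886475879) (nat_lit 38) (nat_lit 4) (nat_lit 39) (nat_lit 5) (nat_lit 39) (nat_lit 4) (nat_lit 549) (nat_lit 381) (nat_lit 270)) (XT.lf (nat_lit 0) (nat_lit 13953420327) (nat_lit 152) (nat_lit 40934368024) (nat_lit 0) (nat_lit 1674252980) (nat_lit 36) (nat_lit 5) (nat_lit 38) (nat_lit 4) (nat_lit 36) (nat_lit 4) (nat_lit 550) (nat_lit 381) (nat_lit 269))) (XT.nd (nat_lit 78) (nat_lit 76) (nat_lit 0) (XT.lf (nat_lit 0) (nat_lit 29470305327) (nat_lit 152) (nat_lit 11146562871) (nat_lit 0) (nat_lit 17177591398) (nat_lit 36) (nat_lit 5) (nat_lit 38) (nat_lit 4) (nat_lit 36) (nat_lit 4) (nat_lit 551) (nat_lit 381) (nat_lit 268)) (XT.lf (nat_lit 0) (nat_lit 19861835713) (nat_lit 76) (nat_lit 25751530309) (nat_lit 76) (nat_lit 13445664360) (nat_lit 35) (nat_lit 4) (nat_lit 36) (nat_lit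 5) (nat_lit 36) (nat_lit 4) (nat_lit 552) (nat_lit 381) (nat_lit 267)))) (XT.nd (nat_lit 53430) (nat_lit 0) (nat_lit 16188) (XT.nd (nat_lit 53352) (nat_lit 0) (nat_lit 17176) (XT.lf (nat_lit 0) (nat_lit 1925936225) (nat_lit 152) (nat_lit 8408984364) (nat_lit 76) (nat_lit 50023573068) (nat_lit 34) (nat_lit 5) (nat_lit 36) (nat_lit 5) (nat_lit 35) (nat_lit 4) (nat_lit 553) (nat_lit 381) (nat_lit 266)) (XT.lf (nat_lit 0) (nat_lit 833304715) (nat_lit 532) (nat_lit 2243376134) (nat_lit 0) (nat_lit 833304715) (nat_lit 260) (nat_lit 5) (nat_lit 267) (nat_lit 4) (nat_lit 260) (nat_lit 4) (nat_lit 436) (nat_lit 382) (nat_lit 382))) (XT.nd (nat_lit 78) (nat_lit 532) (nat_lit 0) (XT.lf (nat_lit 0) (nat_lit 1992452617) (nat_lit 456) (nat_lit 3595318003) (nat_lit 456) (nat_lit 2310734568) (nat_lit 254) (nat_lit 4) (nat_lit 260) (nat_lit 5) (nat_lit 260) (nat_lit 4) (nat_lit 437) (nat_lit 382) (nat_lit 381)) (XT.lf (nat_lit 0)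 (nat_lit 644658591) (nat_lit 456) (nat_lit 920075599) (nat_lit 532) (nat_lit 6415699356) (nat_lit 247) (nat_lit 5) (nat_lit 253) (nat_lit 5) (nat_lit 254) (nat_lit 4) (nat_lit 438) (nat_lit 382) (nat_lit 380))))))) (XT.nd (nat_lit 1248) (nat_lit 3268) (nat_lit 0) (XT.nd (nat_lit 624) (nat_lit 2508) (nat_lit 0) (XT.nd (nat_lit 312) (nat_lit 1216) (nat_lit 0) (XT.nd (nat_lit 156) (nat_lit 912) (nat_lit 0) (XT.nd (nat_lit 78) (nat_lit 532) (nat_lit 0) (XT.lf (nat_lit 0) (nat_lit 5487087957) (nat_lit 532) (nat_lit 724237148) (nat_lit 0) (nat_lit 1853500669) (nat_lit 247) (nat_lit 5) (nat_lit 254) (nat_lit 4) (nat_lit 247) (nat_lit 4) (nat_lit 439) (nat_lit 382) (nat_lit 379)) (XT.lf (nat_lit 0) (nat_lit 1317763086) (nat_lit 532) (nat_lit 2099863966) (nat_lit 76) (nat_lit 4734652991) (nat_lit 240) (nat_lit 5) (nat_lit 247) (nat_lit 5) (nat_lit 241) (nat_lit 4) (nat_lit 440) (nat_lit 382) (nat_lit 378))) (XT.nd (nat_lit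 78) (nat_lit 532) (nat_lit 0) (XT.lf (nat_lit 0) (nat_lit 4742168266) (nat_lit 380) (nat_lit 491912645) (nat_lit 456) (nat_lit 3008842448) (nat_lit 235) (nat_lit 5) (nat_lit 240) (nat_lit 5) (nat_lit 241) (nat_lit 4) (nat_lit 441) (nat_lit 382) (nat_lit 377)) (XT.lf (nat_lit 0) (nat_lit 895727071) (nat_lit 532) (nat_lit 4937823935) (nat_lit 76) (nat_lit 2503000922) (nat_lit 228) (nat_lit 5) (nat_lit 235) (nat_lit 5) (nat_lit 229) (nat_lit 4) (nat_lit 442) (nat_lit 382) (nat_lit 376)))) (XT.nd (nat_lit 156) (nat_lit 380) (nat_lit 0) (XT.nd (nat_lit 78) (nat_lit 456) (nat_lit 0) (XT.lf (nat_lit 0) (nat_lit 2017641428) (nat_lit 380) (nat_lit 2803961204) (nat_lit 456) (nat_lit 3611557304) (nat_lit 223) (nat_lit 5) (nat_lit 228) (nat_lit 5) (nat_lit 229) (nat_lit 4) (nat_lit 443) (nat_lit 382) (nat_lit 375)) (XT.lf (nat_lit 0) (nat_lit 291030327) (nat_lit 456) (nat_lit 7908954215) (nat_lit 76) (nat_lit 333641170) (nat_lit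 217) (nat_lit 5) (nat_lit 223) (nat_lit 5) (nat_lit 218) (nat_lit 4) (nat_lit 444) (nat_lit 382) (nat_lit 374))) (XT.nd (nat_lit 78) (nat_lit 380) (nat_lit 0) (XT.lf (nat_lit 0) (nat_lit 4237698337) (nat_lit 456) (nat_lit 825228560) (nat_lit 76) (nat_lit 3573121383) (nat_lit 217) (nat_lit 5) (nat_lit 223) (nat_lit 5) (nat_lit 218) (nat_lit 4) (nat_lit 445) (nat_lit 382) (nat_lit 373)) (XT.lf (nat_lit 0) (nat_lit 6467619042) (nat_lit 380) (nat_lit 1806448052) (nat_lit 456) (nat_lit 468340615) (nat_lit 212) (nat_lit 5) (nat_lit 217) (nat_lit 5) (nat_lit 218) (nat_lit 4) (nat_lit 446) (nat_lit 382) (nat_lit 372))))) (XT.nd (nat_lit 312) (nat_lit 1064) (nat_lit 0) (XT.nd (nat_lit 156) (nat_lit 684) (nat_lit 0) (XT.nd (nat_lit 78) (nat_lit 304) (nat_lit 0) (XT.lf (nat_lit 0) (nat_lit 3492013446) (nat_lit 456) (nat_lit 3788373840) (nat_lit 76) (nat_lit 1571072544) (nat_lit 206) (nat_lit 5) (nat_lit 212) (nat_lit 5) (nat_lit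 207) (nat_lit 4) (nat_lit 447) (nat_lit 382) (nat_lit 371)) (XT.lf (nat_lit 0) (nat_lit 3621410991) (nat_lit 304) (nat_lit 3926912827) (nat_lit 380) (nat_lit 1415726754) (nat_lit 202) (nat_lit 5) (nat_lit 206) (nat_lit 5) (nat_lit 207) (nat_lit 4) (nat_lit 448) (nat_lit 382) (nat_lit 370))) (XT.nd (nat_lit 78) (nat_lit 304) (nat_lit 0) (XT.lf (nat_lit 0) (nat_lit 2136525960) (nat_lit 304) (nat_lit 428454658) (nat_lit 380) (nat_lit 6515168594) (nat_lit 197) (nat_lit 5) (nat_lit 201) (nat_lit 5) (nat_lit 202) (nat_lit 5) (nat_lit 449) (nat_lit 382) (nat_lit 369)) (XT.lf (nat_lit 0) (nat_lit 585271942) (nat_lit 304) (nat_lit 6054079768) (nat_lit 380) (nat_lit 2559880357) (nat_lit 193) (nat_lit 5) (nat_lit 197) (nat_lit 5) (nat_lit 198) (nat_lit 4) (nat_lit 450) (nat_lit 382) (nat_lit 368)))) (XT.nd (nat_lit 156) (nat_lit 684) (nat_lit 0) (XT.nd (nat_lit 78) (nat_lit 304) (nat_lit 0) (XT.lf (nat_lit 0) (nat_lit 1472081370)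 (nat_lit 380) (nat_lit 989898197) (nat_lit 76) (nat_lit 6859846956) (nat_lit 192) (nat_lit 5) (nat_lit 197) (nat_lit 5) (nat_lit 193) (nat_lit 5) (nat_lit 451) (nat_lit 382) (nat_lit 367)) (XT.lf (nat_lit 0) (nat_lit 5566751224) (nat_lit 380) (nat_lit 2618363671) (nat_lit 76) (nat_lit 1262430005) (nat_lit 188) (nat_lit 5) (nat_lit 193) (nat_lit 5) (nat_lit 189) (nat_lit 4) (nat_lit 452) (nat_lit 382) (nat_lit 366))) (XT.nd (nat_lit 78) (nat_lit 304) (nat_lit 0) (XT.lf (nat_lit 0) (nat_lit 204242734) (nat_lit 380) (nat_lit 4304105317) (nat_lit 76) (nat_lit 5068597528) (nat_lit 183) (nat_lit 5) (nat_lit 188) (nat_lit 5) (nat_lit 184) (nat_lit 5) (nat_lit 453) (nat_lit 382) (nat_lit 365)) (XT.lf (nat_lit 0) (nat_lit 3647163518) (nat_lit 304) (nat_lit 664693111) (nat_lit 380) (nat_lit 5397880393) (nat_lit 179) (nat_lit 5) (nat_lit 183) (nat_lit 5) (nat_lit 184) (nat_lit 5) (nat_lit 454) (nat_lit 382) (nat_lit 364))))))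 (XT.nd (nat_lit 624) (nat_lit 1596) (nat_lit 0) (XT.nd (nat_lit 312) (nat_lit 760) (nat_lit 0) (XT.nd (nat_lit 156) (nat_lit 304) (nat_lit 0) (XT.nd (nat_lit 78) (nat_lit 380) (nat_lit 0) (XT.lf (nat_lit 0) (nat_lit 1954950665) (nat_lit 228) (nat_lit 6599116988) (nat_lit 304) (nat_lit 1292105677) (nat_lit 176) (nat_lit 5) (nat_lit 179) (nat_lit 5) (nat_lit 180) (nat_lit 4) (nat_lit 455) (nat_lit 382) (nat_lit 363)) (XT.lf (nat_lit 0) (nat_lit 189231975) (nat_lit 304) (nat_lit 2677902021) (nat_lit 380) (nat_lit 7119095863) (nat_lit 171) (nat_lit 5) (nat_lit 175) (nat_lit 5) (nat_lit 176) (nat_lit 5) (nat_lit 456) (nat_lit 382) (nat_lit 362))) (XT.nd (nat_lit 78) (nat_lit 304) (nat_lit 0) (XT.lf (nat_lit 0) (nat_lit 7136798936) (nat_lit 380) (nat_lit 1613042469) (nat_lit 76) (nat_lit 1379916341) (nat_lit 171) (nat_lit 5) (nat_lit 176) (nat_lit 5) (nat_lit 172) (nat_lit 4) (nat_lit 457) (nat_lit 382) (nat_lit 361))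 (XT.lf (nat_lit 0) (nat_lit 1244825571) (nat_lit 304) (nat_lit 3495226682) (nat_lit 76) (nat_lit 5536806887) (nat_lit 167) (nat_lit 5) (nat_lit 171) (nat_lit 5) (nat_lit 168) (nat_lit 5) (nat_lit 458) (nat_lit 382) (nat_lit 360)))) (XT.nd (nat_lit 156) (nat_lit 304) (nat_lit 0) (XT.nd (nat_lit 78) (nat_lit 228) (nat_lit 0) (XT.lf (nat_lit 0) (nat_lit 4971939100) (nat_lit 228) (nat_lit 562656868) (nat_lit 304) (nat_lit 4893340197) (nat_lit 164) (nat_lit 5) (nat_lit 167) (nat_lit 5) (nat_lit 168) (nat_lit 5) (nat_lit 459) (nat_lit 382) (nat_lit 359)) (XT.lf (nat_lit 0) (nat_lit 3076792283) (nat_lit 228) (nat_lit 6898814822) (nat_lit 304) (nat_lit 607263744) (nat_lit 161) (nat_lit 5) (nat_lit 164) (nat_lit 5) (nat_lit 165) (nat_lit 4) (nat_lit 460) (nat_lit 382) (nat_lit 358))) (XT.nd (nat_lit 78) (nat_lit 0) (nat_lit 0) (XT.lf (nat_lit 0) (nat_lit 1085553397) (nat_lit 228) (nat_lit 2640857664) (nat_lit 304) (nat_lit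 7015146853) (nat_lit 157) (nat_lit 5) (nat_lit 160) (nat_lit 5) (nat_lit 161) (nat_lit 5) (nat_lit 461) (nat_lit 382) (nat_lit 357)) (XT.lf (nat_lit 0) (nat_lit 8193434947) (nat_lit 304) (nat_lit 967547469) (nat_lit 76) (nat_lit 1743378096) (nat_lit 157) (nat_lit 5) (nat_lit 161) (nat_lit 5) (nat_lit 158) (nat_lit 4) (nat_lit 462) (nat_lit 382) (nat_lit 356))))) (XT.nd (nat_lit 312) (nat_lit 608) (nat_lit 0) (XT.nd (nat_lit 156) (nat_lit 456) (nat_lit 0) (XT.nd (nat_lit 78) (nat_lit 228) (nat_lit 0) (XT.lf (nat_lit 0) (nat_lit 1716474530) (nat_lit 304) (nat_lit 3103117200) (nat_lit 76) (nat_lit 6251130396) (nat_lit 153) (nat_lit 5) (nat_lit 157) (nat_lit 5) (nat_lit 154) (nat_lit 5) (nat_lit 463) (nat_lit 382) (nat_lit 355)) (XT.lf (nat_lit 0) (nat_lit 5910711771) (nat_lit 228) (nat_lit 302930296) (nat_lit 304) (nat_lit 5027885811) (nat_lit 150) (nat_lit 5) (nat_lit 153) (nat_lit 5) (nat_lit 154) (nat_lit 5) (nat_lit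 464) (nat_lit 382) (nat_lit 354))) (XT.nd (nat_lit 78) (nat_lit 304) (nat_lit 0) (XT.lf (nat_lit 0) (nat_lit 3745976436) (nat_lit 152) (nat_lit 7134454354) (nat_lit 228) (nat_lit 535987272) (nat_lit 148) (nat_lit 5) (nat_lit 150) (nat_lit 5) (nat_lit 151) (nat_lit 4) (nat_lit 465) (nat_lit 382) (nat_lit 353)) (XT.lf (nat_lit 0) (nat_lit 1467908214) (nat_lit 228) (nat_lit 2539890344) (nat_lit 304) (nat_lit 7587669472) (nat_lit 144) (nat_lit 5) (nat_lit 147) (nat_lit 5) (nat_lit 148) (nat_lit 5) (nat_lit 466) (nat_lit 382) (nat_lit 352)))) (XT.nd (nat_lit 156) (nat_lit 380) (nat_lit 0) (XT.nd (nat_lit 78) (nat_lit 228) (nat_lit 0) (XT.lf (nat_lit 0) (nat_lit 8702359093) (nat_lit 304) (nat_lit 894816775) (nat_lit 76) (nat_lit 2181798729) (nat_lit 144) (nat_lit 5) (nat_lit 148) (nat_lit 5) (nat_lit 145) (nat_lit 4) (nat_lit 467) (nat_lit 382) (nat_lit 351)) (XT.lf (nat_lit 0) (nat_lit 1575732682) (nat_lit 228) (nat_lit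 3348128859) (nat_lit 76) (nat_lit 7042575542) (nat_lit 141) (nat_lit 5) (nat_lit 144) (nat_lit 5) (nat_lit 142) (nat_lit 5) (nat_lit 468) (nat_lit 382) (nat_lit 350))) (XT.nd (nat_lit 78) (nat_lit 152) (nat_lit 0) (XT.lf (nat_lit 0) (nat_lit 6242950899) (nat_lit 228) (nat_lit 60301772) (nat_lit 304) (nat_lit 5855434987) (nat_lit 138) (nat_lit 5) (nat_lit 141) (nat_lit 5) (nat_lit 142) (nat_lit 5) (nat_lit 469) (nat_lit 382) (nat_lit 349)) (XT.lf (nat_lit 0) (nat_lit 3735036911) (nat_lit 152) (nat_lit 7483889061) (nat_lit 228) (nat_lit 1136391121) (nat_lit 136) (nat_lit 5) (nat_lit 138) (nat_lit 5) (nat_lit 139) (nat_lit 4) (nat_lit 470) (nat_lit 382) (nat_lit 348))))))))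
noncomputable def xc56 : XT := (XT.nd (nat_lit 2418) (nat_lit 2280) (nat_lit 0) (XT.nd (nat_lit 1170) (nat_lit 1824) (nat_lit 0) (XT.nd (nat_lit 546) (nat_lit 1140) (nat_lit 0) (XT.nd (nat_lit 234) (nat_lit 532) (nat_lit 0) (XT.nd (nat_lit 78) (nat_lit 228) (nat_lit 0) (XT.lf (nat_lit 0) (nat_lit 1100190860) (nat_lit 228) (nat_lit 2551759247) (nat_lit 304) (nat_lit 8904810452) (nat_lit 132) (nat_lit 5) (nat_lit 135) (nat_lit 5) (nat_lit 136) (nat_lit 5) (nat_lit 471) (nat_lit 382) (nat_lit 347)) (XT.nd (nat_lit 78) (nat_lit 228) (nat_lit 0) (XT.lf (nat_lit 0) (nat_lit 8602581890) (nat_lit 304) (nat_lit 1634277348) (nat_lit 76) (nat_lit 2525807203) (nat_lit 132) (nat_lit 5) (nat_lit 136) (nat_lit 5) (nat_lit 133) (nat_lit 4) (nat_lit 472) (nat_lit 382) (nat_lit 346)) (XT.lf (nat_lit 0) (nat_lit 751491606) (nat_lit 228) (nat_lit 4479210678) (nat_lit 76) (nat_lit 7742677746) (nat_lit 129) (nat_lit 5) (nat_lit 132)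 (nat_lit 5) (nat_lit 130) (nat_lit 5) (nat_lit 473) (nat_lit 382) (nat_lit 345)))) (XT.nd (nat_lit 156) (nat_lit 228) (nat_lit 0) (XT.nd (nat_lit 78) (nat_lit 152) (nat_lit 0) (XT.lf (nat_lit 0) (nat_lit 5718554499) (nat_lit 152) (nat_lit 11381304) (nat_lit 228) (nat_lit 7459150508) (nat_lit 127) (nat_lit 5) (nat_lit 129) (nat_lit 5) (nat_lit 130) (nat_lit 5) (nat_lit 474) (nat_lit 382) (nat_lit 344)) (XT.lf (nat_lit 0) (nat_lit 2784421891) (nat_lit 152) (nat_lit 8129149073) (nat_lit 228) (nat_lit 2496018641) (nat_lit 125) (nat_lit 5) (nat_lit 127) (nat_lit 5) (nat_lit 128) (nat_lit 4) (nat_lit 475) (nat_lit 382) (nat_lit 343))) (XT.nd (nat_lit 78) (nat_lit 152) (nat_lit 0) (XT.lf (nat_lit 0) (nat_lit 2573238798) (nat_lit 228) (nat_lit 282508787) (nat_lit 76) (nat_lit 10779958531) (nat_lit 124) (nat_lit 5) (nat_lit 127) (nat_lit 5) (nat_lit 125) (nat_lit 5) (nat_lit 476) (nat_lit 382) (nat_lit 342)) (XT.lf (nat_lit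 0) (nat_lit 7804127105) (nat_lit 228) (nat_lit 3461736323) (nat_lit 76) (nat_lit 2600210558) (nat_lit 122) (nat_lit 5) (nat_lit 125) (nat_lit 5) (nat_lit 123) (nat_lit 4) (nat_lit 477) (nat_lit 382) (nat_lit 341))))) (XT.nd (nat_lit 312) (nat_lit 532) (nat_lit 0) (XT.nd (nat_lit 156) (nat_lit 228) (nat_lit 0) (XT.nd (nat_lit 78) (nat_lit 228) (nat_lit 0) (XT.lf (nat_lit 0) (nat_lit 7309695746) (nat_lit 152) (nat_lit 5917922117) (nat_lit 228) (nat_lit 874665604) (nat_lit 120) (nat_lit 5) (nat_lit 122) (nat_lit 5) (nat_lit 123) (nat_lit 4) (nat_lit 478) (nat_lit 382) (nat_lit 340)) (XT.lf (nat_lit 0) (nat_lit 4047288707) (nat_lit 152) (nat_lit 342355379) (nat_lit 228) (nat_lit 9954389362) (nat_lit 117) (nat_lit 5) (nat_lit 119) (nat_lit 5) (nat_lit 120) (nat_lit 5) (nat_lit 479) (nat_lit 382) (nat_lit 339))) (XT.nd (nat_lit 78) (nat_lit 76) (nat_lit 0) (XT.lf (nat_lit 0) (nat_lit 591555037) (nat_lit 152) (nat_lit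 9264278497) (nat_lit 228) (nat_lit 4735097458) (nat_lit 115) (nat_lit 5) (nat_lit 117) (nat_lit 5) (nat_lit 118) (nat_lit 4) (nat_lit 480) (nat_lit 382) (nat_lit 338)) (XT.lf (nat_lit 0) (nat_lit 671452718) (nat_lit 228) (nat_lit 2954607286) (nat_lit 76) (nat_lit 11217695904) (nat_lit 114) (nat_lit 5) (nat_lit 117) (nat_lit 5) (nat_lit 115) (nat_lit 5) (nat_lit 481) (nat_lit 382) (nat_lit 337)))) (XT.nd (nat_lit 156) (nat_lit 228) (nat_lit 0) (XT.nd (nat_lit 78) (nat_lit 152) (nat_lit 0) (XT.lf (nat_lit 0) (nat_lit 6184409396) (nat_lit 228) (nat_lit 6700981858) (nat_lit 76) (nat_lit 2216187142) (nat_lit 112) (nat_lit 5) (nat_lit 115) (nat_lit 5) (nat_lit 113) (nat_lit 4) (nat_lit 482) (nat_lit 382) (nat_lit 336)) (XT.lf (nat_lit 0) (nat_lit 4730650562) (nat_lit 152) (nat_lit 7180534628) (nat_lit 228) (nat_lit 3454498144) (nat_lit 110) (nat_lit 5) (nat_lit 112) (nat_lit 5) (nat_lit 113) (nat_lit 4) (nat_lit 483)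 (nat_lit 382) (nat_lit 335))) (XT.nd (nat_lit 78) (nat_lit 0) (nat_lit 0) (XT.lf (nat_lit 0) (nat_lit 886298813) (nat_lit 152) (nat_lit 1257262374) (nat_lit 228) (nat_lit 13493107722) (nat_lit 107) (nat_lit 5) (nat_lit 109) (nat_lit 5) (nat_lit 110) (nat_lit 5) (nat_lit 484) (nat_lit 382) (nat_lit 334)) (XT.lf (nat_lit 0) (nat_lit 7932400812) (nat_lit 228) (nat_lit 3139689843) (nat_lit 76) (nat_lit 4839899823) (nat_lit 107) (nat_lit 5) (nat_lit 110) (nat_lit 5) (nat_lit 108) (nat_lit 4) (nat_lit 485) (nat_lit 382) (nat_lit 333)))))) (XT.nd (nat_lit 624) (nat_lit 912) (nat_lit 0) (XT.nd (nat_lit 312) (nat_lit 532) (nat_lit 0) (XT.nd (nat_lit 156) (nat_lit 76) (nat_lit 0) (XT.nd (nat_lit 78) (nat_lit 228) (nat_lit 0) (XT.lf (nat_lit 0) (nat_lit 8866700699) (nat_lit 76) (nat_lit 5064966332) (nat_lit 152) (nat_lit 2262802436) (nat_lit 106) (nat_lit 5) (nat_lit 107) (nat_lit 5) (nat_lit 108) (nat_lit 4) (nat_lit 486)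 (nat_lit 382) (nat_lit 332)) (XT.lf (nat_lit 0) (nat_lit 3583074017) (nat_lit 228) (nat_lit 11737709311) (nat_lit 76) (nat_lit 1162744601) (nat_lit 103) (nat_lit 5) (nat_lit 106) (nat_lit 5) (nat_lit 104) (nat_lit 4) (nat_lit 487) (nat_lit 382) (nat_lit 331))) (XT.nd (nat_lit 78) (nat_lit 0) (nat_lit 0) (XT.lf (nat_lit 0) (nat_lit 373309281) (nat_lit 76) (nat_lit 9253376887) (nat_lit 152) (nat_lit 7151865235) (nat_lit 102) (nat_lit 5) (nat_lit 103) (nat_lit 5) (nat_lit 104) (nat_lit 4) (nat_lit 488) (nat_lit 382) (nat_lit 330)) (XT.lf (nat_lit 0) (nat_lit 12975904530) (nat_lit 76) (nat_lit 2934289783) (nat_lit 152) (nat_lit 1170474183) (nat_lit 102) (nat_lit 5) (nat_lit 103) (nat_lit 5) (nat_lit 104) (nat_lit 4) (nat_lit 489) (nat_lit 382) (nat_lit 329)))) (XT.nd (nat_lit 156) (nat_lit 228) (nat_lit 0) (XT.nd (nat_lit 78) (nat_lit 76) (nat_lit 0) (XT.lf (nat_lit 0) (nat_lit 4951779281) (nat_lit 228) (nat_lit 8851055094)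 (nat_lit 76) (nat_lit 3585812111) (nat_lit 99) (nat_lit 5) (nat_lit 102) (nat_lit 5) (nat_lit 100) (nat_lit 4) (nat_lit 490) (nat_lit 382) (nat_lit 328)) (XT.lf (nat_lit 0) (nat_lit 3862628262) (nat_lit 76) (nat_lit 7420989724) (nat_lit 152) (nat_lit 6420415374) (nat_lit 98) (nat_lit 5) (nat_lit 99) (nat_lit 5) (nat_lit 100) (nat_lit 4) (nat_lit 491) (nat_lit 382) (nat_lit 327))) (XT.nd (nat_lit 78) (nat_lit 228) (nat_lit 0) (XT.lf (nat_lit 0) (nat_lit 17029808124) (nat_lit 76) (nat_lit 807037884) (nat_lit 152) (nat_lit 191093288) (nat_lit 98) (nat_lit 5) (nat_lit 99) (nat_lit 5) (nat_lit 100) (nat_lit 4) (nat_lit 492) (nat_lit 382) (nat_lit 326)) (XT.lf (nat_lit 0) (nat_lit 6224093027) (nat_lit 228) (nat_lit 6113542446) (nat_lit 76) (nat_lit 6018518443) (nat_lit 95) (nat_lit 5) (nat_lit 98) (nat_lit 5) (nat_lit 96) (nat_lit 4) (nat_lit 493) (nat_lit 382) (nat_lit 325))))) (XT.nd (nat_lit 312) (nat_lit 532) (nat_lit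 0) (XT.nd (nat_lit 156) (nat_lit 76) (nat_lit 0) (XT.nd (nat_lit 78) (nat_lit 228) (nat_lit 0) (XT.lf (nat_lit 0) (nat_lit 7230790232) (nat_lit 76) (nat_lit 5628118432) (nat_lit 152) (nat_lit 5834319557) (nat_lit 94) (nat_lit 5) (nat_lit 95) (nat_lit 5) (nat_lit 96) (nat_lit 4) (nat_lit 494) (nat_lit 382) (nat_lit 324)) (XT.lf (nat_lit 0) (nat_lit 677185848) (nat_lit 228) (nat_lit 17065619307) (nat_lit 76) (nat_lit 1296295042) (nat_lit 91) (nat_lit 5) (nat_lit 94) (nat_lit 5) (nat_lit 92) (nat_lit 4) (nat_lit 495) (nat_lit 382) (nat_lit 323))) (XT.nd (nat_lit 78) (nat_lit 76) (nat_lit 0) (XT.lf (nat_lit 0) (nat_lit 7382940450) (nat_lit 228) (nat_lit 3566728985) (nat_lit 76) (nat_lit 8440461297) (nat_lit 91) (nat_lit 5) (nat_lit 94) (nat_lit 5) (nat_lit 92) (nat_lit 4) (nat_lit 496) (nat_lit 382) (nat_lit 322)) (XT.lf (nat_lit 0) (nat_lit 10436249023) (nat_lit 76) (nat_lit 3899132417) (nat_lit 152) (nat_lit 5414945721)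 (nat_lit 90) (nat_lit 5) (nat_lit 91) (nat_lit 5) (nat_lit 92) (nat_lit 4) (nat_lit 497) (nat_lit 382) (nat_lit 321)))) (XT.nd (nat_lit 156) (nat_lit 304) (nat_lit 0) (XT.nd (nat_lit 78) (nat_lit 0) (nat_lit 0) (XT.lf (nat_lit 0) (nat_lit 1408679340) (nat_lit 228) (nat_lit 15365463190) (nat_lit 76) (nat_lit 3344977414) (nat_lit 87) (nat_lit 5) (nat_lit 90) (nat_lit 5) (nat_lit 88) (nat_lit 4) (nat_lit 498) (nat_lit 382) (nat_lit 320)) (XT.lf (nat_lit 0) (nat_lit 8407150732) (nat_lit 228) (nat_lit 1259668555) (nat_lit 76) (nat_lit 10828180006) (nat_lit 87) (nat_lit 5) (nat_lit 90) (nat_lit 5) (nat_lit 88) (nat_lit 4) (nat_lit 499) (nat_lit 382) (nat_lit 319))) (XT.nd (nat_lit 78) (nat_lit 228) (nat_lit 0) (XT.lf (nat_lit 0) (nat_lit 13429694638) (nat_lit 76) (nat_lit 2261949077) (nat_lit 152) (nat_lit 5188229632) (nat_lit 86) (nat_lit 5) (nat_lit 87) (nat_lit 5) (nat_lit 88) (nat_lit 4) (nat_lit 500) (nat_lit 382)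 (nat_lit 318)) (XT.lf (nat_lit 0) (nat_lit 1963414838) (nat_lit 228) (nat_lit 13994501577) (nat_lit 76) (nat_lit 5315350177) (nat_lit 83) (nat_lit 5) (nat_lit 86) (nat_lit 5) (nat_lit 84) (nat_lit 4) (nat_lit 501) (nat_lit 382) (nat_lit 317))))))) (XT.nd (nat_lit 1170) (nat_lit 1064) (nat_lit 0) (XT.nd (nat_lit 546) (nat_lit 608) (nat_lit 0) (XT.nd (nat_lit 234) (nat_lit 304) (nat_lit 0) (XT.nd (nat_lit 78) (nat_lit 228) (nat_lit 0) (XT.lf (nat_lit 0) (nat_lit 764671143) (nat_lit 76) (nat_lit 8513522412) (nat_lit 152) (nat_lit 12397141444) (nat_lit 82) (nat_lit 5) (nat_lit 83) (nat_lit 5) (nat_lit 84) (nat_lit 4) (nat_lit 502) (nat_lit 382) (nat_lit 316)) (XT.nd (nat_lit 78) (nat_lit 228) (nat_lit 0) (XT.lf (nat_lit 0) (nat_lit 16152655921) (nat_lit 76) (nat_lit 748787142) (nat_lit 152) (nat_lit 5185351883) (nat_lit 82) (nat_lit 5) (nat_lit 83) (nat_lit 5) (nat_lit 84) (nat_lit 4) (nat_lit 503) (nat_lit 382) (nat_lit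 315)) (XT.lf (nat_lit 0) (nat_lit 2309977247) (nat_lit 228) (nat_lit 13021372473) (nat_lit 76) (nat_lit 7175273966) (nat_lit 79) (nat_lit 5) (nat_lit 82) (nat_lit 5) (nat_lit 80) (nat_lit 4) (nat_lit 504) (nat_lit 382) (nat_lit 314)))) (XT.nd (nat_lit 156) (nat_lit 228) (nat_lit 0) (XT.nd (nat_lit 78) (nat_lit 0) (nat_lit 0) (XT.lf (nat_lit 0) (nat_lit 2440882523) (nat_lit 76) (nat_lit 7525284910) (nat_lit 152) (nat_lit 12970133288) (nat_lit 78) (nat_lit 5) (nat_lit 79) (nat_lit 5) (nat_lit 80) (nat_lit 4) (nat_lit 505) (nat_lit 382) (nat_lit 313)) (XT.lf (nat_lit 0) (nat_lit 17938705914) (nat_lit 152) (nat_lit 4846355523) (nat_lit 0) (nat_lit 591207027) (nat_lit 78) (nat_lit 5) (nat_lit 80) (nat_lit 4) (nat_lit 78) (nat_lit 4) (nat_lit 506) (nat_lit 382) (nat_lit 312))) (XT.nd (nat_lit 78) (nat_lit 76) (nat_lit 0) (XT.lf (nat_lit 0) (nat_lit 2410772050) (nat_lit 152) (nat_lit 12526670069) (nat_lit 76) (nat_lit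 8887271733) (nat_lit 76) (nat_lit 5) (nat_lit 78) (nat_lit 5) (nat_lit 77) (nat_lit 4) (nat_lit 507) (nat_lit 382) (nat_lit 311)) (XT.lf (nat_lit 0) (nat_lit 3661843134) (nat_lit 76) (nat_lit 6758497544) (nat_lit 152) (nat_lit 13863604850) (nat_lit 75) (nat_lit 5) (nat_lit 76) (nat_lit 5) (nat_lit 77) (nat_lit 4) (nat_lit 508) (nat_lit 382) (nat_lit 310))))) (XT.nd (nat_lit 312) (nat_lit 380) (nat_lit 0) (XT.nd (nat_lit 156) (nat_lit 76) (nat_lit 0) (XT.nd (nat_lit 78) (nat_lit 152) (nat_lit 0) (XT.lf (nat_lit 0) (nat_lit 18764488753) (nat_lit 152) (nat_lit 4273977428) (nat_lit 0) (nat_lit 1715659448) (nat_lit 75) (nat_lit 5) (nat_lit 77) (nat_lit 4) (nat_lit 75) (nat_lit 4) (nat_lit 509) (nat_lit 382) (nat_lit 309)) (XT.lf (nat_lit 0) (nat_lit 2221059491) (nat_lit 152) (nat_lit 12604972250) (nat_lit 76) (nat_lit 10407511433) (nat_lit 73) (nat_lit 5) (nat_lit 75) (nat_lit 5) (nat_lit 74) (nat_lit 4) (nat_lit 510)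 (nat_lit 382) (nat_lit 308))) (XT.nd (nat_lit 78) (nat_lit 0) (nat_lit 0) (XT.lf (nat_lit 0) (nat_lit 4330960604) (nat_lit 76) (nat_lit 6263959211) (nat_lit 152) (nat_lit 15129527689) (nat_lit 72) (nat_lit 5) (nat_lit 73) (nat_lit 5) (nat_lit 74) (nat_lit 4) (nat_lit 511) (nat_lit 382) (nat_lit 307)) (XT.lf (nat_lit 0) (nat_lit 19325185274) (nat_lit 152) (nat_lit 4312373509) (nat_lit 0) (nat_lit 2589364720) (nat_lit 72) (nat_lit 5) (nat_lit 74) (nat_lit 4) (nat_lit 72) (nat_lit 4) (nat_lit 512) (nat_lit 382) (nat_lit 306)))) (XT.nd (nat_lit 156) (nat_lit 152) (nat_lit 0) (XT.nd (nat_lit 78) (nat_lit 76) (nat_lit 0) (XT.lf (nat_lit 0) (nat_lit 1687826562) (nat_lit 152) (nat_lit 13367189855) (nat_lit 76) (nat_lit 11684634954) (nat_lit 70) (nat_lit 5) (nat_lit 72) (nat_lit 5) (nat_lit 71) (nat_lit 4) (nat_lit 513) (nat_lit 382) (nat_lit 305)) (XT.lf (nat_lit 0) (nat_lit 4334645637) (nat_lit 76) (nat_lit 6100872244)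 (nat_lit 152) (nat_lit 16829018642) (nat_lit 69) (nat_lit 5) (nat_lit 70) (nat_lit 5) (nat_lit 71) (nat_lit 4) (nat_lit 514) (nat_lit 382) (nat_lit 304))) (XT.nd (nat_lit 78) (nat_lit 152) (nat_lit 0) (XT.lf (nat_lit 0) (nat_lit 19565545723) (nat_lit 152) (nat_lit 5081939150) (nat_lit 0) (nat_lit 3154086377) (nat_lit 69) (nat_lit 5) (nat_lit 71) (nat_lit 4) (nat_lit 69) (nat_lit 4) (nat_lit 515) (nat_lit 382) (nat_lit 303)) (XT.lf (nat_lit 0) (nat_lit 748471502) (nat_lit 152) (nat_lit 14943289892) (nat_lit 76) (nat_lit 12658407216) (nat_lit 67) (nat_lit 5) (nat_lit 69) (nat_lit 5) (nat_lit 68) (nat_lit 4) (nat_lit 516) (nat_lit 382) (nat_lit 302)))))) (XT.nd (nat_lit 624) (nat_lit 532) (nat_lit 0) (XT.nd (nat_lit 312) (nat_lit 228) (nat_lit 0) (XT.nd (nat_lit 156) (nat_lit 228) (nat_lit 0) (XT.nd (nat_lit 78) (nat_lit 0) (nat_lit 0) (XT.lf (nat_lit 0) (nat_lit 3539462494) (nat_lit 76) (nat_lit 6338313448) (nat_lit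 152) (nat_lit 19033777528) (nat_lit 66) (nat_lit 5) (nat_lit 67) (nat_lit 5) (nat_lit 68) (nat_lit 4) (nat_lit 517) (nat_lit 382) (nat_lit 301)) (XT.lf (nat_lit 0) (nat_lit 19420048777) (nat_lit 152) (nat_lit 6723868733) (nat_lit 0) (nat_lit 3341689859) (nat_lit 66) (nat_lit 5) (nat_lit 68) (nat_lit 4) (nat_lit 66) (nat_lit 4) (nat_lit 518) (nat_lit 382) (nat_lit 300))) (XT.nd (nat_lit 78) (nat_lit 152) (nat_lit 0) (XT.lf (nat_lit 0) (nat_lit 12580653657) (nat_lit 76) (nat_lit 16807951499) (nat_lit 76) (nat_lit 684077436) (nat_lit 65) (nat_lit 4) (nat_lit 66) (nat_lit 5) (nat_lit 66) (nat_lit 4) (nat_lit 519) (nat_lit 382) (nat_lit 299)) (XT.lf (nat_lit 0) (nat_lit 1788823645) (nat_lit 76) (nat_lit 7056933580) (nat_lit 152) (nat_lit 21827760136) (nat_lit 63) (nat_lit 5) (nat_lit 64) (nat_lit 5) (nat_lit 65) (nat_lit 4) (nat_lit 520) (nat_lit 382) (nat_lit 298)))) (XT.nd (nat_lit 156) (nat_lit 152) (nat_lit 0) (XT.nd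 (nat_lit 78) (nat_lit 76) (nat_lit 0) (XT.lf (nat_lit 0) (nat_lit 18811235185) (nat_lit 152) (nat_lit 9403600695) (nat_lit 0) (nat_lit 3072433328) (nat_lit 63) (nat_lit 5) (nat_lit 65) (nat_lit 4) (nat_lit 63) (nat_lit 4) (nat_lit 521) (nat_lit 382) (nat_lit 297)) (XT.lf (nat_lit 0) (nat_lit 10717737165) (nat_lit 76) (nat_lit 18488510482) (nat_lit 76) (nat_lit 2709269008) (nat_lit 62) (nat_lit 4) (nat_lit 63) (nat_lit 5) (nat_lit 63) (nat_lit 4) (nat_lit 522) (nat_lit 382) (nat_lit 296))) (XT.nd (nat_lit 78) (nat_lit 76) (nat_lit 0) (XT.lf (nat_lit 0) (nat_lit 7260659971) (nat_lit 152) (nat_lit 1079363493) (nat_lit 76) (nat_lit 24218860603) (nat_lit 61) (nat_lit 5) (nat_lit 63) (nat_lit 5) (nat_lit 62) (nat_lit 4) (nat_lit 523) (nat_lit 382) (nat_lit 295)) (XT.lf (nat_lit 0) (nat_lit 17647768013) (nat_lit 152) (nat_lit 13314813944) (nat_lit 0) (nat_lit 2252989903) (nat_lit 60) (nat_lit 5) (nat_lit 62) (nat_lit 4)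 (nat_lit 60) (nat_lit 4) (nat_lit 524) (nat_lit 382) (nat_lit 294))))) (XT.nd (nat_lit 312) (nat_lit 228) (nat_lit 0) (XT.nd (nat_lit 156) (nat_lit 152) (nat_lit 0) (XT.nd (nat_lit 78) (nat_lit 76) (nat_lit 0) (XT.lf (nat_lit 0) (nat_lit 7625804704) (nat_lit 76) (nat_lit 20846544058) (nat_lit 76) (nat_lit 5415835872) (nat_lit 59) (nat_lit 4) (nat_lit 60) (nat_lit 5) (nat_lit 60) (nat_lit 4) (nat_lit 525) (nat_lit 382) (nat_lit 293)) (XT.lf (nat_lit 0) (nat_lit 5037108451) (nat_lit 152) (nat_lit 5240261598) (nat_lit 76) (nat_lit 24299308861) (nat_lit 58) (nat_lit 5) (nat_lit 60) (nat_lit 5) (nat_lit 59) (nat_lit 4) (nat_lit 526) (nat_lit 382) (nat_lit 292))) (XT.nd (nat_lit 78) (nat_lit 76) (nat_lit 0) (XT.lf (nat_lit 0) (nat_lit 15822176146) (nat_lit 152) (nat_lit 18684064272) (nat_lit 0) (nat_lit 774157412) (nat_lit 57) (nat_lit 5) (nat_lit 59) (nat_lit 4) (nat_lit 57) (nat_lit 4) (nat_lit 527) (nat_lit 382) (nat_lit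 291)) (XT.lf (nat_lit 0) (nat_lit 3070652290) (nat_lit 76) (nat_lit 24005085021) (nat_lit 76) (nat_lit 8925142881) (nat_lit 56) (nat_lit 4) (nat_lit 57) (nat_lit 5) (nat_lit 57) (nat_lit 4) (nat_lit 528) (nat_lit 382) (nat_lit 290)))) (XT.nd (nat_lit 156) (nat_lit 76) (nat_lit 0) (XT.nd (nat_lit 78) (nat_lit 76) (nat_lit 0) (XT.lf (nat_lit 0) (nat_lit 2037172569) (nat_lit 152) (nat_lit 10975475422) (nat_lit 76) (nat_lit 23725250712) (nat_lit 55) (nat_lit 5) (nat_lit 57) (nat_lit 5) (nat_lit 56) (nat_lit 4) (nat_lit 529) (nat_lit 382) (nat_lit 289)) (XT.lf (nat_lit 0) (nat_lit 11701371374) (nat_lit 76) (nat_lit 1521484776) (nat_lit 152) (nat_lit 24269304140) (nat_lit 54) (nat_lit 5) (nat_lit 55) (nat_lit 5) (nat_lit 56) (nat_lit 4) (nat_lit 530) (nat_lit 382) (nat_lit 288))) (XT.nd (nat_lit 78) (nat_lit 76) (nat_lit 0) (XT.lf (nat_lit 0) (nat_lit 24916625985) (nat_lit 152) (nat_lit 3159011754) (nat_lit 0) (nat_lit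 10188236615) (nat_lit 54) (nat_lit 5) (nat_lit 56) (nat_lit 4) (nat_lit 54) (nat_lit 4) (nat_lit 531) (nat_lit 382) (nat_lit 287)) (XT.lf (nat_lit 0) (nat_lit 20461612697) (nat_lit 76) (nat_lit 16673912272) (nat_lit 76) (nat_lit 1917985492) (nat_lit 53) (nat_lit 4) (nat_lit 54) (nat_lit 5) (nat_lit 54) (nat_lit 4) (nat_lit 532) (nat_lit 382) (nat_lit 286))))))))
noncomputable def xc57 : XT := (XT.nd (nat_lit 55536) (nat_lit 0) (nat_lit 6992) (XT.nd (nat_lit 1170) (nat_lit 304) (nat_lit 0) (XT.nd (nat_lit 546) (nat_lit 608) (nat_lit 0) (XT.nd (nat_lit 234) (nat_lit 228) (nat_lit 0) (XT.nd (nat_lit 78) (nat_lit 76) (nat_lit 0) (XT.lf (nat_lit 0) (nat_lit 4916290599) (nat_lit 76) (nat_lit 4787627001) (nat_lit 152) (nat_lit 30158814848) (nat_lit 51) (nat_lit 5) (nat_lit 52) (nat_lit 5) (nat_lit 53) (nat_lit 4) (nat_lit 533) (nat_lit 382) (nat_lit 285)) (XT.nd (nat_lit 78) (nat_lit 76) (nat_lit 0) (XT.lf (nat_lit 0)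 (nat_lit 21859802293) (nat_lit 152) (nat_lit 11346640468) (nat_lit 0) (nat_lit 7482502505) (nat_lit 51) (nat_lit 5) (nat_lit 53) (nat_lit 4) (nat_lit 51) (nat_lit 4) (nat_lit 534) (nat_lit 382) (nat_lit 284)) (XT.lf (nat_lit 0) (nat_lit 13097122074) (nat_lit 76) (nat_lit 21420239482) (nat_lit 76) (nat_lit 7018473060) (nat_lit 50) (nat_lit 4) (nat_lit 51) (nat_lit 5) (nat_lit 51) (nat_lit 4) (nat_lit 535) (nat_lit 382) (nat_lit 283)))) (XT.nd (nat_lit 156) (nat_lit 76) (nat_lit 0) (XT.nd (nat_lit 78) (nat_lit 76) (nat_lit 0) (XT.lf (nat_lit 0) (nat_lit 5125515600) (nat_lit 152) (nat_lit 4020723764) (nat_lit 76) (nat_lit 33258024452) (nat_lit 49) (nat_lit 5) (nat_lit 51) (nat_lit 5) (nat_lit 50) (nat_lit 4) (nat_lit 536) (nat_lit 382) (nat_lit 282)) (XT.lf (nat_lit 0) (nat_lit 17699310931) (nat_lit 152) (nat_lit 21919592955) (nat_lit 0) (nat_lit 3671560852) (nat_lit 48) (nat_lit 5) (nat_lit 50) (nat_lit 4) (nat_lit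 48) (nat_lit 4) (nat_lit 537) (nat_lit 382) (nat_lit 281))) (XT.nd (nat_lit 78) (nat_lit 0) (nat_lit 0) (XT.lf (nat_lit 0) (nat_lit 3308055359) (nat_lit 76) (nat_lit 27470420058) (nat_lit 76) (nat_lit 13420931692) (nat_lit 47) (nat_lit 4) (nat_lit 48) (nat_lit 5) (nat_lit 48) (nat_lit 4) (nat_lit 538) (nat_lit 382) (nat_lit 280)) (XT.lf (nat_lit 0) (nat_lit 29672410594) (nat_lit 76) (nat_lit 14764102886) (nat_lit 76) (nat_lit 693509387) (nat_lit 47) (nat_lit 4) (nat_lit 48) (nat_lit 5) (nat_lit 48) (nat_lit 4) (nat_lit 539) (nat_lit 382) (nat_lit 279))))) (XT.nd (nat_lit 312) (nat_lit 304) (nat_lit 0) (XT.nd (nat_lit 156) (nat_lit 152) (nat_lit 0) (XT.nd (nat_lit 78) (nat_lit 0) (nat_lit 0) (XT.lf (nat_lit 0) (nat_lit 10761681049) (nat_lit 76) (nat_lit 1481060314) (nat_lit 152) (nat_lit 33840156936) (nat_lit 45) (nat_lit 5) (nat_lit 46) (nat_lit 5) (nat_lit 47) (nat_lit 4) (nat_lit 540) (nat_lit 382) (nat_lit 278))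 (XT.lf (nat_lit 0) (nat_lit 25793913514) (nat_lit 152) (nat_lit 9169082045) (nat_lit 0) (nat_lit 12093935329) (nat_lit 45) (nat_lit 5) (nat_lit 47) (nat_lit 4) (nat_lit 45) (nat_lit 4) (nat_lit 541) (nat_lit 382) (nat_lit 277))) (XT.nd (nat_lit 78) (nat_lit 76) (nat_lit 0) (XT.lf (nat_lit 0) (nat_lit 18038806245) (nat_lit 76) (nat_lit 21867730314) (nat_lit 76) (nat_lit 8149000493) (nat_lit 44) (nat_lit 4) (nat_lit 45) (nat_lit 5) (nat_lit 45) (nat_lit 4) (nat_lit 542) (nat_lit 382) (nat_lit 276)) (XT.lf (nat_lit 0) (nat_lit 5314243608) (nat_lit 152) (nat_lit 2949020768) (nat_lit 76) (nat_lit 40817480759) (nat_lit 43) (nat_lit 5) (nat_lit 45) (nat_lit 5) (nat_lit 44) (nat_lit 4) (nat_lit 543) (nat_lit 382) (nat_lit 275)))) (XT.nd (nat_lit 156) (nat_lit 152) (nat_lit 0) (XT.nd (nat_lit 78) (nat_lit 76) (nat_lit 0) (XT.lf (nat_lit 0) (nat_lit 19286586782) (nat_lit 152) (nat_lit 24907036594) (nat_lit 0) (nat_lit 5932595995)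 (nat_lit 42) (nat_lit 5) (nat_lit 44) (nat_lit 4) (nat_lit 42) (nat_lit 4) (nat_lit 544) (nat_lit 382) (nat_lit 274)) (XT.lf (nat_lit 0) (nat_lit 3002955552) (nat_lit 76) (nat_lit 30783747811) (nat_lit 76) (nat_lit 17413096438) (nat_lit 41) (nat_lit 4) (nat_lit 42) (nat_lit 5) (nat_lit 42) (nat_lit 4) (nat_lit 545) (nat_lit 382) (nat_lit 273))) (XT.nd (nat_lit 78) (nat_lit 152) (nat_lit 0) (XT.lf (nat_lit 0) (nat_lit 32197193640) (nat_lit 76) (nat_lit 16744315102) (nat_lit 76) (nat_lit 3357488402) (nat_lit 41) (nat_lit 4) (nat_lit 42) (nat_lit 5) (nat_lit 42) (nat_lit 4) (nat_lit 546) (nat_lit 382) (nat_lit 272)) (XT.lf (nat_lit 0) (nat_lit 8839293048) (nat_lit 76) (nat_lit 2117270473) (nat_lit 152) (nat_lit 42469787355) (nat_lit 39) (nat_lit 5) (nat_lit 40) (nat_lit 5) (nat_lit 41) (nat_lit 4) (nat_lit 547) (nat_lit 382) (nat_lit 271)))))) (XT.nd (nat_lit 53742) (nat_lit 0) (nat_lit 14288) (XT.nd (nat_lit 312)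 (nat_lit 76) (nat_lit 0) (XT.nd (nat_lit 156) (nat_lit 152) (nat_lit 0) (XT.nd (nat_lit 78) (nat_lit 76) (nat_lit 0) (XT.lf (nat_lit 0) (nat_lit 25930835314) (nat_lit 152) (nat_lit 15742877595) (nat_lit 0) (nat_lit 12903866675) (nat_lit 39) (nat_lit 5) (nat_lit 41) (nat_lit 4) (nat_lit 39) (nat_lit 4) (nat_lit 548) (nat_lit 382) (nat_lit 270)) (XT.lf (nat_lit 0) (nat_lit 14161413082) (nat_lit 76) (nat_lit 27319733988) (nat_lit 76) (nat_lit 14278393782) (nat_lit 38) (nat_lit 4) (nat_lit 39) (nat_lit 5) (nat_lit 39) (nat_lit 4) (nat_lit 549) (nat_lit 382) (nat_lit 269))) (XT.nd (nat_lit 78) (nat_lit 76) (nat_lit 0) (XT.lf (nat_lit 0) (nat_lit 641115604) (nat_lit 152) (nat_lit 11753828507) (nat_lit 76) (nat_lit 44577958395) (nat_lit 37) (nat_lit 5) (nat_lit 39) (nat_lit 5) (nat_lit 38) (nat_lit 4) (nat_lit 550) (nat_lit 382) (nat_lit 268)) (XT.lf (nat_lit 0) (nat_lit 15907574353) (nat_lit 152) (nat_lit 39085878824)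 (nat_lit 0) (nat_lit 3219380405) (nat_lit 36) (nat_lit 5) (nat_lit 38) (nat_lit 4) (nat_lit 36) (nat_lit 4) (nat_lit 551) (nat_lit 382) (nat_lit 267)))) (XT.nd (nat_lit 53274) (nat_lit 0) (nat_lit 17632) (XT.nd (nat_lit 78) (nat_lit 76) (nat_lit 0) (XT.lf (nat_lit 0) (nat_lit 31845241104) (nat_lit 152) (nat_lit 8494046903) (nat_lit 0) (nat_lit 19144278204) (nat_lit 36) (nat_lit 5) (nat_lit 38) (nat_lit 4) (nat_lit 36) (nat_lit 4) (nat_lit 552) (nat_lit 382) (nat_lit 266)) (XT.lf (nat_lit 0) (nat_lit 23415320180) (nat_lit 76) (nat_lit 25042281849) (nat_lit 76) (nat_lit 12328921908) (nat_lit 35) (nat_lit 4) (nat_lit 36) (nat_lit 5) (nat_lit 36) (nat_lit 4) (nat_lit 553) (nat_lit 382) (nat_lit 265))) (XT.nd (nat_lit 78) (nat_lit 532) (nat_lit 0) (XT.lf (nat_lit 0) (nat_lit 1504315233) (nat_lit 608) (nat_lit 826410309) (nat_lit 0) (nat_lit 1504315233) (nat_lit 274) (nat_lit 5) (nat_lit 282) (nat_lit 4) (nat_lit 274)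 (nat_lit 4) (nat_lit 434) (nat_lit 383) (nat_lit 383)) (XT.lf (nat_lit 0) (nat_lit 4654587549) (nat_lit 532) (nat_lit 2226294647) (nat_lit 532) (nat_lit 863480082) (nat_lit 267) (nat_lit 4) (nat_lit 274) (nat_lit 5) (nat_lit 274) (nat_lit 4) (nat_lit 435) (nat_lit 383) (nat_lit 382))))) (XT.nd (nat_lit 312) (nat_lit 1824) (nat_lit 0) (XT.nd (nat_lit 156) (nat_lit 532) (nat_lit 0) (XT.nd (nat_lit 78) (nat_lit 456) (nat_lit 0) (XT.lf (nat_lit 0) (nat_lit 2938993787) (nat_lit 532) (nat_lit 4551212342) (nat_lit 0) (nat_lit 331289416) (nat_lit 260) (nat_lit 5) (nat_lit 267) (nat_lit 4) (nat_lit 260) (nat_lit 4) (nat_lit 436) (nat_lit 383) (nat_lit 381)) (XT.lf (nat_lit 0) (nat_lit 1862881549) (nat_lit 456) (nat_lit 4946769095) (nat_lit 456) (nat_lit 1091896342) (nat_lit 254) (nat_lit 4) (nat_lit 260) (nat_lit 5) (nat_lit 260) (nat_lit 4) (nat_lit 437) (nat_lit 383) (nat_lit 380))) (XT.nd (nat_lit 78) (nat_lit 0) (nat_lit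 0) (XT.lf (nat_lit 0) (nat_lit 433259962) (nat_lit 456) (nat_lit 2275595114) (nat_lit 532) (nat_lit 5275798907) (nat_lit 247) (nat_lit 5) (nat_lit 253) (nat_lit 5) (nat_lit 254) (nat_lit 4) (nat_lit 438) (nat_lit 383) (nat_lit 379)) (XT.lf (nat_lit 0) (nat_lit 6569965627) (nat_lit 532) (nat_lit 990460779) (nat_lit 0) (nat_lit 510459162) (nat_lit 247) (nat_lit 5) (nat_lit 254) (nat_lit 4) (nat_lit 247) (nat_lit 4) (nat_lit 439) (nat_lit 383) (nat_lit 378)))) (XT.nd (nat_lit 156) (nat_lit 912) (nat_lit 0) (XT.nd (nat_lit 78) (nat_lit 380) (nat_lit 0) (XT.lf (nat_lit 0) (nat_lit 2323046512) (nat_lit 532) (nat_lit 2451815000) (nat_lit 76) (nat_lit 3384685391) (nat_lit 240) (nat_lit 5) (nat_lit 247) (nat_lit 5) (nat_lit 241) (nat_lit 4) (nat_lit 440) (nat_lit 383) (nat_lit 377)) (XT.lf (nat_lit 0) (nat_lit 4319874086) (nat_lit 380) (nat_lit 1868939661) (nat_lit 456) (nat_lit 2062894877) (nat_lit 235) (nat_lit 5) (nat_lit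 240) (nat_lit 5) (nat_lit 241) (nat_lit 4) (nat_lit 441) (nat_lit 383) (nat_lit 376))) (XT.nd (nat_lit 78) (nat_lit 380) (nat_lit 0) (XT.lf (nat_lit 0) (nat_lit 1758754068) (nat_lit 532) (nat_lit 5447109540) (nat_lit 76) (nat_lit 1141136423) (nat_lit 228) (nat_lit 5) (nat_lit 235) (nat_lit 5) (nat_lit 229) (nat_lit 4) (nat_lit 442) (nat_lit 383) (nat_lit 375)) (XT.lf (nat_lit 0) (nat_lit 1433955893) (nat_lit 380) (nat_lit 4199473875) (nat_lit 456) (nat_lit 2811715992) (nat_lit 223) (nat_lit 5) (nat_lit 228) (nat_lit 5) (nat_lit 229) (nat_lit 4) (nat_lit 443) (nat_lit 383) (nat_lit 374))))))) (XT.nd (nat_lit 1248) (nat_lit 2812) (nat_lit 0) (XT.nd (nat_lit 624) (nat_lit 2128) (nat_lit 0) (XT.nd (nat_lit 312) (nat_lit 1064) (nat_lit 0) (XT.nd (nat_lit 156) (nat_lit 836) (nat_lit 0) (XT.nd (nat_lit 78) (nat_lit 380) (nat_lit 0) (XT.lf (nat_lit 0) (nat_lit 1020648907) (nat_lit 456) (nat_lit 50870335) (nat_lit 76) (nat_lit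 7475501713) (nat_lit 222) (nat_lit 5) (nat_lit 228) (nat_lit 5) (nat_lit 223) (nat_lit 5) (nat_lit 444) (nat_lit 383) (nat_lit 373)) (XT.lf (nat_lit 0) (nat_lit 4911749603) (nat_lit 456) (nat_lit 1568728555) (nat_lit 76) (nat_lit 2170633963) (nat_lit 217) (nat_lit 5) (nat_lit 223) (nat_lit 5) (nat_lit 218) (nat_lit 4) (nat_lit 445) (nat_lit 383) (nat_lit 372))) (XT.nd (nat_lit 78) (nat_lit 380) (nat_lit 0) (XT.lf (nat_lit 0) (nat_lit 135059989) (nat_lit 456) (nat_lit 3114230646) (nat_lit 76) (nat_lit 5509683423) (nat_lit 211) (nat_lit 5) (nat_lit 217) (nat_lit 5) (nat_lit 212) (nat_lit 5) (nat_lit 446) (nat_lit 383) (nat_lit 371)) (XT.lf (nat_lit 0) (nat_lit 4020086212) (nat_lit 456) (nat_lit 4716487165) (nat_lit 76) (nat_lit 133304854) (nat_lit 206) (nat_lit 5) (nat_lit 212) (nat_lit 5) (nat_lit 207) (nat_lit 4) (nat_lit 447) (nat_lit 383) (nat_lit 370)))) (XT.nd (nat_lit 156) (nat_lit 380) (nat_lit 0) (XT.nd (nat_lit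 78) (nat_lit 380) (nat_lit 0) (XT.lf (nat_lit 0) (nat_lit 2610859176) (nat_lit 304) (nat_lit 5413097119) (nat_lit 380) (nat_lit 960087290) (nat_lit 202) (nat_lit 5) (nat_lit 206) (nat_lit 5) (nat_lit 207) (nat_lit 4) (nat_lit 448) (nat_lit 383) (nat_lit 369)) (XT.lf (nat_lit 0) (nat_lit 1016800181) (nat_lit 304) (nat_lit 1941668512) (nat_lit 380) (nat_lit 6143141264) (nat_lit 197) (nat_lit 5) (nat_lit 201) (nat_lit 5) (nat_lit 202) (nat_lit 5) (nat_lit 449) (nat_lit 383) (nat_lit 368))) (XT.nd (nat_lit 78) (nat_lit 380) (nat_lit 0) (XT.lf (nat_lit 0) (nat_lit 6970612872) (nat_lit 380) (nat_lit 616183625) (nat_lit 76) (nat_lit 1635764407) (nat_lit 197) (nat_lit 5) (nat_lit 202) (nat_lit 5) (nat_lit 198) (nat_lit 4) (nat_lit 450) (nat_lit 383) (nat_lit 367)) (XT.lf (nat_lit 0) (nat_lit 1726059052) (nat_lit 380) (nat_lit 2293634029) (nat_lit 76) (nat_lit 5326813061) (nat_lit 192) (nat_lit 5) (nat_lit 197) (nat_lit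 5) (nat_lit 193) (nat_lit 5) (nat_lit 451) (nat_lit 383) (nat_lit 366))))) (XT.nd (nat_lit 312) (nat_lit 912) (nat_lit 0) (XT.nd (nat_lit 156) (nat_lit 532) (nat_lit 0) (XT.nd (nat_lit 78) (nat_lit 380) (nat_lit 0) (XT.lf (nat_lit 0) (nat_lit 5449263449) (nat_lit 304) (nat_lit 305075375) (nat_lit 380) (nat_lit 3719878572) (nat_lit 188) (nat_lit 5) (nat_lit 192) (nat_lit 5) (nat_lit 193) (nat_lit 5) (nat_lit 452) (nat_lit 383) (nat_lit 365)) (XT.lf (nat_lit 0) (nat_lit 303910130) (nat_lit 380) (nat_lit 5828460019) (nat_lit 76) (nat_lit 3472945860) (nat_lit 183) (nat_lit 5) (nat_lit 188) (nat_lit 5) (nat_lit 184) (nat_lit 5) (nat_lit 453) (nat_lit 383) (nat_lit 364))) (XT.nd (nat_lit 78) (nat_lit 228) (nat_lit 0) (XT.lf (nat_lit 0) (nat_lit 2028894032) (nat_lit 304) (nat_lit 2327027141) (nat_lit 380) (nat_lit 5383855440) (nat_lit 179) (nat_lit 5) (nat_lit 183) (nat_lit 5) (nat_lit 184) (nat_lit 5) (nat_lit 454) (nat_lit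 383) (nat_lit 363)) (XT.lf (nat_lit 0) (nat_lit 226189863) (nat_lit 228) (nat_lit 8299657182) (nat_lit 304) (nat_lit 1352535474) (nat_lit 176) (nat_lit 5) (nat_lit 179) (nat_lit 5) (nat_lit 180) (nat_lit 4) (nat_lit 455) (nat_lit 383) (nat_lit 362)))) (XT.nd (nat_lit 156) (nat_lit 532) (nat_lit 0) (XT.nd (nat_lit 78) (nat_lit 304) (nat_lit 0) (XT.lf (nat_lit 0) (nat_lit 2766547296) (nat_lit 304) (nat_lit 1637719248) (nat_lit 76) (nat_lit 5615431000) (nat_lit 175) (nat_lit 5) (nat_lit 179) (nat_lit 5) (nat_lit 176) (nat_lit 5) (nat_lit 456) (nat_lit 383) (nat_lit 361)) (XT.lf (nat_lit 0) (nat_lit 6608851524) (nat_lit 304) (nat_lit 358811523) (nat_lit 380) (nat_lit 3197619814) (nat_lit 171) (nat_lit 5) (nat_lit 175) (nat_lit 5) (nat_lit 176) (nat_lit 5) (nat_lit 457) (nat_lit 383) (nat_lit 360))) (XT.nd (nat_lit 78) (nat_lit 228) (nat_lit 0) (XT.lf (nat_lit 0) (nat_lit 982435549) (nat_lit 304) (nat_lit 5571141713)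 (nat_lit 76) (nat_lit 3760718594) (nat_lit 167) (nat_lit 5) (nat_lit 171) (nat_lit 5) (nat_lit 168) (nat_lit 5) (nat_lit 458) (nat_lit 383) (nat_lit 359)) (XT.lf (nat_lit 0) (nat_lit 2791973141) (nat_lit 228) (nat_lit 2421382394) (nat_lit 304) (nat_lit 5253783733) (nat_lit 164) (nat_lit 5) (nat_lit 167) (nat_lit 5) (nat_lit 168) (nat_lit 5) (nat_lit 459) (nat_lit 383) (nat_lit 358)))))) (XT.nd (nat_lit 624) (nat_lit 1292) (nat_lit 0) (XT.nd (nat_lit 312) (nat_lit 684) (nat_lit 0) (XT.nd (nat_lit 156) (nat_lit 532) (nat_lit 0) (XT.nd (nat_lit 78) (nat_lit 76) (nat_lit 0) (XT.lf (nat_lit 0) (nat_lit 768645330) (nat_lit 228) (nat_lit 8808063618) (nat_lit 304) (nat_lit 1047695583) (nat_lit 161) (nat_lit 5) (nat_lit 164) (nat_lit 5) (nat_lit 165) (nat_lit 4) (nat_lit 460) (nat_lit 383) (nat_lit 357)) (XT.lf (nat_lit 0) (nat_lit 3246674294) (nat_lit 304) (nat_lit 1343021916) (nat_lit 76) (nat_lit 6194960178) (nat_lit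 160) (nat_lit 5) (nat_lit 164) (nat_lit 5) (nat_lit 161) (nat_lit 5) (nat_lit 461) (nat_lit 383) (nat_lit 356))) (XT.nd (nat_lit 78) (nat_lit 304) (nat_lit 0) (XT.lf (nat_lit 0) (nat_lit 7437775645) (nat_lit 228) (nat_lit 208700950) (nat_lit 304) (nat_lit 3302999816) (nat_lit 157) (nat_lit 5) (nat_lit 160) (nat_lit 5) (nat_lit 161) (nat_lit 5) (nat_lit 462) (nat_lit 383) (nat_lit 355)) (XT.lf (nat_lit 0) (nat_lit 1071687989) (nat_lit 304) (nat_lit 5798165745) (nat_lit 76) (nat_lit 4248083738) (nat_lit 153) (nat_lit 5) (nat_lit 157) (nat_lit 5) (nat_lit 154) (nat_lit 5) (nat_lit 463) (nat_lit 383) (nat_lit 354)))) (XT.nd (nat_lit 156) (nat_lit 304) (nat_lit 0) (XT.nd (nat_lit 78) (nat_lit 152) (nat_lit 0) (XT.lf (nat_lit 0) (nat_lit 3100295743) (nat_lit 228) (nat_lit 2405554059) (nat_lit 304) (nat_lit 5784784305) (nat_lit 150) (nat_lit 5) (nat_lit 153) (nat_lit 5) (nat_lit 154) (nat_lit 5) (nat_lit 464) (nat_lit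 383) (nat_lit 353)) (XT.lf (nat_lit 0) (nat_lit 788184414) (nat_lit 152) (nat_lit 9300057476) (nat_lit 228) (nat_lit 1379814990) (nat_lit 148) (nat_lit 5) (nat_lit 150) (nat_lit 5) (nat_lit 151) (nat_lit 4) (nat_lit 465) (nat_lit 383) (nat_lit 352))) (XT.nd (nat_lit 78) (nat_lit 228) (nat_lit 0) (XT.lf (nat_lit 0) (nat_lit 3130686609) (nat_lit 228) (nat_lit 1622933936) (nat_lit 76) (nat_lit 6895222807) (nat_lit 147) (nat_lit 5) (nat_lit 150) (nat_lit 5) (nat_lit 148) (nat_lit 5) (nat_lit 466) (nat_lit 383) (nat_lit 351)) (XT.lf (nat_lit 0) (nat_lit 7722766319) (nat_lit 228) (nat_lit 29998198) (nat_lit 304) (nat_lit 4081760512) (nat_lit 144) (nat_lit 5) (nat_lit 147) (nat_lit 5) (nat_lit 148) (nat_lit 5) (nat_lit 467) (nat_lit 383) (nat_lit 350))))) (XT.nd (nat_lit 312) (nat_lit 608) (nat_lit 0) (XT.nd (nat_lit 156) (nat_lit 228) (nat_lit 0) (XT.nd (nat_lit 78) (nat_lit 228) (nat_lit 0) (XT.lf (nat_lit 0) (nat_lit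 522743122) (nat_lit 228) (nat_lit 6736529143) (nat_lit 76) (nat_lit 4765029464) (nat_lit 141) (nat_lit 5) (nat_lit 144) (nat_lit 5) (nat_lit 142) (nat_lit 5) (nat_lit 468) (nat_lit 383) (nat_lit 349)) (XT.lf (nat_lit 0) (nat_lit 2726513817) (nat_lit 228) (nat_lit 2455656586) (nat_lit 304) (nat_lit 7036425261) (nat_lit 138) (nat_lit 5) (nat_lit 141) (nat_lit 5) (nat_lit 142) (nat_lit 5) (nat_lit 469) (nat_lit 383) (nat_lit 348))) (XT.nd (nat_lit 78) (nat_lit 76) (nat_lit 0) (XT.lf (nat_lit 0) (nat_lit 50200931) (nat_lit 152) (nat_lit 9955098773) (nat_lit 228) (nat_lit 2412702276) (nat_lit 136) (nat_lit 5) (nat_lit 138) (nat_lit 5) (nat_lit 139) (nat_lit 4) (nat_lit 470) (nat_lit 383) (nat_lit 347)) (XT.lf (nat_lit 0) (nat_lit 2355962990) (nat_lit 228) (nat_lit 2716234970) (nat_lit 76) (nat_lit 7548953517) (nat_lit 135) (nat_lit 5) (nat_lit 138) (nat_lit 5) (nat_lit 136) (nat_lit 5) (nat_lit 471) (nat_lit 383) (nat_lit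 346)))) (XT.nd (nat_lit 156) (nat_lit 228) (nat_lit 0) (XT.nd (nat_lit 78) (nat_lit 152) (nat_lit 0) (XT.lf (nat_lit 0) (nat_lit 7221644370) (nat_lit 304) (nat_lit 5605341901) (nat_lit 76) (nat_lit 2620114) (nat_lit 132) (nat_lit 5) (nat_lit 136) (nat_lit 5) (nat_lit 133) (nat_lit 4) (nat_lit 472) (nat_lit 383) (nat_lit 345)) (XT.lf (nat_lit 0) (nat_lit 4392366331) (nat_lit 152) (nat_lit 7894399305) (nat_lit 228) (nat_lit 755946233) (nat_lit 130) (nat_lit 5) (nat_lit 132) (nat_lit 5) (nat_lit 133) (nat_lit 4) (nat_lit 473) (nat_lit 383) (nat_lit 344))) (XT.nd (nat_lit 78) (nat_lit 0) (nat_lit 0) (XT.lf (nat_lit 0) (nat_lit 1412437862) (nat_lit 152) (nat_lit 2750656194) (nat_lit 228) (nat_lit 9097767216) (nat_lit 127) (nat_lit 5) (nat_lit 129) (nat_lit 5) (nat_lit 130) (nat_lit 5) (nat_lit 474) (nat_lit 383) (nat_lit 343)) (XT.lf (nat_lit 0) (nat_lit 9261026943) (nat_lit 228) (nat_lit 1679850217) (nat_lit 76) (nat_lit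 2543058932) (nat_lit 127) (nat_lit 5) (nat_lit 130) (nat_lit 5) (nat_lit 128) (nat_lit 4) (nat_lit 475) (nat_lit 383) (nat_lit 342))))))))
noncomputable def xc58 : XT := (XT.nd (nat_lit 2418) (nat_lit 2280) (nat_lit 0) (XT.nd (nat_lit 1170) (nat_lit 1596) (nat_lit 0) (XT.nd (nat_lit 546) (nat_lit 988) (nat_lit 0) (XT.nd (nat_lit 234) (nat_lit 608) (nat_lit 0) (XT.nd (nat_lit 78) (nat_lit 304) (nat_lit 0) (XT.lf (nat_lit 0) (nat_lit 830883486) (nat_lit 228) (nat_lit 4896744293) (nat_lit 76) (nat_lit 7984398133) (nat_lit 124) (nat_lit 5) (nat_lit 127) (nat_lit 5) (nat_lit 125) (nat_lit 5) (nat_lit 476) (nat_lit 383) (nat_lit 341)) (XT.nd (nat_lit 78) (nat_lit 152) (nat_lit 0) (XT.lf (nat_lit 0) (nat_lit 5666646414) (nat_lit 152) (nat_lit 292256144) (nat_lit 228) (nat_lit 7986577718) (nat_lit 122) (nat_lit 5) (nat_lit 124) (nat_lit 5) (nat_lit 125) (nat_lit 5) (nat_lit 477) (nat_lit 383) (nat_lit 340)) (XT.lf (nat_lit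 0) (nat_lit 2341570664) (nat_lit 152) (nat_lit 8958813145) (nat_lit 228) (nat_lit 2883766637) (nat_lit 120) (nat_lit 5) (nat_lit 122) (nat_lit 5) (nat_lit 123) (nat_lit 4) (nat_lit 478) (nat_lit 383) (nat_lit 339)))) (XT.nd (nat_lit 156) (nat_lit 380) (nat_lit 0) (XT.nd (nat_lit 78) (nat_lit 152) (nat_lit 0) (XT.lf (nat_lit 0) (nat_lit 2349465652) (nat_lit 228) (nat_lit 1119325794) (nat_lit 76) (nat_lit 10959797211) (nat_lit 119) (nat_lit 5) (nat_lit 122) (nat_lit 5) (nat_lit 120) (nat_lit 5) (nat_lit 479) (nat_lit 383) (nat_lit 338)) (XT.lf (nat_lit 0) (nat_lit 7737583524) (nat_lit 228) (nat_lit 4720688154) (nat_lit 76) (nat_lit 2219557041) (nat_lit 117) (nat_lit 5) (nat_lit 120) (nat_lit 5) (nat_lit 118) (nat_lit 4) (nat_lit 480) (nat_lit 383) (nat_lit 337))) (XT.nd (nat_lit 78) (nat_lit 228) (nat_lit 0) (XT.lf (nat_lit 0) (nat_lit 6433208516) (nat_lit 152) (nat_lit 6900146835) (nat_lit 228) (nat_lit 1599811050)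 (nat_lit 115) (nat_lit 5) (nat_lit 117) (nat_lit 5) (nat_lit 118) (nat_lit 4) (nat_lit 481) (nat_lit 383) (nat_lit 336)) (XT.lf (nat_lit 0) (nat_lit 2726359034) (nat_lit 152) (nat_lit 1111237547) (nat_lit 228) (nat_lit 11357057011) (nat_lit 112) (nat_lit 5) (nat_lit 114) (nat_lit 5) (nat_lit 115) (nat_lit 5) (nat_lit 482) (nat_lit 383) (nat_lit 335))))) (XT.nd (nat_lit 312) (nat_lit 532) (nat_lit 0) (XT.nd (nat_lit 156) (nat_lit 304) (nat_lit 0) (XT.nd (nat_lit 78) (nat_lit 152) (nat_lit 0) (XT.lf (nat_lit 0) (nat_lit 9478049556) (nat_lit 228) (nat_lit 1173888920) (nat_lit 76) (nat_lit 4809410069) (nat_lit 112) (nat_lit 5) (nat_lit 115) (nat_lit 5) (nat_lit 113) (nat_lit 4) (nat_lit 483) (nat_lit 383) (nat_lit 334)) (XT.lf (nat_lit 0) (nat_lit 10544534410) (nat_lit 152) (nat_lit 4796089191) (nat_lit 228) (nat_lit 393834170) (nat_lit 110) (nat_lit 5) (nat_lit 112) (nat_lit 5) (nat_lit 113) (nat_lit 4) (nat_lit 484)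 (nat_lit 383) (nat_lit 333))) (XT.nd (nat_lit 78) (nat_lit 76) (nat_lit 0) (XT.lf (nat_lit 0) (nat_lit 5287278524) (nat_lit 228) (nat_lit 9435965351) (nat_lit 76) (nat_lit 1290111702) (nat_lit 107) (nat_lit 5) (nat_lit 110) (nat_lit 5) (nat_lit 108) (nat_lit 4) (nat_lit 485) (nat_lit 383) (nat_lit 332)) (XT.lf (nat_lit 0) (nat_lit 2389908291) (nat_lit 76) (nat_lit 8805242313) (nat_lit 152) (nat_lit 5103426077) (nat_lit 106) (nat_lit 5) (nat_lit 107) (nat_lit 5) (nat_lit 108) (nat_lit 4) (nat_lit 486) (nat_lit 383) (nat_lit 331)))) (XT.nd (nat_lit 156) (nat_lit 304) (nat_lit 0) (XT.nd (nat_lit 78) (nat_lit 152) (nat_lit 0) (XT.lf (nat_lit 0) (nat_lit 711661804) (nat_lit 152) (nat_lit 1943050706) (nat_lit 76) (nat_lit 13936328667) (nat_lit 105) (nat_lit 5) (nat_lit 107) (nat_lit 5) (nat_lit 106) (nat_lit 5) (nat_lit 487) (nat_lit 383) (nat_lit 330)) (XT.lf (nat_lit 0) (nat_lit 6677933511) (nat_lit 228) (nat_lit 6498164880)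 (nat_lit 76) (nat_lit 3712286740) (nat_lit 103) (nat_lit 5) (nat_lit 106) (nat_lit 5) (nat_lit 104) (nat_lit 4) (nat_lit 488) (nat_lit 383) (nat_lit 329))) (XT.nd (nat_lit 78) (nat_lit 228) (nat_lit 0) (XT.lf (nat_lit 0) (nat_lit 5921363920) (nat_lit 76) (nat_lit 6947703050) (nat_lit 152) (nat_lit 4324206755) (nat_lit 102) (nat_lit 5) (nat_lit 103) (nat_lit 5) (nat_lit 104) (nat_lit 4) (nat_lit 489) (nat_lit 383) (nat_lit 328)) (XT.lf (nat_lit 0) (nat_lit 1241149768) (nat_lit 152) (nat_lit 484688637) (nat_lit 228) (nat_lit 15780335494) (nat_lit 99) (nat_lit 5) (nat_lit 101) (nat_lit 5) (nat_lit 102) (nat_lit 5) (nat_lit 490) (nat_lit 383) (nat_lit 327)))))) (XT.nd (nat_lit 624) (nat_lit 912) (nat_lit 0) (XT.nd (nat_lit 312) (nat_lit 380) (nat_lit 0) (XT.nd (nat_lit 156) (nat_lit 228) (nat_lit 0) (XT.nd (nat_lit 78) (nat_lit 76) (nat_lit 0) (XT.lf (nat_lit 0) (nat_lit 7987861940) (nat_lit 228) (nat_lit 3674872237)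 (nat_lit 76) (nat_lit 6160921288) (nat_lit 99) (nat_lit 5) (nat_lit 102) (nat_lit 5) (nat_lit 100) (nat_lit 4) (nat_lit 491) (nat_lit 383) (nat_lit 326)) (XT.lf (nat_lit 0) (nat_lit 9366871477) (nat_lit 76) (nat_lit 5110477788) (nat_lit 152) (nat_lit 3672124590) (nat_lit 98) (nat_lit 5) (nat_lit 99) (nat_lit 5) (nat_lit 100) (nat_lit 4) (nat_lit 492) (nat_lit 383) (nat_lit 325))) (XT.nd (nat_lit 78) (nat_lit 0) (nat_lit 0) (XT.lf (nat_lit 0) (nat_lit 2664635749) (nat_lit 228) (nat_lit 14154110679) (nat_lit 76) (nat_lit 1664336721) (nat_lit 95) (nat_lit 5) (nat_lit 98) (nat_lit 5) (nat_lit 96) (nat_lit 4) (nat_lit 493) (nat_lit 383) (nat_lit 324)) (XT.lf (nat_lit 0) (nat_lit 9202845416) (nat_lit 228) (nat_lit 1002266476) (nat_lit 76) (nat_lit 8617943952) (nat_lit 95) (nat_lit 5) (nat_lit 98) (nat_lit 5) (nat_lit 96) (nat_lit 4) (nat_lit 494) (nat_lit 383) (nat_lit 323)))) (XT.nd (nat_lit 156) (nat_lit 76) (nat_lit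 0) (XT.nd (nat_lit 78) (nat_lit 228) (nat_lit 0) (XT.lf (nat_lit 0) (nat_lit 12690487533) (nat_lit 76) (nat_lit 3315293486) (nat_lit 152) (nat_lit 3165389729) (nat_lit 94) (nat_lit 5) (nat_lit 95) (nat_lit 5) (nat_lit 96) (nat_lit 4) (nat_lit 495) (nat_lit 383) (nat_lit 322)) (XT.lf (nat_lit 0) (nat_lit 3479101257) (nat_lit 228) (nat_lit 12272414209) (nat_lit 76) (nat_lit 3775289791) (nat_lit 91) (nat_lit 5) (nat_lit 94) (nat_lit 5) (nat_lit 92) (nat_lit 4) (nat_lit 496) (nat_lit 383) (nat_lit 321))) (XT.nd (nat_lit 78) (nat_lit 0) (nat_lit 0) (XT.lf (nat_lit 0) (nat_lit 1506316868) (nat_lit 76) (nat_lit 8813173796) (nat_lit 152) (nat_lit 9570872758) (nat_lit 90) (nat_lit 5) (nat_lit 91) (nat_lit 5) (nat_lit 92) (nat_lit 4) (nat_lit 497) (nat_lit 383) (nat_lit 320)) (XT.lf (nat_lit 0) (nat_lit 15849493941) (nat_lit 76) (nat_lit 1586899399) (nat_lit 152) (nat_lit 2826296316) (nat_lit 90) (nat_lit 5) (nat_lit 91)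 (nat_lit 5) (nat_lit 92) (nat_lit 4) (nat_lit 498) (nat_lit 383) (nat_lit 319))))) (XT.nd (nat_lit 312) (nat_lit 380) (nat_lit 0) (XT.nd (nat_lit 156) (nat_lit 228) (nat_lit 0) (XT.nd (nat_lit 78) (nat_lit 76) (nat_lit 0) (XT.lf (nat_lit 0) (nat_lit 4142255371) (nat_lit 228) (nat_lit 10666451527) (nat_lit 76) (nat_lit 5833229448) (nat_lit 87) (nat_lit 5) (nat_lit 90) (nat_lit 5) (nat_lit 88) (nat_lit 4) (nat_lit 499) (nat_lit 383) (nat_lit 318)) (XT.lf (nat_lit 0) (nat_lit 3786106980) (nat_lit 76) (nat_lit 7522580466) (nat_lit 152) (nat_lit 9721664950) (nat_lit 86) (nat_lit 5) (nat_lit 87) (nat_lit 5) (nat_lit 88) (nat_lit 4) (nat_lit 500) (nat_lit 383) (nat_lit 317))) (XT.nd (nat_lit 78) (nat_lit 228) (nat_lit 0) (XT.lf (nat_lit 0) (nat_lit 18747344826) (nat_lit 152) (nat_lit 2636006336) (nat_lit 0) (nat_lit 45353123) (nat_lit 86) (nat_lit 5) (nat_lit 88) (nat_lit 4) (nat_lit 86) (nat_lit 4) (nat_lit 501) (nat_lit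 383) (nat_lit 316)) (XT.lf (nat_lit 0) (nat_lit 4627011746) (nat_lit 228) (nat_lit 9396369581) (nat_lit 76) (nat_lit 7809926679) (nat_lit 83) (nat_lit 5) (nat_lit 86) (nat_lit 5) (nat_lit 84) (nat_lit 4) (nat_lit 502) (nat_lit 383) (nat_lit 315)))) (XT.nd (nat_lit 156) (nat_lit 304) (nat_lit 0) (XT.nd (nat_lit 78) (nat_lit 0) (nat_lit 0) (XT.lf (nat_lit 0) (nat_lit 5756382566) (nat_lit 76) (nat_lit 6376749241) (nat_lit 152) (nat_lit 10115150178) (nat_lit 82) (nat_lit 5) (nat_lit 83) (nat_lit 5) (nat_lit 84) (nat_lit 4) (nat_lit 503) (nat_lit 383) (nat_lit 314)) (XT.lf (nat_lit 0) (nat_lit 19924944011) (nat_lit 152) (nat_lit 1227963766) (nat_lit 0) (nat_lit 1520982441) (nat_lit 82) (nat_lit 5) (nat_lit 84) (nat_lit 4) (nat_lit 82) (nat_lit 4) (nat_lit 504) (nat_lit 383) (nat_lit 313))) (XT.nd (nat_lit 78) (nat_lit 76) (nat_lit 0) (XT.lf (nat_lit 0) (nat_lit 4900790912) (nat_lit 228) (nat_lit 8532842503) (nat_lit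 76) (nat_lit 9672529558) (nat_lit 79) (nat_lit 5) (nat_lit 82) (nat_lit 5) (nat_lit 80) (nat_lit 4) (nat_lit 505) (nat_lit 383) (nat_lit 312)) (XT.lf (nat_lit 0) (nat_lit 7345445131) (nat_lit 76) (nat_lit 5414221265) (nat_lit 152) (nat_lit 10789874342) (nat_lit 78) (nat_lit 5) (nat_lit 79) (nat_lit 5) (nat_lit 80) (nat_lit 4) (nat_lit 506) (nat_lit 383) (nat_lit 311))))))) (XT.nd (nat_lit 1248) (nat_lit 1140) (nat_lit 0) (XT.nd (nat_lit 624) (nat_lit 532) (nat_lit 0) (XT.nd (nat_lit 312) (nat_lit 304) (nat_lit 0) (XT.nd (nat_lit 156) (nat_lit 152) (nat_lit 0) (XT.nd (nat_lit 78) (nat_lit 152) (nat_lit 0) (XT.lf (nat_lit 0) (nat_lit 20920533990) (nat_lit 152) (nat_lit 250268351) (nat_lit 0) (nat_lit 2833430980) (nat_lit 78) (nat_lit 5) (nat_lit 80) (nat_lit 4) (nat_lit 78) (nat_lit 4) (nat_lit 507) (nat_lit 383) (nat_lit 310)) (XT.lf (nat_lit 0) (nat_lit 4924667909) (nat_lit 152) (nat_lit 8158872893) (nat_lit 76)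 (nat_lit 11382654852) (nat_lit 76) (nat_lit 5) (nat_lit 78) (nat_lit 5) (nat_lit 77) (nat_lit 4) (nat_lit 508) (nat_lit 383) (nat_lit 309))) (XT.nd (nat_lit 78) (nat_lit 76) (nat_lit 0) (XT.lf (nat_lit 0) (nat_lit 8468789850) (nat_lit 76) (nat_lit 4679771294) (nat_lit 152) (nat_lit 11791422372) (nat_lit 75) (nat_lit 5) (nat_lit 76) (nat_lit 5) (nat_lit 77) (nat_lit 4) (nat_lit 509) (nat_lit 383) (nat_lit 308)) (XT.lf (nat_lit 0) (nat_lit 211286211) (nat_lit 76) (nat_lit 21484713108) (nat_lit 76) (nat_lit 3729681082) (nat_lit 74) (nat_lit 4) (nat_lit 75) (nat_lit 5) (nat_lit 75) (nat_lit 4) (nat_lit 510) (nat_lit 383) (nat_lit 307)))) (XT.nd (nat_lit 156) (nat_lit 152) (nat_lit 0) (XT.nd (nat_lit 78) (nat_lit 76) (nat_lit 0) (XT.lf (nat_lit 0) (nat_lit 4652375496) (nat_lit 152) (nat_lit 8371878315) (nat_lit 76) (nat_lit 12895344084) (nat_lit 73) (nat_lit 5) (nat_lit 75) (nat_lit 5) (nat_lit 74) (nat_lit 4) (nat_lit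 511) (nat_lit 383) (nat_lit 306)) (XT.lf (nat_lit 0) (nat_lit 9026924260) (nat_lit 76) (nat_lit 4225544593) (nat_lit 152) (nat_lit 13173510308) (nat_lit 72) (nat_lit 5) (nat_lit 73) (nat_lit 5) (nat_lit 74) (nat_lit 4) (nat_lit 512) (nat_lit 383) (nat_lit 305))) (XT.nd (nat_lit 78) (nat_lit 76) (nat_lit 0) (XT.lf (nat_lit 0) (nat_lit 39448095) (nat_lit 76) (nat_lit 22158204287) (nat_lit 76) (nat_lit 4747287066) (nat_lit 71) (nat_lit 4) (nat_lit 72) (nat_lit 5) (nat_lit 72) (nat_lit 4) (nat_lit 513) (nat_lit 383) (nat_lit 304)) (XT.lf (nat_lit 0) (nat_lit 4029140529) (nat_lit 152) (nat_lit 9286109409) (nat_lit 76) (nat_lit 14157860785) (nat_lit 70) (nat_lit 5) (nat_lit 72) (nat_lit 5) (nat_lit 71) (nat_lit 4) (nat_lit 514) (nat_lit 383) (nat_lit 303))))) (XT.nd (nat_lit 312) (nat_lit 228) (nat_lit 0) (XT.nd (nat_lit 156) (nat_lit 228) (nat_lit 0) (XT.nd (nat_lit 78) (nat_lit 0) (nat_lit 0) (XT.lf (nat_lit 0) (nat_lit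 8902839029) (nat_lit 76) (nat_lit 4112367000) (nat_lit 152) (nat_lit 14999258383) (nat_lit 69) (nat_lit 5) (nat_lit 70) (nat_lit 5) (nat_lit 71) (nat_lit 4) (nat_lit 515) (nat_lit 383) (nat_lit 302)) (XT.lf (nat_lit 0) (nat_lit 22373382676) (nat_lit 152) (nat_lit 879748643) (nat_lit 0) (nat_lit 5315851699) (nat_lit 69) (nat_lit 5) (nat_lit 71) (nat_lit 4) (nat_lit 69) (nat_lit 4) (nat_lit 516) (nat_lit 383) (nat_lit 301))) (XT.nd (nat_lit 78) (nat_lit 76) (nat_lit 0) (XT.lf (nat_lit 0) (nat_lit 2990327398) (nat_lit 152) (nat_lit 11035453375) (nat_lit 76) (nat_lit 15108302123) (nat_lit 67) (nat_lit 5) (nat_lit 69) (nat_lit 5) (nat_lit 68) (nat_lit 4) (nat_lit 517) (nat_lit 383) (nat_lit 300)) (XT.lf (nat_lit 0) (nat_lit 7959074374) (nat_lit 76) (nat_lit 4411257136) (nat_lit 152) (nat_lit 17342673429) (nat_lit 66) (nat_lit 5) (nat_lit 67) (nat_lit 5) (nat_lit 68) (nat_lit 4) (nat_lit 518) (nat_lit 383) (nat_lit 299))))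 (XT.nd (nat_lit 156) (nat_lit 76) (nat_lit 0) (XT.nd (nat_lit 78) (nat_lit 152) (nat_lit 0) (XT.lf (nat_lit 0) (nat_lit 22154663995) (nat_lit 152) (nat_lit 2693573859) (nat_lit 0) (nat_lit 5457369105) (nat_lit 66) (nat_lit 5) (nat_lit 68) (nat_lit 4) (nat_lit 66) (nat_lit 4) (nat_lit 519) (nat_lit 383) (nat_lit 298)) (XT.lf (nat_lit 0) (nat_lit 1459858236) (nat_lit 152) (nat_lit 13776685058) (nat_lit 76) (nat_lit 15673993957) (nat_lit 64) (nat_lit 5) (nat_lit 66) (nat_lit 5) (nat_lit 65) (nat_lit 4) (nat_lit 520) (nat_lit 383) (nat_lit 297))) (XT.nd (nat_lit 78) (nat_lit 0) (nat_lit 0) (XT.lf (nat_lit 0) (nat_lit 6034316804) (nat_lit 76) (nat_lit 5205174273) (nat_lit 152) (nat_lit 20290373449) (nat_lit 63) (nat_lit 5) (nat_lit 64) (nat_lit 5) (nat_lit 65) (nat_lit 4) (nat_lit 521) (nat_lit 383) (nat_lit 296)) (XT.lf (nat_lit 0) (nat_lit 21461199858) (nat_lit 152) (nat_lit 5573231535) (nat_lit 0) (nat_lit 5128879760)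 (nat_lit 63) (nat_lit 5) (nat_lit 65) (nat_lit 4) (nat_lit 63) (nat_lit 4) (nat_lit 522) (nat_lit 383) (nat_lit 295)))))) (XT.nd (nat_lit 624) (nat_lit 532) (nat_lit 0) (XT.nd (nat_lit 312) (nat_lit 304) (nat_lit 0) (XT.nd (nat_lit 156) (nat_lit 76) (nat_lit 0) (XT.nd (nat_lit 78) (nat_lit 152) (nat_lit 0) (XT.lf (nat_lit 0) (nat_lit 15111428057) (nat_lit 76) (nat_lit 17035032282) (nat_lit 76) (nat_lit 664593968) (nat_lit 62) (nat_lit 4) (nat_lit 63) (nat_lit 5) (nat_lit 63) (nat_lit 4) (nat_lit 523) (nat_lit 383) (nat_lit 294)) (XT.lf (nat_lit 0) (nat_lit 2939450462) (nat_lit 76) (nat_lit 6591040549) (nat_lit 152) (nat_lit 23943592558) (nat_lit 60) (nat_lit 5) (nat_lit 61) (nat_lit 5) (nat_lit 62) (nat_lit 4) (nat_lit 524) (nat_lit 383) (nat_lit 293))) (XT.nd (nat_lit 78) (nat_lit 76) (nat_lit 0) (XT.lf (nat_lit 0) (nat_lit 20198789391) (nat_lit 152) (nat_lit 9718249170) (nat_lit 0) (nat_lit 4234346316) (nat_lit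 60) (nat_lit 5) (nat_lit 62) (nat_lit 4) (nat_lit 60) (nat_lit 4) (nat_lit 525) (nat_lit 383) (nat_lit 292)) (XT.lf (nat_lit 0) (nat_lit 11811411477) (nat_lit 76) (nat_lit 19515850368) (nat_lit 76) (nat_lit 3517539751) (nat_lit 59) (nat_lit 4) (nat_lit 60) (nat_lit 5) (nat_lit 60) (nat_lit 4) (nat_lit 526) (nat_lit 383) (nat_lit 291)))) (XT.nd (nat_lit 156) (nat_lit 152) (nat_lit 0) (XT.nd (nat_lit 78) (nat_lit 76) (nat_lit 0) (XT.lf (nat_lit 0) (nat_lit 7149928625) (nat_lit 152) (nat_lit 1516836615) (nat_lit 76) (nat_lit 26888356891) (nat_lit 58) (nat_lit 5) (nat_lit 60) (nat_lit 5) (nat_lit 59) (nat_lit 4) (nat_lit 527) (nat_lit 383) (nat_lit 290)) (XT.lf (nat_lit 0) (nat_lit 18256622905) (nat_lit 152) (nat_lit 15362022156) (nat_lit 0) (nat_lit 2661365495) (nat_lit 57) (nat_lit 5) (nat_lit 59) (nat_lit 4) (nat_lit 57) (nat_lit 4) (nat_lit 528) (nat_lit 383) (nat_lit 289))) (XT.nd (nat_lit 78) (nat_lit 76) (nat_lit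 0) (XT.lf (nat_lit 0) (nat_lit 7007271549) (nat_lit 76) (nat_lit 22820394025) (nat_lit 76) (nat_lit 7195045742) (nat_lit 56) (nat_lit 4) (nat_lit 57) (nat_lit 5) (nat_lit 57) (nat_lit 4) (nat_lit 529) (nat_lit 383) (nat_lit 288)) (XT.lf (nat_lit 0) (nat_lit 4000099540) (nat_lit 152) (nat_lit 7534360654) (nat_lit 76) (nat_lit 26248515841) (nat_lit 55) (nat_lit 5) (nat_lit 57) (nat_lit 5) (nat_lit 56) (nat_lit 4) (nat_lit 530) (nat_lit 383) (nat_lit 287))))) (XT.nd (nat_lit 312) (nat_lit 228) (nat_lit 0) (XT.nd (nat_lit 156) (nat_lit 152) (nat_lit 0) (XT.nd (nat_lit 78) (nat_lit 76) (nat_lit 0) (XT.lf (nat_lit 0) (nat_lit 15504578688) (nat_lit 152) (nat_lit 22777353490) (nat_lit 0) (nat_lit 278436693) (nat_lit 54) (nat_lit 5) (nat_lit 56) (nat_lit 4) (nat_lit 54) (nat_lit 4) (nat_lit 531) (nat_lit 383) (nat_lit 286)) (XT.lf (nat_lit 0) (nat_lit 416574814) (nat_lit 76) (nat_lit 27096312632) (nat_lit 76) (nat_lit 11843435286)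 (nat_lit 53) (nat_lit 4) (nat_lit 54) (nat_lit 5) (nat_lit 54) (nat_lit 4) (nat_lit 532) (nat_lit 383) (nat_lit 285))) (XT.nd (nat_lit 78) (nat_lit 152) (nat_lit 0) (XT.lf (nat_lit 0) (nat_lit 24701784928) (nat_lit 76) (nat_lit 15373691718) (nat_lit 76) (nat_lit 94857722) (nat_lit 53) (nat_lit 4) (nat_lit 54) (nat_lit 5) (nat_lit 54) (nat_lit 4) (nat_lit 533) (nat_lit 383) (nat_lit 284)) (XT.lf (nat_lit 0) (nat_lit 8690894418) (nat_lit 76) (nat_lit 3129267673) (nat_lit 152) (nat_lit 29183693971) (nat_lit 51) (nat_lit 5) (nat_lit 52) (nat_lit 5) (nat_lit 53) (nat_lit 4) (nat_lit 534) (nat_lit 383) (nat_lit 283)))) (XT.nd (nat_lit 156) (nat_lit 152) (nat_lit 0) (XT.nd (nat_lit 78) (nat_lit 76) (nat_lit 0) (XT.lf (nat_lit 0) (nat_lit 24304381580) (nat_lit 152) (nat_lit 8129222548) (nat_lit 0) (nat_lit 9422341521) (nat_lit 51) (nat_lit 5) (nat_lit 53) (nat_lit 4) (nat_lit 51) (nat_lit 4) (nat_lit 535) (nat_lit 383)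 (nat_lit 282)) (XT.lf (nat_lit 0) (nat_lit 17012972310) (nat_lit 76) (nat_lit 20310459392) (nat_lit 76) (nat_lit 5405357184) (nat_lit 50) (nat_lit 4) (nat_lit 51) (nat_lit 5) (nat_lit 51) (nat_lit 4) (nat_lit 536) (nat_lit 383) (nat_lit 281))) (XT.nd (nat_lit 78) (nat_lit 76) (nat_lit 0) (XT.lf (nat_lit 0) (nat_lit 7015284657) (nat_lit 152) (nat_lit 686464787) (nat_lit 76) (nat_lit 35922558135) (nat_lit 49) (nat_lit 5) (nat_lit 51) (nat_lit 5) (nat_lit 50) (nat_lit 4) (nat_lit 537) (nat_lit 383) (nat_lit 280)) (XT.lf (nat_lit 0) (nat_lit 19964982712) (nat_lit 152) (nat_lit 19120984992) (nat_lit 0) (nat_lit 5451166276) (nat_lit 48) (nat_lit 5) (nat_lit 50) (nat_lit 4) (nat_lit 48) (nat_lit 4) (nat_lit 538) (nat_lit 383) (nat_lit 279))))))))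
noncomputable def xc59 : XT := (XT.nd (nat_lit 55380) (nat_lit 0) (nat_lit 6308) (XT.nd (nat_lit 54132) (nat_lit 0) (nat_lit 12920) (XT.nd (nat_lit 546) (nat_lit 456) (nat_lit 0) (XT.nd (nat_lit 234) (nat_lit 228) (nat_lit 0) (XT.nd (nat_lit 78) (nat_lit 152) (nat_lit 0) (XT.lf (nat_lit 0) (nat_lit 6829608499) (nat_lit 76) (nat_lit 26589285962) (nat_lit 76) (nat_lit 12054979106) (nat_lit 47) (nat_lit 4) (nat_lit 48) (nat_lit 5) (nat_lit 48) (nat_lit 4) (nat_lit 539) (nat_lit 383) (nat_lit 278)) (XT.nd (nat_lit 78) (nat_lit 76) (nat_lit 0) (XT.lf (nat_lit 0) (nat_lit 983186474) (nat_lit 152) (nat_lit 12558331925) (nat_lit 76) (nat_lit 32892100687) (nat_lit 46) (nat_lit 5) (nat_lit 48) (nat_lit 5) (nat_lit 47) (nat_lit 4) (nat_lit 540) (nat_lit 383) (nat_lit 277)) (XT.lf (nat_lit 0) (nat_lit 14277757005) (nat_lit 152) (nat_lit 33008879101) (nat_lit 0) (nat_lit 128713652) (nat_lit 45) (nat_lit 5) (nat_lit 47) (nat_lit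 4) (nat_lit 45) (nat_lit 4) (nat_lit 541) (nat_lit 383) (nat_lit 276)))) (XT.nd (nat_lit 156) (nat_lit 152) (nat_lit 0) (XT.nd (nat_lit 78) (nat_lit 76) (nat_lit 0) (XT.lf (nat_lit 0) (nat_lit 28201126419) (nat_lit 152) (nat_lit 6184629552) (nat_lit 0) (nat_lit 14033877593) (nat_lit 45) (nat_lit 5) (nat_lit 47) (nat_lit 4) (nat_lit 45) (nat_lit 4) (nat_lit 542) (nat_lit 383) (nat_lit 275)) (XT.lf (nat_lit 0) (nat_lit 21807539260) (nat_lit 76) (nat_lit 20913039635) (nat_lit 76) (nat_lit 6728115593) (nat_lit 44) (nat_lit 4) (nat_lit 45) (nat_lit 5) (nat_lit 45) (nat_lit 4) (nat_lit 543) (nat_lit 383) (nat_lit 274))) (XT.nd (nat_lit 78) (nat_lit 0) (nat_lit 0) (XT.lf (nat_lit 0) (nat_lit 130164204) (nat_lit 76) (nat_lit 6930056805) (nat_lit 152) (nat_lit 43445346879) (nat_lit 42) (nat_lit 5) (nat_lit 43) (nat_lit 5) (nat_lit 44) (nat_lit 4) (nat_lit 544) (nat_lit 383) (nat_lit 273)) (XT.lf (nat_lit 0) (nat_lit 21449478384)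 (nat_lit 152) (nat_lit 22488124183) (nat_lit 0) (nat_lit 7644871556) (nat_lit 42) (nat_lit 5) (nat_lit 44) (nat_lit 4) (nat_lit 42) (nat_lit 4) (nat_lit 545) (nat_lit 383) (nat_lit 272))))) (XT.nd (nat_lit 312) (nat_lit 228) (nat_lit 0) (XT.nd (nat_lit 156) (nat_lit 152) (nat_lit 0) (XT.nd (nat_lit 78) (nat_lit 0) (nat_lit 0) (XT.lf (nat_lit 0) (nat_lit 6228127301) (nat_lit 76) (nat_lit 30140463013) (nat_lit 76) (nat_lit 16320151985) (nat_lit 41) (nat_lit 4) (nat_lit 42) (nat_lit 5) (nat_lit 42) (nat_lit 4) (nat_lit 546) (nat_lit 383) (nat_lit 271)) (XT.lf (nat_lit 0) (nat_lit 36206879432) (nat_lit 76) (nat_lit 15725482194) (nat_lit 76) (nat_lit 1889924369) (nat_lit 41) (nat_lit 4) (nat_lit 42) (nat_lit 5) (nat_lit 42) (nat_lit 4) (nat_lit 547) (nat_lit 383) (nat_lit 270))) (XT.nd (nat_lit 78) (nat_lit 0) (nat_lit 0) (XT.lf (nat_lit 0) (nat_lit 12148706598) (nat_lit 76) (nat_lit 658715637) (nat_lit 152) (nat_lit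 42176051640) (nat_lit 39) (nat_lit 5) (nat_lit 40) (nat_lit 5) (nat_lit 41) (nat_lit 4) (nat_lit 548) (nat_lit 383) (nat_lit 269)) (XT.lf (nat_lit 0) (nat_lit 28200792320) (nat_lit 152) (nat_lit 13229463738) (nat_lit 0) (nat_lit 14739887360) (nat_lit 39) (nat_lit 5) (nat_lit 41) (nat_lit 4) (nat_lit 39) (nat_lit 4) (nat_lit 549) (nat_lit 383) (nat_lit 268)))) (XT.nd (nat_lit 156) (nat_lit 76) (nat_lit 0) (XT.nd (nat_lit 78) (nat_lit 76) (nat_lit 0) (XT.lf (nat_lit 0) (nat_lit 17542684088) (nat_lit 76) (nat_lit 26659891100) (nat_lit 76) (nat_lit 13185439558) (nat_lit 38) (nat_lit 4) (nat_lit 39) (nat_lit 5) (nat_lit 39) (nat_lit 4) (nat_lit 550) (nat_lit 383) (nat_lit 267)) (XT.lf (nat_lit 0) (nat_lit 2108523710) (nat_lit 152) (nat_lit 9207300429) (nat_lit 76) (nat_lit 47322817828) (nat_lit 37) (nat_lit 5) (nat_lit 39) (nat_lit 5) (nat_lit 38) (nat_lit 4) (nat_lit 551) (nat_lit 383) (nat_lit 266))) (XT.nd (nat_lit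 78) (nat_lit 0) (nat_lit 0) (XT.lf (nat_lit 0) (nat_lit 17832206067) (nat_lit 152) (nat_lit 37358539796) (nat_lit 0) (nat_lit 4725048286) (nat_lit 36) (nat_lit 5) (nat_lit 38) (nat_lit 4) (nat_lit 36) (nat_lit 4) (nat_lit 552) (nat_lit 383) (nat_lit 265)) (XT.lf (nat_lit 0) (nat_lit 34205845408) (nat_lit 152) (nat_lit 5933416472) (nat_lit 0) (nat_lit 21086651665) (nat_lit 36) (nat_lit 5) (nat_lit 38) (nat_lit 4) (nat_lit 36) (nat_lit 4) (nat_lit 553) (nat_lit 383) (nat_lit 264)))))) (XT.nd (nat_lit 624) (nat_lit 3116) (nat_lit 0) (XT.nd (nat_lit 312) (nat_lit 1444) (nat_lit 0) (XT.nd (nat_lit 156) (nat_lit 1140) (nat_lit 0) (XT.nd (nat_lit 78) (nat_lit 76) (nat_lit 0) (XT.lf (nat_lit 0) (nat_lit 637844407) (nat_lit 608) (nat_lit 1563356738) (nat_lit 608) (nat_lit 1563356738) (nat_lit 282) (nat_lit 4) (nat_lit 290) (nat_lit 5) (nat_lit 290) (nat_lit 4) (nat_lit 432) (nat_lit 384) (nat_lit 384)) (XT.lf (nat_lit 0)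 (nat_lit 606970259) (nat_lit 684) (nat_lit 213660344) (nat_lit 76) (nat_lit 6778715332) (nat_lit 281) (nat_lit 5) (nat_lit 290) (nat_lit 5) (nat_lit 282) (nat_lit 4) (nat_lit 433) (nat_lit 384) (nat_lit 383))) (XT.nd (nat_lit 78) (nat_lit 608) (nat_lit 0) (XT.lf (nat_lit 0) (nat_lit 4361928007) (nat_lit 608) (nat_lit 1714253608) (nat_lit 0) (nat_lit 1595414440) (nat_lit 274) (nat_lit 5) (nat_lit 282) (nat_lit 4) (nat_lit 274) (nat_lit 4) (nat_lit 434) (nat_lit 384) (nat_lit 382)) (XT.lf (nat_lit 0) (nat_lit 428155336) (nat_lit 608) (nat_lit 3220479171) (nat_lit 76) (nat_lit 4098622350) (nat_lit 266) (nat_lit 5) (nat_lit 274) (nat_lit 5) (nat_lit 267) (nat_lit 4) (nat_lit 435) (nat_lit 384) (nat_lit 381)))) (XT.nd (nat_lit 156) (nat_lit 456) (nat_lit 0) (XT.nd (nat_lit 78) (nat_lit 532) (nat_lit 0) (XT.lf (nat_lit 0) (nat_lit 3070635191) (nat_lit 456) (nat_lit 1089390981) (nat_lit 532) (nat_lit 3665729799) (nat_lit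 260) (nat_lit 5) (nat_lit 266) (nat_lit 5) (nat_lit 267) (nat_lit 4) (nat_lit 436) (nat_lit 384) (nat_lit 380)) (XT.lf (nat_lit 0) (nat_lit 61046731) (nat_lit 532) (nat_lit 6304605543) (nat_lit 76) (nat_lit 1541963011) (nat_lit 253) (nat_lit 5) (nat_lit 260) (nat_lit 5) (nat_lit 254) (nat_lit 4) (nat_lit 437) (nat_lit 384) (nat_lit 379))) (XT.nd (nat_lit 78) (nat_lit 0) (nat_lit 0) (XT.lf (nat_lit 0) (nat_lit 88994967) (nat_lit 456) (nat_lit 3700710053) (nat_lit 532) (nat_lit 4202228033) (nat_lit 247) (nat_lit 5) (nat_lit 253) (nat_lit 5) (nat_lit 254) (nat_lit 4) (nat_lit 438) (nat_lit 384) (nat_lit 378)) (XT.lf (nat_lit 0) (nat_lit 6680802496) (nat_lit 456) (nat_lit 918332707) (nat_lit 532) (nat_lit 480581846) (nat_lit 247) (nat_lit 5) (nat_lit 253) (nat_lit 5) (nat_lit 254) (nat_lit 4) (nat_lit 439) (nat_lit 384) (nat_lit 377))))) (XT.nd (nat_lit 312) (nat_lit 1292) (nat_lit 0) (XT.nd (nat_lit 156) (nat_lit 912)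 (nat_lit 0) (XT.nd (nat_lit 78) (nat_lit 380) (nat_lit 0) (XT.lf (nat_lit 0) (nat_lit 3264111222) (nat_lit 532) (nat_lit 2940392977) (nat_lit 76) (nat_lit 1965362715) (nat_lit 240) (nat_lit 5) (nat_lit 247) (nat_lit 5) (nat_lit 241) (nat_lit 4) (nat_lit 440) (nat_lit 384) (nat_lit 376)) (XT.lf (nat_lit 0) (nat_lit 3760078633) (nat_lit 380) (nat_lit 3319281602) (nat_lit 456) (nat_lit 1184185778) (nat_lit 235) (nat_lit 5) (nat_lit 240) (nat_lit 5) (nat_lit 241) (nat_lit 4) (nat_lit 441) (nat_lit 384) (nat_lit 375))) (XT.nd (nat_lit 78) (nat_lit 380) (nat_lit 0) (XT.lf (nat_lit 0) (nat_lit 2257986669) (nat_lit 456) (nat_lit 300023303) (nat_lit 532) (nat_lit 5802444966) (nat_lit 228) (nat_lit 5) (nat_lit 234) (nat_lit 5) (nat_lit 235) (nat_lit 5) (nat_lit 442) (nat_lit 384) (nat_lit 374)) (XT.lf (nat_lit 0) (nat_lit 706103269) (nat_lit 380) (nat_lit 5672440551) (nat_lit 456) (nat_lit 2081682777) (nat_lit 223) (nat_lit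 5) (nat_lit 228) (nat_lit 5) (nat_lit 229) (nat_lit 4) (nat_lit 443) (nat_lit 384) (nat_lit 373)))) (XT.nd (nat_lit 156) (nat_lit 836) (nat_lit 0) (XT.nd (nat_lit 78) (nat_lit 380) (nat_lit 0) (XT.lf (nat_lit 0) (nat_lit 1692449317) (nat_lit 456) (nat_lit 862273455) (nat_lit 76) (nat_lit 6008489689) (nat_lit 222) (nat_lit 5) (nat_lit 228) (nat_lit 5) (nat_lit 223) (nat_lit 5) (nat_lit 444) (nat_lit 384) (nat_lit 372)) (XT.lf (nat_lit 0) (nat_lit 5517799104) (nat_lit 456) (nat_lit 2460355261) (nat_lit 76) (nat_lit 691123323) (nat_lit 217) (nat_lit 5) (nat_lit 223) (nat_lit 5) (nat_lit 218) (nat_lit 4) (nat_lit 445) (nat_lit 384) (nat_lit 371))) (XT.nd (nat_lit 78) (nat_lit 380) (nat_lit 0) (XT.lf (nat_lit 0) (nat_lit 659435243) (nat_lit 456) (nat_lit 4109829704) (nat_lit 76) (nat_lit 4009267700) (nat_lit 211) (nat_lit 5) (nat_lit 217) (nat_lit 5) (nat_lit 212) (nat_lit 5) (nat_lit 446) (nat_lit 384) (nat_lit 370))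 (XT.lf (nat_lit 0) (nat_lit 3077699029) (nat_lit 380) (nat_lit 1413151930) (nat_lit 456) (nat_lit 4400195579) (nat_lit 206) (nat_lit 5) (nat_lit 211) (nat_lit 5) (nat_lit 212) (nat_lit 5) (nat_lit 447) (nat_lit 384) (nat_lit 369))))))) (XT.nd (nat_lit 1248) (nat_lit 2584) (nat_lit 0) (XT.nd (nat_lit 624) (nat_lit 1976) (nat_lit 0) (XT.nd (nat_lit 312) (nat_lit 988) (nat_lit 0) (XT.nd (nat_lit 156) (nat_lit 684) (nat_lit 0) (XT.nd (nat_lit 78) (nat_lit 76) (nat_lit 0) (XT.lf (nat_lit 0) (nat_lit 1443919498) (nat_lit 304) (nat_lit 6984518332) (nat_lit 380) (nat_lit 578763920) (nat_lit 202) (nat_lit 5) (nat_lit 206) (nat_lit 5) (nat_lit 207) (nat_lit 4) (nat_lit 448) (nat_lit 384) (nat_lit 368)) (XT.lf (nat_lit 0) (nat_lit 3281318001) (nat_lit 380) (nat_lit 257922262) (nat_lit 76) (nat_lit 5586950171) (nat_lit 201) (nat_lit 5) (nat_lit 206) (nat_lit 5) (nat_lit 202) (nat_lit 5) (nat_lit 449) (nat_lit 384) (nat_lit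 367))) (XT.nd (nat_lit 78) (nat_lit 380) (nat_lit 0) (XT.lf (nat_lit 0) (nat_lit 7234721576) (nat_lit 380) (nat_lit 1966861474) (nat_lit 76) (nat_lit 47321795) (nat_lit 197) (nat_lit 5) (nat_lit 202) (nat_lit 5) (nat_lit 198) (nat_lit 4) (nat_lit 450) (nat_lit 384) (nat_lit 366)) (XT.lf (nat_lit 0) (nat_lit 1905184959) (nat_lit 380) (nat_lit 3761842736) (nat_lit 76) (nat_lit 3707374974) (nat_lit 192) (nat_lit 5) (nat_lit 197) (nat_lit 5) (nat_lit 193) (nat_lit 5) (nat_lit 451) (nat_lit 384) (nat_lit 365)))) (XT.nd (nat_lit 156) (nat_lit 304) (nat_lit 0) (XT.nd (nat_lit 78) (nat_lit 380) (nat_lit 0) (XT.lf (nat_lit 0) (nat_lit 3890685852) (nat_lit 304) (nat_lit 1988354002) (nat_lit 380) (nat_lit 3624707955) (nat_lit 188) (nat_lit 5) (nat_lit 192) (nat_lit 5) (nat_lit 193) (nat_lit 5) (nat_lit 452) (nat_lit 384) (nat_lit 364)) (XT.lf (nat_lit 0) (nat_lit 325272024) (nat_lit 380) (nat_lit 7525088494) (nat_lit 76) (nat_lit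 1786618083) (nat_lit 183) (nat_lit 5) (nat_lit 188) (nat_lit 5) (nat_lit 184) (nat_lit 5) (nat_lit 453) (nat_lit 384) (nat_lit 363))) (XT.nd (nat_lit 78) (nat_lit 0) (nat_lit 0) (XT.lf (nat_lit 0) (nat_lit 236773947) (nat_lit 304) (nat_lit 4084401527) (nat_lit 380) (nat_lit 5451948002) (nat_lit 179) (nat_lit 5) (nat_lit 183) (nat_lit 5) (nat_lit 184) (nat_lit 5) (nat_lit 454) (nat_lit 384) (nat_lit 362)) (XT.lf (nat_lit 0) (nat_lit 8264096273) (nat_lit 304) (nat_lit 171050164) (nat_lit 380) (nat_lit 1478262606) (nat_lit 179) (nat_lit 5) (nat_lit 183) (nat_lit 5) (nat_lit 184) (nat_lit 5) (nat_lit 455) (nat_lit 384) (nat_lit 361))))) (XT.nd (nat_lit 312) (nat_lit 836) (nat_lit 0) (XT.nd (nat_lit 156) (nat_lit 532) (nat_lit 0) (XT.nd (nat_lit 78) (nat_lit 304) (nat_lit 0) (XT.lf (nat_lit 0) (nat_lit 2586933375) (nat_lit 304) (nat_lit 3639583528) (nat_lit 76) (nat_lit 3829934583) (nat_lit 175) (nat_lit 5) (nat_lit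 179) (nat_lit 5) (nat_lit 176) (nat_lit 5) (nat_lit 456) (nat_lit 384) (nat_lit 360)) (XT.lf (nat_lit 0) (nat_lit 4506706263) (nat_lit 304) (nat_lit 2223887106) (nat_lit 380) (nat_lit 3473168034) (nat_lit 171) (nat_lit 5) (nat_lit 175) (nat_lit 5) (nat_lit 176) (nat_lit 5) (nat_lit 457) (nat_lit 384) (nat_lit 359))) (XT.nd (nat_lit 78) (nat_lit 228) (nat_lit 0) (XT.lf (nat_lit 0) (nat_lit 635246480) (nat_lit 304) (nat_lit 7834203433) (nat_lit 76) (nat_lit 1885715355) (nat_lit 167) (nat_lit 5) (nat_lit 171) (nat_lit 5) (nat_lit 168) (nat_lit 5) (nat_lit 458) (nat_lit 384) (nat_lit 358)) (XT.lf (nat_lit 0) (nat_lit 422963174) (nat_lit 228) (nat_lit 4383639420) (nat_lit 304) (nat_lit 5703193852) (nat_lit 164) (nat_lit 5) (nat_lit 167) (nat_lit 5) (nat_lit 168) (nat_lit 5) (nat_lit 459) (nat_lit 384) (nat_lit 357)))) (XT.nd (nat_lit 156) (nat_lit 532) (nat_lit 0) (XT.nd (nat_lit 78) (nat_lit 304) (nat_lit 0) (XT.lf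 (nat_lit 0) (nat_lit 8968394552) (nat_lit 228) (nat_lit 140149597) (nat_lit 304) (nat_lit 1560360740) (nat_lit 164) (nat_lit 5) (nat_lit 167) (nat_lit 5) (nat_lit 168) (nat_lit 5) (nat_lit 460) (nat_lit 384) (nat_lit 356)) (XT.lf (nat_lit 0) (nat_lit 2689455999) (nat_lit 304) (nat_lit 3944722352) (nat_lit 76) (nat_lit 4196763726) (nat_lit 160) (nat_lit 5) (nat_lit 164) (nat_lit 5) (nat_lit 161) (nat_lit 5) (nat_lit 461) (nat_lit 384) (nat_lit 355))) (XT.nd (nat_lit 78) (nat_lit 304) (nat_lit 0) (XT.lf (nat_lit 0) (nat_lit 4724744799) (nat_lit 228) (nat_lit 2303120460) (nat_lit 304) (nat_lit 3969739387) (nat_lit 157) (nat_lit 5) (nat_lit 160) (nat_lit 5) (nat_lit 161) (nat_lit 5) (nat_lit 462) (nat_lit 384) (nat_lit 354)) (XT.lf (nat_lit 0) (nat_lit 334497572) (nat_lit 304) (nat_lit 8696933817) (nat_lit 76) (nat_lit 2137331142) (nat_lit 153) (nat_lit 5) (nat_lit 157) (nat_lit 5) (nat_lit 154) (nat_lit 5) (nat_lit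 463) (nat_lit 384) (nat_lit 353)))))) (XT.nd (nat_lit 624) (nat_lit 1216) (nat_lit 0) (XT.nd (nat_lit 312) (nat_lit 684) (nat_lit 0) (XT.nd (nat_lit 156) (nat_lit 456) (nat_lit 0) (XT.nd (nat_lit 78) (nat_lit 0) (nat_lit 0) (XT.lf (nat_lit 0) (nat_lit 83903753) (nat_lit 228) (nat_lit 4620818203) (nat_lit 304) (nat_lit 6638656023) (nat_lit 150) (nat_lit 5) (nat_lit 153) (nat_lit 5) (nat_lit 154) (nat_lit 5) (nat_lit 464) (nat_lit 384) (nat_lit 352)) (XT.lf (nat_lit 0) (nat_lit 9188325183) (nat_lit 228) (nat_lit 35548107) (nat_lit 304) (nat_lit 2298825354) (nat_lit 150) (nat_lit 5) (nat_lit 153) (nat_lit 5) (nat_lit 154) (nat_lit 5) (nat_lit 465) (nat_lit 384) (nat_lit 351))) (XT.nd (nat_lit 78) (nat_lit 228) (nat_lit 0) (XT.lf (nat_lit 0) (nat_lit 2171553267) (nat_lit 228) (nat_lit 4896981734) (nat_lit 76) (nat_lit 4636957455) (nat_lit 147) (nat_lit 5) (nat_lit 150) (nat_lit 5) (nat_lit 148) (nat_lit 5) (nat_lit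 466) (nat_lit 384) (nat_lit 350)) (XT.lf (nat_lit 0) (nat_lit 4325032653) (nat_lit 228) (nat_lit 2402343386) (nat_lit 304) (nat_lit 5165786361) (nat_lit 144) (nat_lit 5) (nat_lit 147) (nat_lit 5) (nat_lit 148) (nat_lit 5) (nat_lit 467) (nat_lit 384) (nat_lit 349)))) (XT.nd (nat_lit 156) (nat_lit 456) (nat_lit 0) (XT.nd (nat_lit 78) (nat_lit 76) (nat_lit 0) (XT.lf (nat_lit 0) (nat_lit 1732414537) (nat_lit 152) (nat_lit 9709378544) (nat_lit 228) (nat_lit 644012983) (nat_lit 142) (nat_lit 5) (nat_lit 144) (nat_lit 5) (nat_lit 145) (nat_lit 4) (nat_lit 468) (nat_lit 384) (nat_lit 348)) (XT.lf (nat_lit 0) (nat_lit 3968480582) (nat_lit 228) (nat_lit 995049836) (nat_lit 76) (nat_lit 7318540883) (nat_lit 141) (nat_lit 5) (nat_lit 144) (nat_lit 5) (nat_lit 142) (nat_lit 5) (nat_lit 469) (nat_lit 384) (nat_lit 347))) (XT.nd (nat_lit 78) (nat_lit 228) (nat_lit 0) (XT.lf (nat_lit 0) (nat_lit 8693614068) (nat_lit 228) (nat_lit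 30745244) (nat_lit 304) (nat_lit 3759136367) (nat_lit 138) (nat_lit 5) (nat_lit 141) (nat_lit 5) (nat_lit 142) (nat_lit 5) (nat_lit 470) (nat_lit 384) (nat_lit 346)) (XT.lf (nat_lit 0) (nat_lit 964968329) (nat_lit 228) (nat_lit 6742711773) (nat_lit 76) (nat_lit 4981478901) (nat_lit 135) (nat_lit 5) (nat_lit 138) (nat_lit 5) (nat_lit 136) (nat_lit 5) (nat_lit 471) (nat_lit 384) (nat_lit 345))))) (XT.nd (nat_lit 312) (nat_lit 608) (nat_lit 0) (XT.nd (nat_lit 156) (nat_lit 228) (nat_lit 0) (XT.nd (nat_lit 78) (nat_lit 152) (nat_lit 0) (XT.lf (nat_lit 0) (nat_lit 3060281667) (nat_lit 228) (nat_lit 2698261732) (nat_lit 304) (nat_lit 7141234200) (nat_lit 132) (nat_lit 5) (nat_lit 135) (nat_lit 5) (nat_lit 136) (nat_lit 5) (nat_lit 472) (nat_lit 384) (nat_lit 344)) (XT.lf (nat_lit 0) (nat_lit 42829831) (nat_lit 152) (nat_lit 10681200020) (nat_lit 228) (nat_lit 2391842761) (nat_lit 130) (nat_lit 5) (nat_lit 132) (nat_lit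 5) (nat_lit 133) (nat_lit 4) (nat_lit 473) (nat_lit 384) (nat_lit 343))) (XT.nd (nat_lit 78) (nat_lit 152) (nat_lit 0) (XT.lf (nat_lit 0) (nat_lit 2513734670) (nat_lit 228) (nat_lit 3078620695) (nat_lit 76) (nat_lit 7743500416) (nat_lit 129) (nat_lit 5) (nat_lit 132) (nat_lit 5) (nat_lit 130) (nat_lit 5) (nat_lit 474) (nat_lit 384) (nat_lit 342)) (XT.lf (nat_lit 0) (nat_lit 7221465998) (nat_lit 152) (nat_lit 303667594) (nat_lit 228) (nat_lit 6036393470) (nat_lit 127) (nat_lit 5) (nat_lit 129) (nat_lit 5) (nat_lit 130) (nat_lit 5) (nat_lit 475) (nat_lit 384) (nat_lit 341)))) (XT.nd (nat_lit 156) (nat_lit 228) (nat_lit 0) (XT.nd (nat_lit 78) (nat_lit 228) (nat_lit 0) (XT.lf (nat_lit 0) (nat_lit 4017568863) (nat_lit 152) (nat_lit 8726376076) (nat_lit 228) (nat_lit 1048312301) (nat_lit 125) (nat_lit 5) (nat_lit 127) (nat_lit 5) (nat_lit 128) (nat_lit 4) (nat_lit 476) (nat_lit 384) (nat_lit 340)) (XT.lf (nat_lit 0) (nat_lit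 645704647) (nat_lit 152) (nat_lit 3375531012) (nat_lit 228) (nat_lit 10007146485) (nat_lit 122) (nat_lit 5) (nat_lit 124) (nat_lit 5) (nat_lit 125) (nat_lit 5) (nat_lit 477) (nat_lit 384) (nat_lit 339))) (XT.nd (nat_lit 78) (nat_lit 228) (nat_lit 0) (XT.lf (nat_lit 0) (nat_lit 9280042302) (nat_lit 228) (nat_lit 2833560981) (nat_lit 76) (nat_lit 2155929664) (nat_lit 122) (nat_lit 5) (nat_lit 125) (nat_lit 5) (nat_lit 123) (nat_lit 4) (nat_lit 478) (nat_lit 384) (nat_lit 338)) (XT.lf (nat_lit 0) (nat_lit 226313559) (nat_lit 228) (nat_lit 6471849202) (nat_lit 76) (nat_lit 7818171564) (nat_lit 119) (nat_lit 5) (nat_lit 122) (nat_lit 5) (nat_lit 120) (nat_lit 5) (nat_lit 479) (nat_lit 384) (nat_lit 337))))))))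
noncomputable def xc60 : XT := (XT.nd (nat_lit 2418) (nat_lit 2204) (nat_lit 0) (XT.nd (nat_lit 1170) (nat_lit 1520) (nat_lit 0) (XT.nd (nat_lit 546) (nat_lit 912) (nat_lit 0) (XT.nd (nat_lit 234) (nat_lit 532) (nat_lit 0) (XT.nd (nat_lit 78) (nat_lit 228) (nat_lit 0) (XT.lf (nat_lit 0) (nat_lit 4465747769) (nat_lit 152) (nat_lit 1044345217) (nat_lit 228) (nat_lit 9258611914) (nat_lit 117) (nat_lit 5) (nat_lit 119) (nat_lit 5) (nat_lit 120) (nat_lit 5) (nat_lit 480) (nat_lit 384) (nat_lit 336)) (XT.nd (nat_lit 78) (nat_lit 76) (nat_lit 0) (XT.lf (nat_lit 0) (nat_lit 695200196) (nat_lit 152) (nat_lit 10316012800) (nat_lit 228) (nat_lit 4015669490) (nat_lit 115) (nat_lit 5) (nat_lit 117) (nat_lit 5) (nat_lit 118) (nat_lit 4) (nat_lit 481) (nat_lit 384) (nat_lit 335)) (XT.lf (nat_lit 0) (nat_lit 1413274334) (nat_lit 228) (nat_lit 3189210642) (nat_lit 76) (nat_lit 10688249890) (nat_lit 114) (nat_lit 5) (nat_lit 117)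 (nat_lit 5) (nat_lit 115) (nat_lit 5) (nat_lit 482) (nat_lit 384) (nat_lit 334)))) (XT.nd (nat_lit 156) (nat_lit 228) (nat_lit 0) (XT.nd (nat_lit 78) (nat_lit 152) (nat_lit 0) (XT.lf (nat_lit 0) (nat_lit 6959302592) (nat_lit 228) (nat_lit 7270057166) (nat_lit 76) (nat_lit 1330903122) (nat_lit 112) (nat_lit 5) (nat_lit 115) (nat_lit 5) (nat_lit 113) (nat_lit 4) (nat_lit 483) (nat_lit 384) (nat_lit 333)) (XT.lf (nat_lit 0) (nat_lit 4273592326) (nat_lit 152) (nat_lit 8459568872) (nat_lit 228) (nat_lit 3102872683) (nat_lit 110) (nat_lit 5) (nat_lit 112) (nat_lit 5) (nat_lit 113) (nat_lit 4) (nat_lit 484) (nat_lit 384) (nat_lit 332))) (XT.nd (nat_lit 78) (nat_lit 0) (nat_lit 0) (XT.lf (nat_lit 0) (nat_lit 64132643) (nat_lit 152) (nat_lit 2463203188) (nat_lit 228) (nat_lit 13591490394) (nat_lit 107) (nat_lit 5) (nat_lit 109) (nat_lit 5) (nat_lit 110) (nat_lit 5) (nat_lit 485) (nat_lit 384) (nat_lit 331)) (XT.lf (nat_lit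 0) (nat_lit 8360270189) (nat_lit 228) (nat_lit 4304332552) (nat_lit 76) (nat_lit 3741693005) (nat_lit 107) (nat_lit 5) (nat_lit 110) (nat_lit 5) (nat_lit 108) (nat_lit 4) (nat_lit 486) (nat_lit 384) (nat_lit 330))))) (XT.nd (nat_lit 312) (nat_lit 532) (nat_lit 0) (XT.nd (nat_lit 156) (nat_lit 76) (nat_lit 0) (XT.nd (nat_lit 78) (nat_lit 228) (nat_lit 0) (XT.lf (nat_lit 0) (nat_lit 7823231890) (nat_lit 76) (nat_lit 6588801114) (nat_lit 152) (nat_lit 2289041695) (nat_lit 106) (nat_lit 5) (nat_lit 107) (nat_lit 5) (nat_lit 108) (nat_lit 4) (nat_lit 487) (nat_lit 384) (nat_lit 329)) (XT.lf (nat_lit 0) (nat_lit 3325254524) (nat_lit 152) (nat_lit 264557244) (nat_lit 228) (nat_lit 13413229828) (nat_lit 103) (nat_lit 5) (nat_lit 105) (nat_lit 5) (nat_lit 106) (nat_lit 5) (nat_lit 488) (nat_lit 384) (nat_lit 328))) (XT.nd (nat_lit 78) (nat_lit 76) (nat_lit 0) (XT.lf (nat_lit 0) (nat_lit 9694151687) (nat_lit 228) (nat_lit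 1422419177) (nat_lit 76) (nat_lit 6193963384) (nat_lit 103) (nat_lit 5) (nat_lit 106) (nat_lit 5) (nat_lit 104) (nat_lit 4) (nat_lit 489) (nat_lit 384) (nat_lit 327)) (XT.lf (nat_lit 0) (nat_lit 11318022050) (nat_lit 76) (nat_lit 4721149559) (nat_lit 152) (nat_lit 1586354075) (nat_lit 102) (nat_lit 5) (nat_lit 103) (nat_lit 5) (nat_lit 104) (nat_lit 4) (nat_lit 490) (nat_lit 384) (nat_lit 326)))) (XT.nd (nat_lit 156) (nat_lit 228) (nat_lit 0) (XT.nd (nat_lit 78) (nat_lit 76) (nat_lit 0) (XT.lf (nat_lit 0) (nat_lit 4576241146) (nat_lit 228) (nat_lit 11464957988) (nat_lit 76) (nat_lit 1906177332) (nat_lit 99) (nat_lit 5) (nat_lit 102) (nat_lit 5) (nat_lit 100) (nat_lit 4) (nat_lit 491) (nat_lit 384) (nat_lit 325)) (XT.lf (nat_lit 0) (nat_lit 1370972032) (nat_lit 76) (nat_lit 9591477673) (nat_lit 152) (nat_lit 7313843737) (nat_lit 98) (nat_lit 5) (nat_lit 99) (nat_lit 5) (nat_lit 100) (nat_lit 4) (nat_lit 492) (nat_lit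 384) (nat_lit 324))) (XT.nd (nat_lit 78) (nat_lit 228) (nat_lit 0) (XT.lf (nat_lit 0) (nat_lit 14726927831) (nat_lit 76) (nat_lit 2876063186) (nat_lit 152) (nat_lit 1010204959) (nat_lit 98) (nat_lit 5) (nat_lit 99) (nat_lit 5) (nat_lit 100) (nat_lit 4) (nat_lit 493) (nat_lit 384) (nat_lit 323)) (XT.lf (nat_lit 0) (nat_lit 5455283170) (nat_lit 228) (nat_lit 9438265802) (nat_lit 76) (nat_lit 4062684255) (nat_lit 95) (nat_lit 5) (nat_lit 98) (nat_lit 5) (nat_lit 96) (nat_lit 4) (nat_lit 494) (nat_lit 384) (nat_lit 322)))))) (XT.nd (nat_lit 624) (nat_lit 684) (nat_lit 0) (XT.nd (nat_lit 312) (nat_lit 456) (nat_lit 0) (XT.nd (nat_lit 156) (nat_lit 304) (nat_lit 0) (XT.nd (nat_lit 78) (nat_lit 0) (nat_lit 0) (XT.lf (nat_lit 0) (nat_lit 4037191499) (nat_lit 76) (nat_lit 8112302912) (nat_lit 152) (nat_lit 7158115650) (nat_lit 94) (nat_lit 5) (nat_lit 95) (nat_lit 5) (nat_lit 96) (nat_lit 4) (nat_lit 495) (nat_lit 384) (nat_lit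 321)) (XT.lf (nat_lit 0) (nat_lit 18013019101) (nat_lit 76) (nat_lit 1075541715) (nat_lit 152) (nat_lit 579646911) (nat_lit 94) (nat_lit 5) (nat_lit 95) (nat_lit 5) (nat_lit 96) (nat_lit 4) (nat_lit 496) (nat_lit 384) (nat_lit 320))) (XT.nd (nat_lit 78) (nat_lit 76) (nat_lit 0) (XT.lf (nat_lit 0) (nat_lit 6205398918) (nat_lit 228) (nat_lit 7639951630) (nat_lit 76) (nat_lit 6188582322) (nat_lit 91) (nat_lit 5) (nat_lit 94) (nat_lit 5) (nat_lit 92) (nat_lit 4) (nat_lit 497) (nat_lit 384) (nat_lit 319)) (XT.lf (nat_lit 0) (nat_lit 6503115547) (nat_lit 76) (nat_lit 6719115621) (nat_lit 152) (nat_lit 7187030226) (nat_lit 90) (nat_lit 5) (nat_lit 91) (nat_lit 5) (nat_lit 92) (nat_lit 4) (nat_lit 498) (nat_lit 384) (nat_lit 318)))) (XT.nd (nat_lit 156) (nat_lit 228) (nat_lit 0) (XT.nd (nat_lit 78) (nat_lit 76) (nat_lit 0) (XT.lf (nat_lit 0) (nat_lit 337632211) (nat_lit 152) (nat_lit 20149024135) (nat_lit 152) (nat_lit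 308081137) (nat_lit 88) (nat_lit 4) (nat_lit 90) (nat_lit 5) (nat_lit 90) (nat_lit 4) (nat_lit 499) (nat_lit 384) (nat_lit 317)) (XT.lf (nat_lit 0) (nat_lit 6803346154) (nat_lit 228) (nat_lit 6122673220) (nat_lit 76) (nat_lit 8259053660) (nat_lit 87) (nat_lit 5) (nat_lit 90) (nat_lit 5) (nat_lit 88) (nat_lit 4) (nat_lit 500) (nat_lit 384) (nat_lit 316))) (XT.nd (nat_lit 78) (nat_lit 152) (nat_lit 0) (XT.lf (nat_lit 0) (nat_lit 8715778005) (nat_lit 76) (nat_lit 5441400317) (nat_lit 152) (nat_lit 7428791516) (nat_lit 86) (nat_lit 5) (nat_lit 87) (nat_lit 5) (nat_lit 88) (nat_lit 4) (nat_lit 501) (nat_lit 384) (nat_lit 315)) (XT.lf (nat_lit 0) (nat_lit 2052346632) (nat_lit 152) (nat_lit 19734821880) (nat_lit 152) (nat_lit 210059051) (nat_lit 84) (nat_lit 4) (nat_lit 86) (nat_lit 5) (nat_lit 86) (nat_lit 4) (nat_lit 502) (nat_lit 384) (nat_lit 314))))) (XT.nd (nat_lit 312) (nat_lit 304) (nat_lit 0) (XT.nd (nat_lit 156)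 (nat_lit 228) (nat_lit 0) (XT.nd (nat_lit 78) (nat_lit 76) (nat_lit 0) (XT.lf (nat_lit 0) (nat_lit 7220996443) (nat_lit 228) (nat_lit 4948345461) (nat_lit 76) (nat_lit 10245295265) (nat_lit 83) (nat_lit 5) (nat_lit 86) (nat_lit 5) (nat_lit 84) (nat_lit 4) (nat_lit 503) (nat_lit 384) (nat_lit 313)) (XT.lf (nat_lit 0) (nat_lit 10612617532) (nat_lit 76) (nat_lit 4313193726) (nat_lit 152) (nat_lit 7917044207) (nat_lit 82) (nat_lit 5) (nat_lit 83) (nat_lit 5) (nat_lit 84) (nat_lit 4) (nat_lit 504) (nat_lit 384) (nat_lit 312))) (XT.nd (nat_lit 78) (nat_lit 76) (nat_lit 0) (XT.lf (nat_lit 0) (nat_lit 3398349607) (nat_lit 152) (nat_lit 19536000586) (nat_lit 152) (nat_lit 347393003) (nat_lit 80) (nat_lit 4) (nat_lit 82) (nat_lit 5) (nat_lit 82) (nat_lit 4) (nat_lit 505) (nat_lit 384) (nat_lit 311)) (XT.lf (nat_lit 0) (nat_lit 7424583748) (nat_lit 228) (nat_lit 4189741018) (nat_lit 76) (nat_lit 12113706832) (nat_lit 79) (nat_lit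 5) (nat_lit 82) (nat_lit 5) (nat_lit 80) (nat_lit 4) (nat_lit 506) (nat_lit 384) (nat_lit 310)))) (XT.nd (nat_lit 156) (nat_lit 152) (nat_lit 0) (XT.nd (nat_lit 78) (nat_lit 76) (nat_lit 0) (XT.lf (nat_lit 0) (nat_lit 12119806160) (nat_lit 76) (nat_lit 3373968864) (nat_lit 152) (nat_lit 8691699571) (nat_lit 78) (nat_lit 5) (nat_lit 79) (nat_lit 5) (nat_lit 80) (nat_lit 4) (nat_lit 507) (nat_lit 384) (nat_lit 309)) (XT.lf (nat_lit 0) (nat_lit 4295338740) (nat_lit 76) (nat_lit 19597491114) (nat_lit 76) (nat_lit 761177638) (nat_lit 77) (nat_lit 4) (nat_lit 78) (nat_lit 5) (nat_lit 78) (nat_lit 4) (nat_lit 508) (nat_lit 384) (nat_lit 308))) (XT.nd (nat_lit 78) (nat_lit 76) (nat_lit 0) (XT.lf (nat_lit 0) (nat_lit 7373824382) (nat_lit 152) (nat_lit 3932343691) (nat_lit 76) (nat_lit 13824959238) (nat_lit 76) (nat_lit 5) (nat_lit 78) (nat_lit 5) (nat_lit 77) (nat_lit 4) (nat_lit 509) (nat_lit 384) (nat_lit 307)) (XT.lf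 (nat_lit 0) (nat_lit 13150312705) (nat_lit 76) (nat_lit 2669649609) (nat_lit 152) (nat_lit 9799901000) (nat_lit 75) (nat_lit 5) (nat_lit 76) (nat_lit 5) (nat_lit 77) (nat_lit 4) (nat_lit 510) (nat_lit 384) (nat_lit 306))))))) (XT.nd (nat_lit 1170) (nat_lit 1064) (nat_lit 0) (XT.nd (nat_lit 546) (nat_lit 608) (nat_lit 0) (XT.nd (nat_lit 234) (nat_lit 304) (nat_lit 0) (XT.nd (nat_lit 78) (nat_lit 152) (nat_lit 0) (XT.lf (nat_lit 0) (nat_lit 4648858004) (nat_lit 76) (nat_lit 19971312552) (nat_lit 76) (nat_lit 1500070472) (nat_lit 74) (nat_lit 4) (nat_lit 75) (nat_lit 5) (nat_lit 75) (nat_lit 4) (nat_lit 511) (nat_lit 384) (nat_lit 305)) (XT.nd (nat_lit 78) (nat_lit 76) (nat_lit 0) (XT.lf (nat_lit 0) (nat_lit 7020888434) (nat_lit 152) (nat_lit 4276495779) (nat_lit 76) (nat_lit 15332922956) (nat_lit 73) (nat_lit 5) (nat_lit 75) (nat_lit 5) (nat_lit 74) (nat_lit 4) (nat_lit 512) (nat_lit 384) (nat_lit 304)) (XT.lf (nat_lit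 0) (nat_lit 13601657746) (nat_lit 76) (nat_lit 2253778182) (nat_lit 152) (nat_lit 11297150708) (nat_lit 72) (nat_lit 5) (nat_lit 73) (nat_lit 5) (nat_lit 74) (nat_lit 4) (nat_lit 513) (nat_lit 384) (nat_lit 303)))) (XT.nd (nat_lit 156) (nat_lit 152) (nat_lit 0) (XT.nd (nat_lit 78) (nat_lit 76) (nat_lit 0) (XT.lf (nat_lit 0) (nat_lit 4347910489) (nat_lit 76) (nat_lit 20717818761) (nat_lit 76) (nat_lit 2621484148) (nat_lit 71) (nat_lit 4) (nat_lit 72) (nat_lit 5) (nat_lit 72) (nat_lit 4) (nat_lit 514) (nat_lit 384) (nat_lit 302)) (XT.lf (nat_lit 0) (nat_lit 6309199559) (nat_lit 152) (nat_lit 5339887203) (nat_lit 76) (nat_lit 16583432486) (nat_lit 70) (nat_lit 5) (nat_lit 72) (nat_lit 5) (nat_lit 71) (nat_lit 4) (nat_lit 515) (nat_lit 384) (nat_lit 301))) (XT.nd (nat_lit 78) (nat_lit 76) (nat_lit 0) (XT.lf (nat_lit 0) (nat_lit 13353310025) (nat_lit 76) (nat_lit 2188861384) (nat_lit 152) (nat_lit 13248622677) (nat_lit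 69) (nat_lit 5) (nat_lit 70) (nat_lit 5) (nat_lit 71) (nat_lit 4) (nat_lit 516) (nat_lit 384) (nat_lit 300)) (XT.lf (nat_lit 0) (nat_lit 3262190006) (nat_lit 76) (nat_lit 21907135840) (nat_lit 76) (nat_lit 4192975691) (nat_lit 68) (nat_lit 4) (nat_lit 69) (nat_lit 5) (nat_lit 69) (nat_lit 4) (nat_lit 517) (nat_lit 384) (nat_lit 299))))) (XT.nd (nat_lit 312) (nat_lit 304) (nat_lit 0) (XT.nd (nat_lit 156) (nat_lit 152) (nat_lit 0) (XT.nd (nat_lit 78) (nat_lit 76) (nat_lit 0) (XT.lf (nat_lit 0) (nat_lit 5172036231) (nat_lit 152) (nat_lit 7260441744) (nat_lit 76) (nat_lit 17512859217) (nat_lit 67) (nat_lit 5) (nat_lit 69) (nat_lit 5) (nat_lit 68) (nat_lit 4) (nat_lit 518) (nat_lit 384) (nat_lit 298)) (XT.lf (nat_lit 0) (nat_lit 12263666198) (nat_lit 76) (nat_lit 2547925403) (nat_lit 152) (nat_lit 15730691001) (nat_lit 66) (nat_lit 5) (nat_lit 67) (nat_lit 5) (nat_lit 68) (nat_lit 4) (nat_lit 519) (nat_lit 384) (nat_lit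 297))) (XT.nd (nat_lit 78) (nat_lit 76) (nat_lit 0) (XT.lf (nat_lit 0) (nat_lit 1238869935) (nat_lit 76) (nat_lit 23620822115) (nat_lit 76) (nat_lit 6293863724) (nat_lit 65) (nat_lit 4) (nat_lit 66) (nat_lit 5) (nat_lit 66) (nat_lit 4) (nat_lit 520) (nat_lit 384) (nat_lit 296)) (XT.lf (nat_lit 0) (nat_lit 3530903222) (nat_lit 152) (nat_lit 10199664466) (nat_lit 76) (nat_lit 18046460901) (nat_lit 64) (nat_lit 5) (nat_lit 66) (nat_lit 5) (nat_lit 65) (nat_lit 4) (nat_lit 521) (nat_lit 384) (nat_lit 295)))) (XT.nd (nat_lit 156) (nat_lit 228) (nat_lit 0) (XT.nd (nat_lit 78) (nat_lit 0) (nat_lit 0) (XT.lf (nat_lit 0) (nat_lit 10166546656) (nat_lit 76) (nat_lit 3416313652) (nat_lit 152) (nat_lit 18832707528) (nat_lit 63) (nat_lit 5) (nat_lit 64) (nat_lit 5) (nat_lit 65) (nat_lit 4) (nat_lit 522) (nat_lit 384) (nat_lit 294)) (XT.lf (nat_lit 0) (nat_lit 24070939913) (nat_lit 152) (nat_lit 1864024315) (nat_lit 0) (nat_lit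 7134262255) (nat_lit 63) (nat_lit 5) (nat_lit 65) (nat_lit 4) (nat_lit 63) (nat_lit 4) (nat_lit 523) (nat_lit 384) (nat_lit 293))) (XT.nd (nat_lit 78) (nat_lit 76) (nat_lit 0) (XT.lf (nat_lit 0) (nat_lit 1293637005) (nat_lit 152) (nat_lit 14346524613) (nat_lit 76) (nat_lit 18096470900) (nat_lit 61) (nat_lit 5) (nat_lit 63) (nat_lit 5) (nat_lit 62) (nat_lit 4) (nat_lit 524) (nat_lit 384) (nat_lit 292)) (XT.lf (nat_lit 0) (nat_lit 6867129456) (nat_lit 76) (nat_lit 4893767468) (nat_lit 152) (nat_lit 22659068117) (nat_lit 60) (nat_lit 5) (nat_lit 61) (nat_lit 5) (nat_lit 62) (nat_lit 4) (nat_lit 525) (nat_lit 384) (nat_lit 291)))))) (XT.nd (nat_lit 624) (nat_lit 532) (nat_lit 0) (XT.nd (nat_lit 312) (nat_lit 304) (nat_lit 0) (XT.nd (nat_lit 156) (nat_lit 152) (nat_lit 0) (XT.nd (nat_lit 78) (nat_lit 76) (nat_lit 0) (XT.lf (nat_lit 0) (nat_lit 22710293969) (nat_lit 152) (nat_lit 6243174728) (nat_lit 0) (nat_lit 6165285383)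 (nat_lit 60) (nat_lit 5) (nat_lit 62) (nat_lit 4) (nat_lit 60) (nat_lit 4) (nat_lit 526) (nat_lit 384) (nat_lit 290)) (XT.lf (nat_lit 0) (nat_lit 15895448072) (nat_lit 76) (nat_lit 18257523436) (nat_lit 76) (nat_lit 1680591443) (nat_lit 59) (nat_lit 4) (nat_lit 60) (nat_lit 5) (nat_lit 60) (nat_lit 4) (nat_lit 527) (nat_lit 384) (nat_lit 289))) (XT.nd (nat_lit 78) (nat_lit 0) (nat_lit 0) (XT.lf (nat_lit 0) (nat_lit 2137232012) (nat_lit 76) (nat_lit 7096835772) (nat_lit 152) (nat_lit 27331613175) (nat_lit 57) (nat_lit 5) (nat_lit 58) (nat_lit 5) (nat_lit 59) (nat_lit 4) (nat_lit 528) (nat_lit 384) (nat_lit 288)) (XT.lf (nat_lit 0) (nat_lit 20651603592) (nat_lit 152) (nat_lit 12163193837) (nat_lit 0) (nat_lit 4498189549) (nat_lit 57) (nat_lit 5) (nat_lit 59) (nat_lit 4) (nat_lit 57) (nat_lit 4) (nat_lit 529) (nat_lit 384) (nat_lit 287)))) (XT.nd (nat_lit 156) (nat_lit 152) (nat_lit 0) (XT.nd (nat_lit 78) (nat_lit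 76) (nat_lit 0) (XT.lf (nat_lit 0) (nat_lit 10841299376) (nat_lit 76) (nat_lit 21709508110) (nat_lit 76) (nat_lit 5527730535) (nat_lit 56) (nat_lit 4) (nat_lit 57) (nat_lit 5) (nat_lit 57) (nat_lit 4) (nat_lit 530) (nat_lit 384) (nat_lit 286)) (XT.lf (nat_lit 0) (nat_lit 5912742543) (nat_lit 152) (nat_lit 4206447624) (nat_lit 76) (nat_lit 28743490976) (nat_lit 55) (nat_lit 5) (nat_lit 57) (nat_lit 5) (nat_lit 56) (nat_lit 4) (nat_lit 531) (nat_lit 384) (nat_lit 285))) (XT.nd (nat_lit 78) (nat_lit 76) (nat_lit 0) (XT.lf (nat_lit 0) (nat_lit 17760743533) (nat_lit 152) (nat_lit 19905112885) (nat_lit 0) (nat_lit 1997587866) (nat_lit 54) (nat_lit 5) (nat_lit 56) (nat_lit 4) (nat_lit 54) (nat_lit 4) (nat_lit 532) (nat_lit 384) (nat_lit 284)) (XT.lf (nat_lit 0) (nat_lit 3949774825) (nat_lit 76) (nat_lit 26161204028) (nat_lit 76) (nat_lit 10372847729) (nat_lit 53) (nat_lit 4) (nat_lit 54) (nat_lit 5) (nat_lit 54) (nat_lit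 4) (nat_lit 533) (nat_lit 384) (nat_lit 283))))) (XT.nd (nat_lit 312) (nat_lit 304) (nat_lit 0) (XT.nd (nat_lit 156) (nat_lit 76) (nat_lit 0) (XT.nd (nat_lit 78) (nat_lit 76) (nat_lit 0) (XT.lf (nat_lit 0) (nat_lit 1642320483) (nat_lit 152) (nat_lit 12478912350) (nat_lit 76) (nat_lit 27202091802) (nat_lit 52) (nat_lit 5) (nat_lit 54) (nat_lit 5) (nat_lit 53) (nat_lit 4) (nat_lit 534) (nat_lit 384) (nat_lit 282)) (XT.lf (nat_lit 0) (nat_lit 12370525106) (nat_lit 76) (nat_lit 1524599056) (nat_lit 152) (nat_lit 28287232575) (nat_lit 51) (nat_lit 5) (nat_lit 52) (nat_lit 5) (nat_lit 53) (nat_lit 4) (nat_lit 535) (nat_lit 384) (nat_lit 281))) (XT.nd (nat_lit 78) (nat_lit 76) (nat_lit 0) (XT.lf (nat_lit 0) (nat_lit 26719614657) (nat_lit 152) (nat_lit 5019515348) (nat_lit 0) (nat_lit 11321906800) (nat_lit 51) (nat_lit 5) (nat_lit 53) (nat_lit 4) (nat_lit 51) (nat_lit 4) (nat_lit 536) (nat_lit 384) (nat_lit 280)) (XT.lf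 (nat_lit 0) (nat_lit 20844067082) (nat_lit 76) (nat_lit 19267980097) (nat_lit 76) (nat_lit 3848533954) (nat_lit 50) (nat_lit 4) (nat_lit 51) (nat_lit 5) (nat_lit 51) (nat_lit 4) (nat_lit 537) (nat_lit 384) (nat_lit 279)))) (XT.nd (nat_lit 156) (nat_lit 152) (nat_lit 0) (XT.nd (nat_lit 78) (nat_lit 0) (nat_lit 0) (XT.lf (nat_lit 0) (nat_lit 2600237675) (nat_lit 76) (nat_lit 6286850477) (nat_lit 152) (nat_lit 35996104494) (nat_lit 48) (nat_lit 5) (nat_lit 49) (nat_lit 5) (nat_lit 50) (nat_lit 4) (nat_lit 538) (nat_lit 384) (nat_lit 278)) (XT.lf (nat_lit 0) (nat_lit 22199046203) (nat_lit 152) (nat_lit 16436818566) (nat_lit 0) (nat_lit 7188326110) (nat_lit 48) (nat_lit 5) (nat_lit 50) (nat_lit 4) (nat_lit 48) (nat_lit 4) (nat_lit 539) (nat_lit 384) (nat_lit 277))) (XT.nd (nat_lit 78) (nat_lit 76) (nat_lit 0) (XT.lf (nat_lit 0) (nat_lit 10260353554) (nat_lit 76) (nat_lit 25779605979) (nat_lit 76) (nat_lit 10749571700)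 (nat_lit 47) (nat_lit 4) (nat_lit 48) (nat_lit 5) (nat_lit 48) (nat_lit 4) (nat_lit 540) (nat_lit 384) (nat_lit 276)) (XT.lf (nat_lit 0) (nat_lit 2599600996) (nat_lit 152) (nat_lit 9771595892) (nat_lit 76) (nat_lit 35407819815) (nat_lit 46) (nat_lit 5) (nat_lit 48) (nat_lit 5) (nat_lit 47) (nat_lit 4) (nat_lit 541) (nat_lit 384) (nat_lit 275))))))))
noncomputable def xc61 : XT := (XT.nd (nat_lit 55224) (nat_lit 0) (nat_lit 6308) (XT.nd (nat_lit 53976) (nat_lit 0) (nat_lit 12616) (XT.nd (nat_lit 546) (nat_lit 380) (nat_lit 0) (XT.nd (nat_lit 234) (nat_lit 228) (nat_lit 0) (XT.nd (nat_lit 78) (nat_lit 76) (nat_lit 0) (XT.lf (nat_lit 0) (nat_lit 16291910588) (nat_lit 152) (nat_lit 30834558140) (nat_lit 0) (nat_lit 1663763608) (nat_lit 45) (nat_lit 5) (nat_lit 47) (nat_lit 4) (nat_lit 45) (nat_lit 4) (nat_lit 542) (nat_lit 384) (nat_lit 274)) (XT.nd (nat_lit 78) (nat_lit 76) (nat_lit 0) (XT.lf (nat_lit 0) (nat_lit 30586792127)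 (nat_lit 152) (nat_lit 3297753551) (nat_lit 0) (nat_lit 15941484743) (nat_lit 45) (nat_lit 5) (nat_lit 47) (nat_lit 4) (nat_lit 45) (nat_lit 4) (nat_lit 543) (nat_lit 384) (nat_lit 273)) (XT.lf (nat_lit 0) (nat_lit 25504058611) (nat_lit 76) (nat_lit 20022170302) (nat_lit 76) (nat_lit 5360202332) (nat_lit 44) (nat_lit 4) (nat_lit 45) (nat_lit 5) (nat_lit 45) (nat_lit 4) (nat_lit 544) (nat_lit 384) (nat_lit 272)))) (XT.nd (nat_lit 156) (nat_lit 76) (nat_lit 0) (XT.nd (nat_lit 78) (nat_lit 0) (nat_lit 0) (XT.lf (nat_lit 0) (nat_lit 3176870177) (nat_lit 76) (nat_lit 5618702962) (nat_lit 152) (nat_lit 43179452499) (nat_lit 42) (nat_lit 5) (nat_lit 43) (nat_lit 5) (nat_lit 44) (nat_lit 4) (nat_lit 545) (nat_lit 384) (nat_lit 271)) (XT.lf (nat_lit 0) (nat_lit 23586311777) (nat_lit 152) (nat_lit 20178392842) (nat_lit 0) (nat_lit 9320440421) (nat_lit 42) (nat_lit 5) (nat_lit 44) (nat_lit 4) (nat_lit 42) (nat_lit 4) (nat_lit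 546) (nat_lit 384) (nat_lit 270))) (XT.nd (nat_lit 78) (nat_lit 0) (nat_lit 0) (XT.lf (nat_lit 0) (nat_lit 9370087608) (nat_lit 76) (nat_lit 29567820242) (nat_lit 76) (nat_lit 15287146170) (nat_lit 41) (nat_lit 4) (nat_lit 42) (nat_lit 5) (nat_lit 42) (nat_lit 4) (nat_lit 547) (nat_lit 384) (nat_lit 269)) (XT.lf (nat_lit 0) (nat_lit 40162130949) (nat_lit 76) (nat_lit 14763405240) (nat_lit 76) (nat_lit 468359600) (nat_lit 41) (nat_lit 4) (nat_lit 42) (nat_lit 5) (nat_lit 42) (nat_lit 4) (nat_lit 548) (nat_lit 384) (nat_lit 268))))) (XT.nd (nat_lit 312) (nat_lit 76) (nat_lit 0) (XT.nd (nat_lit 156) (nat_lit 152) (nat_lit 0) (XT.nd (nat_lit 78) (nat_lit 0) (nat_lit 0) (XT.lf (nat_lit 0) (nat_lit 14633697671) (nat_lit 152) (nat_lit 41214550315) (nat_lit 0) (nat_lit 741466002) (nat_lit 39) (nat_lit 5) (nat_lit 41) (nat_lit 4) (nat_lit 39) (nat_lit 4) (nat_lit 549) (nat_lit 384) (nat_lit 267)) (XT.lf (nat_lit 0) (nat_lit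 30453199298) (nat_lit 152) (nat_lit 10812038871) (nat_lit 0) (nat_lit 16547815609) (nat_lit 39) (nat_lit 5) (nat_lit 41) (nat_lit 4) (nat_lit 39) (nat_lit 4) (nat_lit 550) (nat_lit 384) (nat_lit 266))) (XT.nd (nat_lit 78) (nat_lit 76) (nat_lit 0) (XT.lf (nat_lit 0) (nat_lit 20855682128) (nat_lit 76) (nat_lit 26065178540) (nat_lit 76) (nat_lit 12147025898) (nat_lit 38) (nat_lit 4) (nat_lit 39) (nat_lit 5) (nat_lit 39) (nat_lit 4) (nat_lit 551) (nat_lit 384) (nat_lit 265)) (XT.lf (nat_lit 0) (nat_lit 3536822910) (nat_lit 152) (nat_lit 6750799174) (nat_lit 76) (nat_lit 50069225599) (nat_lit 37) (nat_lit 5) (nat_lit 39) (nat_lit 5) (nat_lit 38) (nat_lit 4) (nat_lit 552) (nat_lit 384) (nat_lit 264)))) (XT.nd (nat_lit 52962) (nat_lit 0) (nat_lit 18696) (XT.nd (nat_lit 52884) (nat_lit 0) (nat_lit 19912) (XT.lf (nat_lit 0) (nat_lit 19731489794) (nat_lit 152) (nat_lit 35745847604) (nat_lit 0) (nat_lit 6194998877) (nat_lit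 36) (nat_lit 5) (nat_lit 38) (nat_lit 4) (nat_lit 36) (nat_lit 4) (nat_lit 553) (nat_lit 384) (nat_lit 263)) (XT.lf (nat_lit 0) (nat_lit 2158479745) (nat_lit 608) (nat_lit 769995484) (nat_lit 608) (nat_lit 769995484) (nat_lit 298) (nat_lit 4) (nat_lit 306) (nat_lit 5) (nat_lit 306) (nat_lit 4) (nat_lit 430) (nat_lit 385) (nat_lit 385))) (XT.nd (nat_lit 78) (nat_lit 608) (nat_lit 0) (XT.lf (nat_lit 0) (nat_lit 2132550919) (nat_lit 608) (nat_lit 4686465816) (nat_lit 0) (nat_lit 643366648) (nat_lit 290) (nat_lit 5) (nat_lit 298) (nat_lit 4) (nat_lit 290) (nat_lit 4) (nat_lit 431) (nat_lit 385) (nat_lit 384)) (XT.lf (nat_lit 0) (nat_lit 1216101998) (nat_lit 608) (nat_lit 4624766089) (nat_lit 608) (nat_lit 1689771846) (nat_lit 282) (nat_lit 4) (nat_lit 290) (nat_lit 5) (nat_lit 290) (nat_lit 4) (nat_lit 432) (nat_lit 385) (nat_lit 383)))))) (XT.nd (nat_lit 624) (nat_lit 2888) (nat_lit 0) (XT.nd (nat_lit 312) (nat_lit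 1520) (nat_lit 0) (XT.nd (nat_lit 156) (nat_lit 1064) (nat_lit 0) (XT.nd (nat_lit 78) (nat_lit 532) (nat_lit 0) (XT.lf (nat_lit 0) (nat_lit 1966140723) (nat_lit 684) (nat_lit 347427576) (nat_lit 76) (nat_lit 5288381816) (nat_lit 281) (nat_lit 5) (nat_lit 290) (nat_lit 5) (nat_lit 282) (nat_lit 4) (nat_lit 433) (nat_lit 385) (nat_lit 382)) (XT.lf (nat_lit 0) (nat_lit 5656489555) (nat_lit 608) (nat_lit 1898606259) (nat_lit 0) (nat_lit 121045078) (nat_lit 274) (nat_lit 5) (nat_lit 282) (nat_lit 4) (nat_lit 274) (nat_lit 4) (nat_lit 434) (nat_lit 385) (nat_lit 381))) (XT.nd (nat_lit 78) (nat_lit 456) (nat_lit 0) (XT.lf (nat_lit 0) (nat_lit 1642619706) (nat_lit 608) (nat_lit 3485509907) (nat_lit 76) (nat_lit 2624813704) (nat_lit 266) (nat_lit 5) (nat_lit 274) (nat_lit 5) (nat_lit 267) (nat_lit 4) (nat_lit 435) (nat_lit 385) (nat_lit 380)) (XT.lf (nat_lit 0) (nat_lit 2740890815) (nat_lit 456) (nat_lit 2583290026) (nat_lit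 532) (nat_lit 2508773065) (nat_lit 260) (nat_lit 5) (nat_lit 266) (nat_lit 5) (nat_lit 267) (nat_lit 4) (nat_lit 436) (nat_lit 385) (nat_lit 379)))) (XT.nd (nat_lit 156) (nat_lit 988) (nat_lit 0) (XT.nd (nat_lit 78) (nat_lit 0) (nat_lit 0) (XT.lf (nat_lit 0) (nat_lit 1130253724) (nat_lit 532) (nat_lit 6713390165) (nat_lit 76) (nat_lit 72792952) (nat_lit 253) (nat_lit 5) (nat_lit 260) (nat_lit 5) (nat_lit 254) (nat_lit 4) (nat_lit 437) (nat_lit 385) (nat_lit 378)) (XT.lf (nat_lit 0) (nat_lit 4811962351) (nat_lit 532) (nat_lit 380857397) (nat_lit 76) (nat_lit 2809345352) (nat_lit 253) (nat_lit 5) (nat_lit 260) (nat_lit 5) (nat_lit 254) (nat_lit 4) (nat_lit 438) (nat_lit 385) (nat_lit 377))) (XT.nd (nat_lit 78) (nat_lit 456) (nat_lit 0) (XT.lf (nat_lit 0) (nat_lit 471535239) (nat_lit 532) (nat_lit 1951424571) (nat_lit 76) (nat_lit 5668324049) (nat_lit 246) (nat_lit 5) (nat_lit 253) (nat_lit 5) (nat_lit 247) (nat_lit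 5) (nat_lit 439) (nat_lit 385) (nat_lit 376)) (XT.lf (nat_lit 0) (nat_lit 4141779507) (nat_lit 532) (nat_lit 3566024809) (nat_lit 76) (nat_lit 475444776) (nat_lit 240) (nat_lit 5) (nat_lit 247) (nat_lit 5) (nat_lit 241) (nat_lit 4) (nat_lit 440) (nat_lit 385) (nat_lit 375))))) (XT.nd (nat_lit 312) (nat_lit 1520) (nat_lit 0) (XT.nd (nat_lit 156) (nat_lit 456) (nat_lit 0) (XT.nd (nat_lit 78) (nat_lit 532) (nat_lit 0) (XT.lf (nat_lit 0) (nat_lit 3062292766) (nat_lit 380) (nat_lit 4844205756) (nat_lit 456) (nat_lit 371947346) (nat_lit 235) (nat_lit 5) (nat_lit 240) (nat_lit 5) (nat_lit 241) (nat_lit 4) (nat_lit 441) (nat_lit 385) (nat_lit 374)) (XT.lf (nat_lit 0) (nat_lit 1463151249) (nat_lit 456) (nat_lit 1840075300) (nat_lit 532) (nat_lit 5073430852) (nat_lit 228) (nat_lit 5) (nat_lit 234) (nat_lit 5) (nat_lit 235) (nat_lit 5) (nat_lit 442) (nat_lit 385) (nat_lit 373))) (XT.nd (nat_lit 78) (nat_lit 456) (nat_lit 0)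 (XT.lf (nat_lit 0) (nat_lit 7059196865) (nat_lit 532) (nat_lit 163302393) (nat_lit 76) (nat_lit 1255868337) (nat_lit 228) (nat_lit 5) (nat_lit 235) (nat_lit 5) (nat_lit 229) (nat_lit 4) (nat_lit 443) (nat_lit 385) (nat_lit 372)) (XT.lf (nat_lit 0) (nat_lit 2297710465) (nat_lit 456) (nat_lit 1819133069) (nat_lit 76) (nat_lit 4465650091) (nat_lit 222) (nat_lit 5) (nat_lit 228) (nat_lit 5) (nat_lit 223) (nat_lit 5) (nat_lit 444) (nat_lit 385) (nat_lit 371)))) (XT.nd (nat_lit 156) (nat_lit 684) (nat_lit 0) (XT.nd (nat_lit 78) (nat_lit 456) (nat_lit 0) (XT.lf (nat_lit 0) (nat_lit 5180921080) (nat_lit 380) (nat_lit 883952407) (nat_lit 456) (nat_lit 2625432456) (nat_lit 217) (nat_lit 5) (nat_lit 222) (nat_lit 5) (nat_lit 223) (nat_lit 5) (nat_lit 445) (nat_lit 385) (nat_lit 370)) (XT.lf (nat_lit 0) (nat_lit 1114382349) (nat_lit 456) (nat_lit 5257953806) (nat_lit 76) (nat_lit 2428899469) (nat_lit 211) (nat_lit 5) (nat_lit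 217) (nat_lit 5) (nat_lit 212) (nat_lit 5) (nat_lit 446) (nat_lit 385) (nat_lit 369))) (XT.nd (nat_lit 78) (nat_lit 304) (nat_lit 0) (XT.lf (nat_lit 0) (nat_lit 1846895177) (nat_lit 380) (nat_lit 3046343060) (nat_lit 456) (nat_lit 4022089435) (nat_lit 206) (nat_lit 5) (nat_lit 211) (nat_lit 5) (nat_lit 212) (nat_lit 5) (nat_lit 447) (nat_lit 385) (nat_lit 368)) (XT.lf (nat_lit 0) (nat_lit 119572302) (nat_lit 304) (nat_lit 8642549552) (nat_lit 380) (nat_lit 271423450) (nat_lit 202) (nat_lit 5) (nat_lit 206) (nat_lit 5) (nat_lit 207) (nat_lit 4) (nat_lit 448) (nat_lit 385) (nat_lit 367))))))) (XT.nd (nat_lit 1248) (nat_lit 2584) (nat_lit 0) (XT.nd (nat_lit 624) (nat_lit 1672) (nat_lit 0) (XT.nd (nat_lit 312) (nat_lit 988) (nat_lit 0) (XT.nd (nat_lit 156) (nat_lit 684) (nat_lit 0) (XT.nd (nat_lit 78) (nat_lit 304) (nat_lit 0) (XT.lf (nat_lit 0) (nat_lit 3542603904) (nat_lit 380) (nat_lit 1670904885) (nat_lit 76) (nat_lit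 3940139533) (nat_lit 201) (nat_lit 5) (nat_lit 206) (nat_lit 5) (nat_lit 202) (nat_lit 5) (nat_lit 449) (nat_lit 385) (nat_lit 366)) (XT.lf (nat_lit 0) (nat_lit 5782661694) (nat_lit 304) (nat_lit 1659573747) (nat_lit 380) (nat_lit 1835741663) (nat_lit 197) (nat_lit 5) (nat_lit 201) (nat_lit 5) (nat_lit 202) (nat_lit 5) (nat_lit 450) (nat_lit 385) (nat_lit 365))) (XT.nd (nat_lit 78) (nat_lit 304) (nat_lit 0) (XT.lf (nat_lit 0) (nat_lit 2009615607) (nat_lit 380) (nat_lit 5395807222) (nat_lit 76) (nat_lit 2000117650) (nat_lit 192) (nat_lit 5) (nat_lit 197) (nat_lit 5) (nat_lit 193) (nat_lit 5) (nat_lit 451) (nat_lit 385) (nat_lit 364)) (XT.lf (nat_lit 0) (nat_lit 2164834641) (nat_lit 304) (nat_lit 3763751870) (nat_lit 380) (nat_lit 3607946734) (nat_lit 188) (nat_lit 5) (nat_lit 192) (nat_lit 5) (nat_lit 193) (nat_lit 5) (nat_lit 452) (nat_lit 385) (nat_lit 363)))) (XT.nd (nat_lit 156) (nat_lit 608) (nat_lit 0) (XT.nd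 (nat_lit 78) (nat_lit 0) (nat_lit 0) (XT.lf (nat_lit 0) (nat_lit 268347081) (nat_lit 380) (nat_lit 9395473233) (nat_lit 76) (nat_lit 8140706) (nat_lit 183) (nat_lit 5) (nat_lit 188) (nat_lit 5) (nat_lit 184) (nat_lit 5) (nat_lit 453) (nat_lit 385) (nat_lit 362)) (XT.lf (nat_lit 0) (nat_lit 4224226325) (nat_lit 380) (nat_lit 1696989251) (nat_lit 76) (nat_lit 3888092060) (nat_lit 183) (nat_lit 5) (nat_lit 188) (nat_lit 5) (nat_lit 184) (nat_lit 5) (nat_lit 454) (nat_lit 385) (nat_lit 361))) (XT.nd (nat_lit 78) (nat_lit 304) (nat_lit 0) (XT.lf (nat_lit 0) (nat_lit 6238377574) (nat_lit 304) (nat_lit 2045974553) (nat_lit 380) (nat_lit 1666857415) (nat_lit 179) (nat_lit 5) (nat_lit 183) (nat_lit 5) (nat_lit 184) (nat_lit 5) (nat_lit 455) (nat_lit 385) (nat_lit 360)) (XT.lf (nat_lit 0) (nat_lit 2326316276) (nat_lit 304) (nat_lit 5821802664) (nat_lit 76) (nat_lit 1948459432) (nat_lit 175) (nat_lit 5) (nat_lit 179) (nat_lit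 5) (nat_lit 176) (nat_lit 5) (nat_lit 456) (nat_lit 385) (nat_lit 359))))) (XT.nd (nat_lit 312) (nat_lit 836) (nat_lit 0) (XT.nd (nat_lit 156) (nat_lit 228) (nat_lit 0) (XT.nd (nat_lit 78) (nat_lit 304) (nat_lit 0) (XT.lf (nat_lit 0) (nat_lit 2222377118) (nat_lit 304) (nat_lit 4189477046) (nat_lit 380) (nat_lit 3833778691) (nat_lit 171) (nat_lit 5) (nat_lit 175) (nat_lit 5) (nat_lit 176) (nat_lit 5) (nat_lit 457) (nat_lit 385) (nat_lit 358)) (XT.lf (nat_lit 0) (nat_lit 112206595) (nat_lit 228) (nat_lit 91629195) (nat_lit 304) (nat_lit 10195640875) (nat_lit 167) (nat_lit 5) (nat_lit 170) (nat_lit 5) (nat_lit 171) (nat_lit 5) (nat_lit 458) (nat_lit 385) (nat_lit 357))) (XT.nd (nat_lit 78) (nat_lit 228) (nat_lit 0) (XT.lf (nat_lit 0) (nat_lit 4334525426) (nat_lit 304) (nat_lit 2095457105) (nat_lit 76) (nat_lit 4125346131) (nat_lit 167) (nat_lit 5) (nat_lit 171) (nat_lit 5) (nat_lit 168) (nat_lit 5) (nat_lit 459) (nat_lit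 385) (nat_lit 356)) (XT.lf (nat_lit 0) (nat_lit 6350858104) (nat_lit 228) (nat_lit 2229833779) (nat_lit 304) (nat_lit 2135419275) (nat_lit 164) (nat_lit 5) (nat_lit 167) (nat_lit 5) (nat_lit 168) (nat_lit 5) (nat_lit 460) (nat_lit 385) (nat_lit 355)))) (XT.nd (nat_lit 156) (nat_lit 304) (nat_lit 0) (XT.nd (nat_lit 78) (nat_lit 228) (nat_lit 0) (XT.lf (nat_lit 0) (nat_lit 2043834283) (nat_lit 304) (nat_lit 6743004297) (nat_lit 76) (nat_lit 2093929893) (nat_lit 160) (nat_lit 5) (nat_lit 164) (nat_lit 5) (nat_lit 161) (nat_lit 5) (nat_lit 461) (nat_lit 385) (nat_lit 354)) (XT.lf (nat_lit 0) (nat_lit 1812954595) (nat_lit 228) (nat_lit 4507013865) (nat_lit 304) (nat_lit 4729331568) (nat_lit 157) (nat_lit 5) (nat_lit 160) (nat_lit 5) (nat_lit 161) (nat_lit 5) (nat_lit 462) (nat_lit 385) (nat_lit 353))) (XT.nd (nat_lit 78) (nat_lit 304) (nat_lit 0) (XT.lf (nat_lit 0) (nat_lit 10649867297) (nat_lit 228) (nat_lit 73943377)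 (nat_lit 304) (nat_lit 499095576) (nat_lit 157) (nat_lit 5) (nat_lit 160) (nat_lit 5) (nat_lit 161) (nat_lit 5) (nat_lit 463) (nat_lit 385) (nat_lit 352)) (XT.lf (nat_lit 0) (nat_lit 3839752688) (nat_lit 304) (nat_lit 3079805708) (nat_lit 76) (nat_lit 4479341359) (nat_lit 153) (nat_lit 5) (nat_lit 157) (nat_lit 5) (nat_lit 154) (nat_lit 5) (nat_lit 464) (nat_lit 385) (nat_lit 351)))))) (XT.nd (nat_lit 624) (nat_lit 1216) (nat_lit 0) (XT.nd (nat_lit 312) (nat_lit 684) (nat_lit 0) (XT.nd (nat_lit 156) (nat_lit 228) (nat_lit 0) (XT.nd (nat_lit 78) (nat_lit 228) (nat_lit 0) (XT.lf (nat_lit 0) (nat_lit 5906829184) (nat_lit 228) (nat_lit 2388401415) (nat_lit 304) (nat_lit 3284900675) (nat_lit 150) (nat_lit 5) (nat_lit 153) (nat_lit 5) (nat_lit 154) (nat_lit 5) (nat_lit 465) (nat_lit 385) (nat_lit 350)) (XT.lf (nat_lit 0) (nat_lit 1115450023) (nat_lit 228) (nat_lit 8385740172) (nat_lit 76) (nat_lit 2264697960) (nat_lit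 147) (nat_lit 5) (nat_lit 150) (nat_lit 5) (nat_lit 148) (nat_lit 5) (nat_lit 466) (nat_lit 385) (nat_lit 349))) (XT.nd (nat_lit 78) (nat_lit 0) (nat_lit 0) (XT.lf (nat_lit 0) (nat_lit 710019822) (nat_lit 228) (nat_lit 4893887686) (nat_lit 304) (nat_lit 6351672146) (nat_lit 144) (nat_lit 5) (nat_lit 147) (nat_lit 5) (nat_lit 148) (nat_lit 5) (nat_lit 467) (nat_lit 385) (nat_lit 348)) (XT.lf (nat_lit 0) (nat_lit 10138564539) (nat_lit 228) (nat_lit 107776041) (nat_lit 304) (nat_lit 1904042835) (nat_lit 144) (nat_lit 5) (nat_lit 147) (nat_lit 5) (nat_lit 148) (nat_lit 5) (nat_lit 468) (nat_lit 385) (nat_lit 347)))) (XT.nd (nat_lit 156) (nat_lit 228) (nat_lit 0) (XT.nd (nat_lit 78) (nat_lit 228) (nat_lit 0) (XT.lf (nat_lit 0) (nat_lit 2679761297) (nat_lit 228) (nat_lit 4887155565) (nat_lit 76) (nat_lit 4781694014) (nat_lit 141) (nat_lit 5) (nat_lit 144) (nat_lit 5) (nat_lit 142) (nat_lit 5) (nat_lit 469) (nat_lit 385)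 (nat_lit 346)) (XT.lf (nat_lit 0) (nat_lit 4668589313) (nat_lit 228) (nat_lit 2696978990) (nat_lit 304) (nat_lit 5186569632) (nat_lit 138) (nat_lit 5) (nat_lit 141) (nat_lit 5) (nat_lit 142) (nat_lit 5) (nat_lit 470) (nat_lit 385) (nat_lit 345))) (XT.nd (nat_lit 78) (nat_lit 76) (nat_lit 0) (XT.lf (nat_lit 0) (nat_lit 1751552829) (nat_lit 152) (nat_lit 10466021012) (nat_lit 228) (nat_lit 543429277) (nat_lit 136) (nat_lit 5) (nat_lit 138) (nat_lit 5) (nat_lit 139) (nat_lit 4) (nat_lit 471) (nat_lit 385) (nat_lit 344)) (XT.lf (nat_lit 0) (nat_lit 4200212738) (nat_lit 228) (nat_lit 1315588690) (nat_lit 76) (nat_lit 7457793603) (nat_lit 135) (nat_lit 5) (nat_lit 138) (nat_lit 5) (nat_lit 136) (nat_lit 5) (nat_lit 472) (nat_lit 385) (nat_lit 343))))) (XT.nd (nat_lit 312) (nat_lit 608) (nat_lit 0) (XT.nd (nat_lit 156) (nat_lit 152) (nat_lit 0) (XT.nd (nat_lit 78) (nat_lit 228) (nat_lit 0) (XT.lf (nat_lit 0) (nat_lit 8726304314)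 (nat_lit 228) (nat_lit 371486260) (nat_lit 304) (nat_lit 4093937199) (nat_lit 132) (nat_lit 5) (nat_lit 135) (nat_lit 5) (nat_lit 136) (nat_lit 5) (nat_lit 473) (nat_lit 385) (nat_lit 342)) (XT.lf (nat_lit 0) (nat_lit 766189725) (nat_lit 228) (nat_lit 7787425663) (nat_lit 76) (nat_lit 4860946780) (nat_lit 129) (nat_lit 5) (nat_lit 132) (nat_lit 5) (nat_lit 130) (nat_lit 5) (nat_lit 474) (nat_lit 385) (nat_lit 341))) (XT.nd (nat_lit 78) (nat_lit 0) (nat_lit 0) (XT.lf (nat_lit 0) (nat_lit 2364606151) (nat_lit 152) (nat_lit 3336313412) (nat_lit 228) (nat_lit 7941614387) (nat_lit 127) (nat_lit 5) (nat_lit 129) (nat_lit 5) (nat_lit 130) (nat_lit 5) (nat_lit 475) (nat_lit 385) (nat_lit 340)) (XT.lf (nat_lit 0) (nat_lit 10822121629) (nat_lit 228) (nat_lit 1022967600) (nat_lit 76) (nat_lit 2031103596) (nat_lit 127) (nat_lit 5) (nat_lit 130) (nat_lit 5) (nat_lit 128) (nat_lit 4) (nat_lit 476) (nat_lit 385) (nat_lit 339))))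 (XT.nd (nat_lit 156) (nat_lit 228) (nat_lit 0) (XT.nd (nat_lit 78) (nat_lit 152) (nat_lit 0) (XT.lf (nat_lit 0) (nat_lit 2008511049) (nat_lit 228) (nat_lit 4546140723) (nat_lit 76) (nat_lit 7559627928) (nat_lit 124) (nat_lit 5) (nat_lit 127) (nat_lit 5) (nat_lit 125) (nat_lit 5) (nat_lit 477) (nat_lit 385) (nat_lit 338)) (XT.lf (nat_lit 0) (nat_lit 6122451342) (nat_lit 152) (nat_lit 1049747699) (nat_lit 228) (nat_lit 7186085402) (nat_lit 122) (nat_lit 5) (nat_lit 124) (nat_lit 5) (nat_lit 125) (nat_lit 5) (nat_lit 478) (nat_lit 385) (nat_lit 337))) (XT.nd (nat_lit 78) (nat_lit 76) (nat_lit 0) (XT.lf (nat_lit 0) (nat_lit 2494174794) (nat_lit 152) (nat_lit 10052959451) (nat_lit 228) (nat_lit 2060785740) (nat_lit 120) (nat_lit 5) (nat_lit 122) (nat_lit 5) (nat_lit 123) (nat_lit 4) (nat_lit 479) (nat_lit 385) (nat_lit 336)) (XT.lf (nat_lit 0) (nat_lit 3191564971) (nat_lit 228) (nat_lit 1295606121) (nat_lit 76) (nat_lit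 10375863367) (nat_lit 119) (nat_lit 5) (nat_lit 122) (nat_lit 5) (nat_lit 120) (nat_lit 5) (nat_lit 480) (nat_lit 385) (nat_lit 335))))))))
noncomputable def xc62 : XT := (XT.nd (nat_lit 2418) (nat_lit 2280) (nat_lit 0) (XT.nd (nat_lit 1170) (nat_lit 1520) (nat_lit 0) (XT.nd (nat_lit 546) (nat_lit 836) (nat_lit 0) (XT.nd (nat_lit 234) (nat_lit 456) (nat_lit 0) (XT.nd (nat_lit 78) (nat_lit 380) (nat_lit 0) (XT.lf (nat_lit 0) (nat_lit 8611482207) (nat_lit 228) (nat_lit 5219236730) (nat_lit 76) (nat_lit 1292929531) (nat_lit 117) (nat_lit 5) (nat_lit 120) (nat_lit 5) (nat_lit 118) (nat_lit 4) (nat_lit 481) (nat_lit 385) (nat_lit 334)) (XT.nd (nat_lit 78) (nat_lit 228) (nat_lit 0) (XT.lf (nat_lit 0) (nat_lit 6045755961) (nat_lit 152) (nat_lit 8207633996) (nat_lit 228) (nat_lit 1136909821) (nat_lit 115) (nat_lit 5) (nat_lit 117) (nat_lit 5) (nat_lit 118) (nat_lit 4) (nat_lit 482) (nat_lit 385) (nat_lit 333)) (XT.lf (nat_lit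 0) (nat_lit 1985169794) (nat_lit 152) (nat_lit 2344637842) (nat_lit 228) (nat_lit 11333393207) (nat_lit 112) (nat_lit 5) (nat_lit 114) (nat_lit 5) (nat_lit 115) (nat_lit 5) (nat_lit 483) (nat_lit 385) (nat_lit 332)))) (XT.nd (nat_lit 156) (nat_lit 304) (nat_lit 0) (XT.nd (nat_lit 78) (nat_lit 152) (nat_lit 0) (XT.lf (nat_lit 0) (nat_lit 10012440671) (nat_lit 228) (nat_lit 2246115449) (nat_lit 76) (nat_lit 3683152793) (nat_lit 112) (nat_lit 5) (nat_lit 115) (nat_lit 5) (nat_lit 113) (nat_lit 4) (nat_lit 484) (nat_lit 385) (nat_lit 331)) (XT.lf (nat_lit 0) (nat_lit 9592450945) (nat_lit 152) (nat_lit 6334114393) (nat_lit 228) (nat_lit 300177101) (nat_lit 110) (nat_lit 5) (nat_lit 112) (nat_lit 5) (nat_lit 113) (nat_lit 4) (nat_lit 485) (nat_lit 385) (nat_lit 330))) (XT.nd (nat_lit 78) (nat_lit 76) (nat_lit 0) (XT.lf (nat_lit 0) (nat_lit 5261800891) (nat_lit 152) (nat_lit 147876998) (nat_lit 228) (nat_lit 11108489017)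 (nat_lit 107) (nat_lit 5) (nat_lit 109) (nat_lit 5) (nat_lit 110) (nat_lit 5) (nat_lit 486) (nat_lit 385) (nat_lit 329)) (XT.lf (nat_lit 0) (nat_lit 683765349) (nat_lit 76) (nat_lit 10680962075) (nat_lit 152) (nat_lit 5451120104) (nat_lit 106) (nat_lit 5) (nat_lit 107) (nat_lit 5) (nat_lit 108) (nat_lit 4) (nat_lit 487) (nat_lit 385) (nat_lit 328))))) (XT.nd (nat_lit 312) (nat_lit 456) (nat_lit 0) (XT.nd (nat_lit 156) (nat_lit 152) (nat_lit 0) (XT.nd (nat_lit 78) (nat_lit 152) (nat_lit 0) (XT.lf (nat_lit 0) (nat_lit 430853485) (nat_lit 152) (nat_lit 4013058918) (nat_lit 76) (nat_lit 12676571650) (nat_lit 105) (nat_lit 5) (nat_lit 107) (nat_lit 5) (nat_lit 106) (nat_lit 5) (nat_lit 488) (nat_lit 385) (nat_lit 327)) (XT.lf (nat_lit 0) (nat_lit 6428750986) (nat_lit 228) (nat_lit 8968325918) (nat_lit 76) (nat_lit 2034093320) (nat_lit 103) (nat_lit 5) (nat_lit 106) (nat_lit 5) (nat_lit 104) (nat_lit 4) (nat_lit 489)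 (nat_lit 385) (nat_lit 326))) (XT.nd (nat_lit 78) (nat_lit 76) (nat_lit 0) (XT.lf (nat_lit 0) (nat_lit 3572757050) (nat_lit 76) (nat_lit 9100799843) (nat_lit 152) (nat_lit 5075611425) (nat_lit 102) (nat_lit 5) (nat_lit 103) (nat_lit 5) (nat_lit 104) (nat_lit 4) (nat_lit 490) (nat_lit 385) (nat_lit 325)) (XT.lf (nat_lit 0) (nat_lit 1048162928) (nat_lit 152) (nat_lit 1508830221) (nat_lit 76) (nat_lit 15518239667) (nat_lit 101) (nat_lit 5) (nat_lit 103) (nat_lit 5) (nat_lit 102) (nat_lit 5) (nat_lit 491) (nat_lit 385) (nat_lit 324)))) (XT.nd (nat_lit 156) (nat_lit 228) (nat_lit 0) (XT.nd (nat_lit 78) (nat_lit 76) (nat_lit 0) (XT.lf (nat_lit 0) (nat_lit 7356026717) (nat_lit 228) (nat_lit 6828967081) (nat_lit 76) (nat_lit 4221506556) (nat_lit 99) (nat_lit 5) (nat_lit 102) (nat_lit 5) (nat_lit 100) (nat_lit 4) (nat_lit 492) (nat_lit 385) (nat_lit 323)) (XT.lf (nat_lit 0) (nat_lit 6343217902) (nat_lit 76) (nat_lit 7561038571)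 (nat_lit 152) (nat_lit 4841915973) (nat_lit 98) (nat_lit 5) (nat_lit 99) (nat_lit 5) (nat_lit 100) (nat_lit 4) (nat_lit 493) (nat_lit 385) (nat_lit 322))) (XT.nd (nat_lit 78) (nat_lit 0) (nat_lit 0) (XT.lf (nat_lit 0) (nat_lit 862476514) (nat_lit 152) (nat_lit 687573438) (nat_lit 228) (nat_lit 17544713707) (nat_lit 95) (nat_lit 5) (nat_lit 97) (nat_lit 5) (nat_lit 98) (nat_lit 5) (nat_lit 494) (nat_lit 385) (nat_lit 321)) (XT.lf (nat_lit 0) (nat_lit 8174044265) (nat_lit 228) (nat_lit 4876029482) (nat_lit 76) (nat_lit 6398173447) (nat_lit 95) (nat_lit 5) (nat_lit 98) (nat_lit 5) (nat_lit 96) (nat_lit 4) (nat_lit 495) (nat_lit 385) (nat_lit 320)))))) (XT.nd (nat_lit 624) (nat_lit 608) (nat_lit 0) (XT.nd (nat_lit 312) (nat_lit 532) (nat_lit 0) (XT.nd (nat_lit 156) (nat_lit 76) (nat_lit 0) (XT.nd (nat_lit 78) (nat_lit 228) (nat_lit 0) (XT.lf (nat_lit 0) (nat_lit 8956187771) (nat_lit 76) (nat_lit 6084593771) (nat_lit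 152) (nat_lit 4770233381) (nat_lit 94) (nat_lit 5) (nat_lit 95) (nat_lit 5) (nat_lit 96) (nat_lit 4) (nat_lit 496) (nat_lit 385) (nat_lit 319)) (XT.lf (nat_lit 0) (nat_lit 1932643323) (nat_lit 228) (nat_lit 17125990480) (nat_lit 76) (nat_lit 1124233191) (nat_lit 91) (nat_lit 5) (nat_lit 94) (nat_lit 5) (nat_lit 92) (nat_lit 4) (nat_lit 497) (nat_lit 385) (nat_lit 318))) (XT.nd (nat_lit 78) (nat_lit 76) (nat_lit 0) (XT.lf (nat_lit 0) (nat_lit 8862976310) (nat_lit 228) (nat_lit 3155572079) (nat_lit 76) (nat_lit 8542242278) (nat_lit 91) (nat_lit 5) (nat_lit 94) (nat_lit 5) (nat_lit 92) (nat_lit 4) (nat_lit 498) (nat_lit 385) (nat_lit 317)) (XT.lf (nat_lit 0) (nat_lit 11365575562) (nat_lit 76) (nat_lit 4697620573) (nat_lit 152) (nat_lit 4884996948) (nat_lit 90) (nat_lit 5) (nat_lit 91) (nat_lit 5) (nat_lit 92) (nat_lit 4) (nat_lit 499) (nat_lit 385) (nat_lit 316)))) (XT.nd (nat_lit 156) (nat_lit 304) (nat_lit 0) (XT.nd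 (nat_lit 78) (nat_lit 0) (nat_lit 0) (XT.lf (nat_lit 0) (nat_lit 2151803624) (nat_lit 228) (nat_lit 16345659527) (nat_lit 76) (nat_lit 2847303690) (nat_lit 87) (nat_lit 5) (nat_lit 90) (nat_lit 5) (nat_lit 88) (nat_lit 4) (nat_lit 500) (nat_lit 385) (nat_lit 315)) (XT.lf (nat_lit 0) (nat_lit 9398645636) (nat_lit 228) (nat_lit 1721781965) (nat_lit 76) (nat_lit 10628445901) (nat_lit 87) (nat_lit 5) (nat_lit 90) (nat_lit 5) (nat_lit 88) (nat_lit 4) (nat_lit 501) (nat_lit 385) (nat_lit 314))) (XT.nd (nat_lit 78) (nat_lit 228) (nat_lit 0) (XT.lf (nat_lit 0) (nat_lit 13516876017) (nat_lit 76) (nat_lit 3430207825) (nat_lit 152) (nat_lit 5215494094) (nat_lit 86) (nat_lit 5) (nat_lit 87) (nat_lit 5) (nat_lit 88) (nat_lit 4) (nat_lit 502) (nat_lit 385) (nat_lit 313)) (XT.lf (nat_lit 0) (nat_lit 2171525568) (nat_lit 228) (nat_lit 15948996881) (nat_lit 76) (nat_lit 4465159990) (nat_lit 83) (nat_lit 5) (nat_lit 86) (nat_lit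 5) (nat_lit 84) (nat_lit 4) (nat_lit 503) (nat_lit 385) (nat_lit 312))))) (XT.nd (nat_lit 312) (nat_lit 228) (nat_lit 0) (XT.nd (nat_lit 156) (nat_lit 304) (nat_lit 0) (XT.nd (nat_lit 78) (nat_lit 76) (nat_lit 0) (XT.lf (nat_lit 0) (nat_lit 9751863630) (nat_lit 228) (nat_lit 638397100) (nat_lit 76) (nat_lit 12627374442) (nat_lit 83) (nat_lit 5) (nat_lit 86) (nat_lit 5) (nat_lit 84) (nat_lit 4) (nat_lit 504) (nat_lit 385) (nat_lit 311)) (XT.lf (nat_lit 0) (nat_lit 15345684991) (nat_lit 76) (nat_lit 2317169620) (nat_lit 152) (nat_lit 5796594862) (nat_lit 82) (nat_lit 5) (nat_lit 83) (nat_lit 5) (nat_lit 84) (nat_lit 4) (nat_lit 505) (nat_lit 385) (nat_lit 310))) (XT.nd (nat_lit 78) (nat_lit 76) (nat_lit 0) (XT.lf (nat_lit 0) (nat_lit 1956710286) (nat_lit 228) (nat_lit 16011323085) (nat_lit 76) (nat_lit 5943026216) (nat_lit 79) (nat_lit 5) (nat_lit 82) (nat_lit 5) (nat_lit 80) (nat_lit 4) (nat_lit 506) (nat_lit 385)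 (nat_lit 309)) (XT.lf (nat_lit 0) (nat_lit 20038133) (nat_lit 76) (nat_lit 9867808585) (nat_lit 152) (nat_lit 14484797631) (nat_lit 78) (nat_lit 5) (nat_lit 79) (nat_lit 5) (nat_lit 80) (nat_lit 4) (nat_lit 507) (nat_lit 385) (nat_lit 308)))) (XT.nd (nat_lit 156) (nat_lit 76) (nat_lit 0) (XT.nd (nat_lit 78) (nat_lit 152) (nat_lit 0) (XT.lf (nat_lit 0) (nat_lit 16775979923) (nat_lit 76) (nat_lit 1398951679) (nat_lit 152) (nat_lit 6669604860) (nat_lit 78) (nat_lit 5) (nat_lit 79) (nat_lit 5) (nat_lit 80) (nat_lit 4) (nat_lit 508) (nat_lit 385) (nat_lit 307)) (XT.lf (nat_lit 0) (nat_lit 1465670838) (nat_lit 152) (nat_lit 16620828919) (nat_lit 76) (nat_lit 7240311128) (nat_lit 76) (nat_lit 5) (nat_lit 78) (nat_lit 5) (nat_lit 77) (nat_lit 4) (nat_lit 509) (nat_lit 385) (nat_lit 306))) (XT.nd (nat_lit 78) (nat_lit 0) (nat_lit 0) (XT.lf (nat_lit 0) (nat_lit 167580845) (nat_lit 76) (nat_lit 9598374876) (nat_lit 152) (nat_lit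 16053966865) (nat_lit 75) (nat_lit 5) (nat_lit 76) (nat_lit 5) (nat_lit 77) (nat_lit 4) (nat_lit 510) (nat_lit 385) (nat_lit 305)) (XT.lf (nat_lit 0) (nat_lit 17718126977) (nat_lit 76) (nat_lit 722672621) (nat_lit 152) (nat_lit 7883261737) (nat_lit 75) (nat_lit 5) (nat_lit 76) (nat_lit 5) (nat_lit 77) (nat_lit 4) (nat_lit 511) (nat_lit 385) (nat_lit 304))))))) (XT.nd (nat_lit 1248) (nat_lit 1140) (nat_lit 0) (XT.nd (nat_lit 624) (nat_lit 532) (nat_lit 0) (XT.nd (nat_lit 312) (nat_lit 304) (nat_lit 0) (XT.nd (nat_lit 156) (nat_lit 152) (nat_lit 0) (XT.nd (nat_lit 78) (nat_lit 0) (nat_lit 0) (XT.lf (nat_lit 0) (nat_lit 649098385) (nat_lit 152) (nat_lit 17880731667) (nat_lit 76) (nat_lit 8309533031) (nat_lit 73) (nat_lit 5) (nat_lit 75) (nat_lit 5) (nat_lit 74) (nat_lit 4) (nat_lit 512) (nat_lit 385) (nat_lit 303)) (XT.lf (nat_lit 0) (nat_lit 9332506390) (nat_lit 152) (nat_lit 307760881) (nat_lit 76) (nat_lit 17725909560)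 (nat_lit 73) (nat_lit 5) (nat_lit 75) (nat_lit 5) (nat_lit 74) (nat_lit 4) (nat_lit 513) (nat_lit 385) (nat_lit 302))) (XT.nd (nat_lit 78) (nat_lit 76) (nat_lit 0) (XT.lf (nat_lit 0) (nat_lit 18066570292) (nat_lit 76) (nat_lit 343323142) (nat_lit 152) (nat_lit 9494897440) (nat_lit 72) (nat_lit 5) (nat_lit 73) (nat_lit 5) (nat_lit 74) (nat_lit 4) (nat_lit 514) (nat_lit 385) (nat_lit 301)) (XT.lf (nat_lit 0) (nat_lit 8538371323) (nat_lit 76) (nat_lit 19355064838) (nat_lit 76) (nat_lit 562112336) (nat_lit 71) (nat_lit 4) (nat_lit 72) (nat_lit 5) (nat_lit 72) (nat_lit 4) (nat_lit 515) (nat_lit 385) (nat_lit 300)))) (XT.nd (nat_lit 156) (nat_lit 152) (nat_lit 0) (XT.nd (nat_lit 78) (nat_lit 76) (nat_lit 0) (XT.lf (nat_lit 0) (nat_lit 8533714319) (nat_lit 152) (nat_lit 1517799450) (nat_lit 76) (nat_lit 18966915173) (nat_lit 70) (nat_lit 5) (nat_lit 72) (nat_lit 5) (nat_lit 71) (nat_lit 4) (nat_lit 516) (nat_lit 385) (nat_lit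 299)) (XT.lf (nat_lit 0) (nat_lit 17697151692) (nat_lit 76) (nat_lit 325149691) (nat_lit 152) (nat_lit 11571792114) (nat_lit 69) (nat_lit 5) (nat_lit 70) (nat_lit 5) (nat_lit 71) (nat_lit 4) (nat_lit 517) (nat_lit 385) (nat_lit 298))) (XT.nd (nat_lit 78) (nat_lit 76) (nat_lit 0) (XT.lf (nat_lit 0) (nat_lit 7306106318) (nat_lit 76) (nat_lit 20629445903) (nat_lit 76) (nat_lit 2247275745) (nat_lit 68) (nat_lit 4) (nat_lit 69) (nat_lit 5) (nat_lit 69) (nat_lit 4) (nat_lit 518) (nat_lit 385) (nat_lit 297)) (XT.lf (nat_lit 0) (nat_lit 7299107027) (nat_lit 152) (nat_lit 3607885279) (nat_lit 76) (nat_lit 19877539962) (nat_lit 67) (nat_lit 5) (nat_lit 69) (nat_lit 5) (nat_lit 68) (nat_lit 4) (nat_lit 519) (nat_lit 385) (nat_lit 296))))) (XT.nd (nat_lit 312) (nat_lit 228) (nat_lit 0) (XT.nd (nat_lit 156) (nat_lit 152) (nat_lit 0) (XT.nd (nat_lit 78) (nat_lit 76) (nat_lit 0) (XT.lf (nat_lit 0) (nat_lit 16464001100) (nat_lit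 76) (nat_lit 743253309) (nat_lit 152) (nat_lit 14192749698) (nat_lit 66) (nat_lit 5) (nat_lit 67) (nat_lit 5) (nat_lit 68) (nat_lit 4) (nat_lit 520) (nat_lit 385) (nat_lit 295)) (XT.lf (nat_lit 0) (nat_lit 5110956039) (nat_lit 76) (nat_lit 22443426718) (nat_lit 76) (nat_lit 4475305390) (nat_lit 65) (nat_lit 4) (nat_lit 66) (nat_lit 5) (nat_lit 66) (nat_lit 4) (nat_lit 521) (nat_lit 385) (nat_lit 294))) (XT.nd (nat_lit 78) (nat_lit 76) (nat_lit 0) (XT.lf (nat_lit 0) (nat_lit 5547707157) (nat_lit 152) (nat_lit 6744394014) (nat_lit 76) (nat_lit 20380905087) (nat_lit 64) (nat_lit 5) (nat_lit 66) (nat_lit 5) (nat_lit 65) (nat_lit 4) (nat_lit 522) (nat_lit 385) (nat_lit 293)) (XT.lf (nat_lit 0) (nat_lit 14195928340) (nat_lit 76) (nat_lit 1685439079) (nat_lit 152) (nat_lit 17449930130) (nat_lit 63) (nat_lit 5) (nat_lit 64) (nat_lit 5) (nat_lit 65) (nat_lit 4) (nat_lit 523) (nat_lit 385) (nat_lit 292)))) (XT.nd (nat_lit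 156) (nat_lit 76) (nat_lit 0) (XT.nd (nat_lit 78) (nat_lit 76) (nat_lit 0) (XT.lf (nat_lit 0) (nat_lit 1768446424) (nat_lit 76) (nat_lit 24894674199) (nat_lit 76) (nat_lit 7342074590) (nat_lit 62) (nat_lit 4) (nat_lit 63) (nat_lit 5) (nat_lit 63) (nat_lit 4) (nat_lit 524) (nat_lit 385) (nat_lit 291)) (XT.lf (nat_lit 0) (nat_lit 3184469031) (nat_lit 152) (nat_lit 11121995017) (nat_lit 76) (nat_lit 20386700641) (nat_lit 61) (nat_lit 5) (nat_lit 63) (nat_lit 5) (nat_lit 62) (nat_lit 4) (nat_lit 525) (nat_lit 385) (nat_lit 290))) (XT.nd (nat_lit 78) (nat_lit 0) (nat_lit 0) (XT.lf (nat_lit 0) (nat_lit 10692236072) (nat_lit 76) (nat_lit 3254357194) (nat_lit 152) (nat_lit 21450978705) (nat_lit 60) (nat_lit 5) (nat_lit 61) (nat_lit 5) (nat_lit 62) (nat_lit 4) (nat_lit 526) (nat_lit 385) (nat_lit 289)) (XT.lf (nat_lit 0) (nat_lit 25187757842) (nat_lit 152) (nat_lit 2880067560) (nat_lit 0) (nat_lit 8050600884) (nat_lit 60)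 (nat_lit 5) (nat_lit 62) (nat_lit 4) (nat_lit 60) (nat_lit 4) (nat_lit 527) (nat_lit 385) (nat_lit 288)))))) (XT.nd (nat_lit 624) (nat_lit 532) (nat_lit 0) (XT.nd (nat_lit 312) (nat_lit 304) (nat_lit 0) (XT.nd (nat_lit 156) (nat_lit 76) (nat_lit 0) (XT.nd (nat_lit 78) (nat_lit 76) (nat_lit 0) (XT.lf (nat_lit 0) (nat_lit 98008764) (nat_lit 152) (nat_lit 16968290038) (nat_lit 76) (nat_lit 19788907597) (nat_lit 58) (nat_lit 5) (nat_lit 60) (nat_lit 5) (nat_lit 59) (nat_lit 4) (nat_lit 528) (nat_lit 385) (nat_lit 287)) (XT.lf (nat_lit 0) (nat_lit 5717860792) (nat_lit 76) (nat_lit 5569983080) (nat_lit 152) (nat_lit 26321499618) (nat_lit 57) (nat_lit 5) (nat_lit 58) (nat_lit 5) (nat_lit 59) (nat_lit 4) (nat_lit 529) (nat_lit 385) (nat_lit 286))) (XT.nd (nat_lit 78) (nat_lit 76) (nat_lit 0) (XT.lf (nat_lit 0) (nat_lit 23012392156) (nat_lit 152) (nat_lit 9078481786) (nat_lit 0) (nat_lit 6289260309) (nat_lit 57) (nat_lit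 5) (nat_lit 59) (nat_lit 4) (nat_lit 57) (nat_lit 4) (nat_lit 530) (nat_lit 385) (nat_lit 285)) (XT.lf (nat_lit 0) (nat_lit 14582326538) (nat_lit 76) (nat_lit 20668364534) (nat_lit 76) (nat_lit 3918497336) (nat_lit 56) (nat_lit 4) (nat_lit 57) (nat_lit 5) (nat_lit 57) (nat_lit 4) (nat_lit 531) (nat_lit 385) (nat_lit 284)))) (XT.nd (nat_lit 156) (nat_lit 152) (nat_lit 0) (XT.nd (nat_lit 78) (nat_lit 76) (nat_lit 0) (XT.lf (nat_lit 0) (nat_lit 7779859965) (nat_lit 152) (nat_lit 982708118) (nat_lit 76) (nat_lit 31215296752) (nat_lit 55) (nat_lit 5) (nat_lit 57) (nat_lit 5) (nat_lit 56) (nat_lit 4) (nat_lit 532) (nat_lit 385) (nat_lit 283)) (XT.lf (nat_lit 0) (nat_lit 19981781019) (nat_lit 152) (nat_lit 17150808820) (nat_lit 0) (nat_lit 3670106767) (nat_lit 54) (nat_lit 5) (nat_lit 56) (nat_lit 4) (nat_lit 54) (nat_lit 4) (nat_lit 533) (nat_lit 385) (nat_lit 282))) (XT.nd (nat_lit 78) (nat_lit 76) (nat_lit 0) (XT.lf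 (nat_lit 0) (nat_lit 7386868095) (nat_lit 76) (nat_lit 25298384402) (nat_lit 76) (nat_lit 8962956136) (nat_lit 53) (nat_lit 4) (nat_lit 54) (nat_lit 5) (nat_lit 54) (nat_lit 4) (nat_lit 534) (nat_lit 385) (nat_lit 281)) (XT.lf (nat_lit 0) (nat_lit 3329932440) (nat_lit 152) (nat_lit 9598727558) (nat_lit 76) (nat_lit 29585209940) (nat_lit 52) (nat_lit 5) (nat_lit 54) (nat_lit 5) (nat_lit 53) (nat_lit 4) (nat_lit 535) (nat_lit 385) (nat_lit 280))))) (XT.nd (nat_lit 312) (nat_lit 228) (nat_lit 0) (XT.nd (nat_lit 156) (nat_lit 228) (nat_lit 0) (XT.nd (nat_lit 78) (nat_lit 0) (nat_lit 0) (XT.lf (nat_lit 0) (nat_lit 15933874720) (nat_lit 152) (nat_lit 27435184865) (nat_lit 0) (nat_lit 30106906) (nat_lit 51) (nat_lit 5) (nat_lit 53) (nat_lit 4) (nat_lit 51) (nat_lit 4) (nat_lit 536) (nat_lit 385) (nat_lit 279)) (XT.lf (nat_lit 0) (nat_lit 29110515594) (nat_lit 152) (nat_lit 2009026366) (nat_lit 0) (nat_lit 13185642647)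 (nat_lit 51) (nat_lit 5) (nat_lit 53) (nat_lit 4) (nat_lit 51) (nat_lit 4) (nat_lit 537) (nat_lit 385) (nat_lit 278))) (XT.nd (nat_lit 78) (nat_lit 152) (nat_lit 0) (XT.lf (nat_lit 0) (nat_lit 24599472611) (nat_lit 76) (nat_lit 18289046104) (nat_lit 76) (nat_lit 2343682737) (nat_lit 50) (nat_lit 4) (nat_lit 51) (nat_lit 5) (nat_lit 51) (nat_lit 4) (nat_lit 538) (nat_lit 385) (nat_lit 277)) (XT.lf (nat_lit 0) (nat_lit 5808952943) (nat_lit 76) (nat_lit 4917258840) (nat_lit 152) (nat_lit 35456297721) (nat_lit 48) (nat_lit 5) (nat_lit 49) (nat_lit 5) (nat_lit 50) (nat_lit 4) (nat_lit 539) (nat_lit 385) (nat_lit 276)))) (XT.nd (nat_lit 156) (nat_lit 152) (nat_lit 0) (XT.nd (nat_lit 78) (nat_lit 76) (nat_lit 0) (XT.lf (nat_lit 0) (nat_lit 24406269366) (nat_lit 152) (nat_lit 13859137962) (nat_lit 0) (nat_lit 8887268236) (nat_lit 48) (nat_lit 5) (nat_lit 50) (nat_lit 4) (nat_lit 48) (nat_lit 4) (nat_lit 540) (nat_lit 385)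 (nat_lit 275)) (XT.lf (nat_lit 0) (nat_lit 13608843584) (nat_lit 76) (nat_lit 25037904554) (nat_lit 76) (nat_lit 9500697951) (nat_lit 47) (nat_lit 4) (nat_lit 48) (nat_lit 5) (nat_lit 48) (nat_lit 4) (nat_lit 541) (nat_lit 385) (nat_lit 274))) (XT.nd (nat_lit 78) (nat_lit 76) (nat_lit 0) (XT.lf (nat_lit 0) (nat_lit 4173412317) (nat_lit 152) (nat_lit 7082854815) (nat_lit 76) (nat_lit 37911242182) (nat_lit 46) (nat_lit 5) (nat_lit 48) (nat_lit 5) (nat_lit 47) (nat_lit 4) (nat_lit 542) (nat_lit 385) (nat_lit 273)) (XT.lf (nat_lit 0) (nat_lit 18275456173) (nat_lit 152) (nat_lit 28776667809) (nat_lit 0) (nat_lit 3156968577) (nat_lit 45) (nat_lit 5) (nat_lit 47) (nat_lit 4) (nat_lit 45) (nat_lit 4) (nat_lit 543) (nat_lit 385) (nat_lit 272))))))))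
noncomputable def xc63 : XT := (XT.nd (nat_lit 55068) (nat_lit 0) (nat_lit 6232) (XT.nd (nat_lit 53820) (nat_lit 0) (nat_lit 12844) (XT.nd (nat_lit 546) (nat_lit 152) (nat_lit 0) (XT.nd (nat_lit 234) (nat_lit 228) (nat_lit 0) (XT.nd (nat_lit 78) (nat_lit 228) (nat_lit 0) (XT.lf (nat_lit 0) (nat_lit 32955646636) (nat_lit 152) (nat_lit 500640453) (nat_lit 0) (nat_lit 17820983714) (nat_lit 45) (nat_lit 5) (nat_lit 47) (nat_lit 4) (nat_lit 45) (nat_lit 4) (nat_lit 544) (nat_lit 385) (nat_lit 271)) (XT.nd (nat_lit 78) (nat_lit 152) (nat_lit 0) (XT.lf (nat_lit 0) (nat_lit 29136833469) (nat_lit 76) (nat_lit 19191729254) (nat_lit 76) (nat_lit 4041362131) (nat_lit 44) (nat_lit 4) (nat_lit 45) (nat_lit 5) (nat_lit 45) (nat_lit 4) (nat_lit 545) (nat_lit 385) (nat_lit 270)) (XT.lf (nat_lit 0) (nat_lit 6140308101) (nat_lit 76) (nat_lit 4355219987) (nat_lit 152) (nat_lit 42995662933) (nat_lit 42) (nat_lit 5) (nat_lit 43) (nat_lit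 5) (nat_lit 44) (nat_lit 4) (nat_lit 546) (nat_lit 385) (nat_lit 269)))) (XT.nd (nat_lit 156) (nat_lit 152) (nat_lit 0) (XT.nd (nat_lit 78) (nat_lit 76) (nat_lit 0) (XT.lf (nat_lit 0) (nat_lit 25701525829) (nat_lit 152) (nat_lit 17970684897) (nat_lit 0) (nat_lit 10963257251) (nat_lit 42) (nat_lit 5) (nat_lit 44) (nat_lit 4) (nat_lit 42) (nat_lit 4) (nat_lit 547) (nat_lit 385) (nat_lit 268)) (XT.lf (nat_lit 0) (nat_lit 12436670949) (nat_lit 76) (nat_lit 29062775801) (nat_lit 76) (nat_lit 14310554245) (nat_lit 41) (nat_lit 4) (nat_lit 42) (nat_lit 5) (nat_lit 42) (nat_lit 4) (nat_lit 548) (nat_lit 385) (nat_lit 267))) (XT.nd (nat_lit 78) (nat_lit 76) (nat_lit 0) (XT.lf (nat_lit 0) (nat_lit 893217025) (nat_lit 152) (nat_lit 12952537576) (nat_lit 76) (nat_lit 43169108318) (nat_lit 40) (nat_lit 5) (nat_lit 42) (nat_lit 5) (nat_lit 41) (nat_lit 4) (nat_lit 549) (nat_lit 385) (nat_lit 266)) (XT.lf (nat_lit 0) (nat_lit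 16438129192) (nat_lit 152) (nat_lit 39718648204) (nat_lit 0) (nat_lit 2089663019) (nat_lit 39) (nat_lit 5) (nat_lit 41) (nat_lit 4) (nat_lit 39) (nat_lit 4) (nat_lit 550) (nat_lit 385) (nat_lit 265))))) (XT.nd (nat_lit 52962) (nat_lit 0) (nat_lit 18620) (XT.nd (nat_lit 156) (nat_lit 76) (nat_lit 0) (XT.nd (nat_lit 78) (nat_lit 76) (nat_lit 0) (XT.lf (nat_lit 0) (nat_lit 32692446337) (nat_lit 152) (nat_lit 8483644094) (nat_lit 0) (nat_lit 18331583122) (nat_lit 39) (nat_lit 5) (nat_lit 41) (nat_lit 4) (nat_lit 39) (nat_lit 4) (nat_lit 551) (nat_lit 385) (nat_lit 264)) (XT.lf (nat_lit 0) (nat_lit 24108101124) (nat_lit 76) (nat_lit 25532675142) (nat_lit 76) (nat_lit 11159775966) (nat_lit 38) (nat_lit 4) (nat_lit 39) (nat_lit 5) (nat_lit 39) (nat_lit 4) (nat_lit 552) (nat_lit 385) (nat_lit 263))) (XT.nd (nat_lit 52728) (nat_lit 0) (nat_lit 20444) (XT.lf (nat_lit 0) (nat_lit 4929612006) (nat_lit 152) (nat_lit 4377472203)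 (nat_lit 76) (nat_lit 52821866262) (nat_lit 37) (nat_lit 5) (nat_lit 39) (nat_lit 5) (nat_lit 38) (nat_lit 4) (nat_lit 553) (nat_lit 385) (nat_lit 262)) (XT.lf (nat_lit 0) (nat_lit 43696088) (nat_lit 684) (nat_lit 3549592170) (nat_lit 0) (nat_lit 43696088) (nat_lit 306) (nat_lit 5) (nat_lit 315) (nat_lit 4) (nat_lit 306) (nat_lit 4) (nat_lit 428) (nat_lit 386) (nat_lit 386)))) (XT.nd (nat_lit 156) (nat_lit 1216) (nat_lit 0) (XT.nd (nat_lit 78) (nat_lit 608) (nat_lit 0) (XT.lf (nat_lit 0) (nat_lit 3712715798) (nat_lit 684) (nat_lit 1488841602) (nat_lit 0) (nat_lit 2132840204) (nat_lit 306) (nat_lit 5) (nat_lit 315) (nat_lit 4) (nat_lit 306) (nat_lit 4) (nat_lit 429) (nat_lit 386) (nat_lit 385)) (XT.lf (nat_lit 0) (nat_lit 4260427853) (nat_lit 608) (nat_lit 3125883588) (nat_lit 608) (nat_lit 12148194) (nat_lit 298) (nat_lit 4) (nat_lit 306) (nat_lit 5) (nat_lit 306) (nat_lit 4) (nat_lit 430) (nat_lit 386) (nat_lit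 384))) (XT.nd (nat_lit 78) (nat_lit 608) (nat_lit 0) (XT.lf (nat_lit 0) (nat_lit 2651244849) (nat_lit 532) (nat_lit 922235206) (nat_lit 608) (nat_lit 3891696547) (nat_lit 290) (nat_lit 5) (nat_lit 297) (nat_lit 5) (nat_lit 298) (nat_lit 4) (nat_lit 431) (nat_lit 386) (nat_lit 383)) (XT.lf (nat_lit 0) (nat_lit 1037289481) (nat_lit 608) (nat_lit 6185238662) (nat_lit 608) (nat_lit 312685616) (nat_lit 282) (nat_lit 4) (nat_lit 290) (nat_lit 5) (nat_lit 290) (nat_lit 4) (nat_lit 432) (nat_lit 386) (nat_lit 382)))))) (XT.nd (nat_lit 624) (nat_lit 2584) (nat_lit 0) (XT.nd (nat_lit 312) (nat_lit 1520) (nat_lit 0) (XT.nd (nat_lit 156) (nat_lit 1064) (nat_lit 0) (XT.nd (nat_lit 78) (nat_lit 532) (nat_lit 0) (XT.lf (nat_lit 0) (nat_lit 3268072263) (nat_lit 684) (nat_lit 601180914) (nat_lit 76) (nat_lit 3738324514) (nat_lit 281) (nat_lit 5) (nat_lit 290) (nat_lit 5) (nat_lit 282) (nat_lit 4) (nat_lit 433) (nat_lit 386) (nat_lit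 381)) (XT.lf (nat_lit 0) (nat_lit 5463383918) (nat_lit 532) (nat_lit 1443942419) (nat_lit 608) (nat_lit 775977292) (nat_lit 274) (nat_lit 5) (nat_lit 281) (nat_lit 5) (nat_lit 282) (nat_lit 4) (nat_lit 434) (nat_lit 386) (nat_lit 380))) (XT.nd (nat_lit 78) (nat_lit 456) (nat_lit 0) (XT.lf (nat_lit 0) (nat_lit 2797823816) (nat_lit 608) (nat_lit 3876798217) (nat_lit 76) (nat_lit 1087053600) (nat_lit 266) (nat_lit 5) (nat_lit 274) (nat_lit 5) (nat_lit 267) (nat_lit 4) (nat_lit 435) (nat_lit 386) (nat_lit 379)) (XT.lf (nat_lit 0) (nat_lit 2284107326) (nat_lit 456) (nat_lit 4145119758) (nat_lit 532) (nat_lit 1413965998) (nat_lit 260) (nat_lit 5) (nat_lit 266) (nat_lit 5) (nat_lit 267) (nat_lit 4) (nat_lit 436) (nat_lit 386) (nat_lit 378)))) (XT.nd (nat_lit 156) (nat_lit 988) (nat_lit 0) (XT.nd (nat_lit 78) (nat_lit 0) (nat_lit 0) (XT.lf (nat_lit 0) (nat_lit 658665022) (nat_lit 456) (nat_lit 1493658663) (nat_lit 532)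 (nat_lit 5775579818) (nat_lit 253) (nat_lit 5) (nat_lit 259) (nat_lit 5) (nat_lit 260) (nat_lit 5) (nat_lit 437) (nat_lit 386) (nat_lit 377)) (XT.lf (nat_lit 0) (nat_lit 5774922712) (nat_lit 532) (nat_lit 979950790) (nat_lit 76) (nat_lit 1260533488) (nat_lit 253) (nat_lit 5) (nat_lit 260) (nat_lit 5) (nat_lit 254) (nat_lit 4) (nat_lit 438) (nat_lit 386) (nat_lit 376))) (XT.nd (nat_lit 78) (nat_lit 456) (nat_lit 0) (XT.lf (nat_lit 0) (nat_lit 1352355726) (nat_lit 532) (nat_lit 2642854771) (nat_lit 76) (nat_lit 4110554173) (nat_lit 246) (nat_lit 5) (nat_lit 253) (nat_lit 5) (nat_lit 247) (nat_lit 5) (nat_lit 439) (nat_lit 386) (nat_lit 375)) (XT.lf (nat_lit 0) (nat_lit 3859477758) (nat_lit 456) (nat_lit 1107991192) (nat_lit 532) (nat_lit 3231916662) (nat_lit 240) (nat_lit 5) (nat_lit 246) (nat_lit 5) (nat_lit 247) (nat_lit 5) (nat_lit 440) (nat_lit 386) (nat_lit 374))))) (XT.nd (nat_lit 312) (nat_lit 1216) (nat_lit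 0) (XT.nd (nat_lit 156) (nat_lit 456) (nat_lit 0) (XT.nd (nat_lit 78) (nat_lit 456) (nat_lit 0) (XT.lf (nat_lit 0) (nat_lit 367221707) (nat_lit 456) (nat_lit 6074114656) (nat_lit 76) (nat_lit 1854976843) (nat_lit 234) (nat_lit 5) (nat_lit 240) (nat_lit 5) (nat_lit 235) (nat_lit 5) (nat_lit 441) (nat_lit 386) (nat_lit 373)) (XT.lf (nat_lit 0) (nat_lit 526212958) (nat_lit 456) (nat_lit 3457654391) (nat_lit 532) (nat_lit 4412089861) (nat_lit 228) (nat_lit 5) (nat_lit 234) (nat_lit 5) (nat_lit 235) (nat_lit 5) (nat_lit 442) (nat_lit 386) (nat_lit 372))) (XT.nd (nat_lit 78) (nat_lit 456) (nat_lit 0) (XT.lf (nat_lit 0) (nat_lit 7334250390) (nat_lit 456) (nat_lit 351698353) (nat_lit 532) (nat_lit 813336907) (nat_lit 228) (nat_lit 5) (nat_lit 234) (nat_lit 5) (nat_lit 235) (nat_lit 5) (nat_lit 443) (nat_lit 386) (nat_lit 371)) (XT.lf (nat_lit 0) (nat_lit 2836961221) (nat_lit 456) (nat_lit 2922285267) (nat_lit 76) (nat_lit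 2845634805) (nat_lit 222) (nat_lit 5) (nat_lit 228) (nat_lit 5) (nat_lit 223) (nat_lit 5) (nat_lit 444) (nat_lit 386) (nat_lit 370)))) (XT.nd (nat_lit 156) (nat_lit 380) (nat_lit 0) (XT.nd (nat_lit 78) (nat_lit 456) (nat_lit 0) (XT.lf (nat_lit 0) (nat_lit 3998457349) (nat_lit 380) (nat_lit 2554045785) (nat_lit 456) (nat_lit 2161740555) (nat_lit 217) (nat_lit 5) (nat_lit 222) (nat_lit 5) (nat_lit 223) (nat_lit 5) (nat_lit 445) (nat_lit 386) (nat_lit 369)) (XT.lf (nat_lit 0) (nat_lit 1500298833) (nat_lit 456) (nat_lit 6559606168) (nat_lit 76) (nat_lit 767197825) (nat_lit 211) (nat_lit 5) (nat_lit 217) (nat_lit 5) (nat_lit 212) (nat_lit 5) (nat_lit 446) (nat_lit 386) (nat_lit 368))) (XT.nd (nat_lit 78) (nat_lit 0) (nat_lit 0) (XT.lf (nat_lit 0) (nat_lit 461250168) (nat_lit 380) (nat_lit 4765042567) (nat_lit 456) (nat_lit 3716489321) (nat_lit 206) (nat_lit 5) (nat_lit 211) (nat_lit 5) (nat_lit 212) (nat_lit 5) (nat_lit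 447) (nat_lit 386) (nat_lit 367)) (XT.lf (nat_lit 0) (nat_lit 7712715127) (nat_lit 380) (nat_lit 1338557093) (nat_lit 456) (nat_lit 11045877) (nat_lit 206) (nat_lit 5) (nat_lit 211) (nat_lit 5) (nat_lit 212) (nat_lit 5) (nat_lit 448) (nat_lit 386) (nat_lit 366))))))) (XT.nd (nat_lit 1248) (nat_lit 2584) (nat_lit 0) (XT.nd (nat_lit 624) (nat_lit 1672) (nat_lit 0) (XT.nd (nat_lit 312) (nat_lit 988) (nat_lit 0) (XT.nd (nat_lit 156) (nat_lit 684) (nat_lit 0) (XT.nd (nat_lit 78) (nat_lit 304) (nat_lit 0) (XT.lf (nat_lit 0) (nat_lit 3732780607) (nat_lit 380) (nat_lit 3243223764) (nat_lit 76) (nat_lit 2208296466) (nat_lit 201) (nat_lit 5) (nat_lit 206) (nat_lit 5) (nat_lit 202) (nat_lit 5) (nat_lit 449) (nat_lit 386) (nat_lit 365)) (XT.lf (nat_lit 0) (nat_lit 4122006133) (nat_lit 304) (nat_lit 3456684977) (nat_lit 380) (nat_lit 1731551316) (nat_lit 197) (nat_lit 5) (nat_lit 201) (nat_lit 5) (nat_lit 202) (nat_lit 5) (nat_lit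 450) (nat_lit 386) (nat_lit 364))) (XT.nd (nat_lit 78) (nat_lit 304) (nat_lit 0) (XT.lf (nat_lit 0) (nat_lit 2039442246) (nat_lit 380) (nat_lit 7196955220) (nat_lit 76) (nat_lit 203549311) (nat_lit 192) (nat_lit 5) (nat_lit 197) (nat_lit 5) (nat_lit 193) (nat_lit 5) (nat_lit 451) (nat_lit 386) (nat_lit 363)) (XT.lf (nat_lit 0) (nat_lit 270201792) (nat_lit 304) (nat_lit 5632820297) (nat_lit 380) (nat_lit 3669580264) (nat_lit 188) (nat_lit 5) (nat_lit 192) (nat_lit 5) (nat_lit 193) (nat_lit 5) (nat_lit 452) (nat_lit 386) (nat_lit 362)))) (XT.nd (nat_lit 156) (nat_lit 608) (nat_lit 0) (XT.nd (nat_lit 78) (nat_lit 304) (nat_lit 0) (XT.lf (nat_lit 0) (nat_lit 168180402) (nat_lit 380) (nat_lit 1715633400) (nat_lit 76) (nat_lit 7825427188) (nat_lit 187) (nat_lit 5) (nat_lit 192) (nat_lit 5) (nat_lit 188) (nat_lit 5) (nat_lit 453) (nat_lit 386) (nat_lit 361)) (XT.lf (nat_lit 0) (nat_lit 4052316077) (nat_lit 380) (nat_lit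 3799811316) (nat_lit 76) (nat_lit 1996613504) (nat_lit 183) (nat_lit 5) (nat_lit 188) (nat_lit 5) (nat_lit 184) (nat_lit 5) (nat_lit 454) (nat_lit 386) (nat_lit 360))) (XT.nd (nat_lit 78) (nat_lit 304) (nat_lit 0) (XT.lf (nat_lit 0) (nat_lit 4037217764) (nat_lit 304) (nat_lit 4018483930) (nat_lit 380) (nat_lit 1936644271) (nat_lit 179) (nat_lit 5) (nat_lit 183) (nat_lit 5) (nat_lit 184) (nat_lit 5) (nat_lit 455) (nat_lit 386) (nat_lit 359)) (XT.lf (nat_lit 0) (nat_lit 1953520429) (nat_lit 228) (nat_lit 31248224) (nat_lit 304) (nat_lit 8155335601) (nat_lit 175) (nat_lit 5) (nat_lit 178) (nat_lit 5) (nat_lit 179) (nat_lit 5) (nat_lit 456) (nat_lit 386) (nat_lit 358))))) (XT.nd (nat_lit 312) (nat_lit 836) (nat_lit 0) (XT.nd (nat_lit 156) (nat_lit 532) (nat_lit 0) (XT.nd (nat_lit 78) (nat_lit 304) (nat_lit 0) (XT.lf (nat_lit 0) (nat_lit 6013532890) (nat_lit 304) (nat_lit 241329006) (nat_lit 76) (nat_lit 4036000924)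 (nat_lit 175) (nat_lit 5) (nat_lit 179) (nat_lit 5) (nat_lit 176) (nat_lit 5) (nat_lit 457) (nat_lit 386) (nat_lit 357)) (XT.lf (nat_lit 0) (nat_lit 7987753349) (nat_lit 304) (nat_lit 2183301048) (nat_lit 380) (nat_lit 274854639) (nat_lit 171) (nat_lit 5) (nat_lit 175) (nat_lit 5) (nat_lit 176) (nat_lit 5) (nat_lit 458) (nat_lit 386) (nat_lit 356))) (XT.nd (nat_lit 78) (nat_lit 228) (nat_lit 0) (XT.lf (nat_lit 0) (nat_lit 3782074277) (nat_lit 304) (nat_lit 4795201893) (nat_lit 76) (nat_lit 2026938648) (nat_lit 167) (nat_lit 5) (nat_lit 171) (nat_lit 5) (nat_lit 168) (nat_lit 5) (nat_lit 459) (nat_lit 386) (nat_lit 355)) (XT.lf (nat_lit 0) (nat_lit 3541642846) (nat_lit 228) (nat_lit 4425924559) (nat_lit 304) (nat_lit 2799250887) (nat_lit 164) (nat_lit 5) (nat_lit 167) (nat_lit 5) (nat_lit 168) (nat_lit 5) (nat_lit 460) (nat_lit 386) (nat_lit 354)))) (XT.nd (nat_lit 156) (nat_lit 532) (nat_lit 0) (XT.nd (nat_lit 78)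 (nat_lit 0) (nat_lit 0) (XT.lf (nat_lit 0) (nat_lit 1192701166) (nat_lit 228) (nat_lit 117675010) (nat_lit 304) (nat_lit 9623769006) (nat_lit 160) (nat_lit 5) (nat_lit 163) (nat_lit 5) (nat_lit 164) (nat_lit 5) (nat_lit 461) (nat_lit 386) (nat_lit 353)) (XT.lf (nat_lit 0) (nat_lit 5534665382) (nat_lit 304) (nat_lit 1274768849) (nat_lit 76) (nat_lit 4294798564) (nat_lit 160) (nat_lit 5) (nat_lit 164) (nat_lit 5) (nat_lit 161) (nat_lit 5) (nat_lit 462) (nat_lit 386) (nat_lit 352))) (XT.nd (nat_lit 78) (nat_lit 304) (nat_lit 0) (XT.lf (nat_lit 0) (nat_lit 7482275421) (nat_lit 228) (nat_lit 2410893507) (nat_lit 304) (nat_lit 1386030939) (nat_lit 157) (nat_lit 5) (nat_lit 160) (nat_lit 5) (nat_lit 161) (nat_lit 5) (nat_lit 463) (nat_lit 386) (nat_lit 351)) (XT.lf (nat_lit 0) (nat_lit 2882804566) (nat_lit 304) (nat_lit 6449181761) (nat_lit 76) (nat_lit 2126083071) (nat_lit 153) (nat_lit 5) (nat_lit 157) (nat_lit 5) (nat_lit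 154) (nat_lit 5) (nat_lit 464) (nat_lit 386) (nat_lit 350)))))) (XT.nd (nat_lit 624) (nat_lit 1216) (nat_lit 0) (XT.nd (nat_lit 312) (nat_lit 684) (nat_lit 0) (XT.nd (nat_lit 156) (nat_lit 456) (nat_lit 0) (XT.nd (nat_lit 78) (nat_lit 0) (nat_lit 0) (XT.lf (nat_lit 0) (nat_lit 2415548984) (nat_lit 228) (nat_lit 4857196269) (nat_lit 304) (nat_lit 4368522412) (nat_lit 150) (nat_lit 5) (nat_lit 153) (nat_lit 5) (nat_lit 154) (nat_lit 5) (nat_lit 465) (nat_lit 386) (nat_lit 349)) (XT.lf (nat_lit 0) (nat_lit 11570327130) (nat_lit 228) (nat_lit 225119595) (nat_lit 304) (nat_lit 34484523) (nat_lit 150) (nat_lit 5) (nat_lit 153) (nat_lit 5) (nat_lit 154) (nat_lit 5) (nat_lit 466) (nat_lit 386) (nat_lit 348))) (XT.nd (nat_lit 78) (nat_lit 228) (nat_lit 0) (XT.lf (nat_lit 0) (nat_lit 4411420803) (nat_lit 228) (nat_lit 3064442509) (nat_lit 76) (nat_lit 4545066709) (nat_lit 147) (nat_lit 5) (nat_lit 150) (nat_lit 5) (nat_lit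 148) (nat_lit 5) (nat_lit 467) (nat_lit 386) (nat_lit 347)) (XT.lf (nat_lit 0) (nat_lit 6249554306) (nat_lit 228) (nat_lit 2742997863) (nat_lit 304) (nat_lit 3225021226) (nat_lit 144) (nat_lit 5) (nat_lit 147) (nat_lit 5) (nat_lit 148) (nat_lit 5) (nat_lit 468) (nat_lit 386) (nat_lit 346)))) (XT.nd (nat_lit 156) (nat_lit 228) (nat_lit 0) (XT.nd (nat_lit 78) (nat_lit 228) (nat_lit 0) (XT.lf (nat_lit 0) (nat_lit 1288677565) (nat_lit 228) (nat_lit 9006408345) (nat_lit 76) (nat_lit 2123972890) (nat_lit 141) (nat_lit 5) (nat_lit 144) (nat_lit 5) (nat_lit 142) (nat_lit 5) (nat_lit 469) (nat_lit 386) (nat_lit 345)) (XT.lf (nat_lit 0) (nat_lit 413512133) (nat_lit 228) (nat_lit 5489603311) (nat_lit 304) (nat_lit 6721612002) (nat_lit 138) (nat_lit 5) (nat_lit 141) (nat_lit 5) (nat_lit 142) (nat_lit 5) (nat_lit 470) (nat_lit 386) (nat_lit 344))) (XT.nd (nat_lit 78) (nat_lit 228) (nat_lit 0) (XT.lf (nat_lit 0) (nat_lit 10194534627)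 (nat_lit 228) (nat_lit 491332761) (nat_lit 304) (nat_lit 2149803347) (nat_lit 138) (nat_lit 5) (nat_lit 141) (nat_lit 5) (nat_lit 142) (nat_lit 5) (nat_lit 471) (nat_lit 386) (nat_lit 343)) (XT.lf (nat_lit 0) (nat_lit 2564098350) (nat_lit 228) (nat_lit 5868912110) (nat_lit 76) (nat_lit 4617548495) (nat_lit 135) (nat_lit 5) (nat_lit 138) (nat_lit 5) (nat_lit 136) (nat_lit 5) (nat_lit 472) (nat_lit 386) (nat_lit 342))))) (XT.nd (nat_lit 312) (nat_lit 608) (nat_lit 0) (XT.nd (nat_lit 156) (nat_lit 228) (nat_lit 0) (XT.nd (nat_lit 78) (nat_lit 152) (nat_lit 0) (XT.lf (nat_lit 0) (nat_lit 4029833813) (nat_lit 228) (nat_lit 3357363424) (nat_lit 304) (nat_lit 5883729285) (nat_lit 132) (nat_lit 5) (nat_lit 135) (nat_lit 5) (nat_lit 136) (nat_lit 5) (nat_lit 473) (nat_lit 386) (nat_lit 341)) (XT.lf (nat_lit 0) (nat_lit 740749474) (nat_lit 152) (nat_lit 11639954536) (nat_lit 228) (nat_lit 1116430558) (nat_lit 130) (nat_lit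 5) (nat_lit 132) (nat_lit 5) (nat_lit 133) (nat_lit 4) (nat_lit 474) (nat_lit 386) (nat_lit 340))) (XT.nd (nat_lit 78) (nat_lit 152) (nat_lit 0) (XT.lf (nat_lit 0) (nat_lit 3788246109) (nat_lit 228) (nat_lit 2691491651) (nat_lit 76) (nat_lit 7247246125) (nat_lit 129) (nat_lit 5) (nat_lit 132) (nat_lit 5) (nat_lit 130) (nat_lit 5) (nat_lit 475) (nat_lit 386) (nat_lit 339)) (XT.lf (nat_lit 0) (nat_lit 7712850561) (nat_lit 152) (nat_lit 1121544404) (nat_lit 228) (nat_lit 5128499795) (nat_lit 127) (nat_lit 5) (nat_lit 129) (nat_lit 5) (nat_lit 130) (nat_lit 5) (nat_lit 476) (nat_lit 386) (nat_lit 338)))) (XT.nd (nat_lit 156) (nat_lit 228) (nat_lit 0) (XT.nd (nat_lit 78) (nat_lit 228) (nat_lit 0) (XT.lf (nat_lit 0) (nat_lit 4216951278) (nat_lit 152) (nat_lit 9868136565) (nat_lit 228) (nat_lit 119201132) (nat_lit 125) (nat_lit 5) (nat_lit 127) (nat_lit 5) (nat_lit 128) (nat_lit 4) (nat_lit 477) (nat_lit 386) (nat_lit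 337)) (XT.lf (nat_lit 0) (nat_lit 522706496) (nat_lit 152) (nat_lit 4442217157) (nat_lit 228) (nat_lit 9485861490) (nat_lit 122) (nat_lit 5) (nat_lit 124) (nat_lit 5) (nat_lit 125) (nat_lit 5) (nat_lit 478) (nat_lit 386) (nat_lit 336))) (XT.nd (nat_lit 78) (nat_lit 228) (nat_lit 0) (XT.lf (nat_lit 0) (nat_lit 10255335685) (nat_lit 228) (nat_lit 3264677397) (nat_lit 76) (nat_lit 1182943659) (nat_lit 122) (nat_lit 5) (nat_lit 125) (nat_lit 5) (nat_lit 123) (nat_lit 4) (nat_lit 479) (nat_lit 386) (nat_lit 335)) (XT.lf (nat_lit 0) (nat_lit 791103649) (nat_lit 228) (nat_lit 7242774547) (nat_lit 76) (nat_lit 6926687722) (nat_lit 119) (nat_lit 5) (nat_lit 122) (nat_lit 5) (nat_lit 120) (nat_lit 5) (nat_lit 480) (nat_lit 386) (nat_lit 334))))))))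
noncomputable def xc64 : XT := (XT.nd (nat_lit 2418) (nat_lit 2128) (nat_lit 0) (XT.nd (nat_lit 1170) (nat_lit 1520) (nat_lit 0) (XT.nd (nat_lit 546) (nat_lit 912) (nat_lit 0) (XT.nd (nat_lit 234) (nat_lit 532) (nat_lit 0) (XT.nd (nat_lit 78) (nat_lit 228) (nat_lit 0) (XT.lf (nat_lit 0) (nat_lit 3801828777) (nat_lit 152) (nat_lit 2310662829) (nat_lit 228) (nat_lit 9111644529) (nat_lit 117) (nat_lit 5) (nat_lit 119) (nat_lit 5) (nat_lit 120) (nat_lit 5) (nat_lit 481) (nat_lit 386) (nat_lit 333)) (XT.nd (nat_lit 78) (nat_lit 228) (nat_lit 0) (XT.lf (nat_lit 0) (nat_lit 11647116223) (nat_lit 228) (nat_lit 302320511) (nat_lit 76) (nat_lit 3544569525) (nat_lit 117) (nat_lit 5) (nat_lit 120) (nat_lit 5) (nat_lit 118) (nat_lit 4) (nat_lit 482) (nat_lit 386) (nat_lit 332)) (XT.lf (nat_lit 0) (nat_lit 1623729186) (nat_lit 228) (nat_lit 4534673168) (nat_lit 76) (nat_lit 9610756163) (nat_lit 114) (nat_lit 5) (nat_lit 117)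 (nat_lit 5) (nat_lit 115) (nat_lit 5) (nat_lit 483) (nat_lit 386) (nat_lit 331)))) (XT.nd (nat_lit 156) (nat_lit 228) (nat_lit 0) (XT.nd (nat_lit 78) (nat_lit 152) (nat_lit 0) (XT.lf (nat_lit 0) (nat_lit 7073881686) (nat_lit 152) (nat_lit 125324229) (nat_lit 228) (nat_lit 8851675652) (nat_lit 112) (nat_lit 5) (nat_lit 114) (nat_lit 5) (nat_lit 115) (nat_lit 5) (nat_lit 484) (nat_lit 386) (nat_lit 330)) (XT.lf (nat_lit 0) (nat_lit 2679924766) (nat_lit 152) (nat_lit 10339731359) (nat_lit 228) (nat_lit 3319069488) (nat_lit 110) (nat_lit 5) (nat_lit 112) (nat_lit 5) (nat_lit 113) (nat_lit 4) (nat_lit 485) (nat_lit 386) (nat_lit 329))) (XT.nd (nat_lit 78) (nat_lit 152) (nat_lit 0) (XT.lf (nat_lit 0) (nat_lit 2373139499) (nat_lit 228) (nat_lit 1884370923) (nat_lit 76) (nat_lit 12375807175) (nat_lit 109) (nat_lit 5) (nat_lit 112) (nat_lit 5) (nat_lit 110) (nat_lit 5) (nat_lit 486) (nat_lit 386) (nat_lit 328)) (XT.lf (nat_lit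 0) (nat_lit 8237568524) (nat_lit 228) (nat_lit 6637364563) (nat_lit 76) (nat_lit 2058784005) (nat_lit 107) (nat_lit 5) (nat_lit 110) (nat_lit 5) (nat_lit 108) (nat_lit 4) (nat_lit 487) (nat_lit 386) (nat_lit 327))))) (XT.nd (nat_lit 312) (nat_lit 532) (nat_lit 0) (XT.nd (nat_lit 156) (nat_lit 76) (nat_lit 0) (XT.nd (nat_lit 78) (nat_lit 228) (nat_lit 0) (XT.lf (nat_lit 0) (nat_lit 5610925944) (nat_lit 76) (nat_lit 8731291938) (nat_lit 152) (nat_lit 2898982579) (nat_lit 106) (nat_lit 5) (nat_lit 107) (nat_lit 5) (nat_lit 108) (nat_lit 4) (nat_lit 488) (nat_lit 386) (nat_lit 326)) (XT.lf (nat_lit 0) (nat_lit 695326803) (nat_lit 152) (nat_lit 2340261050) (nat_lit 228) (nat_lit 14520731921) (nat_lit 103) (nat_lit 5) (nat_lit 105) (nat_lit 5) (nat_lit 106) (nat_lit 5) (nat_lit 489) (nat_lit 386) (nat_lit 325))) (XT.nd (nat_lit 78) (nat_lit 76) (nat_lit 0) (XT.lf (nat_lit 0) (nat_lit 9198542768) (nat_lit 228) (nat_lit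 4413947108) (nat_lit 76) (nat_lit 4264283754) (nat_lit 103) (nat_lit 5) (nat_lit 106) (nat_lit 5) (nat_lit 104) (nat_lit 4) (nat_lit 490) (nat_lit 386) (nat_lit 324)) (XT.lf (nat_lit 0) (nat_lit 8456079834) (nat_lit 76) (nat_lit 7145468007) (nat_lit 152) (nat_lit 2603638871) (nat_lit 102) (nat_lit 5) (nat_lit 103) (nat_lit 5) (nat_lit 104) (nat_lit 4) (nat_lit 491) (nat_lit 386) (nat_lit 323)))) (XT.nd (nat_lit 156) (nat_lit 304) (nat_lit 0) (XT.nd (nat_lit 78) (nat_lit 0) (nat_lit 0) (XT.lf (nat_lit 0) (nat_lit 3195019084) (nat_lit 152) (nat_lit 413391019) (nat_lit 228) (nat_lit 14933193826) (nat_lit 99) (nat_lit 5) (nat_lit 101) (nat_lit 5) (nat_lit 102) (nat_lit 5) (nat_lit 492) (nat_lit 386) (nat_lit 322)) (XT.lf (nat_lit 0) (nat_lit 10067515640) (nat_lit 228) (nat_lit 2339765355) (nat_lit 76) (nat_lit 6476668958) (nat_lit 99) (nat_lit 5) (nat_lit 102) (nat_lit 5) (nat_lit 100) (nat_lit 4) (nat_lit 493) (nat_lit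 386) (nat_lit 321))) (XT.nd (nat_lit 78) (nat_lit 228) (nat_lit 0) (XT.lf (nat_lit 0) (nat_lit 11181564876) (nat_lit 76) (nat_lit 5602759508) (nat_lit 152) (nat_lit 2450324479) (nat_lit 98) (nat_lit 5) (nat_lit 99) (nat_lit 5) (nat_lit 100) (nat_lit 4) (nat_lit 494) (nat_lit 386) (nat_lit 320)) (XT.lf (nat_lit 0) (nat_lit 4070425929) (nat_lit 228) (nat_lit 14068191506) (nat_lit 76) (nat_lit 1454753529) (nat_lit 95) (nat_lit 5) (nat_lit 98) (nat_lit 5) (nat_lit 96) (nat_lit 4) (nat_lit 495) (nat_lit 386) (nat_lit 319)))))) (XT.nd (nat_lit 624) (nat_lit 836) (nat_lit 0) (XT.nd (nat_lit 312) (nat_lit 304) (nat_lit 0) (XT.nd (nat_lit 156) (nat_lit 304) (nat_lit 0) (XT.nd (nat_lit 78) (nat_lit 76) (nat_lit 0) (XT.lf (nat_lit 0) (nat_lit 10827694851) (nat_lit 228) (nat_lit 455070953) (nat_lit 76) (nat_lit 8676657122) (nat_lit 95) (nat_lit 5) (nat_lit 98) (nat_lit 5) (nat_lit 96) (nat_lit 4) (nat_lit 496) (nat_lit 386)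 (nat_lit 318)) (XT.lf (nat_lit 0) (nat_lit 13747335961) (nat_lit 76) (nat_lit 4126422537) (nat_lit 152) (nat_lit 2460116009) (nat_lit 94) (nat_lit 5) (nat_lit 95) (nat_lit 5) (nat_lit 96) (nat_lit 4) (nat_lit 497) (nat_lit 386) (nat_lit 317))) (XT.nd (nat_lit 78) (nat_lit 76) (nat_lit 0) (XT.lf (nat_lit 0) (nat_lit 4390055073) (nat_lit 228) (nat_lit 13063480777) (nat_lit 76) (nat_lit 3262816969) (nat_lit 91) (nat_lit 5) (nat_lit 94) (nat_lit 5) (nat_lit 92) (nat_lit 4) (nat_lit 498) (nat_lit 386) (nat_lit 316)) (XT.lf (nat_lit 0) (nat_lit 1216498458) (nat_lit 76) (nat_lit 10253606937) (nat_lit 152) (nat_lit 9637255089) (nat_lit 90) (nat_lit 5) (nat_lit 91) (nat_lit 5) (nat_lit 92) (nat_lit 4) (nat_lit 499) (nat_lit 386) (nat_lit 315)))) (XT.nd (nat_lit 156) (nat_lit 76) (nat_lit 0) (XT.nd (nat_lit 78) (nat_lit 228) (nat_lit 0) (XT.lf (nat_lit 0) (nat_lit 16105983445) (nat_lit 76) (nat_lit 2743093901) (nat_lit 152)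 (nat_lit 2658425747) (nat_lit 90) (nat_lit 5) (nat_lit 91) (nat_lit 5) (nat_lit 92) (nat_lit 4) (nat_lit 500) (nat_lit 386) (nat_lit 314)) (XT.lf (nat_lit 0) (nat_lit 4537910254) (nat_lit 228) (nat_lit 12384989068) (nat_lit 76) (nat_lit 4992548657) (nat_lit 87) (nat_lit 5) (nat_lit 90) (nat_lit 5) (nat_lit 88) (nat_lit 4) (nat_lit 501) (nat_lit 386) (nat_lit 313))) (XT.nd (nat_lit 78) (nat_lit 0) (nat_lit 0) (XT.lf (nat_lit 0) (nat_lit 2598672328) (nat_lit 76) (nat_lit 9360847193) (nat_lit 152) (nat_lit 10373437906) (nat_lit 86) (nat_lit 5) (nat_lit 87) (nat_lit 5) (nat_lit 88) (nat_lit 4) (nat_lit 502) (nat_lit 386) (nat_lit 312)) (XT.lf (nat_lit 0) (nat_lit 18201413943) (nat_lit 76) (nat_lit 1483500994) (nat_lit 152) (nat_lit 3075643366) (nat_lit 86) (nat_lit 5) (nat_lit 87) (nat_lit 5) (nat_lit 88) (nat_lit 4) (nat_lit 503) (nat_lit 386) (nat_lit 311))))) (XT.nd (nat_lit 312) (nat_lit 304) (nat_lit 0) (XT.nd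 (nat_lit 156) (nat_lit 228) (nat_lit 0) (XT.nd (nat_lit 78) (nat_lit 76) (nat_lit 0) (XT.lf (nat_lit 0) (nat_lit 4483503659) (nat_lit 228) (nat_lit 12098924336) (nat_lit 76) (nat_lit 6613406361) (nat_lit 83) (nat_lit 5) (nat_lit 86) (nat_lit 5) (nat_lit 84) (nat_lit 4) (nat_lit 504) (nat_lit 386) (nat_lit 310)) (XT.lf (nat_lit 0) (nat_lit 3615470232) (nat_lit 76) (nat_lit 8645094025) (nat_lit 152) (nat_lit 11381102440) (nat_lit 82) (nat_lit 5) (nat_lit 83) (nat_lit 5) (nat_lit 84) (nat_lit 4) (nat_lit 505) (nat_lit 386) (nat_lit 309))) (XT.nd (nat_lit 78) (nat_lit 228) (nat_lit 0) (XT.lf (nat_lit 0) (nat_lit 19967323270) (nat_lit 76) (nat_lit 383272588) (nat_lit 152) (nat_lit 3747888625) (nat_lit 82) (nat_lit 5) (nat_lit 83) (nat_lit 5) (nat_lit 84) (nat_lit 4) (nat_lit 506) (nat_lit 386) (nat_lit 308)) (XT.lf (nat_lit 0) (nat_lit 4190492021) (nat_lit 228) (nat_lit 12282846888) (nat_lit 76) (nat_lit 8089787982)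 (nat_lit 79) (nat_lit 5) (nat_lit 82) (nat_lit 5) (nat_lit 80) (nat_lit 4) (nat_lit 507) (nat_lit 386) (nat_lit 307)))) (XT.nd (nat_lit 156) (nat_lit 228) (nat_lit 0) (XT.nd (nat_lit 78) (nat_lit 0) (nat_lit 0) (XT.lf (nat_lit 0) (nat_lit 4188192265) (nat_lit 76) (nat_lit 8148079492) (nat_lit 152) (nat_lit 12702986514) (nat_lit 78) (nat_lit 5) (nat_lit 79) (nat_lit 5) (nat_lit 80) (nat_lit 4) (nat_lit 508) (nat_lit 386) (nat_lit 306)) (XT.lf (nat_lit 0) (nat_lit 20814257076) (nat_lit 152) (nat_lit 4206721796) (nat_lit 0) (nat_lit 506059980) (nat_lit 78) (nat_lit 5) (nat_lit 80) (nat_lit 4) (nat_lit 78) (nat_lit 4) (nat_lit 509) (nat_lit 386) (nat_lit 305))) (XT.nd (nat_lit 78) (nat_lit 76) (nat_lit 0) (XT.lf (nat_lit 0) (nat_lit 3615763019) (nat_lit 152) (nat_lit 13027585105) (nat_lit 76) (nat_lit 9380072700) (nat_lit 76) (nat_lit 5) (nat_lit 78) (nat_lit 5) (nat_lit 77) (nat_lit 4) (nat_lit 510) (nat_lit 386) (nat_lit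 304)) (XT.lf (nat_lit 0) (nat_lit 4224360592) (nat_lit 76) (nat_lit 7918300418) (nat_lit 152) (nat_lit 14389337042) (nat_lit 75) (nat_lit 5) (nat_lit 76) (nat_lit 5) (nat_lit 77) (nat_lit 4) (nat_lit 511) (nat_lit 386) (nat_lit 303))))))) (XT.nd (nat_lit 1170) (nat_lit 1064) (nat_lit 0) (XT.nd (nat_lit 546) (nat_lit 608) (nat_lit 0) (XT.nd (nat_lit 234) (nat_lit 228) (nat_lit 0) (XT.nd (nat_lit 78) (nat_lit 228) (nat_lit 0) (XT.lf (nat_lit 0) (nat_lit 21028270825) (nat_lit 152) (nat_lit 4880882782) (nat_lit 0) (nat_lit 1143592042) (nat_lit 75) (nat_lit 5) (nat_lit 77) (nat_lit 4) (nat_lit 75) (nat_lit 4) (nat_lit 512) (nat_lit 386) (nat_lit 302)) (XT.nd (nat_lit 78) (nat_lit 76) (nat_lit 0) (XT.lf (nat_lit 0) (nat_lit 2708368718) (nat_lit 152) (nat_lit 14439454810) (nat_lit 76) (nat_lit 10435516998) (nat_lit 73) (nat_lit 5) (nat_lit 75) (nat_lit 5) (nat_lit 74) (nat_lit 4) (nat_lit 513) (nat_lit 386) (nat_lit 301))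 (XT.lf (nat_lit 0) (nat_lit 3615399256) (nat_lit 76) (nat_lit 8012221562) (nat_lit 152) (nat_lit 16499077890) (nat_lit 72) (nat_lit 5) (nat_lit 73) (nat_lit 5) (nat_lit 74) (nat_lit 4) (nat_lit 514) (nat_lit 386) (nat_lit 300)))) (XT.nd (nat_lit 156) (nat_lit 76) (nat_lit 0) (XT.nd (nat_lit 78) (nat_lit 152) (nat_lit 0) (XT.lf (nat_lit 0) (nat_lit 20936177021) (nat_lit 152) (nat_lit 6265115693) (nat_lit 0) (nat_lit 1481413300) (nat_lit 72) (nat_lit 5) (nat_lit 74) (nat_lit 4) (nat_lit 72) (nat_lit 4) (nat_lit 515) (nat_lit 386) (nat_lit 299)) (XT.lf (nat_lit 0) (nat_lit 1408282168) (nat_lit 152) (nat_lit 16642831517) (nat_lit 76) (nat_lit 11198980966) (nat_lit 70) (nat_lit 5) (nat_lit 72) (nat_lit 5) (nat_lit 71) (nat_lit 4) (nat_lit 516) (nat_lit 386) (nat_lit 298))) (XT.nd (nat_lit 78) (nat_lit 0) (nat_lit 0) (XT.lf (nat_lit 0) (nat_lit 2233943811) (nat_lit 76) (nat_lit 8495663713) (nat_lit 152) (nat_lit 19101169613)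 (nat_lit 69) (nat_lit 5) (nat_lit 70) (nat_lit 5) (nat_lit 71) (nat_lit 4) (nat_lit 517) (nat_lit 386) (nat_lit 297)) (XT.lf (nat_lit 0) (nat_lit 20475493594) (nat_lit 152) (nat_lit 8494272551) (nat_lit 0) (nat_lit 1454766482) (nat_lit 69) (nat_lit 5) (nat_lit 71) (nat_lit 4) (nat_lit 69) (nat_lit 4) (nat_lit 518) (nat_lit 386) (nat_lit 296))))) (XT.nd (nat_lit 312) (nat_lit 304) (nat_lit 0) (XT.nd (nat_lit 156) (nat_lit 152) (nat_lit 0) (XT.nd (nat_lit 78) (nat_lit 76) (nat_lit 0) (XT.lf (nat_lit 0) (nat_lit 11244820671) (nat_lit 76) (nat_lit 19424496673) (nat_lit 76) (nat_lit 362116756) (nat_lit 68) (nat_lit 4) (nat_lit 69) (nat_lit 5) (nat_lit 69) (nat_lit 4) (nat_lit 519) (nat_lit 386) (nat_lit 295)) (XT.lf (nat_lit 0) (nat_lit 9376794264) (nat_lit 152) (nat_lit 67927176) (nat_lit 76) (nat_lit 22207578073) (nat_lit 67) (nat_lit 5) (nat_lit 69) (nat_lit 5) (nat_lit 68) (nat_lit 4) (nat_lit 520) (nat_lit 386)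 (nat_lit 294))) (XT.nd (nat_lit 78) (nat_lit 76) (nat_lit 0) (XT.lf (nat_lit 0) (nat_lit 19572459066) (nat_lit 152) (nat_lit 11726154344) (nat_lit 0) (nat_lit 987914118) (nat_lit 66) (nat_lit 5) (nat_lit 68) (nat_lit 4) (nat_lit 66) (nat_lit 4) (nat_lit 521) (nat_lit 386) (nat_lit 293)) (XT.lf (nat_lit 0) (nat_lit 8879064629) (nat_lit 76) (nat_lit 21338974725) (nat_lit 76) (nat_lit 2717421800) (nat_lit 65) (nat_lit 4) (nat_lit 66) (nat_lit 5) (nat_lit 66) (nat_lit 4) (nat_lit 522) (nat_lit 386) (nat_lit 292)))) (XT.nd (nat_lit 156) (nat_lit 152) (nat_lit 0) (XT.nd (nat_lit 78) (nat_lit 76) (nat_lit 0) (XT.lf (nat_lit 0) (nat_lit 7515323063) (nat_lit 152) (nat_lit 3401377181) (nat_lit 76) (nat_lit 22682454172) (nat_lit 64) (nat_lit 5) (nat_lit 66) (nat_lit 5) (nat_lit 65) (nat_lit 4) (nat_lit 523) (nat_lit 386) (nat_lit 291)) (XT.lf (nat_lit 0) (nat_lit 18132396524) (nat_lit 76) (nat_lit 7880861) (nat_lit 152) (nat_lit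 16137478722) (nat_lit 63) (nat_lit 5) (nat_lit 64) (nat_lit 5) (nat_lit 65) (nat_lit 4) (nat_lit 524) (nat_lit 386) (nat_lit 290))) (XT.nd (nat_lit 78) (nat_lit 76) (nat_lit 0) (XT.lf (nat_lit 0) (nat_lit 5334179749) (nat_lit 76) (nat_lit 23909280815) (nat_lit 76) (nat_lit 5728470999) (nat_lit 62) (nat_lit 4) (nat_lit 63) (nat_lit 5) (nat_lit 63) (nat_lit 4) (nat_lit 525) (nat_lit 386) (nat_lit 289)) (XT.lf (nat_lit 0) (nat_lit 5025712326) (nat_lit 152) (nat_lit 8010537200) (nat_lit 76) (nat_lit 22645333062) (nat_lit 61) (nat_lit 5) (nat_lit 63) (nat_lit 5) (nat_lit 62) (nat_lit 4) (nat_lit 526) (nat_lit 386) (nat_lit 288)))))) (XT.nd (nat_lit 624) (nat_lit 532) (nat_lit 0) (XT.nd (nat_lit 312) (nat_lit 228) (nat_lit 0) (XT.nd (nat_lit 156) (nat_lit 152) (nat_lit 0) (XT.nd (nat_lit 78) (nat_lit 76) (nat_lit 0) (XT.lf (nat_lit 0) (nat_lit 14424345159) (nat_lit 76) (nat_lit 1668301136) (nat_lit 152) (nat_lit 20315017581)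 (nat_lit 60) (nat_lit 5) (nat_lit 61) (nat_lit 5) (nat_lit 62) (nat_lit 4) (nat_lit 527) (nat_lit 386) (nat_lit 287)) (XT.lf (nat_lit 0) (nat_lit 387690437) (nat_lit 76) (nat_lit 27252475263) (nat_lit 76) (nat_lit 9510904687) (nat_lit 59) (nat_lit 4) (nat_lit 60) (nat_lit 5) (nat_lit 60) (nat_lit 4) (nat_lit 528) (nat_lit 386) (nat_lit 286))) (XT.nd (nat_lit 78) (nat_lit 76) (nat_lit 0) (XT.lf (nat_lit 0) (nat_lit 1793134649) (nat_lit 152) (nat_lit 14129870770) (nat_lit 76) (nat_lit 21987086481) (nat_lit 58) (nat_lit 5) (nat_lit 60) (nat_lit 5) (nat_lit 59) (nat_lit 4) (nat_lit 529) (nat_lit 386) (nat_lit 285)) (XT.lf (nat_lit 0) (nat_lit 9204046271) (nat_lit 76) (nat_lit 4097194020) (nat_lit 152) (nat_lit 25386135698) (nat_lit 57) (nat_lit 5) (nat_lit 58) (nat_lit 5) (nat_lit 59) (nat_lit 4) (nat_lit 530) (nat_lit 386) (nat_lit 284)))) (XT.nd (nat_lit 156) (nat_lit 152) (nat_lit 0) (XT.nd (nat_lit 78) (nat_lit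 76) (nat_lit 0) (XT.lf (nat_lit 0) (nat_lit 25344050052) (nat_lit 152) (nat_lit 6099249978) (nat_lit 0) (nat_lit 8038994837) (nat_lit 57) (nat_lit 5) (nat_lit 59) (nat_lit 4) (nat_lit 57) (nat_lit 4) (nat_lit 531) (nat_lit 386) (nat_lit 283)) (XT.lf (nat_lit 0) (nat_lit 18239504299) (nat_lit 76) (nat_lit 19693138988) (nat_lit 76) (nat_lit 2362883141) (nat_lit 56) (nat_lit 4) (nat_lit 57) (nat_lit 5) (nat_lit 57) (nat_lit 4) (nat_lit 532) (nat_lit 386) (nat_lit 282))) (XT.nd (nat_lit 78) (nat_lit 0) (nat_lit 0) (XT.lf (nat_lit 0) (nat_lit 2188142254) (nat_lit 76) (nat_lit 7438884708) (nat_lit 152) (nat_lit 31501756264) (nat_lit 54) (nat_lit 5) (nat_lit 55) (nat_lit 5) (nat_lit 56) (nat_lit 4) (nat_lit 533) (nat_lit 386) (nat_lit 281)) (XT.lf (nat_lit 0) (nat_lit 22172539173) (nat_lit 152) (nat_lit 14506263001) (nat_lit 0) (nat_lit 5300231899) (nat_lit 54) (nat_lit 5) (nat_lit 56) (nat_lit 4) (nat_lit 54) (nat_lit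 4) (nat_lit 534) (nat_lit 386) (nat_lit 280))))) (XT.nd (nat_lit 312) (nat_lit 228) (nat_lit 0) (XT.nd (nat_lit 156) (nat_lit 152) (nat_lit 0) (XT.nd (nat_lit 78) (nat_lit 76) (nat_lit 0) (XT.lf (nat_lit 0) (nat_lit 10736572946) (nat_lit 76) (nat_lit 24504262366) (nat_lit 76) (nat_lit 7609564657) (nat_lit 53) (nat_lit 4) (nat_lit 54) (nat_lit 5) (nat_lit 54) (nat_lit 4) (nat_lit 535) (nat_lit 386) (nat_lit 279)) (XT.lf (nat_lit 0) (nat_lit 4974125204) (nat_lit 152) (nat_lit 6818961831) (nat_lit 76) (nat_lit 31949866233) (nat_lit 52) (nat_lit 5) (nat_lit 54) (nat_lit 5) (nat_lit 53) (nat_lit 4) (nat_lit 536) (nat_lit 386) (nat_lit 278))) (XT.nd (nat_lit 78) (nat_lit 76) (nat_lit 0) (XT.lf (nat_lit 0) (nat_lit 17954912804) (nat_lit 152) (nat_lit 25189236098) (nat_lit 0) (nat_lit 1510698117) (nat_lit 51) (nat_lit 5) (nat_lit 53) (nat_lit 4) (nat_lit 51) (nat_lit 4) (nat_lit 537) (nat_lit 386) (nat_lit 277)) (XT.lf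 (nat_lit 0) (nat_lit 928435807) (nat_lit 76) (nat_lit 30562399407) (nat_lit 76) (nat_lit 14098291108) (nat_lit 50) (nat_lit 4) (nat_lit 51) (nat_lit 5) (nat_lit 51) (nat_lit 4) (nat_lit 538) (nat_lit 386) (nat_lit 276)))) (XT.nd (nat_lit 156) (nat_lit 76) (nat_lit 0) (XT.nd (nat_lit 78) (nat_lit 152) (nat_lit 0) (XT.lf (nat_lit 0) (nat_lit 28287860708) (nat_lit 76) (nat_lit 17370120733) (nat_lit 76) (nat_lit 886698248) (nat_lit 50) (nat_lit 4) (nat_lit 51) (nat_lit 5) (nat_lit 51) (nat_lit 4) (nat_lit 539) (nat_lit 386) (nat_lit 275)) (XT.lf (nat_lit 0) (nat_lit 8934214214) (nat_lit 76) (nat_lit 3596026345) (nat_lit 152) (nat_lit 34993273571) (nat_lit 48) (nat_lit 5) (nat_lit 49) (nat_lit 5) (nat_lit 50) (nat_lit 4) (nat_lit 540) (nat_lit 386) (nat_lit 274))) (XT.nd (nat_lit 78) (nat_lit 76) (nat_lit 0) (XT.lf (nat_lit 0) (nat_lit 26591235067) (nat_lit 152) (nat_lit 11380402571) (nat_lit 0) (nat_lit 10552031577)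 (nat_lit 48) (nat_lit 5) (nat_lit 50) (nat_lit 4) (nat_lit 48) (nat_lit 4) (nat_lit 541) (nat_lit 386) (nat_lit 273)) (XT.lf (nat_lit 0) (nat_lit 16883240877) (nat_lit 76) (nat_lit 24360924428) (nat_lit 76) (nat_lit 8304560534) (nat_lit 47) (nat_lit 4) (nat_lit 48) (nat_lit 5) (nat_lit 48) (nat_lit 4) (nat_lit 542) (nat_lit 386) (nat_lit 272))))))))
noncomputable def xc65 : XT := (XT.nd (nat_lit 54912) (nat_lit 0) (nat_lit 6764) (XT.nd (nat_lit 53664) (nat_lit 0) (nat_lit 13604) (XT.nd (nat_lit 546) (nat_lit 228) (nat_lit 0) (XT.nd (nat_lit 234) (nat_lit 228) (nat_lit 0) (XT.nd (nat_lit 78) (nat_lit 152) (nat_lit 0) (XT.lf (nat_lit 0) (nat_lit 5708571600) (nat_lit 152) (nat_lit 4484624130) (nat_lit 76) (nat_lit 40407037146) (nat_lit 46) (nat_lit 5) (nat_lit 48) (nat_lit 5) (nat_lit 47) (nat_lit 4) (nat_lit 543) (nat_lit 386) (nat_lit 271)) (XT.nd (nat_lit 78) (nat_lit 76) (nat_lit 0) (XT.lf (nat_lit 0) (nat_lit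 20232701164) (nat_lit 152) (nat_lit 26828272985) (nat_lit 0) (nat_lit 4612118827) (nat_lit 45) (nat_lit 5) (nat_lit 47) (nat_lit 4) (nat_lit 45) (nat_lit 4) (nat_lit 544) (nat_lit 386) (nat_lit 270)) (XT.lf (nat_lit 0) (nat_lit 2258206917) (nat_lit 76) (nat_lit 33075759400) (nat_lit 76) (nat_lit 17439930266) (nat_lit 44) (nat_lit 4) (nat_lit 45) (nat_lit 5) (nat_lit 45) (nat_lit 4) (nat_lit 545) (nat_lit 386) (nat_lit 269)))) (XT.nd (nat_lit 156) (nat_lit 76) (nat_lit 0) (XT.nd (nat_lit 78) (nat_lit 152) (nat_lit 0) (XT.lf (nat_lit 0) (nat_lit 32713976553) (nat_lit 76) (nat_lit 18418526322) (nat_lit 76) (nat_lit 2767894472) (nat_lit 44) (nat_lit 4) (nat_lit 45) (nat_lit 5) (nat_lit 45) (nat_lit 4) (nat_lit 546) (nat_lit 386) (nat_lit 268)) (XT.lf (nat_lit 0) (nat_lit 9028006663) (nat_lit 76) (nat_lit 3136037711) (nat_lit 152) (nat_lit 42891270269) (nat_lit 42) (nat_lit 5) (nat_lit 43) (nat_lit 5) (nat_lit 44) (nat_lit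 4) (nat_lit 547) (nat_lit 386) (nat_lit 267))) (XT.nd (nat_lit 78) (nat_lit 76) (nat_lit 0) (XT.lf (nat_lit 0) (nat_lit 27799392885) (nat_lit 152) (nat_lit 15858226851) (nat_lit 0) (nat_lit 12577105122) (nat_lit 42) (nat_lit 5) (nat_lit 44) (nat_lit 4) (nat_lit 42) (nat_lit 4) (nat_lit 548) (nat_lit 386) (nat_lit 266)) (XT.lf (nat_lit 0) (nat_lit 15435353802) (nat_lit 76) (nat_lit 28622491060) (nat_lit 76) (nat_lit 13387051275) (nat_lit 41) (nat_lit 4) (nat_lit 42) (nat_lit 5) (nat_lit 42) (nat_lit 4) (nat_lit 549) (nat_lit 386) (nat_lit 265))))) (XT.nd (nat_lit 52806) (nat_lit 0) (nat_lit 20368) (XT.nd (nat_lit 156) (nat_lit 76) (nat_lit 0) (XT.nd (nat_lit 78) (nat_lit 76) (nat_lit 0) (XT.lf (nat_lit 0) (nat_lit 2207801122) (nat_lit 152) (nat_lit 10766372458) (nat_lit 76) (nat_lit 45712499293) (nat_lit 40) (nat_lit 5) (nat_lit 42) (nat_lit 5) (nat_lit 41) (nat_lit 4) (nat_lit 550) (nat_lit 386) (nat_lit 264)) (XT.lf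 (nat_lit 0) (nat_lit 18218312932) (nat_lit 152) (nat_lit 38334716443) (nat_lit 0) (nat_lit 3402190818) (nat_lit 39) (nat_lit 5) (nat_lit 41) (nat_lit 4) (nat_lit 39) (nat_lit 4) (nat_lit 551) (nat_lit 386) (nat_lit 263))) (XT.nd (nat_lit 78) (nat_lit 76) (nat_lit 0) (XT.lf (nat_lit 0) (nat_lit 34922772993) (nat_lit 152) (nat_lit 6237676517) (nat_lit 0) (nat_lit 20094965479) (nat_lit 39) (nat_lit 5) (nat_lit 41) (nat_lit 4) (nat_lit 39) (nat_lit 4) (nat_lit 552) (nat_lit 386) (nat_lit 262)) (XT.lf (nat_lit 0) (nat_lit 27307306578) (nat_lit 76) (nat_lit 25059651952) (nat_lit 76) (nat_lit 10220499389) (nat_lit 38) (nat_lit 4) (nat_lit 39) (nat_lit 5) (nat_lit 39) (nat_lit 4) (nat_lit 553) (nat_lit 386) (nat_lit 261)))) (XT.nd (nat_lit 156) (nat_lit 684) (nat_lit 0) (XT.nd (nat_lit 78) (nat_lit 836) (nat_lit 0) (XT.lf (nat_lit 0) (nat_lit 887455432) (nat_lit 1292) (nat_lit 1804333376) (nat_lit 0) (nat_lit 887455432)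 (nat_lit 326) (nat_lit 5) (nat_lit 343) (nat_lit 4) (nat_lit 326) (nat_lit 4) (nat_lit 426) (nat_lit 387) (nat_lit 387)) (XT.lf (nat_lit 0) (nat_lit 1828241150) (nat_lit 836) (nat_lit 3531522008) (nat_lit 836) (nat_lit 1855431991) (nat_lit 315) (nat_lit 4) (nat_lit 326) (nat_lit 5) (nat_lit 326) (nat_lit 4) (nat_lit 427) (nat_lit 387) (nat_lit 386))) (XT.nd (nat_lit 78) (nat_lit 0) (nat_lit 0) (XT.lf (nat_lit 0) (nat_lit 103649055) (nat_lit 608) (nat_lit 1574681454) (nat_lit 684) (nat_lit 5596731043) (nat_lit 306) (nat_lit 5) (nat_lit 314) (nat_lit 5) (nat_lit 315) (nat_lit 4) (nat_lit 428) (nat_lit 387) (nat_lit 385)) (XT.lf (nat_lit 0) (nat_lit 5238546134) (nat_lit 684) (nat_lit 1601361458) (nat_lit 0) (nat_lit 497538879) (nat_lit 306) (nat_lit 5) (nat_lit 315) (nat_lit 4) (nat_lit 306) (nat_lit 4) (nat_lit 429) (nat_lit 387) (nat_lit 384)))))) (XT.nd (nat_lit 624) (nat_lit 3192) (nat_lit 0) (XT.nd (nat_lit 312)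 (nat_lit 1672) (nat_lit 0) (XT.nd (nat_lit 156) (nat_lit 684) (nat_lit 0) (XT.nd (nat_lit 78) (nat_lit 532) (nat_lit 0) (XT.lf (nat_lit 0) (nat_lit 1430509794) (nat_lit 684) (nat_lit 3326256643) (nat_lit 76) (nat_lit 2645828409) (nat_lit 297) (nat_lit 5) (nat_lit 306) (nat_lit 5) (nat_lit 298) (nat_lit 4) (nat_lit 430) (nat_lit 387) (nat_lit 383)) (XT.lf (nat_lit 0) (nat_lit 2403829155) (nat_lit 532) (nat_lit 2561604664) (nat_lit 608) (nat_lit 2505391041) (nat_lit 290) (nat_lit 5) (nat_lit 297) (nat_lit 5) (nat_lit 298) (nat_lit 4) (nat_lit 431) (nat_lit 387) (nat_lit 382))) (XT.nd (nat_lit 78) (nat_lit 0) (nat_lit 0) (XT.lf (nat_lit 0) (nat_lit 726542064) (nat_lit 608) (nat_lit 262100117) (nat_lit 684) (nat_lit 6553833440) (nat_lit 281) (nat_lit 5) (nat_lit 289) (nat_lit 5) (nat_lit 290) (nat_lit 5) (nat_lit 432) (nat_lit 387) (nat_lit 381)) (XT.lf (nat_lit 0) (nat_lit 4513902490) (nat_lit 684) (nat_lit 975142085)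 (nat_lit 76) (nat_lit 2127189005) (nat_lit 281) (nat_lit 5) (nat_lit 290) (nat_lit 5) (nat_lit 282) (nat_lit 4) (nat_lit 433) (nat_lit 387) (nat_lit 380)))) (XT.nd (nat_lit 156) (nat_lit 532) (nat_lit 0) (XT.nd (nat_lit 78) (nat_lit 532) (nat_lit 0) (XT.lf (nat_lit 0) (nat_lit 401997712) (nat_lit 608) (nat_lit 2670335750) (nat_lit 76) (nat_lit 4621001235) (nat_lit 273) (nat_lit 5) (nat_lit 281) (nat_lit 5) (nat_lit 274) (nat_lit 5) (nat_lit 434) (nat_lit 387) (nat_lit 379)) (XT.lf (nat_lit 0) (nat_lit 3373564828) (nat_lit 532) (nat_lit 526271080) (nat_lit 608) (nat_lit 3873473764) (nat_lit 266) (nat_lit 5) (nat_lit 273) (nat_lit 5) (nat_lit 274) (nat_lit 5) (nat_lit 435) (nat_lit 387) (nat_lit 378))) (XT.nd (nat_lit 78) (nat_lit 76) (nat_lit 0) (XT.lf (nat_lit 0) (nat_lit 1699885590) (nat_lit 456) (nat_lit 5776244882) (nat_lit 532) (nat_lit 380351969) (nat_lit 260) (nat_lit 5) (nat_lit 266) (nat_lit 5) (nat_lit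 267) (nat_lit 4) (nat_lit 436) (nat_lit 387) (nat_lit 377)) (XT.lf (nat_lit 0) (nat_lit 3115339772) (nat_lit 532) (nat_lit 16909400) (nat_lit 76) (nat_lit 4810160412) (nat_lit 259) (nat_lit 5) (nat_lit 266) (nat_lit 5) (nat_lit 260) (nat_lit 5) (nat_lit 437) (nat_lit 387) (nat_lit 376))))) (XT.nd (nat_lit 312) (nat_lit 1292) (nat_lit 0) (XT.nd (nat_lit 156) (nat_lit 912) (nat_lit 0) (XT.nd (nat_lit 78) (nat_lit 532) (nat_lit 0) (XT.lf (nat_lit 0) (nat_lit 6317541402) (nat_lit 456) (nat_lit 364534780) (nat_lit 532) (nat_lit 1349514655) (nat_lit 253) (nat_lit 5) (nat_lit 259) (nat_lit 5) (nat_lit 260) (nat_lit 5) (nat_lit 438) (nat_lit 387) (nat_lit 375)) (XT.lf (nat_lit 0) (nat_lit 2172027143) (nat_lit 532) (nat_lit 3469189670) (nat_lit 76) (nat_lit 2482093911) (nat_lit 246) (nat_lit 5) (nat_lit 253) (nat_lit 5) (nat_lit 247) (nat_lit 5) (nat_lit 439) (nat_lit 387) (nat_lit 374))) (XT.nd (nat_lit 78) (nat_lit 456)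 (nat_lit 0) (XT.lf (nat_lit 0) (nat_lit 2961011185) (nat_lit 456) (nat_lit 2775609324) (nat_lit 532) (nat_lit 2481828478) (nat_lit 240) (nat_lit 5) (nat_lit 246) (nat_lit 5) (nat_lit 247) (nat_lit 5) (nat_lit 440) (nat_lit 387) (nat_lit 373)) (XT.lf (nat_lit 0) (nat_lit 1035294550) (nat_lit 456) (nat_lit 7077447876) (nat_lit 76) (nat_lit 204440825) (nat_lit 234) (nat_lit 5) (nat_lit 240) (nat_lit 5) (nat_lit 235) (nat_lit 5) (nat_lit 441) (nat_lit 387) (nat_lit 372)))) (XT.nd (nat_lit 156) (nat_lit 836) (nat_lit 0) (XT.nd (nat_lit 78) (nat_lit 456) (nat_lit 0) (XT.lf (nat_lit 0) (nat_lit 4605849099) (nat_lit 456) (nat_lit 542843243) (nat_lit 76) (nat_lit 3269519226) (nat_lit 234) (nat_lit 5) (nat_lit 240) (nat_lit 5) (nat_lit 235) (nat_lit 5) (nat_lit 442) (nat_lit 387) (nat_lit 371)) (XT.lf (nat_lit 0) (nat_lit 6199479544) (nat_lit 456) (nat_lit 2062763434) (nat_lit 532) (nat_lit 260669187) (nat_lit 228) (nat_lit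 5) (nat_lit 234) (nat_lit 5) (nat_lit 235) (nat_lit 5) (nat_lit 443) (nat_lit 387) (nat_lit 370))) (XT.nd (nat_lit 78) (nat_lit 380) (nat_lit 0) (XT.lf (nat_lit 0) (nat_lit 3310672773) (nat_lit 456) (nat_lit 4172693968) (nat_lit 76) (nat_lit 1147028284) (nat_lit 222) (nat_lit 5) (nat_lit 228) (nat_lit 5) (nat_lit 223) (nat_lit 5) (nat_lit 444) (nat_lit 387) (nat_lit 369)) (XT.lf (nat_lit 0) (nat_lit 2667477002) (nat_lit 380) (nat_lit 4306861404) (nat_lit 456) (nat_lit 1766976707) (nat_lit 217) (nat_lit 5) (nat_lit 222) (nat_lit 5) (nat_lit 223) (nat_lit 5) (nat_lit 445) (nat_lit 387) (nat_lit 368))))))) (XT.nd (nat_lit 1248) (nat_lit 2736) (nat_lit 0) (XT.nd (nat_lit 624) (nat_lit 1900) (nat_lit 0) (XT.nd (nat_lit 312) (nat_lit 988) (nat_lit 0) (XT.nd (nat_lit 156) (nat_lit 760) (nat_lit 0) (XT.nd (nat_lit 78) (nat_lit 0) (nat_lit 0) (XT.lf (nat_lit 0) (nat_lit 830363997) (nat_lit 380) (nat_lit 996739175) (nat_lit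 456) (nat_lit 7028766247) (nat_lit 211) (nat_lit 5) (nat_lit 216) (nat_lit 5) (nat_lit 217) (nat_lit 5) (nat_lit 446) (nat_lit 387) (nat_lit 367)) (XT.lf (nat_lit 0) (nat_lit 5500691389) (nat_lit 456) (nat_lit 1059363346) (nat_lit 76) (nat_lit 2413067369) (nat_lit 211) (nat_lit 5) (nat_lit 217) (nat_lit 5) (nat_lit 212) (nat_lit 5) (nat_lit 447) (nat_lit 387) (nat_lit 366))) (XT.nd (nat_lit 78) (nat_lit 304) (nat_lit 0) (XT.lf (nat_lit 0) (nat_lit 179802851) (nat_lit 456) (nat_lit 2979602269) (nat_lit 76) (nat_lit 5934646927) (nat_lit 205) (nat_lit 5) (nat_lit 211) (nat_lit 5) (nat_lit 206) (nat_lit 5) (nat_lit 448) (nat_lit 387) (nat_lit 365)) (XT.lf (nat_lit 0) (nat_lit 3852014282) (nat_lit 380) (nat_lit 4976252771) (nat_lit 76) (nat_lit 389907709) (nat_lit 201) (nat_lit 5) (nat_lit 206) (nat_lit 5) (nat_lit 202) (nat_lit 5) (nat_lit 449) (nat_lit 387) (nat_lit 364)))) (XT.nd (nat_lit 156) (nat_lit 304) (nat_lit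 0) (XT.nd (nat_lit 78) (nat_lit 380) (nat_lit 0) (XT.lf (nat_lit 0) (nat_lit 2299103485) (nat_lit 304) (nat_lit 5344640388) (nat_lit 380) (nat_lit 1701999046) (nat_lit 197) (nat_lit 5) (nat_lit 201) (nat_lit 5) (nat_lit 202) (nat_lit 5) (nat_lit 450) (nat_lit 387) (nat_lit 363)) (XT.lf (nat_lit 0) (nat_lit 293786995) (nat_lit 304) (nat_lit 1717412766) (nat_lit 380) (nat_lit 7465956606) (nat_lit 192) (nat_lit 5) (nat_lit 196) (nat_lit 5) (nat_lit 197) (nat_lit 5) (nat_lit 451) (nat_lit 387) (nat_lit 362))) (XT.nd (nat_lit 78) (nat_lit 304) (nat_lit 0) (XT.lf (nat_lit 0) (nat_lit 5819577620) (nat_lit 380) (nat_lit 1759843856) (nat_lit 76) (nat_lit 2032047570) (nat_lit 192) (nat_lit 5) (nat_lit 197) (nat_lit 5) (nat_lit 193) (nat_lit 5) (nat_lit 452) (nat_lit 387) (nat_lit 361)) (XT.lf (nat_lit 0) (nat_lit 5875906101) (nat_lit 304) (nat_lit 3868647302) (nat_lit 380) (nat_lit 5189362) (nat_lit 188) (nat_lit 5) (nat_lit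 192) (nat_lit 5) (nat_lit 193) (nat_lit 5) (nat_lit 453) (nat_lit 387) (nat_lit 360))))) (XT.nd (nat_lit 312) (nat_lit 912) (nat_lit 0) (XT.nd (nat_lit 156) (nat_lit 304) (nat_lit 0) (XT.nd (nat_lit 78) (nat_lit 304) (nat_lit 0) (XT.lf (nat_lit 0) (nat_lit 3803018501) (nat_lit 380) (nat_lit 6078149977) (nat_lit 76) (nat_lit 10357518) (nat_lit 183) (nat_lit 5) (nat_lit 188) (nat_lit 5) (nat_lit 184) (nat_lit 5) (nat_lit 454) (nat_lit 387) (nat_lit 359)) (XT.lf (nat_lit 0) (nat_lit 1658693499) (nat_lit 304) (nat_lit 6090301846) (nat_lit 380) (nat_lit 2287858909) (nat_lit 179) (nat_lit 5) (nat_lit 183) (nat_lit 5) (nat_lit 184) (nat_lit 5) (nat_lit 455) (nat_lit 387) (nat_lit 358))) (XT.nd (nat_lit 78) (nat_lit 228) (nat_lit 0) (XT.lf (nat_lit 0) (nat_lit 1587240426) (nat_lit 380) (nat_lit 558186381) (nat_lit 76) (nat_lit 8040882906) (nat_lit 178) (nat_lit 5) (nat_lit 183) (nat_lit 5) (nat_lit 179) (nat_lit 5) (nat_lit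 456) (nat_lit 387) (nat_lit 357)) (XT.lf (nat_lit 0) (nat_lit 5556067495) (nat_lit 304) (nat_lit 2844369294) (nat_lit 76) (nat_lit 1938430454) (nat_lit 175) (nat_lit 5) (nat_lit 179) (nat_lit 5) (nat_lit 176) (nat_lit 5) (nat_lit 457) (nat_lit 387) (nat_lit 356)))) (XT.nd (nat_lit 156) (nat_lit 304) (nat_lit 0) (XT.nd (nat_lit 78) (nat_lit 304) (nat_lit 0) (XT.lf (nat_lit 0) (nat_lit 5279207336) (nat_lit 304) (nat_lit 4375250521) (nat_lit 380) (nat_lit 841230360) (nat_lit 171) (nat_lit 5) (nat_lit 175) (nat_lit 5) (nat_lit 176) (nat_lit 5) (nat_lit 458) (nat_lit 387) (nat_lit 355)) (XT.lf (nat_lit 0) (nat_lit 2967969078) (nat_lit 228) (nat_lit 178446905) (nat_lit 304) (nat_lit 7510152162) (nat_lit 167) (nat_lit 5) (nat_lit 170) (nat_lit 5) (nat_lit 171) (nat_lit 5) (nat_lit 459) (nat_lit 387) (nat_lit 354))) (XT.nd (nat_lit 78) (nat_lit 76) (nat_lit 0) (XT.lf (nat_lit 0) (nat_lit 538294122) (nat_lit 228) (nat_lit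 6730340853) (nat_lit 304) (nat_lit 3552435622) (nat_lit 164) (nat_lit 5) (nat_lit 167) (nat_lit 5) (nat_lit 168) (nat_lit 5) (nat_lit 460) (nat_lit 387) (nat_lit 353)) (XT.lf (nat_lit 0) (nat_lit 527862149) (nat_lit 304) (nat_lit 1934122974) (nat_lit 76) (nat_lit 8527951075) (nat_lit 163) (nat_lit 5) (nat_lit 167) (nat_lit 5) (nat_lit 164) (nat_lit 5) (nat_lit 461) (nat_lit 387) (nat_lit 352)))))) (XT.nd (nat_lit 624) (nat_lit 1292) (nat_lit 0) (XT.nd (nat_lit 312) (nat_lit 684) (nat_lit 0) (XT.nd (nat_lit 156) (nat_lit 304) (nat_lit 0) (XT.nd (nat_lit 78) (nat_lit 228) (nat_lit 0) (XT.lf (nat_lit 0) (nat_lit 4678149614) (nat_lit 304) (nat_lit 4527157600) (nat_lit 76) (nat_lit 1956937340) (nat_lit 160) (nat_lit 5) (nat_lit 164) (nat_lit 5) (nat_lit 161) (nat_lit 5) (nat_lit 462) (nat_lit 387) (nat_lit 351)) (XT.lf (nat_lit 0) (nat_lit 4112247047) (nat_lit 228) (nat_lit 4860635548) (nat_lit 304) (nat_lit 2366242820)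 (nat_lit 157) (nat_lit 5) (nat_lit 160) (nat_lit 5) (nat_lit 161) (nat_lit 5) (nat_lit 463) (nat_lit 387) (nat_lit 350))) (XT.nd (nat_lit 78) (nat_lit 0) (nat_lit 0) (XT.lf (nat_lit 0) (nat_lit 1488722901) (nat_lit 228) (nat_lit 346846083) (nat_lit 304) (nat_lit 9685293799) (nat_lit 153) (nat_lit 5) (nat_lit 156) (nat_lit 5) (nat_lit 157) (nat_lit 5) (nat_lit 464) (nat_lit 387) (nat_lit 349)) (XT.lf (nat_lit 0) (nat_lit 6167910306) (nat_lit 304) (nat_lit 1263421483) (nat_lit 76) (nat_lit 4274457856) (nat_lit 153) (nat_lit 5) (nat_lit 157) (nat_lit 5) (nat_lit 154) (nat_lit 5) (nat_lit 465) (nat_lit 387) (nat_lit 348)))) (XT.nd (nat_lit 156) (nat_lit 228) (nat_lit 0) (XT.nd (nat_lit 78) (nat_lit 228) (nat_lit 0) (XT.lf (nat_lit 0) (nat_lit 7814513580) (nat_lit 228) (nat_lit 2833073456) (nat_lit 304) (nat_lit 1248157529) (nat_lit 150) (nat_lit 5) (nat_lit 153) (nat_lit 5) (nat_lit 154) (nat_lit 5) (nat_lit 466) (nat_lit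 387) (nat_lit 347)) (XT.lf (nat_lit 0) (nat_lit 3127780486) (nat_lit 228) (nat_lit 7044472142) (nat_lit 76) (nat_lit 1917650783) (nat_lit 147) (nat_lit 5) (nat_lit 150) (nat_lit 5) (nat_lit 148) (nat_lit 5) (nat_lit 467) (nat_lit 387) (nat_lit 346))) (XT.nd (nat_lit 78) (nat_lit 0) (nat_lit 0) (XT.lf (nat_lit 0) (nat_lit 2138314778) (nat_lit 228) (nat_lit 5501229454) (nat_lit 304) (nat_lit 4649084125) (nat_lit 144) (nat_lit 5) (nat_lit 147) (nat_lit 5) (nat_lit 148) (nat_lit 5) (nat_lit 468) (nat_lit 387) (nat_lit 345)) (XT.lf (nat_lit 0) (nat_lit 11638505624) (nat_lit 228) (nat_lit 659479096) (nat_lit 304) (nat_lit 194991692) (nat_lit 144) (nat_lit 5) (nat_lit 147) (nat_lit 5) (nat_lit 148) (nat_lit 5) (nat_lit 469) (nat_lit 387) (nat_lit 344))))) (XT.nd (nat_lit 312) (nat_lit 608) (nat_lit 0) (XT.nd (nat_lit 156) (nat_lit 228) (nat_lit 0) (XT.nd (nat_lit 78) (nat_lit 228) (nat_lit 0) (XT.lf (nat_lit 0) (nat_lit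 4374897480) (nat_lit 228) (nat_lit 3995811028) (nat_lit 76) (nat_lit 4329443891) (nat_lit 141) (nat_lit 5) (nat_lit 144) (nat_lit 5) (nat_lit 142) (nat_lit 5) (nat_lit 470) (nat_lit 387) (nat_lit 343)) (XT.lf (nat_lit 0) (nat_lit 5654934617) (nat_lit 228) (nat_lit 3434334519) (nat_lit 304) (nat_lit 3823878446) (nat_lit 138) (nat_lit 5) (nat_lit 141) (nat_lit 5) (nat_lit 142) (nat_lit 5) (nat_lit 471) (nat_lit 387) (nat_lit 342))) (XT.nd (nat_lit 78) (nat_lit 0) (nat_lit 0) (XT.lf (nat_lit 0) (nat_lit 819353320) (nat_lit 228) (nat_lit 10663384343) (nat_lit 76) (nat_lit 1648881476) (nat_lit 135) (nat_lit 5) (nat_lit 138) (nat_lit 5) (nat_lit 136) (nat_lit 5) (nat_lit 472) (nat_lit 387) (nat_lit 341)) (XT.lf (nat_lit 0) (nat_lit 5575235756) (nat_lit 228) (nat_lit 893276957) (nat_lit 76) (nat_lit 6885490930) (nat_lit 135) (nat_lit 5) (nat_lit 138) (nat_lit 5) (nat_lit 136) (nat_lit 5) (nat_lit 473) (nat_lit 387) (nat_lit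 340)))) (XT.nd (nat_lit 156) (nat_lit 152) (nat_lit 0) (XT.nd (nat_lit 78) (nat_lit 228) (nat_lit 0) (XT.lf (nat_lit 0) (nat_lit 9251924457) (nat_lit 228) (nat_lit 1254676409) (nat_lit 304) (nat_lit 3075475502) (nat_lit 132) (nat_lit 5) (nat_lit 135) (nat_lit 5) (nat_lit 136) (nat_lit 5) (nat_lit 474) (nat_lit 387) (nat_lit 339)) (XT.lf (nat_lit 0) (nat_lit 1784234793) (nat_lit 228) (nat_lit 7953695906) (nat_lit 76) (nat_lit 4077056171) (nat_lit 129) (nat_lit 5) (nat_lit 132) (nat_lit 5) (nat_lit 130) (nat_lit 5) (nat_lit 475) (nat_lit 387) (nat_lit 338))) (XT.nd (nat_lit 78) (nat_lit 0) (nat_lit 0) (XT.lf (nat_lit 0) (nat_lit 2296188936) (nat_lit 152) (nat_lit 4454688695) (nat_lit 228) (nat_lit 7302405689) (nat_lit 127) (nat_lit 5) (nat_lit 129) (nat_lit 5) (nat_lit 130) (nat_lit 5) (nat_lit 476) (nat_lit 387) (nat_lit 337)) (XT.lf (nat_lit 0) (nat_lit 11901688095) (nat_lit 228) (nat_lit 1389237244) (nat_lit 76)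 (nat_lit 1006749051) (nat_lit 127) (nat_lit 5) (nat_lit 130) (nat_lit 5) (nat_lit 128) (nat_lit 4) (nat_lit 477) (nat_lit 387) (nat_lit 336))))))))
noncomputable def xc66 : XT := (XT.nd (nat_lit 2418) (nat_lit 2204) (nat_lit 0) (XT.nd (nat_lit 1170) (nat_lit 1748) (nat_lit 0) (XT.nd (nat_lit 546) (nat_lit 760) (nat_lit 0) (XT.nd (nat_lit 234) (nat_lit 608) (nat_lit 0) (XT.nd (nat_lit 78) (nat_lit 304) (nat_lit 0) (XT.lf (nat_lit 0) (nat_lit 2686543608) (nat_lit 228) (nat_lit 5242057663) (nat_lit 76) (nat_lit 6617606916) (nat_lit 124) (nat_lit 5) (nat_lit 127) (nat_lit 5) (nat_lit 125) (nat_lit 5) (nat_lit 478) (nat_lit 387) (nat_lit 335)) (XT.nd (nat_lit 78) (nat_lit 152) (nat_lit 0) (XT.lf (nat_lit 0) (nat_lit 5532659413) (nat_lit 152) (nat_lit 2354389800) (nat_lit 228) (nat_lit 6914028114) (nat_lit 122) (nat_lit 5) (nat_lit 124) (nat_lit 5) (nat_lit 125) (nat_lit 5) (nat_lit 479) (nat_lit 387) (nat_lit 334)) (XT.lf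 (nat_lit 0) (nat_lit 1577042050) (nat_lit 152) (nat_lit 11714247531) (nat_lit 228) (nat_lit 1770872061) (nat_lit 120) (nat_lit 5) (nat_lit 122) (nat_lit 5) (nat_lit 123) (nat_lit 4) (nat_lit 480) (nat_lit 387) (nat_lit 333)))) (XT.nd (nat_lit 156) (nat_lit 380) (nat_lit 0) (XT.nd (nat_lit 78) (nat_lit 152) (nat_lit 0) (XT.lf (nat_lit 0) (nat_lit 3522248587) (nat_lit 228) (nat_lit 2545382337) (nat_lit 76) (nat_lit 9260496640) (nat_lit 119) (nat_lit 5) (nat_lit 122) (nat_lit 5) (nat_lit 120) (nat_lit 5) (nat_lit 481) (nat_lit 387) (nat_lit 332)) (XT.lf (nat_lit 0) (nat_lit 8782375995) (nat_lit 152) (nat_lit 188825235) (nat_lit 228) (nat_lit 6629366927) (nat_lit 117) (nat_lit 5) (nat_lit 119) (nat_lit 5) (nat_lit 120) (nat_lit 5) (nat_lit 482) (nat_lit 387) (nat_lit 331))) (XT.nd (nat_lit 78) (nat_lit 228) (nat_lit 0) (XT.lf (nat_lit 0) (nat_lit 4559842880) (nat_lit 152) (nat_lit 10098380597) (nat_lit 228) (nat_lit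 1220721073) (nat_lit 115) (nat_lit 5) (nat_lit 117) (nat_lit 5) (nat_lit 118) (nat_lit 4) (nat_lit 483) (nat_lit 387) (nat_lit 330)) (XT.lf (nat_lit 0) (nat_lit 119006785) (nat_lit 152) (nat_lit 4167355639) (nat_lit 228) (nat_lit 11877423908) (nat_lit 112) (nat_lit 5) (nat_lit 114) (nat_lit 5) (nat_lit 115) (nat_lit 5) (nat_lit 484) (nat_lit 387) (nat_lit 329))))) (XT.nd (nat_lit 312) (nat_lit 380) (nat_lit 0) (XT.nd (nat_lit 156) (nat_lit 228) (nat_lit 0) (XT.nd (nat_lit 78) (nat_lit 152) (nat_lit 0) (XT.lf (nat_lit 0) (nat_lit 10016932676) (nat_lit 228) (nat_lit 4447856720) (nat_lit 76) (nat_lit 1989537656) (nat_lit 112) (nat_lit 5) (nat_lit 115) (nat_lit 5) (nat_lit 113) (nat_lit 4) (nat_lit 485) (nat_lit 387) (nat_lit 328)) (XT.lf (nat_lit 0) (nat_lit 7510503341) (nat_lit 152) (nat_lit 8472580244) (nat_lit 228) (nat_lit 768591045) (nat_lit 110) (nat_lit 5) (nat_lit 112) (nat_lit 5) (nat_lit 113) (nat_lit 4)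 (nat_lit 486) (nat_lit 387) (nat_lit 327))) (XT.nd (nat_lit 78) (nat_lit 0) (nat_lit 0) (XT.lf (nat_lit 0) (nat_lit 2775312224) (nat_lit 152) (nat_lit 2218358192) (nat_lit 228) (nat_lit 12062140574) (nat_lit 107) (nat_lit 5) (nat_lit 109) (nat_lit 5) (nat_lit 110) (nat_lit 5) (nat_lit 487) (nat_lit 387) (nat_lit 326)) (XT.lf (nat_lit 0) (nat_lit 10998659597) (nat_lit 228) (nat_lit 2165707572) (nat_lit 76) (nat_lit 4201917242) (nat_lit 107) (nat_lit 5) (nat_lit 110) (nat_lit 5) (nat_lit 108) (nat_lit 4) (nat_lit 488) (nat_lit 387) (nat_lit 325)))) (XT.nd (nat_lit 156) (nat_lit 76) (nat_lit 0) (XT.nd (nat_lit 78) (nat_lit 228) (nat_lit 0) (XT.lf (nat_lit 0) (nat_lit 10404239710) (nat_lit 76) (nat_lit 6853444667) (nat_lit 152) (nat_lit 426171561) (nat_lit 106) (nat_lit 5) (nat_lit 107) (nat_lit 5) (nat_lit 108) (nat_lit 4) (nat_lit 489) (nat_lit 387) (nat_lit 324)) (XT.lf (nat_lit 0) (nat_lit 5345314011) (nat_lit 152)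 (nat_lit 262567596) (nat_lit 228) (nat_lit 12400667847) (nat_lit 103) (nat_lit 5) (nat_lit 105) (nat_lit 5) (nat_lit 106) (nat_lit 5) (nat_lit 490) (nat_lit 387) (nat_lit 323))) (XT.nd (nat_lit 78) (nat_lit 0) (nat_lit 0) (XT.lf (nat_lit 0) (nat_lit 182085) (nat_lit 76) (nat_lit 11903321687) (nat_lit 152) (nat_lit 6436680469) (nat_lit 102) (nat_lit 5) (nat_lit 103) (nat_lit 5) (nat_lit 104) (nat_lit 4) (nat_lit 491) (nat_lit 387) (nat_lit 322)) (XT.lf (nat_lit 0) (nat_lit 13211732322) (nat_lit 76) (nat_lit 5259392957) (nat_lit 152) (nat_lit 208149303) (nat_lit 102) (nat_lit 5) (nat_lit 103) (nat_lit 5) (nat_lit 104) (nat_lit 4) (nat_lit 492) (nat_lit 387) (nat_lit 321)))))) (XT.nd (nat_lit 624) (nat_lit 836) (nat_lit 0) (XT.nd (nat_lit 312) (nat_lit 380) (nat_lit 0) (XT.nd (nat_lit 156) (nat_lit 228) (nat_lit 0) (XT.nd (nat_lit 78) (nat_lit 76) (nat_lit 0) (XT.lf (nat_lit 0) (nat_lit 6130829739) (nat_lit 228) (nat_lit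 11245539180) (nat_lit 76) (nat_lit 1649037559) (nat_lit 99) (nat_lit 5) (nat_lit 102) (nat_lit 5) (nat_lit 100) (nat_lit 4) (nat_lit 493) (nat_lit 387) (nat_lit 320)) (XT.lf (nat_lit 0) (nat_lit 2054749114) (nat_lit 76) (nat_lit 10682369047) (nat_lit 152) (nat_lit 6642303029) (nat_lit 98) (nat_lit 5) (nat_lit 99) (nat_lit 5) (nat_lit 100) (nat_lit 4) (nat_lit 494) (nat_lit 387) (nat_lit 319))) (XT.nd (nat_lit 78) (nat_lit 228) (nat_lit 0) (XT.lf (nat_lit 0) (nat_lit 15898245149) (nat_lit 76) (nat_lit 3711166339) (nat_lit 152) (nat_lit 132610749) (nat_lit 98) (nat_lit 5) (nat_lit 99) (nat_lit 5) (nat_lit 100) (nat_lit 4) (nat_lit 495) (nat_lit 387) (nat_lit 318)) (XT.lf (nat_lit 0) (nat_lit 6530819540) (nat_lit 228) (nat_lit 10056024228) (nat_lit 76) (nat_lit 3524161641) (nat_lit 95) (nat_lit 5) (nat_lit 98) (nat_lit 5) (nat_lit 96) (nat_lit 4) (nat_lit 496) (nat_lit 387) (nat_lit 317)))) (XT.nd (nat_lit 156) (nat_lit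 304) (nat_lit 0) (XT.nd (nat_lit 78) (nat_lit 0) (nat_lit 0) (XT.lf (nat_lit 0) (nat_lit 3912688756) (nat_lit 76) (nat_lit 9547623664) (nat_lit 152) (nat_lit 7028641865) (nat_lit 94) (nat_lit 5) (nat_lit 95) (nat_lit 5) (nat_lit 96) (nat_lit 4) (nat_lit 497) (nat_lit 387) (nat_lit 316)) (XT.lf (nat_lit 0) (nat_lit 18422610745) (nat_lit 76) (nat_lit 2232391623) (nat_lit 152) (nat_lit 221520231) (nat_lit 94) (nat_lit 5) (nat_lit 95) (nat_lit 5) (nat_lit 96) (nat_lit 4) (nat_lit 498) (nat_lit 387) (nat_lit 315))) (XT.nd (nat_lit 78) (nat_lit 76) (nat_lit 0) (XT.lf (nat_lit 0) (nat_lit 6783451937) (nat_lit 228) (nat_lit 9141793517) (nat_lit 76) (nat_lit 5344730871) (nat_lit 91) (nat_lit 5) (nat_lit 94) (nat_lit 5) (nat_lit 92) (nat_lit 4) (nat_lit 499) (nat_lit 387) (nat_lit 314)) (XT.lf (nat_lit 0) (nat_lit 5524294980) (nat_lit 76) (nat_lit 8526792534) (nat_lit 152) (nat_lit 7622371665) (nat_lit 90) (nat_lit 5) (nat_lit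 91) (nat_lit 5) (nat_lit 92) (nat_lit 4) (nat_lit 500) (nat_lit 387) (nat_lit 313))))) (XT.nd (nat_lit 312) (nat_lit 532) (nat_lit 0) (XT.nd (nat_lit 156) (nat_lit 76) (nat_lit 0) (XT.nd (nat_lit 78) (nat_lit 228) (nat_lit 0) (XT.lf (nat_lit 0) (nat_lit 20736057675) (nat_lit 76) (nat_lit 850219135) (nat_lit 152) (nat_lit 501284271) (nat_lit 90) (nat_lit 5) (nat_lit 91) (nat_lit 5) (nat_lit 92) (nat_lit 4) (nat_lit 501) (nat_lit 387) (nat_lit 312)) (XT.lf (nat_lit 0) (nat_lit 6862333472) (nat_lit 228) (nat_lit 8561006415) (nat_lit 76) (nat_lit 7083908542) (nat_lit 87) (nat_lit 5) (nat_lit 90) (nat_lit 5) (nat_lit 88) (nat_lit 4) (nat_lit 502) (nat_lit 387) (nat_lit 311))) (XT.nd (nat_lit 78) (nat_lit 0) (nat_lit 0) (XT.lf (nat_lit 0) (nat_lit 6831032153) (nat_lit 76) (nat_lit 7651757011) (nat_lit 152) (nat_lit 8455208470) (nat_lit 86) (nat_lit 5) (nat_lit 87) (nat_lit 5) (nat_lit 88) (nat_lit 4) (nat_lit 503) (nat_lit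 387) (nat_lit 310)) (XT.lf (nat_lit 0) (nat_lit 22380786242) (nat_lit 152) (nat_lit 603347179) (nat_lit 0) (nat_lit 396068330) (nat_lit 86) (nat_lit 5) (nat_lit 88) (nat_lit 4) (nat_lit 86) (nat_lit 4) (nat_lit 504) (nat_lit 387) (nat_lit 309)))) (XT.nd (nat_lit 156) (nat_lit 228) (nat_lit 0) (XT.nd (nat_lit 78) (nat_lit 76) (nat_lit 0) (XT.lf (nat_lit 0) (nat_lit 6735863726) (nat_lit 228) (nat_lit 8381825659) (nat_lit 76) (nat_lit 8710471547) (nat_lit 83) (nat_lit 5) (nat_lit 86) (nat_lit 5) (nat_lit 84) (nat_lit 4) (nat_lit 505) (nat_lit 387) (nat_lit 308)) (XT.lf (nat_lit 0) (nat_lit 7764000095) (nat_lit 76) (nat_lit 6959386535) (nat_lit 152) (nat_lit 9564667471) (nat_lit 82) (nat_lit 5) (nat_lit 83) (nat_lit 5) (nat_lit 84) (nat_lit 4) (nat_lit 506) (nat_lit 387) (nat_lit 307))) (XT.nd (nat_lit 78) (nat_lit 228) (nat_lit 0) (XT.lf (nat_lit 0) (nat_lit 23009457358) (nat_lit 152) (nat_lit 286028220) (nat_lit 0)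 (nat_lit 1464491059) (nat_lit 82) (nat_lit 5) (nat_lit 84) (nat_lit 4) (nat_lit 82) (nat_lit 4) (nat_lit 507) (nat_lit 387) (nat_lit 306)) (XT.lf (nat_lit 0) (nat_lit 6366428693) (nat_lit 228) (nat_lit 8684119656) (nat_lit 76) (nat_lit 10187954313) (nat_lit 79) (nat_lit 5) (nat_lit 82) (nat_lit 5) (nat_lit 80) (nat_lit 4) (nat_lit 508) (nat_lit 387) (nat_lit 305))))))) (XT.nd (nat_lit 1170) (nat_lit 1140) (nat_lit 0) (XT.nd (nat_lit 546) (nat_lit 532) (nat_lit 0) (XT.nd (nat_lit 234) (nat_lit 304) (nat_lit 0) (XT.nd (nat_lit 78) (nat_lit 152) (nat_lit 0) (XT.lf (nat_lit 0) (nat_lit 8242156431) (nat_lit 76) (nat_lit 6492471589) (nat_lit 152) (nat_lit 10994948909) (nat_lit 78) (nat_lit 5) (nat_lit 79) (nat_lit 5) (nat_lit 80) (nat_lit 4) (nat_lit 509) (nat_lit 387) (nat_lit 304)) (XT.nd (nat_lit 78) (nat_lit 152) (nat_lit 0) (XT.lf (nat_lit 0) (nat_lit 23425609600) (nat_lit 152) (nat_lit 477668069) (nat_lit 0) (nat_lit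 2329953880) (nat_lit 78) (nat_lit 5) (nat_lit 80) (nat_lit 4) (nat_lit 78) (nat_lit 4) (nat_lit 510) (nat_lit 387) (nat_lit 303)) (XT.lf (nat_lit 0) (nat_lit 5709457944) (nat_lit 152) (nat_lit 9561433978) (nat_lit 76) (nat_lit 11473664756) (nat_lit 76) (nat_lit 5) (nat_lit 78) (nat_lit 5) (nat_lit 77) (nat_lit 4) (nat_lit 511) (nat_lit 387) (nat_lit 302)))) (XT.nd (nat_lit 156) (nat_lit 228) (nat_lit 0) (XT.nd (nat_lit 78) (nat_lit 0) (nat_lit 0) (XT.lf (nat_lit 0) (nat_lit 8170256573) (nat_lit 76) (nat_lit 6300796452) (nat_lit 152) (nat_lit 12797971788) (nat_lit 75) (nat_lit 5) (nat_lit 76) (nat_lit 5) (nat_lit 77) (nat_lit 4) (nat_lit 512) (nat_lit 387) (nat_lit 301)) (XT.lf (nat_lit 0) (nat_lit 23583336512) (nat_lit 152) (nat_lit 1279477770) (nat_lit 0) (nat_lit 2943777680) (nat_lit 75) (nat_lit 5) (nat_lit 77) (nat_lit 4) (nat_lit 75) (nat_lit 4) (nat_lit 513) (nat_lit 387) (nat_lit 300))) (XT.nd (nat_lit 78)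 (nat_lit 76) (nat_lit 0) (XT.lf (nat_lit 0) (nat_lit 4712324447) (nat_lit 152) (nat_lit 11123275831) (nat_lit 76) (nat_lit 12517550343) (nat_lit 73) (nat_lit 5) (nat_lit 75) (nat_lit 5) (nat_lit 74) (nat_lit 4) (nat_lit 514) (nat_lit 387) (nat_lit 299)) (XT.lf (nat_lit 0) (nat_lit 7436465400) (nat_lit 76) (nat_lit 6442375425) (nat_lit 152) (nat_lit 15034578382) (nat_lit 72) (nat_lit 5) (nat_lit 73) (nat_lit 5) (nat_lit 74) (nat_lit 4) (nat_lit 515) (nat_lit 387) (nat_lit 298))))) (XT.nd (nat_lit 312) (nat_lit 304) (nat_lit 0) (XT.nd (nat_lit 156) (nat_lit 76) (nat_lit 0) (XT.nd (nat_lit 78) (nat_lit 152) (nat_lit 0) (XT.lf (nat_lit 0) (nat_lit 23428138308) (nat_lit 152) (nat_lit 2810075226) (nat_lit 0) (nat_lit 3249048915) (nat_lit 72) (nat_lit 5) (nat_lit 74) (nat_lit 4) (nat_lit 72) (nat_lit 4) (nat_lit 516) (nat_lit 387) (nat_lit 297)) (XT.lf (nat_lit 0) (nat_lit 3313062421) (nat_lit 152) (nat_lit 13497762137)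 (nat_lit 76) (nat_lit 13260888999) (nat_lit 70) (nat_lit 5) (nat_lit 72) (nat_lit 5) (nat_lit 71) (nat_lit 4) (nat_lit 517) (nat_lit 387) (nat_lit 296))) (XT.nd (nat_lit 78) (nat_lit 0) (nat_lit 0) (XT.lf (nat_lit 0) (nat_lit 5909587487) (nat_lit 76) (nat_lit 6984879867) (nat_lit 152) (nat_lit 17775936202) (nat_lit 69) (nat_lit 5) (nat_lit 70) (nat_lit 5) (nat_lit 71) (nat_lit 4) (nat_lit 518) (nat_lit 387) (nat_lit 295)) (XT.lf (nat_lit 0) (nat_lit 22895529419) (nat_lit 152) (nat_lit 5208372850) (nat_lit 0) (nat_lit 3179185684) (nat_lit 69) (nat_lit 5) (nat_lit 71) (nat_lit 4) (nat_lit 69) (nat_lit 4) (nat_lit 519) (nat_lit 387) (nat_lit 294)))) (XT.nd (nat_lit 156) (nat_lit 76) (nat_lit 0) (XT.nd (nat_lit 78) (nat_lit 76) (nat_lit 0) (XT.lf (nat_lit 0) (nat_lit 1438874652) (nat_lit 152) (nat_lit 16834689953) (nat_lit 76) (nat_lit 13634775685) (nat_lit 67) (nat_lit 5) (nat_lit 69) (nat_lit 5) (nat_lit 68) (nat_lit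 4) (nat_lit 520) (nat_lit 387) (nat_lit 293)) (XT.lf (nat_lit 0) (nat_lit 3435854263) (nat_lit 76) (nat_lit 8007287597) (nat_lit 152) (nat_lit 21105168440) (nat_lit 66) (nat_lit 5) (nat_lit 67) (nat_lit 5) (nat_lit 68) (nat_lit 4) (nat_lit 521) (nat_lit 387) (nat_lit 292))) (XT.nd (nat_lit 78) (nat_lit 76) (nat_lit 0) (XT.lf (nat_lit 0) (nat_lit 21909416953) (nat_lit 152) (nat_lit 8636926806) (nat_lit 0) (nat_lit 2656279387) (nat_lit 66) (nat_lit 5) (nat_lit 68) (nat_lit 4) (nat_lit 66) (nat_lit 4) (nat_lit 522) (nat_lit 387) (nat_lit 291)) (XT.lf (nat_lit 0) (nat_lit 12552713323) (nat_lit 76) (nat_lit 20303439570) (nat_lit 76) (nat_lit 1015418436) (nat_lit 65) (nat_lit 4) (nat_lit 66) (nat_lit 5) (nat_lit 66) (nat_lit 4) (nat_lit 523) (nat_lit 387) (nat_lit 290)))))) (XT.nd (nat_lit 624) (nat_lit 532) (nat_lit 0) (XT.nd (nat_lit 312) (nat_lit 304) (nat_lit 0) (XT.nd (nat_lit 156) (nat_lit 152) (nat_lit 0) (XT.nd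 (nat_lit 78) (nat_lit 76) (nat_lit 0) (XT.lf (nat_lit 0) (nat_lit 9438572077) (nat_lit 152) (nat_lit 161587359) (nat_lit 76) (nat_lit 24956029817) (nat_lit 64) (nat_lit 5) (nat_lit 66) (nat_lit 5) (nat_lit 65) (nat_lit 4) (nat_lit 524) (nat_lit 387) (nat_lit 289)) (XT.lf (nat_lit 0) (nat_lit 20380213789) (nat_lit 152) (nat_lit 13285822057) (nat_lit 0) (nat_lit 1589175163) (nat_lit 63) (nat_lit 5) (nat_lit 65) (nat_lit 4) (nat_lit 63) (nat_lit 4) (nat_lit 525) (nat_lit 387) (nat_lit 288))) (XT.nd (nat_lit 78) (nat_lit 76) (nat_lit 0) (XT.lf (nat_lit 0) (nat_lit 8805242875) (nat_lit 76) (nat_lit 22993762926) (nat_lit 76) (nat_lit 4171730701) (nat_lit 62) (nat_lit 4) (nat_lit 63) (nat_lit 5) (nat_lit 63) (nat_lit 4) (nat_lit 526) (nat_lit 387) (nat_lit 287)) (XT.lf (nat_lit 0) (nat_lit 6821982069) (nat_lit 152) (nat_lit 5003499496) (nat_lit 76) (nat_lit 24877178116) (nat_lit 61) (nat_lit 5) (nat_lit 63) (nat_lit 5)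 (nat_lit 62) (nat_lit 4) (nat_lit 527) (nat_lit 387) (nat_lit 286)))) (XT.nd (nat_lit 156) (nat_lit 152) (nat_lit 0) (XT.nd (nat_lit 78) (nat_lit 76) (nat_lit 0) (XT.lf (nat_lit 0) (nat_lit 18072592531) (nat_lit 76) (nat_lit 131313905) (nat_lit 152) (nat_lit 19247127657) (nat_lit 60) (nat_lit 5) (nat_lit 61) (nat_lit 5) (nat_lit 62) (nat_lit 4) (nat_lit 528) (nat_lit 387) (nat_lit 285)) (XT.lf (nat_lit 0) (nat_lit 3616588174) (nat_lit 76) (nat_lit 26479569337) (nat_lit 76) (nat_lit 8120636260) (nat_lit 59) (nat_lit 4) (nat_lit 60) (nat_lit 5) (nat_lit 60) (nat_lit 4) (nat_lit 529) (nat_lit 387) (nat_lit 284))) (XT.nd (nat_lit 78) (nat_lit 76) (nat_lit 0) (XT.lf (nat_lit 0) (nat_lit 3441975934) (nat_lit 152) (nat_lit 11398457280) (nat_lit 76) (nat_lit 24159105198) (nat_lit 58) (nat_lit 5) (nat_lit 60) (nat_lit 5) (nat_lit 59) (nat_lit 4) (nat_lit 530) (nat_lit 387) (nat_lit 283)) (XT.lf (nat_lit 0) (nat_lit 12604542865)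 (nat_lit 76) (nat_lit 2674357599) (nat_lit 152) (nat_lit 24521733428) (nat_lit 57) (nat_lit 5) (nat_lit 58) (nat_lit 5) (nat_lit 59) (nat_lit 4) (nat_lit 531) (nat_lit 387) (nat_lit 282))))) (XT.nd (nat_lit 312) (nat_lit 304) (nat_lit 0) (XT.nd (nat_lit 156) (nat_lit 152) (nat_lit 0) (XT.nd (nat_lit 78) (nat_lit 76) (nat_lit 0) (XT.lf (nat_lit 0) (nat_lit 27651441146) (nat_lit 152) (nat_lit 3217295569) (nat_lit 0) (nat_lit 9751610359) (nat_lit 57) (nat_lit 5) (nat_lit 59) (nat_lit 4) (nat_lit 57) (nat_lit 4) (nat_lit 532) (nat_lit 387) (nat_lit 281)) (XT.lf (nat_lit 0) (nat_lit 21821572985) (nat_lit 76) (nat_lit 18780232072) (nat_lit 76) (nat_lit 856647272) (nat_lit 56) (nat_lit 4) (nat_lit 57) (nat_lit 5) (nat_lit 57) (nat_lit 4) (nat_lit 533) (nat_lit 387) (nat_lit 280))) (XT.nd (nat_lit 78) (nat_lit 0) (nat_lit 0) (XT.lf (nat_lit 0) (nat_lit 5289394185) (nat_lit 76) (nat_lit 6156931495) (nat_lit 152) (nat_lit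 30870402240) (nat_lit 54) (nat_lit 5) (nat_lit 55) (nat_lit 5) (nat_lit 56) (nat_lit 4) (nat_lit 534) (nat_lit 387) (nat_lit 279)) (XT.lf (nat_lit 0) (nat_lit 24337672670) (nat_lit 152) (nat_lit 11963724354) (nat_lit 0) (nat_lit 6892005308) (nat_lit 54) (nat_lit 5) (nat_lit 56) (nat_lit 4) (nat_lit 54) (nat_lit 4) (nat_lit 535) (nat_lit 387) (nat_lit 278)))) (XT.nd (nat_lit 156) (nat_lit 152) (nat_lit 0) (XT.nd (nat_lit 78) (nat_lit 76) (nat_lit 0) (XT.lf (nat_lit 0) (nat_lit 14007203274) (nat_lit 76) (nat_lit 23775469446) (nat_lit 76) (nat_lit 6308696952) (nat_lit 53) (nat_lit 4) (nat_lit 54) (nat_lit 5) (nat_lit 54) (nat_lit 4) (nat_lit 536) (nat_lit 387) (nat_lit 277)) (XT.lf (nat_lit 0) (nat_lit 6578994911) (nat_lit 152) (nat_lit 4131903243) (nat_lit 76) (nat_lit 34300670632) (nat_lit 52) (nat_lit 5) (nat_lit 54) (nat_lit 5) (nat_lit 53) (nat_lit 4) (nat_lit 537) (nat_lit 387) (nat_lit 276))) (XT.nd (nat_lit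 78) (nat_lit 76) (nat_lit 0) (XT.lf (nat_lit 0) (nat_lit 19948006265) (nat_lit 152) (nat_lit 23052082270) (nat_lit 0) (nat_lit 2950766920) (nat_lit 51) (nat_lit 5) (nat_lit 53) (nat_lit 4) (nat_lit 51) (nat_lit 4) (nat_lit 538) (nat_lit 387) (nat_lit 275)) (XT.lf (nat_lit 0) (nat_lit 3820758704) (nat_lit 76) (nat_lit 30054420171) (nat_lit 76) (nat_lit 13038429189) (nat_lit 50) (nat_lit 4) (nat_lit 51) (nat_lit 5) (nat_lit 51) (nat_lit 4) (nat_lit 539) (nat_lit 387) (nat_lit 274))))))))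
noncomputable def xc67 : XT := (XT.nd (nat_lit 54756) (nat_lit 0) (nat_lit 7524) (XT.nd (nat_lit 53508) (nat_lit 0) (nat_lit 15276) (XT.nd (nat_lit 546) (nat_lit 380) (nat_lit 0) (XT.nd (nat_lit 234) (nat_lit 304) (nat_lit 0) (XT.nd (nat_lit 78) (nat_lit 76) (nat_lit 0) (XT.lf (nat_lit 0) (nat_lit 516052342) (nat_lit 152) (nat_lit 15986610198) (nat_lit 76) (nat_lit 31396271733) (nat_lit 49) (nat_lit 5) (nat_lit 51) (nat_lit 5) (nat_lit 50) (nat_lit 4) (nat_lit 540) (nat_lit 387) (nat_lit 273)) (XT.nd (nat_lit 78) (nat_lit 0) (nat_lit 0) (XT.lf (nat_lit 0) (nat_lit 11983834271) (nat_lit 76) (nat_lit 2319469148) (nat_lit 152) (nat_lit 34603998274) (nat_lit 48) (nat_lit 5) (nat_lit 49) (nat_lit 5) (nat_lit 50) (nat_lit 4) (nat_lit 541) (nat_lit 387) (nat_lit 272)) (XT.lf (nat_lit 0) (nat_lit 28758354360) (nat_lit 152) (nat_lit 8993461807) (nat_lit 0) (nat_lit 12186478559) (nat_lit 48) (nat_lit 5) (nat_lit 50) (nat_lit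 4) (nat_lit 48) (nat_lit 4) (nat_lit 542) (nat_lit 387) (nat_lit 271)))) (XT.nd (nat_lit 156) (nat_lit 152) (nat_lit 0) (XT.nd (nat_lit 78) (nat_lit 76) (nat_lit 0) (XT.lf (nat_lit 0) (nat_lit 20091342388) (nat_lit 76) (nat_lit 23745614671) (nat_lit 76) (nat_lit 7157563543) (nat_lit 47) (nat_lit 4) (nat_lit 48) (nat_lit 5) (nat_lit 48) (nat_lit 4) (nat_lit 543) (nat_lit 387) (nat_lit 270)) (XT.lf (nat_lit 0) (nat_lit 7208848368) (nat_lit 152) (nat_lit 1969793141) (nat_lit 76) (nat_lit 42899724930) (nat_lit 46) (nat_lit 5) (nat_lit 48) (nat_lit 5) (nat_lit 47) (nat_lit 4) (nat_lit 544) (nat_lit 387) (nat_lit 269))) (XT.nd (nat_lit 78) (nat_lit 76) (nat_lit 0) (XT.lf (nat_lit 0) (nat_lit 22167782214) (nat_lit 152) (nat_lit 24982829103) (nat_lit 0) (nat_lit 6032828694) (nat_lit 45) (nat_lit 5) (nat_lit 47) (nat_lit 4) (nat_lit 45) (nat_lit 4) (nat_lit 545) (nat_lit 387) (nat_lit 268)) (XT.lf (nat_lit 0) (nat_lit 4950261940)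 (nat_lit 76) (nat_lit 32758367318) (nat_lit 76) (nat_lit 16609042230) (nat_lit 44) (nat_lit 4) (nat_lit 45) (nat_lit 5) (nat_lit 45) (nat_lit 4) (nat_lit 546) (nat_lit 387) (nat_lit 267))))) (XT.nd (nat_lit 312) (nat_lit 152) (nat_lit 0) (XT.nd (nat_lit 156) (nat_lit 76) (nat_lit 0) (XT.nd (nat_lit 78) (nat_lit 152) (nat_lit 0) (XT.lf (nat_lit 0) (nat_lit 36243268486) (nat_lit 76) (nat_lit 17699562826) (nat_lit 76) (nat_lit 1536284759) (nat_lit 44) (nat_lit 4) (nat_lit 45) (nat_lit 5) (nat_lit 45) (nat_lit 4) (nat_lit 547) (nat_lit 387) (nat_lit 266)) (XT.lf (nat_lit 0) (nat_lit 11847144836) (nat_lit 76) (nat_lit 1957766239) (nat_lit 152) (nat_lit 42863782200) (nat_lit 42) (nat_lit 5) (nat_lit 43) (nat_lit 5) (nat_lit 44) (nat_lit 4) (nat_lit 548) (nat_lit 387) (nat_lit 265))) (XT.nd (nat_lit 78) (nat_lit 76) (nat_lit 0) (XT.lf (nat_lit 0) (nat_lit 29884030984) (nat_lit 152) (nat_lit 13834606522) (nat_lit 0) (nat_lit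 14165607033) (nat_lit 42) (nat_lit 5) (nat_lit 44) (nat_lit 4) (nat_lit 42) (nat_lit 4) (nat_lit 549) (nat_lit 387) (nat_lit 264)) (XT.lf (nat_lit 0) (nat_lit 18373277951) (nat_lit 76) (nat_lit 28244321588) (nat_lit 76) (nat_lit 12513500596) (nat_lit 41) (nat_lit 4) (nat_lit 42) (nat_lit 5) (nat_lit 42) (nat_lit 4) (nat_lit 550) (nat_lit 387) (nat_lit 263)))) (XT.nd (nat_lit 156) (nat_lit 0) (nat_lit 0) (XT.nd (nat_lit 78) (nat_lit 76) (nat_lit 0) (XT.lf (nat_lit 0) (nat_lit 3487898466) (nat_lit 152) (nat_lit 8662423066) (nat_lit 76) (nat_lit 48260533453) (nat_lit 40) (nat_lit 5) (nat_lit 42) (nat_lit 5) (nat_lit 41) (nat_lit 4) (nat_lit 551) (nat_lit 387) (nat_lit 262)) (XT.lf (nat_lit 0) (nat_lit 19978020830) (nat_lit 152) (nat_lit 37057110461) (nat_lit 0) (nat_lit 4682348642) (nat_lit 39) (nat_lit 5) (nat_lit 41) (nat_lit 4) (nat_lit 39) (nat_lit 4) (nat_lit 552) (nat_lit 387) (nat_lit 261))) (XT.nd (nat_lit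 52416) (nat_lit 0) (nat_lit 24244) (XT.lf (nat_lit 0) (nat_lit 37148279979) (nat_lit 152) (nat_lit 4067867516) (nat_lit 0) (nat_lit 21841593180) (nat_lit 39) (nat_lit 5) (nat_lit 41) (nat_lit 4) (nat_lit 39) (nat_lit 4) (nat_lit 553) (nat_lit 387) (nat_lit 260)) (XT.lf (nat_lit 0) (nat_lit 1756082258) (nat_lit 1140) (nat_lit 14016813) (nat_lit 0) (nat_lit 1756082258) (nat_lit 358) (nat_lit 5) (nat_lit 373) (nat_lit 4) (nat_lit 358) (nat_lit 4) (nat_lit 424) (nat_lit 388) (nat_lit 388)))))) (XT.nd (nat_lit 624) (nat_lit 3116) (nat_lit 0) (XT.nd (nat_lit 312) (nat_lit 2508) (nat_lit 0) (XT.nd (nat_lit 156) (nat_lit 912) (nat_lit 0) (XT.nd (nat_lit 78) (nat_lit 1292) (nat_lit 0) (XT.lf (nat_lit 0) (nat_lit 5269986063) (nat_lit 1140) (nat_lit 1806534462) (nat_lit 1140) (nat_lit 28370563) (nat_lit 343) (nat_lit 4) (nat_lit 358) (nat_lit 5) (nat_lit 358) (nat_lit 4) (nat_lit 425) (nat_lit 388) (nat_lit 387)) (XT.lf (nat_lit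 0) (nat_lit 3449907077) (nat_lit 1292) (nat_lit 3662681384) (nat_lit 0) (nat_lit 47444342) (nat_lit 326) (nat_lit 5) (nat_lit 343) (nat_lit 4) (nat_lit 326) (nat_lit 4) (nat_lit 426) (nat_lit 388) (nat_lit 386))) (XT.nd (nat_lit 78) (nat_lit 76) (nat_lit 0) (XT.lf (nat_lit 0) (nat_lit 1719666446) (nat_lit 836) (nat_lit 5264169135) (nat_lit 836) (nat_lit 234434539) (nat_lit 315) (nat_lit 4) (nat_lit 326) (nat_lit 5) (nat_lit 326) (nat_lit 4) (nat_lit 427) (nat_lit 388) (nat_lit 385)) (XT.lf (nat_lit 0) (nat_lit 3217286466) (nat_lit 912) (nat_lit 78518662) (nat_lit 76) (nat_lit 3983379005) (nat_lit 314) (nat_lit 5) (nat_lit 326) (nat_lit 5) (nat_lit 315) (nat_lit 4) (nat_lit 428) (nat_lit 388) (nat_lit 384)))) (XT.nd (nat_lit 156) (nat_lit 1216) (nat_lit 0) (XT.nd (nat_lit 78) (nat_lit 684) (nat_lit 0) (XT.lf (nat_lit 0) (nat_lit 5504984092) (nat_lit 608) (nat_lit 1218392302) (nat_lit 684) (nat_lit 619819119) (nat_lit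 306) (nat_lit 5) (nat_lit 314) (nat_lit 5) (nat_lit 315) (nat_lit 4) (nat_lit 429) (nat_lit 388) (nat_lit 383)) (XT.lf (nat_lit 0) (nat_lit 2818582970) (nat_lit 684) (nat_lit 3630368084) (nat_lit 76) (nat_lit 960833207) (nat_lit 297) (nat_lit 5) (nat_lit 306) (nat_lit 5) (nat_lit 298) (nat_lit 4) (nat_lit 430) (nat_lit 388) (nat_lit 382))) (XT.nd (nat_lit 78) (nat_lit 684) (nat_lit 0) (XT.lf (nat_lit 0) (nat_lit 2039951038) (nat_lit 532) (nat_lit 4263369924) (nat_lit 608) (nat_lit 1176201353) (nat_lit 290) (nat_lit 5) (nat_lit 297) (nat_lit 5) (nat_lit 298) (nat_lit 4) (nat_lit 431) (nat_lit 388) (nat_lit 381)) (XT.lf (nat_lit 0) (nat_lit 279390708) (nat_lit 608) (nat_lit 1961919831) (nat_lit 684) (nat_lit 5310999070) (nat_lit 281) (nat_lit 5) (nat_lit 289) (nat_lit 5) (nat_lit 290) (nat_lit 5) (nat_lit 432) (nat_lit 388) (nat_lit 380))))) (XT.nd (nat_lit 312) (nat_lit 1444) (nat_lit 0) (XT.nd (nat_lit 156) (nat_lit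 1064) (nat_lit 0) (XT.nd (nat_lit 78) (nat_lit 608) (nat_lit 0) (XT.lf (nat_lit 0) (nat_lit 5704719993) (nat_lit 684) (nat_lit 1469637850) (nat_lit 76) (nat_lit 453567503) (nat_lit 281) (nat_lit 5) (nat_lit 290) (nat_lit 5) (nat_lit 282) (nat_lit 4) (nat_lit 433) (nat_lit 388) (nat_lit 379)) (XT.lf (nat_lit 0) (nat_lit 1508075617) (nat_lit 608) (nat_lit 3252019372) (nat_lit 76) (nat_lit 2946094727) (nat_lit 273) (nat_lit 5) (nat_lit 281) (nat_lit 5) (nat_lit 274) (nat_lit 5) (nat_lit 434) (nat_lit 388) (nat_lit 378))) (XT.nd (nat_lit 78) (nat_lit 532) (nat_lit 0) (XT.lf (nat_lit 0) (nat_lit 2726613418) (nat_lit 532) (nat_lit 2229253496) (nat_lit 608) (nat_lit 2831801244) (nat_lit 266) (nat_lit 5) (nat_lit 273) (nat_lit 5) (nat_lit 274) (nat_lit 5) (nat_lit 435) (nat_lit 388) (nat_lit 377)) (XT.lf (nat_lit 0) (nat_lit 581401155) (nat_lit 532) (nat_lit 6890818488) (nat_lit 76) (nat_lit 400442956) (nat_lit 259) (nat_lit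 5) (nat_lit 266) (nat_lit 5) (nat_lit 260) (nat_lit 5) (nat_lit 436) (nat_lit 388) (nat_lit 376)))) (XT.nd (nat_lit 156) (nat_lit 988) (nat_lit 0) (XT.nd (nat_lit 78) (nat_lit 456) (nat_lit 0) (XT.lf (nat_lit 0) (nat_lit 4026858319) (nat_lit 532) (nat_lit 808451940) (nat_lit 76) (nat_lit 3124456060) (nat_lit 259) (nat_lit 5) (nat_lit 266) (nat_lit 5) (nat_lit 260) (nat_lit 5) (nat_lit 437) (nat_lit 388) (nat_lit 375)) (XT.lf (nat_lit 0) (nat_lit 5457107010) (nat_lit 456) (nat_lit 2086651123) (nat_lit 532) (nat_lit 506686368) (nat_lit 253) (nat_lit 5) (nat_lit 259) (nat_lit 5) (nat_lit 260) (nat_lit 5) (nat_lit 438) (nat_lit 388) (nat_lit 374))) (XT.nd (nat_lit 78) (nat_lit 456) (nat_lit 0) (XT.lf (nat_lit 0) (nat_lit 2931265708) (nat_lit 532) (nat_lit 4431151308) (nat_lit 76) (nat_lit 781520336) (nat_lit 246) (nat_lit 5) (nat_lit 253) (nat_lit 5) (nat_lit 247) (nat_lit 5) (nat_lit 439) (nat_lit 388) (nat_lit 373))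 (XT.lf (nat_lit 0) (nat_lit 1925840556) (nat_lit 456) (nat_lit 4519404477) (nat_lit 532) (nat_lit 1795350679) (nat_lit 240) (nat_lit 5) (nat_lit 246) (nat_lit 5) (nat_lit 247) (nat_lit 5) (nat_lit 440) (nat_lit 388) (nat_lit 372))))))) (XT.nd (nat_lit 1248) (nat_lit 3040) (nat_lit 0) (XT.nd (nat_lit 624) (nat_lit 2052) (nat_lit 0) (XT.nd (nat_lit 312) (nat_lit 1292) (nat_lit 0) (XT.nd (nat_lit 156) (nat_lit 912) (nat_lit 0) (XT.nd (nat_lit 78) (nat_lit 0) (nat_lit 0) (XT.lf (nat_lit 0) (nat_lit 102354317) (nat_lit 380) (nat_lit 1552683999) (nat_lit 456) (nat_lit 6685695426) (nat_lit 234) (nat_lit 5) (nat_lit 239) (nat_lit 5) (nat_lit 240) (nat_lit 5) (nat_lit 441) (nat_lit 388) (nat_lit 371)) (XT.lf (nat_lit 0) (nat_lit 5170829834) (nat_lit 456) (nat_lit 1742688931) (nat_lit 76) (nat_lit 1529887717) (nat_lit 234) (nat_lit 5) (nat_lit 240) (nat_lit 5) (nat_lit 235) (nat_lit 5) (nat_lit 442) (nat_lit 388) (nat_lit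 370))) (XT.nd (nat_lit 78) (nat_lit 380) (nat_lit 0) (XT.lf (nat_lit 0) (nat_lit 222211097) (nat_lit 532) (nat_lit 3629372775) (nat_lit 76) (nat_lit 4697987931) (nat_lit 227) (nat_lit 5) (nat_lit 234) (nat_lit 5) (nat_lit 228) (nat_lit 5) (nat_lit 443) (nat_lit 388) (nat_lit 369)) (XT.lf (nat_lit 0) (nat_lit 3081226891) (nat_lit 380) (nat_lit 644224837) (nat_lit 456) (nat_lit 4933419608) (nat_lit 222) (nat_lit 5) (nat_lit 227) (nat_lit 5) (nat_lit 228) (nat_lit 5) (nat_lit 444) (nat_lit 388) (nat_lit 368)))) (XT.nd (nat_lit 156) (nat_lit 836) (nat_lit 0) (XT.nd (nat_lit 78) (nat_lit 76) (nat_lit 0) (XT.lf (nat_lit 0) (nat_lit 1186817049) (nat_lit 380) (nat_lit 6143930851) (nat_lit 456) (nat_lit 1440795971) (nat_lit 217) (nat_lit 5) (nat_lit 222) (nat_lit 5) (nat_lit 223) (nat_lit 5) (nat_lit 445) (nat_lit 388) (nat_lit 367)) (XT.lf (nat_lit 0) (nat_lit 2101222778) (nat_lit 456) (nat_lit 753104878) (nat_lit 76) (nat_lit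 6033048626) (nat_lit 216) (nat_lit 5) (nat_lit 222) (nat_lit 5) (nat_lit 217) (nat_lit 5) (nat_lit 446) (nat_lit 388) (nat_lit 366))) (XT.nd (nat_lit 78) (nat_lit 456) (nat_lit 0) (XT.lf (nat_lit 0) (nat_lit 5712225806) (nat_lit 456) (nat_lit 2725303815) (nat_lit 76) (nat_lit 568978148) (nat_lit 211) (nat_lit 5) (nat_lit 217) (nat_lit 5) (nat_lit 212) (nat_lit 5) (nat_lit 447) (nat_lit 388) (nat_lit 365)) (XT.lf (nat_lit 0) (nat_lit 300918477) (nat_lit 456) (nat_lit 4768021449) (nat_lit 76) (nat_lit 4060054292) (nat_lit 205) (nat_lit 5) (nat_lit 211) (nat_lit 5) (nat_lit 206) (nat_lit 5) (nat_lit 448) (nat_lit 388) (nat_lit 364))))) (XT.nd (nat_lit 312) (nat_lit 1064) (nat_lit 0) (XT.nd (nat_lit 156) (nat_lit 380) (nat_lit 0) (XT.nd (nat_lit 78) (nat_lit 304) (nat_lit 0) (XT.lf (nat_lit 0) (nat_lit 2368478651) (nat_lit 304) (nat_lit 1546799244) (nat_lit 380) (nat_lit 5339575739) (nat_lit 201) (nat_lit 5) (nat_lit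 205) (nat_lit 5) (nat_lit 206) (nat_lit 5) (nat_lit 449) (nat_lit 388) (nat_lit 363)) (XT.lf (nat_lit 0) (nat_lit 312360925) (nat_lit 304) (nat_lit 7325089652) (nat_lit 380) (nat_lit 1747059030) (nat_lit 197) (nat_lit 5) (nat_lit 201) (nat_lit 5) (nat_lit 202) (nat_lit 5) (nat_lit 450) (nat_lit 388) (nat_lit 362))) (XT.nd (nat_lit 78) (nat_lit 304) (nat_lit 0) (XT.lf (nat_lit 0) (nat_lit 1928791314) (nat_lit 380) (nat_lit 1789931352) (nat_lit 76) (nat_lit 5798361259) (nat_lit 196) (nat_lit 5) (nat_lit 201) (nat_lit 5) (nat_lit 197) (nat_lit 5) (nat_lit 451) (nat_lit 388) (nat_lit 361)) (XT.lf (nat_lit 0) (nat_lit 5665164781) (nat_lit 380) (nat_lit 3953497415) (nat_lit 76) (nat_lit 34895553) (nat_lit 192) (nat_lit 5) (nat_lit 197) (nat_lit 5) (nat_lit 193) (nat_lit 5) (nat_lit 452) (nat_lit 388) (nat_lit 360)))) (XT.nd (nat_lit 156) (nat_lit 380) (nat_lit 0) (XT.nd (nat_lit 78) (nat_lit 380) (nat_lit 0) (XT.lf (nat_lit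 0) (nat_lit 3585847166) (nat_lit 304) (nat_lit 5948256180) (nat_lit 380) (nat_lit 259410222) (nat_lit 188) (nat_lit 5) (nat_lit 192) (nat_lit 5) (nat_lit 193) (nat_lit 5) (nat_lit 453) (nat_lit 388) (nat_lit 359)) (XT.lf (nat_lit 0) (nat_lit 1382777012) (nat_lit 304) (nat_lit 2113656512) (nat_lit 380) (nat_lit 6440657261) (nat_lit 183) (nat_lit 5) (nat_lit 187) (nat_lit 5) (nat_lit 188) (nat_lit 5) (nat_lit 454) (nat_lit 388) (nat_lit 358))) (XT.nd (nat_lit 78) (nat_lit 380) (nat_lit 0) (XT.lf (nat_lit 0) (nat_lit 7372609454) (nat_lit 380) (nat_lit 881725475) (nat_lit 76) (nat_lit 1830179043) (nat_lit 183) (nat_lit 5) (nat_lit 188) (nat_lit 5) (nat_lit 184) (nat_lit 5) (nat_lit 455) (nat_lit 388) (nat_lit 357)) (XT.lf (nat_lit 0) (nat_lit 1129352510) (nat_lit 380) (nat_lit 3212270044) (nat_lit 76) (nat_lit 5893733520) (nat_lit 178) (nat_lit 5) (nat_lit 183) (nat_lit 5) (nat_lit 179) (nat_lit 5) (nat_lit 456) (nat_lit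 388) (nat_lit 356)))))) (XT.nd (nat_lit 624) (nat_lit 1368) (nat_lit 0) (XT.nd (nat_lit 312) (nat_lit 836) (nat_lit 0) (XT.nd (nat_lit 156) (nat_lit 304) (nat_lit 0) (XT.nd (nat_lit 78) (nat_lit 304) (nat_lit 0) (XT.lf (nat_lit 0) (nat_lit 4755321145) (nat_lit 228) (nat_lit 264920839) (nat_lit 304) (nat_lit 5370010572) (nat_lit 175) (nat_lit 5) (nat_lit 178) (nat_lit 5) (nat_lit 179) (nat_lit 5) (nat_lit 457) (nat_lit 388) (nat_lit 355)) (XT.lf (nat_lit 0) (nat_lit 2383568787) (nat_lit 304) (nat_lit 6672551316) (nat_lit 380) (nat_lit 1492829595) (nat_lit 171) (nat_lit 5) (nat_lit 175) (nat_lit 5) (nat_lit 176) (nat_lit 5) (nat_lit 458) (nat_lit 388) (nat_lit 354))) (XT.nd (nat_lit 78) (nat_lit 228) (nat_lit 0) (XT.lf (nat_lit 0) (nat_lit 2447005696) (nat_lit 380) (nat_lit 83838200) (nat_lit 76) (nat_lit 8180990174) (nat_lit 170) (nat_lit 5) (nat_lit 175) (nat_lit 5) (nat_lit 171) (nat_lit 5) (nat_lit 459) (nat_lit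 388) (nat_lit 353)) (XT.lf (nat_lit 0) (nat_lit 6508870844) (nat_lit 304) (nat_lit 2609870806) (nat_lit 76) (nat_lit 1759406219) (nat_lit 167) (nat_lit 5) (nat_lit 171) (nat_lit 5) (nat_lit 168) (nat_lit 5) (nat_lit 460) (nat_lit 388) (nat_lit 352)))) (XT.nd (nat_lit 156) (nat_lit 304) (nat_lit 0) (XT.nd (nat_lit 78) (nat_lit 304) (nat_lit 0) (XT.lf (nat_lit 0) (nat_lit 5810026893) (nat_lit 228) (nat_lit 4901778458) (nat_lit 304) (nat_lit 337070773) (nat_lit 164) (nat_lit 5) (nat_lit 167) (nat_lit 5) (nat_lit 168) (nat_lit 5) (nat_lit 461) (nat_lit 388) (nat_lit 351)) (XT.lf (nat_lit 0) (nat_lit 3236522201) (nat_lit 228) (nat_lit 500534761) (nat_lit 304) (nat_lit 7486707507) (nat_lit 160) (nat_lit 5) (nat_lit 163) (nat_lit 5) (nat_lit 164) (nat_lit 5) (nat_lit 462) (nat_lit 388) (nat_lit 350))) (XT.nd (nat_lit 78) (nat_lit 76) (nat_lit 0) (XT.lf (nat_lit 0) (nat_lit 536837490) (nat_lit 228) (nat_lit 7425310049)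 (nat_lit 304) (nat_lit 3440587713) (nat_lit 157) (nat_lit 5) (nat_lit 160) (nat_lit 5) (nat_lit 161) (nat_lit 5) (nat_lit 463) (nat_lit 388) (nat_lit 349)) (XT.lf (nat_lit 0) (nat_lit 737525624) (nat_lit 304) (nat_lit 2219497681) (nat_lit 76) (nat_lit 8629099632) (nat_lit 156) (nat_lit 5) (nat_lit 160) (nat_lit 5) (nat_lit 157) (nat_lit 5) (nat_lit 464) (nat_lit 388) (nat_lit 348))))) (XT.nd (nat_lit 312) (nat_lit 684) (nat_lit 0) (XT.nd (nat_lit 156) (nat_lit 228) (nat_lit 0) (XT.nd (nat_lit 78) (nat_lit 228) (nat_lit 0) (XT.lf (nat_lit 0) (nat_lit 4992659802) (nat_lit 304) (nat_lit 5107110997) (nat_lit 76) (nat_lit 1673595809) (nat_lit 153) (nat_lit 5) (nat_lit 157) (nat_lit 5) (nat_lit 154) (nat_lit 5) (nat_lit 465) (nat_lit 388) (nat_lit 347)) (XT.lf (nat_lit 0) (nat_lit 3844134374) (nat_lit 228) (nat_lit 5560773050) (nat_lit 304) (nat_lit 2560437557) (nat_lit 150) (nat_lit 5) (nat_lit 153) (nat_lit 5) (nat_lit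 154) (nat_lit 5) (nat_lit 466) (nat_lit 388) (nat_lit 346))) (XT.nd (nat_lit 78) (nat_lit 0) (nat_lit 0) (XT.lf (nat_lit 0) (nat_lit 906984919) (nat_lit 152) (nat_lit 846188949) (nat_lit 228) (nat_lit 10409346951) (nat_lit 147) (nat_lit 5) (nat_lit 149) (nat_lit 5) (nat_lit 150) (nat_lit 5) (nat_lit 467) (nat_lit 388) (nat_lit 345)) (XT.lf (nat_lit 0) (nat_lit 6207270226) (nat_lit 228) (nat_lit 2155840928) (nat_lit 76) (nat_lit 3999865164) (nat_lit 147) (nat_lit 5) (nat_lit 150) (nat_lit 5) (nat_lit 148) (nat_lit 5) (nat_lit 468) (nat_lit 388) (nat_lit 344)))) (XT.nd (nat_lit 156) (nat_lit 228) (nat_lit 0) (XT.nd (nat_lit 78) (nat_lit 228) (nat_lit 0) (XT.lf (nat_lit 0) (nat_lit 7252429939) (nat_lit 228) (nat_lit 3563539442) (nat_lit 304) (nat_lit 1752847745) (nat_lit 144) (nat_lit 5) (nat_lit 147) (nat_lit 5) (nat_lit 148) (nat_lit 5) (nat_lit 469) (nat_lit 388) (nat_lit 343)) (XT.lf (nat_lit 0) (nat_lit 2746630008)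 (nat_lit 228) (nat_lit 8630119585) (nat_lit 76) (nat_lit 1402717580) (nat_lit 141) (nat_lit 5) (nat_lit 144) (nat_lit 5) (nat_lit 142) (nat_lit 5) (nat_lit 470) (nat_lit 388) (nat_lit 342))) (XT.nd (nat_lit 78) (nat_lit 0) (nat_lit 0) (XT.lf (nat_lit 0) (nat_lit 879120083) (nat_lit 228) (nat_lit 6508092163) (nat_lit 304) (nat_lit 5607464262) (nat_lit 138) (nat_lit 5) (nat_lit 141) (nat_lit 5) (nat_lit 142) (nat_lit 5) (nat_lit 471) (nat_lit 388) (nat_lit 341)) (XT.lf (nat_lit 0) (nat_lit 10753432802) (nat_lit 228) (nat_lit 1444842269) (nat_lit 304) (nat_lit 1017130084) (nat_lit 138) (nat_lit 5) (nat_lit 141) (nat_lit 5) (nat_lit 142) (nat_lit 5) (nat_lit 472) (nat_lit 388) (nat_lit 340))))))))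
noncomputable def xc68 : XT := (XT.nd (nat_lit 2418) (nat_lit 2432) (nat_lit 0) (XT.nd (nat_lit 1170) (nat_lit 1672) (nat_lit 0) (XT.nd (nat_lit 546) (nat_lit 1140) (nat_lit 0) (XT.nd (nat_lit 234) (nat_lit 456) (nat_lit 0) (XT.nd (nat_lit 78) (nat_lit 380) (nat_lit 0) (XT.lf (nat_lit 0) (nat_lit 3692685818) (nat_lit 228) (nat_lit 5981632945) (nat_lit 76) (nat_lit 3765742076) (nat_lit 135) (nat_lit 5) (nat_lit 138) (nat_lit 5) (nat_lit 136) (nat_lit 5) (nat_lit 473) (nat_lit 388) (nat_lit 339)) (XT.nd (nat_lit 78) (nat_lit 152) (nat_lit 0) (XT.lf (nat_lit 0) (nat_lit 4014230547) (nat_lit 228) (nat_lit 4532628063) (nat_lit 304) (nat_lit 5123591141) (nat_lit 132) (nat_lit 5) (nat_lit 135) (nat_lit 5) (nat_lit 136) (nat_lit 5) (nat_lit 474) (nat_lit 388) (nat_lit 338)) (XT.lf (nat_lit 0) (nat_lit 431166208) (nat_lit 152) (nat_lit 13133762278) (nat_lit 228) (nat_lit 342274511) (nat_lit 130) (nat_lit 5) (nat_lit 132)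 (nat_lit 5) (nat_lit 133) (nat_lit 4) (nat_lit 475) (nat_lit 388) (nat_lit 337)))) (XT.nd (nat_lit 156) (nat_lit 228) (nat_lit 0) (XT.nd (nat_lit 78) (nat_lit 152) (nat_lit 0) (XT.lf (nat_lit 0) (nat_lit 4582336366) (nat_lit 228) (nat_lit 3315007346) (nat_lit 76) (nat_lit 6249716151) (nat_lit 129) (nat_lit 5) (nat_lit 132) (nat_lit 5) (nat_lit 130) (nat_lit 5) (nat_lit 476) (nat_lit 388) (nat_lit 336)) (XT.lf (nat_lit 0) (nat_lit 7194557380) (nat_lit 152) (nat_lit 2469905989) (nat_lit 228) (nat_lit 4729048440) (nat_lit 127) (nat_lit 5) (nat_lit 129) (nat_lit 5) (nat_lit 130) (nat_lit 5) (nat_lit 477) (nat_lit 388) (nat_lit 335))) (XT.nd (nat_lit 78) (nat_lit 0) (nat_lit 0) (XT.lf (nat_lit 0) (nat_lit 291293454) (nat_lit 228) (nat_lit 11265740817) (nat_lit 76) (nat_lit 3088915923) (nat_lit 124) (nat_lit 5) (nat_lit 127) (nat_lit 5) (nat_lit 125) (nat_lit 5) (nat_lit 478) (nat_lit 388) (nat_lit 334)) (XT.lf (nat_lit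 0) (nat_lit 5412935892) (nat_lit 228) (nat_lit 645129595) (nat_lit 76) (nat_lit 8845120081) (nat_lit 124) (nat_lit 5) (nat_lit 127) (nat_lit 5) (nat_lit 125) (nat_lit 5) (nat_lit 479) (nat_lit 388) (nat_lit 333))))) (XT.nd (nat_lit 312) (nat_lit 608) (nat_lit 0) (XT.nd (nat_lit 156) (nat_lit 152) (nat_lit 0) (XT.nd (nat_lit 78) (nat_lit 228) (nat_lit 0) (XT.lf (nat_lit 0) (nat_lit 10406219289) (nat_lit 152) (nat_lit 331427497) (nat_lit 228) (nat_lit 4429009312) (nat_lit 122) (nat_lit 5) (nat_lit 124) (nat_lit 5) (nat_lit 125) (nat_lit 5) (nat_lit 480) (nat_lit 388) (nat_lit 332)) (XT.lf (nat_lit 0) (nat_lit 840149724) (nat_lit 228) (nat_lit 9100610235) (nat_lit 76) (nat_lit 5494903863) (nat_lit 119) (nat_lit 5) (nat_lit 122) (nat_lit 5) (nat_lit 120) (nat_lit 5) (nat_lit 481) (nat_lit 388) (nat_lit 331))) (XT.nd (nat_lit 78) (nat_lit 0) (nat_lit 0) (XT.lf (nat_lit 0) (nat_lit 2050828207) (nat_lit 152) (nat_lit 4148796966)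 (nat_lit 228) (nat_lit 9511163860) (nat_lit 117) (nat_lit 5) (nat_lit 119) (nat_lit 5) (nat_lit 120) (nat_lit 5) (nat_lit 482) (nat_lit 388) (nat_lit 330)) (XT.lf (nat_lit 0) (nat_lit 11780081077) (nat_lit 228) (nat_lit 2377903275) (nat_lit 76) (nat_lit 1834378356) (nat_lit 117) (nat_lit 5) (nat_lit 120) (nat_lit 5) (nat_lit 118) (nat_lit 4) (nat_lit 483) (nat_lit 388) (nat_lit 329)))) (XT.nd (nat_lit 156) (nat_lit 228) (nat_lit 0) (XT.nd (nat_lit 78) (nat_lit 152) (nat_lit 0) (XT.lf (nat_lit 0) (nat_lit 1303869663) (nat_lit 228) (nat_lit 6998629249) (nat_lit 76) (nat_lit 7977047807) (nat_lit 114) (nat_lit 5) (nat_lit 117) (nat_lit 5) (nat_lit 115) (nat_lit 5) (nat_lit 484) (nat_lit 388) (nat_lit 328)) (XT.lf (nat_lit 0) (nat_lit 4724967886) (nat_lit 152) (nat_lit 2197019693) (nat_lit 228) (nat_lit 9651473697) (nat_lit 112) (nat_lit 5) (nat_lit 114) (nat_lit 5) (nat_lit 115) (nat_lit 5) (nat_lit 485) (nat_lit 388)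 (nat_lit 327))) (XT.nd (nat_lit 78) (nat_lit 228) (nat_lit 0) (XT.lf (nat_lit 0) (nat_lit 12771009717) (nat_lit 228) (nat_lit 59459709) (nat_lit 76) (nat_lit 4043853553) (nat_lit 112) (nat_lit 5) (nat_lit 115) (nat_lit 5) (nat_lit 113) (nat_lit 4) (nat_lit 486) (nat_lit 388) (nat_lit 326)) (XT.lf (nat_lit 0) (nat_lit 1672982378) (nat_lit 228) (nat_lit 4984526774) (nat_lit 76) (nat_lit 10523443240) (nat_lit 109) (nat_lit 5) (nat_lit 112) (nat_lit 5) (nat_lit 110) (nat_lit 5) (nat_lit 487) (nat_lit 388) (nat_lit 325)))))) (XT.nd (nat_lit 624) (nat_lit 836) (nat_lit 0) (XT.nd (nat_lit 312) (nat_lit 380) (nat_lit 0) (XT.nd (nat_lit 156) (nat_lit 228) (nat_lit 0) (XT.nd (nat_lit 78) (nat_lit 76) (nat_lit 0) (XT.lf (nat_lit 0) (nat_lit 7340466238) (nat_lit 152) (nat_lit 223944807) (nat_lit 228) (nat_lit 9930421821) (nat_lit 107) (nat_lit 5) (nat_lit 109) (nat_lit 5) (nat_lit 110) (nat_lit 5) (nat_lit 488) (nat_lit 388)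 (nat_lit 324)) (XT.lf (nat_lit 0) (nat_lit 2215203977) (nat_lit 76) (nat_lit 11504361501) (nat_lit 152) (nat_lit 4095955259) (nat_lit 106) (nat_lit 5) (nat_lit 107) (nat_lit 5) (nat_lit 108) (nat_lit 4) (nat_lit 489) (nat_lit 388) (nat_lit 323))) (XT.nd (nat_lit 78) (nat_lit 152) (nat_lit 0) (XT.lf (nat_lit 0) (nat_lit 1935364369) (nat_lit 152) (nat_lit 3087186695) (nat_lit 76) (nat_lit 13120952020) (nat_lit 105) (nat_lit 5) (nat_lit 107) (nat_lit 5) (nat_lit 106) (nat_lit 5) (nat_lit 490) (nat_lit 388) (nat_lit 322)) (XT.lf (nat_lit 0) (nat_lit 8131773689) (nat_lit 228) (nat_lit 8626412386) (nat_lit 76) (nat_lit 1719928392) (nat_lit 103) (nat_lit 5) (nat_lit 106) (nat_lit 5) (nat_lit 104) (nat_lit 4) (nat_lit 491) (nat_lit 388) (nat_lit 321)))) (XT.nd (nat_lit 156) (nat_lit 228) (nat_lit 0) (XT.nd (nat_lit 78) (nat_lit 76) (nat_lit 0) (XT.lf (nat_lit 0) (nat_lit 4371032298) (nat_lit 76) (nat_lit 10221160084) (nat_lit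 152) (nat_lit 4228228714) (nat_lit 102) (nat_lit 5) (nat_lit 103) (nat_lit 5) (nat_lit 104) (nat_lit 4) (nat_lit 492) (nat_lit 388) (nat_lit 320)) (XT.lf (nat_lit 0) (nat_lit 2075895867) (nat_lit 152) (nat_lit 1340451106) (nat_lit 76) (nat_lit 15754764539) (nat_lit 101) (nat_lit 5) (nat_lit 103) (nat_lit 5) (nat_lit 102) (nat_lit 5) (nat_lit 493) (nat_lit 388) (nat_lit 319))) (XT.nd (nat_lit 78) (nat_lit 76) (nat_lit 0) (XT.lf (nat_lit 0) (nat_lit 8594196909) (nat_lit 228) (nat_lit 7287165671) (nat_lit 76) (nat_lit 3646403453) (nat_lit 99) (nat_lit 5) (nat_lit 102) (nat_lit 5) (nat_lit 100) (nat_lit 4) (nat_lit 494) (nat_lit 388) (nat_lit 318)) (XT.lf (nat_lit 0) (nat_lit 6370016177) (nat_lit 76) (nat_lit 9003154725) (nat_lit 152) (nat_lit 4519995941) (nat_lit 98) (nat_lit 5) (nat_lit 99) (nat_lit 5) (nat_lit 100) (nat_lit 4) (nat_lit 495) (nat_lit 388) (nat_lit 317))))) (XT.nd (nat_lit 312) (nat_lit 304) (nat_lit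 0) (XT.nd (nat_lit 156) (nat_lit 304) (nat_lit 0) (XT.nd (nat_lit 78) (nat_lit 0) (nat_lit 0) (XT.lf (nat_lit 0) (nat_lit 220253684) (nat_lit 152) (nat_lit 1857914427) (nat_lit 228) (nat_lit 18189773700) (nat_lit 95) (nat_lit 5) (nat_lit 97) (nat_lit 5) (nat_lit 98) (nat_lit 5) (nat_lit 496) (nat_lit 388) (nat_lit 316)) (XT.lf (nat_lit 0) (nat_lit 8930798074) (nat_lit 228) (nat_lit 6178033899) (nat_lit 76) (nat_lit 5539364770) (nat_lit 95) (nat_lit 5) (nat_lit 98) (nat_lit 5) (nat_lit 96) (nat_lit 4) (nat_lit 497) (nat_lit 388) (nat_lit 315))) (XT.nd (nat_lit 78) (nat_lit 228) (nat_lit 0) (XT.lf (nat_lit 0) (nat_lit 8168763307) (nat_lit 76) (nat_lit 7875000345) (nat_lit 152) (nat_lit 4994453297) (nat_lit 94) (nat_lit 5) (nat_lit 95) (nat_lit 5) (nat_lit 96) (nat_lit 4) (nat_lit 498) (nat_lit 388) (nat_lit 314)) (XT.lf (nat_lit 0) (nat_lit 1565918914) (nat_lit 152) (nat_lit 362545257) (nat_lit 228) (nat_lit 19509838824)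 (nat_lit 91) (nat_lit 5) (nat_lit 93) (nat_lit 5) (nat_lit 94) (nat_lit 5) (nat_lit 499) (nat_lit 388) (nat_lit 313)))) (XT.nd (nat_lit 156) (nat_lit 228) (nat_lit 0) (XT.nd (nat_lit 78) (nat_lit 76) (nat_lit 0) (XT.lf (nat_lit 0) (nat_lit 9118820150) (nat_lit 228) (nat_lit 5350073448) (nat_lit 76) (nat_lit 7375210786) (nat_lit 91) (nat_lit 5) (nat_lit 94) (nat_lit 5) (nat_lit 92) (nat_lit 4) (nat_lit 500) (nat_lit 388) (nat_lit 312)) (XT.lf (nat_lit 0) (nat_lit 9716135215) (nat_lit 76) (nat_lit 6864957880) (nat_lit 152) (nat_lit 5679300826) (nat_lit 90) (nat_lit 5) (nat_lit 91) (nat_lit 5) (nat_lit 92) (nat_lit 4) (nat_lit 501) (nat_lit 388) (nat_lit 311))) (XT.nd (nat_lit 78) (nat_lit 0) (nat_lit 0) (XT.lf (nat_lit 0) (nat_lit 1596101275) (nat_lit 228) (nat_lit 20083501643) (nat_lit 76) (nat_lit 1007649435) (nat_lit 87) (nat_lit 5) (nat_lit 90) (nat_lit 5) (nat_lit 88) (nat_lit 4) (nat_lit 502) (nat_lit 388) (nat_lit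 310)) (XT.lf (nat_lit 0) (nat_lit 9130872823) (nat_lit 228) (nat_lit 4863145000) (nat_lit 76) (nat_lit 9126554392) (nat_lit 87) (nat_lit 5) (nat_lit 90) (nat_lit 5) (nat_lit 88) (nat_lit 4) (nat_lit 503) (nat_lit 388) (nat_lit 309))))))) (XT.nd (nat_lit 1170) (nat_lit 1140) (nat_lit 0) (XT.nd (nat_lit 546) (nat_lit 608) (nat_lit 0) (XT.nd (nat_lit 234) (nat_lit 380) (nat_lit 0) (XT.nd (nat_lit 78) (nat_lit 228) (nat_lit 0) (XT.lf (nat_lit 0) (nat_lit 10951883238) (nat_lit 76) (nat_lit 6005623419) (nat_lit 152) (nat_lit 6607410701) (nat_lit 86) (nat_lit 5) (nat_lit 87) (nat_lit 5) (nat_lit 88) (nat_lit 4) (nat_lit 504) (nat_lit 388) (nat_lit 308)) (XT.nd (nat_lit 78) (nat_lit 0) (nat_lit 0) (XT.lf (nat_lit 0) (nat_lit 1040706201) (nat_lit 228) (nat_lit 20744421157) (nat_lit 76) (nat_lit 2235264361) (nat_lit 83) (nat_lit 5) (nat_lit 86) (nat_lit 5) (nat_lit 84) (nat_lit 4) (nat_lit 505) (nat_lit 388) (nat_lit 307))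 (XT.lf (nat_lit 0) (nat_lit 8934221057) (nat_lit 228) (nat_lit 4787426524) (nat_lit 76) (nat_lit 10761457665) (nat_lit 83) (nat_lit 5) (nat_lit 86) (nat_lit 5) (nat_lit 84) (nat_lit 4) (nat_lit 506) (nat_lit 388) (nat_lit 306)))) (XT.nd (nat_lit 156) (nat_lit 76) (nat_lit 0) (XT.nd (nat_lit 78) (nat_lit 228) (nat_lit 0) (XT.lf (nat_lit 0) (nat_lit 11805069552) (nat_lit 76) (nat_lit 5334762238) (nat_lit 152) (nat_lit 7817609907) (nat_lit 82) (nat_lit 5) (nat_lit 83) (nat_lit 5) (nat_lit 84) (nat_lit 4) (nat_lit 507) (nat_lit 388) (nat_lit 305)) (XT.lf (nat_lit 0) (nat_lit 219738634) (nat_lit 228) (nat_lit 21934311725) (nat_lit 76) (nat_lit 3289606794) (nat_lit 79) (nat_lit 5) (nat_lit 82) (nat_lit 5) (nat_lit 80) (nat_lit 4) (nat_lit 508) (nat_lit 388) (nat_lit 304))) (XT.nd (nat_lit 78) (nat_lit 76) (nat_lit 0) (XT.lf (nat_lit 0) (nat_lit 8489952341) (nat_lit 228) (nat_lit 5205164840) (nat_lit 76) (nat_lit 12242553912)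 (nat_lit 79) (nat_lit 5) (nat_lit 82) (nat_lit 5) (nat_lit 80) (nat_lit 4) (nat_lit 509) (nat_lit 388) (nat_lit 303)) (XT.lf (nat_lit 0) (nat_lit 12192237976) (nat_lit 76) (nat_lit 4896266108) (nat_lit 152) (nat_lit 9355594624) (nat_lit 78) (nat_lit 5) (nat_lit 79) (nat_lit 5) (nat_lit 80) (nat_lit 4) (nat_lit 510) (nat_lit 388) (nat_lit 302))))) (XT.nd (nat_lit 312) (nat_lit 304) (nat_lit 0) (XT.nd (nat_lit 156) (nat_lit 152) (nat_lit 0) (XT.nd (nat_lit 78) (nat_lit 76) (nat_lit 0) (XT.lf (nat_lit 0) (nat_lit 3204480802) (nat_lit 76) (nat_lit 22827567715) (nat_lit 76) (nat_lit 931059750) (nat_lit 77) (nat_lit 4) (nat_lit 78) (nat_lit 5) (nat_lit 78) (nat_lit 4) (nat_lit 511) (nat_lit 388) (nat_lit 301)) (XT.lf (nat_lit 0) (nat_lit 7752003851) (nat_lit 152) (nat_lit 6212704672) (nat_lit 76) (nat_lit 13526037462) (nat_lit 76) (nat_lit 5) (nat_lit 78) (nat_lit 5) (nat_lit 77) (nat_lit 4) (nat_lit 512) (nat_lit 388)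 (nat_lit 300))) (XT.nd (nat_lit 78) (nat_lit 76) (nat_lit 0) (XT.lf (nat_lit 0) (nat_lit 12015293730) (nat_lit 76) (nat_lit 4741254997) (nat_lit 152) (nat_lit 11274996656) (nat_lit 75) (nat_lit 5) (nat_lit 76) (nat_lit 5) (nat_lit 77) (nat_lit 4) (nat_lit 513) (nat_lit 388) (nat_lit 299)) (XT.lf (nat_lit 0) (nat_lit 2258907961) (nat_lit 76) (nat_lit 23867402253) (nat_lit 76) (nat_lit 2459406317) (nat_lit 74) (nat_lit 4) (nat_lit 75) (nat_lit 5) (nat_lit 75) (nat_lit 4) (nat_lit 514) (nat_lit 388) (nat_lit 298)))) (XT.nd (nat_lit 156) (nat_lit 152) (nat_lit 0) (XT.nd (nat_lit 78) (nat_lit 76) (nat_lit 0) (XT.lf (nat_lit 0) (nat_lit 6666027734) (nat_lit 152) (nat_lit 7922840235) (nat_lit 76) (nat_lit 14560498698) (nat_lit 73) (nat_lit 5) (nat_lit 75) (nat_lit 5) (nat_lit 74) (nat_lit 4) (nat_lit 515) (nat_lit 388) (nat_lit 297)) (XT.lf (nat_lit 0) (nat_lit 11159044862) (nat_lit 76) (nat_lit 4929347523) (nat_lit 152)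 (nat_lit 13638625589) (nat_lit 72) (nat_lit 5) (nat_lit 73) (nat_lit 5) (nat_lit 74) (nat_lit 4) (nat_lit 516) (nat_lit 388) (nat_lit 296))) (XT.nd (nat_lit 78) (nat_lit 76) (nat_lit 0) (XT.lf (nat_lit 0) (nat_lit 550230682) (nat_lit 76) (nat_lit 25342922799) (nat_lit 76) (nat_lit 4425853731) (nat_lit 71) (nat_lit 4) (nat_lit 72) (nat_lit 5) (nat_lit 72) (nat_lit 4) (nat_lit 517) (nat_lit 388) (nat_lit 295)) (XT.lf (nat_lit 0) (nat_lit 5168069138) (nat_lit 152) (nat_lit 10467541522) (nat_lit 76) (nat_lit 15285578336) (nat_lit 70) (nat_lit 5) (nat_lit 72) (nat_lit 5) (nat_lit 71) (nat_lit 4) (nat_lit 518) (nat_lit 388) (nat_lit 294)))))) (XT.nd (nat_lit 624) (nat_lit 608) (nat_lit 0) (XT.nd (nat_lit 312) (nat_lit 228) (nat_lit 0) (XT.nd (nat_lit 156) (nat_lit 228) (nat_lit 0) (XT.nd (nat_lit 78) (nat_lit 0) (nat_lit 0) (XT.lf (nat_lit 0) (nat_lit 9488350615) (nat_lit 76) (nat_lit 5530128253) (nat_lit 152) (nat_lit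 16519914165) (nat_lit 69) (nat_lit 5) (nat_lit 70) (nat_lit 5) (nat_lit 71) (nat_lit 4) (nat_lit 519) (nat_lit 388) (nat_lit 293)) (XT.lf (nat_lit 0) (nat_lit 25284507675) (nat_lit 152) (nat_lit 2027148423) (nat_lit 0) (nat_lit 4858854032) (nat_lit 69) (nat_lit 5) (nat_lit 71) (nat_lit 4) (nat_lit 69) (nat_lit 4) (nat_lit 520) (nat_lit 388) (nat_lit 292))) (XT.nd (nat_lit 78) (nat_lit 76) (nat_lit 0) (XT.lf (nat_lit 0) (nat_lit 3183027529) (nat_lit 152) (nat_lit 14001115735) (nat_lit 76) (nat_lit 15630410952) (nat_lit 67) (nat_lit 5) (nat_lit 69) (nat_lit 5) (nat_lit 68) (nat_lit 4) (nat_lit 521) (nat_lit 388) (nat_lit 291)) (XT.lf (nat_lit 0) (nat_lit 6844813289) (nat_lit 76) (nat_lit 6624844339) (nat_lit 152) (nat_lit 20004598848) (nat_lit 66) (nat_lit 5) (nat_lit 67) (nat_lit 5) (nat_lit 68) (nat_lit 4) (nat_lit 522) (nat_lit 388) (nat_lit 290)))) (XT.nd (nat_lit 156) (nat_lit 76) (nat_lit 0) (XT.nd (nat_lit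 78) (nat_lit 152) (nat_lit 0) (XT.lf (nat_lit 0) (nat_lit 24216038811) (nat_lit 152) (nat_lit 5652550617) (nat_lit 0) (nat_lit 4280625933) (nat_lit 66) (nat_lit 5) (nat_lit 68) (nat_lit 4) (nat_lit 66) (nat_lit 4) (nat_lit 523) (nat_lit 388) (nat_lit 289)) (XT.lf (nat_lit 0) (nat_lit 622867063) (nat_lit 152) (nat_lit 18703873849) (nat_lit 76) (nat_lit 15511823054) (nat_lit 64) (nat_lit 5) (nat_lit 66) (nat_lit 5) (nat_lit 65) (nat_lit 4) (nat_lit 524) (nat_lit 388) (nat_lit 288))) (XT.nd (nat_lit 78) (nat_lit 0) (nat_lit 0) (XT.lf (nat_lit 0) (nat_lit 3042940100) (nat_lit 76) (nat_lit 8308369010) (nat_lit 152) (nat_lit 24192672660) (nat_lit 63) (nat_lit 5) (nat_lit 64) (nat_lit 5) (nat_lit 65) (nat_lit 4) (nat_lit 525) (nat_lit 388) (nat_lit 287)) (XT.lf (nat_lit 0) (nat_lit 22590080106) (nat_lit 152) (nat_lit 10532525397) (nat_lit 0) (nat_lit 3142302443) (nat_lit 63) (nat_lit 5) (nat_lit 65) (nat_lit 4) (nat_lit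 63) (nat_lit 4) (nat_lit 526) (nat_lit 388) (nat_lit 286))))) (XT.nd (nat_lit 312) (nat_lit 304) (nat_lit 0) (XT.nd (nat_lit 156) (nat_lit 152) (nat_lit 0) (XT.nd (nat_lit 78) (nat_lit 76) (nat_lit 0) (XT.lf (nat_lit 0) (nat_lit 12190370785) (nat_lit 76) (nat_lit 22144508688) (nat_lit 76) (nat_lit 2667516586) (nat_lit 62) (nat_lit 4) (nat_lit 63) (nat_lit 5) (nat_lit 63) (nat_lit 4) (nat_lit 527) (nat_lit 388) (nat_lit 285)) (XT.lf (nat_lit 0) (nat_lit 8577681566) (nat_lit 152) (nat_lit 2092662054) (nat_lit 76) (nat_lit 27086859527) (nat_lit 61) (nat_lit 5) (nat_lit 63) (nat_lit 5) (nat_lit 62) (nat_lit 4) (nat_lit 528) (nat_lit 388) (nat_lit 284))) (XT.nd (nat_lit 78) (nat_lit 76) (nat_lit 0) (XT.lf (nat_lit 0) (nat_lit 20298102620) (nat_lit 152) (nat_lit 16895886365) (nat_lit 0) (nat_lit 1334128789) (nat_lit 60) (nat_lit 5) (nat_lit 62) (nat_lit 4) (nat_lit 60) (nat_lit 4) (nat_lit 529) (nat_lit 388) (nat_lit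 283)) (XT.lf (nat_lit 0) (nat_lit 6757668555) (nat_lit 76) (nat_lit 25774776302) (nat_lit 76) (nat_lit 6784845820) (nat_lit 59) (nat_lit 4) (nat_lit 60) (nat_lit 5) (nat_lit 60) (nat_lit 4) (nat_lit 530) (nat_lit 388) (nat_lit 282)))) (XT.nd (nat_lit 156) (nat_lit 152) (nat_lit 0) (XT.nd (nat_lit 78) (nat_lit 76) (nat_lit 0) (XT.lf (nat_lit 0) (nat_lit 5048720221) (nat_lit 152) (nat_lit 8766229064) (nat_lit 76) (nat_lit 26309466178) (nat_lit 58) (nat_lit 5) (nat_lit 60) (nat_lit 5) (nat_lit 59) (nat_lit 4) (nat_lit 531) (nat_lit 388) (nat_lit 281)) (XT.lf (nat_lit 0) (nat_lit 15927702439) (nat_lit 76) (nat_lit 1297568588) (nat_lit 152) (nat_lit 23724737357) (nat_lit 57) (nat_lit 5) (nat_lit 58) (nat_lit 5) (nat_lit 59) (nat_lit 4) (nat_lit 532) (nat_lit 388) (nat_lit 280))) (XT.nd (nat_lit 78) (nat_lit 152) (nat_lit 0) (XT.lf (nat_lit 0) (nat_lit 29939245850) (nat_lit 152) (nat_lit 424822157) (nat_lit 0) (nat_lit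 11431137346) (nat_lit 57) (nat_lit 5) (nat_lit 59) (nat_lit 4) (nat_lit 57) (nat_lit 4) (nat_lit 533) (nat_lit 388) (nat_lit 279)) (XT.lf (nat_lit 0) (nat_lit 592451451) (nat_lit 152) (nat_lit 17327822492) (nat_lit 76) (nat_lit 24738454950) (nat_lit 55) (nat_lit 5) (nat_lit 57) (nat_lit 5) (nat_lit 56) (nat_lit 4) (nat_lit 534) (nat_lit 388) (nat_lit 278))))))))
noncomputable def xc69 : XT := (XT.nd (nat_lit 54600) (nat_lit 0) (nat_lit 8664) (XT.nd (nat_lit 1170) (nat_lit 228) (nat_lit 0) (XT.nd (nat_lit 546) (nat_lit 532) (nat_lit 0) (XT.nd (nat_lit 234) (nat_lit 304) (nat_lit 0) (XT.nd (nat_lit 78) (nat_lit 76) (nat_lit 0) (XT.lf (nat_lit 0) (nat_lit 8309427375) (nat_lit 76) (nat_lit 4922919718) (nat_lit 152) (nat_lit 30310599789) (nat_lit 54) (nat_lit 5) (nat_lit 55) (nat_lit 5) (nat_lit 56) (nat_lit 4) (nat_lit 535) (nat_lit 388) (nat_lit 277)) (XT.nd (nat_lit 78) (nat_lit 76) (nat_lit 0) (XT.lf (nat_lit 0)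 (nat_lit 26481656485) (nat_lit 152) (nat_lit 9515843232) (nat_lit 0) (nat_lit 8449285264) (nat_lit 54) (nat_lit 5) (nat_lit 56) (nat_lit 4) (nat_lit 54) (nat_lit 4) (nat_lit 536) (nat_lit 388) (nat_lit 276)) (XT.lf (nat_lit 0) (nat_lit 17206694648) (nat_lit 76) (nat_lit 23108847781) (nat_lit 76) (nat_lit 5056582948) (nat_lit 53) (nat_lit 4) (nat_lit 54) (nat_lit 5) (nat_lit 54) (nat_lit 4) (nat_lit 537) (nat_lit 388) (nat_lit 275)))) (XT.nd (nat_lit 156) (nat_lit 152) (nat_lit 0) (XT.nd (nat_lit 78) (nat_lit 76) (nat_lit 0) (XT.lf (nat_lit 0) (nat_lit 8148450678) (nat_lit 152) (nat_lit 1530224142) (nat_lit 76) (nat_lit 36642074965) (nat_lit 52) (nat_lit 5) (nat_lit 54) (nat_lit 5) (nat_lit 53) (nat_lit 4) (nat_lit 538) (nat_lit 388) (nat_lit 274)) (XT.lf (nat_lit 0) (nat_lit 21917401375) (nat_lit 152) (nat_lit 21016874156) (nat_lit 0) (nat_lit 4353973553) (nat_lit 51) (nat_lit 5) (nat_lit 53) (nat_lit 4) (nat_lit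 51) (nat_lit 4) (nat_lit 539) (nat_lit 388) (nat_lit 273))) (XT.nd (nat_lit 78) (nat_lit 76) (nat_lit 0) (XT.lf (nat_lit 0) (nat_lit 6635419002) (nat_lit 76) (nat_lit 29612993848) (nat_lit 76) (nat_lit 12031890810) (nat_lit 50) (nat_lit 4) (nat_lit 51) (nat_lit 5) (nat_lit 51) (nat_lit 4) (nat_lit 540) (nat_lit 388) (nat_lit 272)) (XT.lf (nat_lit 0) (nat_lit 1862036111) (nat_lit 152) (nat_lit 13818330136) (nat_lit 76) (nat_lit 33615617891) (nat_lit 49) (nat_lit 5) (nat_lit 51) (nat_lit 5) (nat_lit 50) (nat_lit 4) (nat_lit 541) (nat_lit 388) (nat_lit 271))))) (XT.nd (nat_lit 312) (nat_lit 228) (nat_lit 0) (XT.nd (nat_lit 156) (nat_lit 228) (nat_lit 0) (XT.nd (nat_lit 78) (nat_lit 0) (nat_lit 0) (XT.lf (nat_lit 0) (nat_lit 14965268076) (nat_lit 76) (nat_lit 1084087640) (nat_lit 152) (nat_lit 34285653423) (nat_lit 48) (nat_lit 5) (nat_lit 49) (nat_lit 5) (nat_lit 50) (nat_lit 4) (nat_lit 542) (nat_lit 388) (nat_lit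 270)) (XT.lf (nat_lit 0) (nat_lit 30911879089) (nat_lit 152) (nat_lit 6691531434) (nat_lit 0) (nat_lit 13794306900) (nat_lit 48) (nat_lit 5) (nat_lit 50) (nat_lit 4) (nat_lit 48) (nat_lit 4) (nat_lit 543) (nat_lit 388) (nat_lit 269))) (XT.nd (nat_lit 78) (nat_lit 152) (nat_lit 0) (XT.lf (nat_lit 0) (nat_lit 23240603806) (nat_lit 76) (nat_lit 23189119420) (nat_lit 76) (nat_lit 6056300434) (nat_lit 47) (nat_lit 4) (nat_lit 48) (nat_lit 5) (nat_lit 48) (nat_lit 4) (nat_lit 544) (nat_lit 388) (nat_lit 268)) (XT.lf (nat_lit 0) (nat_lit 477720159) (nat_lit 76) (nat_lit 8204714254) (nat_lit 152) (nat_lit 44920560728) (nat_lit 45) (nat_lit 5) (nat_lit 46) (nat_lit 5) (nat_lit 47) (nat_lit 4) (nat_lit 545) (nat_lit 388) (nat_lit 267)))) (XT.nd (nat_lit 156) (nat_lit 152) (nat_lit 0) (XT.nd (nat_lit 78) (nat_lit 76) (nat_lit 0) (XT.lf (nat_lit 0) (nat_lit 24084677322) (nat_lit 152) (nat_lit 23234159512) (nat_lit 0) (nat_lit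 7422547934) (nat_lit 45) (nat_lit 5) (nat_lit 47) (nat_lit 4) (nat_lit 45) (nat_lit 4) (nat_lit 546) (nat_lit 388) (nat_lit 266)) (XT.lf (nat_lit 0) (nat_lit 7572432552) (nat_lit 76) (nat_lit 32506633595) (nat_lit 76) (nat_lit 15830957625) (nat_lit 44) (nat_lit 4) (nat_lit 45) (nat_lit 5) (nat_lit 45) (nat_lit 4) (nat_lit 547) (nat_lit 388) (nat_lit 265))) (XT.nd (nat_lit 78) (nat_lit 152) (nat_lit 0) (XT.lf (nat_lit 0) (nat_lit 39732180865) (nat_lit 76) (nat_lit 17032020835) (nat_lit 76) (nat_lit 343192844) (nat_lit 44) (nat_lit 4) (nat_lit 45) (nat_lit 5) (nat_lit 45) (nat_lit 4) (nat_lit 548) (nat_lit 388) (nat_lit 264)) (XT.lf (nat_lit 0) (nat_lit 14604574425) (nat_lit 76) (nat_lit 817184868) (nat_lit 152) (nat_lit 42910911447) (nat_lit 42) (nat_lit 5) (nat_lit 43) (nat_lit 5) (nat_lit 44) (nat_lit 4) (nat_lit 549) (nat_lit 388) (nat_lit 263)))))) (XT.nd (nat_lit 52806) (nat_lit 0) (nat_lit 18392) (XT.nd (nat_lit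 52494) (nat_lit 0) (nat_lit 23028) (XT.nd (nat_lit 156) (nat_lit 152) (nat_lit 0) (XT.nd (nat_lit 78) (nat_lit 76) (nat_lit 0) (XT.lf (nat_lit 0) (nat_lit 31959415437) (nat_lit 152) (nat_lit 11893751481) (nat_lit 0) (nat_lit 15732236812) (nat_lit 42) (nat_lit 5) (nat_lit 44) (nat_lit 4) (nat_lit 42) (nat_lit 4) (nat_lit 550) (nat_lit 388) (nat_lit 262)) (XT.lf (nat_lit 0) (nat_lit 21257272534) (nat_lit 76) (nat_lit 27925806949) (nat_lit 76) (nat_lit 11686942924) (nat_lit 41) (nat_lit 4) (nat_lit 42) (nat_lit 5) (nat_lit 42) (nat_lit 4) (nat_lit 551) (nat_lit 388) (nat_lit 261))) (XT.nd (nat_lit 78) (nat_lit 76) (nat_lit 0) (XT.lf (nat_lit 0) (nat_lit 4736718011) (nat_lit 152) (nat_lit 6634671510) (nat_lit 76) (nat_lit 50817463588) (nat_lit 40) (nat_lit 5) (nat_lit 42) (nat_lit 5) (nat_lit 41) (nat_lit 4) (nat_lit 552) (nat_lit 388) (nat_lit 260)) (XT.lf (nat_lit 0) (nat_lit 21720879704) (nat_lit 152) (nat_lit 35880533196)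 (nat_lit 0) (nat_lit 5933283894) (nat_lit 39) (nat_lit 5) (nat_lit 41) (nat_lit 4) (nat_lit 39) (nat_lit 4) (nat_lit 553) (nat_lit 388) (nat_lit 259)))) (XT.nd (nat_lit 156) (nat_lit 1216) (nat_lit 0) (XT.nd (nat_lit 78) (nat_lit 1140) (nat_lit 0) (XT.lf (nat_lit 0) (nat_lit 1862689826) (nat_lit 988) (nat_lit 807304032) (nat_lit 988) (nat_lit 807304032) (nat_lit 373) (nat_lit 4) (nat_lit 386) (nat_lit 5) (nat_lit 386) (nat_lit 4) (nat_lit 422) (nat_lit 389) (nat_lit 389)) (XT.lf (nat_lit 0) (nat_lit 1830627986) (nat_lit 1064) (nat_lit 446923) (nat_lit 1140) (nat_lit 5171857359) (nat_lit 358) (nat_lit 5) (nat_lit 372) (nat_lit 5) (nat_lit 373) (nat_lit 4) (nat_lit 423) (nat_lit 389) (nat_lit 388))) (XT.nd (nat_lit 78) (nat_lit 1216) (nat_lit 0) (XT.lf (nat_lit 0) (nat_lit 5292302337) (nat_lit 1140) (nat_lit 78975040) (nat_lit 0) (nat_lit 1682629621) (nat_lit 358) (nat_lit 5) (nat_lit 373) (nat_lit 4) (nat_lit 358)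 (nat_lit 4) (nat_lit 424) (nat_lit 389) (nat_lit 387)) (XT.lf (nat_lit 0) (nat_lit 1664704094) (nat_lit 1216) (nat_lit 1956696120) (nat_lit 76) (nat_lit 3486074483) (nat_lit 342) (nat_lit 5) (nat_lit 358) (nat_lit 5) (nat_lit 343) (nat_lit 4) (nat_lit 425) (nat_lit 389) (nat_lit 386))))) (XT.nd (nat_lit 312) (nat_lit 1824) (nat_lit 0) (XT.nd (nat_lit 156) (nat_lit 684) (nat_lit 0) (XT.nd (nat_lit 78) (nat_lit 912) (nat_lit 0) (XT.lf (nat_lit 0) (nat_lit 3322384623) (nat_lit 1216) (nat_lit 1768511964) (nat_lit 1292) (nat_lit 2073260527) (nat_lit 326) (nat_lit 5) (nat_lit 342) (nat_lit 5) (nat_lit 343) (nat_lit 4) (nat_lit 426) (nat_lit 389) (nat_lit 385)) (XT.lf (nat_lit 0) (nat_lit 1306877330) (nat_lit 912) (nat_lit 5734813108) (nat_lit 76) (nat_lit 182347940) (nat_lit 314) (nat_lit 5) (nat_lit 326) (nat_lit 5) (nat_lit 315) (nat_lit 4) (nat_lit 427) (nat_lit 389) (nat_lit 384))) (XT.nd (nat_lit 78) (nat_lit 684)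 (nat_lit 0) (XT.lf (nat_lit 0) (nat_lit 4706049250) (nat_lit 912) (nat_lit 368353910) (nat_lit 76) (nat_lit 2211923545) (nat_lit 314) (nat_lit 5) (nat_lit 326) (nat_lit 5) (nat_lit 315) (nat_lit 4) (nat_lit 428) (nat_lit 389) (nat_lit 383)) (XT.lf (nat_lit 0) (nat_lit 794579941) (nat_lit 684) (nat_lit 2201116007) (nat_lit 76) (nat_lit 4355908276) (nat_lit 305) (nat_lit 5) (nat_lit 314) (nat_lit 5) (nat_lit 306) (nat_lit 5) (nat_lit 429) (nat_lit 389) (nat_lit 382)))) (XT.nd (nat_lit 156) (nat_lit 608) (nat_lit 0) (XT.nd (nat_lit 78) (nat_lit 608) (nat_lit 0) (XT.lf (nat_lit 0) (nat_lit 3361605761) (nat_lit 608) (nat_lit 799601770) (nat_lit 684) (nat_lit 3258599548) (nat_lit 297) (nat_lit 5) (nat_lit 305) (nat_lit 5) (nat_lit 306) (nat_lit 5) (nat_lit 430) (nat_lit 389) (nat_lit 381)) (XT.lf (nat_lit 0) (nat_lit 95140462) (nat_lit 608) (nat_lit 5932916773) (nat_lit 76) (nat_lit 1463191354) (nat_lit 289) (nat_lit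 5) (nat_lit 297) (nat_lit 5) (nat_lit 290) (nat_lit 5) (nat_lit 431) (nat_lit 389) (nat_lit 380))) (XT.nd (nat_lit 78) (nat_lit 608) (nat_lit 0) (XT.lf (nat_lit 0) (nat_lit 3442077126) (nat_lit 608) (nat_lit 282240515) (nat_lit 76) (nat_lit 3840810002) (nat_lit 289) (nat_lit 5) (nat_lit 297) (nat_lit 5) (nat_lit 290) (nat_lit 5) (nat_lit 432) (nat_lit 389) (nat_lit 379)) (XT.lf (nat_lit 0) (nat_lit 5544597005) (nat_lit 608) (nat_lit 1309556545) (nat_lit 684) (nat_lit 788132006) (nat_lit 281) (nat_lit 5) (nat_lit 289) (nat_lit 5) (nat_lit 290) (nat_lit 5) (nat_lit 433) (nat_lit 389) (nat_lit 378))))))) (XT.nd (nat_lit 1248) (nat_lit 3648) (nat_lit 0) (XT.nd (nat_lit 624) (nat_lit 2888) (nat_lit 0) (XT.nd (nat_lit 312) (nat_lit 1520) (nat_lit 0) (XT.nd (nat_lit 156) (nat_lit 532) (nat_lit 0) (XT.nd (nat_lit 78) (nat_lit 532) (nat_lit 0) (XT.lf (nat_lit 0) (nat_lit 2558365007) (nat_lit 608) (nat_lit 3958019677) (nat_lit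 76) (nat_lit 1205719009) (nat_lit 273) (nat_lit 5) (nat_lit 281) (nat_lit 5) (nat_lit 274) (nat_lit 5) (nat_lit 434) (nat_lit 389) (nat_lit 377)) (XT.lf (nat_lit 0) (nat_lit 1954434998) (nat_lit 532) (nat_lit 4001747193) (nat_lit 608) (nat_lit 1848901168) (nat_lit 266) (nat_lit 5) (nat_lit 273) (nat_lit 5) (nat_lit 274) (nat_lit 5) (nat_lit 435) (nat_lit 389) (nat_lit 376))) (XT.nd (nat_lit 78) (nat_lit 0) (nat_lit 0) (XT.lf (nat_lit 0) (nat_lit 118468379) (nat_lit 456) (nat_lit 1372174517) (nat_lit 532) (nat_lit 6400787695) (nat_lit 259) (nat_lit 5) (nat_lit 265) (nat_lit 5) (nat_lit 266) (nat_lit 5) (nat_lit 436) (nat_lit 389) (nat_lit 375)) (XT.lf (nat_lit 0) (nat_lit 4881344306) (nat_lit 532) (nat_lit 1729507162) (nat_lit 76) (nat_lit 1369327347) (nat_lit 259) (nat_lit 5) (nat_lit 266) (nat_lit 5) (nat_lit 260) (nat_lit 5) (nat_lit 437) (nat_lit 389) (nat_lit 374)))) (XT.nd (nat_lit 156) (nat_lit 532) (nat_lit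 0) (XT.nd (nat_lit 78) (nat_lit 456) (nat_lit 0) (XT.lf (nat_lit 0) (nat_lit 270622206) (nat_lit 532) (nat_lit 3608878252) (nat_lit 76) (nat_lit 4192775146) (nat_lit 252) (nat_lit 5) (nat_lit 259) (nat_lit 5) (nat_lit 253) (nat_lit 5) (nat_lit 438) (nat_lit 389) (nat_lit 373)) (XT.lf (nat_lit 0) (nat_lit 2628058502) (nat_lit 456) (nat_lit 1012408220) (nat_lit 532) (nat_lit 4526903900) (nat_lit 246) (nat_lit 5) (nat_lit 252) (nat_lit 5) (nat_lit 253) (nat_lit 5) (nat_lit 439) (nat_lit 389) (nat_lit 372))) (XT.nd (nat_lit 78) (nat_lit 76) (nat_lit 0) (XT.lf (nat_lit 0) (nat_lit 753061355) (nat_lit 456) (nat_lit 6340900355) (nat_lit 532) (nat_lit 1171883428) (nat_lit 240) (nat_lit 5) (nat_lit 246) (nat_lit 5) (nat_lit 247) (nat_lit 5) (nat_lit 440) (nat_lit 389) (nat_lit 371)) (XT.lf (nat_lit 0) (nat_lit 2226150719) (nat_lit 532) (nat_lit 1155407116) (nat_lit 76) (nat_lit 4985452734) (nat_lit 239) (nat_lit 5) (nat_lit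 246) (nat_lit 5) (nat_lit 240) (nat_lit 5) (nat_lit 441) (nat_lit 389) (nat_lit 370))))) (XT.nd (nat_lit 312) (nat_lit 1596) (nat_lit 0) (XT.nd (nat_lit 156) (nat_lit 380) (nat_lit 0) (XT.nd (nat_lit 78) (nat_lit 532) (nat_lit 0) (XT.lf (nat_lit 0) (nat_lit 5384175039) (nat_lit 380) (nat_lit 292885299) (nat_lit 456) (nat_lit 2794570917) (nat_lit 234) (nat_lit 5) (nat_lit 239) (nat_lit 5) (nat_lit 240) (nat_lit 5) (nat_lit 442) (nat_lit 389) (nat_lit 369)) (XT.lf (nat_lit 0) (nat_lit 636332787) (nat_lit 532) (nat_lit 5083697864) (nat_lit 76) (nat_lit 2859266174) (nat_lit 227) (nat_lit 5) (nat_lit 234) (nat_lit 5) (nat_lit 228) (nat_lit 5) (nat_lit 443) (nat_lit 389) (nat_lit 368))) (XT.nd (nat_lit 78) (nat_lit 0) (nat_lit 0) (XT.lf (nat_lit 0) (nat_lit 1545947783) (nat_lit 380) (nat_lit 2541560302) (nat_lit 456) (nat_lit 4602651595) (nat_lit 222) (nat_lit 5) (nat_lit 227) (nat_lit 5) (nat_lit 228) (nat_lit 5) (nat_lit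 444) (nat_lit 389) (nat_lit 367)) (XT.lf (nat_lit 0) (nat_lit 7626318887) (nat_lit 456) (nat_lit 436136324) (nat_lit 76) (nat_lit 742372889) (nat_lit 222) (nat_lit 5) (nat_lit 228) (nat_lit 5) (nat_lit 223) (nat_lit 5) (nat_lit 445) (nat_lit 389) (nat_lit 366)))) (XT.nd (nat_lit 156) (nat_lit 760) (nat_lit 0) (XT.nd (nat_lit 78) (nat_lit 380) (nat_lit 0) (XT.lf (nat_lit 0) (nat_lit 2317457464) (nat_lit 456) (nat_lit 2472320254) (nat_lit 76) (nat_lit 4132036419) (nat_lit 216) (nat_lit 5) (nat_lit 222) (nat_lit 5) (nat_lit 217) (nat_lit 5) (nat_lit 446) (nat_lit 389) (nat_lit 365)) (XT.lf (nat_lit 0) (nat_lit 4482334550) (nat_lit 380) (nat_lit 1387651408) (nat_lit 456) (nat_lit 3172715112) (nat_lit 211) (nat_lit 5) (nat_lit 216) (nat_lit 5) (nat_lit 217) (nat_lit 5) (nat_lit 447) (nat_lit 389) (nat_lit 364))) (XT.nd (nat_lit 78) (nat_lit 304) (nat_lit 0) (XT.lf (nat_lit 0) (nat_lit 352622373) (nat_lit 456) (nat_lit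 6716317027) (nat_lit 76) (nat_lit 2098238926) (nat_lit 205) (nat_lit 5) (nat_lit 211) (nat_lit 5) (nat_lit 206) (nat_lit 5) (nat_lit 448) (nat_lit 389) (nat_lit 363)) (XT.lf (nat_lit 0) (nat_lit 329594175) (nat_lit 304) (nat_lit 3582853800) (nat_lit 380) (nat_lit 5382226889) (nat_lit 201) (nat_lit 5) (nat_lit 205) (nat_lit 5) (nat_lit 206) (nat_lit 5) (nat_lit 449) (nat_lit 389) (nat_lit 362)))))) (XT.nd (nat_lit 624) (nat_lit 1672) (nat_lit 0) (XT.nd (nat_lit 312) (nat_lit 988) (nat_lit 0) (XT.nd (nat_lit 156) (nat_lit 608) (nat_lit 0) (XT.nd (nat_lit 78) (nat_lit 380) (nat_lit 0) (XT.lf (nat_lit 0) (nat_lit 7577492517) (nat_lit 380) (nat_lit 1804053337) (nat_lit 76) (nat_lit 44499901) (nat_lit 201) (nat_lit 5) (nat_lit 206) (nat_lit 5) (nat_lit 202) (nat_lit 5) (nat_lit 450) (nat_lit 389) (nat_lit 361)) (XT.lf (nat_lit 0) (nat_lit 1777043196) (nat_lit 380) (nat_lit 4034534179) (nat_lit 76) (nat_lit 3748640014)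 (nat_lit 196) (nat_lit 5) (nat_lit 201) (nat_lit 5) (nat_lit 197) (nat_lit 5) (nat_lit 451) (nat_lit 389) (nat_lit 360))) (XT.nd (nat_lit 78) (nat_lit 304) (nat_lit 0) (XT.lf (nat_lit 0) (nat_lit 3360273146) (nat_lit 304) (nat_lit 2096935180) (nat_lit 380) (nat_lit 4241170121) (nat_lit 192) (nat_lit 5) (nat_lit 196) (nat_lit 5) (nat_lit 197) (nat_lit 5) (nat_lit 452) (nat_lit 389) (nat_lit 359)) (XT.lf (nat_lit 0) (nat_lit 1123128057) (nat_lit 304) (nat_lit 8126155863) (nat_lit 380) (nat_lit 591357193) (nat_lit 188) (nat_lit 5) (nat_lit 192) (nat_lit 5) (nat_lit 193) (nat_lit 5) (nat_lit 453) (nat_lit 389) (nat_lit 358)))) (XT.nd (nat_lit 156) (nat_lit 608) (nat_lit 0) (XT.nd (nat_lit 78) (nat_lit 304) (nat_lit 0) (XT.lf (nat_lit 0) (nat_lit 3124800164) (nat_lit 380) (nat_lit 1201236290) (nat_lit 76) (nat_lit 5659663418) (nat_lit 187) (nat_lit 5) (nat_lit 192) (nat_lit 5) (nat_lit 188) (nat_lit 5) (nat_lit 454)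 (nat_lit 389) (nat_lit 357)) (XT.lf (nat_lit 0) (nat_lit 6563468758) (nat_lit 304) (nat_lit 375393750) (nat_lit 380) (nat_lit 3196124833) (nat_lit 183) (nat_lit 5) (nat_lit 187) (nat_lit 5) (nat_lit 188) (nat_lit 5) (nat_lit 455) (nat_lit 389) (nat_lit 356))) (XT.nd (nat_lit 78) (nat_lit 228) (nat_lit 0) (XT.lf (nat_lit 0) (nat_lit 591926377) (nat_lit 380) (nat_lit 6049169880) (nat_lit 76) (nat_lit 3646753289) (nat_lit 178) (nat_lit 5) (nat_lit 183) (nat_lit 5) (nat_lit 179) (nat_lit 5) (nat_lit 456) (nat_lit 389) (nat_lit 355)) (XT.lf (nat_lit 0) (nat_lit 1811625499) (nat_lit 228) (nat_lit 2611423291) (nat_lit 304) (nat_lit 6021491050) (nat_lit 175) (nat_lit 5) (nat_lit 178) (nat_lit 5) (nat_lit 179) (nat_lit 5) (nat_lit 457) (nat_lit 389) (nat_lit 354))))) (XT.nd (nat_lit 312) (nat_lit 836) (nat_lit 0) (XT.nd (nat_lit 156) (nat_lit 456) (nat_lit 0) (XT.nd (nat_lit 78) (nat_lit 380) (nat_lit 0) (XT.lf (nat_lit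 0) (nat_lit 8382263413) (nat_lit 304) (nat_lit 687999920) (nat_lit 76) (nat_lit 1535274330) (nat_lit 175) (nat_lit 5) (nat_lit 179) (nat_lit 5) (nat_lit 176) (nat_lit 5) (nat_lit 458) (nat_lit 389) (nat_lit 353)) (XT.lf (nat_lit 0) (nat_lit 1692938526) (nat_lit 380) (nat_lit 3268563697) (nat_lit 76) (nat_lit 5808267473) (nat_lit 170) (nat_lit 5) (nat_lit 175) (nat_lit 5) (nat_lit 171) (nat_lit 5) (nat_lit 459) (nat_lit 389) (nat_lit 352))) (XT.nd (nat_lit 78) (nat_lit 228) (nat_lit 0) (XT.lf (nat_lit 0) (nat_lit 4988661515) (nat_lit 228) (nat_lit 687037168) (nat_lit 304) (nat_lit 5262758673) (nat_lit 167) (nat_lit 5) (nat_lit 170) (nat_lit 5) (nat_lit 171) (nat_lit 5) (nat_lit 460) (nat_lit 389) (nat_lit 351)) (XT.lf (nat_lit 0) (nat_lit 2360841964) (nat_lit 228) (nat_lit 7448116473) (nat_lit 304) (nat_lit 1302318107) (nat_lit 164) (nat_lit 5) (nat_lit 167) (nat_lit 5) (nat_lit 168) (nat_lit 5) (nat_lit 461) (nat_lit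 389) (nat_lit 350)))) (XT.nd (nat_lit 156) (nat_lit 532) (nat_lit 0) (XT.nd (nat_lit 78) (nat_lit 228) (nat_lit 0) (XT.lf (nat_lit 0) (nat_lit 2729735113) (nat_lit 304) (nat_lit 377616539) (nat_lit 76) (nat_lit 8180919544) (nat_lit 163) (nat_lit 5) (nat_lit 167) (nat_lit 5) (nat_lit 164) (nat_lit 5) (nat_lit 462) (nat_lit 389) (nat_lit 349)) (XT.lf (nat_lit 0) (nat_lit 6891293491) (nat_lit 304) (nat_lit 3183715218) (nat_lit 76) (nat_lit 1394139868) (nat_lit 160) (nat_lit 5) (nat_lit 164) (nat_lit 5) (nat_lit 161) (nat_lit 5) (nat_lit 463) (nat_lit 389) (nat_lit 348))) (XT.nd (nat_lit 78) (nat_lit 304) (nat_lit 0) (XT.lf (nat_lit 0) (nat_lit 5541737140) (nat_lit 228) (nat_lit 5665560859) (nat_lit 304) (nat_lit 447267543) (nat_lit 157) (nat_lit 5) (nat_lit 160) (nat_lit 5) (nat_lit 161) (nat_lit 5) (nat_lit 464) (nat_lit 389) (nat_lit 347)) (XT.lf (nat_lit 0) (nat_lit 2668197589) (nat_lit 228) (nat_lit 1064784865)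 (nat_lit 304) (nat_lit 8111464680) (nat_lit 153) (nat_lit 5) (nat_lit 156) (nat_lit 5) (nat_lit 157) (nat_lit 5) (nat_lit 465) (nat_lit 389) (nat_lit 346))))))))
noncomputable def xc70 : XT := (XT.nd (nat_lit 2418) (nat_lit 2736) (nat_lit 0) (XT.nd (nat_lit 1170) (nat_lit 1824) (nat_lit 0) (XT.nd (nat_lit 546) (nat_lit 1216) (nat_lit 0) (XT.nd (nat_lit 234) (nat_lit 684) (nat_lit 0) (XT.nd (nat_lit 78) (nat_lit 456) (nat_lit 0) (XT.lf (nat_lit 0) (nat_lit 8069631478) (nat_lit 304) (nat_lit 337561613) (nat_lit 76) (nat_lit 3631500934) (nat_lit 153) (nat_lit 5) (nat_lit 157) (nat_lit 5) (nat_lit 154) (nat_lit 5) (nat_lit 466) (nat_lit 389) (nat_lit 345)) (XT.nd (nat_lit 78) (nat_lit 152) (nat_lit 0) (XT.lf (nat_lit 0) (nat_lit 331659052) (nat_lit 304) (nat_lit 3406878293) (nat_lit 76) (nat_lit 8498950581) (nat_lit 149) (nat_lit 5) (nat_lit 153) (nat_lit 5) (nat_lit 150) (nat_lit 5) (nat_lit 467) (nat_lit 389) (nat_lit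 344)) (XT.lf (nat_lit 0) (nat_lit 4696086439) (nat_lit 228) (nat_lit 6633401172) (nat_lit 76) (nat_lit 1111146395) (nat_lit 147) (nat_lit 5) (nat_lit 150) (nat_lit 5) (nat_lit 148) (nat_lit 5) (nat_lit 468) (nat_lit 389) (nat_lit 343)))) (XT.nd (nat_lit 156) (nat_lit 380) (nat_lit 0) (XT.nd (nat_lit 78) (nat_lit 76) (nat_lit 0) (XT.lf (nat_lit 0) (nat_lit 2638170556) (nat_lit 228) (nat_lit 6594944924) (nat_lit 304) (nat_lit 3415509935) (nat_lit 144) (nat_lit 5) (nat_lit 147) (nat_lit 5) (nat_lit 148) (nat_lit 5) (nat_lit 469) (nat_lit 389) (nat_lit 342)) (XT.lf (nat_lit 0) (nat_lit 1035406987) (nat_lit 304) (nat_lit 642561286) (nat_lit 76) (nat_lit 11184217296) (nat_lit 143) (nat_lit 5) (nat_lit 147) (nat_lit 5) (nat_lit 144) (nat_lit 5) (nat_lit 470) (nat_lit 389) (nat_lit 341))) (XT.nd (nat_lit 78) (nat_lit 228) (nat_lit 0) (XT.lf (nat_lit 0) (nat_lit 5617977647) (nat_lit 228) (nat_lit 4056352645) (nat_lit 76)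 (nat_lit 3404805416) (nat_lit 141) (nat_lit 5) (nat_lit 144) (nat_lit 5) (nat_lit 142) (nat_lit 5) (nat_lit 471) (nat_lit 389) (nat_lit 340)) (XT.lf (nat_lit 0) (nat_lit 5690785090) (nat_lit 228) (nat_lit 4671759894) (nat_lit 304) (nat_lit 2939314680) (nat_lit 138) (nat_lit 5) (nat_lit 141) (nat_lit 5) (nat_lit 142) (nat_lit 5) (nat_lit 472) (nat_lit 389) (nat_lit 339))))) (XT.nd (nat_lit 312) (nat_lit 532) (nat_lit 0) (XT.nd (nat_lit 156) (nat_lit 456) (nat_lit 0) (XT.nd (nat_lit 78) (nat_lit 0) (nat_lit 0) (XT.lf (nat_lit 0) (nat_lit 1699165251) (nat_lit 228) (nat_lit 11318316858) (nat_lit 76) (nat_lit 512853314) (nat_lit 135) (nat_lit 5) (nat_lit 138) (nat_lit 5) (nat_lit 136) (nat_lit 5) (nat_lit 473) (nat_lit 389) (nat_lit 338)) (XT.lf (nat_lit 0) (nat_lit 6488688279) (nat_lit 228) (nat_lit 1446544344) (nat_lit 76) (nat_lit 5827431611) (nat_lit 135) (nat_lit 5) (nat_lit 138) (nat_lit 5) (nat_lit 136) (nat_lit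 5) (nat_lit 474) (nat_lit 389) (nat_lit 337))) (XT.nd (nat_lit 78) (nat_lit 228) (nat_lit 0) (XT.lf (nat_lit 0) (nat_lit 8802974096) (nat_lit 228) (nat_lit 2652176527) (nat_lit 304) (nat_lit 2545815476) (nat_lit 132) (nat_lit 5) (nat_lit 135) (nat_lit 5) (nat_lit 136) (nat_lit 5) (nat_lit 475) (nat_lit 389) (nat_lit 336)) (XT.lf (nat_lit 0) (nat_lit 2318972098) (nat_lit 228) (nat_lit 9141686864) (nat_lit 76) (nat_lit 2783884498) (nat_lit 129) (nat_lit 5) (nat_lit 132) (nat_lit 5) (nat_lit 130) (nat_lit 5) (nat_lit 476) (nat_lit 389) (nat_lit 335)))) (XT.nd (nat_lit 156) (nat_lit 380) (nat_lit 0) (XT.nd (nat_lit 78) (nat_lit 0) (nat_lit 0) (XT.lf (nat_lit 0) (nat_lit 1206406262) (nat_lit 152) (nat_lit 6112021635) (nat_lit 228) (nat_lit 7175048004) (nat_lit 127) (nat_lit 5) (nat_lit 129) (nat_lit 5) (nat_lit 130) (nat_lit 5) (nat_lit 477) (nat_lit 389) (nat_lit 334)) (XT.lf (nat_lit 0) (nat_lit 11962644809) (nat_lit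 152) (nat_lit 547185969) (nat_lit 228) (nat_lit 2238787345) (nat_lit 127) (nat_lit 5) (nat_lit 129) (nat_lit 5) (nat_lit 130) (nat_lit 5) (nat_lit 478) (nat_lit 389) (nat_lit 333))) (XT.nd (nat_lit 78) (nat_lit 152) (nat_lit 0) (XT.lf (nat_lit 0) (nat_lit 2868766214) (nat_lit 228) (nat_lit 6987994791) (nat_lit 76) (nat_lit 5151471709) (nat_lit 124) (nat_lit 5) (nat_lit 127) (nat_lit 5) (nat_lit 125) (nat_lit 5) (nat_lit 479) (nat_lit 389) (nat_lit 332)) (XT.lf (nat_lit 0) (nat_lit 3892758102) (nat_lit 152) (nat_lit 4213901902) (nat_lit 228) (nat_lit 7167648074) (nat_lit 122) (nat_lit 5) (nat_lit 124) (nat_lit 5) (nat_lit 125) (nat_lit 5) (nat_lit 480) (nat_lit 389) (nat_lit 331)))))) (XT.nd (nat_lit 624) (nat_lit 836) (nat_lit 0) (XT.nd (nat_lit 312) (nat_lit 456) (nat_lit 0) (XT.nd (nat_lit 156) (nat_lit 304) (nat_lit 0) (XT.nd (nat_lit 78) (nat_lit 228) (nat_lit 0) (XT.lf (nat_lit 0) (nat_lit 13539396986) (nat_lit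 228) (nat_lit 407642374) (nat_lit 76) (nat_lit 1600195781) (nat_lit 122) (nat_lit 5) (nat_lit 125) (nat_lit 5) (nat_lit 123) (nat_lit 4) (nat_lit 481) (nat_lit 389) (nat_lit 330)) (XT.lf (nat_lit 0) (nat_lit 3343019569) (nat_lit 228) (nat_lit 4876004298) (nat_lit 76) (nat_lit 7605349730) (nat_lit 119) (nat_lit 5) (nat_lit 122) (nat_lit 5) (nat_lit 120) (nat_lit 5) (nat_lit 482) (nat_lit 389) (nat_lit 329))) (XT.nd (nat_lit 78) (nat_lit 152) (nat_lit 0) (XT.lf (nat_lit 0) (nat_lit 6565882942) (nat_lit 152) (nat_lit 2268041383) (nat_lit 228) (nat_lit 7274709768) (nat_lit 117) (nat_lit 5) (nat_lit 119) (nat_lit 5) (nat_lit 120) (nat_lit 5) (nat_lit 483) (nat_lit 389) (nat_lit 328)) (XT.lf (nat_lit 0) (nat_lit 1965554581) (nat_lit 152) (nat_lit 12582537404) (nat_lit 228) (nat_lit 1851574905) (nat_lit 115) (nat_lit 5) (nat_lit 117) (nat_lit 5) (nat_lit 118) (nat_lit 4) (nat_lit 484) (nat_lit 389) (nat_lit 327)))) (XT.nd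 (nat_lit 156) (nat_lit 228) (nat_lit 0) (XT.nd (nat_lit 78) (nat_lit 152) (nat_lit 0) (XT.lf (nat_lit 0) (nat_lit 3734047195) (nat_lit 228) (nat_lit 2827440870) (nat_lit 76) (nat_lit 10134686398) (nat_lit 114) (nat_lit 5) (nat_lit 117) (nat_lit 5) (nat_lit 115) (nat_lit 5) (nat_lit 485) (nat_lit 389) (nat_lit 326)) (XT.lf (nat_lit 0) (nat_lit 9204911755) (nat_lit 152) (nat_lit 287855710) (nat_lit 228) (nat_lit 7506978009) (nat_lit 112) (nat_lit 5) (nat_lit 114) (nat_lit 5) (nat_lit 115) (nat_lit 5) (nat_lit 486) (nat_lit 389) (nat_lit 325))) (XT.nd (nat_lit 78) (nat_lit 76) (nat_lit 0) (XT.lf (nat_lit 0) (nat_lit 4284626002) (nat_lit 152) (nat_lit 11223424611) (nat_lit 228) (nat_lit 1801859463) (nat_lit 110) (nat_lit 5) (nat_lit 112) (nat_lit 5) (nat_lit 113) (nat_lit 4) (nat_lit 487) (nat_lit 389) (nat_lit 324)) (XT.lf (nat_lit 0) (nat_lit 4031761950) (nat_lit 228) (nat_lit 867619141) (nat_lit 76) (nat_lit 12727718348)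 (nat_lit 109) (nat_lit 5) (nat_lit 112) (nat_lit 5) (nat_lit 110) (nat_lit 5) (nat_lit 488) (nat_lit 389) (nat_lit 323))))) (XT.nd (nat_lit 312) (nat_lit 380) (nat_lit 0) (XT.nd (nat_lit 156) (nat_lit 228) (nat_lit 0) (XT.nd (nat_lit 78) (nat_lit 76) (nat_lit 0) (XT.lf (nat_lit 0) (nat_lit 10089759304) (nat_lit 228) (nat_lit 6182356888) (nat_lit 76) (nat_lit 1678586054) (nat_lit 107) (nat_lit 5) (nat_lit 110) (nat_lit 5) (nat_lit 108) (nat_lit 4) (nat_lit 489) (nat_lit 389) (nat_lit 322)) (XT.lf (nat_lit 0) (nat_lit 6514177448) (nat_lit 76) (nat_lit 9891285009) (nat_lit 152) (nat_lit 1876272146) (nat_lit 106) (nat_lit 5) (nat_lit 107) (nat_lit 5) (nat_lit 108) (nat_lit 4) (nat_lit 490) (nat_lit 389) (nat_lit 321))) (XT.nd (nat_lit 78) (nat_lit 0) (nat_lit 0) (XT.lf (nat_lit 0) (nat_lit 993220736) (nat_lit 152) (nat_lit 3239703418) (nat_lit 228) (nat_lit 14387677889) (nat_lit 103) (nat_lit 5) (nat_lit 105) (nat_lit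 5) (nat_lit 106) (nat_lit 5) (nat_lit 491) (nat_lit 389) (nat_lit 320)) (XT.lf (nat_lit 0) (nat_lit 10598608709) (nat_lit 228) (nat_lit 4724472888) (nat_lit 76) (nat_lit 3642669300) (nat_lit 103) (nat_lit 5) (nat_lit 106) (nat_lit 5) (nat_lit 104) (nat_lit 4) (nat_lit 492) (nat_lit 389) (nat_lit 319)))) (XT.nd (nat_lit 156) (nat_lit 76) (nat_lit 0) (XT.nd (nat_lit 78) (nat_lit 228) (nat_lit 0) (XT.lf (nat_lit 0) (nat_lit 8622103649) (nat_lit 76) (nat_lit 8605595572) (nat_lit 152) (nat_lit 2091382326) (nat_lit 102) (nat_lit 5) (nat_lit 103) (nat_lit 5) (nat_lit 104) (nat_lit 4) (nat_lit 493) (nat_lit 389) (nat_lit 318)) (XT.lf (nat_lit 0) (nat_lit 2715165158) (nat_lit 152) (nat_lit 1603981628) (nat_lit 228) (nat_lit 15361650044) (nat_lit 99) (nat_lit 5) (nat_lit 101) (nat_lit 5) (nat_lit 102) (nat_lit 5) (nat_lit 494) (nat_lit 389) (nat_lit 317))) (XT.nd (nat_lit 78) (nat_lit 76) (nat_lit 0) (XT.lf (nat_lit 0) (nat_lit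 11000615783) (nat_lit 228) (nat_lit 3456633987) (nat_lit 76) (nat_lit 5591873197) (nat_lit 99) (nat_lit 5) (nat_lit 102) (nat_lit 5) (nat_lit 100) (nat_lit 4) (nat_lit 495) (nat_lit 389) (nat_lit 316)) (XT.lf (nat_lit 0) (nat_lit 10570565799) (nat_lit 76) (nat_lit 7388354097) (nat_lit 152) (nat_lit 2467287610) (nat_lit 98) (nat_lit 5) (nat_lit 99) (nat_lit 5) (nat_lit 100) (nat_lit 4) (nat_lit 496) (nat_lit 389) (nat_lit 315))))))) (XT.nd (nat_lit 1248) (nat_lit 1064) (nat_lit 0) (XT.nd (nat_lit 624) (nat_lit 836) (nat_lit 0) (XT.nd (nat_lit 312) (nat_lit 304) (nat_lit 0) (XT.nd (nat_lit 156) (nat_lit 304) (nat_lit 0) (XT.nd (nat_lit 78) (nat_lit 0) (nat_lit 0) (XT.lf (nat_lit 0) (nat_lit 4239302279) (nat_lit 152) (nat_lit 22893956) (nat_lit 228) (nat_lit 16550116629) (nat_lit 95) (nat_lit 5) (nat_lit 97) (nat_lit 5) (nat_lit 98) (nat_lit 5) (nat_lit 497) (nat_lit 389) (nat_lit 314)) (XT.lf (nat_lit 0) (nat_lit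 11276254250) (nat_lit 228) (nat_lit 2423634077) (nat_lit 76) (nat_lit 7505412128) (nat_lit 95) (nat_lit 5) (nat_lit 98) (nat_lit 5) (nat_lit 96) (nat_lit 4) (nat_lit 498) (nat_lit 389) (nat_lit 313))) (XT.nd (nat_lit 78) (nat_lit 228) (nat_lit 0) (XT.lf (nat_lit 0) (nat_lit 12314942135) (nat_lit 76) (nat_lit 6264655926) (nat_lit 152) (nat_lit 3028114002) (nat_lit 94) (nat_lit 5) (nat_lit 95) (nat_lit 5) (nat_lit 96) (nat_lit 4) (nat_lit 499) (nat_lit 389) (nat_lit 312)) (XT.lf (nat_lit 0) (nat_lit 4052500049) (nat_lit 228) (nat_lit 16517418596) (nat_lit 76) (nat_lit 1449533135) (nat_lit 91) (nat_lit 5) (nat_lit 94) (nat_lit 5) (nat_lit 92) (nat_lit 4) (nat_lit 500) (nat_lit 389) (nat_lit 311)))) (XT.nd (nat_lit 156) (nat_lit 228) (nat_lit 0) (XT.nd (nat_lit 78) (nat_lit 76) (nat_lit 0) (XT.lf (nat_lit 0) (nat_lit 11401871657) (nat_lit 228) (nat_lit 1678005311) (nat_lit 76) (nat_lit 9359251527) (nat_lit 91) (nat_lit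 5) (nat_lit 94) (nat_lit 5) (nat_lit 92) (nat_lit 4) (nat_lit 501) (nat_lit 389) (nat_lit 310)) (XT.lf (nat_lit 0) (nat_lit 13802615393) (nat_lit 76) (nat_lit 5263348476) (nat_lit 152) (nat_lit 3802604736) (nat_lit 90) (nat_lit 5) (nat_lit 91) (nat_lit 5) (nat_lit 92) (nat_lit 4) (nat_lit 502) (nat_lit 389) (nat_lit 309))) (XT.nd (nat_lit 78) (nat_lit 0) (nat_lit 0) (XT.lf (nat_lit 0) (nat_lit 3646575912) (nat_lit 228) (nat_lit 16846500278) (nat_lit 76) (nat_lit 2814702796) (nat_lit 87) (nat_lit 5) (nat_lit 90) (nat_lit 5) (nat_lit 88) (nat_lit 4) (nat_lit 503) (nat_lit 389) (nat_lit 308)) (XT.lf (nat_lit 0) (nat_lit 11349062695) (nat_lit 228) (nat_lit 1281363220) (nat_lit 76) (nat_lit 11125422749) (nat_lit 87) (nat_lit 5) (nat_lit 90) (nat_lit 5) (nat_lit 88) (nat_lit 4) (nat_lit 504) (nat_lit 389) (nat_lit 307))))) (XT.nd (nat_lit 312) (nat_lit 456) (nat_lit 0) (XT.nd (nat_lit 156) (nat_lit 76) (nat_lit 0) (XT.nd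 (nat_lit 78) (nat_lit 228) (nat_lit 0) (XT.lf (nat_lit 0) (nat_lit 14971570021) (nat_lit 76) (nat_lit 4417777886) (nat_lit 152) (nat_lit 4824811056) (nat_lit 86) (nat_lit 5) (nat_lit 87) (nat_lit 5) (nat_lit 88) (nat_lit 4) (nat_lit 505) (nat_lit 389) (nat_lit 306)) (XT.lf (nat_lit 0) (nat_lit 3010064687) (nat_lit 228) (nat_lit 17632915050) (nat_lit 76) (nat_lit 4039867896) (nat_lit 83) (nat_lit 5) (nat_lit 86) (nat_lit 5) (nat_lit 84) (nat_lit 4) (nat_lit 506) (nat_lit 389) (nat_lit 305))) (XT.nd (nat_lit 78) (nat_lit 76) (nat_lit 0) (XT.lf (nat_lit 0) (nat_lit 11083934387) (nat_lit 228) (nat_lit 1305963163) (nat_lit 76) (nat_lit 12771238875) (nat_lit 83) (nat_lit 5) (nat_lit 86) (nat_lit 5) (nat_lit 84) (nat_lit 4) (nat_lit 507) (nat_lit 389) (nat_lit 304)) (XT.lf (nat_lit 0) (nat_lit 15748767735) (nat_lit 76) (nat_lit 3766644212) (nat_lit 152) (nat_lit 6134900398) (nat_lit 82) (nat_lit 5) (nat_lit 83) (nat_lit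 5) (nat_lit 84) (nat_lit 4) (nat_lit 508) (nat_lit 389) (nat_lit 303)))) (XT.nd (nat_lit 156) (nat_lit 228) (nat_lit 0) (XT.nd (nat_lit 78) (nat_lit 0) (nat_lit 0) (XT.lf (nat_lit 0) (nat_lit 2102574275) (nat_lit 228) (nat_lit 18961779519) (nat_lit 76) (nat_lit 5086315356) (nat_lit 79) (nat_lit 5) (nat_lit 82) (nat_lit 5) (nat_lit 80) (nat_lit 4) (nat_lit 509) (nat_lit 389) (nat_lit 302)) (XT.lf (nat_lit 0) (nat_lit 10566246525) (nat_lit 228) (nat_lit 1836502739) (nat_lit 76) (nat_lit 14258393984) (nat_lit 79) (nat_lit 5) (nat_lit 82) (nat_lit 5) (nat_lit 80) (nat_lit 4) (nat_lit 510) (nat_lit 389) (nat_lit 301))) (XT.nd (nat_lit 78) (nat_lit 152) (nat_lit 0) (XT.lf (nat_lit 0) (nat_lit 16048265132) (nat_lit 76) (nat_lit 3354984020) (nat_lit 152) (nat_lit 7780100004) (nat_lit 78) (nat_lit 5) (nat_lit 79) (nat_lit 5) (nat_lit 80) (nat_lit 4) (nat_lit 511) (nat_lit 389) (nat_lit 300)) (XT.lf (nat_lit 0) (nat_lit 876481222)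 (nat_lit 152) (nat_lit 20932486007) (nat_lit 76) (nat_lit 5908798805) (nat_lit 76) (nat_lit 5) (nat_lit 78) (nat_lit 5) (nat_lit 77) (nat_lit 4) (nat_lit 512) (nat_lit 389) (nat_lit 299)))))) (XT.nd (nat_lit 624) (nat_lit 532) (nat_lit 0) (XT.nd (nat_lit 312) (nat_lit 304) (nat_lit 0) (XT.nd (nat_lit 156) (nat_lit 152) (nat_lit 0) (XT.nd (nat_lit 78) (nat_lit 76) (nat_lit 0) (XT.lf (nat_lit 0) (nat_lit 9748408031) (nat_lit 152) (nat_lit 2972210211) (nat_lit 76) (nat_lit 15541925818) (nat_lit 76) (nat_lit 5) (nat_lit 78) (nat_lit 5) (nat_lit 77) (nat_lit 4) (nat_lit 513) (nat_lit 389) (nat_lit 298)) (XT.lf (nat_lit 0) (nat_lit 15769031323) (nat_lit 76) (nat_lit 3235302103) (nat_lit 152) (nat_lit 9815796951) (nat_lit 75) (nat_lit 5) (nat_lit 76) (nat_lit 5) (nat_lit 77) (nat_lit 4) (nat_lit 514) (nat_lit 389) (nat_lit 297))) (XT.nd (nat_lit 78) (nat_lit 76) (nat_lit 0) (XT.lf (nat_lit 0) (nat_lit 5722846475) (nat_lit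 76) (nat_lit 22929541504) (nat_lit 76) (nat_lit 738622929) (nat_lit 74) (nat_lit 4) (nat_lit 75) (nat_lit 5) (nat_lit 75) (nat_lit 4) (nat_lit 515) (nat_lit 389) (nat_lit 296)) (XT.lf (nat_lit 0) (nat_lit 8574306759) (nat_lit 152) (nat_lit 4829265312) (nat_lit 76) (nat_lit 16569018668) (nat_lit 73) (nat_lit 5) (nat_lit 75) (nat_lit 5) (nat_lit 74) (nat_lit 4) (nat_lit 516) (nat_lit 389) (nat_lit 295)))) (XT.nd (nat_lit 156) (nat_lit 152) (nat_lit 0) (XT.nd (nat_lit 78) (nat_lit 76) (nat_lit 0) (XT.lf (nat_lit 0) (nat_lit 14792416924) (nat_lit 76) (nat_lit 3468877336) (nat_lit 152) (nat_lit 12306819002) (nat_lit 72) (nat_lit 5) (nat_lit 73) (nat_lit 5) (nat_lit 74) (nat_lit 4) (nat_lit 517) (nat_lit 389) (nat_lit 294)) (XT.lf (nat_lit 0) (nat_lit 3867908261) (nat_lit 76) (nat_lit 24489802360) (nat_lit 76) (nat_lit 2820226409) (nat_lit 71) (nat_lit 4) (nat_lit 72) (nat_lit 5) (nat_lit 72) (nat_lit 4) (nat_lit 518)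 (nat_lit 389) (nat_lit 293))) (XT.nd (nat_lit 78) (nat_lit 76) (nat_lit 0) (XT.lf (nat_lit 0) (nat_lit 6977946582) (nat_lit 152) (nat_lit 7543606152) (nat_lit 76) (nat_lit 17277619781) (nat_lit 70) (nat_lit 5) (nat_lit 72) (nat_lit 5) (nat_lit 71) (nat_lit 4) (nat_lit 519) (nat_lit 389) (nat_lit 292)) (XT.lf (nat_lit 0) (nat_lit 12979218029) (nat_lit 76) (nat_lit 4127271606) (nat_lit 152) (nat_lit 15328924615) (nat_lit 69) (nat_lit 5) (nat_lit 70) (nat_lit 5) (nat_lit 71) (nat_lit 4) (nat_lit 520) (nat_lit 389) (nat_lit 291))))) (XT.nd (nat_lit 312) (nat_lit 304) (nat_lit 0) (XT.nd (nat_lit 156) (nat_lit 76) (nat_lit 0) (XT.nd (nat_lit 78) (nat_lit 76) (nat_lit 0) (XT.lf (nat_lit 0) (nat_lit 1078982824) (nat_lit 76) (nat_lit 26578836084) (nat_lit 76) (nat_lit 5429356562) (nat_lit 68) (nat_lit 4) (nat_lit 69) (nat_lit 5) (nat_lit 69) (nat_lit 4) (nat_lit 521) (nat_lit 389) (nat_lit 290)) (XT.lf (nat_lit 0) (nat_lit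 4881861401) (nat_lit 152) (nat_lit 11274184445) (nat_lit 76) (nat_lit 17594838406) (nat_lit 67) (nat_lit 5) (nat_lit 69) (nat_lit 5) (nat_lit 68) (nat_lit 4) (nat_lit 522) (nat_lit 389) (nat_lit 289))) (XT.nd (nat_lit 78) (nat_lit 0) (nat_lit 0) (XT.lf (nat_lit 0) (nat_lit 10166269854) (nat_lit 76) (nat_lit 5294075213) (nat_lit 152) (nat_lit 18970535056) (nat_lit 66) (nat_lit 5) (nat_lit 67) (nat_lit 5) (nat_lit 68) (nat_lit 4) (nat_lit 523) (nat_lit 389) (nat_lit 288)) (XT.lf (nat_lit 0) (nat_lit 26497180499) (nat_lit 152) (nat_lit 2764832393) (nat_lit 0) (nat_lit 5865033177) (nat_lit 66) (nat_lit 5) (nat_lit 68) (nat_lit 4) (nat_lit 66) (nat_lit 4) (nat_lit 524) (nat_lit 389) (nat_lit 287)))) (XT.nd (nat_lit 156) (nat_lit 76) (nat_lit 0) (XT.nd (nat_lit 78) (nat_lit 76) (nat_lit 0) (XT.lf (nat_lit 0) (nat_lit 2195270811) (nat_lit 152) (nat_lit 16206741172) (nat_lit 76) (nat_lit 17435091771) (nat_lit 64) (nat_lit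 5) (nat_lit 66) (nat_lit 5) (nat_lit 65) (nat_lit 4) (nat_lit 525) (nat_lit 389) (nat_lit 286)) (XT.lf (nat_lit 0) (nat_lit 6162494362) (nat_lit 76) (nat_lit 7066927388) (nat_lit 152) (nat_lit 23334746836) (nat_lit 63) (nat_lit 5) (nat_lit 64) (nat_lit 5) (nat_lit 65) (nat_lit 4) (nat_lit 526) (nat_lit 389) (nat_lit 285))) (XT.nd (nat_lit 78) (nat_lit 76) (nat_lit 0) (XT.lf (nat_lit 0) (nat_lit 24774484274) (nat_lit 152) (nat_lit 7877560144) (nat_lit 0) (nat_lit 4655604437) (nat_lit 63) (nat_lit 5) (nat_lit 65) (nat_lit 4) (nat_lit 63) (nat_lit 4) (nat_lit 527) (nat_lit 389) (nat_lit 284)) (XT.lf (nat_lit 0) (nat_lit 15497896050) (nat_lit 76) (nat_lit 21358125572) (nat_lit 76) (nat_lit 1211708323) (nat_lit 62) (nat_lit 4) (nat_lit 63) (nat_lit 5) (nat_lit 63) (nat_lit 4) (nat_lit 528) (nat_lit 389) (nat_lit 283))))))))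
noncomputable def xc71 : XT := (XT.nd (nat_lit 54444) (nat_lit 0) (nat_lit 10488) (XT.nd (nat_lit 1170) (nat_lit 608) (nat_lit 0) (XT.nd (nat_lit 546) (nat_lit 532) (nat_lit 0) (XT.nd (nat_lit 234) (nat_lit 304) (nat_lit 0) (XT.nd (nat_lit 78) (nat_lit 76) (nat_lit 0) (XT.lf (nat_lit 0) (nat_lit 744314142) (nat_lit 76) (nat_lit 9559856665) (nat_lit 152) (nat_lit 28541668842) (nat_lit 60) (nat_lit 5) (nat_lit 61) (nat_lit 5) (nat_lit 62) (nat_lit 4) (nat_lit 529) (nat_lit 389) (nat_lit 282)) (XT.nd (nat_lit 78) (nat_lit 76) (nat_lit 0) (XT.lf (nat_lit 0) (nat_lit 22367484126) (nat_lit 152) (nat_lit 14515960894) (nat_lit 0) (nat_lit 2756698447) (nat_lit 60) (nat_lit 5) (nat_lit 62) (nat_lit 4) (nat_lit 60) (nat_lit 4) (nat_lit 530) (nat_lit 389) (nat_lit 281)) (XT.lf (nat_lit 0) (nat_lit 9818898692) (nat_lit 76) (nat_lit 25134898548) (nat_lit 76) (nat_lit 5499646236) (nat_lit 59) (nat_lit 4) (nat_lit 60) (nat_lit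 5) (nat_lit 60) (nat_lit 4) (nat_lit 531) (nat_lit 389) (nat_lit 280)))) (XT.nd (nat_lit 156) (nat_lit 152) (nat_lit 0) (XT.nd (nat_lit 78) (nat_lit 76) (nat_lit 0) (XT.lf (nat_lit 0) (nat_lit 6617360646) (nat_lit 152) (nat_lit 6225764212) (nat_lit 76) (nat_lit 28442503414) (nat_lit 58) (nat_lit 5) (nat_lit 60) (nat_lit 5) (nat_lit 59) (nat_lit 4) (nat_lit 532) (nat_lit 389) (nat_lit 279)) (XT.lf (nat_lit 0) (nat_lit 19144969779) (nat_lit 152) (nat_lit 22955281038) (nat_lit 0) (nat_lit 36165436) (nat_lit 57) (nat_lit 5) (nat_lit 59) (nat_lit 4) (nat_lit 57) (nat_lit 4) (nat_lit 533) (nat_lit 389) (nat_lit 278))) (XT.nd (nat_lit 78) (nat_lit 76) (nat_lit 0) (XT.lf (nat_lit 0) (nat_lit 2331073114) (nat_lit 76) (nat_lit 29903309107) (nat_lit 76) (nat_lit 10772766478) (nat_lit 56) (nat_lit 4) (nat_lit 57) (nat_lit 5) (nat_lit 57) (nat_lit 4) (nat_lit 534) (nat_lit 389) (nat_lit 277)) (XT.lf (nat_lit 0) (nat_lit 1984134299)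 (nat_lit 152) (nat_lit 15123855134) (nat_lit 76) (nat_lit 26789280237) (nat_lit 55) (nat_lit 5) (nat_lit 57) (nat_lit 5) (nat_lit 56) (nat_lit 4) (nat_lit 535) (nat_lit 389) (nat_lit 276))))) (XT.nd (nat_lit 312) (nat_lit 228) (nat_lit 0) (XT.nd (nat_lit 156) (nat_lit 228) (nat_lit 0) (XT.nd (nat_lit 78) (nat_lit 0) (nat_lit 0) (XT.lf (nat_lit 0) (nat_lit 11255808288) (nat_lit 76) (nat_lit 3733327903) (nat_lit 152) (nat_lit 29819300837) (nat_lit 54) (nat_lit 5) (nat_lit 55) (nat_lit 5) (nat_lit 56) (nat_lit 4) (nat_lit 536) (nat_lit 389) (nat_lit 275)) (XT.lf (nat_lit 0) (nat_lit 28608798833) (nat_lit 152) (nat_lit 7155647068) (nat_lit 0) (nat_lit 9975758257) (nat_lit 54) (nat_lit 5) (nat_lit 56) (nat_lit 4) (nat_lit 54) (nat_lit 4) (nat_lit 537) (nat_lit 389) (nat_lit 274))) (XT.nd (nat_lit 78) (nat_lit 152) (nat_lit 0) (XT.lf (nat_lit 0) (nat_lit 20342628993) (nat_lit 76) (nat_lit 22501438552) (nat_lit 76) (nat_lit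 3849646340) (nat_lit 53) (nat_lit 4) (nat_lit 54) (nat_lit 5) (nat_lit 54) (nat_lit 4) (nat_lit 538) (nat_lit 389) (nat_lit 273)) (XT.lf (nat_lit 0) (nat_lit 1012806159) (nat_lit 76) (nat_lit 8683156325) (nat_lit 152) (nat_lit 37975314757) (nat_lit 51) (nat_lit 5) (nat_lit 52) (nat_lit 5) (nat_lit 53) (nat_lit 4) (nat_lit 539) (nat_lit 389) (nat_lit 272)))) (XT.nd (nat_lit 156) (nat_lit 152) (nat_lit 0) (XT.nd (nat_lit 78) (nat_lit 76) (nat_lit 0) (XT.lf (nat_lit 0) (nat_lit 23867179917) (nat_lit 152) (nat_lit 19077137585) (nat_lit 0) (nat_lit 5723808168) (nat_lit 51) (nat_lit 5) (nat_lit 53) (nat_lit 4) (nat_lit 51) (nat_lit 4) (nat_lit 540) (nat_lit 389) (nat_lit 271)) (XT.lf (nat_lit 0) (nat_lit 9379525910) (nat_lit 76) (nat_lit 29235421811) (nat_lit 76) (nat_lit 11075389476) (nat_lit 50) (nat_lit 4) (nat_lit 51) (nat_lit 5) (nat_lit 51) (nat_lit 4) (nat_lit 541) (nat_lit 389) (nat_lit 270))) (XT.nd (nat_lit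 78) (nat_lit 76) (nat_lit 0) (XT.lf (nat_lit 0) (nat_lit 3172023123) (nat_lit 152) (nat_lit 11737000721) (nat_lit 76) (nat_lit 35828213118) (nat_lit 49) (nat_lit 5) (nat_lit 51) (nat_lit 5) (nat_lit 50) (nat_lit 4) (nat_lit 542) (nat_lit 389) (nat_lit 269)) (XT.lf (nat_lit 0) (nat_lit 17773281583) (nat_lit 152) (nat_lit 33923270407) (nat_lit 0) (nat_lit 111231231) (nat_lit 48) (nat_lit 5) (nat_lit 50) (nat_lit 4) (nat_lit 48) (nat_lit 4) (nat_lit 543) (nat_lit 389) (nat_lit 268)))))) (XT.nd (nat_lit 624) (nat_lit 152) (nat_lit 0) (XT.nd (nat_lit 312) (nat_lit 228) (nat_lit 0) (XT.nd (nat_lit 156) (nat_lit 152) (nat_lit 0) (XT.nd (nat_lit 78) (nat_lit 76) (nat_lit 0) (XT.lf (nat_lit 0) (nat_lit 33055913847) (nat_lit 152) (nat_lit 4468171215) (nat_lit 0) (nat_lit 15379060779) (nat_lit 48) (nat_lit 5) (nat_lit 50) (nat_lit 4) (nat_lit 48) (nat_lit 4) (nat_lit 544) (nat_lit 389) (nat_lit 267)) (XT.lf (nat_lit 0) (nat_lit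 26338162336) (nat_lit 76) (nat_lit 22688767278) (nat_lit 76) (nat_lit 4997542642) (nat_lit 47) (nat_lit 4) (nat_lit 48) (nat_lit 5) (nat_lit 48) (nat_lit 4) (nat_lit 545) (nat_lit 389) (nat_lit 266))) (XT.nd (nat_lit 78) (nat_lit 0) (nat_lit 0) (XT.lf (nat_lit 0) (nat_lit 2892830275) (nat_lit 76) (nat_lit 7253971640) (nat_lit 152) (nat_lit 45028163726) (nat_lit 45) (nat_lit 5) (nat_lit 46) (nat_lit 5) (nat_lit 47) (nat_lit 4) (nat_lit 546) (nat_lit 389) (nat_lit 265)) (XT.lf (nat_lit 0) (nat_lit 25987217303) (nat_lit 152) (nat_lit 21576434118) (nat_lit 0) (nat_lit 8784572452) (nat_lit 45) (nat_lit 5) (nat_lit 47) (nat_lit 4) (nat_lit 45) (nat_lit 4) (nat_lit 547) (nat_lit 389) (nat_lit 264)))) (XT.nd (nat_lit 156) (nat_lit 76) (nat_lit 0) (XT.nd (nat_lit 78) (nat_lit 76) (nat_lit 0) (XT.lf (nat_lit 0) (nat_lit 10131269921) (nat_lit 76) (nat_lit 32318212334) (nat_lit 76) (nat_lit 15102798531) (nat_lit 44) (nat_lit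 4) (nat_lit 45) (nat_lit 5) (nat_lit 45) (nat_lit 4) (nat_lit 548) (nat_lit 389) (nat_lit 263)) (XT.lf (nat_lit 0) (nat_lit 798662843) (nat_lit 152) (nat_lit 15606525272) (nat_lit 76) (nat_lit 42381170356) (nat_lit 43) (nat_lit 5) (nat_lit 45) (nat_lit 5) (nat_lit 44) (nat_lit 4) (nat_lit 549) (nat_lit 389) (nat_lit 262))) (XT.nd (nat_lit 78) (nat_lit 0) (nat_lit 0) (XT.lf (nat_lit 0) (nat_lit 17020848827) (nat_lit 152) (nat_lit 42744573279) (nat_lit 0) (nat_lit 283133481) (nat_lit 42) (nat_lit 5) (nat_lit 44) (nat_lit 4) (nat_lit 42) (nat_lit 4) (nat_lit 550) (nat_lit 389) (nat_lit 261)) (XT.lf (nat_lit 0) (nat_lit 34029389835) (nat_lit 152) (nat_lit 10029908698) (nat_lit 0) (nat_lit 17280329441) (nat_lit 42) (nat_lit 5) (nat_lit 44) (nat_lit 4) (nat_lit 42) (nat_lit 4) (nat_lit 551) (nat_lit 389) (nat_lit 260))))) (XT.nd (nat_lit 52338) (nat_lit 0) (nat_lit 22952) (XT.nd (nat_lit 52182) (nat_lit 0) (nat_lit 26296)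 (XT.nd (nat_lit 78) (nat_lit 76) (nat_lit 0) (XT.lf (nat_lit 0) (nat_lit 24093874906) (nat_lit 76) (nat_lit 27664661102) (nat_lit 76) (nat_lit 10904586097) (nat_lit 41) (nat_lit 4) (nat_lit 42) (nat_lit 5) (nat_lit 42) (nat_lit 4) (nat_lit 552) (nat_lit 389) (nat_lit 259)) (XT.lf (nat_lit 0) (nat_lit 5957321381) (nat_lit 152) (nat_lit 4677406397) (nat_lit 76) (nat_lit 53387433938) (nat_lit 40) (nat_lit 5) (nat_lit 42) (nat_lit 5) (nat_lit 41) (nat_lit 4) (nat_lit 553) (nat_lit 389) (nat_lit 258))) (XT.nd (nat_lit 78) (nat_lit 0) (nat_lit 0) (XT.lf (nat_lit 0) (nat_lit 183210158) (nat_lit 988) (nat_lit 3066527746) (nat_lit 0) (nat_lit 183210158) (nat_lit 386) (nat_lit 5) (nat_lit 399) (nat_lit 4) (nat_lit 386) (nat_lit 4) (nat_lit 420) (nat_lit 390) (nat_lit 390)) (XT.lf (nat_lit 0) (nat_lit 3782087613) (nat_lit 988) (nat_lit 1288207255) (nat_lit 0) (nat_lit 1839039910) (nat_lit 386) (nat_lit 5) (nat_lit 399) (nat_lit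 4) (nat_lit 386) (nat_lit 4) (nat_lit 421) (nat_lit 390) (nat_lit 389)))) (XT.nd (nat_lit 156) (nat_lit 1216) (nat_lit 0) (XT.nd (nat_lit 78) (nat_lit 1064) (nat_lit 0) (XT.lf (nat_lit 0) (nat_lit 269587421) (nat_lit 1064) (nat_lit 3282239318) (nat_lit 76) (nat_lit 3404250931) (nat_lit 372) (nat_lit 5) (nat_lit 386) (nat_lit 5) (nat_lit 373) (nat_lit 4) (nat_lit 422) (nat_lit 390) (nat_lit 388)) (XT.lf (nat_lit 0) (nat_lit 1711342901) (nat_lit 1064) (nat_lit 1920358330) (nat_lit 1140) (nat_lit 3373812386) (nat_lit 358) (nat_lit 5) (nat_lit 372) (nat_lit 5) (nat_lit 373) (nat_lit 4) (nat_lit 423) (nat_lit 390) (nat_lit 387))) (XT.nd (nat_lit 78) (nat_lit 1216) (nat_lit 0) (XT.lf (nat_lit 0) (nat_lit 6824699161) (nat_lit 1064) (nat_lit 201839587) (nat_lit 1140) (nat_lit 31944414) (nat_lit 358) (nat_lit 5) (nat_lit 372) (nat_lit 5) (nat_lit 373) (nat_lit 4) (nat_lit 424) (nat_lit 390) (nat_lit 386)) (XT.lf (nat_lit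 0) (nat_lit 3307759572) (nat_lit 1216) (nat_lit 2183837598) (nat_lit 76) (nat_lit 1621543419) (nat_lit 342) (nat_lit 5) (nat_lit 358) (nat_lit 5) (nat_lit 343) (nat_lit 4) (nat_lit 425) (nat_lit 390) (nat_lit 385))))))) (XT.nd (nat_lit 1248) (nat_lit 4636) (nat_lit 0) (XT.nd (nat_lit 624) (nat_lit 3116) (nat_lit 0) (XT.nd (nat_lit 312) (nat_lit 1900) (nat_lit 0) (XT.nd (nat_lit 156) (nat_lit 684) (nat_lit 0) (XT.nd (nat_lit 78) (nat_lit 912) (nat_lit 0) (XT.lf (nat_lit 0) (nat_lit 3041253873) (nat_lit 1216) (nat_lit 3642054139) (nat_lit 1292) (nat_lit 488037167) (nat_lit 326) (nat_lit 5) (nat_lit 342) (nat_lit 5) (nat_lit 343) (nat_lit 4) (nat_lit 426) (nat_lit 390) (nat_lit 384)) (XT.lf (nat_lit 0) (nat_lit 1131518180) (nat_lit 836) (nat_lit 1676930070) (nat_lit 912) (nat_lit 4423905308) (nat_lit 314) (nat_lit 5) (nat_lit 325) (nat_lit 5) (nat_lit 326) (nat_lit 5) (nat_lit 427) (nat_lit 390) (nat_lit 383))) (XT.nd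 (nat_lit 78) (nat_lit 684) (nat_lit 0) (XT.lf (nat_lit 0) (nat_lit 6144923382) (nat_lit 912) (nat_lit 768132510) (nat_lit 76) (nat_lit 383469507) (nat_lit 314) (nat_lit 5) (nat_lit 326) (nat_lit 5) (nat_lit 315) (nat_lit 4) (nat_lit 428) (nat_lit 390) (nat_lit 382)) (XT.lf (nat_lit 0) (nat_lit 2145268424) (nat_lit 684) (nat_lit 2683169722) (nat_lit 76) (nat_lit 2534458483) (nat_lit 305) (nat_lit 5) (nat_lit 314) (nat_lit 5) (nat_lit 306) (nat_lit 5) (nat_lit 429) (nat_lit 390) (nat_lit 381)))) (XT.nd (nat_lit 156) (nat_lit 684) (nat_lit 0) (XT.nd (nat_lit 78) (nat_lit 608) (nat_lit 0) (XT.lf (nat_lit 0) (nat_lit 2820143481) (nat_lit 608) (nat_lit 2641741698) (nat_lit 684) (nat_lit 1970717020) (nat_lit 297) (nat_lit 5) (nat_lit 305) (nat_lit 5) (nat_lit 306) (nat_lit 5) (nat_lit 430) (nat_lit 390) (nat_lit 380)) (XT.lf (nat_lit 0) (nat_lit 944962702) (nat_lit 532) (nat_lit 348142516) (nat_lit 608) (nat_lit 6212512942)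 (nat_lit 289) (nat_lit 5) (nat_lit 296) (nat_lit 5) (nat_lit 297) (nat_lit 5) (nat_lit 431) (nat_lit 390) (nat_lit 379))) (XT.nd (nat_lit 78) (nat_lit 684) (nat_lit 0) (XT.lf (nat_lit 0) (nat_lit 4593066557) (nat_lit 608) (nat_lit 956659283) (nat_lit 76) (nat_lit 2031182819) (nat_lit 289) (nat_lit 5) (nat_lit 297) (nat_lit 5) (nat_lit 290) (nat_lit 5) (nat_lit 432) (nat_lit 390) (nat_lit 378)) (XT.lf (nat_lit 0) (nat_lit 290365903) (nat_lit 684) (nat_lit 2855179009) (nat_lit 76) (nat_lit 4513921765) (nat_lit 280) (nat_lit 5) (nat_lit 289) (nat_lit 5) (nat_lit 281) (nat_lit 5) (nat_lit 433) (nat_lit 390) (nat_lit 377))))) (XT.nd (nat_lit 312) (nat_lit 1520) (nat_lit 0) (XT.nd (nat_lit 156) (nat_lit 532) (nat_lit 0) (XT.nd (nat_lit 78) (nat_lit 532) (nat_lit 0) (XT.lf (nat_lit 0) (nat_lit 2946061525) (nat_lit 532) (nat_lit 613620583) (nat_lit 608) (nat_lit 4181231472) (nat_lit 273) (nat_lit 5) (nat_lit 280) (nat_lit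 5) (nat_lit 281) (nat_lit 5) (nat_lit 434) (nat_lit 390) (nat_lit 376)) (XT.lf (nat_lit 0) (nat_lit 1056354850) (nat_lit 532) (nat_lit 5845300952) (nat_lit 608) (nat_lit 923914692) (nat_lit 266) (nat_lit 5) (nat_lit 273) (nat_lit 5) (nat_lit 274) (nat_lit 5) (nat_lit 435) (nat_lit 390) (nat_lit 375))) (XT.nd (nat_lit 78) (nat_lit 456) (nat_lit 0) (XT.lf (nat_lit 0) (nat_lit 2355455973) (nat_lit 608) (nat_lit 861254694) (nat_lit 76) (nat_lit 4696205851) (nat_lit 265) (nat_lit 5) (nat_lit 273) (nat_lit 5) (nat_lit 266) (nat_lit 5) (nat_lit 436) (nat_lit 390) (nat_lit 374)) (XT.lf (nat_lit 0) (nat_lit 5218172664) (nat_lit 456) (nat_lit 465849740) (nat_lit 532) (nat_lit 2319508165) (nat_lit 259) (nat_lit 5) (nat_lit 265) (nat_lit 5) (nat_lit 266) (nat_lit 5) (nat_lit 437) (nat_lit 390) (nat_lit 373)))) (XT.nd (nat_lit 156) (nat_lit 532) (nat_lit 0) (XT.nd (nat_lit 78) (nat_lit 456) (nat_lit 0) (XT.lf (nat_lit 0) (nat_lit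 979753692) (nat_lit 532) (nat_lit 4763202718) (nat_lit 76) (nat_lit 2354097503) (nat_lit 252) (nat_lit 5) (nat_lit 259) (nat_lit 5) (nat_lit 253) (nat_lit 5) (nat_lit 438) (nat_lit 390) (nat_lit 372)) (XT.lf (nat_lit 0) (nat_lit 1400372522) (nat_lit 456) (nat_lit 2898535686) (nat_lit 532) (nat_lit 3894763051) (nat_lit 246) (nat_lit 5) (nat_lit 252) (nat_lit 5) (nat_lit 253) (nat_lit 5) (nat_lit 439) (nat_lit 390) (nat_lit 371))) (XT.nd (nat_lit 78) (nat_lit 532) (nat_lit 0) (XT.lf (nat_lit 0) (nat_lit 7688704594) (nat_lit 532) (nat_lit 547455734) (nat_lit 76) (nat_lit 57897985) (nat_lit 246) (nat_lit 5) (nat_lit 253) (nat_lit 5) (nat_lit 247) (nat_lit 5) (nat_lit 440) (nat_lit 390) (nat_lit 370)) (XT.lf (nat_lit 0) (nat_lit 2738142064) (nat_lit 532) (nat_lit 2550821825) (nat_lit 76) (nat_lit 3107402467) (nat_lit 239) (nat_lit 5) (nat_lit 246) (nat_lit 5) (nat_lit 240) (nat_lit 5) (nat_lit 441) (nat_lit 390) (nat_lit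 369)))))) (XT.nd (nat_lit 624) (nat_lit 2052) (nat_lit 0) (XT.nd (nat_lit 312) (nat_lit 1292) (nat_lit 0) (XT.nd (nat_lit 156) (nat_lit 380) (nat_lit 0) (XT.nd (nat_lit 78) (nat_lit 532) (nat_lit 0) (XT.lf (nat_lit 0) (nat_lit 3911246047) (nat_lit 380) (nat_lit 2226692598) (nat_lit 456) (nat_lit 2364583234) (nat_lit 234) (nat_lit 5) (nat_lit 239) (nat_lit 5) (nat_lit 240) (nat_lit 5) (nat_lit 442) (nat_lit 390) (nat_lit 368)) (XT.lf (nat_lit 0) (nat_lit 987144329) (nat_lit 532) (nat_lit 6685172948) (nat_lit 76) (nat_lit 939871101) (nat_lit 227) (nat_lit 5) (nat_lit 234) (nat_lit 5) (nat_lit 228) (nat_lit 5) (nat_lit 443) (nat_lit 390) (nat_lit 367))) (XT.nd (nat_lit 78) (nat_lit 380) (nat_lit 0) (XT.lf (nat_lit 0) (nat_lit 4387238363) (nat_lit 532) (nat_lit 135204205) (nat_lit 76) (nat_lit 4202142426) (nat_lit 227) (nat_lit 5) (nat_lit 234) (nat_lit 5) (nat_lit 228) (nat_lit 5) (nat_lit 444) (nat_lit 390) (nat_lit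 366)) (XT.lf (nat_lit 0) (nat_lit 6643320963) (nat_lit 380) (nat_lit 1238487551) (nat_lit 456) (nat_lit 958773402) (nat_lit 222) (nat_lit 5) (nat_lit 227) (nat_lit 5) (nat_lit 228) (nat_lit 5) (nat_lit 445) (nat_lit 390) (nat_lit 365)))) (XT.nd (nat_lit 156) (nat_lit 456) (nat_lit 0) (XT.nd (nat_lit 78) (nat_lit 380) (nat_lit 0) (XT.lf (nat_lit 0) (nat_lit 2468014207) (nat_lit 456) (nat_lit 4344987751) (nat_lit 76) (nat_lit 2146450576) (nat_lit 216) (nat_lit 5) (nat_lit 222) (nat_lit 5) (nat_lit 217) (nat_lit 5) (nat_lit 446) (nat_lit 390) (nat_lit 364)) (XT.lf (nat_lit 0) (nat_lit 2522704254) (nat_lit 380) (nat_lit 3444487443) (nat_lit 456) (nat_lit 3114749475) (nat_lit 211) (nat_lit 5) (nat_lit 216) (nat_lit 5) (nat_lit 217) (nat_lit 5) (nat_lit 447) (nat_lit 390) (nat_lit 363))) (XT.nd (nat_lit 78) (nat_lit 0) (nat_lit 0) (XT.lf (nat_lit 0) (nat_lit 334959717) (nat_lit 456) (nat_lit 8826191396) (nat_lit 76) (nat_lit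 47486621) (nat_lit 205) (nat_lit 5) (nat_lit 211) (nat_lit 5) (nat_lit 206) (nat_lit 5) (nat_lit 448) (nat_lit 390) (nat_lit 362)) (XT.lf (nat_lit 0) (nat_lit 3857699765) (nat_lit 456) (nat_lit 1836034986) (nat_lit 76) (nat_lit 3643513164) (nat_lit 205) (nat_lit 5) (nat_lit 211) (nat_lit 5) (nat_lit 206) (nat_lit 5) (nat_lit 449) (nat_lit 390) (nat_lit 361))))) (XT.nd (nat_lit 312) (nat_lit 1064) (nat_lit 0) (XT.nd (nat_lit 156) (nat_lit 304) (nat_lit 0) (XT.nd (nat_lit 78) (nat_lit 380) (nat_lit 0) (XT.lf (nat_lit 0) (nat_lit 5371432262) (nat_lit 304) (nat_lit 2099476540) (nat_lit 380) (nat_lit 1999266114) (nat_lit 201) (nat_lit 5) (nat_lit 205) (nat_lit 5) (nat_lit 206) (nat_lit 5) (nat_lit 450) (nat_lit 390) (nat_lit 360)) (XT.lf (nat_lit 0) (nat_lit 1552998753) (nat_lit 380) (nat_lit 6447715629) (nat_lit 76) (nat_lit 1605964789) (nat_lit 196) (nat_lit 5) (nat_lit 201) (nat_lit 5) (nat_lit 197) (nat_lit 5) (nat_lit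 451) (nat_lit 390) (nat_lit 359))) (XT.nd (nat_lit 78) (nat_lit 0) (nat_lit 0) (XT.lf (nat_lit 0) (nat_lit 849681409) (nat_lit 304) (nat_lit 4326949743) (nat_lit 380) (nat_lit 4569906016) (nat_lit 192) (nat_lit 5) (nat_lit 196) (nat_lit 5) (nat_lit 197) (nat_lit 5) (nat_lit 452) (nat_lit 390) (nat_lit 358)) (XT.lf (nat_lit 0) (nat_lit 8400844068) (nat_lit 304) (nat_lit 508447057) (nat_lit 380) (nat_lit 981292104) (nat_lit 192) (nat_lit 5) (nat_lit 196) (nat_lit 5) (nat_lit 197) (nat_lit 5) (nat_lit 453) (nat_lit 390) (nat_lit 357)))) (XT.nd (nat_lit 156) (nat_lit 380) (nat_lit 0) (XT.nd (nat_lit 78) (nat_lit 304) (nat_lit 0) (XT.lf (nat_lit 0) (nat_lit 2690922547) (nat_lit 380) (nat_lit 3934259458) (nat_lit 76) (nat_lit 3412119859) (nat_lit 187) (nat_lit 5) (nat_lit 192) (nat_lit 5) (nat_lit 188) (nat_lit 5) (nat_lit 454) (nat_lit 390) (nat_lit 356)) (XT.lf (nat_lit 0) (nat_lit 3727625207) (nat_lit 304) (nat_lit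 2719115022) (nat_lit 380) (nat_lit 3741597292) (nat_lit 183) (nat_lit 5) (nat_lit 187) (nat_lit 5) (nat_lit 188) (nat_lit 5) (nat_lit 455) (nat_lit 390) (nat_lit 355))) (XT.nd (nat_lit 78) (nat_lit 76) (nat_lit 0) (XT.lf (nat_lit 0) (nat_lit 1272213689) (nat_lit 304) (nat_lit 9045599588) (nat_lit 380) (nat_lit 26015218) (nat_lit 179) (nat_lit 5) (nat_lit 183) (nat_lit 5) (nat_lit 184) (nat_lit 5) (nat_lit 456) (nat_lit 390) (nat_lit 354)) (XT.lf (nat_lit 0) (nat_lit 3757646550) (nat_lit 380) (nat_lit 1293836912) (nat_lit 76) (nat_lit 5450482656) (nat_lit 178) (nat_lit 5) (nat_lit 183) (nat_lit 5) (nat_lit 179) (nat_lit 5) (nat_lit 457) (nat_lit 390) (nat_lit 353))))))))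
noncomputable def xc72 : XT := (XT.nd (nat_lit 2418) (nat_lit 2888) (nat_lit 0) (XT.nd (nat_lit 1170) (nat_lit 2204) (nat_lit 0) (XT.nd (nat_lit 546) (nat_lit 1444) (nat_lit 0) (XT.nd (nat_lit 234) (nat_lit 760) (nat_lit 0) (XT.nd (nat_lit 78) (nat_lit 608) (nat_lit 0) (XT.lf (nat_lit 0) (nat_lit 6754382249) (nat_lit 228) (nat_lit 904622529) (nat_lit 304) (nat_lit 3005695609) (nat_lit 175) (nat_lit 5) (nat_lit 178) (nat_lit 5) (nat_lit 179) (nat_lit 5) (nat_lit 458) (nat_lit 390) (nat_lit 352)) (XT.nd (nat_lit 78) (nat_lit 228) (nat_lit 0) (XT.lf (nat_lit 0) (nat_lit 855025645) (nat_lit 380) (nat_lit 6646905950) (nat_lit 76) (nat_lit 3329349951) (nat_lit 170) (nat_lit 5) (nat_lit 175) (nat_lit 5) (nat_lit 171) (nat_lit 5) (nat_lit 459) (nat_lit 390) (nat_lit 351)) (XT.lf (nat_lit 0) (nat_lit 1495244479) (nat_lit 228) (nat_lit 3279679436) (nat_lit 304) (nat_lit 6226931838) (nat_lit 167) (nat_lit 5) (nat_lit 170)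 (nat_lit 5) (nat_lit 171) (nat_lit 5) (nat_lit 460) (nat_lit 390) (nat_lit 350)))) (XT.nd (nat_lit 156) (nat_lit 456) (nat_lit 0) (XT.nd (nat_lit 78) (nat_lit 304) (nat_lit 0) (XT.lf (nat_lit 0) (nat_lit 8831524199) (nat_lit 304) (nat_lit 1264263714) (nat_lit 76) (nat_lit 1081187481) (nat_lit 167) (nat_lit 5) (nat_lit 171) (nat_lit 5) (nat_lit 168) (nat_lit 5) (nat_lit 461) (nat_lit 390) (nat_lit 349)) (XT.lf (nat_lit 0) (nat_lit 1665509228) (nat_lit 304) (nat_lit 4131062278) (nat_lit 76) (nat_lit 5558943432) (nat_lit 163) (nat_lit 5) (nat_lit 167) (nat_lit 5) (nat_lit 164) (nat_lit 5) (nat_lit 462) (nat_lit 390) (nat_lit 348))) (XT.nd (nat_lit 78) (nat_lit 228) (nat_lit 0) (XT.lf (nat_lit 0) (nat_lit 4424570090) (nat_lit 228) (nat_lit 1323493192) (nat_lit 304) (nat_lit 5790699779) (nat_lit 160) (nat_lit 5) (nat_lit 163) (nat_lit 5) (nat_lit 164) (nat_lit 5) (nat_lit 463) (nat_lit 390) (nat_lit 347)) (XT.lf (nat_lit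 0) (nat_lit 1499000114) (nat_lit 228) (nat_lit 8485607204) (nat_lit 304) (nat_lit 1741957118) (nat_lit 157) (nat_lit 5) (nat_lit 160) (nat_lit 5) (nat_lit 161) (nat_lit 5) (nat_lit 464) (nat_lit 390) (nat_lit 346))))) (XT.nd (nat_lit 312) (nat_lit 684) (nat_lit 0) (XT.nd (nat_lit 156) (nat_lit 456) (nat_lit 0) (XT.nd (nat_lit 78) (nat_lit 228) (nat_lit 0) (XT.lf (nat_lit 0) (nat_lit 2410131942) (nat_lit 304) (nat_lit 1532353742) (nat_lit 76) (nat_lit 7975937015) (nat_lit 156) (nat_lit 5) (nat_lit 160) (nat_lit 5) (nat_lit 157) (nat_lit 5) (nat_lit 465) (nat_lit 390) (nat_lit 345)) (XT.lf (nat_lit 0) (nat_lit 6676363369) (nat_lit 304) (nat_lit 4661613332) (nat_lit 76) (nat_lit 776805963) (nat_lit 153) (nat_lit 5) (nat_lit 157) (nat_lit 5) (nat_lit 154) (nat_lit 5) (nat_lit 466) (nat_lit 390) (nat_lit 344))) (XT.nd (nat_lit 78) (nat_lit 228) (nat_lit 0) (XT.lf (nat_lit 0) (nat_lit 4377916451) (nat_lit 228) (nat_lit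 6735046274) (nat_lit 304) (nat_lit 1202800345) (nat_lit 150) (nat_lit 5) (nat_lit 153) (nat_lit 5) (nat_lit 154) (nat_lit 5) (nat_lit 467) (nat_lit 390) (nat_lit 343)) (XT.lf (nat_lit 0) (nat_lit 1163076495) (nat_lit 152) (nat_lit 1939686587) (nat_lit 228) (nat_lit 9418963477) (nat_lit 147) (nat_lit 5) (nat_lit 149) (nat_lit 5) (nat_lit 150) (nat_lit 5) (nat_lit 468) (nat_lit 390) (nat_lit 342)))) (XT.nd (nat_lit 156) (nat_lit 456) (nat_lit 0) (XT.nd (nat_lit 78) (nat_lit 228) (nat_lit 0) (XT.lf (nat_lit 0) (nat_lit 7569267516) (nat_lit 228) (nat_lit 2165212428) (nat_lit 76) (nat_lit 2997354247) (nat_lit 147) (nat_lit 5) (nat_lit 150) (nat_lit 5) (nat_lit 148) (nat_lit 5) (nat_lit 469) (nat_lit 390) (nat_lit 341)) (XT.lf (nat_lit 0) (nat_lit 7338749679) (nat_lit 228) (nat_lit 4868500291) (nat_lit 304) (nat_lit 739871549) (nat_lit 144) (nat_lit 5) (nat_lit 147) (nat_lit 5) (nat_lit 148) (nat_lit 5) (nat_lit 470)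 (nat_lit 390) (nat_lit 340))) (XT.nd (nat_lit 78) (nat_lit 228) (nat_lit 0) (XT.lf (nat_lit 0) (nat_lit 3751020020) (nat_lit 228) (nat_lit 9214664873) (nat_lit 76) (nat_lit 201784072) (nat_lit 141) (nat_lit 5) (nat_lit 144) (nat_lit 5) (nat_lit 142) (nat_lit 5) (nat_lit 471) (nat_lit 390) (nat_lit 339)) (XT.lf (nat_lit 0) (nat_lit 384719507) (nat_lit 228) (nat_lit 8034347301) (nat_lit 304) (nat_lit 4973422159) (nat_lit 138) (nat_lit 5) (nat_lit 141) (nat_lit 5) (nat_lit 142) (nat_lit 5) (nat_lit 472) (nat_lit 390) (nat_lit 338)))))) (XT.nd (nat_lit 624) (nat_lit 1140) (nat_lit 0) (XT.nd (nat_lit 312) (nat_lit 608) (nat_lit 0) (XT.nd (nat_lit 156) (nat_lit 228) (nat_lit 0) (XT.nd (nat_lit 78) (nat_lit 228) (nat_lit 0) (XT.lf (nat_lit 0) (nat_lit 10372104745) (nat_lit 228) (nat_lit 2896958375) (nat_lit 304) (nat_lit 353940054) (nat_lit 138) (nat_lit 5) (nat_lit 141) (nat_lit 5) (nat_lit 142) (nat_lit 5) (nat_lit 473)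 (nat_lit 390) (nat_lit 337)) (XT.lf (nat_lit 0) (nat_lit 4357151748) (nat_lit 228) (nat_lit 7080645403) (nat_lit 76) (nat_lit 2420197431) (nat_lit 135) (nat_lit 5) (nat_lit 138) (nat_lit 5) (nat_lit 136) (nat_lit 5) (nat_lit 474) (nat_lit 390) (nat_lit 336))) (XT.nd (nat_lit 78) (nat_lit 0) (nat_lit 0) (XT.lf (nat_lit 0) (nat_lit 3012752830) (nat_lit 228) (nat_lit 6230635685) (nat_lit 304) (nat_lit 4855315082) (nat_lit 132) (nat_lit 5) (nat_lit 135) (nat_lit 5) (nat_lit 136) (nat_lit 5) (nat_lit 475) (nat_lit 390) (nat_lit 335)) (XT.lf (nat_lit 0) (nat_lit 13467399480) (nat_lit 228) (nat_lit 831062798) (nat_lit 304) (nat_lit 47504861) (nat_lit 132) (nat_lit 5) (nat_lit 135) (nat_lit 5) (nat_lit 136) (nat_lit 5) (nat_lit 476) (nat_lit 390) (nat_lit 334)))) (XT.nd (nat_lit 156) (nat_lit 228) (nat_lit 0) (XT.nd (nat_lit 78) (nat_lit 152) (nat_lit 0) (XT.lf (nat_lit 0) (nat_lit 4900215750) (nat_lit 228) (nat_lit 4952517570)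 (nat_lit 76) (nat_lit 4743760174) (nat_lit 129) (nat_lit 5) (nat_lit 132) (nat_lit 5) (nat_lit 130) (nat_lit 5) (nat_lit 477) (nat_lit 390) (nat_lit 333)) (XT.lf (nat_lit 0) (nat_lit 5662259331) (nat_lit 152) (nat_lit 4356724808) (nat_lit 228) (nat_lit 4834830951) (nat_lit 127) (nat_lit 5) (nat_lit 129) (nat_lit 5) (nat_lit 130) (nat_lit 5) (nat_lit 478) (nat_lit 390) (nat_lit 332))) (XT.nd (nat_lit 78) (nat_lit 0) (nat_lit 0) (XT.lf (nat_lit 0) (nat_lit 199133812) (nat_lit 228) (nat_lit 13609440596) (nat_lit 76) (nat_lit 1309331646) (nat_lit 124) (nat_lit 5) (nat_lit 127) (nat_lit 5) (nat_lit 125) (nat_lit 5) (nat_lit 479) (nat_lit 390) (nat_lit 331)) (XT.lf (nat_lit 0) (nat_lit 5376107321) (nat_lit 228) (nat_lit 2846877494) (nat_lit 76) (nat_lit 7162824521) (nat_lit 124) (nat_lit 5) (nat_lit 127) (nat_lit 5) (nat_lit 125) (nat_lit 5) (nat_lit 480) (nat_lit 390) (nat_lit 330))))) (XT.nd (nat_lit 312) (nat_lit 608)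 (nat_lit 0) (XT.nd (nat_lit 156) (nat_lit 152) (nat_lit 0) (XT.nd (nat_lit 78) (nat_lit 228) (nat_lit 0) (XT.lf (nat_lit 0) (nat_lit 8317643504) (nat_lit 152) (nat_lit 2424383874) (nat_lit 228) (nat_lit 4918713831) (nat_lit 122) (nat_lit 5) (nat_lit 124) (nat_lit 5) (nat_lit 125) (nat_lit 5) (nat_lit 481) (nat_lit 390) (nat_lit 329)) (XT.lf (nat_lit 0) (nat_lit 373625456) (nat_lit 228) (nat_lit 12055457782) (nat_lit 76) (nat_lit 3513095749) (nat_lit 119) (nat_lit 5) (nat_lit 122) (nat_lit 5) (nat_lit 120) (nat_lit 5) (nat_lit 482) (nat_lit 390) (nat_lit 328))) (XT.nd (nat_lit 78) (nat_lit 152) (nat_lit 0) (XT.lf (nat_lit 0) (nat_lit 5778747383) (nat_lit 228) (nat_lit 782842215) (nat_lit 76) (nat_lit 9667423645) (nat_lit 119) (nat_lit 5) (nat_lit 122) (nat_lit 5) (nat_lit 120) (nat_lit 5) (nat_lit 483) (nat_lit 390) (nat_lit 327)) (XT.lf (nat_lit 0) (nat_lit 10960738484) (nat_lit 152) (nat_lit 445970936) (nat_lit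 228) (nat_lit 5115923058) (nat_lit 117) (nat_lit 5) (nat_lit 119) (nat_lit 5) (nat_lit 120) (nat_lit 5) (nat_lit 484) (nat_lit 390) (nat_lit 326)))) (XT.nd (nat_lit 156) (nat_lit 228) (nat_lit 0) (XT.nd (nat_lit 78) (nat_lit 152) (nat_lit 0) (XT.lf (nat_lit 0) (nat_lit 451511545) (nat_lit 228) (nat_lit 10595262229) (nat_lit 76) (nat_lit 5775764497) (nat_lit 114) (nat_lit 5) (nat_lit 117) (nat_lit 5) (nat_lit 115) (nat_lit 5) (nat_lit 485) (nat_lit 390) (nat_lit 325)) (XT.lf (nat_lit 0) (nat_lit 1241615780) (nat_lit 152) (nat_lit 4870192735) (nat_lit 228) (nat_lit 11017253711) (nat_lit 112) (nat_lit 5) (nat_lit 114) (nat_lit 5) (nat_lit 115) (nat_lit 5) (nat_lit 486) (nat_lit 390) (nat_lit 324))) (XT.nd (nat_lit 78) (nat_lit 228) (nat_lit 0) (XT.lf (nat_lit 0) (nat_lit 12020063694) (nat_lit 228) (nat_lit 3887711183) (nat_lit 76) (nat_lit 1534663027) (nat_lit 112) (nat_lit 5) (nat_lit 115) (nat_lit 5) (nat_lit 113)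 (nat_lit 4) (nat_lit 487) (nat_lit 390) (nat_lit 323)) (XT.lf (nat_lit 0) (nat_lit 421649955) (nat_lit 228) (nat_lit 9256024310) (nat_lit 76) (nat_lit 8084804701) (nat_lit 109) (nat_lit 5) (nat_lit 112) (nat_lit 5) (nat_lit 110) (nat_lit 5) (nat_lit 488) (nat_lit 390) (nat_lit 322))))))) (XT.nd (nat_lit 1170) (nat_lit 1444) (nat_lit 0) (XT.nd (nat_lit 546) (nat_lit 684) (nat_lit 0) (XT.nd (nat_lit 234) (nat_lit 456) (nat_lit 0) (XT.nd (nat_lit 78) (nat_lit 152) (nat_lit 0) (XT.lf (nat_lit 0) (nat_lit 3190135447) (nat_lit 152) (nat_lit 3169312478) (nat_lit 228) (nat_lit 11730240047) (nat_lit 107) (nat_lit 5) (nat_lit 109) (nat_lit 5) (nat_lit 110) (nat_lit 5) (nat_lit 489) (nat_lit 390) (nat_lit 321)) (XT.nd (nat_lit 78) (nat_lit 152) (nat_lit 0) (XT.lf (nat_lit 0) (nat_lit 12561019528) (nat_lit 228) (nat_lit 2338773523) (nat_lit 76) (nat_lit 3524351437) (nat_lit 107) (nat_lit 5) (nat_lit 110) (nat_lit 5) (nat_lit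 108) (nat_lit 4) (nat_lit 490) (nat_lit 390) (nat_lit 320)) (XT.lf (nat_lit 0) (nat_lit 270152270) (nat_lit 152) (nat_lit 8069345055) (nat_lit 76) (nat_lit 10426276034) (nat_lit 105) (nat_lit 5) (nat_lit 107) (nat_lit 5) (nat_lit 106) (nat_lit 5) (nat_lit 491) (nat_lit 390) (nat_lit 319)))) (XT.nd (nat_lit 156) (nat_lit 304) (nat_lit 0) (XT.nd (nat_lit 78) (nat_lit 0) (nat_lit 0) (XT.lf (nat_lit 0) (nat_lit 5016143321) (nat_lit 152) (nat_lit 1484096004) (nat_lit 228) (nat_lit 12614751004) (nat_lit 103) (nat_lit 5) (nat_lit 105) (nat_lit 5) (nat_lit 106) (nat_lit 5) (nat_lit 492) (nat_lit 390) (nat_lit 318)) (XT.lf (nat_lit 0) (nat_lit 13011846270) (nat_lit 228) (nat_lit 944318235) (nat_lit 76) (nat_lit 5515681170) (nat_lit 103) (nat_lit 5) (nat_lit 106) (nat_lit 5) (nat_lit 104) (nat_lit 4) (nat_lit 493) (nat_lit 390) (nat_lit 317))) (XT.nd (nat_lit 78) (nat_lit 228) (nat_lit 0) (XT.lf (nat_lit 0) (nat_lit 12764205707)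 (nat_lit 76) (nat_lit 7051906228) (nat_lit 152) (nat_lit 20375799) (nat_lit 102) (nat_lit 5) (nat_lit 103) (nat_lit 5) (nat_lit 104) (nat_lit 4) (nat_lit 494) (nat_lit 390) (nat_lit 316)) (XT.lf (nat_lit 0) (nat_lit 6518852772) (nat_lit 228) (nat_lit 13527509274) (nat_lit 76) (nat_lit 162737015) (nat_lit 99) (nat_lit 5) (nat_lit 102) (nat_lit 5) (nat_lit 100) (nat_lit 4) (nat_lit 495) (nat_lit 390) (nat_lit 315))))) (XT.nd (nat_lit 312) (nat_lit 304) (nat_lit 0) (XT.nd (nat_lit 156) (nat_lit 304) (nat_lit 0) (XT.nd (nat_lit 78) (nat_lit 0) (nat_lit 0) (XT.lf (nat_lit 0) (nat_lit 261478449) (nat_lit 76) (nat_lit 13096924238) (nat_lit 152) (nat_lit 7231343706) (nat_lit 98) (nat_lit 5) (nat_lit 99) (nat_lit 5) (nat_lit 100) (nat_lit 4) (nat_lit 496) (nat_lit 390) (nat_lit 314)) (XT.lf (nat_lit 0) (nat_lit 14666973128) (nat_lit 76) (nat_lit 5833310148) (nat_lit 152) (nat_lit 478615873) (nat_lit 98) (nat_lit 5) (nat_lit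 99) (nat_lit 5) (nat_lit 100) (nat_lit 4) (nat_lit 497) (nat_lit 390) (nat_lit 313))) (XT.nd (nat_lit 78) (nat_lit 76) (nat_lit 0) (XT.lf (nat_lit 0) (nat_lit 6406857037) (nat_lit 228) (nat_lit 13244983125) (nat_lit 76) (nat_lit 1724322491) (nat_lit 95) (nat_lit 5) (nat_lit 98) (nat_lit 5) (nat_lit 96) (nat_lit 4) (nat_lit 498) (nat_lit 390) (nat_lit 312)) (XT.lf (nat_lit 0) (nat_lit 1241465970) (nat_lit 76) (nat_lit 12343283023) (nat_lit 152) (nat_lit 8197588971) (nat_lit 94) (nat_lit 5) (nat_lit 95) (nat_lit 5) (nat_lit 96) (nat_lit 4) (nat_lit 499) (nat_lit 390) (nat_lit 311)))) (XT.nd (nat_lit 156) (nat_lit 76) (nat_lit 0) (XT.nd (nat_lit 78) (nat_lit 228) (nat_lit 0) (XT.lf (nat_lit 0) (nat_lit 16361566314) (nat_lit 76) (nat_lit 4712003250) (nat_lit 152) (nat_lit 1124261508) (nat_lit 94) (nat_lit 5) (nat_lit 95) (nat_lit 5) (nat_lit 96) (nat_lit 4) (nat_lit 500) (nat_lit 390) (nat_lit 310)) (XT.lf (nat_lit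 0) (nat_lit 6125033208) (nat_lit 228) (nat_lit 13291999075) (nat_lit 76) (nat_lit 3204460312) (nat_lit 91) (nat_lit 5) (nat_lit 94) (nat_lit 5) (nat_lit 92) (nat_lit 4) (nat_lit 501) (nat_lit 390) (nat_lit 309))) (XT.nd (nat_lit 78) (nat_lit 0) (nat_lit 0) (XT.lf (nat_lit 0) (nat_lit 1921719318) (nat_lit 76) (nat_lit 11734815363) (nat_lit 152) (nat_lit 9398375877) (nat_lit 90) (nat_lit 5) (nat_lit 91) (nat_lit 5) (nat_lit 92) (nat_lit 4) (nat_lit 502) (nat_lit 390) (nat_lit 308)) (XT.lf (nat_lit 0) (nat_lit 17793841674) (nat_lit 76) (nat_lit 3717452023) (nat_lit 152) (nat_lit 1987118249) (nat_lit 90) (nat_lit 5) (nat_lit 91) (nat_lit 5) (nat_lit 92) (nat_lit 4) (nat_lit 503) (nat_lit 390) (nat_lit 307)))))) (XT.nd (nat_lit 624) (nat_lit 532) (nat_lit 0) (XT.nd (nat_lit 312) (nat_lit 380) (nat_lit 0) (XT.nd (nat_lit 156) (nat_lit 228) (nat_lit 0) (XT.nd (nat_lit 78) (nat_lit 76) (nat_lit 0) (XT.lf (nat_lit 0) (nat_lit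 5643607838) (nat_lit 228) (nat_lit 13732792248) (nat_lit 76) (nat_lit 4573970798) (nat_lit 87) (nat_lit 5) (nat_lit 90) (nat_lit 5) (nat_lit 88) (nat_lit 4) (nat_lit 504) (nat_lit 390) (nat_lit 306)) (XT.lf (nat_lit 0) (nat_lit 2237550829) (nat_lit 76) (nat_lit 11306147452) (nat_lit 152) (nat_lit 10869188861) (nat_lit 86) (nat_lit 5) (nat_lit 87) (nat_lit 5) (nat_lit 88) (nat_lit 4) (nat_lit 505) (nat_lit 390) (nat_lit 305))) (XT.nd (nat_lit 78) (nat_lit 228) (nat_lit 0) (XT.lf (nat_lit 0) (nat_lit 18899961430) (nat_lit 76) (nat_lit 2883788238) (nat_lit 152) (nat_lit 3102440706) (nat_lit 86) (nat_lit 5) (nat_lit 87) (nat_lit 5) (nat_lit 88) (nat_lit 4) (nat_lit 506) (nat_lit 390) (nat_lit 304)) (XT.lf (nat_lit 0) (nat_lit 4927246918) (nat_lit 228) (nat_lit 14642401377) (nat_lit 76) (nat_lit 5798867311) (nat_lit 83) (nat_lit 5) (nat_lit 86) (nat_lit 5) (nat_lit 84) (nat_lit 4) (nat_lit 507) (nat_lit 390) (nat_lit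 303)))) (XT.nd (nat_lit 156) (nat_lit 304) (nat_lit 0) (XT.nd (nat_lit 78) (nat_lit 0) (nat_lit 0) (XT.lf (nat_lit 0) (nat_lit 2113083188) (nat_lit 76) (nat_lit 11097351664) (nat_lit 152) (nat_lit 12651705468) (nat_lit 82) (nat_lit 5) (nat_lit 83) (nat_lit 5) (nat_lit 84) (nat_lit 4) (nat_lit 508) (nat_lit 390) (nat_lit 302)) (XT.lf (nat_lit 0) (nat_lit 19604722234) (nat_lit 76) (nat_lit 2250686149) (nat_lit 152) (nat_lit 4511766898) (nat_lit 82) (nat_lit 5) (nat_lit 83) (nat_lit 5) (nat_lit 84) (nat_lit 4) (nat_lit 509) (nat_lit 390) (nat_lit 301))) (XT.nd (nat_lit 78) (nat_lit 76) (nat_lit 0) (XT.lf (nat_lit 0) (nat_lit 3934190935) (nat_lit 228) (nat_lit 16108480432) (nat_lit 76) (nat_lit 6839451860) (nat_lit 79) (nat_lit 5) (nat_lit 82) (nat_lit 5) (nat_lit 80) (nat_lit 4) (nat_lit 510) (nat_lit 390) (nat_lit 300)) (XT.lf (nat_lit 0) (nat_lit 1459357630) (nat_lit 76) (nat_lit 11154933102) (nat_lit 152) (nat_lit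 14794745580) (nat_lit 78) (nat_lit 5) (nat_lit 79) (nat_lit 5) (nat_lit 80) (nat_lit 4) (nat_lit 511) (nat_lit 390) (nat_lit 299))))) (XT.nd (nat_lit 312) (nat_lit 304) (nat_lit 0) (XT.nd (nat_lit 156) (nat_lit 76) (nat_lit 0) (XT.nd (nat_lit 78) (nat_lit 152) (nat_lit 0) (XT.lf (nat_lit 0) (nat_lit 19819617900) (nat_lit 76) (nat_lit 1864371338) (nat_lit 152) (nat_lit 6263891864) (nat_lit 78) (nat_lit 5) (nat_lit 79) (nat_lit 5) (nat_lit 80) (nat_lit 4) (nat_lit 512) (nat_lit 390) (nat_lit 298)) (XT.lf (nat_lit 0) (nat_lit 2615245624) (nat_lit 152) (nat_lit 18233396897) (nat_lit 76) (nat_lit 7649273675) (nat_lit 76) (nat_lit 5) (nat_lit 78) (nat_lit 5) (nat_lit 77) (nat_lit 4) (nat_lit 513) (nat_lit 390) (nat_lit 297))) (XT.nd (nat_lit 78) (nat_lit 0) (nat_lit 0) (XT.lf (nat_lit 0) (nat_lit 172141505) (nat_lit 76) (nat_lit 11532965696) (nat_lit 152) (nat_lit 17355377308) (nat_lit 75) (nat_lit 5) (nat_lit 76) (nat_lit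 5) (nat_lit 77) (nat_lit 4) (nat_lit 514) (nat_lit 390) (nat_lit 296)) (XT.lf (nat_lit 0) (nat_lit 19440592961) (nat_lit 76) (nat_lit 1778783502) (nat_lit 152) (nat_lit 8416002215) (nat_lit 75) (nat_lit 5) (nat_lit 76) (nat_lit 5) (nat_lit 77) (nat_lit 4) (nat_lit 515) (nat_lit 390) (nat_lit 295)))) (XT.nd (nat_lit 156) (nat_lit 152) (nat_lit 0) (XT.nd (nat_lit 78) (nat_lit 0) (nat_lit 0) (XT.lf (nat_lit 0) (nat_lit 912605907) (nat_lit 152) (nat_lit 21136663132) (nat_lit 76) (nat_lit 8173927582) (nat_lit 73) (nat_lit 5) (nat_lit 75) (nat_lit 5) (nat_lit 74) (nat_lit 4) (nat_lit 516) (nat_lit 390) (nat_lit 294)) (XT.lf (nat_lit 0) (nat_lit 10441770851) (nat_lit 152) (nat_lit 1834111102) (nat_lit 76) (nat_lit 18547571940) (nat_lit 73) (nat_lit 5) (nat_lit 75) (nat_lit 5) (nat_lit 74) (nat_lit 4) (nat_lit 517) (nat_lit 390) (nat_lit 293))) (XT.nd (nat_lit 78) (nat_lit 76) (nat_lit 0) (XT.lf (nat_lit 0) (nat_lit 18345436972)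 (nat_lit 76) (nat_lit 2056918948) (nat_lit 152) (nat_lit 11034996751) (nat_lit 72) (nat_lit 5) (nat_lit 73) (nat_lit 5) (nat_lit 74) (nat_lit 4) (nat_lit 518) (nat_lit 390) (nat_lit 292)) (XT.lf (nat_lit 0) (nat_lit 7095615468) (nat_lit 76) (nat_lit 23703704533) (nat_lit 76) (nat_lit 1266221707) (nat_lit 71) (nat_lit 4) (nat_lit 72) (nat_lit 5) (nat_lit 72) (nat_lit 4) (nat_lit 519) (nat_lit 390) (nat_lit 291))))))))
noncomputable def xc73 : XT := (XT.nd (nat_lit 2418) (nat_lit 152) (nat_lit 0) (XT.nd (nat_lit 1170) (nat_lit 1064) (nat_lit 0) (XT.nd (nat_lit 546) (nat_lit 532) (nat_lit 0) (XT.nd (nat_lit 234) (nat_lit 304) (nat_lit 0) (XT.nd (nat_lit 78) (nat_lit 152) (nat_lit 0) (XT.lf (nat_lit 0) (nat_lit 8747126029) (nat_lit 152) (nat_lit 4717824963) (nat_lit 76) (nat_lit 19241394783) (nat_lit 70) (nat_lit 5) (nat_lit 72) (nat_lit 5) (nat_lit 71) (nat_lit 4) (nat_lit 520) (nat_lit 390) (nat_lit 290)) (XT.nd (nat_lit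 78) (nat_lit 76) (nat_lit 0) (XT.lf (nat_lit 0) (nat_lit 16390761498) (nat_lit 76) (nat_lit 2772382529) (nat_lit 152) (nat_lit 14199022370) (nat_lit 69) (nat_lit 5) (nat_lit 70) (nat_lit 5) (nat_lit 71) (nat_lit 4) (nat_lit 521) (nat_lit 390) (nat_lit 289)) (XT.lf (nat_lit 0) (nat_lit 4135671524) (nat_lit 76) (nat_lit 25893258356) (nat_lit 76) (nat_lit 4004613262) (nat_lit 68) (nat_lit 4) (nat_lit 69) (nat_lit 5) (nat_lit 69) (nat_lit 4) (nat_lit 522) (nat_lit 390) (nat_lit 288)))) (XT.nd (nat_lit 156) (nat_lit 152) (nat_lit 0) (XT.nd (nat_lit 78) (nat_lit 76) (nat_lit 0) (XT.lf (nat_lit 0) (nat_lit 6539621839) (nat_lit 152) (nat_lit 8646093868) (nat_lit 76) (nat_lit 19532349997) (nat_lit 67) (nat_lit 5) (nat_lit 69) (nat_lit 5) (nat_lit 68) (nat_lit 4) (nat_lit 523) (nat_lit 390) (nat_lit 287)) (XT.lf (nat_lit 0) (nat_lit 13408492530) (nat_lit 76) (nat_lit 4011183400) (nat_lit 152) (nat_lit 17999259216) (nat_lit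 66) (nat_lit 5) (nat_lit 67) (nat_lit 5) (nat_lit 68) (nat_lit 4) (nat_lit 524) (nat_lit 390) (nat_lit 286))) (XT.nd (nat_lit 78) (nat_lit 76) (nat_lit 0) (XT.lf (nat_lit 0) (nat_lit 34693141) (nat_lit 76) (nat_lit 28723152914) (nat_lit 76) (nat_lit 7379033294) (nat_lit 65) (nat_lit 4) (nat_lit 66) (nat_lit 5) (nat_lit 66) (nat_lit 4) (nat_lit 525) (nat_lit 390) (nat_lit 285)) (XT.lf (nat_lit 0) (nat_lit 3725656919) (nat_lit 152) (nat_lit 13810250513) (nat_lit 76) (nat_lit 19332368321) (nat_lit 64) (nat_lit 5) (nat_lit 66) (nat_lit 5) (nat_lit 65) (nat_lit 4) (nat_lit 526) (nat_lit 390) (nat_lit 284))))) (XT.nd (nat_lit 312) (nat_lit 228) (nat_lit 0) (XT.nd (nat_lit 156) (nat_lit 228) (nat_lit 0) (XT.nd (nat_lit 78) (nat_lit 0) (nat_lit 0) (XT.lf (nat_lit 0) (nat_lit 9201800393) (nat_lit 76) (nat_lit 5873814377) (nat_lit 152) (nat_lit 22541994441) (nat_lit 63) (nat_lit 5) (nat_lit 64) (nat_lit 5) (nat_lit 65) (nat_lit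 4) (nat_lit 527) (nat_lit 390) (nat_lit 283)) (XT.lf (nat_lit 0) (nat_lit 26937929723) (nat_lit 152) (nat_lit 5313490102) (nat_lit 0) (nat_lit 6132847196) (nat_lit 63) (nat_lit 5) (nat_lit 65) (nat_lit 4) (nat_lit 63) (nat_lit 4) (nat_lit 528) (nat_lit 390) (nat_lit 282))) (XT.nd (nat_lit 78) (nat_lit 76) (nat_lit 0) (XT.lf (nat_lit 0) (nat_lit 195715915) (nat_lit 152) (nat_lit 20433735869) (nat_lit 76) (nat_lit 18538082644) (nat_lit 61) (nat_lit 5) (nat_lit 63) (nat_lit 5) (nat_lit 62) (nat_lit 4) (nat_lit 529) (nat_lit 390) (nat_lit 281)) (XT.lf (nat_lit 0) (nat_lit 3540376793) (nat_lit 76) (nat_lit 8477660942) (nat_lit 152) (nat_lit 27951030300) (nat_lit 60) (nat_lit 5) (nat_lit 61) (nat_lit 5) (nat_lit 62) (nat_lit 4) (nat_lit 530) (nat_lit 390) (nat_lit 280)))) (XT.nd (nat_lit 156) (nat_lit 152) (nat_lit 0) (XT.nd (nat_lit 78) (nat_lit 76) (nat_lit 0) (XT.lf (nat_lit 0) (nat_lit 24415111937) (nat_lit 152) (nat_lit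 12230351907) (nat_lit 0) (nat_lit 4142581410) (nat_lit 60) (nat_lit 5) (nat_lit 62) (nat_lit 4) (nat_lit 60) (nat_lit 4) (nat_lit 531) (nat_lit 390) (nat_lit 279)) (XT.lf (nat_lit 0) (nat_lit 12807876135) (nat_lit 76) (nat_lit 24556943390) (nat_lit 76) (nat_lit 4261350714) (nat_lit 59) (nat_lit 4) (nat_lit 60) (nat_lit 5) (nat_lit 60) (nat_lit 4) (nat_lit 532) (nat_lit 390) (nat_lit 278))) (XT.nd (nat_lit 78) (nat_lit 76) (nat_lit 0) (XT.lf (nat_lit 0) (nat_lit 8151708422) (nat_lit 152) (nat_lit 3770015012) (nat_lit 76) (nat_lit 30562394834) (nat_lit 58) (nat_lit 5) (nat_lit 60) (nat_lit 5) (nat_lit 59) (nat_lit 4) (nat_lit 533) (nat_lit 390) (nat_lit 277)) (XT.lf (nat_lit 0) (nat_lit 21053834693) (nat_lit 152) (nat_lit 21000102281) (nat_lit 0) (nat_lit 1306532366) (nat_lit 57) (nat_lit 5) (nat_lit 59) (nat_lit 4) (nat_lit 57) (nat_lit 4) (nat_lit 534) (nat_lit 390) (nat_lit 276)))))) (XT.nd (nat_lit 624) (nat_lit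 532) (nat_lit 0) (XT.nd (nat_lit 312) (nat_lit 304) (nat_lit 0) (XT.nd (nat_lit 156) (nat_lit 76) (nat_lit 0) (XT.nd (nat_lit 78) (nat_lit 76) (nat_lit 0) (XT.lf (nat_lit 0) (nat_lit 5018922523) (nat_lit 76) (nat_lit 29503302615) (nat_lit 76) (nat_lit 9735509868) (nat_lit 56) (nat_lit 4) (nat_lit 57) (nat_lit 5) (nat_lit 57) (nat_lit 4) (nat_lit 535) (nat_lit 390) (nat_lit 275)) (XT.lf (nat_lit 0) (nat_lit 3338699617) (nat_lit 152) (nat_lit 13010126134) (nat_lit 76) (nat_lit 28826507176) (nat_lit 55) (nat_lit 5) (nat_lit 57) (nat_lit 5) (nat_lit 56) (nat_lit 4) (nat_lit 536) (nat_lit 390) (nat_lit 274))) (XT.nd (nat_lit 78) (nat_lit 0) (nat_lit 0) (XT.lf (nat_lit 0) (nat_lit 14135756164) (nat_lit 76) (nat_lit 2584813643) (nat_lit 152) (nat_lit 29393664059) (nat_lit 54) (nat_lit 5) (nat_lit 55) (nat_lit 5) (nat_lit 56) (nat_lit 4) (nat_lit 537) (nat_lit 390) (nat_lit 273)) (XT.lf (nat_lit 0) (nat_lit 30723253441)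 (nat_lit 152) (nat_lit 4876517385) (nat_lit 0) (nat_lit 11474950352) (nat_lit 54) (nat_lit 5) (nat_lit 56) (nat_lit 4) (nat_lit 54) (nat_lit 4) (nat_lit 538) (nat_lit 390) (nat_lit 272)))) (XT.nd (nat_lit 156) (nat_lit 76) (nat_lit 0) (XT.nd (nat_lit 78) (nat_lit 152) (nat_lit 0) (XT.lf (nat_lit 0) (nat_lit 23422257947) (nat_lit 76) (nat_lit 21950471093) (nat_lit 76) (nat_lit 2684492789) (nat_lit 53) (nat_lit 4) (nat_lit 54) (nat_lit 5) (nat_lit 54) (nat_lit 4) (nat_lit 539) (nat_lit 390) (nat_lit 271)) (XT.lf (nat_lit 0) (nat_lit 3513079232) (nat_lit 76) (nat_lit 7716584777) (nat_lit 152) (nat_lit 37834463770) (nat_lit 51) (nat_lit 5) (nat_lit 52) (nat_lit 5) (nat_lit 53) (nat_lit 4) (nat_lit 540) (nat_lit 390) (nat_lit 270))) (XT.nd (nat_lit 78) (nat_lit 76) (nat_lit 0) (XT.lf (nat_lit 0) (nat_lit 25801271006) (nat_lit 152) (nat_lit 17226751367) (nat_lit 0) (nat_lit 7063601787) (nat_lit 51) (nat_lit 5) (nat_lit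 53) (nat_lit 4) (nat_lit 51) (nat_lit 4) (nat_lit 541) (nat_lit 390) (nat_lit 269)) (XT.lf (nat_lit 0) (nat_lit 12059860068) (nat_lit 76) (nat_lit 28919194003) (nat_lit 76) (nat_lit 10165820583) (nat_lit 50) (nat_lit 4) (nat_lit 51) (nat_lit 5) (nat_lit 51) (nat_lit 4) (nat_lit 542) (nat_lit 390) (nat_lit 268))))) (XT.nd (nat_lit 312) (nat_lit 304) (nat_lit 0) (XT.nd (nat_lit 156) (nat_lit 76) (nat_lit 0) (XT.nd (nat_lit 78) (nat_lit 76) (nat_lit 0) (XT.lf (nat_lit 0) (nat_lit 4449317787) (nat_lit 152) (nat_lit 9736505108) (nat_lit 76) (nat_lit 38038064404) (nat_lit 49) (nat_lit 5) (nat_lit 51) (nat_lit 5) (nat_lit 50) (nat_lit 4) (nat_lit 543) (nat_lit 390) (nat_lit 267)) (XT.lf (nat_lit 0) (nat_lit 19487721181) (nat_lit 152) (nat_lit 32587467391) (nat_lit 0) (nat_lit 1251388238) (nat_lit 48) (nat_lit 5) (nat_lit 50) (nat_lit 4) (nat_lit 48) (nat_lit 4) (nat_lit 544) (nat_lit 390) (nat_lit 266))) (XT.nd (nat_lit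 78) (nat_lit 76) (nat_lit 0) (XT.lf (nat_lit 0) (nat_lit 35194427331) (nat_lit 152) (nat_lit 2317263799) (nat_lit 0) (nat_lit 16944141408) (nat_lit 48) (nat_lit 5) (nat_lit 50) (nat_lit 4) (nat_lit 48) (nat_lit 4) (nat_lit 545) (nat_lit 390) (nat_lit 265)) (XT.lf (nat_lit 0) (nat_lit 29390858262) (nat_lit 76) (nat_lit 22242061341) (nat_lit 76) (nat_lit 3978228837) (nat_lit 47) (nat_lit 4) (nat_lit 48) (nat_lit 5) (nat_lit 48) (nat_lit 4) (nat_lit 546) (nat_lit 390) (nat_lit 264)))) (XT.nd (nat_lit 156) (nat_lit 152) (nat_lit 0) (XT.nd (nat_lit 78) (nat_lit 0) (nat_lit 0) (XT.lf (nat_lit 0) (nat_lit 5242579187) (nat_lit 76) (nat_lit 6343412788) (nat_lit 152) (nat_lit 45210176680) (nat_lit 45) (nat_lit 5) (nat_lit 46) (nat_lit 5) (nat_lit 47) (nat_lit 4) (nat_lit 547) (nat_lit 390) (nat_lit 263)) (XT.lf (nat_lit 0) (nat_lit 27879096676) (nat_lit 152) (nat_lit 20004149257) (nat_lit 0) (nat_lit 10122054466) (nat_lit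 45) (nat_lit 5) (nat_lit 47) (nat_lit 4) (nat_lit 45) (nat_lit 4) (nat_lit 548) (nat_lit 390) (nat_lit 262))) (XT.nd (nat_lit 78) (nat_lit 76) (nat_lit 0) (XT.lf (nat_lit 0) (nat_lit 12633025337) (nat_lit 76) (nat_lit 32190934999) (nat_lit 76) (nat_lit 14421856827) (nat_lit 44) (nat_lit 4) (nat_lit 45) (nat_lit 5) (nat_lit 45) (nat_lit 4) (nat_lit 549) (nat_lit 390) (nat_lit 261)) (XT.lf (nat_lit 0) (nat_lit 1902134121) (nat_lit 152) (nat_lit 13919431305) (nat_lit 76) (nat_lit 44695996346) (nat_lit 43) (nat_lit 5) (nat_lit 45) (nat_lit 5) (nat_lit 44) (nat_lit 4) (nat_lit 550) (nat_lit 390) (nat_lit 260))))))) (XT.nd (nat_lit 53118) (nat_lit 0) (nat_lit 13300) (XT.nd (nat_lit 52494) (nat_lit 0) (nat_lit 19456) (XT.nd (nat_lit 52182) (nat_lit 0) (nat_lit 25156) (XT.nd (nat_lit 156) (nat_lit 76) (nat_lit 0) (XT.nd (nat_lit 78) (nat_lit 0) (nat_lit 0) (XT.lf (nat_lit 0) (nat_lit 18610301413) (nat_lit 152) (nat_lit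 41870934432) (nat_lit 0) (nat_lit 1336409547) (nat_lit 42) (nat_lit 5) (nat_lit 44) (nat_lit 4) (nat_lit 42) (nat_lit 4) (nat_lit 551) (nat_lit 390) (nat_lit 259)) (XT.lf (nat_lit 0) (nat_lit 36097676503) (nat_lit 152) (nat_lit 8237625332) (nat_lit 0) (nat_lit 18813090841) (nat_lit 42) (nat_lit 5) (nat_lit 44) (nat_lit 4) (nat_lit 42) (nat_lit 4) (nat_lit 552) (nat_lit 390) (nat_lit 258))) (XT.nd (nat_lit 51948) (nat_lit 0) (nat_lit 28044) (XT.lf (nat_lit 0) (nat_lit 26889350402) (nat_lit 76) (nat_lit 27458763387) (nat_lit 76) (nat_lit 10163795398) (nat_lit 41) (nat_lit 4) (nat_lit 42) (nat_lit 5) (nat_lit 42) (nat_lit 4) (nat_lit 553) (nat_lit 390) (nat_lit 257)) (XT.lf (nat_lit 0) (nat_lit 1210494990) (nat_lit 836) (nat_lit 971438595) (nat_lit 0) (nat_lit 1210494990) (nat_lit 410) (nat_lit 5) (nat_lit 421) (nat_lit 4) (nat_lit 410) (nat_lit 4) (nat_lit 418) (nat_lit 391) (nat_lit 391)))) (XT.nd (nat_lit 156) (nat_lit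 1064) (nat_lit 0) (XT.nd (nat_lit 78) (nat_lit 988) (nat_lit 0) (XT.lf (nat_lit 0) (nat_lit 2757651122) (nat_lit 836) (nat_lit 3064105360) (nat_lit 836) (nat_lit 1002726051) (nat_lit 399) (nat_lit 4) (nat_lit 410) (nat_lit 5) (nat_lit 410) (nat_lit 4) (nat_lit 419) (nat_lit 391) (nat_lit 390)) (XT.lf (nat_lit 0) (nat_lit 668675751) (nat_lit 912) (nat_lit 1662060304) (nat_lit 988) (nat_lit 4536274280) (nat_lit 386) (nat_lit 5) (nat_lit 398) (nat_lit 5) (nat_lit 399) (nat_lit 4) (nat_lit 420) (nat_lit 391) (nat_lit 389))) (XT.nd (nat_lit 78) (nat_lit 1064) (nat_lit 0) (XT.lf (nat_lit 0) (nat_lit 5525565825) (nat_lit 912) (nat_lit 154893273) (nat_lit 988) (nat_lit 1231971623) (nat_lit 386) (nat_lit 5) (nat_lit 398) (nat_lit 5) (nat_lit 399) (nat_lit 4) (nat_lit 421) (nat_lit 391) (nat_lit 388)) (XT.lf (nat_lit 0) (nat_lit 2074497869) (nat_lit 1064) (nat_lit 3451119059) (nat_lit 76) (nat_lit 1434614783) (nat_lit 372)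 (nat_lit 5) (nat_lit 386) (nat_lit 5) (nat_lit 373) (nat_lit 4) (nat_lit 422) (nat_lit 391) (nat_lit 387))))) (XT.nd (nat_lit 312) (nat_lit 2128) (nat_lit 0) (XT.nd (nat_lit 156) (nat_lit 2432) (nat_lit 0) (XT.nd (nat_lit 78) (nat_lit 76) (nat_lit 0) (XT.lf (nat_lit 0) (nat_lit 1491163149) (nat_lit 1064) (nat_lit 3893899305) (nat_lit 1140) (nat_lit 1626154798) (nat_lit 358) (nat_lit 5) (nat_lit 372) (nat_lit 5) (nat_lit 373) (nat_lit 4) (nat_lit 423) (nat_lit 391) (nat_lit 386)) (XT.lf (nat_lit 0) (nat_lit 1633310524) (nat_lit 1140) (nat_lit 523679163) (nat_lit 76) (nat_lit 4908172960) (nat_lit 357) (nat_lit 5) (nat_lit 372) (nat_lit 5) (nat_lit 358) (nat_lit 5) (nat_lit 424) (nat_lit 391) (nat_lit 385))) (XT.nd (nat_lit 78) (nat_lit 1292) (nat_lit 0) (XT.lf (nat_lit 0) (nat_lit 4602646160) (nat_lit 1140) (nat_lit 303052122) (nat_lit 1216) (nat_lit 2216116218) (nat_lit 342) (nat_lit 5) (nat_lit 357) (nat_lit 5)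 (nat_lit 358) (nat_lit 5) (nat_lit 425) (nat_lit 391) (nat_lit 384)) (XT.lf (nat_lit 0) (nat_lit 1026030388) (nat_lit 1292) (nat_lit 4537483738) (nat_lit 76) (nat_lit 1617801333) (nat_lit 325) (nat_lit 5) (nat_lit 342) (nat_lit 5) (nat_lit 326) (nat_lit 5) (nat_lit 426) (nat_lit 391) (nat_lit 383)))) (XT.nd (nat_lit 156) (nat_lit 1216) (nat_lit 0) (XT.nd (nat_lit 78) (nat_lit 76) (nat_lit 0) (XT.lf (nat_lit 0) (nat_lit 662737903) (nat_lit 836) (nat_lit 3599656010) (nat_lit 912) (nat_lit 2981309751) (nat_lit 314) (nat_lit 5) (nat_lit 325) (nat_lit 5) (nat_lit 326) (nat_lit 5) (nat_lit 427) (nat_lit 391) (nat_lit 382)) (XT.lf (nat_lit 0) (nat_lit 235866024) (nat_lit 912) (nat_lit 1295257182) (nat_lit 76) (nat_lit 5778154319) (nat_lit 313) (nat_lit 5) (nat_lit 325) (nat_lit 5) (nat_lit 314) (nat_lit 5) (nat_lit 428) (nat_lit 391) (nat_lit 381))) (XT.nd (nat_lit 78) (nat_lit 608) (nat_lit 0) (XT.lf (nat_lit 0) (nat_lit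 3445521446) (nat_lit 684) (nat_lit 3278835700) (nat_lit 76) (nat_lit 652904195) (nat_lit 305) (nat_lit 5) (nat_lit 314) (nat_lit 5) (nat_lit 306) (nat_lit 5) (nat_lit 429) (nat_lit 391) (nat_lit 380)) (XT.lf (nat_lit 0) (nat_lit 2164258748) (nat_lit 608) (nat_lit 4548073748) (nat_lit 684) (nat_lit 736130905) (nat_lit 297) (nat_lit 5) (nat_lit 305) (nat_lit 5) (nat_lit 306) (nat_lit 5) (nat_lit 430) (nat_lit 391) (nat_lit 379)))))) (XT.nd (nat_lit 624) (nat_lit 2736) (nat_lit 0) (XT.nd (nat_lit 312) (nat_lit 1596) (nat_lit 0) (XT.nd (nat_lit 156) (nat_lit 1216) (nat_lit 0) (XT.nd (nat_lit 78) (nat_lit 0) (nat_lit 0) (XT.lf (nat_lit 0) (nat_lit 198976960) (nat_lit 532) (nat_lit 2254342161) (nat_lit 608) (nat_lit 5069314827) (nat_lit 289) (nat_lit 5) (nat_lit 296) (nat_lit 5) (nat_lit 297) (nat_lit 5) (nat_lit 431) (nat_lit 391) (nat_lit 378)) (XT.lf (nat_lit 0) (nat_lit 5692598877) (nat_lit 608) (nat_lit 1749906813)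 (nat_lit 76) (nat_lit 157241328) (nat_lit 289) (nat_lit 5) (nat_lit 297) (nat_lit 5) (nat_lit 290) (nat_lit 5) (nat_lit 432) (nat_lit 391) (nat_lit 377))) (XT.nd (nat_lit 78) (nat_lit 532) (nat_lit 0) (XT.lf (nat_lit 0) (nat_lit 1300117327) (nat_lit 684) (nat_lit 3742527953) (nat_lit 76) (nat_lit 2636845737) (nat_lit 280) (nat_lit 5) (nat_lit 289) (nat_lit 5) (nat_lit 281) (nat_lit 5) (nat_lit 433) (nat_lit 391) (nat_lit 376)) (XT.lf (nat_lit 0) (nat_lit 1992601040) (nat_lit 532) (nat_lit 2526890189) (nat_lit 608) (nat_lit 3242946903) (nat_lit 273) (nat_lit 5) (nat_lit 280) (nat_lit 5) (nat_lit 281) (nat_lit 5) (nat_lit 434) (nat_lit 391) (nat_lit 375)))) (XT.nd (nat_lit 156) (nat_lit 988) (nat_lit 0) (XT.nd (nat_lit 78) (nat_lit 76) (nat_lit 0) (XT.lf (nat_lit 0) (nat_lit 31588243) (nat_lit 532) (nat_lit 7761525645) (nat_lit 608) (nat_lit 56033574) (nat_lit 266) (nat_lit 5) (nat_lit 273) (nat_lit 5) (nat_lit 274)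 (nat_lit 5) (nat_lit 435) (nat_lit 391) (nat_lit 374)) (XT.lf (nat_lit 0) (nat_lit 3166610544) (nat_lit 608) (nat_lit 1966438456) (nat_lit 76) (nat_lit 2804389717) (nat_lit 265) (nat_lit 5) (nat_lit 273) (nat_lit 5) (nat_lit 266) (nat_lit 5) (nat_lit 436) (nat_lit 391) (nat_lit 373))) (XT.nd (nat_lit 78) (nat_lit 532) (nat_lit 0) (XT.lf (nat_lit 0) (nat_lit 4042971461) (nat_lit 456) (nat_lit 2402276664) (nat_lit 532) (nat_lit 1584304234) (nat_lit 259) (nat_lit 5) (nat_lit 265) (nat_lit 5) (nat_lit 266) (nat_lit 5) (nat_lit 437) (nat_lit 391) (nat_lit 372)) (XT.lf (nat_lit 0) (nat_lit 1631214996) (nat_lit 532) (nat_lit 6052448943) (nat_lit 76) (nat_lit 441283258) (nat_lit 252) (nat_lit 5) (nat_lit 259) (nat_lit 5) (nat_lit 253) (nat_lit 5) (nat_lit 438) (nat_lit 391) (nat_lit 371))))) (XT.nd (nat_lit 312) (nat_lit 1368) (nat_lit 0) (XT.nd (nat_lit 156) (nat_lit 912) (nat_lit 0) (XT.nd (nat_lit 78) (nat_lit 0) (nat_lit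 0) (XT.lf (nat_lit 0) (nat_lit 36547192) (nat_lit 456) (nat_lit 4862956345) (nat_lit 532) (nat_lit 3323588564) (nat_lit 246) (nat_lit 5) (nat_lit 252) (nat_lit 5) (nat_lit 253) (nat_lit 5) (nat_lit 439) (nat_lit 391) (nat_lit 370)) (XT.lf (nat_lit 0) (nat_lit 6335866200) (nat_lit 456) (nat_lit 1915753178) (nat_lit 532) (nat_lit 72991727) (nat_lit 246) (nat_lit 5) (nat_lit 252) (nat_lit 5) (nat_lit 253) (nat_lit 5) (nat_lit 440) (nat_lit 391) (nat_lit 369))) (XT.nd (nat_lit 78) (nat_lit 380) (nat_lit 0) (XT.lf (nat_lit 0) (nat_lit 3190475830) (nat_lit 532) (nat_lit 4087106406) (nat_lit 76) (nat_lit 1151274035) (nat_lit 239) (nat_lit 5) (nat_lit 246) (nat_lit 5) (nat_lit 240) (nat_lit 5) (nat_lit 441) (nat_lit 391) (nat_lit 368)) (XT.lf (nat_lit 0) (nat_lit 2296092416) (nat_lit 380) (nat_lit 4242776146) (nat_lit 456) (nat_lit 1997686750) (nat_lit 234) (nat_lit 5) (nat_lit 239) (nat_lit 5) (nat_lit 240) (nat_lit 5)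 (nat_lit 442) (nat_lit 391) (nat_lit 367)))) (XT.nd (nat_lit 156) (nat_lit 836) (nat_lit 0) (XT.nd (nat_lit 78) (nat_lit 0) (nat_lit 0) (XT.lf (nat_lit 0) (nat_lit 202354979) (nat_lit 456) (nat_lit 1083007813) (nat_lit 532) (nat_lit 7362600094) (nat_lit 227) (nat_lit 5) (nat_lit 233) (nat_lit 5) (nat_lit 234) (nat_lit 5) (nat_lit 443) (nat_lit 391) (nat_lit 366)) (XT.lf (nat_lit 0) (nat_lit 4639880594) (nat_lit 532) (nat_lit 1933296491) (nat_lit 76) (nat_lit 2188550988) (nat_lit 227) (nat_lit 5) (nat_lit 234) (nat_lit 5) (nat_lit 228) (nat_lit 5) (nat_lit 444) (nat_lit 391) (nat_lit 365))) (XT.nd (nat_lit 78) (nat_lit 456) (nat_lit 0) (XT.lf (nat_lit 0) (nat_lit 4761846509) (nat_lit 380) (nat_lit 3320376897) (nat_lit 456) (nat_lit 797069655) (nat_lit 222) (nat_lit 5) (nat_lit 227) (nat_lit 5) (nat_lit 228) (nat_lit 5) (nat_lit 445) (nat_lit 391) (nat_lit 364)) (XT.lf (nat_lit 0) (nat_lit 2553024561) (nat_lit 456)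 (nat_lit 6372743680) (nat_lit 76) (nat_lit 74556121) (nat_lit 216) (nat_lit 5) (nat_lit 222) (nat_lit 5) (nat_lit 217) (nat_lit 5) (nat_lit 446) (nat_lit 391) (nat_lit 363))))))))
noncomputable def xc74 : XT := (XT.nd (nat_lit 2418) (nat_lit 3572) (nat_lit 0) (XT.nd (nat_lit 1170) (nat_lit 2888) (nat_lit 0) (XT.nd (nat_lit 546) (nat_lit 1900) (nat_lit 0) (XT.nd (nat_lit 234) (nat_lit 988) (nat_lit 0) (XT.nd (nat_lit 78) (nat_lit 456) (nat_lit 0) (XT.lf (nat_lit 0) (nat_lit 406346334) (nat_lit 380) (nat_lit 5592003410) (nat_lit 456) (nat_lit 3126079967) (nat_lit 211) (nat_lit 5) (nat_lit 216) (nat_lit 5) (nat_lit 217) (nat_lit 5) (nat_lit 447) (nat_lit 391) (nat_lit 362)) (XT.nd (nat_lit 78) (nat_lit 380) (nat_lit 0) (XT.lf (nat_lit 0) (nat_lit 286393341) (nat_lit 456) (nat_lit 1830788423) (nat_lit 76) (nat_lit 7135072561) (nat_lit 210) (nat_lit 5) (nat_lit 216) (nat_lit 5) (nat_lit 211) (nat_lit 5) (nat_lit 448)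 (nat_lit 391) (nat_lit 361)) (XT.lf (nat_lit 0) (nat_lit 3737725714) (nat_lit 456) (nat_lit 4157218350) (nat_lit 76) (nat_lit 1488063716) (nat_lit 205) (nat_lit 5) (nat_lit 211) (nat_lit 5) (nat_lit 206) (nat_lit 5) (nat_lit 449) (nat_lit 391) (nat_lit 360)))) (XT.nd (nat_lit 156) (nat_lit 304) (nat_lit 0) (XT.nd (nat_lit 78) (nat_lit 380) (nat_lit 0) (XT.lf (nat_lit 0) (nat_lit 2956635651) (nat_lit 304) (nat_lit 4339116296) (nat_lit 380) (nat_lit 2221839331) (nat_lit 201) (nat_lit 5) (nat_lit 205) (nat_lit 5) (nat_lit 206) (nat_lit 5) (nat_lit 450) (nat_lit 391) (nat_lit 359)) (XT.lf (nat_lit 0) (nat_lit 618548280) (nat_lit 304) (nat_lit 644105474) (nat_lit 380) (nat_lit 8393670370) (nat_lit 196) (nat_lit 5) (nat_lit 200) (nat_lit 5) (nat_lit 201) (nat_lit 5) (nat_lit 451) (nat_lit 391) (nat_lit 358))) (XT.nd (nat_lit 78) (nat_lit 304) (nat_lit 0) (XT.lf (nat_lit 0) (nat_lit 4840471243) (nat_lit 380) (nat_lit 1797776934)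 (nat_lit 76) (nat_lit 3159309318) (nat_lit 196) (nat_lit 5) (nat_lit 201) (nat_lit 5) (nat_lit 197) (nat_lit 5) (nat_lit 452) (nat_lit 391) (nat_lit 357)) (XT.lf (nat_lit 0) (nat_lit 5671057994) (nat_lit 304) (nat_lit 2853460973) (nat_lit 380) (nat_lit 1418543856) (nat_lit 192) (nat_lit 5) (nat_lit 196) (nat_lit 5) (nat_lit 197) (nat_lit 5) (nat_lit 453) (nat_lit 391) (nat_lit 356))))) (XT.nd (nat_lit 312) (nat_lit 836) (nat_lit 0) (XT.nd (nat_lit 156) (nat_lit 380) (nat_lit 0) (XT.nd (nat_lit 78) (nat_lit 304) (nat_lit 0) (XT.lf (nat_lit 0) (nat_lit 2181129459) (nat_lit 380) (nat_lit 6845663529) (nat_lit 76) (nat_lit 1065547625) (nat_lit 187) (nat_lit 5) (nat_lit 192) (nat_lit 5) (nat_lit 188) (nat_lit 5) (nat_lit 454) (nat_lit 391) (nat_lit 355)) (XT.lf (nat_lit 0) (nat_lit 711261143) (nat_lit 304) (nat_lit 5166608532) (nat_lit 380) (nat_lit 4367279743) (nat_lit 183) (nat_lit 5) (nat_lit 187) (nat_lit 5) (nat_lit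 188) (nat_lit 5) (nat_lit 455) (nat_lit 391) (nat_lit 354))) (XT.nd (nat_lit 78) (nat_lit 380) (nat_lit 0) (XT.lf (nat_lit 0) (nat_lit 8542557698) (nat_lit 304) (nat_lit 1151902950) (nat_lit 380) (nat_lit 707815007) (nat_lit 183) (nat_lit 5) (nat_lit 187) (nat_lit 5) (nat_lit 188) (nat_lit 5) (nat_lit 456) (nat_lit 391) (nat_lit 353)) (XT.lf (nat_lit 0) (nat_lit 3030001361) (nat_lit 380) (nat_lit 4550488137) (nat_lit 76) (nat_lit 2981895643) (nat_lit 178) (nat_lit 5) (nat_lit 183) (nat_lit 5) (nat_lit 179) (nat_lit 5) (nat_lit 457) (nat_lit 391) (nat_lit 352)))) (XT.nd (nat_lit 156) (nat_lit 304) (nat_lit 0) (XT.nd (nat_lit 78) (nat_lit 304) (nat_lit 0) (XT.lf (nat_lit 0) (nat_lit 3386852762) (nat_lit 228) (nat_lit 3483336147) (nat_lit 304) (nat_lit 3856766355) (nat_lit 175) (nat_lit 5) (nat_lit 178) (nat_lit 5) (nat_lit 179) (nat_lit 5) (nat_lit 458) (nat_lit 391) (nat_lit 351)) (XT.lf (nat_lit 0) (nat_lit 673925193)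 (nat_lit 304) (nat_lit 10153670539) (nat_lit 380) (nat_lit 68807791) (nat_lit 171) (nat_lit 5) (nat_lit 175) (nat_lit 5) (nat_lit 176) (nat_lit 5) (nat_lit 459) (nat_lit 391) (nat_lit 350))) (XT.nd (nat_lit 78) (nat_lit 228) (nat_lit 0) (XT.lf (nat_lit 0) (nat_lit 3809631782) (nat_lit 380) (nat_lit 2154383534) (nat_lit 76) (nat_lit 5104266969) (nat_lit 170) (nat_lit 5) (nat_lit 175) (nat_lit 5) (nat_lit 171) (nat_lit 5) (nat_lit 460) (nat_lit 391) (nat_lit 349)) (XT.lf (nat_lit 0) (nat_lit 6186032098) (nat_lit 228) (nat_lit 1620445047) (nat_lit 304) (nat_lit 3438718080) (nat_lit 167) (nat_lit 5) (nat_lit 170) (nat_lit 5) (nat_lit 171) (nat_lit 5) (nat_lit 461) (nat_lit 391) (nat_lit 348)))))) (XT.nd (nat_lit 624) (nat_lit 1368) (nat_lit 0) (XT.nd (nat_lit 312) (nat_lit 684) (nat_lit 0) (XT.nd (nat_lit 156) (nat_lit 304) (nat_lit 0) (XT.nd (nat_lit 78) (nat_lit 228) (nat_lit 0) (XT.lf (nat_lit 0) (nat_lit 512337969)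 (nat_lit 304) (nat_lit 8090250930) (nat_lit 76) (nat_lit 2823898895) (nat_lit 163) (nat_lit 5) (nat_lit 167) (nat_lit 5) (nat_lit 164) (nat_lit 5) (nat_lit 462) (nat_lit 391) (nat_lit 347)) (XT.lf (nat_lit 0) (nat_lit 341154092) (nat_lit 228) (nat_lit 4187215756) (nat_lit 304) (nat_lit 7083362330) (nat_lit 160) (nat_lit 5) (nat_lit 163) (nat_lit 5) (nat_lit 164) (nat_lit 5) (nat_lit 463) (nat_lit 391) (nat_lit 346))) (XT.nd (nat_lit 78) (nat_lit 304) (nat_lit 0) (XT.lf (nat_lit 0) (nat_lit 8695911692) (nat_lit 304) (nat_lit 2703858657) (nat_lit 76) (nat_lit 401833849) (nat_lit 160) (nat_lit 5) (nat_lit 164) (nat_lit 5) (nat_lit 161) (nat_lit 5) (nat_lit 464) (nat_lit 391) (nat_lit 345)) (XT.lf (nat_lit 0) (nat_lit 1019269448) (nat_lit 304) (nat_lit 5896337238) (nat_lit 76) (nat_lit 5079861746) (nat_lit 156) (nat_lit 5) (nat_lit 160) (nat_lit 5) (nat_lit 157) (nat_lit 5) (nat_lit 465) (nat_lit 391) (nat_lit 344))))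 (XT.nd (nat_lit 156) (nat_lit 456) (nat_lit 0) (XT.nd (nat_lit 78) (nat_lit 0) (nat_lit 0) (XT.lf (nat_lit 0) (nat_lit 2965768782) (nat_lit 228) (nat_lit 2242723152) (nat_lit 304) (nat_lit 6985647260) (nat_lit 153) (nat_lit 5) (nat_lit 156) (nat_lit 5) (nat_lit 157) (nat_lit 5) (nat_lit 466) (nat_lit 391) (nat_lit 343)) (XT.lf (nat_lit 0) (nat_lit 9555449505) (nat_lit 304) (nat_lit 296436493) (nat_lit 76) (nat_lit 2545923369) (nat_lit 153) (nat_lit 5) (nat_lit 157) (nat_lit 5) (nat_lit 154) (nat_lit 5) (nat_lit 467) (nat_lit 391) (nat_lit 342))) (XT.nd (nat_lit 78) (nat_lit 152) (nat_lit 0) (XT.lf (nat_lit 0) (nat_lit 1455168464) (nat_lit 304) (nat_lit 3650029098) (nat_lit 76) (nat_lit 7500249456) (nat_lit 149) (nat_lit 5) (nat_lit 153) (nat_lit 5) (nat_lit 150) (nat_lit 5) (nat_lit 468) (nat_lit 391) (nat_lit 341)) (XT.lf (nat_lit 0) (nat_lit 5667757463) (nat_lit 152) (nat_lit 163169151) (nat_lit 228) (nat_lit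 6987350895) (nat_lit 147) (nat_lit 5) (nat_lit 149) (nat_lit 5) (nat_lit 150) (nat_lit 5) (nat_lit 469) (nat_lit 391) (nat_lit 340))))) (XT.nd (nat_lit 312) (nat_lit 684) (nat_lit 0) (XT.nd (nat_lit 156) (nat_lit 380) (nat_lit 0) (XT.nd (nat_lit 78) (nat_lit 76) (nat_lit 0) (XT.lf (nat_lit 0) (nat_lit 2212275599) (nat_lit 228) (nat_lit 8180789063) (nat_lit 304) (nat_lit 2642775965) (nat_lit 144) (nat_lit 5) (nat_lit 147) (nat_lit 5) (nat_lit 148) (nat_lit 5) (nat_lit 470) (nat_lit 391) (nat_lit 339)) (XT.lf (nat_lit 0) (nat_lit 1820333270) (nat_lit 304) (nat_lit 1362009541) (nat_lit 76) (nat_lit 10076341892) (nat_lit 143) (nat_lit 5) (nat_lit 147) (nat_lit 5) (nat_lit 144) (nat_lit 5) (nat_lit 471) (nat_lit 391) (nat_lit 338))) (XT.nd (nat_lit 78) (nat_lit 228) (nat_lit 0) (XT.lf (nat_lit 0) (nat_lit 6415833797) (nat_lit 228) (nat_lit 5068526694) (nat_lit 76) (nat_lit 2001521020) (nat_lit 141) (nat_lit 5) (nat_lit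 144) (nat_lit 5) (nat_lit 142) (nat_lit 5) (nat_lit 472) (nat_lit 391) (nat_lit 337)) (XT.lf (nat_lit 0) (nat_lit 4775480609) (nat_lit 228) (nat_lit 6416198772) (nat_lit 304) (nat_lit 2526941264) (nat_lit 138) (nat_lit 5) (nat_lit 141) (nat_lit 5) (nat_lit 142) (nat_lit 5) (nat_lit 473) (nat_lit 391) (nat_lit 336)))) (XT.nd (nat_lit 156) (nat_lit 456) (nat_lit 0) (XT.nd (nat_lit 78) (nat_lit 0) (nat_lit 0) (XT.lf (nat_lit 0) (nat_lit 974989194) (nat_lit 152) (nat_lit 1147843853) (nat_lit 228) (nat_lit 11834517652) (nat_lit 135) (nat_lit 5) (nat_lit 137) (nat_lit 5) (nat_lit 138) (nat_lit 5) (nat_lit 474) (nat_lit 391) (nat_lit 335)) (XT.lf (nat_lit 0) (nat_lit 6945224713) (nat_lit 228) (nat_lit 2978595013) (nat_lit 76) (nat_lit 4276155713) (nat_lit 135) (nat_lit 5) (nat_lit 138) (nat_lit 5) (nat_lit 136) (nat_lit 5) (nat_lit 475) (nat_lit 391) (nat_lit 334))) (XT.nd (nat_lit 78) (nat_lit 228) (nat_lit 0) (XT.lf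 (nat_lit 0) (nat_lit 7375306444) (nat_lit 228) (nat_lit 4572235314) (nat_lit 304) (nat_lit 2501280284) (nat_lit 132) (nat_lit 5) (nat_lit 135) (nat_lit 5) (nat_lit 136) (nat_lit 5) (nat_lit 476) (nat_lit 391) (nat_lit 333)) (XT.lf (nat_lit 0) (nat_lit 2373355720) (nat_lit 228) (nat_lit 11357342865) (nat_lit 76) (nat_lit 972986765) (nat_lit 129) (nat_lit 5) (nat_lit 132) (nat_lit 5) (nat_lit 130) (nat_lit 5) (nat_lit 477) (nat_lit 391) (nat_lit 332))))))) (XT.nd (nat_lit 1248) (nat_lit 1596) (nat_lit 0) (XT.nd (nat_lit 624) (nat_lit 1064) (nat_lit 0) (XT.nd (nat_lit 312) (nat_lit 380) (nat_lit 0) (XT.nd (nat_lit 156) (nat_lit 380) (nat_lit 0) (XT.nd (nat_lit 78) (nat_lit 152) (nat_lit 0) (XT.lf (nat_lit 0) (nat_lit 7414716322) (nat_lit 228) (nat_lit 893891759) (nat_lit 76) (nat_lit 6654721429) (nat_lit 129) (nat_lit 5) (nat_lit 132) (nat_lit 5) (nat_lit 130) (nat_lit 5) (nat_lit 478) (nat_lit 391) (nat_lit 331))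 (XT.lf (nat_lit 0) (nat_lit 9998081378) (nat_lit 152) (nat_lit 2660055947) (nat_lit 228) (nat_lit 2571101731) (nat_lit 127) (nat_lit 5) (nat_lit 129) (nat_lit 5) (nat_lit 130) (nat_lit 5) (nat_lit 479) (nat_lit 391) (nat_lit 330))) (XT.nd (nat_lit 78) (nat_lit 152) (nat_lit 0) (XT.lf (nat_lit 0) (nat_lit 2555863283) (nat_lit 228) (nat_lit 9793687755) (nat_lit 76) (nat_lit 3151338451) (nat_lit 124) (nat_lit 5) (nat_lit 127) (nat_lit 5) (nat_lit 125) (nat_lit 5) (nat_lit 480) (nat_lit 391) (nat_lit 329)) (XT.lf (nat_lit 0) (nat_lit 1191981923) (nat_lit 152) (nat_lit 6639153527) (nat_lit 228) (nat_lit 7947405641) (nat_lit 122) (nat_lit 5) (nat_lit 124) (nat_lit 5) (nat_lit 125) (nat_lit 5) (nat_lit 481) (nat_lit 391) (nat_lit 328)))) (XT.nd (nat_lit 156) (nat_lit 152) (nat_lit 0) (XT.nd (nat_lit 78) (nat_lit 228) (nat_lit 0) (XT.lf (nat_lit 0) (nat_lit 12627972752) (nat_lit 152) (nat_lit 691162817) (nat_lit 228) (nat_lit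 2743753156) (nat_lit 122) (nat_lit 5) (nat_lit 124) (nat_lit 5) (nat_lit 125) (nat_lit 5) (nat_lit 482) (nat_lit 391) (nat_lit 327)) (XT.lf (nat_lit 0) (nat_lit 2652249002) (nat_lit 228) (nat_lit 8301158202) (nat_lit 76) (nat_lit 5398987091) (nat_lit 119) (nat_lit 5) (nat_lit 122) (nat_lit 5) (nat_lit 120) (nat_lit 5) (nat_lit 483) (nat_lit 391) (nat_lit 326))) (XT.nd (nat_lit 78) (nat_lit 0) (nat_lit 0) (XT.lf (nat_lit 0) (nat_lit 3253235752) (nat_lit 152) (nat_lit 4931519720) (nat_lit 228) (nat_lit 8464121985) (nat_lit 117) (nat_lit 5) (nat_lit 119) (nat_lit 5) (nat_lit 120) (nat_lit 5) (nat_lit 484) (nat_lit 391) (nat_lit 325)) (XT.lf (nat_lit 0) (nat_lit 13936913165) (nat_lit 228) (nat_lit 1719272783) (nat_lit 76) (nat_lit 1296459397) (nat_lit 117) (nat_lit 5) (nat_lit 120) (nat_lit 5) (nat_lit 118) (nat_lit 4) (nat_lit 485) (nat_lit 391) (nat_lit 324))))) (XT.nd (nat_lit 312) (nat_lit 456) (nat_lit 0) (XT.nd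 (nat_lit 156) (nat_lit 228) (nat_lit 0) (XT.nd (nat_lit 78) (nat_lit 152) (nat_lit 0) (XT.lf (nat_lit 0) (nat_lit 2653216827) (nat_lit 228) (nat_lit 6903749725) (nat_lit 76) (nat_lit 7704578530) (nat_lit 114) (nat_lit 5) (nat_lit 117) (nat_lit 5) (nat_lit 115) (nat_lit 5) (nat_lit 486) (nat_lit 391) (nat_lit 323)) (XT.lf (nat_lit 0) (nat_lit 5248927071) (nat_lit 152) (nat_lit 3208825494) (nat_lit 228) (nat_lit 9120280011) (nat_lit 112) (nat_lit 5) (nat_lit 114) (nat_lit 5) (nat_lit 115) (nat_lit 5) (nat_lit 487) (nat_lit 391) (nat_lit 322))) (XT.nd (nat_lit 78) (nat_lit 228) (nat_lit 0) (XT.lf (nat_lit 0) (nat_lit 14497135830) (nat_lit 228) (nat_lit 103769899) (nat_lit 76) (nat_lit 3301288077) (nat_lit 112) (nat_lit 5) (nat_lit 115) (nat_lit 5) (nat_lit 113) (nat_lit 4) (nat_lit 488) (nat_lit 391) (nat_lit 321)) (XT.lf (nat_lit 0) (nat_lit 2546986429) (nat_lit 228) (nat_lit 5629304913) (nat_lit 76) (nat_lit 10055659582)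 (nat_lit 109) (nat_lit 5) (nat_lit 112) (nat_lit 5) (nat_lit 110) (nat_lit 5) (nat_lit 489) (nat_lit 391) (nat_lit 320)))) (XT.nd (nat_lit 156) (nat_lit 228) (nat_lit 0) (XT.nd (nat_lit 78) (nat_lit 76) (nat_lit 0) (XT.lf (nat_lit 0) (nat_lit 7151961205) (nat_lit 152) (nat_lit 1486586088) (nat_lit 228) (nat_lit 9931160674) (nat_lit 107) (nat_lit 5) (nat_lit 109) (nat_lit 5) (nat_lit 110) (nat_lit 5) (nat_lit 490) (nat_lit 391) (nat_lit 319)) (XT.lf (nat_lit 0) (nat_lit 1416473658) (nat_lit 76) (nat_lit 13579075269) (nat_lit 152) (nat_lit 3919568382) (nat_lit 106) (nat_lit 5) (nat_lit 107) (nat_lit 5) (nat_lit 108) (nat_lit 4) (nat_lit 491) (nat_lit 391) (nat_lit 318))) (XT.nd (nat_lit 78) (nat_lit 152) (nat_lit 0) (XT.lf (nat_lit 0) (nat_lit 2318978272) (nat_lit 152) (nat_lit 4510254831) (nat_lit 76) (nat_lit 12438272443) (nat_lit 105) (nat_lit 5) (nat_lit 107) (nat_lit 5) (nat_lit 106) (nat_lit 5) (nat_lit 492)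 (nat_lit 391) (nat_lit 317)) (XT.lf (nat_lit 0) (nat_lit 8714804234) (nat_lit 228) (nat_lit 10699459332) (nat_lit 76) (nat_lit 213570936) (nat_lit 103) (nat_lit 5) (nat_lit 106) (nat_lit 5) (nat_lit 104) (nat_lit 4) (nat_lit 493) (nat_lit 391) (nat_lit 316)))))) (XT.nd (nat_lit 624) (nat_lit 836) (nat_lit 0) (XT.nd (nat_lit 312) (nat_lit 380) (nat_lit 0) (XT.nd (nat_lit 156) (nat_lit 228) (nat_lit 0) (XT.nd (nat_lit 78) (nat_lit 76) (nat_lit 0) (XT.lf (nat_lit 0) (nat_lit 2778323696) (nat_lit 76) (nat_lit 12625586606) (nat_lit 152) (nat_lit 4592021225) (nat_lit 102) (nat_lit 5) (nat_lit 103) (nat_lit 5) (nat_lit 104) (nat_lit 4) (nat_lit 494) (nat_lit 391) (nat_lit 315)) (XT.lf (nat_lit 0) (nat_lit 1951437624) (nat_lit 152) (nat_lit 3584470902) (nat_lit 76) (nat_lit 14836502227) (nat_lit 101) (nat_lit 5) (nat_lit 103) (nat_lit 5) (nat_lit 102) (nat_lit 5) (nat_lit 495) (nat_lit 391) (nat_lit 314))) (XT.nd (nat_lit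 78) (nat_lit 76) (nat_lit 0) (XT.lf (nat_lit 0) (nat_lit 8680685287) (nat_lit 228) (nat_lit 10227791765) (nat_lit 76) (nat_lit 1847890263) (nat_lit 99) (nat_lit 5) (nat_lit 102) (nat_lit 5) (nat_lit 100) (nat_lit 4) (nat_lit 496) (nat_lit 391) (nat_lit 313)) (XT.lf (nat_lit 0) (nat_lit 3938536739) (nat_lit 76) (nat_lit 11764885779) (nat_lit 152) (nat_lit 5445672011) (nat_lit 98) (nat_lit 5) (nat_lit 99) (nat_lit 5) (nat_lit 100) (nat_lit 4) (nat_lit 497) (nat_lit 391) (nat_lit 312)))) (XT.nd (nat_lit 156) (nat_lit 152) (nat_lit 0) (XT.nd (nat_lit 78) (nat_lit 152) (nat_lit 0) (XT.lf (nat_lit 0) (nat_lit 1422988882) (nat_lit 152) (nat_lit 2896246138) (nat_lit 76) (nat_lit 17231967669) (nat_lit 97) (nat_lit 5) (nat_lit 99) (nat_lit 5) (nat_lit 98) (nat_lit 5) (nat_lit 498) (nat_lit 391) (nat_lit 311)) (XT.lf (nat_lit 0) (nat_lit 8500299045) (nat_lit 228) (nat_lit 10036911651) (nat_lit 76) (nat_lit 3423184903) (nat_lit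 95) (nat_lit 5) (nat_lit 98) (nat_lit 5) (nat_lit 96) (nat_lit 4) (nat_lit 499) (nat_lit 391) (nat_lit 310))) (XT.nd (nat_lit 78) (nat_lit 76) (nat_lit 0) (XT.lf (nat_lit 0) (nat_lit 4848783653) (nat_lit 76) (nat_lit 11023686024) (nat_lit 152) (nat_lit 6506918666) (nat_lit 94) (nat_lit 5) (nat_lit 95) (nat_lit 5) (nat_lit 96) (nat_lit 4) (nat_lit 500) (nat_lit 391) (nat_lit 309)) (XT.lf (nat_lit 0) (nat_lit 708110075) (nat_lit 152) (nat_lit 2497427516) (nat_lit 76) (nat_lit 19603243680) (nat_lit 93) (nat_lit 5) (nat_lit 95) (nat_lit 5) (nat_lit 94) (nat_lit 5) (nat_lit 501) (nat_lit 391) (nat_lit 308))))) (XT.nd (nat_lit 312) (nat_lit 380) (nat_lit 0) (XT.nd (nat_lit 156) (nat_lit 228) (nat_lit 0) (XT.nd (nat_lit 78) (nat_lit 76) (nat_lit 0) (XT.lf (nat_lit 0) (nat_lit 8147749382) (nat_lit 228) (nat_lit 10183414266) (nat_lit 76) (nat_lit 4913791578) (nat_lit 91) (nat_lit 5) (nat_lit 94) (nat_lit 5) (nat_lit 92)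 (nat_lit 4) (nat_lit 502) (nat_lit 391) (nat_lit 307)) (XT.lf (nat_lit 0) (nat_lit 5452329946) (nat_lit 76) (nat_lit 10432688069) (nat_lit 152) (nat_lit 7806963435) (nat_lit 90) (nat_lit 5) (nat_lit 91) (nat_lit 5) (nat_lit 92) (nat_lit 4) (nat_lit 503) (nat_lit 391) (nat_lit 306))) (XT.nd (nat_lit 78) (nat_lit 228) (nat_lit 0) (XT.lf (nat_lit 0) (nat_lit 21699461826) (nat_lit 76) (nat_lit 2222983588) (nat_lit 152) (nat_lit 227932070) (nat_lit 90) (nat_lit 5) (nat_lit 91) (nat_lit 5) (nat_lit 92) (nat_lit 4) (nat_lit 504) (nat_lit 391) (nat_lit 305)) (XT.lf (nat_lit 0) (nat_lit 7592192770) (nat_lit 228) (nat_lit 10733424295) (nat_lit 76) (nat_lit 6289874923) (nat_lit 87) (nat_lit 5) (nat_lit 90) (nat_lit 5) (nat_lit 88) (nat_lit 4) (nat_lit 505) (nat_lit 391) (nat_lit 304)))) (XT.nd (nat_lit 156) (nat_lit 304) (nat_lit 0) (XT.nd (nat_lit 78) (nat_lit 0) (nat_lit 0) (XT.lf (nat_lit 0) (nat_lit 5682584449) (nat_lit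 76) (nat_lit 10027348395) (nat_lit 152) (nat_lit 9382531826) (nat_lit 86) (nat_lit 5) (nat_lit 87) (nat_lit 5) (nat_lit 88) (nat_lit 4) (nat_lit 506) (nat_lit 391) (nat_lit 303)) (XT.lf (nat_lit 0) (nat_lit 22746481724) (nat_lit 76) (nat_lit 1399444136) (nat_lit 152) (nat_lit 1435579267) (nat_lit 86) (nat_lit 5) (nat_lit 87) (nat_lit 5) (nat_lit 88) (nat_lit 4) (nat_lit 507) (nat_lit 391) (nat_lit 302))) (XT.nd (nat_lit 78) (nat_lit 76) (nat_lit 0) (XT.lf (nat_lit 0) (nat_lit 6797074214) (nat_lit 228) (nat_lit 11764206057) (nat_lit 76) (nat_lit 7516620094) (nat_lit 83) (nat_lit 5) (nat_lit 86) (nat_lit 5) (nat_lit 84) (nat_lit 4) (nat_lit 508) (nat_lit 391) (nat_lit 301)) (XT.lf (nat_lit 0) (nat_lit 5461418855) (nat_lit 76) (nat_lit 9848760186) (nat_lit 152) (nat_lit 11276712445) (nat_lit 82) (nat_lit 5) (nat_lit 83) (nat_lit 5) (nat_lit 84) (nat_lit 4) (nat_lit 509) (nat_lit 391) (nat_lit 300))))))))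
noncomputable def xc75 : XT := (XT.nd (nat_lit 2418) (nat_lit 836) (nat_lit 0) (XT.nd (nat_lit 1170) (nat_lit 1064) (nat_lit 0) (XT.nd (nat_lit 546) (nat_lit 608) (nat_lit 0) (XT.nd (nat_lit 234) (nat_lit 228) (nat_lit 0) (XT.nd (nat_lit 78) (nat_lit 304) (nat_lit 0) (XT.lf (nat_lit 0) (nat_lit 23382129116) (nat_lit 76) (nat_lit 782758163) (nat_lit 152) (nat_lit 2943678946) (nat_lit 82) (nat_lit 5) (nat_lit 83) (nat_lit 5) (nat_lit 84) (nat_lit 4) (nat_lit 510) (nat_lit 391) (nat_lit 299)) (XT.nd (nat_lit 78) (nat_lit 76) (nat_lit 0) (XT.lf (nat_lit 0) (nat_lit 5719234696) (nat_lit 228) (nat_lit 13366027924) (nat_lit 76) (nat_lit 8553304512) (nat_lit 79) (nat_lit 5) (nat_lit 82) (nat_lit 5) (nat_lit 80) (nat_lit 4) (nat_lit 511) (nat_lit 391) (nat_lit 298)) (XT.lf (nat_lit 0) (nat_lit 4697220702) (nat_lit 76) (nat_lit 9944666335) (nat_lit 152) (nat_lit 13539936355) (nat_lit 78) (nat_lit 5) (nat_lit 79) (nat_lit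 5) (nat_lit 80) (nat_lit 4) (nat_lit 512) (nat_lit 391) (nat_lit 297)))) (XT.nd (nat_lit 156) (nat_lit 76) (nat_lit 0) (XT.nd (nat_lit 78) (nat_lit 152) (nat_lit 0) (XT.lf (nat_lit 0) (nat_lit 23515257256) (nat_lit 76) (nat_lit 420385235) (nat_lit 152) (nat_lit 4802632316) (nat_lit 78) (nat_lit 5) (nat_lit 79) (nat_lit 5) (nat_lit 80) (nat_lit 4) (nat_lit 513) (nat_lit 391) (nat_lit 296)) (XT.lf (nat_lit 0) (nat_lit 4307870177) (nat_lit 152) (nat_lit 15644322180) (nat_lit 76) (nat_lit 9352228089) (nat_lit 76) (nat_lit 5) (nat_lit 78) (nat_lit 5) (nat_lit 77) (nat_lit 4) (nat_lit 514) (nat_lit 391) (nat_lit 295))) (XT.nd (nat_lit 78) (nat_lit 0) (nat_lit 0) (XT.lf (nat_lit 0) (nat_lit 3282636525) (nat_lit 76) (nat_lit 10370626837) (nat_lit 152) (nat_lit 16231117613) (nat_lit 75) (nat_lit 5) (nat_lit 76) (nat_lit 5) (nat_lit 77) (nat_lit 4) (nat_lit 515) (nat_lit 391) (nat_lit 294)) (XT.lf (nat_lit 0) (nat_lit 23038694997)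 (nat_lit 76) (nat_lit 367751055) (nat_lit 152) (nat_lit 7071471589) (nat_lit 75) (nat_lit 5) (nat_lit 76) (nat_lit 5) (nat_lit 77) (nat_lit 4) (nat_lit 516) (nat_lit 391) (nat_lit 293))))) (XT.nd (nat_lit 312) (nat_lit 228) (nat_lit 0) (XT.nd (nat_lit 156) (nat_lit 152) (nat_lit 0) (XT.nd (nat_lit 78) (nat_lit 76) (nat_lit 0) (XT.lf (nat_lit 0) (nat_lit 2503318928) (nat_lit 152) (nat_lit 18722188104) (nat_lit 76) (nat_lit 9857478140) (nat_lit 73) (nat_lit 5) (nat_lit 75) (nat_lit 5) (nat_lit 74) (nat_lit 4) (nat_lit 517) (nat_lit 391) (nat_lit 292)) (XT.lf (nat_lit 0) (nat_lit 1091955017) (nat_lit 76) (nat_lit 11191366317) (nat_lit 152) (nat_lit 19418980164) (nat_lit 72) (nat_lit 5) (nat_lit 73) (nat_lit 5) (nat_lit 74) (nat_lit 4) (nat_lit 518) (nat_lit 391) (nat_lit 291))) (XT.nd (nat_lit 78) (nat_lit 152) (nat_lit 0) (XT.lf (nat_lit 0) (nat_lit 21826564094) (nat_lit 76) (nat_lit 689627829) (nat_lit 152) (nat_lit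 9819221485) (nat_lit 72) (nat_lit 5) (nat_lit 73) (nat_lit 5) (nat_lit 74) (nat_lit 4) (nat_lit 519) (nat_lit 391) (nat_lit 290)) (XT.lf (nat_lit 0) (nat_lit 235650230) (nat_lit 152) (nat_lit 22743293613) (nat_lit 76) (nat_lit 10003501470) (nat_lit 70) (nat_lit 5) (nat_lit 72) (nat_lit 5) (nat_lit 71) (nat_lit 4) (nat_lit 520) (nat_lit 391) (nat_lit 289)))) (XT.nd (nat_lit 156) (nat_lit 152) (nat_lit 0) (XT.nd (nat_lit 78) (nat_lit 76) (nat_lit 0) (XT.lf (nat_lit 0) (nat_lit 10479839603) (nat_lit 152) (nat_lit 1982472754) (nat_lit 76) (nat_lit 21181108498) (nat_lit 70) (nat_lit 5) (nat_lit 72) (nat_lit 5) (nat_lit 71) (nat_lit 4) (nat_lit 521) (nat_lit 391) (nat_lit 288)) (XT.lf (nat_lit 0) (nat_lit 19731166527) (nat_lit 76) (nat_lit 1461730624) (nat_lit 152) (nat_lit 13126482358) (nat_lit 69) (nat_lit 5) (nat_lit 70) (nat_lit 5) (nat_lit 71) (nat_lit 4) (nat_lit 522) (nat_lit 391) (nat_lit 287))) (XT.nd (nat_lit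 78) (nat_lit 76) (nat_lit 0) (XT.lf (nat_lit 0) (nat_lit 7110452591) (nat_lit 76) (nat_lit 25272240280) (nat_lit 76) (nat_lit 2628263775) (nat_lit 68) (nat_lit 4) (nat_lit 69) (nat_lit 5) (nat_lit 69) (nat_lit 4) (nat_lit 523) (nat_lit 391) (nat_lit 286)) (XT.lf (nat_lit 0) (nat_lit 8160360024) (nat_lit 152) (nat_lit 6109439252) (nat_lit 76) (nat_lit 21447066315) (nat_lit 67) (nat_lit 5) (nat_lit 69) (nat_lit 5) (nat_lit 68) (nat_lit 4) (nat_lit 524) (nat_lit 391) (nat_lit 285)))))) (XT.nd (nat_lit 624) (nat_lit 532) (nat_lit 0) (XT.nd (nat_lit 312) (nat_lit 228) (nat_lit 0) (XT.nd (nat_lit 156) (nat_lit 152) (nat_lit 0) (XT.nd (nat_lit 78) (nat_lit 76) (nat_lit 0) (XT.lf (nat_lit 0) (nat_lit 16579372606) (nat_lit 76) (nat_lit 2772565118) (nat_lit 152) (nat_lit 17087269896) (nat_lit 66) (nat_lit 5) (nat_lit 67) (nat_lit 5) (nat_lit 68) (nat_lit 4) (nat_lit 525) (nat_lit 391) (nat_lit 284)) (XT.lf (nat_lit 0) (nat_lit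 2806161741) (nat_lit 76) (nat_lit 28222346481) (nat_lit 76) (nat_lit 6150234428) (nat_lit 65) (nat_lit 4) (nat_lit 66) (nat_lit 5) (nat_lit 66) (nat_lit 4) (nat_lit 526) (nat_lit 391) (nat_lit 283))) (XT.nd (nat_lit 78) (nat_lit 76) (nat_lit 0) (XT.lf (nat_lit 0) (nat_lit 5217884712) (nat_lit 152) (nat_lit 11507343498) (nat_lit 76) (nat_lit 21207677100) (nat_lit 64) (nat_lit 5) (nat_lit 66) (nat_lit 5) (nat_lit 65) (nat_lit 4) (nat_lit 527) (nat_lit 391) (nat_lit 282)) (XT.lf (nat_lit 0) (nat_lit 12168429577) (nat_lit 76) (nat_lit 4725567660) (nat_lit 152) (nat_lit 21811152002) (nat_lit 63) (nat_lit 5) (nat_lit 64) (nat_lit 5) (nat_lit 65) (nat_lit 4) (nat_lit 528) (nat_lit 391) (nat_lit 281)))) (XT.nd (nat_lit 156) (nat_lit 76) (nat_lit 0) (XT.nd (nat_lit 78) (nat_lit 152) (nat_lit 0) (XT.lf (nat_lit 0) (nat_lit 29084752618) (nat_lit 152) (nat_lit 2833252193) (nat_lit 0) (nat_lit 7577624982) (nat_lit 63) (nat_lit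 5) (nat_lit 65) (nat_lit 4) (nat_lit 63) (nat_lit 4) (nat_lit 529) (nat_lit 391) (nat_lit 280)) (XT.lf (nat_lit 0) (nat_lit 1539528152) (nat_lit 152) (nat_lit 18406352119) (nat_lit 76) (nat_lit 20356537549) (nat_lit 61) (nat_lit 5) (nat_lit 63) (nat_lit 5) (nat_lit 62) (nat_lit 4) (nat_lit 530) (nat_lit 391) (nat_lit 279))) (XT.nd (nat_lit 78) (nat_lit 0) (nat_lit 0) (XT.lf (nat_lit 0) (nat_lit 6261097688) (nat_lit 76) (nat_lit 7441585055) (nat_lit 152) (nat_lit 27425729926) (nat_lit 60) (nat_lit 5) (nat_lit 61) (nat_lit 5) (nat_lit 62) (nat_lit 4) (nat_lit 531) (nat_lit 391) (nat_lit 278)) (XT.lf (nat_lit 0) (nat_lit 26445145922) (nat_lit 152) (nat_lit 10032376223) (nat_lit 0) (nat_lit 5495232883) (nat_lit 60) (nat_lit 5) (nat_lit 62) (nat_lit 4) (nat_lit 60) (nat_lit 4) (nat_lit 532) (nat_lit 391) (nat_lit 277))))) (XT.nd (nat_lit 312) (nat_lit 228) (nat_lit 0) (XT.nd (nat_lit 156) (nat_lit 152) (nat_lit 0) (XT.nd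 (nat_lit 78) (nat_lit 76) (nat_lit 0) (XT.lf (nat_lit 0) (nat_lit 15731852717) (nat_lit 76) (nat_lit 24038111947) (nat_lit 76) (nat_lit 3066460622) (nat_lit 59) (nat_lit 4) (nat_lit 60) (nat_lit 5) (nat_lit 60) (nat_lit 4) (nat_lit 533) (nat_lit 391) (nat_lit 276)) (XT.lf (nat_lit 0) (nat_lit 9655404699) (nat_lit 152) (nat_lit 1392284917) (nat_lit 76) (nat_lit 32673174038) (nat_lit 58) (nat_lit 5) (nat_lit 60) (nat_lit 5) (nat_lit 59) (nat_lit 4) (nat_lit 534) (nat_lit 391) (nat_lit 275))) (XT.nd (nat_lit 78) (nat_lit 76) (nat_lit 0) (XT.lf (nat_lit 0) (nat_lit 22943358887) (nat_lit 152) (nat_lit 19138035231) (nat_lit 0) (nat_lit 2542148326) (nat_lit 57) (nat_lit 5) (nat_lit 59) (nat_lit 4) (nat_lit 57) (nat_lit 4) (nat_lit 535) (nat_lit 391) (nat_lit 274)) (XT.lf (nat_lit 0) (nat_lit 7637128257) (nat_lit 76) (nat_lit 29165755105) (nat_lit 76) (nat_lit 8745230358) (nat_lit 56) (nat_lit 4) (nat_lit 57) (nat_lit 5)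 (nat_lit 57) (nat_lit 4) (nat_lit 536) (nat_lit 391) (nat_lit 273)))) (XT.nd (nat_lit 156) (nat_lit 76) (nat_lit 0) (XT.nd (nat_lit 78) (nat_lit 76) (nat_lit 0) (XT.lf (nat_lit 0) (nat_lit 4659561227) (nat_lit 152) (nat_lit 10980367091) (nat_lit 76) (nat_lit 30854040192) (nat_lit 55) (nat_lit 5) (nat_lit 57) (nat_lit 5) (nat_lit 56) (nat_lit 4) (nat_lit 537) (nat_lit 391) (nat_lit 272)) (XT.lf (nat_lit 0) (nat_lit 16956165570) (nat_lit 76) (nat_lit 1474202620) (nat_lit 152) (nat_lit 29031043965) (nat_lit 54) (nat_lit 5) (nat_lit 55) (nat_lit 5) (nat_lit 56) (nat_lit 4) (nat_lit 538) (nat_lit 391) (nat_lit 271))) (XT.nd (nat_lit 78) (nat_lit 76) (nat_lit 0) (XT.lf (nat_lit 0) (nat_lit 32829031205) (nat_lit 152) (nat_lit 2672168080) (nat_lit 0) (nat_lit 12950237930) (nat_lit 54) (nat_lit 5) (nat_lit 56) (nat_lit 4) (nat_lit 54) (nat_lit 4) (nat_lit 539) (nat_lit 391) (nat_lit 270)) (XT.lf (nat_lit 0) (nat_lit 26452524974)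 (nat_lit 76) (nat_lit 21453352636) (nat_lit 76) (nat_lit 1557898775) (nat_lit 53) (nat_lit 4) (nat_lit 54) (nat_lit 5) (nat_lit 54) (nat_lit 4) (nat_lit 540) (nat_lit 391) (nat_lit 269))))))) (XT.nd (nat_lit 52962) (nat_lit 0) (nat_lit 17556) (XT.nd (nat_lit 624) (nat_lit 228) (nat_lit 0) (XT.nd (nat_lit 312) (nat_lit 304) (nat_lit 0) (XT.nd (nat_lit 156) (nat_lit 152) (nat_lit 0) (XT.nd (nat_lit 78) (nat_lit 0) (nat_lit 0) (XT.lf (nat_lit 0) (nat_lit 5946578771) (nat_lit 76) (nat_lit 6791454705) (nat_lit 152) (nat_lit 37762870830) (nat_lit 51) (nat_lit 5) (nat_lit 52) (nat_lit 5) (nat_lit 53) (nat_lit 4) (nat_lit 541) (nat_lit 391) (nat_lit 268)) (XT.lf (nat_lit 0) (nat_lit 27723462300) (nat_lit 152) (nat_lit 15459926474) (nat_lit 0) (nat_lit 8376536680) (nat_lit 51) (nat_lit 5) (nat_lit 53) (nat_lit 4) (nat_lit 51) (nat_lit 4) (nat_lit 542) (nat_lit 391) (nat_lit 267))) (XT.nd (nat_lit 78) (nat_lit 76) (nat_lit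 0) (XT.lf (nat_lit 0) (nat_lit 14682894800) (nat_lit 76) (nat_lit 28661979114) (nat_lit 76) (nat_lit 9300250779) (nat_lit 50) (nat_lit 4) (nat_lit 51) (nat_lit 5) (nat_lit 51) (nat_lit 4) (nat_lit 543) (nat_lit 391) (nat_lit 266)) (XT.lf (nat_lit 0) (nat_lit 5697071965) (nat_lit 152) (nat_lit 7811043813) (nat_lit 76) (nat_lit 40249057304) (nat_lit 49) (nat_lit 5) (nat_lit 51) (nat_lit 5) (nat_lit 50) (nat_lit 4) (nat_lit 544) (nat_lit 391) (nat_lit 265)))) (XT.nd (nat_lit 156) (nat_lit 228) (nat_lit 0) (XT.nd (nat_lit 78) (nat_lit 0) (nat_lit 0) (XT.lf (nat_lit 0) (nat_lit 21185785892) (nat_lit 152) (nat_lit 31346690878) (nat_lit 0) (nat_lit 2360491832) (nat_lit 48) (nat_lit 5) (nat_lit 50) (nat_lit 4) (nat_lit 48) (nat_lit 4) (nat_lit 545) (nat_lit 391) (nat_lit 264)) (XT.lf (nat_lit 0) (nat_lit 37331263137) (nat_lit 152) (nat_lit 232994786) (nat_lit 0) (nat_lit 18492817056) (nat_lit 48) (nat_lit 5) (nat_lit 50)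 (nat_lit 4) (nat_lit 48) (nat_lit 4) (nat_lit 546) (nat_lit 391) (nat_lit 263))) (XT.nd (nat_lit 78) (nat_lit 152) (nat_lit 0) (XT.lf (nat_lit 0) (nat_lit 32405255379) (nat_lit 76) (nat_lit 21846669816) (nat_lit 76) (nat_lit 2995454783) (nat_lit 47) (nat_lit 4) (nat_lit 48) (nat_lit 5) (nat_lit 48) (nat_lit 4) (nat_lit 547) (nat_lit 391) (nat_lit 262)) (XT.lf (nat_lit 0) (nat_lit 7532917175) (nat_lit 76) (nat_lit 5470299203) (nat_lit 152) (nat_lit 45464745758) (nat_lit 45) (nat_lit 5) (nat_lit 46) (nat_lit 5) (nat_lit 47) (nat_lit 4) (nat_lit 548) (nat_lit 391) (nat_lit 261))))) (XT.nd (nat_lit 312) (nat_lit 0) (nat_lit 0) (XT.nd (nat_lit 156) (nat_lit 152) (nat_lit 0) (XT.nd (nat_lit 78) (nat_lit 76) (nat_lit 0) (XT.lf (nat_lit 0) (nat_lit 29763883992) (nat_lit 152) (nat_lit 18512108699) (nat_lit 0) (nat_lit 11438012112) (nat_lit 45) (nat_lit 5) (nat_lit 47) (nat_lit 4) (nat_lit 45) (nat_lit 4) (nat_lit 549) (nat_lit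 391) (nat_lit 260)) (XT.lf (nat_lit 0) (nat_lit 15083669709) (nat_lit 76) (nat_lit 32122801512) (nat_lit 76) (nat_lit 13785584583) (nat_lit 44) (nat_lit 4) (nat_lit 45) (nat_lit 5) (nat_lit 45) (nat_lit 4) (nat_lit 550) (nat_lit 391) (nat_lit 259))) (XT.nd (nat_lit 78) (nat_lit 76) (nat_lit 0) (XT.lf (nat_lit 0) (nat_lit 2976741168) (nat_lit 152) (nat_lit 12305446966) (nat_lit 76) (nat_lit 47020372212) (nat_lit 43) (nat_lit 5) (nat_lit 45) (nat_lit 5) (nat_lit 44) (nat_lit 4) (nat_lit 551) (nat_lit 391) (nat_lit 258)) (XT.lf (nat_lit 0) (nat_lit 20185508486) (nat_lit 152) (nat_lit 41094848264) (nat_lit 0) (nat_lit 2361309131) (nat_lit 42) (nat_lit 5) (nat_lit 44) (nat_lit 4) (nat_lit 42) (nat_lit 4) (nat_lit 552) (nat_lit 391) (nat_lit 257)))) (XT.nd (nat_lit 51870) (nat_lit 0) (nat_lit 27968) (XT.nd (nat_lit 51792) (nat_lit 0) (nat_lit 28804) (XT.lf (nat_lit 0) (nat_lit 38167886439) (nat_lit 152) (nat_lit 6511730596)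 (nat_lit 0) (nat_lit 20333607156) (nat_lit 42) (nat_lit 5) (nat_lit 44) (nat_lit 4) (nat_lit 42) (nat_lit 4) (nat_lit 553) (nat_lit 391) (nat_lit 256)) (XT.lf (nat_lit 0) (nat_lit 1205595366) (nat_lit 684) (nat_lit 1075403982) (nat_lit 684) (nat_lit 1075403982) (nat_lit 421) (nat_lit 4) (nat_lit 430) (nat_lit 5) (nat_lit 430) (nat_lit 4) (nat_lit 416) (nat_lit 392) (nat_lit 392))) (XT.nd (nat_lit 78) (nat_lit 0) (nat_lit 0) (XT.lf (nat_lit 0) (nat_lit 193909603) (nat_lit 760) (nat_lit 978911535) (nat_lit 836) (nat_lit 5575662338) (nat_lit 410) (nat_lit 5) (nat_lit 420) (nat_lit 5) (nat_lit 421) (nat_lit 4) (nat_lit 417) (nat_lit 392) (nat_lit 391)) (XT.lf (nat_lit 0) (nat_lit 4491025871) (nat_lit 836) (nat_lit 1989004669) (nat_lit 0) (nat_lit 306425875) (nat_lit 410) (nat_lit 5) (nat_lit 421) (nat_lit 4) (nat_lit 410) (nat_lit 4) (nat_lit 418) (nat_lit 392) (nat_lit 390)))))) (XT.nd (nat_lit 624) (nat_lit 3952)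 (nat_lit 0) (XT.nd (nat_lit 312) (nat_lit 3572) (nat_lit 0) (XT.nd (nat_lit 156) (nat_lit 1064) (nat_lit 0) (XT.nd (nat_lit 78) (nat_lit 912) (nat_lit 0) (XT.lf (nat_lit 0) (nat_lit 991864095) (nat_lit 912) (nat_lit 4172455015) (nat_lit 76) (nat_lit 1663050387) (nat_lit 398) (nat_lit 5) (nat_lit 410) (nat_lit 5) (nat_lit 399) (nat_lit 4) (nat_lit 419) (nat_lit 392) (nat_lit 389)) (XT.lf (nat_lit 0) (nat_lit 504851997) (nat_lit 912) (nat_lit 3748270579) (nat_lit 988) (nat_lit 2618068071) (nat_lit 386) (nat_lit 5) (nat_lit 398) (nat_lit 5) (nat_lit 399) (nat_lit 4) (nat_lit 420) (nat_lit 392) (nat_lit 388))) (XT.nd (nat_lit 78) (nat_lit 988) (nat_lit 0) (XT.lf (nat_lit 0) (nat_lit 622338711) (nat_lit 988) (nat_lit 1607393619) (nat_lit 76) (nat_lit 4688199165) (nat_lit 385) (nat_lit 5) (nat_lit 398) (nat_lit 5) (nat_lit 386) (nat_lit 5) (nat_lit 421) (nat_lit 392) (nat_lit 387)) (XT.lf (nat_lit 0) (nat_lit 3241125744)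 (nat_lit 988) (nat_lit 597828149) (nat_lit 1064) (nat_lit 3128400859) (nat_lit 372) (nat_lit 5) (nat_lit 385) (nat_lit 5) (nat_lit 386) (nat_lit 5) (nat_lit 422) (nat_lit 392) (nat_lit 386)))) (XT.nd (nat_lit 156) (nat_lit 2432) (nat_lit 0) (XT.nd (nat_lit 78) (nat_lit 0) (nat_lit 0) (XT.lf (nat_lit 0) (nat_lit 71224969) (nat_lit 1140) (nat_lit 5850850097) (nat_lit 76) (nat_lit 1097952139) (nat_lit 357) (nat_lit 5) (nat_lit 372) (nat_lit 5) (nat_lit 358) (nat_lit 5) (nat_lit 423) (nat_lit 392) (nat_lit 385)) (XT.lf (nat_lit 0) (nat_lit 3251460187) (nat_lit 1140) (nat_lit 916241987) (nat_lit 76) (nat_lit 2907229270) (nat_lit 357) (nat_lit 5) (nat_lit 372) (nat_lit 5) (nat_lit 358) (nat_lit 5) (nat_lit 424) (nat_lit 392) (nat_lit 384))) (XT.nd (nat_lit 78) (nat_lit 1292) (nat_lit 0) (XT.lf (nat_lit 0) (nat_lit 4156587638) (nat_lit 1140) (nat_lit 2316857989) (nat_lit 1216) (nat_lit 659652509) (nat_lit 342) (nat_lit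 5) (nat_lit 357) (nat_lit 5) (nat_lit 358) (nat_lit 5) (nat_lit 425) (nat_lit 392) (nat_lit 383)) (XT.lf (nat_lit 0) (nat_lit 2132300450) (nat_lit 1216) (nat_lit 353238577) (nat_lit 1292) (nat_lit 4708611313) (nat_lit 325) (nat_lit 5) (nat_lit 341) (nat_lit 5) (nat_lit 342) (nat_lit 5) (nat_lit 426) (nat_lit 392) (nat_lit 382))))) (XT.nd (nat_lit 312) (nat_lit 1748) (nat_lit 0) (XT.nd (nat_lit 156) (nat_lit 1292) (nat_lit 0) (XT.nd (nat_lit 78) (nat_lit 76) (nat_lit 0) (XT.lf (nat_lit 0) (nat_lit 84316183) (nat_lit 836) (nat_lit 5583880848) (nat_lit 912) (nat_lit 1589955214) (nat_lit 314) (nat_lit 5) (nat_lit 325) (nat_lit 5) (nat_lit 326) (nat_lit 5) (nat_lit 427) (nat_lit 392) (nat_lit 381)) (XT.lf (nat_lit 0) (nat_lit 1555747451) (nat_lit 912) (nat_lit 1948097966) (nat_lit 76) (nat_lit 3820811524) (nat_lit 313) (nat_lit 5) (nat_lit 325) (nat_lit 5) (nat_lit 314) (nat_lit 5) (nat_lit 428) (nat_lit 392) (nat_lit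 380))) (XT.nd (nat_lit 78) (nat_lit 684) (nat_lit 0) (XT.lf (nat_lit 0) (nat_lit 3393045989) (nat_lit 608) (nat_lit 1316080128) (nat_lit 684) (nat_lit 2685205262) (nat_lit 305) (nat_lit 5) (nat_lit 313) (nat_lit 5) (nat_lit 314) (nat_lit 5) (nat_lit 429) (nat_lit 392) (nat_lit 379)) (XT.lf (nat_lit 0) (nat_lit 437529860) (nat_lit 684) (nat_lit 6078315593) (nat_lit 76) (nat_lit 951430404) (nat_lit 296) (nat_lit 5) (nat_lit 305) (nat_lit 5) (nat_lit 297) (nat_lit 5) (nat_lit 430) (nat_lit 392) (nat_lit 378)))) (XT.nd (nat_lit 156) (nat_lit 1216) (nat_lit 0) (XT.nd (nat_lit 78) (nat_lit 532) (nat_lit 0) (XT.lf (nat_lit 0) (nat_lit 3568848150) (nat_lit 684) (nat_lit 652515538) (nat_lit 76) (nat_lit 3321185571) (nat_lit 296) (nat_lit 5) (nat_lit 305) (nat_lit 5) (nat_lit 297) (nat_lit 5) (nat_lit 431) (nat_lit 392) (nat_lit 377)) (XT.lf (nat_lit 0) (nat_lit 4940981659) (nat_lit 532) (nat_lit 1818130163) (nat_lit 608)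 (nat_lit 862023049) (nat_lit 289) (nat_lit 5) (nat_lit 296) (nat_lit 5) (nat_lit 297) (nat_lit 5) (nat_lit 432) (nat_lit 392) (nat_lit 376))) (XT.nd (nat_lit 78) (nat_lit 532) (nat_lit 0) (XT.lf (nat_lit 0) (nat_lit 2257383867) (nat_lit 684) (nat_lit 4752934732) (nat_lit 76) (nat_lit 692284754) (nat_lit 280) (nat_lit 5) (nat_lit 289) (nat_lit 5) (nat_lit 281) (nat_lit 5) (nat_lit 433) (nat_lit 392) (nat_lit 375)) (XT.lf (nat_lit 0) (nat_lit 915044840) (nat_lit 532) (nat_lit 4511765423) (nat_lit 608) (nat_lit 2360240515) (nat_lit 273) (nat_lit 5) (nat_lit 280) (nat_lit 5) (nat_lit 281) (nat_lit 5) (nat_lit 434) (nat_lit 392) (nat_lit 374))))))))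
noncomputable def xc76 : XT := (XT.nd (nat_lit 2418) (nat_lit 4256) (nat_lit 0) (XT.nd (nat_lit 1170) (nat_lit 3648) (nat_lit 0) (XT.nd (nat_lit 546) (nat_lit 2584) (nat_lit 0) (XT.nd (nat_lit 234) (nat_lit 1520) (nat_lit 0) (XT.nd (nat_lit 78) (nat_lit 988) (nat_lit 0) (XT.lf (nat_lit 0) (nat_lit 770108263) (nat_lit 608) (nat_lit 1124729352) (nat_lit 76) (nat_lit 5979898872) (nat_lit 272) (nat_lit 5) (nat_lit 280) (nat_lit 5) (nat_lit 273) (nat_lit 5) (nat_lit 435) (nat_lit 392) (nat_lit 373)) (XT.nd (nat_lit 78) (nat_lit 456) (nat_lit 0) (XT.lf (nat_lit 0) (nat_lit 3923676596) (nat_lit 608) (nat_lit 3200360347) (nat_lit 76) (nat_lit 841015838) (nat_lit 265) (nat_lit 5) (nat_lit 273) (nat_lit 5) (nat_lit 266) (nat_lit 5) (nat_lit 436) (nat_lit 392) (nat_lit 372)) (XT.lf (nat_lit 0) (nat_lit 2737868691) (nat_lit 456) (nat_lit 4414393149) (nat_lit 532) (nat_lit 906407828) (nat_lit 259) (nat_lit 5) (nat_lit 265) (nat_lit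 5) (nat_lit 266) (nat_lit 5) (nat_lit 437) (nat_lit 392) (nat_lit 371)))) (XT.nd (nat_lit 156) (nat_lit 988) (nat_lit 0) (XT.nd (nat_lit 78) (nat_lit 0) (nat_lit 0) (XT.lf (nat_lit 0) (nat_lit 662611288) (nat_lit 456) (nat_lit 1578134058) (nat_lit 532) (nat_lit 5914779385) (nat_lit 252) (nat_lit 5) (nat_lit 258) (nat_lit 5) (nat_lit 259) (nat_lit 5) (nat_lit 438) (nat_lit 392) (nat_lit 370)) (XT.lf (nat_lit 0) (nat_lit 5456856224) (nat_lit 532) (nat_lit 1436029377) (nat_lit 76) (nat_lit 1362350896) (nat_lit 252) (nat_lit 5) (nat_lit 259) (nat_lit 5) (nat_lit 253) (nat_lit 5) (nat_lit 439) (nat_lit 392) (nat_lit 369))) (XT.nd (nat_lit 78) (nat_lit 456) (nat_lit 0) (XT.lf (nat_lit 0) (nat_lit 392783905) (nat_lit 532) (nat_lit 3573513639) (nat_lit 76) (nat_lit 4391847242) (nat_lit 245) (nat_lit 5) (nat_lit 252) (nat_lit 5) (nat_lit 246) (nat_lit 5) (nat_lit 440) (nat_lit 392) (nat_lit 368)) (XT.lf (nat_lit 0) (nat_lit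 2689972312) (nat_lit 456) (nat_lit 902247907) (nat_lit 532) (nat_lit 4872028294) (nat_lit 239) (nat_lit 5) (nat_lit 245) (nat_lit 5) (nat_lit 246) (nat_lit 5) (nat_lit 441) (nat_lit 392) (nat_lit 367))))) (XT.nd (nat_lit 312) (nat_lit 1292) (nat_lit 0) (XT.nd (nat_lit 156) (nat_lit 836) (nat_lit 0) (XT.nd (nat_lit 78) (nat_lit 76) (nat_lit 0) (XT.lf (nat_lit 0) (nat_lit 537302847) (nat_lit 380) (nat_lit 6342897570) (nat_lit 456) (nat_lit 1693560876) (nat_lit 234) (nat_lit 5) (nat_lit 239) (nat_lit 5) (nat_lit 240) (nat_lit 5) (nat_lit 442) (nat_lit 392) (nat_lit 366)) (XT.lf (nat_lit 0) (nat_lit 1547012408) (nat_lit 456) (nat_lit 1646724214) (nat_lit 76) (nat_lit 5492442076) (nat_lit 233) (nat_lit 5) (nat_lit 239) (nat_lit 5) (nat_lit 234) (nat_lit 5) (nat_lit 443) (nat_lit 392) (nat_lit 365))) (XT.nd (nat_lit 78) (nat_lit 380) (nat_lit 0) (XT.lf (nat_lit 0) (nat_lit 4830794937) (nat_lit 532) (nat_lit 3880067231)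 (nat_lit 76) (nat_lit 91205020) (nat_lit 227) (nat_lit 5) (nat_lit 234) (nat_lit 5) (nat_lit 228) (nat_lit 5) (nat_lit 444) (nat_lit 392) (nat_lit 364)) (XT.lf (nat_lit 0) (nat_lit 2730120916) (nat_lit 380) (nat_lit 5490339601) (nat_lit 456) (nat_lit 700753188) (nat_lit 222) (nat_lit 5) (nat_lit 227) (nat_lit 5) (nat_lit 228) (nat_lit 5) (nat_lit 445) (nat_lit 392) (nat_lit 363)))) (XT.nd (nat_lit 156) (nat_lit 836) (nat_lit 0) (XT.nd (nat_lit 78) (nat_lit 0) (nat_lit 0) (XT.lf (nat_lit 0) (nat_lit 466046437) (nat_lit 380) (nat_lit 2126962029) (nat_lit 456) (nat_lit 6450843497) (nat_lit 216) (nat_lit 5) (nat_lit 221) (nat_lit 5) (nat_lit 222) (nat_lit 5) (nat_lit 446) (nat_lit 392) (nat_lit 362)) (XT.lf (nat_lit 0) (nat_lit 5981449338) (nat_lit 456) (nat_lit 1832125565) (nat_lit 76) (nat_lit 1356090045) (nat_lit 216) (nat_lit 5) (nat_lit 222) (nat_lit 5) (nat_lit 217) (nat_lit 5) (nat_lit 447) (nat_lit 392) (nat_lit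 361))) (XT.nd (nat_lit 78) (nat_lit 380) (nat_lit 0) (XT.lf (nat_lit 0) (nat_lit 174990028) (nat_lit 456) (nat_lit 4196843039) (nat_lit 76) (nat_lit 4927189864) (nat_lit 210) (nat_lit 5) (nat_lit 216) (nat_lit 5) (nat_lit 211) (nat_lit 5) (nat_lit 448) (nat_lit 392) (nat_lit 360)) (XT.lf (nat_lit 0) (nat_lit 2782003525) (nat_lit 380) (nat_lit 774696055) (nat_lit 456) (nat_lit 5875166503) (nat_lit 205) (nat_lit 5) (nat_lit 210) (nat_lit 5) (nat_lit 211) (nat_lit 5) (nat_lit 449) (nat_lit 392) (nat_lit 359)))))) (XT.nd (nat_lit 624) (nat_lit 1596) (nat_lit 0) (XT.nd (nat_lit 312) (nat_lit 1064) (nat_lit 0) (XT.nd (nat_lit 156) (nat_lit 608) (nat_lit 0) (XT.nd (nat_lit 78) (nat_lit 76) (nat_lit 0) (XT.lf (nat_lit 0) (nat_lit 375941930) (nat_lit 304) (nat_lit 6675490696) (nat_lit 380) (nat_lit 2516916735) (nat_lit 201) (nat_lit 5) (nat_lit 205) (nat_lit 5) (nat_lit 206) (nat_lit 5) (nat_lit 450) (nat_lit 392) (nat_lit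 358)) (XT.lf (nat_lit 0) (nat_lit 936520238) (nat_lit 380) (nat_lit 2067447639) (nat_lit 76) (nat_lit 6704304777) (nat_lit 200) (nat_lit 5) (nat_lit 205) (nat_lit 5) (nat_lit 201) (nat_lit 5) (nat_lit 451) (nat_lit 392) (nat_lit 357))) (XT.nd (nat_lit 78) (nat_lit 304) (nat_lit 0) (XT.lf (nat_lit 0) (nat_lit 4440643976) (nat_lit 380) (nat_lit 4600230708) (nat_lit 76) (nat_lit 810843054) (nat_lit 196) (nat_lit 5) (nat_lit 201) (nat_lit 5) (nat_lit 197) (nat_lit 5) (nat_lit 452) (nat_lit 392) (nat_lit 356)) (XT.lf (nat_lit 0) (nat_lit 2767637232) (nat_lit 304) (nat_lit 5299494982) (nat_lit 380) (nat_lit 1931818511) (nat_lit 192) (nat_lit 5) (nat_lit 196) (nat_lit 5) (nat_lit 197) (nat_lit 5) (nat_lit 453) (nat_lit 392) (nat_lit 355)))) (XT.nd (nat_lit 156) (nat_lit 684) (nat_lit 0) (XT.nd (nat_lit 78) (nat_lit 0) (nat_lit 0) (XT.lf (nat_lit 0) (nat_lit 198915226) (nat_lit 304) (nat_lit 1409610260) (nat_lit 380) (nat_lit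 8541932224) (nat_lit 187) (nat_lit 5) (nat_lit 191) (nat_lit 5) (nat_lit 192) (nat_lit 5) (nat_lit 454) (nat_lit 392) (nat_lit 354)) (XT.lf (nat_lit 0) (nat_lit 5255672445) (nat_lit 380) (nat_lit 2439704193) (nat_lit 76) (nat_lit 2609378475) (nat_lit 187) (nat_lit 5) (nat_lit 192) (nat_lit 5) (nat_lit 188) (nat_lit 5) (nat_lit 455) (nat_lit 392) (nat_lit 353))) (XT.nd (nat_lit 78) (nat_lit 380) (nat_lit 0) (XT.lf (nat_lit 0) (nat_lit 5298719109) (nat_lit 304) (nat_lit 3720844145) (nat_lit 380) (nat_lit 1443899879) (nat_lit 183) (nat_lit 5) (nat_lit 187) (nat_lit 5) (nat_lit 188) (nat_lit 5) (nat_lit 456) (nat_lit 392) (nat_lit 352)) (XT.lf (nat_lit 0) (nat_lit 2222062964) (nat_lit 380) (nat_lit 7996525132) (nat_lit 76) (nat_lit 407784040) (nat_lit 178) (nat_lit 5) (nat_lit 183) (nat_lit 5) (nat_lit 179) (nat_lit 5) (nat_lit 457) (nat_lit 392) (nat_lit 351))))) (XT.nd (nat_lit 312) (nat_lit 760) (nat_lit 0) (XT.nd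 (nat_lit 156) (nat_lit 608) (nat_lit 0) (XT.nd (nat_lit 78) (nat_lit 228) (nat_lit 0) (XT.lf (nat_lit 0) (nat_lit 6001732918) (nat_lit 380) (nat_lit 169124057) (nat_lit 76) (nat_lit 4621901523) (nat_lit 178) (nat_lit 5) (nat_lit 183) (nat_lit 5) (nat_lit 179) (nat_lit 5) (nat_lit 458) (nat_lit 392) (nat_lit 350)) (XT.lf (nat_lit 0) (nat_lit 7962044140) (nat_lit 228) (nat_lit 1954177082) (nat_lit 304) (nat_lit 1047273782) (nat_lit 175) (nat_lit 5) (nat_lit 178) (nat_lit 5) (nat_lit 179) (nat_lit 5) (nat_lit 459) (nat_lit 392) (nat_lit 349))) (XT.nd (nat_lit 78) (nat_lit 228) (nat_lit 0) (XT.lf (nat_lit 0) (nat_lit 2774156931) (nat_lit 380) (nat_lit 5973199964) (nat_lit 76) (nat_lit 2390582757) (nat_lit 170) (nat_lit 5) (nat_lit 175) (nat_lit 5) (nat_lit 171) (nat_lit 5) (nat_lit 460) (nat_lit 392) (nat_lit 348)) (XT.lf (nat_lit 0) (nat_lit 2247434136) (nat_lit 228) (nat_lit 4458911659) (nat_lit 304) (nat_lit 4610447124)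 (nat_lit 167) (nat_lit 5) (nat_lit 170) (nat_lit 5) (nat_lit 171) (nat_lit 5) (nat_lit 461) (nat_lit 392) (nat_lit 347)))) (XT.nd (nat_lit 156) (nat_lit 456) (nat_lit 0) (XT.nd (nat_lit 78) (nat_lit 304) (nat_lit 0) (XT.lf (nat_lit 0) (nat_lit 10750847942) (nat_lit 228) (nat_lit 12328478) (nat_lit 304) (nat_lit 737636326) (nat_lit 167) (nat_lit 5) (nat_lit 170) (nat_lit 5) (nat_lit 171) (nat_lit 5) (nat_lit 462) (nat_lit 392) (nat_lit 346)) (XT.lf (nat_lit 0) (nat_lit 3255490596) (nat_lit 304) (nat_lit 3877141862) (nat_lit 76) (nat_lit 4554756936) (nat_lit 163) (nat_lit 5) (nat_lit 167) (nat_lit 5) (nat_lit 164) (nat_lit 5) (nat_lit 463) (nat_lit 392) (nat_lit 345))) (XT.nd (nat_lit 78) (nat_lit 228) (nat_lit 0) (XT.lf (nat_lit 0) (nat_lit 4763520834) (nat_lit 228) (nat_lit 2591444735) (nat_lit 304) (nat_lit 4524338411) (nat_lit 160) (nat_lit 5) (nat_lit 163) (nat_lit 5) (nat_lit 164) (nat_lit 5) (nat_lit 464) (nat_lit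 392) (nat_lit 344)) (XT.lf (nat_lit 0) (nat_lit 1592078451) (nat_lit 228) (nat_lit 10008453124) (nat_lit 304) (nat_lit 475752332) (nat_lit 157) (nat_lit 5) (nat_lit 160) (nat_lit 5) (nat_lit 161) (nat_lit 5) (nat_lit 465) (nat_lit 392) (nat_lit 343))))))) (XT.nd (nat_lit 1170) (nat_lit 1976) (nat_lit 0) (XT.nd (nat_lit 546) (nat_lit 1064) (nat_lit 0) (XT.nd (nat_lit 234) (nat_lit 684) (nat_lit 0) (XT.nd (nat_lit 78) (nat_lit 456) (nat_lit 0) (XT.lf (nat_lit 0) (nat_lit 3668825444) (nat_lit 304) (nat_lit 1717673660) (nat_lit 76) (nat_lit 6890211124) (nat_lit 156) (nat_lit 5) (nat_lit 160) (nat_lit 5) (nat_lit 157) (nat_lit 5) (nat_lit 466) (nat_lit 392) (nat_lit 342)) (XT.nd (nat_lit 78) (nat_lit 228) (nat_lit 0) (XT.lf (nat_lit 0) (nat_lit 7367594033) (nat_lit 228) (nat_lit 581307435) (nat_lit 304) (nat_lit 4533485881) (nat_lit 153) (nat_lit 5) (nat_lit 156) (nat_lit 5) (nat_lit 157) (nat_lit 5) (nat_lit 467) (nat_lit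 392) (nat_lit 341)) (XT.lf (nat_lit 0) (nat_lit 4019524165) (nat_lit 228) (nat_lit 8386248381) (nat_lit 304) (nat_lit 287011436) (nat_lit 150) (nat_lit 5) (nat_lit 153) (nat_lit 5) (nat_lit 154) (nat_lit 5) (nat_lit 468) (nat_lit 392) (nat_lit 340)))) (XT.nd (nat_lit 156) (nat_lit 456) (nat_lit 0) (XT.nd (nat_lit 78) (nat_lit 0) (nat_lit 0) (XT.lf (nat_lit 0) (nat_lit 505248663) (nat_lit 152) (nat_lit 3515047435) (nat_lit 228) (nat_lit 8887623136) (nat_lit 147) (nat_lit 5) (nat_lit 149) (nat_lit 5) (nat_lit 150) (nat_lit 5) (nat_lit 469) (nat_lit 392) (nat_lit 339)) (XT.lf (nat_lit 0) (nat_lit 8504679045) (nat_lit 228) (nat_lit 3092279397) (nat_lit 76) (nat_lit 1530857005) (nat_lit 147) (nat_lit 5) (nat_lit 150) (nat_lit 5) (nat_lit 148) (nat_lit 5) (nat_lit 470) (nat_lit 392) (nat_lit 338))) (XT.nd (nat_lit 78) (nat_lit 228) (nat_lit 0) (XT.lf (nat_lit 0) (nat_lit 6507910652) (nat_lit 228) (nat_lit 6665212063)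 (nat_lit 304) (nat_lit 179700829) (nat_lit 144) (nat_lit 5) (nat_lit 147) (nat_lit 5) (nat_lit 148) (nat_lit 5) (nat_lit 471) (nat_lit 392) (nat_lit 337)) (XT.lf (nat_lit 0) (nat_lit 2806180495) (nat_lit 152) (nat_lit 1515881036) (nat_lit 228) (nat_lit 9260928392) (nat_lit 141) (nat_lit 5) (nat_lit 143) (nat_lit 5) (nat_lit 144) (nat_lit 5) (nat_lit 472) (nat_lit 392) (nat_lit 336))))) (XT.nd (nat_lit 312) (nat_lit 380) (nat_lit 0) (XT.nd (nat_lit 156) (nat_lit 456) (nat_lit 0) (XT.nd (nat_lit 78) (nat_lit 228) (nat_lit 0) (XT.lf (nat_lit 0) (nat_lit 9014080493) (nat_lit 228) (nat_lit 1051878446) (nat_lit 76) (nat_lit 3752285310) (nat_lit 141) (nat_lit 5) (nat_lit 144) (nat_lit 5) (nat_lit 142) (nat_lit 5) (nat_lit 473) (nat_lit 392) (nat_lit 335)) (XT.lf (nat_lit 0) (nat_lit 9046579429) (nat_lit 228) (nat_lit 4856230265) (nat_lit 304) (nat_lit 156068796) (nat_lit 138) (nat_lit 5) (nat_lit 141) (nat_lit 5) (nat_lit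 142) (nat_lit 5) (nat_lit 474) (nat_lit 392) (nat_lit 334))) (XT.nd (nat_lit 78) (nat_lit 228) (nat_lit 0) (XT.lf (nat_lit 0) (nat_lit 4560938115) (nat_lit 228) (nat_lit 9171661975) (nat_lit 76) (nat_lit 572201413) (nat_lit 135) (nat_lit 5) (nat_lit 138) (nat_lit 5) (nat_lit 136) (nat_lit 5) (nat_lit 475) (nat_lit 392) (nat_lit 333)) (XT.lf (nat_lit 0) (nat_lit 1018727722) (nat_lit 228) (nat_lit 8460942352) (nat_lit 304) (nat_lit 5076485934) (nat_lit 132) (nat_lit 5) (nat_lit 135) (nat_lit 5) (nat_lit 136) (nat_lit 5) (nat_lit 476) (nat_lit 392) (nat_lit 332)))) (XT.nd (nat_lit 156) (nat_lit 152) (nat_lit 0) (XT.nd (nat_lit 78) (nat_lit 228) (nat_lit 0) (XT.lf (nat_lit 0) (nat_lit 11623496573) (nat_lit 228) (nat_lit 2970011816) (nat_lit 304) (nat_lit 220117117) (nat_lit 132) (nat_lit 5) (nat_lit 135) (nat_lit 5) (nat_lit 136) (nat_lit 5) (nat_lit 477) (nat_lit 392) (nat_lit 331)) (XT.lf (nat_lit 0) (nat_lit 4743094352)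 (nat_lit 228) (nat_lit 7613401658) (nat_lit 76) (nat_lit 2719310786) (nat_lit 129) (nat_lit 5) (nat_lit 132) (nat_lit 5) (nat_lit 130) (nat_lit 5) (nat_lit 478) (nat_lit 392) (nat_lit 330))) (XT.nd (nat_lit 78) (nat_lit 0) (nat_lit 0) (XT.lf (nat_lit 0) (nat_lit 3105583376) (nat_lit 152) (nat_lit 6793017455) (nat_lit 228) (nat_lit 5445753257) (nat_lit 127) (nat_lit 5) (nat_lit 129) (nat_lit 5) (nat_lit 130) (nat_lit 5) (nat_lit 479) (nat_lit 392) (nat_lit 329)) (XT.lf (nat_lit 0) (nat_lit 14224835268) (nat_lit 152) (nat_lit 1017385568) (nat_lit 228) (nat_lit 377734126) (nat_lit 127) (nat_lit 5) (nat_lit 129) (nat_lit 5) (nat_lit 130) (nat_lit 5) (nat_lit 480) (nat_lit 392) (nat_lit 328)))))) (XT.nd (nat_lit 624) (nat_lit 836) (nat_lit 0) (XT.nd (nat_lit 312) (nat_lit 532) (nat_lit 0) (XT.nd (nat_lit 156) (nat_lit 228) (nat_lit 0) (XT.nd (nat_lit 78) (nat_lit 152) (nat_lit 0) (XT.lf (nat_lit 0) (nat_lit 4848351657)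 (nat_lit 228) (nat_lit 6105939279) (nat_lit 76) (nat_lit 4945121563) (nat_lit 124) (nat_lit 5) (nat_lit 127) (nat_lit 5) (nat_lit 125) (nat_lit 5) (nat_lit 481) (nat_lit 392) (nat_lit 327)) (XT.lf (nat_lit 0) (nat_lit 5170265596) (nat_lit 152) (nat_lit 5084976120) (nat_lit 228) (nat_lit 5930951995) (nat_lit 122) (nat_lit 5) (nat_lit 124) (nat_lit 5) (nat_lit 125) (nat_lit 5) (nat_lit 482) (nat_lit 392) (nat_lit 326))) (XT.nd (nat_lit 78) (nat_lit 76) (nat_lit 0) (XT.lf (nat_lit 0) (nat_lit 350845949) (nat_lit 152) (nat_lit 15506166334) (nat_lit 228) (nat_lit 623586407) (nat_lit 120) (nat_lit 5) (nat_lit 122) (nat_lit 5) (nat_lit 123) (nat_lit 4) (nat_lit 483) (nat_lit 392) (nat_lit 325)) (XT.lf (nat_lit 0) (nat_lit 4869072371) (nat_lit 228) (nat_lit 4670502767) (nat_lit 76) (nat_lit 7239247277) (nat_lit 119) (nat_lit 5) (nat_lit 122) (nat_lit 5) (nat_lit 120) (nat_lit 5) (nat_lit 484) (nat_lit 392) (nat_lit 324))))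 (XT.nd (nat_lit 156) (nat_lit 228) (nat_lit 0) (XT.nd (nat_lit 78) (nat_lit 152) (nat_lit 0) (XT.lf (nat_lit 0) (nat_lit 7192486827) (nat_lit 152) (nat_lit 3349745364) (nat_lit 228) (nat_lit 6542728294) (nat_lit 117) (nat_lit 5) (nat_lit 119) (nat_lit 5) (nat_lit 120) (nat_lit 5) (nat_lit 485) (nat_lit 392) (nat_lit 323)) (XT.lf (nat_lit 0) (nat_lit 2044194130) (nat_lit 152) (nat_lit 14397040728) (nat_lit 228) (nat_lit 957378881) (nat_lit 115) (nat_lit 5) (nat_lit 117) (nat_lit 5) (nat_lit 118) (nat_lit 4) (nat_lit 486) (nat_lit 392) (nat_lit 322))) (XT.nd (nat_lit 78) (nat_lit 152) (nat_lit 0) (XT.lf (nat_lit 0) (nat_lit 4795363937) (nat_lit 228) (nat_lit 3331646108) (nat_lit 76) (nat_lit 9590481744) (nat_lit 114) (nat_lit 5) (nat_lit 117) (nat_lit 5) (nat_lit 115) (nat_lit 5) (nat_lit 487) (nat_lit 392) (nat_lit 321)) (XT.lf (nat_lit 0) (nat_lit 9148559854) (nat_lit 152) (nat_lit 1601373582) (nat_lit 228) (nat_lit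 7294264213) (nat_lit 112) (nat_lit 5) (nat_lit 114) (nat_lit 5) (nat_lit 115) (nat_lit 5) (nat_lit 488) (nat_lit 392) (nat_lit 320))))) (XT.nd (nat_lit 312) (nat_lit 380) (nat_lit 0) (XT.nd (nat_lit 156) (nat_lit 228) (nat_lit 0) (XT.nd (nat_lit 78) (nat_lit 76) (nat_lit 0) (XT.lf (nat_lit 0) (nat_lit 3640826435) (nat_lit 152) (nat_lit 13321197496) (nat_lit 228) (nat_lit 1416314667) (nat_lit 110) (nat_lit 5) (nat_lit 112) (nat_lit 5) (nat_lit 113) (nat_lit 4) (nat_lit 489) (nat_lit 392) (nat_lit 319)) (XT.lf (nat_lit 0) (nat_lit 4614806122) (nat_lit 228) (nat_lit 2117912473) (nat_lit 76) (nat_lit 11986428004) (nat_lit 109) (nat_lit 5) (nat_lit 112) (nat_lit 5) (nat_lit 110) (nat_lit 5) (nat_lit 490) (nat_lit 392) (nat_lit 318))) (XT.nd (nat_lit 78) (nat_lit 76) (nat_lit 0) (XT.lf (nat_lit 0) (nat_lit 10867531448) (nat_lit 228) (nat_lit 8058405264) (nat_lit 76) (nat_lit 141747711) (nat_lit 107) (nat_lit 5) (nat_lit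 110) (nat_lit 5) (nat_lit 108) (nat_lit 4) (nat_lit 491) (nat_lit 392) (nat_lit 317)) (XT.lf (nat_lit 0) (nat_lit 5109974515) (nat_lit 76) (nat_lit 12297280676) (nat_lit 152) (nat_lit 2016441072) (nat_lit 106) (nat_lit 5) (nat_lit 107) (nat_lit 5) (nat_lit 108) (nat_lit 4) (nat_lit 492) (nat_lit 392) (nat_lit 316)))) (XT.nd (nat_lit 156) (nat_lit 152) (nat_lit 0) (XT.nd (nat_lit 78) (nat_lit 152) (nat_lit 0) (XT.lf (nat_lit 0) (nat_lit 4312123295) (nat_lit 152) (nat_lit 1062594641) (nat_lit 76) (nat_lit 14413087247) (nat_lit 105) (nat_lit 5) (nat_lit 107) (nat_lit 5) (nat_lit 106) (nat_lit 5) (nat_lit 493) (nat_lit 392) (nat_lit 315)) (XT.lf (nat_lit 0) (nat_lit 10893725736) (nat_lit 228) (nat_lit 7431359251) (nat_lit 76) (nat_lit 1834042502) (nat_lit 103) (nat_lit 5) (nat_lit 106) (nat_lit 5) (nat_lit 104) (nat_lit 4) (nat_lit 494) (nat_lit 392) (nat_lit 314))) (XT.nd (nat_lit 78) (nat_lit 76) (nat_lit 0) (XT.lf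 (nat_lit 0) (nat_lit 6415570171) (nat_lit 76) (nat_lit 11346248189) (nat_lit 152) (nat_lit 2777100179) (nat_lit 102) (nat_lit 5) (nat_lit 103) (nat_lit 5) (nat_lit 104) (nat_lit 4) (nat_lit 495) (nat_lit 392) (nat_lit 313)) (XT.lf (nat_lit 0) (nat_lit 3868794180) (nat_lit 152) (nat_lit 204609567) (nat_lit 76) (nat_lit 16854398704) (nat_lit 101) (nat_lit 5) (nat_lit 103) (nat_lit 5) (nat_lit 102) (nat_lit 5) (nat_lit 496) (nat_lit 392) (nat_lit 312))))))))
noncomputable def xc77 : XT := (XT.nd (nat_lit 2418) (nat_lit 1748) (nat_lit 0) (XT.nd (nat_lit 1170) (nat_lit 1292) (nat_lit 0) (XT.nd (nat_lit 546) (nat_lit 684) (nat_lit 0) (XT.nd (nat_lit 234) (nat_lit 304) (nat_lit 0) (XT.nd (nat_lit 78) (nat_lit 304) (nat_lit 0) (XT.lf (nat_lit 0) (nat_lit 10794501012) (nat_lit 228) (nat_lit 7041796045) (nat_lit 76) (nat_lit 3487143672) (nat_lit 99) (nat_lit 5) (nat_lit 102) (nat_lit 5) (nat_lit 100) (nat_lit 4) (nat_lit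 497) (nat_lit 392) (nat_lit 311)) (XT.nd (nat_lit 78) (nat_lit 228) (nat_lit 0) (XT.lf (nat_lit 0) (nat_lit 7515278887) (nat_lit 76) (nat_lit 10491905134) (nat_lit 152) (nat_lit 3721388288) (nat_lit 98) (nat_lit 5) (nat_lit 99) (nat_lit 5) (nat_lit 100) (nat_lit 4) (nat_lit 498) (nat_lit 392) (nat_lit 310)) (XT.lf (nat_lit 0) (nat_lit 418663110) (nat_lit 152) (nat_lit 2847951493) (nat_lit 228) (nat_lit 18877081672) (nat_lit 95) (nat_lit 5) (nat_lit 97) (nat_lit 5) (nat_lit 98) (nat_lit 5) (nat_lit 499) (nat_lit 392) (nat_lit 309)))) (XT.nd (nat_lit 156) (nat_lit 228) (nat_lit 0) (XT.nd (nat_lit 78) (nat_lit 76) (nat_lit 0) (XT.lf (nat_lit 0) (nat_lit 10547405571) (nat_lit 228) (nat_lit 6939563944) (nat_lit 76) (nat_lit 5078461030) (nat_lit 95) (nat_lit 5) (nat_lit 98) (nat_lit 5) (nat_lit 96) (nat_lit 4) (nat_lit 500) (nat_lit 392) (nat_lit 308)) (XT.lf (nat_lit 0) (nat_lit 8359384032) (nat_lit 76) (nat_lit 9761508030)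 (nat_lit 152) (nat_lit 4876696898) (nat_lit 94) (nat_lit 5) (nat_lit 95) (nat_lit 5) (nat_lit 96) (nat_lit 4) (nat_lit 501) (nat_lit 392) (nat_lit 307))) (XT.nd (nat_lit 78) (nat_lit 0) (nat_lit 0) (XT.lf (nat_lit 0) (nat_lit 743884713) (nat_lit 152) (nat_lit 1730297618) (nat_lit 228) (nat_lit 20966504703) (nat_lit 91) (nat_lit 5) (nat_lit 93) (nat_lit 5) (nat_lit 94) (nat_lit 5) (nat_lit 502) (nat_lit 392) (nat_lit 306)) (XT.lf (nat_lit 0) (nat_lit 10125582918) (nat_lit 228) (nat_lit 7182907852) (nat_lit 76) (nat_lit 6581798649) (nat_lit 91) (nat_lit 5) (nat_lit 94) (nat_lit 5) (nat_lit 92) (nat_lit 4) (nat_lit 503) (nat_lit 392) (nat_lit 305))))) (XT.nd (nat_lit 312) (nat_lit 304) (nat_lit 0) (XT.nd (nat_lit 156) (nat_lit 76) (nat_lit 0) (XT.nd (nat_lit 78) (nat_lit 228) (nat_lit 0) (XT.lf (nat_lit 0) (nat_lit 8889496836) (nat_lit 76) (nat_lit 9186453181) (nat_lit 152) (nat_lit 6275347362) (nat_lit 90) (nat_lit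 5) (nat_lit 91) (nat_lit 5) (nat_lit 92) (nat_lit 4) (nat_lit 504) (nat_lit 392) (nat_lit 304)) (XT.lf (nat_lit 0) (nat_lit 703251463) (nat_lit 152) (nat_lit 754258991) (nat_lit 228) (nat_lit 23366803701) (nat_lit 87) (nat_lit 5) (nat_lit 89) (nat_lit 5) (nat_lit 90) (nat_lit 5) (nat_lit 505) (nat_lit 392) (nat_lit 303))) (XT.nd (nat_lit 78) (nat_lit 76) (nat_lit 0) (XT.lf (nat_lit 0) (nat_lit 9497097490) (nat_lit 228) (nat_lit 7839900849) (nat_lit 76) (nat_lit 7966633195) (nat_lit 87) (nat_lit 5) (nat_lit 90) (nat_lit 5) (nat_lit 88) (nat_lit 4) (nat_lit 506) (nat_lit 392) (nat_lit 302)) (XT.lf (nat_lit 0) (nat_lit 9037063392) (nat_lit 76) (nat_lit 8803064237) (nat_lit 152) (nat_lit 7955333353) (nat_lit 86) (nat_lit 5) (nat_lit 87) (nat_lit 5) (nat_lit 88) (nat_lit 4) (nat_lit 507) (nat_lit 392) (nat_lit 301)))) (XT.nd (nat_lit 156) (nat_lit 76) (nat_lit 0) (XT.nd (nat_lit 78) (nat_lit 0) (nat_lit 0) (XT.lf (nat_lit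 0) (nat_lit 179293829) (nat_lit 228) (nat_lit 26078803350) (nat_lit 76) (nat_lit 42396800) (nat_lit 83) (nat_lit 5) (nat_lit 86) (nat_lit 5) (nat_lit 84) (nat_lit 4) (nat_lit 508) (nat_lit 392) (nat_lit 300)) (XT.lf (nat_lit 0) (nat_lit 8624145916) (nat_lit 228) (nat_lit 8990101076) (nat_lit 76) (nat_lit 9197285786) (nat_lit 83) (nat_lit 5) (nat_lit 86) (nat_lit 5) (nat_lit 84) (nat_lit 4) (nat_lit 509) (nat_lit 392) (nat_lit 299))) (XT.nd (nat_lit 78) (nat_lit 0) (nat_lit 0) (XT.lf (nat_lit 0) (nat_lit 8721635416) (nat_lit 76) (nat_lit 8653496223) (nat_lit 152) (nat_lit 9961187645) (nat_lit 82) (nat_lit 5) (nat_lit 83) (nat_lit 5) (nat_lit 84) (nat_lit 4) (nat_lit 510) (nat_lit 392) (nat_lit 298)) (XT.lf (nat_lit 0) (nat_lit 26454877026) (nat_lit 152) (nat_lit 791428527) (nat_lit 0) (nat_lit 628557114) (nat_lit 82) (nat_lit 5) (nat_lit 84) (nat_lit 4) (nat_lit 82) (nat_lit 4) (nat_lit 511) (nat_lit 392) (nat_lit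 297)))))) (XT.nd (nat_lit 624) (nat_lit 532) (nat_lit 0) (XT.nd (nat_lit 312) (nat_lit 304) (nat_lit 0) (XT.nd (nat_lit 156) (nat_lit 152) (nat_lit 0) (XT.nd (nat_lit 78) (nat_lit 76) (nat_lit 0) (XT.lf (nat_lit 0) (nat_lit 7462136115) (nat_lit 228) (nat_lit 10726470614) (nat_lit 76) (nat_lit 10231968965) (nat_lit 79) (nat_lit 5) (nat_lit 82) (nat_lit 5) (nat_lit 80) (nat_lit 4) (nat_lit 512) (nat_lit 392) (nat_lit 296)) (XT.lf (nat_lit 0) (nat_lit 7848866274) (nat_lit 76) (nat_lit 8786775992) (nat_lit 152) (nat_lit 12344992404) (nat_lit 78) (nat_lit 5) (nat_lit 79) (nat_lit 5) (nat_lit 80) (nat_lit 4) (nat_lit 513) (nat_lit 392) (nat_lit 295))) (XT.nd (nat_lit 78) (nat_lit 152) (nat_lit 0) (XT.lf (nat_lit 0) (nat_lit 26172361957) (nat_lit 152) (nat_lit 2420813617) (nat_lit 0) (nat_lit 961679751) (nat_lit 78) (nat_lit 5) (nat_lit 80) (nat_lit 4) (nat_lit 78) (nat_lit 4) (nat_lit 514) (nat_lit 392) (nat_lit 294))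 (XT.lf (nat_lit 0) (nat_lit 5958613667) (nat_lit 152) (nat_lit 13157598849) (nat_lit 76) (nat_lit 11021687575) (nat_lit 76) (nat_lit 5) (nat_lit 78) (nat_lit 5) (nat_lit 77) (nat_lit 4) (nat_lit 515) (nat_lit 392) (nat_lit 293)))) (XT.nd (nat_lit 156) (nat_lit 228) (nat_lit 0) (XT.nd (nat_lit 78) (nat_lit 0) (nat_lit 0) (XT.lf (nat_lit 0) (nat_lit 6308187705) (nat_lit 76) (nat_lit 9260002001) (nat_lit 152) (nat_lit 15167555323) (nat_lit 75) (nat_lit 5) (nat_lit 76) (nat_lit 5) (nat_lit 77) (nat_lit 4) (nat_lit 516) (nat_lit 392) (nat_lit 292)) (XT.lf (nat_lit 0) (nat_lit 25579750872) (nat_lit 152) (nat_lit 4786357457) (nat_lit 0) (nat_lit 982006196) (nat_lit 75) (nat_lit 5) (nat_lit 77) (nat_lit 4) (nat_lit 75) (nat_lit 4) (nat_lit 517) (nat_lit 392) (nat_lit 291))) (XT.nd (nat_lit 78) (nat_lit 76) (nat_lit 0) (XT.lf (nat_lit 0) (nat_lit 4052011524) (nat_lit 152) (nat_lit 16410279497) (nat_lit 76) (nat_lit 11508969031)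 (nat_lit 73) (nat_lit 5) (nat_lit 75) (nat_lit 5) (nat_lit 74) (nat_lit 4) (nat_lit 518) (nat_lit 392) (nat_lit 290)) (XT.lf (nat_lit 0) (nat_lit 3970115622) (nat_lit 76) (nat_lit 10139729940) (nat_lit 152) (nat_lit 18499777561) (nat_lit 72) (nat_lit 5) (nat_lit 73) (nat_lit 5) (nat_lit 74) (nat_lit 4) (nat_lit 519) (nat_lit 392) (nat_lit 289))))) (XT.nd (nat_lit 312) (nat_lit 304) (nat_lit 0) (XT.nd (nat_lit 156) (nat_lit 76) (nat_lit 0) (XT.nd (nat_lit 78) (nat_lit 152) (nat_lit 0) (XT.lf (nat_lit 0) (nat_lit 24613355417) (nat_lit 152) (nat_lit 8025235286) (nat_lit 0) (nat_lit 624228286) (nat_lit 72) (nat_lit 5) (nat_lit 74) (nat_lit 4) (nat_lit 72) (nat_lit 4) (nat_lit 520) (nat_lit 392) (nat_lit 288)) (XT.lf (nat_lit 0) (nat_lit 1670195263) (nat_lit 152) (nat_lit 20632498288) (nat_lit 76) (nat_lit 11626394739) (nat_lit 70) (nat_lit 5) (nat_lit 72) (nat_lit 5) (nat_lit 71) (nat_lit 4) (nat_lit 521) (nat_lit 392)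 (nat_lit 287))) (XT.nd (nat_lit 78) (nat_lit 0) (nat_lit 0) (XT.lf (nat_lit 0) (nat_lit 683125173) (nat_lit 76) (nat_lit 11503574804) (nat_lit 152) (nat_lit 22424243609) (nat_lit 69) (nat_lit 5) (nat_lit 70) (nat_lit 5) (nat_lit 71) (nat_lit 4) (nat_lit 522) (nat_lit 392) (nat_lit 286)) (XT.lf (nat_lit 0) (nat_lit 23008257696) (nat_lit 76) (nat_lit 191770326) (nat_lit 152) (nat_lit 12107786789) (nat_lit 69) (nat_lit 5) (nat_lit 70) (nat_lit 5) (nat_lit 71) (nat_lit 4) (nat_lit 523) (nat_lit 392) (nat_lit 285)))) (XT.nd (nat_lit 156) (nat_lit 152) (nat_lit 0) (XT.nd (nat_lit 78) (nat_lit 76) (nat_lit 0) (XT.lf (nat_lit 0) (nat_lit 10010834620) (nat_lit 76) (nat_lit 24712832008) (nat_lit 76) (nat_lit 1296528331) (nat_lit 68) (nat_lit 4) (nat_lit 69) (nat_lit 5) (nat_lit 69) (nat_lit 4) (nat_lit 524) (nat_lit 392) (nat_lit 284)) (XT.lf (nat_lit 0) (nat_lit 9747945384) (nat_lit 152) (nat_lit 3657188985) (nat_lit 76)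 (nat_lit 23342948678) (nat_lit 67) (nat_lit 5) (nat_lit 69) (nat_lit 5) (nat_lit 68) (nat_lit 4) (nat_lit 525) (nat_lit 392) (nat_lit 283))) (XT.nd (nat_lit 78) (nat_lit 76) (nat_lit 0) (XT.lf (nat_lit 0) (nat_lit 19686448666) (nat_lit 76) (nat_lit 1574797794) (nat_lit 152) (nat_lit 16231269749) (nat_lit 66) (nat_lit 5) (nat_lit 67) (nat_lit 5) (nat_lit 68) (nat_lit 4) (nat_lit 526) (nat_lit 392) (nat_lit 282)) (XT.lf (nat_lit 0) (nat_lit 5501740510) (nat_lit 76) (nat_lit 27784728987) (nat_lit 76) (nat_lit 4967817278) (nat_lit 65) (nat_lit 4) (nat_lit 66) (nat_lit 5) (nat_lit 66) (nat_lit 4) (nat_lit 527) (nat_lit 392) (nat_lit 281))))))) (XT.nd (nat_lit 1248) (nat_lit 684) (nat_lit 0) (XT.nd (nat_lit 624) (nat_lit 456) (nat_lit 0) (XT.nd (nat_lit 312) (nat_lit 304) (nat_lit 0) (XT.nd (nat_lit 156) (nat_lit 152) (nat_lit 0) (XT.nd (nat_lit 78) (nat_lit 76) (nat_lit 0) (XT.lf (nat_lit 0) (nat_lit 6675635397) (nat_lit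 152) (nat_lit 9291328503) (nat_lit 76) (nat_lit 23064887457) (nat_lit 64) (nat_lit 5) (nat_lit 66) (nat_lit 5) (nat_lit 65) (nat_lit 4) (nat_lit 528) (nat_lit 392) (nat_lit 280)) (XT.lf (nat_lit 0) (nat_lit 15069607614) (nat_lit 76) (nat_lit 3618903029) (nat_lit 152) (nat_lit 21139157717) (nat_lit 63) (nat_lit 5) (nat_lit 64) (nat_lit 5) (nat_lit 65) (nat_lit 4) (nat_lit 529) (nat_lit 392) (nat_lit 279))) (XT.nd (nat_lit 78) (nat_lit 152) (nat_lit 0) (XT.lf (nat_lit 0) (nat_lit 31219134205) (nat_lit 152) (nat_lit 430133432) (nat_lit 0) (nat_lit 8993371462) (nat_lit 63) (nat_lit 5) (nat_lit 65) (nat_lit 4) (nat_lit 63) (nat_lit 4) (nat_lit 530) (nat_lit 392) (nat_lit 278)) (XT.lf (nat_lit 0) (nat_lit 2846851483) (nat_lit 152) (nat_lit 16469716379) (nat_lit 76) (nat_lit 22157084203) (nat_lit 61) (nat_lit 5) (nat_lit 63) (nat_lit 5) (nat_lit 62) (nat_lit 4) (nat_lit 531) (nat_lit 392) (nat_lit 277)))) (XT.nd (nat_lit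 156) (nat_lit 228) (nat_lit 0) (XT.nd (nat_lit 78) (nat_lit 0) (nat_lit 0) (XT.lf (nat_lit 0) (nat_lit 8913356665) (nat_lit 76) (nat_lit 6448501458) (nat_lit 152) (nat_lit 26962960036) (nat_lit 60) (nat_lit 5) (nat_lit 61) (nat_lit 5) (nat_lit 62) (nat_lit 4) (nat_lit 532) (nat_lit 392) (nat_lit 276)) (XT.lf (nat_lit 0) (nat_lit 28461594490) (nat_lit 152) (nat_lit 7915696231) (nat_lit 0) (nat_lit 6817950206) (nat_lit 60) (nat_lit 5) (nat_lit 62) (nat_lit 4) (nat_lit 60) (nat_lit 4) (nat_lit 533) (nat_lit 392) (nat_lit 275))) (XT.nd (nat_lit 78) (nat_lit 152) (nat_lit 0) (XT.lf (nat_lit 0) (nat_lit 18597757114) (nat_lit 76) (nat_lit 23575788679) (nat_lit 76) (nat_lit 1911653975) (nat_lit 59) (nat_lit 4) (nat_lit 60) (nat_lit 5) (nat_lit 60) (nat_lit 4) (nat_lit 534) (nat_lit 392) (nat_lit 274)) (XT.lf (nat_lit 0) (nat_lit 931979495) (nat_lit 76) (nat_lit 10208911051) (nat_lit 152) (nat_lit 33855720714) (nat_lit 57)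 (nat_lit 5) (nat_lit 58) (nat_lit 5) (nat_lit 59) (nat_lit 4) (nat_lit 535) (nat_lit 392) (nat_lit 273))))) (XT.nd (nat_lit 312) (nat_lit 228) (nat_lit 0) (XT.nd (nat_lit 156) (nat_lit 152) (nat_lit 0) (XT.nd (nat_lit 78) (nat_lit 76) (nat_lit 0) (XT.lf (nat_lit 0) (nat_lit 24817359676) (nat_lit 152) (nat_lit 17363161190) (nat_lit 0) (nat_lit 3746153363) (nat_lit 57) (nat_lit 5) (nat_lit 59) (nat_lit 4) (nat_lit 57) (nat_lit 4) (nat_lit 536) (nat_lit 392) (nat_lit 272)) (XT.lf (nat_lit 0) (nat_lit 10192227643) (nat_lit 76) (nat_lit 28888266085) (nat_lit 76) (nat_lit 7798854300) (nat_lit 56) (nat_lit 4) (nat_lit 57) (nat_lit 5) (nat_lit 57) (nat_lit 4) (nat_lit 537) (nat_lit 392) (nat_lit 271))) (XT.nd (nat_lit 78) (nat_lit 76) (nat_lit 0) (XT.lf (nat_lit 0) (nat_lit 5949975476) (nat_lit 152) (nat_lit 9028636784) (nat_lit 76) (nat_lit 32875653292) (nat_lit 55) (nat_lit 5) (nat_lit 57) (nat_lit 5) (nat_lit 56) (nat_lit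 4) (nat_lit 538) (nat_lit 392) (nat_lit 270)) (XT.lf (nat_lit 0) (nat_lit 19723627727) (nat_lit 76) (nat_lit 398478249) (nat_lit 152) (nat_lit 28728980643) (nat_lit 54) (nat_lit 5) (nat_lit 55) (nat_lit 5) (nat_lit 56) (nat_lit 4) (nat_lit 539) (nat_lit 392) (nat_lit 269)))) (XT.nd (nat_lit 156) (nat_lit 152) (nat_lit 0) (XT.nd (nat_lit 78) (nat_lit 76) (nat_lit 0) (XT.lf (nat_lit 0) (nat_lit 34930011257) (nat_lit 152) (nat_lit 536624926) (nat_lit 0) (nat_lit 14404857867) (nat_lit 54) (nat_lit 5) (nat_lit 56) (nat_lit 4) (nat_lit 54) (nat_lit 4) (nat_lit 540) (nat_lit 392) (nat_lit 268)) (XT.lf (nat_lit 0) (nat_lit 29440086291) (nat_lit 76) (nat_lit 21007658662) (nat_lit 76) (nat_lit 466801072) (nat_lit 53) (nat_lit 4) (nat_lit 54) (nat_lit 5) (nat_lit 54) (nat_lit 4) (nat_lit 541) (nat_lit 392) (nat_lit 267))) (XT.nd (nat_lit 78) (nat_lit 0) (nat_lit 0) (XT.lf (nat_lit 0) (nat_lit 8319440421) (nat_lit 76) (nat_lit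 5904965888) (nat_lit 152) (nat_lit 37758395418) (nat_lit 51) (nat_lit 5) (nat_lit 52) (nat_lit 5) (nat_lit 53) (nat_lit 4) (nat_lit 542) (nat_lit 392) (nat_lit 266)) (XT.lf (nat_lit 0) (nat_lit 29637410644) (nat_lit 152) (nat_lit 13771186391) (nat_lit 0) (nat_lit 9665656175) (nat_lit 51) (nat_lit 5) (nat_lit 53) (nat_lit 4) (nat_lit 51) (nat_lit 4) (nat_lit 543) (nat_lit 392) (nat_lit 265)))))) (XT.nd (nat_lit 624) (nat_lit 152) (nat_lit 0) (XT.nd (nat_lit 312) (nat_lit 228) (nat_lit 0) (XT.nd (nat_lit 156) (nat_lit 152) (nat_lit 0) (XT.nd (nat_lit 78) (nat_lit 76) (nat_lit 0) (XT.lf (nat_lit 0) (nat_lit 17254816209) (nat_lit 76) (nat_lit 28461615367) (nat_lit 76) (nat_lit 8475907920) (nat_lit 50) (nat_lit 4) (nat_lit 51) (nat_lit 5) (nat_lit 51) (nat_lit 4) (nat_lit 544) (nat_lit 392) (nat_lit 264)) (XT.lf (nat_lit 0) (nat_lit 6918294845) (nat_lit 152) (nat_lit 5955115492) (nat_lit 76) (nat_lit 42464966170) (nat_lit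 49) (nat_lit 5) (nat_lit 51) (nat_lit 5) (nat_lit 50) (nat_lit 4) (nat_lit 545) (nat_lit 392) (nat_lit 263))) (XT.nd (nat_lit 78) (nat_lit 76) (nat_lit 0) (XT.lf (nat_lit 0) (nat_lit 22870876932) (nat_lit 152) (nat_lit 30196036334) (nat_lit 0) (nat_lit 3441356495) (nat_lit 48) (nat_lit 5) (nat_lit 50) (nat_lit 4) (nat_lit 48) (nat_lit 4) (nat_lit 546) (nat_lit 392) (nat_lit 262)) (XT.lf (nat_lit 0) (nat_lit 1825793933) (nat_lit 76) (nat_lit 37661906739) (nat_lit 76) (nat_lit 18219989261) (nat_lit 47) (nat_lit 4) (nat_lit 48) (nat_lit 5) (nat_lit 48) (nat_lit 4) (nat_lit 547) (nat_lit 392) (nat_lit 261)))) (XT.nd (nat_lit 156) (nat_lit 76) (nat_lit 0) (XT.nd (nat_lit 78) (nat_lit 152) (nat_lit 0) (XT.lf (nat_lit 0) (nat_lit 35387660349) (nat_lit 76) (nat_lit 21500417196) (nat_lit 76) (nat_lit 2046463756) (nat_lit 47) (nat_lit 4) (nat_lit 48) (nat_lit 5) (nat_lit 48) (nat_lit 4) (nat_lit 548) (nat_lit 392) (nat_lit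 260)) (XT.lf (nat_lit 0) (nat_lit 9769518898) (nat_lit 76) (nat_lit 4632036637) (nat_lit 152) (nat_lit 45790196076) (nat_lit 45) (nat_lit 5) (nat_lit 46) (nat_lit 5) (nat_lit 47) (nat_lit 4) (nat_lit 549) (nat_lit 392) (nat_lit 259))) (XT.nd (nat_lit 78) (nat_lit 76) (nat_lit 0) (XT.lf (nat_lit 0) (nat_lit 31645031652) (nat_lit 152) (nat_lit 17095405758) (nat_lit 0) (nat_lit 12735338556) (nat_lit 45) (nat_lit 5) (nat_lit 47) (nat_lit 4) (nat_lit 45) (nat_lit 4) (nat_lit 550) (nat_lit 392) (nat_lit 258)) (XT.lf (nat_lit 0) (nat_lit 17488912021) (nat_lit 76) (nat_lit 32111971902) (nat_lit 76) (nat_lit 13191585010) (nat_lit 44) (nat_lit 4) (nat_lit 45) (nat_lit 5) (nat_lit 45) (nat_lit 4) (nat_lit 551) (nat_lit 392) (nat_lit 257))))) (XT.nd (nat_lit 51870) (nat_lit 0) (nat_lit 27056) (XT.nd (nat_lit 51714) (nat_lit 0) (nat_lit 29488) (XT.nd (nat_lit 78) (nat_lit 76) (nat_lit 0) (XT.lf (nat_lit 0) (nat_lit 4025175294)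 (nat_lit 152) (nat_lit 10759663370) (nat_lit 76) (nat_lit 49358022660) (nat_lit 43) (nat_lit 5) (nat_lit 45) (nat_lit 5) (nat_lit 44) (nat_lit 4) (nat_lit 552) (nat_lit 392) (nat_lit 256)) (XT.lf (nat_lit 0) (nat_lit 21749597665) (nat_lit 152) (nat_lit 40412136919) (nat_lit 0) (nat_lit 3360423735) (nat_lit 42) (nat_lit 5) (nat_lit 44) (nat_lit 4) (nat_lit 42) (nat_lit 4) (nat_lit 553) (nat_lit 392) (nat_lit 255))) (XT.nd (nat_lit 78) (nat_lit 0) (nat_lit 0) (XT.lf (nat_lit 0) (nat_lit 71977426) (nat_lit 684) (nat_lit 3180954582) (nat_lit 0) (nat_lit 71977426) (nat_lit 430) (nat_lit 5) (nat_lit 439) (nat_lit 4) (nat_lit 430) (nat_lit 4) (nat_lit 414) (nat_lit 393) (nat_lit 393)) (XT.lf (nat_lit 0) (nat_lit 3445661379) (nat_lit 684) (nat_lit 2041576041) (nat_lit 0) (nat_lit 1193136552) (nat_lit 430) (nat_lit 5) (nat_lit 439) (nat_lit 4) (nat_lit 430) (nat_lit 4) (nat_lit 415) (nat_lit 393) (nat_lit 392)))) (XT.nd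 (nat_lit 156) (nat_lit 912) (nat_lit 0) (XT.nd (nat_lit 78) (nat_lit 760) (nat_lit 0) (XT.lf (nat_lit 0) (nat_lit 45304251) (nat_lit 760) (nat_lit 4347474504) (nat_lit 76) (nat_lit 2321635242) (nat_lit 420) (nat_lit 5) (nat_lit 430) (nat_lit 5) (nat_lit 421) (nat_lit 4) (nat_lit 416) (nat_lit 393) (nat_lit 391)) (XT.lf (nat_lit 0) (nat_lit 81611203) (nat_lit 760) (nat_lit 3191430188) (nat_lit 836) (nat_lit 3478050551) (nat_lit 410) (nat_lit 5) (nat_lit 420) (nat_lit 5) (nat_lit 421) (nat_lit 4) (nat_lit 417) (nat_lit 393) (nat_lit 390))) (XT.nd (nat_lit 78) (nat_lit 912) (nat_lit 0) (XT.lf (nat_lit 0) (nat_lit 4645101241) (nat_lit 760) (nat_lit 1891422587) (nat_lit 836) (nat_lit 254186337) (nat_lit 410) (nat_lit 5) (nat_lit 420) (nat_lit 5) (nat_lit 421) (nat_lit 4) (nat_lit 418) (nat_lit 393) (nat_lit 389)) (XT.lf (nat_lit 0) (nat_lit 2445124306) (nat_lit 836) (nat_lit 481991059) (nat_lit 912) (nat_lit 3905907463)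 (nat_lit 398) (nat_lit 5) (nat_lit 409) (nat_lit 5) (nat_lit 410) (nat_lit 5) (nat_lit 419) (nat_lit 393) (nat_lit 388))))))))
noncomputable def xc78 : XT := (XT.nd (nat_lit 2418) (nat_lit 6156) (nat_lit 0) (XT.nd (nat_lit 1170) (nat_lit 5700) (nat_lit 0) (XT.nd (nat_lit 546) (nat_lit 3420) (nat_lit 0) (XT.nd (nat_lit 234) (nat_lit 3572) (nat_lit 0) (XT.nd (nat_lit 78) (nat_lit 1064) (nat_lit 0) (XT.lf (nat_lit 0) (nat_lit 244926351) (nat_lit 912) (nat_lit 5886740926) (nat_lit 988) (nat_lit 746881205) (nat_lit 386) (nat_lit 5) (nat_lit 398) (nat_lit 5) (nat_lit 399) (nat_lit 4) (nat_lit 420) (nat_lit 393) (nat_lit 387)) (XT.nd (nat_lit 78) (nat_lit 988) (nat_lit 0) (XT.lf (nat_lit 0) (nat_lit 2407978035) (nat_lit 988) (nat_lit 1937254531) (nat_lit 76) (nat_lit 2580991291) (nat_lit 385) (nat_lit 5) (nat_lit 398) (nat_lit 5) (nat_lit 386) (nat_lit 5) (nat_lit 421) (nat_lit 393) (nat_lit 386)) (XT.lf (nat_lit 0) (nat_lit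 2860546676) (nat_lit 988) (nat_lit 2712782407) (nat_lit 1064) (nat_lit 1403858979) (nat_lit 372) (nat_lit 5) (nat_lit 385) (nat_lit 5) (nat_lit 386) (nat_lit 5) (nat_lit 422) (nat_lit 393) (nat_lit 385)))) (XT.nd (nat_lit 156) (nat_lit 2432) (nat_lit 0) (XT.nd (nat_lit 78) (nat_lit 0) (nat_lit 0) (XT.lf (nat_lit 0) (nat_lit 720495385) (nat_lit 1064) (nat_lit 979339783) (nat_lit 1140) (nat_lit 5331399270) (nat_lit 357) (nat_lit 5) (nat_lit 371) (nat_lit 5) (nat_lit 372) (nat_lit 5) (nat_lit 423) (nat_lit 393) (nat_lit 384)) (XT.lf (nat_lit 0) (nat_lit 4824541842) (nat_lit 1140) (nat_lit 1411508419) (nat_lit 76) (nat_lit 851757040) (nat_lit 357) (nat_lit 5) (nat_lit 372) (nat_lit 5) (nat_lit 358) (nat_lit 5) (nat_lit 424) (nat_lit 393) (nat_lit 383))) (XT.nd (nat_lit 78) (nat_lit 1216) (nat_lit 0) (XT.lf (nat_lit 0) (nat_lit 832428752) (nat_lit 1216) (nat_lit 3548527272) (nat_lit 76) (nat_lit 2766277425) (nat_lit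 341) (nat_lit 5) (nat_lit 357) (nat_lit 5) (nat_lit 342) (nat_lit 5) (nat_lit 425) (nat_lit 393) (nat_lit 382)) (XT.lf (nat_lit 0) (nat_lit 1497612549) (nat_lit 1216) (nat_lit 2416716215) (nat_lit 1292) (nat_lit 3295281773) (nat_lit 325) (nat_lit 5) (nat_lit 341) (nat_lit 5) (nat_lit 342) (nat_lit 5) (nat_lit 426) (nat_lit 393) (nat_lit 381))))) (XT.nd (nat_lit 312) (nat_lit 1216) (nat_lit 0) (XT.nd (nat_lit 156) (nat_lit 1292) (nat_lit 0) (XT.nd (nat_lit 78) (nat_lit 912) (nat_lit 0) (XT.lf (nat_lit 0) (nat_lit 6679543943) (nat_lit 1216) (nat_lit 356780066) (nat_lit 1292) (nat_lit 239110777) (nat_lit 325) (nat_lit 5) (nat_lit 341) (nat_lit 5) (nat_lit 342) (nat_lit 5) (nat_lit 427) (nat_lit 393) (nat_lit 380)) (XT.lf (nat_lit 0) (nat_lit 2827870734) (nat_lit 912) (nat_lit 2712358674) (nat_lit 76) (nat_lit 1802893678) (nat_lit 313) (nat_lit 5) (nat_lit 325) (nat_lit 5) (nat_lit 314) (nat_lit 5) (nat_lit 428) (nat_lit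 393) (nat_lit 379))) (XT.nd (nat_lit 78) (nat_lit 684) (nat_lit 0) (XT.lf (nat_lit 0) (nat_lit 2568779743) (nat_lit 608) (nat_lit 3362767842) (nat_lit 684) (nat_lit 1482743245) (nat_lit 305) (nat_lit 5) (nat_lit 313) (nat_lit 5) (nat_lit 314) (nat_lit 5) (nat_lit 429) (nat_lit 393) (nat_lit 378)) (XT.lf (nat_lit 0) (nat_lit 480553226) (nat_lit 608) (nat_lit 1076434464) (nat_lit 684) (nat_lit 5931689172) (nat_lit 296) (nat_lit 5) (nat_lit 304) (nat_lit 5) (nat_lit 305) (nat_lit 5) (nat_lit 430) (nat_lit 393) (nat_lit 377)))) (XT.nd (nat_lit 156) (nat_lit 608) (nat_lit 0) (XT.nd (nat_lit 78) (nat_lit 608) (nat_lit 0) (XT.lf (nat_lit 0) (nat_lit 4637323212) (nat_lit 684) (nat_lit 1617046780) (nat_lit 76) (nat_lit 1311111815) (nat_lit 296) (nat_lit 5) (nat_lit 305) (nat_lit 5) (nat_lit 297) (nat_lit 5) (nat_lit 431) (nat_lit 393) (nat_lit 376)) (XT.lf (nat_lit 0) (nat_lit 130110839) (nat_lit 608) (nat_lit 3734199451)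 (nat_lit 76) (nat_lit 3781200974) (nat_lit 288) (nat_lit 5) (nat_lit 296) (nat_lit 5) (nat_lit 289) (nat_lit 5) (nat_lit 432) (nat_lit 393) (nat_lit 375))) (XT.nd (nat_lit 78) (nat_lit 0) (nat_lit 0) (XT.lf (nat_lit 0) (nat_lit 1828197499) (nat_lit 608) (nat_lit 1347759963) (nat_lit 684) (nat_lit 4552477754) (nat_lit 280) (nat_lit 5) (nat_lit 288) (nat_lit 5) (nat_lit 289) (nat_lit 5) (nat_lit 433) (nat_lit 393) (nat_lit 374)) (XT.lf (nat_lit 0) (nat_lit 6285196107) (nat_lit 684) (nat_lit 281937519) (nat_lit 76) (nat_lit 1247556478) (nat_lit 280) (nat_lit 5) (nat_lit 289) (nat_lit 5) (nat_lit 281) (nat_lit 5) (nat_lit 434) (nat_lit 393) (nat_lit 373)))))) (XT.nd (nat_lit 624) (nat_lit 2584) (nat_lit 0) (XT.nd (nat_lit 312) (nat_lit 1444) (nat_lit 0) (XT.nd (nat_lit 156) (nat_lit 532) (nat_lit 0) (XT.nd (nat_lit 78) (nat_lit 532) (nat_lit 0) (XT.lf (nat_lit 0) (nat_lit 1543734020) (nat_lit 608) (nat_lit 2408103741)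 (nat_lit 76) (nat_lit 3951527505) (nat_lit 272) (nat_lit 5) (nat_lit 280) (nat_lit 5) (nat_lit 273) (nat_lit 5) (nat_lit 435) (nat_lit 393) (nat_lit 372)) (XT.lf (nat_lit 0) (nat_lit 3419610755) (nat_lit 532) (nat_lit 1219426761) (nat_lit 608) (nat_lit 3356393664) (nat_lit 265) (nat_lit 5) (nat_lit 272) (nat_lit 5) (nat_lit 273) (nat_lit 5) (nat_lit 436) (nat_lit 393) (nat_lit 371))) (XT.nd (nat_lit 78) (nat_lit 76) (nat_lit 0) (XT.lf (nat_lit 0) (nat_lit 1301723974) (nat_lit 456) (nat_lit 6503957354) (nat_lit 532) (nat_lit 285226610) (nat_lit 259) (nat_lit 5) (nat_lit 265) (nat_lit 5) (nat_lit 266) (nat_lit 5) (nat_lit 437) (nat_lit 393) (nat_lit 370)) (XT.lf (nat_lit 0) (nat_lit 2807303600) (nat_lit 532) (nat_lit 869340476) (nat_lit 76) (nat_lit 4512216366) (nat_lit 258) (nat_lit 5) (nat_lit 265) (nat_lit 5) (nat_lit 259) (nat_lit 5) (nat_lit 438) (nat_lit 393) (nat_lit 369)))) (XT.nd (nat_lit 156) (nat_lit 456)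 (nat_lit 0) (XT.nd (nat_lit 78) (nat_lit 532) (nat_lit 0) (XT.lf (nat_lit 0) (nat_lit 5239481095) (nat_lit 456) (nat_lit 726549225) (nat_lit 532) (nat_lit 2324264903) (nat_lit 252) (nat_lit 5) (nat_lit 258) (nat_lit 5) (nat_lit 259) (nat_lit 5) (nat_lit 439) (nat_lit 393) (nat_lit 368)) (XT.lf (nat_lit 0) (nat_lit 799345311) (nat_lit 532) (nat_lit 5298859943) (nat_lit 76) (nat_lit 2296612003) (nat_lit 245) (nat_lit 5) (nat_lit 252) (nat_lit 5) (nat_lit 246) (nat_lit 5) (nat_lit 440) (nat_lit 393) (nat_lit 367))) (XT.nd (nat_lit 78) (nat_lit 0) (nat_lit 0) (XT.lf (nat_lit 0) (nat_lit 885260252) (nat_lit 456) (nat_lit 3061872150) (nat_lit 532) (nat_lit 4555339421) (nat_lit 239) (nat_lit 5) (nat_lit 245) (nat_lit 5) (nat_lit 246) (nat_lit 5) (nat_lit 441) (nat_lit 393) (nat_lit 366)) (XT.lf (nat_lit 0) (nat_lit 7175369628) (nat_lit 532) (nat_lit 1339991018) (nat_lit 76) (nat_lit 98417569) (nat_lit 239) (nat_lit 5)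 (nat_lit 246) (nat_lit 5) (nat_lit 240) (nat_lit 5) (nat_lit 442) (nat_lit 393) (nat_lit 365))))) (XT.nd (nat_lit 312) (nat_lit 1216) (nat_lit 0) (XT.nd (nat_lit 156) (nat_lit 456) (nat_lit 0) (XT.nd (nat_lit 78) (nat_lit 456) (nat_lit 0) (XT.lf (nat_lit 0) (nat_lit 1750329675) (nat_lit 456) (nat_lit 3638285733) (nat_lit 76) (nat_lit 3338913560) (nat_lit 233) (nat_lit 5) (nat_lit 239) (nat_lit 5) (nat_lit 234) (nat_lit 5) (nat_lit 443) (nat_lit 393) (nat_lit 364)) (XT.lf (nat_lit 0) (nat_lit 2847297750) (nat_lit 456) (nat_lit 2133357600) (nat_lit 532) (nat_lit 3864367025) (nat_lit 227) (nat_lit 5) (nat_lit 233) (nat_lit 5) (nat_lit 234) (nat_lit 5) (nat_lit 444) (nat_lit 393) (nat_lit 363))) (XT.nd (nat_lit 78) (nat_lit 76) (nat_lit 0) (XT.lf (nat_lit 0) (nat_lit 546368890) (nat_lit 380) (nat_lit 7750271746) (nat_lit 456) (nat_lit 669739840) (nat_lit 222) (nat_lit 5) (nat_lit 227) (nat_lit 5) (nat_lit 228) (nat_lit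 5) (nat_lit 445) (nat_lit 393) (nat_lit 362)) (XT.lf (nat_lit 0) (nat_lit 2586959125) (nat_lit 456) (nat_lit 1816459884) (nat_lit 76) (nat_lit 4686685614) (nat_lit 221) (nat_lit 5) (nat_lit 227) (nat_lit 5) (nat_lit 222) (nat_lit 5) (nat_lit 446) (nat_lit 393) (nat_lit 361)))) (XT.nd (nat_lit 156) (nat_lit 456) (nat_lit 0) (XT.nd (nat_lit 78) (nat_lit 380) (nat_lit 0) (XT.lf (nat_lit 0) (nat_lit 4988813922) (nat_lit 380) (nat_lit 924015779) (nat_lit 456) (nat_lit 3304966092) (nat_lit 216) (nat_lit 5) (nat_lit 221) (nat_lit 5) (nat_lit 222) (nat_lit 5) (nat_lit 447) (nat_lit 393) (nat_lit 360)) (XT.lf (nat_lit 0) (nat_lit 2624295855) (nat_lit 380) (nat_lit 6721248355) (nat_lit 456) (nat_lit 3563574) (nat_lit 211) (nat_lit 5) (nat_lit 216) (nat_lit 5) (nat_lit 217) (nat_lit 5) (nat_lit 448) (nat_lit 393) (nat_lit 359))) (XT.nd (nat_lit 78) (nat_lit 0) (nat_lit 0) (XT.lf (nat_lit 0) (nat_lit 159419501) (nat_lit 380)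 (nat_lit 3163102295) (nat_lit 456) (nat_lit 6161101963) (nat_lit 205) (nat_lit 5) (nat_lit 210) (nat_lit 5) (nat_lit 211) (nat_lit 5) (nat_lit 449) (nat_lit 393) (nat_lit 358)) (XT.lf (nat_lit 0) (nat_lit 6760547162) (nat_lit 456) (nat_lit 2326599972) (nat_lit 76) (nat_lit 534662089) (nat_lit 205) (nat_lit 5) (nat_lit 211) (nat_lit 5) (nat_lit 206) (nat_lit 5) (nat_lit 450) (nat_lit 393) (nat_lit 357))))))) (XT.nd (nat_lit 1248) (nat_lit 2432) (nat_lit 0) (XT.nd (nat_lit 624) (nat_lit 1672) (nat_lit 0) (XT.nd (nat_lit 312) (nat_lit 988) (nat_lit 0) (XT.nd (nat_lit 156) (nat_lit 380) (nat_lit 0) (XT.nd (nat_lit 78) (nat_lit 304) (nat_lit 0) (XT.lf (nat_lit 0) (nat_lit 545889490) (nat_lit 380) (nat_lit 4910892455) (nat_lit 76) (nat_lit 4306640918) (nat_lit 200) (nat_lit 5) (nat_lit 205) (nat_lit 5) (nat_lit 201) (nat_lit 5) (nat_lit 451) (nat_lit 393) (nat_lit 356)) (XT.lf (nat_lit 0) (nat_lit 2316080540) (nat_lit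 304) (nat_lit 1668591308) (nat_lit 380) (nat_lit 5924157214) (nat_lit 196) (nat_lit 5) (nat_lit 200) (nat_lit 5) (nat_lit 201) (nat_lit 5) (nat_lit 452) (nat_lit 393) (nat_lit 355))) (XT.nd (nat_lit 78) (nat_lit 380) (nat_lit 0) (XT.lf (nat_lit 0) (nat_lit 7539729908) (nat_lit 380) (nat_lit 305867820) (nat_lit 76) (nat_lit 2212608077) (nat_lit 196) (nat_lit 5) (nat_lit 201) (nat_lit 5) (nat_lit 197) (nat_lit 5) (nat_lit 453) (nat_lit 393) (nat_lit 354)) (XT.lf (nat_lit 0) (nat_lit 999736356) (nat_lit 380) (nat_lit 2981403982) (nat_lit 76) (nat_lit 6229749818) (nat_lit 191) (nat_lit 5) (nat_lit 196) (nat_lit 5) (nat_lit 192) (nat_lit 5) (nat_lit 454) (nat_lit 393) (nat_lit 353)))) (XT.nd (nat_lit 156) (nat_lit 380) (nat_lit 0) (XT.nd (nat_lit 78) (nat_lit 304) (nat_lit 0) (XT.lf (nat_lit 0) (nat_lit 4564289862) (nat_lit 380) (nat_lit 5759113541) (nat_lit 76) (nat_lit 44262737) (nat_lit 187) (nat_lit 5) (nat_lit 192)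 (nat_lit 5) (nat_lit 188) (nat_lit 5) (nat_lit 455) (nat_lit 393) (nat_lit 352)) (XT.lf (nat_lit 0) (nat_lit 1870219477) (nat_lit 304) (nat_lit 6397474765) (nat_lit 380) (nat_lit 2260495264) (nat_lit 183) (nat_lit 5) (nat_lit 187) (nat_lit 5) (nat_lit 188) (nat_lit 5) (nat_lit 456) (nat_lit 393) (nat_lit 351))) (XT.nd (nat_lit 78) (nat_lit 304) (nat_lit 0) (XT.lf (nat_lit 0) (nat_lit 1364686487) (nat_lit 380) (nat_lit 945130004) (nat_lit 76) (nat_lit 8383219693) (nat_lit 182) (nat_lit 5) (nat_lit 187) (nat_lit 5) (nat_lit 183) (nat_lit 5) (nat_lit 457) (nat_lit 393) (nat_lit 350)) (XT.lf (nat_lit 0) (nat_lit 5085648656) (nat_lit 380) (nat_lit 3850130863) (nat_lit 76) (nat_lit 1925404950) (nat_lit 178) (nat_lit 5) (nat_lit 183) (nat_lit 5) (nat_lit 179) (nat_lit 5) (nat_lit 458) (nat_lit 393) (nat_lit 349))))) (XT.nd (nat_lit 312) (nat_lit 836) (nat_lit 0) (XT.nd (nat_lit 156) (nat_lit 228) (nat_lit 0) (XT.nd (nat_lit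 78) (nat_lit 380) (nat_lit 0) (XT.lf (nat_lit 0) (nat_lit 4165622523) (nat_lit 228) (nat_lit 4771664897) (nat_lit 304) (nat_lit 2096519712) (nat_lit 175) (nat_lit 5) (nat_lit 178) (nat_lit 5) (nat_lit 179) (nat_lit 5) (nat_lit 459) (nat_lit 393) (nat_lit 348)) (XT.lf (nat_lit 0) (nat_lit 1213201757) (nat_lit 304) (nat_lit 444290408) (nat_lit 380) (nat_lit 9553699629) (nat_lit 170) (nat_lit 5) (nat_lit 174) (nat_lit 5) (nat_lit 175) (nat_lit 5) (nat_lit 460) (nat_lit 393) (nat_lit 347))) (XT.nd (nat_lit 78) (nat_lit 228) (nat_lit 0) (XT.lf (nat_lit 0) (nat_lit 5537790715) (nat_lit 380) (nat_lit 1858615728) (nat_lit 76) (nat_lit 3995195940) (nat_lit 170) (nat_lit 5) (nat_lit 175) (nat_lit 5) (nat_lit 171) (nat_lit 5) (nat_lit 461) (nat_lit 393) (nat_lit 346)) (XT.lf (nat_lit 0) (nat_lit 6566541510) (nat_lit 228) (nat_lit 2984203358) (nat_lit 304) (nat_lit 2026194231) (nat_lit 167) (nat_lit 5) (nat_lit 170) (nat_lit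 5) (nat_lit 171) (nat_lit 5) (nat_lit 462) (nat_lit 393) (nat_lit 345)))) (XT.nd (nat_lit 156) (nat_lit 304) (nat_lit 0) (XT.nd (nat_lit 78) (nat_lit 228) (nat_lit 0) (XT.lf (nat_lit 0) (nat_lit 1895622635) (nat_lit 304) (nat_lit 8300365710) (nat_lit 76) (nat_lit 1570793189) (nat_lit 163) (nat_lit 5) (nat_lit 167) (nat_lit 5) (nat_lit 164) (nat_lit 5) (nat_lit 463) (nat_lit 393) (nat_lit 344)) (XT.lf (nat_lit 0) (nat_lit 210689692) (nat_lit 228) (nat_lit 5715687514) (nat_lit 304) (nat_lit 6034381072) (nat_lit 160) (nat_lit 5) (nat_lit 163) (nat_lit 5) (nat_lit 164) (nat_lit 5) (nat_lit 464) (nat_lit 393) (nat_lit 343))) (XT.nd (nat_lit 78) (nat_lit 304) (nat_lit 0) (XT.lf (nat_lit 0) (nat_lit 9065284146) (nat_lit 228) (nat_lit 1046615266) (nat_lit 304) (nat_lit 2047640635) (nat_lit 160) (nat_lit 5) (nat_lit 163) (nat_lit 5) (nat_lit 164) (nat_lit 5) (nat_lit 465) (nat_lit 393) (nat_lit 342)) (XT.lf (nat_lit 0) (nat_lit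 2062234250) (nat_lit 304) (nat_lit 6565328294) (nat_lit 76) (nat_lit 3734818906) (nat_lit 156) (nat_lit 5) (nat_lit 160) (nat_lit 5) (nat_lit 157) (nat_lit 5) (nat_lit 466) (nat_lit 393) (nat_lit 341)))))) (XT.nd (nat_lit 624) (nat_lit 1064) (nat_lit 0) (XT.nd (nat_lit 312) (nat_lit 684) (nat_lit 0) (XT.nd (nat_lit 156) (nat_lit 456) (nat_lit 0) (XT.nd (nat_lit 78) (nat_lit 0) (nat_lit 0) (XT.lf (nat_lit 0) (nat_lit 2382820636) (nat_lit 228) (nat_lit 3887612567) (nat_lit 304) (nat_lit 6299782162) (nat_lit 153) (nat_lit 5) (nat_lit 156) (nat_lit 5) (nat_lit 157) (nat_lit 5) (nat_lit 467) (nat_lit 393) (nat_lit 340)) (XT.lf (nat_lit 0) (nat_lit 10633090110) (nat_lit 304) (nat_lit 1139745325) (nat_lit 76) (nat_lit 1010603458) (nat_lit 153) (nat_lit 5) (nat_lit 157) (nat_lit 5) (nat_lit 154) (nat_lit 5) (nat_lit 468) (nat_lit 393) (nat_lit 339))) (XT.nd (nat_lit 78) (nat_lit 152) (nat_lit 0) (XT.lf (nat_lit 0) (nat_lit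 2153463197) (nat_lit 304) (nat_lit 4799626192) (nat_lit 76) (nat_lit 6047218226) (nat_lit 149) (nat_lit 5) (nat_lit 153) (nat_lit 5) (nat_lit 150) (nat_lit 5) (nat_lit 469) (nat_lit 393) (nat_lit 338)) (XT.lf (nat_lit 0) (nat_lit 4610895946) (nat_lit 152) (nat_lit 1941481103) (nat_lit 228) (nat_lit 6670391282) (nat_lit 147) (nat_lit 5) (nat_lit 149) (nat_lit 5) (nat_lit 150) (nat_lit 5) (nat_lit 470) (nat_lit 393) (nat_lit 337)))) (XT.nd (nat_lit 156) (nat_lit 380) (nat_lit 0) (XT.nd (nat_lit 78) (nat_lit 76) (nat_lit 0) (XT.lf (nat_lit 0) (nat_lit 857647782) (nat_lit 228) (nat_lit 10267320544) (nat_lit 304) (nat_lit 2325684091) (nat_lit 144) (nat_lit 5) (nat_lit 147) (nat_lit 5) (nat_lit 148) (nat_lit 5) (nat_lit 471) (nat_lit 393) (nat_lit 336)) (XT.lf (nat_lit 0) (nat_lit 2168173876) (nat_lit 304) (nat_lit 3015188214) (nat_lit 76) (nat_lit 8499569361) (nat_lit 143) (nat_lit 5) (nat_lit 147) (nat_lit 5) (nat_lit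 144) (nat_lit 5) (nat_lit 472) (nat_lit 393) (nat_lit 335))) (XT.nd (nat_lit 78) (nat_lit 228) (nat_lit 0) (XT.lf (nat_lit 0) (nat_lit 6772415315) (nat_lit 228) (nat_lit 7037819503) (nat_lit 76) (nat_lit 110584667) (nat_lit 141) (nat_lit 5) (nat_lit 144) (nat_lit 5) (nat_lit 142) (nat_lit 5) (nat_lit 473) (nat_lit 393) (nat_lit 334)) (XT.lf (nat_lit 0) (nat_lit 2902608938) (nat_lit 228) (nat_lit 8677466167) (nat_lit 304) (nat_lit 2583811075) (nat_lit 138) (nat_lit 5) (nat_lit 141) (nat_lit 5) (nat_lit 142) (nat_lit 5) (nat_lit 474) (nat_lit 393) (nat_lit 333))))) (XT.nd (nat_lit 312) (nat_lit 380) (nat_lit 0) (XT.nd (nat_lit 156) (nat_lit 456) (nat_lit 0) (XT.nd (nat_lit 78) (nat_lit 152) (nat_lit 0) (XT.lf (nat_lit 0) (nat_lit 2103614313) (nat_lit 304) (nat_lit 1225204065) (nat_lit 76) (nat_lit 11083999938) (nat_lit 137) (nat_lit 5) (nat_lit 141) (nat_lit 5) (nat_lit 138) (nat_lit 5) (nat_lit 475) (nat_lit 393)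 (nat_lit 332)) (XT.lf (nat_lit 0) (nat_lit 6946597313) (nat_lit 228) (nat_lit 5498460825) (nat_lit 76) (nat_lit 2221387492) (nat_lit 135) (nat_lit 5) (nat_lit 138) (nat_lit 5) (nat_lit 136) (nat_lit 5) (nat_lit 476) (nat_lit 393) (nat_lit 331))) (XT.nd (nat_lit 78) (nat_lit 228) (nat_lit 0) (XT.lf (nat_lit 0) (nat_lit 4958931239) (nat_lit 228) (nat_lit 7026041926) (nat_lit 304) (nat_lit 2941206167) (nat_lit 132) (nat_lit 5) (nat_lit 135) (nat_lit 5) (nat_lit 136) (nat_lit 5) (nat_lit 477) (nat_lit 393) (nat_lit 330)) (XT.lf (nat_lit 0) (nat_lit 566541131) (nat_lit 152) (nat_lit 1394215623) (nat_lit 228) (nat_lit 13231819285) (nat_lit 129) (nat_lit 5) (nat_lit 131) (nat_lit 5) (nat_lit 132) (nat_lit 5) (nat_lit 478) (nat_lit 393) (nat_lit 329)))) (XT.nd (nat_lit 156) (nat_lit 228) (nat_lit 0) (XT.nd (nat_lit 78) (nat_lit 152) (nat_lit 0) (XT.lf (nat_lit 0) (nat_lit 7051979661) (nat_lit 228) (nat_lit 3991618493) (nat_lit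 76) (nat_lit 4419453987) (nat_lit 129) (nat_lit 5) (nat_lit 132) (nat_lit 5) (nat_lit 130) (nat_lit 5) (nat_lit 479) (nat_lit 393) (nat_lit 328)) (XT.lf (nat_lit 0) (nat_lit 7011189177) (nat_lit 152) (nat_lit 5324505011) (nat_lit 228) (nat_lit 3404756284) (nat_lit 127) (nat_lit 5) (nat_lit 129) (nat_lit 5) (nat_lit 130) (nat_lit 5) (nat_lit 480) (nat_lit 393) (nat_lit 327))) (XT.nd (nat_lit 78) (nat_lit 0) (nat_lit 0) (XT.lf (nat_lit 0) (nat_lit 1745499597) (nat_lit 228) (nat_lit 13675004204) (nat_lit 76) (nat_lit 604324352) (nat_lit 124) (nat_lit 5) (nat_lit 127) (nat_lit 5) (nat_lit 125) (nat_lit 5) (nat_lit 481) (nat_lit 393) (nat_lit 326)) (XT.lf (nat_lit 0) (nat_lit 7082417982) (nat_lit 228) (nat_lit 2536116129) (nat_lit 76) (nat_lit 6695174672) (nat_lit 124) (nat_lit 5) (nat_lit 127) (nat_lit 5) (nat_lit 125) (nat_lit 5) (nat_lit 482) (nat_lit 393) (nat_lit 325))))))))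
noncomputable def xc79 : XT := (XT.nd (nat_lit 2418) (nat_lit 2204) (nat_lit 0) (XT.nd (nat_lit 1170) (nat_lit 1520) (nat_lit 0) (XT.nd (nat_lit 546) (nat_lit 988) (nat_lit 0) (XT.nd (nat_lit 234) (nat_lit 532) (nat_lit 0) (XT.nd (nat_lit 78) (nat_lit 228) (nat_lit 0) (XT.lf (nat_lit 0) (nat_lit 9041580762) (nat_lit 152) (nat_lit 3584822969) (nat_lit 228) (nat_lit 3983443835) (nat_lit 122) (nat_lit 5) (nat_lit 124) (nat_lit 5) (nat_lit 125) (nat_lit 5) (nat_lit 483) (nat_lit 393) (nat_lit 324)) (XT.nd (nat_lit 78) (nat_lit 0) (nat_lit 0) (XT.lf (nat_lit 0) (nat_lit 1445245196) (nat_lit 228) (nat_lit 12840781705) (nat_lit 76) (nat_lit 2626899528) (nat_lit 119) (nat_lit 5) (nat_lit 122) (nat_lit 5) (nat_lit 120) (nat_lit 5) (nat_lit 484) (nat_lit 393) (nat_lit 323)) (XT.lf (nat_lit 0) (nat_lit 7029713209) (nat_lit 228) (nat_lit 1153637757) (nat_lit 76) (nat_lit 9038374524) (nat_lit 119) (nat_lit 5) (nat_lit 122) (nat_lit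 5) (nat_lit 120) (nat_lit 5) (nat_lit 485) (nat_lit 393) (nat_lit 322)))) (XT.nd (nat_lit 156) (nat_lit 152) (nat_lit 0) (XT.nd (nat_lit 78) (nat_lit 228) (nat_lit 0) (XT.lf (nat_lit 0) (nat_lit 11029388779) (nat_lit 152) (nat_lit 1819810778) (nat_lit 228) (nat_lit 4688564907) (nat_lit 117) (nat_lit 5) (nat_lit 119) (nat_lit 5) (nat_lit 120) (nat_lit 5) (nat_lit 486) (nat_lit 393) (nat_lit 321)) (XT.lf (nat_lit 0) (nat_lit 1035618434) (nat_lit 228) (nat_lit 12136431345) (nat_lit 76) (nat_lit 4688709997) (nat_lit 114) (nat_lit 5) (nat_lit 117) (nat_lit 5) (nat_lit 115) (nat_lit 5) (nat_lit 487) (nat_lit 393) (nat_lit 320))) (XT.nd (nat_lit 78) (nat_lit 0) (nat_lit 0) (XT.lf (nat_lit 0) (nat_lit 133278903) (nat_lit 152) (nat_lit 6751378871) (nat_lit 228) (nat_lit 11305973978) (nat_lit 112) (nat_lit 5) (nat_lit 114) (nat_lit 5) (nat_lit 115) (nat_lit 5) (nat_lit 488) (nat_lit 393) (nat_lit 319)) (XT.lf (nat_lit 0)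 (nat_lit 12950366042) (nat_lit 152) (nat_lit 43498420) (nat_lit 228) (nat_lit 5533994959) (nat_lit 112) (nat_lit 5) (nat_lit 114) (nat_lit 5) (nat_lit 115) (nat_lit 5) (nat_lit 489) (nat_lit 393) (nat_lit 318))))) (XT.nd (nat_lit 312) (nat_lit 532) (nat_lit 0) (XT.nd (nat_lit 156) (nat_lit 76) (nat_lit 0) (XT.nd (nat_lit 78) (nat_lit 152) (nat_lit 0) (XT.lf (nat_lit 0) (nat_lit 503070278) (nat_lit 228) (nat_lit 11592535400) (nat_lit 76) (nat_lit 6776481577) (nat_lit 109) (nat_lit 5) (nat_lit 112) (nat_lit 5) (nat_lit 110) (nat_lit 5) (nat_lit 490) (nat_lit 393) (nat_lit 317)) (XT.lf (nat_lit 0) (nat_lit 1313184044) (nat_lit 152) (nat_lit 5329784403) (nat_lit 228) (nat_lit 12581041635) (nat_lit 107) (nat_lit 5) (nat_lit 109) (nat_lit 5) (nat_lit 110) (nat_lit 5) (nat_lit 491) (nat_lit 393) (nat_lit 316))) (XT.nd (nat_lit 78) (nat_lit 76) (nat_lit 0) (XT.lf (nat_lit 0) (nat_lit 13064182719) (nat_lit 228) (nat_lit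 4824659987) (nat_lit 76) (nat_lit 1694734684) (nat_lit 107) (nat_lit 5) (nat_lit 110) (nat_lit 5) (nat_lit 108) (nat_lit 4) (nat_lit 492) (nat_lit 393) (nat_lit 315)) (XT.lf (nat_lit 0) (nat_lit 8704697681) (nat_lit 76) (nat_lit 11073997332) (nat_lit 152) (nat_lit 172217214) (nat_lit 106) (nat_lit 5) (nat_lit 107) (nat_lit 5) (nat_lit 108) (nat_lit 4) (nat_lit 493) (nat_lit 393) (nat_lit 314)))) (XT.nd (nat_lit 156) (nat_lit 304) (nat_lit 0) (XT.nd (nat_lit 78) (nat_lit 0) (nat_lit 0) (XT.lf (nat_lit 0) (nat_lit 2328250903) (nat_lit 152) (nat_lit 3948771225) (nat_lit 228) (nat_lit 14049333946) (nat_lit 103) (nat_lit 5) (nat_lit 105) (nat_lit 5) (nat_lit 106) (nat_lit 5) (nat_lit 494) (nat_lit 393) (nat_lit 313)) (XT.lf (nat_lit 0) (nat_lit 13027943839) (nat_lit 228) (nat_lit 4271244264) (nat_lit 76) (nat_lit 3410474312) (nat_lit 103) (nat_lit 5) (nat_lit 106) (nat_lit 5) (nat_lit 104) (nat_lit 4) (nat_lit 495) (nat_lit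 393) (nat_lit 312))) (XT.nd (nat_lit 78) (nat_lit 228) (nat_lit 0) (XT.lf (nat_lit 0) (nat_lit 9957925828) (nat_lit 76) (nat_lit 10123711689) (nat_lit 152) (nat_lit 1019823419) (nat_lit 102) (nat_lit 5) (nat_lit 103) (nat_lit 5) (nat_lit 104) (nat_lit 4) (nat_lit 496) (nat_lit 393) (nat_lit 311)) (XT.lf (nat_lit 0) (nat_lit 3137684365) (nat_lit 152) (nat_lit 2629444914) (nat_lit 228) (nat_lit 15735023816) (nat_lit 99) (nat_lit 5) (nat_lit 101) (nat_lit 5) (nat_lit 102) (nat_lit 5) (nat_lit 497) (nat_lit 393) (nat_lit 310)))))) (XT.nd (nat_lit 624) (nat_lit 836) (nat_lit 0) (XT.nd (nat_lit 312) (nat_lit 380) (nat_lit 0) (XT.nd (nat_lit 156) (nat_lit 228) (nat_lit 0) (XT.nd (nat_lit 78) (nat_lit 76) (nat_lit 0) (XT.lf (nat_lit 0) (nat_lit 12865338745) (nat_lit 228) (nat_lit 3960723155) (nat_lit 76) (nat_lit 5084657125) (nat_lit 99) (nat_lit 5) (nat_lit 102) (nat_lit 5) (nat_lit 100) (nat_lit 4) (nat_lit 498) (nat_lit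 393) (nat_lit 309)) (XT.lf (nat_lit 0) (nat_lit 11000786312) (nat_lit 76) (nat_lit 9274069944) (nat_lit 152) (nat_lit 2053735107) (nat_lit 98) (nat_lit 5) (nat_lit 99) (nat_lit 5) (nat_lit 100) (nat_lit 4) (nat_lit 499) (nat_lit 393) (nat_lit 308))) (XT.nd (nat_lit 78) (nat_lit 0) (nat_lit 0) (XT.lf (nat_lit 0) (nat_lit 3693704707) (nat_lit 152) (nat_lit 1396030836) (nat_lit 228) (nat_lit 17666504359) (nat_lit 95) (nat_lit 5) (nat_lit 97) (nat_lit 5) (nat_lit 98) (nat_lit 5) (nat_lit 500) (nat_lit 393) (nat_lit 307)) (XT.lf (nat_lit 0) (nat_lit 12553051563) (nat_lit 228) (nat_lit 3944381030) (nat_lit 76) (nat_lit 6694270965) (nat_lit 95) (nat_lit 5) (nat_lit 98) (nat_lit 5) (nat_lit 96) (nat_lit 4) (nat_lit 501) (nat_lit 393) (nat_lit 306)))) (XT.nd (nat_lit 156) (nat_lit 76) (nat_lit 0) (XT.nd (nat_lit 78) (nat_lit 228) (nat_lit 0) (XT.lf (nat_lit 0) (nat_lit 11782129799) (nat_lit 76) (nat_lit 8552903016) (nat_lit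 152) (nat_lit 3302355587) (nat_lit 94) (nat_lit 5) (nat_lit 95) (nat_lit 5) (nat_lit 96) (nat_lit 4) (nat_lit 502) (nat_lit 393) (nat_lit 305)) (XT.lf (nat_lit 0) (nat_lit 3940326874) (nat_lit 152) (nat_lit 276521000) (nat_lit 228) (nat_lit 19876994497) (nat_lit 91) (nat_lit 5) (nat_lit 93) (nat_lit 5) (nat_lit 94) (nat_lit 5) (nat_lit 503) (nat_lit 393) (nat_lit 304))) (XT.nd (nat_lit 78) (nat_lit 76) (nat_lit 0) (XT.lf (nat_lit 0) (nat_lit 12063247148) (nat_lit 228) (nat_lit 4282164677) (nat_lit 76) (nat_lit 8212557655) (nat_lit 91) (nat_lit 5) (nat_lit 94) (nat_lit 5) (nat_lit 92) (nat_lit 4) (nat_lit 504) (nat_lit 393) (nat_lit 303)) (XT.lf (nat_lit 0) (nat_lit 12241860873) (nat_lit 76) (nat_lit 7992336597) (nat_lit 152) (nat_lit 4799148384) (nat_lit 90) (nat_lit 5) (nat_lit 91) (nat_lit 5) (nat_lit 92) (nat_lit 4) (nat_lit 505) (nat_lit 393) (nat_lit 302))))) (XT.nd (nat_lit 312) (nat_lit 304) (nat_lit 0) (XT.nd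 (nat_lit 156) (nat_lit 304) (nat_lit 0) (XT.nd (nat_lit 78) (nat_lit 0) (nat_lit 0) (XT.lf (nat_lit 0) (nat_lit 3122058086) (nat_lit 228) (nat_lit 21715356589) (nat_lit 76) (nat_lit 682993509) (nat_lit 87) (nat_lit 5) (nat_lit 90) (nat_lit 5) (nat_lit 88) (nat_lit 4) (nat_lit 506) (nat_lit 393) (nat_lit 301)) (XT.lf (nat_lit 0) (nat_lit 11362874715) (nat_lit 228) (nat_lit 5044156056) (nat_lit 76) (nat_lit 9608273368) (nat_lit 87) (nat_lit 5) (nat_lit 90) (nat_lit 5) (nat_lit 88) (nat_lit 4) (nat_lit 507) (nat_lit 393) (nat_lit 300))) (XT.nd (nat_lit 78) (nat_lit 228) (nat_lit 0) (XT.lf (nat_lit 0) (nat_lit 12309401996) (nat_lit 76) (nat_lit 7629598797) (nat_lit 152) (nat_lit 6583403828) (nat_lit 86) (nat_lit 5) (nat_lit 87) (nat_lit 5) (nat_lit 88) (nat_lit 4) (nat_lit 508) (nat_lit 393) (nat_lit 299)) (XT.lf (nat_lit 0) (nat_lit 1760555630) (nat_lit 228) (nat_lit 23825214864) (nat_lit 76) (nat_lit 1456452285) (nat_lit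 83) (nat_lit 5) (nat_lit 86) (nat_lit 5) (nat_lit 84) (nat_lit 4) (nat_lit 509) (nat_lit 393) (nat_lit 298)))) (XT.nd (nat_lit 156) (nat_lit 228) (nat_lit 0) (XT.nd (nat_lit 78) (nat_lit 76) (nat_lit 0) (XT.lf (nat_lit 0) (nat_lit 10412853775) (nat_lit 228) (nat_lit 6312277325) (nat_lit 76) (nat_lit 10844838904) (nat_lit 83) (nat_lit 5) (nat_lit 86) (nat_lit 5) (nat_lit 84) (nat_lit 4) (nat_lit 510) (nat_lit 393) (nat_lit 297)) (XT.lf (nat_lit 0) (nat_lit 11901913939) (nat_lit 76) (nat_lit 7507948157) (nat_lit 152) (nat_lit 8701133490) (nat_lit 82) (nat_lit 5) (nat_lit 83) (nat_lit 5) (nat_lit 84) (nat_lit 4) (nat_lit 511) (nat_lit 393) (nat_lit 296))) (XT.nd (nat_lit 78) (nat_lit 0) (nat_lit 0) (XT.lf (nat_lit 0) (nat_lit 83441739) (nat_lit 228) (nat_lit 26576626021) (nat_lit 76) (nat_lit 2005929499) (nat_lit 79) (nat_lit 5) (nat_lit 82) (nat_lit 5) (nat_lit 80) (nat_lit 4) (nat_lit 512) (nat_lit 393) (nat_lit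 295)) (XT.lf (nat_lit 0) (nat_lit 9167124129) (nat_lit 228) (nat_lit 8182265913) (nat_lit 76) (nat_lit 11879360985) (nat_lit 79) (nat_lit 5) (nat_lit 82) (nat_lit 5) (nat_lit 80) (nat_lit 4) (nat_lit 513) (nat_lit 393) (nat_lit 294))))))) (XT.nd (nat_lit 1248) (nat_lit 1064) (nat_lit 0) (XT.nd (nat_lit 624) (nat_lit 608) (nat_lit 0) (XT.nd (nat_lit 312) (nat_lit 228) (nat_lit 0) (XT.nd (nat_lit 156) (nat_lit 152) (nat_lit 0) (XT.nd (nat_lit 78) (nat_lit 76) (nat_lit 0) (XT.lf (nat_lit 0) (nat_lit 10922233054) (nat_lit 76) (nat_lit 7677742517) (nat_lit 152) (nat_lit 11206112237) (nat_lit 78) (nat_lit 5) (nat_lit 79) (nat_lit 5) (nat_lit 80) (nat_lit 4) (nat_lit 514) (nat_lit 393) (nat_lit 293)) (XT.lf (nat_lit 0) (nat_lit 297485501) (nat_lit 76) (nat_lit 28098303686) (nat_lit 76) (nat_lit 2002556359) (nat_lit 77) (nat_lit 4) (nat_lit 78) (nat_lit 5) (nat_lit 78) (nat_lit 4) (nat_lit 515) (nat_lit 393) (nat_lit 292)))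 (XT.nd (nat_lit 78) (nat_lit 76) (nat_lit 0) (XT.lf (nat_lit 0) (nat_lit 7571538714) (nat_lit 152) (nat_lit 10765963353) (nat_lit 76) (nat_lit 12661502725) (nat_lit 76) (nat_lit 5) (nat_lit 78) (nat_lit 5) (nat_lit 77) (nat_lit 4) (nat_lit 516) (nat_lit 393) (nat_lit 291)) (XT.lf (nat_lit 0) (nat_lit 9256479509) (nat_lit 76) (nat_lit 8197672320) (nat_lit 152) (nat_lit 14161090967) (nat_lit 75) (nat_lit 5) (nat_lit 76) (nat_lit 5) (nat_lit 77) (nat_lit 4) (nat_lit 517) (nat_lit 393) (nat_lit 290)))) (XT.nd (nat_lit 156) (nat_lit 76) (nat_lit 0) (XT.nd (nat_lit 78) (nat_lit 152) (nat_lit 0) (XT.lf (nat_lit 0) (nat_lit 27737239106) (nat_lit 152) (nat_lit 2222434967) (nat_lit 0) (nat_lit 2287174132) (nat_lit 75) (nat_lit 5) (nat_lit 77) (nat_lit 4) (nat_lit 75) (nat_lit 4) (nat_lit 518) (nat_lit 393) (nat_lit 289)) (XT.lf (nat_lit 0) (nat_lit 5562574630) (nat_lit 152) (nat_lit 14193968549) (nat_lit 76) (nat_lit 13132178104)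 (nat_lit 73) (nat_lit 5) (nat_lit 75) (nat_lit 5) (nat_lit 74) (nat_lit 4) (nat_lit 519) (nat_lit 393) (nat_lit 288))) (XT.nd (nat_lit 78) (nat_lit 0) (nat_lit 0) (XT.lf (nat_lit 0) (nat_lit 6771283332) (nat_lit 76) (nat_lit 9136185608) (nat_lit 152) (nat_lit 17639206736) (nat_lit 72) (nat_lit 5) (nat_lit 73) (nat_lit 5) (nat_lit 74) (nat_lit 4) (nat_lit 520) (nat_lit 393) (nat_lit 287)) (XT.lf (nat_lit 0) (nat_lit 26698259742) (nat_lit 152) (nat_lit 5634216013) (nat_lit 0) (nat_lit 1887826577) (nat_lit 72) (nat_lit 5) (nat_lit 74) (nat_lit 4) (nat_lit 72) (nat_lit 4) (nat_lit 521) (nat_lit 393) (nat_lit 286))))) (XT.nd (nat_lit 312) (nat_lit 304) (nat_lit 0) (XT.nd (nat_lit 156) (nat_lit 76) (nat_lit 0) (XT.nd (nat_lit 78) (nat_lit 76) (nat_lit 0) (XT.lf (nat_lit 0) (nat_lit 3065833713) (nat_lit 152) (nat_lit 18618714132) (nat_lit 76) (nat_lit 13222041351) (nat_lit 70) (nat_lit 5) (nat_lit 72) (nat_lit 5) (nat_lit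 71) (nat_lit 4) (nat_lit 522) (nat_lit 393) (nat_lit 285)) (XT.lf (nat_lit 0) (nat_lit 3310566669) (nat_lit 76) (nat_lit 10573136207) (nat_lit 152) (nat_lit 21725621365) (nat_lit 69) (nat_lit 5) (nat_lit 70) (nat_lit 5) (nat_lit 71) (nat_lit 4) (nat_lit 523) (nat_lit 393) (nat_lit 284))) (XT.nd (nat_lit 78) (nat_lit 76) (nat_lit 0) (XT.lf (nat_lit 0) (nat_lit 25198657550) (nat_lit 152) (nat_lit 10108747959) (nat_lit 0) (nat_lit 1020559451) (nat_lit 69) (nat_lit 5) (nat_lit 71) (nat_lit 4) (nat_lit 69) (nat_lit 4) (nat_lit 524) (nat_lit 393) (nat_lit 283)) (XT.lf (nat_lit 0) (nat_lit 12843979389) (nat_lit 76) (nat_lit 24212275710) (nat_lit 76) (nat_lit 5814078) (nat_lit 68) (nat_lit 4) (nat_lit 69) (nat_lit 5) (nat_lit 69) (nat_lit 4) (nat_lit 525) (nat_lit 393) (nat_lit 282)))) (XT.nd (nat_lit 156) (nat_lit 152) (nat_lit 0) (XT.nd (nat_lit 78) (nat_lit 76) (nat_lit 0) (XT.lf (nat_lit 0) (nat_lit 11306077552) (nat_lit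 152) (nat_lit 1282661611) (nat_lit 76) (nat_lit 25223810588) (nat_lit 67) (nat_lit 5) (nat_lit 69) (nat_lit 5) (nat_lit 68) (nat_lit 4) (nat_lit 526) (nat_lit 393) (nat_lit 281)) (XT.lf (nat_lit 0) (nat_lit 22736929845) (nat_lit 76) (nat_lit 414628892) (nat_lit 152) (nat_lit 15428153883) (nat_lit 66) (nat_lit 5) (nat_lit 67) (nat_lit 5) (nat_lit 68) (nat_lit 4) (nat_lit 527) (nat_lit 393) (nat_lit 280))) (XT.nd (nat_lit 78) (nat_lit 76) (nat_lit 0) (XT.lf (nat_lit 0) (nat_lit 8128281948) (nat_lit 76) (nat_lit 27407706348) (nat_lit 76) (nat_lit 3828394654) (nat_lit 65) (nat_lit 4) (nat_lit 66) (nat_lit 5) (nat_lit 66) (nat_lit 4) (nat_lit 528) (nat_lit 393) (nat_lit 279)) (XT.lf (nat_lit 0) (nat_lit 8102423588) (nat_lit 152) (nat_lit 7155858442) (nat_lit 76) (nat_lit 24907724875) (nat_lit 64) (nat_lit 5) (nat_lit 66) (nat_lit 5) (nat_lit 65) (nat_lit 4) (nat_lit 529) (nat_lit 393) (nat_lit 278)))))) (XT.nd (nat_lit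 624) (nat_lit 532) (nat_lit 0) (XT.nd (nat_lit 312) (nat_lit 228) (nat_lit 0) (XT.nd (nat_lit 156) (nat_lit 152) (nat_lit 0) (XT.nd (nat_lit 78) (nat_lit 76) (nat_lit 0) (XT.lf (nat_lit 0) (nat_lit 17912237034) (nat_lit 76) (nat_lit 2550703543) (nat_lit 152) (nat_lit 20523140305) (nat_lit 63) (nat_lit 5) (nat_lit 64) (nat_lit 5) (nat_lit 65) (nat_lit 4) (nat_lit 530) (nat_lit 393) (nat_lit 277)) (XT.lf (nat_lit 0) (nat_lit 1940109357) (nat_lit 76) (nat_lit 31423652678) (nat_lit 76) (nat_lit 8461910457) (nat_lit 62) (nat_lit 4) (nat_lit 63) (nat_lit 5) (nat_lit 63) (nat_lit 4) (nat_lit 531) (nat_lit 393) (nat_lit 276))) (XT.nd (nat_lit 78) (nat_lit 76) (nat_lit 0) (XT.lf (nat_lit 0) (nat_lit 4121000063) (nat_lit 152) (nat_lit 14617850378) (nat_lit 76) (nat_lit 23943344969) (nat_lit 61) (nat_lit 5) (nat_lit 63) (nat_lit 5) (nat_lit 62) (nat_lit 4) (nat_lit 532) (nat_lit 393) (nat_lit 275)) (XT.lf (nat_lit 0) (nat_lit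 11503715274) (nat_lit 76) (nat_lit 5495447737) (nat_lit 152) (nat_lit 26560102407) (nat_lit 60) (nat_lit 5) (nat_lit 61) (nat_lit 5) (nat_lit 62) (nat_lit 4) (nat_lit 533) (nat_lit 393) (nat_lit 274)))) (XT.nd (nat_lit 156) (nat_lit 152) (nat_lit 0) (XT.nd (nat_lit 78) (nat_lit 76) (nat_lit 0) (XT.lf (nat_lit 0) (nat_lit 30468325905) (nat_lit 152) (nat_lit 5874298912) (nat_lit 0) (nat_lit 8113883129) (nat_lit 60) (nat_lit 5) (nat_lit 62) (nat_lit 4) (nat_lit 60) (nat_lit 4) (nat_lit 534) (nat_lit 393) (nat_lit 273)) (XT.lf (nat_lit 0) (nat_lit 21412216188) (nat_lit 76) (nat_lit 23167531538) (nat_lit 76) (nat_lit 793774576) (nat_lit 59) (nat_lit 4) (nat_lit 60) (nat_lit 5) (nat_lit 60) (nat_lit 4) (nat_lit 535) (nat_lit 393) (nat_lit 272))) (XT.nd (nat_lit 78) (nat_lit 0) (nat_lit 0) (XT.lf (nat_lit 0) (nat_lit 3217054004) (nat_lit 76) (nat_lit 9398494076) (nat_lit 152) (nat_lit 33696745207) (nat_lit 57) (nat_lit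 5) (nat_lit 58) (nat_lit 5) (nat_lit 59) (nat_lit 4) (nat_lit 536) (nat_lit 393) (nat_lit 271)) (XT.lf (nat_lit 0) (nat_lit 26679516456) (nat_lit 152) (nat_lit 15669884003) (nat_lit 0) (nat_lit 4921541629) (nat_lit 57) (nat_lit 5) (nat_lit 59) (nat_lit 4) (nat_lit 57) (nat_lit 4) (nat_lit 537) (nat_lit 393) (nat_lit 270))))) (XT.nd (nat_lit 312) (nat_lit 228) (nat_lit 0) (XT.nd (nat_lit 156) (nat_lit 152) (nat_lit 0) (XT.nd (nat_lit 78) (nat_lit 76) (nat_lit 0) (XT.lf (nat_lit 0) (nat_lit 12690458926) (nat_lit 76) (nat_lit 28668608409) (nat_lit 76) (nat_lit 6893473178) (nat_lit 56) (nat_lit 4) (nat_lit 57) (nat_lit 5) (nat_lit 57) (nat_lit 4) (nat_lit 538) (nat_lit 393) (nat_lit 269)) (XT.lf (nat_lit 0) (nat_lit 7213051432) (nat_lit 152) (nat_lit 7149301410) (nat_lit 76) (nat_lit 34895000367) (nat_lit 55) (nat_lit 5) (nat_lit 57) (nat_lit 5) (nat_lit 56) (nat_lit 4) (nat_lit 539) (nat_lit 393) (nat_lit 268))) (XT.nd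 (nat_lit 78) (nat_lit 76) (nat_lit 0) (XT.lf (nat_lit 0) (nat_lit 21805424909) (nat_lit 152) (nat_lit 27846164323) (nat_lit 0) (nat_lit 632637390) (nat_lit 54) (nat_lit 5) (nat_lit 56) (nat_lit 4) (nat_lit 54) (nat_lit 4) (nat_lit 540) (nat_lit 393) (nat_lit 267)) (XT.lf (nat_lit 0) (nat_lit 1566359115) (nat_lit 76) (nat_lit 35478649168) (nat_lit 76) (nat_lit 14290614852) (nat_lit 53) (nat_lit 4) (nat_lit 54) (nat_lit 5) (nat_lit 54) (nat_lit 4) (nat_lit 541) (nat_lit 393) (nat_lit 266)))) (XT.nd (nat_lit 156) (nat_lit 76) (nat_lit 0) (XT.nd (nat_lit 78) (nat_lit 76) (nat_lit 0) (XT.lf (nat_lit 0) (nat_lit 580166741) (nat_lit 152) (nat_lit 20025098545) (nat_lit 76) (nat_lit 31805305411) (nat_lit 52) (nat_lit 5) (nat_lit 54) (nat_lit 5) (nat_lit 53) (nat_lit 4) (nat_lit 542) (nat_lit 393) (nat_lit 265)) (XT.lf (nat_lit 0) (nat_lit 10637516693) (nat_lit 76) (nat_lit 5054466209) (nat_lit 152) (nat_lit 37819074949)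 (nat_lit 51) (nat_lit 5) (nat_lit 52) (nat_lit 5) (nat_lit 53) (nat_lit 4) (nat_lit 543) (nat_lit 393) (nat_lit 264))) (XT.nd (nat_lit 78) (nat_lit 76) (nat_lit 0) (XT.lf (nat_lit 0) (nat_lit 31546652178) (nat_lit 152) (nat_lit 12155348585) (nat_lit 0) (nat_lit 10933873947) (nat_lit 51) (nat_lit 5) (nat_lit 53) (nat_lit 4) (nat_lit 51) (nat_lit 4) (nat_lit 544) (nat_lit 393) (nat_lit 263)) (XT.lf (nat_lit 0) (nat_lit 19781542196) (nat_lit 76) (nat_lit 28316101852) (nat_lit 76) (nat_lit 7690171600) (nat_lit 50) (nat_lit 4) (nat_lit 51) (nat_lit 5) (nat_lit 51) (nat_lit 4) (nat_lit 545) (nat_lit 393) (nat_lit 262))))))))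
noncomputable def xc80 : XT := (XT.nd (nat_lit 53820) (nat_lit 0) (nat_lit 8892) (XT.nd (nat_lit 52572) (nat_lit 0) (nat_lit 18012) (XT.nd (nat_lit 546) (nat_lit 76) (nat_lit 0) (XT.nd (nat_lit 234) (nat_lit 228) (nat_lit 0) (XT.nd (nat_lit 78) (nat_lit 152) (nat_lit 0) (XT.lf (nat_lit 0) (nat_lit 8115862280) (nat_lit 152) (nat_lit 4163498775) (nat_lit 76) (nat_lit 44689463884) (nat_lit 49) (nat_lit 5) (nat_lit 51) (nat_lit 5) (nat_lit 50) (nat_lit 4) (nat_lit 546) (nat_lit 393) (nat_lit 261)) (XT.nd (nat_lit 78) (nat_lit 76) (nat_lit 0) (XT.lf (nat_lit 0) (nat_lit 24546274107) (nat_lit 152) (nat_lit 29130897281) (nat_lit 0) (nat_lit 4496666101) (nat_lit 48) (nat_lit 5) (nat_lit 50) (nat_lit 4) (nat_lit 48) (nat_lit 4) (nat_lit 547) (nat_lit 393) (nat_lit 260)) (XT.lf (nat_lit 0) (nat_lit 3832264167) (nat_lit 76) (nat_lit 37819285577) (nat_lit 76) (nat_lit 17757992172) (nat_lit 47) (nat_lit 4) (nat_lit 48) (nat_lit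 5) (nat_lit 48) (nat_lit 4) (nat_lit 548) (nat_lit 393) (nat_lit 259)))) (XT.nd (nat_lit 156) (nat_lit 76) (nat_lit 0) (XT.nd (nat_lit 78) (nat_lit 152) (nat_lit 0) (XT.lf (nat_lit 0) (nat_lit 38344141049) (nat_lit 76) (nat_lit 21201275960) (nat_lit 76) (nat_lit 1128637506) (nat_lit 47) (nat_lit 4) (nat_lit 48) (nat_lit 5) (nat_lit 48) (nat_lit 4) (nat_lit 549) (nat_lit 393) (nat_lit 258)) (XT.lf (nat_lit 0) (nat_lit 11957801191) (nat_lit 76) (nat_lit 3826166422) (nat_lit 152) (nat_lit 46185023595) (nat_lit 45) (nat_lit 5) (nat_lit 46) (nat_lit 5) (nat_lit 47) (nat_lit 4) (nat_lit 550) (nat_lit 393) (nat_lit 257))) (XT.nd (nat_lit 78) (nat_lit 76) (nat_lit 0) (XT.lf (nat_lit 0) (nat_lit 33525885231) (nat_lit 152) (nat_lit 15749406395) (nat_lit 0) (nat_lit 14016810608) (nat_lit 45) (nat_lit 5) (nat_lit 47) (nat_lit 4) (nat_lit 45) (nat_lit 4) (nat_lit 551) (nat_lit 393) (nat_lit 256)) (XT.lf (nat_lit 0) (nat_lit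 19854216785) (nat_lit 76) (nat_lit 32156758474) (nat_lit 76) (nat_lit 12637603923) (nat_lit 44) (nat_lit 4) (nat_lit 45) (nat_lit 5) (nat_lit 45) (nat_lit 4) (nat_lit 552) (nat_lit 393) (nat_lit 255))))) (XT.nd (nat_lit 51714) (nat_lit 0) (nat_lit 27816) (XT.nd (nat_lit 51558) (nat_lit 0) (nat_lit 29412) (XT.nd (nat_lit 51480) (nat_lit 0) (nat_lit 30628) (XT.lf (nat_lit 0) (nat_lit 5050004350) (nat_lit 152) (nat_lit 9277432058) (nat_lit 76) (nat_lit 51712586775) (nat_lit 43) (nat_lit 5) (nat_lit 45) (nat_lit 5) (nat_lit 44) (nat_lit 4) (nat_lit 553) (nat_lit 393) (nat_lit 254)) (XT.lf (nat_lit 0) (nat_lit 1263756818) (nat_lit 532) (nat_lit 769591431) (nat_lit 0) (nat_lit 1263756818) (nat_lit 446) (nat_lit 5) (nat_lit 453) (nat_lit 4) (nat_lit 446) (nat_lit 4) (nat_lit 412) (nat_lit 394) (nat_lit 394))) (XT.nd (nat_lit 78) (nat_lit 684) (nat_lit 0) (XT.lf (nat_lit 0) (nat_lit 2640345088) (nat_lit 532) (nat_lit 3185223079)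 (nat_lit 532) (nat_lit 795519490) (nat_lit 439) (nat_lit 4) (nat_lit 446) (nat_lit 5) (nat_lit 446) (nat_lit 4) (nat_lit 413) (nat_lit 394) (nat_lit 393)) (XT.lf (nat_lit 0) (nat_lit 223490062) (nat_lit 608) (nat_lit 2206704136) (nat_lit 684) (nat_lit 4220644574) (nat_lit 430) (nat_lit 5) (nat_lit 438) (nat_lit 5) (nat_lit 439) (nat_lit 4) (nat_lit 414) (nat_lit 394) (nat_lit 392)))) (XT.nd (nat_lit 156) (nat_lit 836) (nat_lit 0) (XT.nd (nat_lit 78) (nat_lit 760) (nat_lit 0) (XT.lf (nat_lit 0) (nat_lit 4543764385) (nat_lit 608) (nat_lit 1124261907) (nat_lit 684) (nat_lit 1015287765) (nat_lit 430) (nat_lit 5) (nat_lit 438) (nat_lit 5) (nat_lit 439) (nat_lit 4) (nat_lit 415) (nat_lit 394) (nat_lit 391)) (XT.lf (nat_lit 0) (nat_lit 2156800505) (nat_lit 760) (nat_lit 4504458368) (nat_lit 76) (nat_lit 57397484) (nat_lit 420) (nat_lit 5) (nat_lit 430) (nat_lit 5) (nat_lit 421) (nat_lit 4) (nat_lit 416) (nat_lit 394) (nat_lit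 390))) (XT.nd (nat_lit 78) (nat_lit 836) (nat_lit 0) (XT.lf (nat_lit 0) (nat_lit 5332449777) (nat_lit 760) (nat_lit 119269655) (nat_lit 76) (nat_lit 1305181120) (nat_lit 420) (nat_lit 5) (nat_lit 430) (nat_lit 5) (nat_lit 421) (nat_lit 4) (nat_lit 417) (nat_lit 394) (nat_lit 389)) (XT.lf (nat_lit 0) (nat_lit 1712407158) (nat_lit 836) (nat_lit 2414895055) (nat_lit 76) (nat_lit 2670257853) (nat_lit 409) (nat_lit 5) (nat_lit 420) (nat_lit 5) (nat_lit 410) (nat_lit 5) (nat_lit 418) (nat_lit 394) (nat_lit 388)))))) (XT.nd (nat_lit 624) (nat_lit 3420) (nat_lit 0) (XT.nd (nat_lit 312) (nat_lit 3496) (nat_lit 0) (XT.nd (nat_lit 156) (nat_lit 1976) (nat_lit 0) (XT.nd (nat_lit 78) (nat_lit 76) (nat_lit 0) (XT.lf (nat_lit 0) (nat_lit 2125505046) (nat_lit 836) (nat_lit 2710936053) (nat_lit 912) (nat_lit 2004930865) (nat_lit 398) (nat_lit 5) (nat_lit 409) (nat_lit 5) (nat_lit 410) (nat_lit 5) (nat_lit 419) (nat_lit 394) (nat_lit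 387)) (XT.lf (nat_lit 0) (nat_lit 1070722498) (nat_lit 912) (nat_lit 131311792) (nat_lit 76) (nat_lit 5686359198) (nat_lit 397) (nat_lit 5) (nat_lit 409) (nat_lit 5) (nat_lit 398) (nat_lit 5) (nat_lit 420) (nat_lit 394) (nat_lit 386))) (XT.nd (nat_lit 78) (nat_lit 1064) (nat_lit 0) (XT.lf (nat_lit 0) (nat_lit 4150546816) (nat_lit 988) (nat_lit 2364893396) (nat_lit 76) (nat_lit 422230110) (nat_lit 385) (nat_lit 5) (nat_lit 398) (nat_lit 5) (nat_lit 386) (nat_lit 5) (nat_lit 421) (nat_lit 394) (nat_lit 385)) (XT.lf (nat_lit 0) (nat_lit 269547361) (nat_lit 1064) (nat_lit 4611275101) (nat_lit 76) (nat_lit 2109260439) (nat_lit 371) (nat_lit 5) (nat_lit 385) (nat_lit 5) (nat_lit 372) (nat_lit 5) (nat_lit 422) (nat_lit 394) (nat_lit 384)))) (XT.nd (nat_lit 156) (nat_lit 2432) (nat_lit 0) (XT.nd (nat_lit 78) (nat_lit 0) (nat_lit 0) (XT.lf (nat_lit 0) (nat_lit 158876240) (nat_lit 1064) (nat_lit 3135848179) (nat_lit 1140)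 (nat_lit 3750536466) (nat_lit 357) (nat_lit 5) (nat_lit 371) (nat_lit 5) (nat_lit 372) (nat_lit 5) (nat_lit 423) (nat_lit 394) (nat_lit 383)) (XT.lf (nat_lit 0) (nat_lit 5081166322) (nat_lit 1064) (nat_lit 1285117035) (nat_lit 1140) (nat_lit 737147512) (nat_lit 357) (nat_lit 5) (nat_lit 371) (nat_lit 5) (nat_lit 372) (nat_lit 5) (nat_lit 424) (nat_lit 394) (nat_lit 382))) (XT.nd (nat_lit 78) (nat_lit 1216) (nat_lit 0) (XT.lf (nat_lit 0) (nat_lit 2266047899) (nat_lit 1216) (nat_lit 4233444309) (nat_lit 76) (nat_lit 664808807) (nat_lit 341) (nat_lit 5) (nat_lit 357) (nat_lit 5) (nat_lit 342) (nat_lit 5) (nat_lit 425) (nat_lit 394) (nat_lit 381)) (XT.lf (nat_lit 0) (nat_lit 755550058) (nat_lit 1216) (nat_lit 4542237200) (nat_lit 1292) (nat_lit 1930398126) (nat_lit 325) (nat_lit 5) (nat_lit 341) (nat_lit 5) (nat_lit 342) (nat_lit 5) (nat_lit 426) (nat_lit 394) (nat_lit 380))))) (XT.nd (nat_lit 312) (nat_lit 1824) (nat_lit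 0) (XT.nd (nat_lit 156) (nat_lit 684) (nat_lit 0) (XT.nd (nat_lit 78) (nat_lit 836) (nat_lit 0) (XT.lf (nat_lit 0) (nat_lit 1061204647) (nat_lit 1292) (nat_lit 1410446805) (nat_lit 76) (nat_lit 4823313861) (nat_lit 324) (nat_lit 5) (nat_lit 341) (nat_lit 5) (nat_lit 325) (nat_lit 5) (nat_lit 427) (nat_lit 394) (nat_lit 379)) (XT.lf (nat_lit 0) (nat_lit 3773184172) (nat_lit 836) (nat_lit 282882502) (nat_lit 912) (nat_lit 3308543844) (nat_lit 313) (nat_lit 5) (nat_lit 324) (nat_lit 5) (nat_lit 325) (nat_lit 5) (nat_lit 428) (nat_lit 394) (nat_lit 378))) (XT.nd (nat_lit 78) (nat_lit 76) (nat_lit 0) (XT.lf (nat_lit 0) (nat_lit 1631499723) (nat_lit 608) (nat_lit 5475953240) (nat_lit 684) (nat_lit 329896201) (nat_lit 305) (nat_lit 5) (nat_lit 313) (nat_lit 5) (nat_lit 314) (nat_lit 5) (nat_lit 429) (nat_lit 394) (nat_lit 377)) (XT.lf (nat_lit 0) (nat_lit 2642537072) (nat_lit 684) (nat_lit 543269907) (nat_lit 76) (nat_lit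 4326941865) (nat_lit 304) (nat_lit 5) (nat_lit 313) (nat_lit 5) (nat_lit 305) (nat_lit 5) (nat_lit 430) (nat_lit 394) (nat_lit 376)))) (XT.nd (nat_lit 156) (nat_lit 608) (nat_lit 0) (XT.nd (nat_lit 78) (nat_lit 608) (nat_lit 0) (XT.lf (nat_lit 0) (nat_lit 4884435652) (nat_lit 608) (nat_lit 780835455) (nat_lit 684) (nat_lit 1926012727) (nat_lit 296) (nat_lit 5) (nat_lit 304) (nat_lit 5) (nat_lit 305) (nat_lit 5) (nat_lit 431) (nat_lit 394) (nat_lit 375)) (XT.lf (nat_lit 0) (nat_lit 1055300702) (nat_lit 608) (nat_lit 4917943137) (nat_lit 76) (nat_lit 1699504356) (nat_lit 288) (nat_lit 5) (nat_lit 296) (nat_lit 5) (nat_lit 289) (nat_lit 5) (nat_lit 432) (nat_lit 394) (nat_lit 374))) (XT.nd (nat_lit 78) (nat_lit 0) (nat_lit 0) (XT.lf (nat_lit 0) (nat_lit 577218477) (nat_lit 608) (nat_lit 3473938091) (nat_lit 684) (nat_lit 3706017133) (nat_lit 280) (nat_lit 5) (nat_lit 288) (nat_lit 5) (nat_lit 289) (nat_lit 5) (nat_lit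 433) (nat_lit 394) (nat_lit 373)) (XT.lf (nat_lit 0) (nat_lit 6251967054) (nat_lit 608) (nat_lit 858929808) (nat_lit 684) (nat_lit 734018456) (nat_lit 280) (nat_lit 5) (nat_lit 288) (nat_lit 5) (nat_lit 289) (nat_lit 5) (nat_lit 434) (nat_lit 394) (nat_lit 372))))))) (XT.nd (nat_lit 1170) (nat_lit 3800) (nat_lit 0) (XT.nd (nat_lit 546) (nat_lit 2660) (nat_lit 0) (XT.nd (nat_lit 234) (nat_lit 1444) (nat_lit 0) (XT.nd (nat_lit 78) (nat_lit 608) (nat_lit 0) (XT.lf (nat_lit 0) (nat_lit 2265441908) (nat_lit 608) (nat_lit 3818866548) (nat_lit 76) (nat_lit 1850801654) (nat_lit 272) (nat_lit 5) (nat_lit 280) (nat_lit 5) (nat_lit 273) (nat_lit 5) (nat_lit 435) (nat_lit 394) (nat_lit 371)) (XT.nd (nat_lit 78) (nat_lit 76) (nat_lit 0) (XT.lf (nat_lit 0) (nat_lit 1937413494) (nat_lit 532) (nat_lit 3373153835) (nat_lit 608) (nat_lit 2718115663) (nat_lit 265) (nat_lit 5) (nat_lit 272) (nat_lit 5) (nat_lit 273) (nat_lit 5) (nat_lit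 436) (nat_lit 394) (nat_lit 370)) (XT.lf (nat_lit 0) (nat_lit 282297381) (nat_lit 608) (nat_lit 269613281) (nat_lit 76) (nat_lit 7574064750) (nat_lit 264) (nat_lit 5) (nat_lit 272) (nat_lit 5) (nat_lit 265) (nat_lit 5) (nat_lit 437) (nat_lit 394) (nat_lit 369)))) (XT.nd (nat_lit 156) (nat_lit 532) (nat_lit 0) (XT.nd (nat_lit 78) (nat_lit 456) (nat_lit 0) (XT.lf (nat_lit 0) (nat_lit 3326207386) (nat_lit 532) (nat_lit 2521967307) (nat_lit 76) (nat_lit 2376964091) (nat_lit 258) (nat_lit 5) (nat_lit 265) (nat_lit 5) (nat_lit 259) (nat_lit 5) (nat_lit 438) (nat_lit 394) (nat_lit 368)) (XT.lf (nat_lit 0) (nat_lit 3511022242) (nat_lit 456) (nat_lit 2923238932) (nat_lit 532) (nat_lit 1893834024) (nat_lit 252) (nat_lit 5) (nat_lit 258) (nat_lit 5) (nat_lit 259) (nat_lit 5) (nat_lit 439) (nat_lit 394) (nat_lit 367))) (XT.nd (nat_lit 78) (nat_lit 0) (nat_lit 0) (XT.lf (nat_lit 0) (nat_lit 1148472071) (nat_lit 532) (nat_lit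 7165589761) (nat_lit 76) (nat_lit 120619781) (nat_lit 245) (nat_lit 5) (nat_lit 252) (nat_lit 5) (nat_lit 246) (nat_lit 5) (nat_lit 440) (nat_lit 394) (nat_lit 366)) (XT.lf (nat_lit 0) (nat_lit 4254447339) (nat_lit 532) (nat_lit 1041607601) (nat_lit 76) (nat_lit 3247536917) (nat_lit 245) (nat_lit 5) (nat_lit 252) (nat_lit 5) (nat_lit 246) (nat_lit 5) (nat_lit 441) (nat_lit 394) (nat_lit 365))))) (XT.nd (nat_lit 312) (nat_lit 1292) (nat_lit 0) (XT.nd (nat_lit 156) (nat_lit 456) (nat_lit 0) (XT.nd (nat_lit 78) (nat_lit 456) (nat_lit 0) (XT.lf (nat_lit 0) (nat_lit 5284739944) (nat_lit 456) (nat_lit 2154027716) (nat_lit 532) (nat_lit 1217449379) (nat_lit 239) (nat_lit 5) (nat_lit 245) (nat_lit 5) (nat_lit 246) (nat_lit 5) (nat_lit 442) (nat_lit 394) (nat_lit 364)) (XT.lf (nat_lit 0) (nat_lit 1893547091) (nat_lit 456) (nat_lit 5778018453) (nat_lit 76) (nat_lit 1100542643) (nat_lit 233) (nat_lit 5) (nat_lit 239) (nat_lit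 5) (nat_lit 234) (nat_lit 5) (nat_lit 443) (nat_lit 394) (nat_lit 363))) (XT.nd (nat_lit 78) (nat_lit 0) (nat_lit 0) (XT.lf (nat_lit 0) (nat_lit 621848406) (nat_lit 456) (nat_lit 4448971273) (nat_lit 532) (nat_lit 3820374682) (nat_lit 227) (nat_lit 5) (nat_lit 233) (nat_lit 5) (nat_lit 234) (nat_lit 5) (nat_lit 444) (nat_lit 394) (nat_lit 362)) (XT.lf (nat_lit 0) (nat_lit 7247147754) (nat_lit 456) (nat_lit 1091392952) (nat_lit 532) (nat_lit 675460823) (nat_lit 227) (nat_lit 5) (nat_lit 233) (nat_lit 5) (nat_lit 234) (nat_lit 5) (nat_lit 445) (nat_lit 394) (nat_lit 361)))) (XT.nd (nat_lit 156) (nat_lit 456) (nat_lit 0) (XT.nd (nat_lit 78) (nat_lit 380) (nat_lit 0) (XT.lf (nat_lit 0) (nat_lit 2522318843) (nat_lit 456) (nat_lit 4245177411) (nat_lit 76) (nat_lit 2372003077) (nat_lit 221) (nat_lit 5) (nat_lit 227) (nat_lit 5) (nat_lit 222) (nat_lit 5) (nat_lit 446) (nat_lit 394) (nat_lit 360)) (XT.lf (nat_lit 0) (nat_lit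 2469272897) (nat_lit 380) (nat_lit 3324555213) (nat_lit 456) (nat_lit 3474994274) (nat_lit 216) (nat_lit 5) (nat_lit 221) (nat_lit 5) (nat_lit 222) (nat_lit 5) (nat_lit 447) (nat_lit 394) (nat_lit 359))) (XT.nd (nat_lit 78) (nat_lit 456) (nat_lit 0) (XT.lf (nat_lit 0) (nat_lit 9148468888) (nat_lit 456) (nat_lit 16434964) (nat_lit 76) (nat_lit 237573748) (nat_lit 216) (nat_lit 5) (nat_lit 222) (nat_lit 5) (nat_lit 217) (nat_lit 5) (nat_lit 448) (nat_lit 394) (nat_lit 358)) (XT.lf (nat_lit 0) (nat_lit 3045672628) (nat_lit 456) (nat_lit 2577921991) (nat_lit 76) (nat_lit 3914410869) (nat_lit 210) (nat_lit 5) (nat_lit 216) (nat_lit 5) (nat_lit 211) (nat_lit 5) (nat_lit 449) (nat_lit 394) (nat_lit 357)))))) (XT.nd (nat_lit 624) (nat_lit 1672) (nat_lit 0) (XT.nd (nat_lit 312) (nat_lit 1064) (nat_lit 0) (XT.nd (nat_lit 156) (nat_lit 304) (nat_lit 0) (XT.nd (nat_lit 78) (nat_lit 380) (nat_lit 0) (XT.lf (nat_lit 0) (nat_lit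 4470167776) (nat_lit 380) (nat_lit 1953879005) (nat_lit 456) (nat_lit 3253934636) (nat_lit 205) (nat_lit 5) (nat_lit 210) (nat_lit 5) (nat_lit 211) (nat_lit 5) (nat_lit 450) (nat_lit 394) (nat_lit 356)) (XT.lf (nat_lit 0) (nat_lit 84474318) (nat_lit 380) (nat_lit 7926340838) (nat_lit 76) (nat_lit 1811186164) (nat_lit 200) (nat_lit 5) (nat_lit 205) (nat_lit 5) (nat_lit 201) (nat_lit 5) (nat_lit 451) (nat_lit 394) (nat_lit 355))) (XT.nd (nat_lit 78) (nat_lit 304) (nat_lit 0) (XT.lf (nat_lit 0) (nat_lit 3472744253) (nat_lit 380) (nat_lit 786028418) (nat_lit 76) (nat_lit 5710151070) (nat_lit 200) (nat_lit 5) (nat_lit 205) (nat_lit 5) (nat_lit 201) (nat_lit 5) (nat_lit 452) (nat_lit 394) (nat_lit 354)) (XT.lf (nat_lit 0) (nat_lit 6615869544) (nat_lit 304) (nat_lit 354713627) (nat_lit 380) (nat_lit 3149434710) (nat_lit 196) (nat_lit 5) (nat_lit 200) (nat_lit 5) (nat_lit 201) (nat_lit 5) (nat_lit 453) (nat_lit 394) (nat_lit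 353)))) (XT.nd (nat_lit 156) (nat_lit 380) (nat_lit 0) (XT.nd (nat_lit 78) (nat_lit 304) (nat_lit 0) (XT.lf (nat_lit 0) (nat_lit 318209047) (nat_lit 380) (nat_lit 6338215800) (nat_lit 76) (nat_lit 3618346541) (nat_lit 191) (nat_lit 5) (nat_lit 196) (nat_lit 5) (nat_lit 192) (nat_lit 5) (nat_lit 454) (nat_lit 394) (nat_lit 352)) (XT.lf (nat_lit 0) (nat_lit 1143879673) (nat_lit 304) (nat_lit 2678145023) (nat_lit 380) (nat_lit 6611345565) (nat_lit 187) (nat_lit 5) (nat_lit 191) (nat_lit 5) (nat_lit 192) (nat_lit 5) (nat_lit 455) (nat_lit 394) (nat_lit 351))) (XT.nd (nat_lit 78) (nat_lit 380) (nat_lit 0) (XT.lf (nat_lit 0) (nat_lit 7454979655) (nat_lit 380) (nat_lit 1711867453) (nat_lit 76) (nat_lit 1429160734) (nat_lit 187) (nat_lit 5) (nat_lit 192) (nat_lit 5) (nat_lit 188) (nat_lit 5) (nat_lit 456) (nat_lit 394) (nat_lit 350)) (XT.lf (nat_lit 0) (nat_lit 457786124) (nat_lit 380) (nat_lit 4662065559) (nat_lit 76)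 (nat_lit 5642563949) (nat_lit 182) (nat_lit 5) (nat_lit 187) (nat_lit 5) (nat_lit 183) (nat_lit 5) (nat_lit 457) (nat_lit 394) (nat_lit 349))))) (XT.nd (nat_lit 312) (nat_lit 760) (nat_lit 0) (XT.nd (nat_lit 156) (nat_lit 380) (nat_lit 0) (XT.nd (nat_lit 78) (nat_lit 228) (nat_lit 0) (XT.lf (nat_lit 0) (nat_lit 3198901713) (nat_lit 304) (nat_lit 898312577) (nat_lit 380) (nat_lit 6835796318) (nat_lit 178) (nat_lit 5) (nat_lit 182) (nat_lit 5) (nat_lit 183) (nat_lit 5) (nat_lit 458) (nat_lit 394) (nat_lit 348)) (XT.lf (nat_lit 0) (nat_lit 172224972) (nat_lit 228) (nat_lit 7704017610) (nat_lit 304) (nat_lit 3231569653) (nat_lit 175) (nat_lit 5) (nat_lit 178) (nat_lit 5) (nat_lit 179) (nat_lit 5) (nat_lit 459) (nat_lit 394) (nat_lit 347))) (XT.nd (nat_lit 78) (nat_lit 304) (nat_lit 0) (XT.lf (nat_lit 0) (nat_lit 507453694) (nat_lit 304) (nat_lit 2907207318) (nat_lit 76) (nat_lit 7871977945) (nat_lit 174) (nat_lit 5)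 (nat_lit 178) (nat_lit 5) (nat_lit 175) (nat_lit 5) (nat_lit 460) (nat_lit 394) (nat_lit 346)) (XT.lf (nat_lit 0) (nat_lit 4305156924) (nat_lit 380) (nat_lit 6124812148) (nat_lit 76) (nat_lit 1039558929) (nat_lit 170) (nat_lit 5) (nat_lit 175) (nat_lit 5) (nat_lit 171) (nat_lit 5) (nat_lit 461) (nat_lit 394) (nat_lit 345)))) (XT.nd (nat_lit 156) (nat_lit 456) (nat_lit 0) (XT.nd (nat_lit 78) (nat_lit 76) (nat_lit 0) (XT.lf (nat_lit 0) (nat_lit 2175374883) (nat_lit 228) (nat_lit 6076003217) (nat_lit 304) (nat_lit 3405489185) (nat_lit 167) (nat_lit 5) (nat_lit 170) (nat_lit 5) (nat_lit 171) (nat_lit 5) (nat_lit 462) (nat_lit 394) (nat_lit 344)) (XT.lf (nat_lit 0) (nat_lit 469946939) (nat_lit 304) (nat_lit 1082894408) (nat_lit 76) (nat_lit 10296465549) (nat_lit 166) (nat_lit 5) (nat_lit 170) (nat_lit 5) (nat_lit 167) (nat_lit 5) (nat_lit 463) (nat_lit 394) (nat_lit 343))) (XT.nd (nat_lit 78) (nat_lit 228) (nat_lit 0)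 (XT.lf (nat_lit 0) (nat_lit 4448798707) (nat_lit 304) (nat_lit 4471673288) (nat_lit 76) (nat_lit 3124369258) (nat_lit 163) (nat_lit 5) (nat_lit 167) (nat_lit 5) (nat_lit 164) (nat_lit 5) (nat_lit 464) (nat_lit 394) (nat_lit 342)) (XT.lf (nat_lit 0) (nat_lit 4254736292) (nat_lit 228) (nat_lit 4311844731) (nat_lit 304) (nat_lit 3679074710) (nat_lit 160) (nat_lit 5) (nat_lit 163) (nat_lit 5) (nat_lit 164) (nat_lit 5) (nat_lit 465) (nat_lit 394) (nat_lit 341))))))))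
noncomputable def xc81 : XT := (XT.nd (nat_lit 2418) (nat_lit 2812) (nat_lit 0) (XT.nd (nat_lit 1170) (nat_lit 1976) (nat_lit 0) (XT.nd (nat_lit 546) (nat_lit 1140) (nat_lit 0) (XT.nd (nat_lit 234) (nat_lit 684) (nat_lit 0) (XT.nd (nat_lit 78) (nat_lit 228) (nat_lit 0) (XT.lf (nat_lit 0) (nat_lit 358805751) (nat_lit 304) (nat_lit 11639303762) (nat_lit 76) (nat_lit 453973464) (nat_lit 156) (nat_lit 5) (nat_lit 160) (nat_lit 5) (nat_lit 157) (nat_lit 5) (nat_lit 466) (nat_lit 394) (nat_lit 340)) (XT.nd (nat_lit 78) (nat_lit 228) (nat_lit 0) (XT.lf (nat_lit 0) (nat_lit 4520837071) (nat_lit 304) (nat_lit 2776339507) (nat_lit 76) (nat_lit 5364125814) (nat_lit 156) (nat_lit 5) (nat_lit 160) (nat_lit 5) (nat_lit 157) (nat_lit 5) (nat_lit 467) (nat_lit 394) (nat_lit 339)) (XT.lf (nat_lit 0) (nat_lit 6401175963) (nat_lit 228) (nat_lit 2422237927) (nat_lit 304) (nat_lit 4052914889) (nat_lit 153) (nat_lit 5) (nat_lit 156)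 (nat_lit 5) (nat_lit 157) (nat_lit 5) (nat_lit 468) (nat_lit 394) (nat_lit 338)))) (XT.nd (nat_lit 156) (nat_lit 380) (nat_lit 0) (XT.nd (nat_lit 78) (nat_lit 0) (nat_lit 0) (XT.lf (nat_lit 0) (nat_lit 188889265) (nat_lit 304) (nat_lit 10332514517) (nat_lit 76) (nat_lit 2575316819) (nat_lit 149) (nat_lit 5) (nat_lit 153) (nat_lit 5) (nat_lit 150) (nat_lit 5) (nat_lit 469) (nat_lit 394) (nat_lit 337)) (XT.lf (nat_lit 0) (nat_lit 4521127071) (nat_lit 304) (nat_lit 1049760965) (nat_lit 76) (nat_lit 7750293980) (nat_lit 149) (nat_lit 5) (nat_lit 153) (nat_lit 5) (nat_lit 150) (nat_lit 5) (nat_lit 470) (nat_lit 394) (nat_lit 336))) (XT.nd (nat_lit 78) (nat_lit 228) (nat_lit 0) (XT.lf (nat_lit 0) (nat_lit 8604901798) (nat_lit 152) (nat_lit 417090269) (nat_lit 228) (nat_lit 4529226228) (nat_lit 147) (nat_lit 5) (nat_lit 149) (nat_lit 5) (nat_lit 150) (nat_lit 5) (nat_lit 471) (nat_lit 394) (nat_lit 335)) (XT.lf (nat_lit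 0) (nat_lit 4753755439) (nat_lit 228) (nat_lit 8963775083) (nat_lit 304) (nat_lit 68836515) (nat_lit 144) (nat_lit 5) (nat_lit 147) (nat_lit 5) (nat_lit 148) (nat_lit 5) (nat_lit 472) (nat_lit 394) (nat_lit 334))))) (XT.nd (nat_lit 312) (nat_lit 456) (nat_lit 0) (XT.nd (nat_lit 156) (nat_lit 456) (nat_lit 0) (XT.nd (nat_lit 78) (nat_lit 0) (nat_lit 0) (XT.lf (nat_lit 0) (nat_lit 709975660) (nat_lit 152) (nat_lit 3744842327) (nat_lit 228) (nat_lit 9571915212) (nat_lit 141) (nat_lit 5) (nat_lit 143) (nat_lit 5) (nat_lit 144) (nat_lit 5) (nat_lit 473) (nat_lit 394) (nat_lit 333)) (XT.lf (nat_lit 0) (nat_lit 9177209663) (nat_lit 228) (nat_lit 3433999348) (nat_lit 76) (nat_lit 1661149287) (nat_lit 141) (nat_lit 5) (nat_lit 144) (nat_lit 5) (nat_lit 142) (nat_lit 5) (nat_lit 474) (nat_lit 394) (nat_lit 332))) (XT.nd (nat_lit 78) (nat_lit 228) (nat_lit 0) (XT.lf (nat_lit 0) (nat_lit 6767240430) (nat_lit 228) (nat_lit 7334046060)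 (nat_lit 304) (nat_lit 422265967) (nat_lit 138) (nat_lit 5) (nat_lit 141) (nat_lit 5) (nat_lit 142) (nat_lit 5) (nat_lit 475) (nat_lit 394) (nat_lit 331)) (XT.lf (nat_lit 0) (nat_lit 2496741120) (nat_lit 152) (nat_lit 1825406413) (nat_lit 228) (nat_lit 10458358623) (nat_lit 135) (nat_lit 5) (nat_lit 137) (nat_lit 5) (nat_lit 138) (nat_lit 5) (nat_lit 476) (nat_lit 394) (nat_lit 330)))) (XT.nd (nat_lit 156) (nat_lit 228) (nat_lit 0) (XT.nd (nat_lit 78) (nat_lit 228) (nat_lit 0) (XT.lf (nat_lit 0) (nat_lit 9274734185) (nat_lit 228) (nat_lit 1941715141) (nat_lit 76) (nat_lit 3826364527) (nat_lit 135) (nat_lit 5) (nat_lit 138) (nat_lit 5) (nat_lit 136) (nat_lit 5) (nat_lit 477) (nat_lit 394) (nat_lit 329)) (XT.lf (nat_lit 0) (nat_lit 8792911435) (nat_lit 228) (nat_lit 5645034423) (nat_lit 304) (nat_lit 873184133) (nat_lit 132) (nat_lit 5) (nat_lit 135) (nat_lit 5) (nat_lit 136) (nat_lit 5) (nat_lit 478) (nat_lit 394)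 (nat_lit 328))) (XT.nd (nat_lit 78) (nat_lit 0) (nat_lit 0) (XT.lf (nat_lit 0) (nat_lit 4109263186) (nat_lit 228) (nat_lit 11312967944) (nat_lit 76) (nat_lit 163401501) (nat_lit 129) (nat_lit 5) (nat_lit 132) (nat_lit 5) (nat_lit 130) (nat_lit 5) (nat_lit 479) (nat_lit 394) (nat_lit 327)) (XT.lf (nat_lit 0) (nat_lit 9305760257) (nat_lit 228) (nat_lit 482198216) (nat_lit 76) (nat_lit 6077689297) (nat_lit 129) (nat_lit 5) (nat_lit 132) (nat_lit 5) (nat_lit 130) (nat_lit 5) (nat_lit 480) (nat_lit 394) (nat_lit 326)))))) (XT.nd (nat_lit 624) (nat_lit 836) (nat_lit 0) (XT.nd (nat_lit 312) (nat_lit 608) (nat_lit 0) (XT.nd (nat_lit 156) (nat_lit 152) (nat_lit 0) (XT.nd (nat_lit 78) (nat_lit 228) (nat_lit 0) (XT.lf (nat_lit 0) (nat_lit 10815113598) (nat_lit 152) (nat_lit 3907934225) (nat_lit 228) (nat_lit 1429069233) (nat_lit 127) (nat_lit 5) (nat_lit 129) (nat_lit 5) (nat_lit 130) (nat_lit 5) (nat_lit 481) (nat_lit 394)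 (nat_lit 325)) (XT.lf (nat_lit 0) (nat_lit 3825646892) (nat_lit 228) (nat_lit 10441563720) (nat_lit 76) (nat_lit 2177502104) (nat_lit 124) (nat_lit 5) (nat_lit 127) (nat_lit 5) (nat_lit 125) (nat_lit 5) (nat_lit 482) (nat_lit 394) (nat_lit 324))) (XT.nd (nat_lit 78) (nat_lit 0) (nat_lit 0) (XT.lf (nat_lit 0) (nat_lit 943780645) (nat_lit 152) (nat_lit 8328902759) (nat_lit 228) (nat_lit 7471076824) (nat_lit 122) (nat_lit 5) (nat_lit 124) (nat_lit 5) (nat_lit 125) (nat_lit 5) (nat_lit 483) (nat_lit 394) (nat_lit 323)) (XT.lf (nat_lit 0) (nat_lit 12815709886) (nat_lit 152) (nat_lit 2134537105) (nat_lit 228) (nat_lit 2099519194) (nat_lit 122) (nat_lit 5) (nat_lit 124) (nat_lit 5) (nat_lit 125) (nat_lit 5) (nat_lit 484) (nat_lit 394) (nat_lit 322)))) (XT.nd (nat_lit 156) (nat_lit 228) (nat_lit 0) (XT.nd (nat_lit 78) (nat_lit 152) (nat_lit 0) (XT.lf (nat_lit 0) (nat_lit 3444494461) (nat_lit 228) (nat_lit 9675539046) (nat_lit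 76) (nat_lit 4241580134) (nat_lit 119) (nat_lit 5) (nat_lit 122) (nat_lit 5) (nat_lit 120) (nat_lit 5) (nat_lit 485) (nat_lit 394) (nat_lit 321)) (XT.lf (nat_lit 0) (nat_lit 2303762286) (nat_lit 152) (nat_lit 6857911676) (nat_lit 228) (nat_lit 8519048084) (nat_lit 117) (nat_lit 5) (nat_lit 119) (nat_lit 5) (nat_lit 120) (nat_lit 5) (nat_lit 486) (nat_lit 394) (nat_lit 320))) (XT.nd (nat_lit 78) (nat_lit 228) (nat_lit 0) (XT.lf (nat_lit 0) (nat_lit 14773530267) (nat_lit 152) (nat_lit 337571331) (nat_lit 228) (nat_lit 2896480563) (nat_lit 117) (nat_lit 5) (nat_lit 119) (nat_lit 5) (nat_lit 120) (nat_lit 5) (nat_lit 487) (nat_lit 394) (nat_lit 319)) (XT.lf (nat_lit 0) (nat_lit 2954212970) (nat_lit 228) (nat_lit 9042006184) (nat_lit 76) (nat_lit 6343716469) (nat_lit 114) (nat_lit 5) (nat_lit 117) (nat_lit 5) (nat_lit 115) (nat_lit 5) (nat_lit 488) (nat_lit 394) (nat_lit 318))))) (XT.nd (nat_lit 312) (nat_lit 304) (nat_lit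 0) (XT.nd (nat_lit 156) (nat_lit 380) (nat_lit 0) (XT.nd (nat_lit 78) (nat_lit 0) (nat_lit 0) (XT.lf (nat_lit 0) (nat_lit 3561888331) (nat_lit 152) (nat_lit 5394778130) (nat_lit 228) (nat_lit 9723699625) (nat_lit 112) (nat_lit 5) (nat_lit 114) (nat_lit 5) (nat_lit 115) (nat_lit 5) (nat_lit 489) (nat_lit 394) (nat_lit 317)) (XT.lf (nat_lit 0) (nat_lit 15208935526) (nat_lit 228) (nat_lit 2379719298) (nat_lit 76) (nat_lit 1440262774) (nat_lit 112) (nat_lit 5) (nat_lit 115) (nat_lit 5) (nat_lit 113) (nat_lit 4) (nat_lit 490) (nat_lit 394) (nat_lit 316))) (XT.nd (nat_lit 78) (nat_lit 152) (nat_lit 0) (XT.lf (nat_lit 0) (nat_lit 2340584730) (nat_lit 228) (nat_lit 8572341615) (nat_lit 76) (nat_lit 8470632051) (nat_lit 109) (nat_lit 5) (nat_lit 112) (nat_lit 5) (nat_lit 110) (nat_lit 5) (nat_lit 491) (nat_lit 394) (nat_lit 315)) (XT.lf (nat_lit 0) (nat_lit 4687530100) (nat_lit 152) (nat_lit 3956127065) (nat_lit 228) (nat_lit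 11103012971) (nat_lit 107) (nat_lit 5) (nat_lit 109) (nat_lit 5) (nat_lit 110) (nat_lit 5) (nat_lit 492) (nat_lit 394) (nat_lit 314)))) (XT.nd (nat_lit 156) (nat_lit 152) (nat_lit 0) (XT.nd (nat_lit 78) (nat_lit 152) (nat_lit 0) (XT.lf (nat_lit 0) (nat_lit 15219351982) (nat_lit 228) (nat_lit 1693410122) (nat_lit 76) (nat_lit 3205407567) (nat_lit 107) (nat_lit 5) (nat_lit 110) (nat_lit 5) (nat_lit 108) (nat_lit 4) (nat_lit 493) (nat_lit 394) (nat_lit 313)) (XT.lf (nat_lit 0) (nat_lit 1586421899) (nat_lit 152) (nat_lit 8302972733) (nat_lit 76) (nat_lit 10607269080) (nat_lit 105) (nat_lit 5) (nat_lit 107) (nat_lit 5) (nat_lit 106) (nat_lit 5) (nat_lit 494) (nat_lit 394) (nat_lit 312))) (XT.nd (nat_lit 78) (nat_lit 0) (nat_lit 0) (XT.lf (nat_lit 0) (nat_lit 5644875254) (nat_lit 152) (nat_lit 2560739616) (nat_lit 228) (nat_lit 12678307202) (nat_lit 103) (nat_lit 5) (nat_lit 105) (nat_lit 5) (nat_lit 106) (nat_lit 5)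 (nat_lit 495) (nat_lit 394) (nat_lit 311)) (XT.lf (nat_lit 0) (nat_lit 15122435967) (nat_lit 228) (nat_lit 1210527068) (nat_lit 76) (nat_lit 4946863889) (nat_lit 103) (nat_lit 5) (nat_lit 106) (nat_lit 5) (nat_lit 104) (nat_lit 4) (nat_lit 496) (nat_lit 394) (nat_lit 310))))))) (XT.nd (nat_lit 1248) (nat_lit 1216) (nat_lit 0) (XT.nd (nat_lit 624) (nat_lit 684) (nat_lit 0) (XT.nd (nat_lit 312) (nat_lit 532) (nat_lit 0) (XT.nd (nat_lit 156) (nat_lit 76) (nat_lit 0) (XT.nd (nat_lit 78) (nat_lit 152) (nat_lit 0) (XT.lf (nat_lit 0) (nat_lit 671156923) (nat_lit 152) (nat_lit 8276283030) (nat_lit 76) (nat_lit 12736320555) (nat_lit 101) (nat_lit 5) (nat_lit 103) (nat_lit 5) (nat_lit 102) (nat_lit 5) (nat_lit 497) (nat_lit 394) (nat_lit 309)) (XT.lf (nat_lit 0) (nat_lit 6391986934) (nat_lit 152) (nat_lit 1230065385) (nat_lit 228) (nat_lit 14474693681) (nat_lit 99) (nat_lit 5) (nat_lit 101) (nat_lit 5) (nat_lit 102) (nat_lit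 5) (nat_lit 498) (nat_lit 394) (nat_lit 308))) (XT.nd (nat_lit 78) (nat_lit 76) (nat_lit 0) (XT.lf (nat_lit 0) (nat_lit 14898016508) (nat_lit 228) (nat_lit 976211103) (nat_lit 76) (nat_lit 6644397464) (nat_lit 99) (nat_lit 5) (nat_lit 102) (nat_lit 5) (nat_lit 100) (nat_lit 4) (nat_lit 499) (nat_lit 394) (nat_lit 307)) (XT.lf (nat_lit 0) (nat_lit 14403718808) (nat_lit 76) (nat_lit 8107676768) (nat_lit 152) (nat_lit 438191134) (nat_lit 98) (nat_lit 5) (nat_lit 99) (nat_lit 5) (nat_lit 100) (nat_lit 4) (nat_lit 500) (nat_lit 394) (nat_lit 306)))) (XT.nd (nat_lit 156) (nat_lit 304) (nat_lit 0) (XT.nd (nat_lit 78) (nat_lit 0) (nat_lit 0) (XT.lf (nat_lit 0) (nat_lit 6868628653) (nat_lit 228) (nat_lit 16510521365) (nat_lit 76) (nat_lit 10978244) (nat_lit 95) (nat_lit 5) (nat_lit 98) (nat_lit 5) (nat_lit 96) (nat_lit 4) (nat_lit 501) (nat_lit 394) (nat_lit 305)) (XT.lf (nat_lit 0) (nat_lit 14521898576) (nat_lit 228) (nat_lit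 1043229161) (nat_lit 76) (nat_lit 8274546830) (nat_lit 95) (nat_lit 5) (nat_lit 98) (nat_lit 5) (nat_lit 96) (nat_lit 4) (nat_lit 502) (nat_lit 394) (nat_lit 304))) (XT.nd (nat_lit 78) (nat_lit 228) (nat_lit 0) (XT.lf (nat_lit 0) (nat_lit 15125474215) (nat_lit 76) (nat_lit 7394229238) (nat_lit 152) (nat_lit 1779555940) (nat_lit 94) (nat_lit 5) (nat_lit 95) (nat_lit 5) (nat_lit 96) (nat_lit 4) (nat_lit 503) (nat_lit 394) (nat_lit 303)) (XT.lf (nat_lit 0) (nat_lit 5926922996) (nat_lit 228) (nat_lit 17729916713) (nat_lit 76) (nat_lit 1112299465) (nat_lit 91) (nat_lit 5) (nat_lit 94) (nat_lit 5) (nat_lit 92) (nat_lit 4) (nat_lit 504) (nat_lit 394) (nat_lit 302))))) (XT.nd (nat_lit 312) (nat_lit 380) (nat_lit 0) (XT.nd (nat_lit 156) (nat_lit 228) (nat_lit 0) (XT.nd (nat_lit 78) (nat_lit 76) (nat_lit 0) (XT.lf (nat_lit 0) (nat_lit 13965248948) (nat_lit 228) (nat_lit 1473283580) (nat_lit 76) (nat_lit 9809961858) (nat_lit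 91) (nat_lit 5) (nat_lit 94) (nat_lit 5) (nat_lit 92) (nat_lit 4) (nat_lit 505) (nat_lit 394) (nat_lit 301)) (XT.lf (nat_lit 0) (nat_lit 15517665226) (nat_lit 76) (nat_lit 6846763892) (nat_lit 152) (nat_lit 3374210215) (nat_lit 90) (nat_lit 5) (nat_lit 91) (nat_lit 5) (nat_lit 92) (nat_lit 4) (nat_lit 506) (nat_lit 394) (nat_lit 300))) (XT.nd (nat_lit 78) (nat_lit 0) (nat_lit 0) (XT.lf (nat_lit 0) (nat_lit 4750539538) (nat_lit 228) (nat_lit 19424155327) (nat_lit 76) (nat_lit 2065270865) (nat_lit 87) (nat_lit 5) (nat_lit 90) (nat_lit 5) (nat_lit 88) (nat_lit 4) (nat_lit 507) (nat_lit 394) (nat_lit 299)) (XT.lf (nat_lit 0) (nat_lit 13193877179) (nat_lit 228) (nat_lit 2338527378) (nat_lit 76) (nat_lit 11218645404) (nat_lit 87) (nat_lit 5) (nat_lit 90) (nat_lit 5) (nat_lit 88) (nat_lit 4) (nat_lit 508) (nat_lit 394) (nat_lit 298)))) (XT.nd (nat_lit 156) (nat_lit 76) (nat_lit 0) (XT.nd (nat_lit 78) (nat_lit 228) (nat_lit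 0) (XT.lf (nat_lit 0) (nat_lit 15507628069) (nat_lit 76) (nat_lit 6503451068) (nat_lit 152) (nat_lit 5262770845) (nat_lit 86) (nat_lit 5) (nat_lit 87) (nat_lit 5) (nat_lit 88) (nat_lit 4) (nat_lit 509) (nat_lit 394) (nat_lit 297)) (XT.lf (nat_lit 0) (nat_lit 3298793155) (nat_lit 228) (nat_lit 21678294823) (nat_lit 76) (nat_lit 2831829878) (nat_lit 83) (nat_lit 5) (nat_lit 86) (nat_lit 5) (nat_lit 84) (nat_lit 4) (nat_lit 510) (nat_lit 394) (nat_lit 296))) (XT.nd (nat_lit 78) (nat_lit 76) (nat_lit 0) (XT.lf (nat_lit 0) (nat_lit 12167395560) (nat_lit 228) (nat_lit 3723318958) (nat_lit 76) (nat_lit 12463081182) (nat_lit 83) (nat_lit 5) (nat_lit 86) (nat_lit 5) (nat_lit 84) (nat_lit 4) (nat_lit 511) (nat_lit 394) (nat_lit 295)) (XT.lf (nat_lit 0) (nat_lit 15010059548) (nat_lit 76) (nat_lit 6408695177) (nat_lit 152) (nat_lit 7492764360) (nat_lit 82) (nat_lit 5) (nat_lit 83) (nat_lit 5) (nat_lit 84) (nat_lit 4) (nat_lit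 512) (nat_lit 394) (nat_lit 294)))))) (XT.nd (nat_lit 624) (nat_lit 532) (nat_lit 0) (XT.nd (nat_lit 312) (nat_lit 304) (nat_lit 0) (XT.nd (nat_lit 156) (nat_lit 152) (nat_lit 0) (XT.nd (nat_lit 78) (nat_lit 0) (nat_lit 0) (XT.lf (nat_lit 0) (nat_lit 1523929390) (nat_lit 228) (nat_lit 24591401676) (nat_lit 76) (nat_lit 3367498599) (nat_lit 79) (nat_lit 5) (nat_lit 82) (nat_lit 5) (nat_lit 80) (nat_lit 4) (nat_lit 513) (nat_lit 394) (nat_lit 293)) (XT.lf (nat_lit 0) (nat_lit 10838239211) (nat_lit 228) (nat_lit 5726255127) (nat_lit 76) (nat_lit 13499228431) (nat_lit 79) (nat_lit 5) (nat_lit 82) (nat_lit 5) (nat_lit 80) (nat_lit 4) (nat_lit 514) (nat_lit 394) (nat_lit 292))) (XT.nd (nat_lit 78) (nat_lit 76) (nat_lit 0) (XT.lf (nat_lit 0) (nat_lit 13924893723) (nat_lit 76) (nat_lit 6614233003) (nat_lit 152) (nat_lit 10119701638) (nat_lit 78) (nat_lit 5) (nat_lit 79) (nat_lit 5) (nat_lit 80) (nat_lit 4) (nat_lit 515)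 (nat_lit 394) (nat_lit 291)) (XT.lf (nat_lit 0) (nat_lit 2983898834) (nat_lit 76) (nat_lit 27642500802) (nat_lit 76) (nat_lit 642526871) (nat_lit 77) (nat_lit 4) (nat_lit 78) (nat_lit 5) (nat_lit 78) (nat_lit 4) (nat_lit 516) (nat_lit 394) (nat_lit 290)))) (XT.nd (nat_lit 156) (nat_lit 152) (nat_lit 0) (XT.nd (nat_lit 78) (nat_lit 76) (nat_lit 0) (XT.lf (nat_lit 0) (nat_lit 9150524480) (nat_lit 152) (nat_lit 8462527453) (nat_lit 76) (nat_lit 14275360931) (nat_lit 76) (nat_lit 5) (nat_lit 78) (nat_lit 5) (nat_lit 77) (nat_lit 4) (nat_lit 517) (nat_lit 394) (nat_lit 289)) (XT.lf (nat_lit 0) (nat_lit 12134839530) (nat_lit 76) (nat_lit 7180401679) (nat_lit 152) (nat_lit 13208328243) (nat_lit 75) (nat_lit 5) (nat_lit 76) (nat_lit 5) (nat_lit 77) (nat_lit 4) (nat_lit 518) (nat_lit 394) (nat_lit 288))) (XT.nd (nat_lit 78) (nat_lit 76) (nat_lit 0) (XT.lf (nat_lit 0) (nat_lit 268216736) (nat_lit 76) (nat_lit 29614016334)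 (nat_lit 76) (nat_lit 3292627789) (nat_lit 74) (nat_lit 4) (nat_lit 75) (nat_lit 5) (nat_lit 75) (nat_lit 4) (nat_lit 519) (nat_lit 394) (nat_lit 287)) (XT.lf (nat_lit 0) (nat_lit 7038720188) (nat_lit 152) (nat_lit 12066654102) (nat_lit 76) (nat_lit 14730724464) (nat_lit 73) (nat_lit 5) (nat_lit 75) (nat_lit 5) (nat_lit 74) (nat_lit 4) (nat_lit 520) (nat_lit 394) (nat_lit 286))))) (XT.nd (nat_lit 312) (nat_lit 228) (nat_lit 0) (XT.nd (nat_lit 156) (nat_lit 228) (nat_lit 0) (XT.nd (nat_lit 78) (nat_lit 0) (nat_lit 0) (XT.lf (nat_lit 0) (nat_lit 9502524614) (nat_lit 76) (nat_lit 8177604355) (nat_lit 152) (nat_lit 16834077960) (nat_lit 72) (nat_lit 5) (nat_lit 73) (nat_lit 5) (nat_lit 74) (nat_lit 4) (nat_lit 521) (nat_lit 394) (nat_lit 285)) (XT.lf (nat_lit 0) (nat_lit 28768416378) (nat_lit 152) (nat_lit 3322540890) (nat_lit 0) (nat_lit 3117872104) (nat_lit 72) (nat_lit 5) (nat_lit 74) (nat_lit 4) (nat_lit 72) (nat_lit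 4) (nat_lit 522) (nat_lit 394) (nat_lit 284))) (XT.nd (nat_lit 78) (nat_lit 76) (nat_lit 0) (XT.lf (nat_lit 0) (nat_lit 4426102241) (nat_lit 152) (nat_lit 16695647594) (nat_lit 76) (nat_lit 14793982796) (nat_lit 70) (nat_lit 5) (nat_lit 72) (nat_lit 5) (nat_lit 71) (nat_lit 4) (nat_lit 523) (nat_lit 394) (nat_lit 283)) (XT.lf (nat_lit 0) (nat_lit 5867181945) (nat_lit 76) (nat_lit 9688006000) (nat_lit 152) (nat_lit 21084761527) (nat_lit 69) (nat_lit 5) (nat_lit 70) (nat_lit 5) (nat_lit 71) (nat_lit 4) (nat_lit 524) (nat_lit 394) (nat_lit 282)))) (XT.nd (nat_lit 156) (nat_lit 76) (nat_lit 0) (XT.nd (nat_lit 78) (nat_lit 152) (nat_lit 0) (XT.lf (nat_lit 0) (nat_lit 27184259470) (nat_lit 152) (nat_lit 8000947005) (nat_lit 0) (nat_lit 2195703045) (nat_lit 69) (nat_lit 5) (nat_lit 71) (nat_lit 4) (nat_lit 69) (nat_lit 4) (nat_lit 525) (nat_lit 394) (nat_lit 281)) (XT.lf (nat_lit 0) (nat_lit 1222957294) (nat_lit 152) (nat_lit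 22532688467) (nat_lit 76) (nat_lit 14381417522) (nat_lit 67) (nat_lit 5) (nat_lit 69) (nat_lit 5) (nat_lit 68) (nat_lit 4) (nat_lit 526) (nat_lit 394) (nat_lit 280))) (XT.nd (nat_lit 78) (nat_lit 0) (nat_lit 0) (XT.lf (nat_lit 0) (nat_lit 1040805738) (nat_lit 76) (nat_lit 11807496805) (nat_lit 152) (nat_lit 26062527732) (nat_lit 66) (nat_lit 5) (nat_lit 67) (nat_lit 5) (nat_lit 68) (nat_lit 4) (nat_lit 527) (nat_lit 394) (nat_lit 279)) (XT.lf (nat_lit 0) (nat_lit 25033518102) (nat_lit 152) (nat_lit 13970799175) (nat_lit 0) (nat_lit 697159793) (nat_lit 66) (nat_lit 5) (nat_lit 68) (nat_lit 4) (nat_lit 66) (nat_lit 4) (nat_lit 528) (nat_lit 394) (nat_lit 278))))))))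
noncomputable def xc82 : XT := (XT.nd (nat_lit 53664) (nat_lit 0) (nat_lit 13452) (XT.nd (nat_lit 1170) (nat_lit 608) (nat_lit 0) (XT.nd (nat_lit 546) (nat_lit 608) (nat_lit 0) (XT.nd (nat_lit 234) (nat_lit 228) (nat_lit 0) (XT.nd (nat_lit 78) (nat_lit 152) (nat_lit 0) (XT.lf (nat_lit 0) (nat_lit 10692320079) (nat_lit 76) (nat_lit 27088864384) (nat_lit 76) (nat_lit 2728752062) (nat_lit 65) (nat_lit 4) (nat_lit 66) (nat_lit 5) (nat_lit 66) (nat_lit 4) (nat_lit 529) (nat_lit 394) (nat_lit 277)) (XT.nd (nat_lit 78) (nat_lit 76) (nat_lit 0) (XT.lf (nat_lit 0) (nat_lit 9501608209) (nat_lit 152) (nat_lit 5094909804) (nat_lit 76) (nat_lit 26739781577) (nat_lit 64) (nat_lit 5) (nat_lit 66) (nat_lit 5) (nat_lit 65) (nat_lit 4) (nat_lit 530) (nat_lit 394) (nat_lit 276)) (XT.lf (nat_lit 0) (nat_lit 20702918493) (nat_lit 76) (nat_lit 1518009289) (nat_lit 152) (nat_lit 19960408514) (nat_lit 63) (nat_lit 5) (nat_lit 64) (nat_lit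 5) (nat_lit 65) (nat_lit 4) (nat_lit 531) (nat_lit 394) (nat_lit 275)))) (XT.nd (nat_lit 156) (nat_lit 76) (nat_lit 0) (XT.nd (nat_lit 78) (nat_lit 76) (nat_lit 0) (XT.lf (nat_lit 0) (nat_lit 4252968220) (nat_lit 76) (nat_lit 31254507420) (nat_lit 76) (nat_lit 7538679079) (nat_lit 62) (nat_lit 4) (nat_lit 63) (nat_lit 5) (nat_lit 63) (nat_lit 4) (nat_lit 532) (nat_lit 394) (nat_lit 274)) (XT.lf (nat_lit 0) (nat_lit 5365134387) (nat_lit 152) (nat_lit 12845095954) (nat_lit 76) (nat_lit 25718812101) (nat_lit 61) (nat_lit 5) (nat_lit 63) (nat_lit 5) (nat_lit 62) (nat_lit 4) (nat_lit 533) (nat_lit 394) (nat_lit 273))) (XT.nd (nat_lit 78) (nat_lit 0) (nat_lit 0) (XT.lf (nat_lit 0) (nat_lit 14038437354) (nat_lit 76) (nat_lit 4579616698) (nat_lit 152) (nat_lit 26214718251) (nat_lit 60) (nat_lit 5) (nat_lit 61) (nat_lit 5) (nat_lit 62) (nat_lit 4) (nat_lit 534) (nat_lit 394) (nat_lit 272)) (XT.lf (nat_lit 0) (nat_lit 32469079029)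 (nat_lit 152) (nat_lit 3902476032) (nat_lit 0) (nat_lit 9386043535) (nat_lit 60) (nat_lit 5) (nat_lit 62) (nat_lit 4) (nat_lit 60) (nat_lit 4) (nat_lit 535) (nat_lit 394) (nat_lit 271))))) (XT.nd (nat_lit 312) (nat_lit 304) (nat_lit 0) (XT.nd (nat_lit 156) (nat_lit 76) (nat_lit 0) (XT.nd (nat_lit 78) (nat_lit 76) (nat_lit 0) (XT.lf (nat_lit 0) (nat_lit 284515828) (nat_lit 152) (nat_lit 22523673834) (nat_lit 76) (nat_lit 23894186308) (nat_lit 58) (nat_lit 5) (nat_lit 60) (nat_lit 5) (nat_lit 59) (nat_lit 4) (nat_lit 536) (nat_lit 394) (nat_lit 270)) (XT.lf (nat_lit 0) (nat_lit 5441113107) (nat_lit 76) (nat_lit 8627866838) (nat_lit 152) (nat_lit 33600429985) (nat_lit 57) (nat_lit 5) (nat_lit 58) (nat_lit 5) (nat_lit 59) (nat_lit 4) (nat_lit 537) (nat_lit 394) (nat_lit 269))) (XT.nd (nat_lit 78) (nat_lit 76) (nat_lit 0) (XT.lf (nat_lit 0) (nat_lit 28533381062) (nat_lit 152) (nat_lit 14052911033) (nat_lit 0) (nat_lit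 6071170783) (nat_lit 57) (nat_lit 5) (nat_lit 59) (nat_lit 4) (nat_lit 57) (nat_lit 4) (nat_lit 538) (nat_lit 394) (nat_lit 268)) (XT.lf (nat_lit 0) (nat_lit 15137780718) (nat_lit 76) (nat_lit 28504719392) (nat_lit 76) (nat_lit 6026333787) (nat_lit 56) (nat_lit 4) (nat_lit 57) (nat_lit 5) (nat_lit 57) (nat_lit 4) (nat_lit 539) (nat_lit 394) (nat_lit 267)))) (XT.nd (nat_lit 156) (nat_lit 152) (nat_lit 0) (XT.nd (nat_lit 78) (nat_lit 76) (nat_lit 0) (XT.lf (nat_lit 0) (nat_lit 8451760527) (nat_lit 152) (nat_lit 5337015935) (nat_lit 76) (nat_lit 36915624981) (nat_lit 55) (nat_lit 5) (nat_lit 57) (nat_lit 5) (nat_lit 56) (nat_lit 4) (nat_lit 540) (nat_lit 394) (nat_lit 266)) (XT.lf (nat_lit 0) (nat_lit 23480985605) (nat_lit 152) (nat_lit 26653862377) (nat_lit 0) (nat_lit 1627260748) (nat_lit 54) (nat_lit 5) (nat_lit 56) (nat_lit 4) (nat_lit 54) (nat_lit 4) (nat_lit 541) (nat_lit 394) (nat_lit 265))) (XT.nd (nat_lit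 78) (nat_lit 76) (nat_lit 0) (XT.lf (nat_lit 0) (nat_lit 3621157481) (nat_lit 76) (nat_lit 35546149818) (nat_lit 76) (nat_lit 13678053393) (nat_lit 53) (nat_lit 4) (nat_lit 54) (nat_lit 5) (nat_lit 54) (nat_lit 4) (nat_lit 542) (nat_lit 394) (nat_lit 264)) (XT.lf (nat_lit 0) (nat_lit 1588795805) (nat_lit 152) (nat_lit 18656793919) (nat_lit 76) (nat_lit 33707558853) (nat_lit 52) (nat_lit 5) (nat_lit 54) (nat_lit 5) (nat_lit 53) (nat_lit 4) (nat_lit 543) (nat_lit 394) (nat_lit 263)))))) (XT.nd (nat_lit 624) (nat_lit 76) (nat_lit 0) (XT.nd (nat_lit 312) (nat_lit 304) (nat_lit 0) (XT.nd (nat_lit 156) (nat_lit 152) (nat_lit 0) (XT.nd (nat_lit 78) (nat_lit 0) (nat_lit 0) (XT.lf (nat_lit 0) (nat_lit 12906395290) (nat_lit 76) (nat_lit 4237442776) (nat_lit 152) (nat_lit 37943116204) (nat_lit 51) (nat_lit 5) (nat_lit 52) (nat_lit 5) (nat_lit 53) (nat_lit 4) (nat_lit 544) (nat_lit 394) (nat_lit 262)) (XT.lf (nat_lit 0) (nat_lit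 33454611942) (nat_lit 152) (nat_lit 10607507019) (nat_lit 0) (nat_lit 12183982810) (nat_lit 51) (nat_lit 5) (nat_lit 53) (nat_lit 4) (nat_lit 51) (nat_lit 4) (nat_lit 545) (nat_lit 394) (nat_lit 261))) (XT.nd (nat_lit 78) (nat_lit 76) (nat_lit 0) (XT.lf (nat_lit 0) (nat_lit 22268740467) (nat_lit 76) (nat_lit 28223590397) (nat_lit 76) (nat_lit 6940564223) (nat_lit 50) (nat_lit 4) (nat_lit 51) (nat_lit 5) (nat_lit 51) (nat_lit 4) (nat_lit 546) (nat_lit 394) (nat_lit 260)) (XT.lf (nat_lit 0) (nat_lit 9292525620) (nat_lit 152) (nat_lit 2431235125) (nat_lit 76) (nat_lit 46926131143) (nat_lit 49) (nat_lit 5) (nat_lit 51) (nat_lit 5) (nat_lit 50) (nat_lit 4) (nat_lit 547) (nat_lit 394) (nat_lit 259)))) (XT.nd (nat_lit 156) (nat_lit 152) (nat_lit 0) (XT.nd (nat_lit 78) (nat_lit 76) (nat_lit 0) (XT.lf (nat_lit 0) (nat_lit 26215145002) (nat_lit 152) (nat_lit 28146948676) (nat_lit 0) (nat_lit 5528982346) (nat_lit 48) (nat_lit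 5) (nat_lit 50) (nat_lit 4) (nat_lit 48) (nat_lit 4) (nat_lit 548) (nat_lit 394) (nat_lit 258)) (XT.lf (nat_lit 0) (nat_lit 5786893150) (nat_lit 76) (nat_lit 38037210017) (nat_lit 76) (nat_lit 17340032750) (nat_lit 47) (nat_lit 4) (nat_lit 48) (nat_lit 5) (nat_lit 48) (nat_lit 4) (nat_lit 549) (nat_lit 394) (nat_lit 257))) (XT.nd (nat_lit 78) (nat_lit 152) (nat_lit 0) (XT.lf (nat_lit 0) (nat_lit 41280543977) (nat_lit 76) (nat_lit 20947358775) (nat_lit 76) (nat_lit 239487712) (nat_lit 47) (nat_lit 4) (nat_lit 48) (nat_lit 5) (nat_lit 48) (nat_lit 4) (nat_lit 550) (nat_lit 394) (nat_lit 256)) (XT.lf (nat_lit 0) (nat_lit 14102939909) (nat_lit 76) (nat_lit 3050357282) (nat_lit 152) (nat_lit 46647887562) (nat_lit 45) (nat_lit 5) (nat_lit 46) (nat_lit 5) (nat_lit 47) (nat_lit 4) (nat_lit 551) (nat_lit 394) (nat_lit 255))))) (XT.nd (nat_lit 51558) (nat_lit 0) (nat_lit 29260) (XT.nd (nat_lit 51402) (nat_lit 0) (nat_lit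 30552) (XT.nd (nat_lit 78) (nat_lit 76) (nat_lit 0) (XT.lf (nat_lit 0) (nat_lit 35409692355) (nat_lit 152) (nat_lit 14469733308) (nat_lit 0) (nat_lit 15285096900) (nat_lit 45) (nat_lit 5) (nat_lit 47) (nat_lit 4) (nat_lit 45) (nat_lit 4) (nat_lit 552) (nat_lit 394) (nat_lit 254)) (XT.lf (nat_lit 0) (nat_lit 22184820574) (nat_lit 76) (nat_lit 32255618467) (nat_lit 76) (nat_lit 12121521712) (nat_lit 44) (nat_lit 4) (nat_lit 45) (nat_lit 5) (nat_lit 45) (nat_lit 4) (nat_lit 553) (nat_lit 394) (nat_lit 253))) (XT.nd (nat_lit 78) (nat_lit 532) (nat_lit 0) (XT.lf (nat_lit 0) (nat_lit 1744777742) (nat_lit 380) (nat_lit 764531918) (nat_lit 380) (nat_lit 764531918) (nat_lit 453) (nat_lit 4) (nat_lit 458) (nat_lit 5) (nat_lit 458) (nat_lit 4) (nat_lit 410) (nat_lit 395) (nat_lit 395)) (XT.lf (nat_lit 0) (nat_lit 935388752) (nat_lit 456) (nat_lit 774278878) (nat_lit 532) (nat_lit 4860773712) (nat_lit 446) (nat_lit 5) (nat_lit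 452) (nat_lit 5) (nat_lit 453) (nat_lit 4) (nat_lit 411) (nat_lit 395) (nat_lit 394)))) (XT.nd (nat_lit 156) (nat_lit 684) (nat_lit 0) (XT.nd (nat_lit 78) (nat_lit 608) (nat_lit 0) (XT.lf (nat_lit 0) (nat_lit 4933435362) (nat_lit 532) (nat_lit 1580106204) (nat_lit 0) (nat_lit 82337075) (nat_lit 446) (nat_lit 5) (nat_lit 453) (nat_lit 4) (nat_lit 446) (nat_lit 4) (nat_lit 412) (nat_lit 395) (nat_lit 393)) (XT.lf (nat_lit 0) (nat_lit 1522148377) (nat_lit 608) (nat_lit 4081237652) (nat_lit 76) (nat_lit 1020566069) (nat_lit 438) (nat_lit 5) (nat_lit 446) (nat_lit 5) (nat_lit 439) (nat_lit 4) (nat_lit 413) (nat_lit 395) (nat_lit 392))) (XT.nd (nat_lit 78) (nat_lit 76) (nat_lit 0) (XT.lf (nat_lit 0) (nat_lit 71987137) (nat_lit 608) (nat_lit 4605702923) (nat_lit 684) (nat_lit 1977427147) (nat_lit 430) (nat_lit 5) (nat_lit 438) (nat_lit 5) (nat_lit 439) (nat_lit 4) (nat_lit 414) (nat_lit 395) (nat_lit 391)) (XT.lf (nat_lit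 0) (nat_lit 1151421935) (nat_lit 684) (nat_lit 2348192472) (nat_lit 76) (nat_lit 3189204091) (nat_lit 429) (nat_lit 5) (nat_lit 438) (nat_lit 5) (nat_lit 430) (nat_lit 5) (nat_lit 415) (nat_lit 395) (nat_lit 390))))))) (XT.nd (nat_lit 1248) (nat_lit 5700) (nat_lit 0) (XT.nd (nat_lit 624) (nat_lit 5700) (nat_lit 0) (XT.nd (nat_lit 312) (nat_lit 2052) (nat_lit 0) (XT.nd (nat_lit 156) (nat_lit 1596) (nat_lit 0) (XT.nd (nat_lit 78) (nat_lit 76) (nat_lit 0) (XT.lf (nat_lit 0) (nat_lit 1951373288) (nat_lit 684) (nat_lit 2298214356) (nat_lit 760) (nat_lit 2475907300) (nat_lit 420) (nat_lit 5) (nat_lit 429) (nat_lit 5) (nat_lit 430) (nat_lit 5) (nat_lit 416) (nat_lit 395) (nat_lit 389)) (XT.lf (nat_lit 0) (nat_lit 585828248) (nat_lit 760) (nat_lit 423415141) (nat_lit 76) (nat_lit 5756191232) (nat_lit 419) (nat_lit 5) (nat_lit 429) (nat_lit 5) (nat_lit 420) (nat_lit 5) (nat_lit 417) (nat_lit 395) (nat_lit 388))) (XT.nd (nat_lit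 78) (nat_lit 836) (nat_lit 0) (XT.lf (nat_lit 0) (nat_lit 3632941916) (nat_lit 836) (nat_lit 2779331675) (nat_lit 76) (nat_lit 395271514) (nat_lit 409) (nat_lit 5) (nat_lit 420) (nat_lit 5) (nat_lit 410) (nat_lit 5) (nat_lit 418) (nat_lit 395) (nat_lit 387)) (XT.lf (nat_lit 0) (nat_lit 1712570970) (nat_lit 836) (nat_lit 4992634253) (nat_lit 912) (nat_lit 147708109) (nat_lit 398) (nat_lit 5) (nat_lit 409) (nat_lit 5) (nat_lit 410) (nat_lit 5) (nat_lit 419) (nat_lit 395) (nat_lit 386)))) (XT.nd (nat_lit 156) (nat_lit 1064) (nat_lit 0) (XT.nd (nat_lit 78) (nat_lit 912) (nat_lit 0) (XT.lf (nat_lit 0) (nat_lit 2844443880) (nat_lit 912) (nat_lit 614626752) (nat_lit 76) (nat_lit 3441749476) (nat_lit 397) (nat_lit 5) (nat_lit 409) (nat_lit 5) (nat_lit 398) (nat_lit 5) (nat_lit 420) (nat_lit 395) (nat_lit 385)) (XT.lf (nat_lit 0) (nat_lit 4043521824) (nat_lit 912) (nat_lit 1825594598) (nat_lit 988) (nat_lit 1082638012) (nat_lit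 385) (nat_lit 5) (nat_lit 397) (nat_lit 5) (nat_lit 398) (nat_lit 5) (nat_lit 421) (nat_lit 395) (nat_lit 384))) (XT.nd (nat_lit 78) (nat_lit 0) (nat_lit 0) (XT.lf (nat_lit 0) (nat_lit 1783869272) (nat_lit 988) (nat_lit 89107037) (nat_lit 1064) (nat_lit 5132735812) (nat_lit 371) (nat_lit 5) (nat_lit 384) (nat_lit 5) (nat_lit 385) (nat_lit 5) (nat_lit 422) (nat_lit 395) (nat_lit 383)) (XT.lf (nat_lit 0) (nat_lit 4851377256) (nat_lit 1064) (nat_lit 495227890) (nat_lit 76) (nat_lit 1715690932) (nat_lit 371) (nat_lit 5) (nat_lit 385) (nat_lit 5) (nat_lit 372) (nat_lit 5) (nat_lit 423) (nat_lit 395) (nat_lit 382))))) (XT.nd (nat_lit 312) (nat_lit 2128) (nat_lit 0) (XT.nd (nat_lit 156) (nat_lit 1292) (nat_lit 0) (XT.nd (nat_lit 78) (nat_lit 1140) (nat_lit 0) (XT.lf (nat_lit 0) (nat_lit 737982219) (nat_lit 1140) (nat_lit 2752835891) (nat_lit 76) (nat_lit 3630883936) (nat_lit 356) (nat_lit 5) (nat_lit 371) (nat_lit 5) (nat_lit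 357) (nat_lit 5) (nat_lit 424) (nat_lit 395) (nat_lit 381)) (XT.lf (nat_lit 0) (nat_lit 2143876752) (nat_lit 1140) (nat_lit 1526123082) (nat_lit 1216) (nat_lit 3514066042) (nat_lit 341) (nat_lit 5) (nat_lit 356) (nat_lit 5) (nat_lit 357) (nat_lit 5) (nat_lit 425) (nat_lit 395) (nat_lit 380))) (XT.nd (nat_lit 78) (nat_lit 1292) (nat_lit 0) (XT.lf (nat_lit 0) (nat_lit 6638032088) (nat_lit 1216) (nat_lit 92690700) (nat_lit 76) (nat_lit 519141058) (nat_lit 341) (nat_lit 5) (nat_lit 357) (nat_lit 5) (nat_lit 342) (nat_lit 5) (nat_lit 426) (nat_lit 395) (nat_lit 379)) (XT.lf (nat_lit 0) (nat_lit 2311763752) (nat_lit 1292) (nat_lit 2336745638) (nat_lit 76) (nat_lit 2669024710) (nat_lit 324) (nat_lit 5) (nat_lit 341) (nat_lit 5) (nat_lit 325) (nat_lit 5) (nat_lit 427) (nat_lit 395) (nat_lit 378)))) (XT.nd (nat_lit 156) (nat_lit 608) (nat_lit 0) (XT.nd (nat_lit 78) (nat_lit 684) (nat_lit 0) (XT.lf (nat_lit 0) (nat_lit 2787018634)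 (nat_lit 836) (nat_lit 2469972613) (nat_lit 912) (nat_lit 2131679280) (nat_lit 313) (nat_lit 5) (nat_lit 324) (nat_lit 5) (nat_lit 325) (nat_lit 5) (nat_lit 428) (nat_lit 395) (nat_lit 377)) (XT.lf (nat_lit 0) (nat_lit 570836769) (nat_lit 608) (nat_lit 190224773) (nat_lit 684) (nat_lit 6702186828) (nat_lit 304) (nat_lit 5) (nat_lit 312) (nat_lit 5) (nat_lit 313) (nat_lit 5) (nat_lit 429) (nat_lit 395) (nat_lit 376))) (XT.nd (nat_lit 78) (nat_lit 608) (nat_lit 0) (XT.lf (nat_lit 0) (nat_lit 3686217056) (nat_lit 684) (nat_lit 1672947085) (nat_lit 76) (nat_lit 2180615983) (nat_lit 304) (nat_lit 5) (nat_lit 313) (nat_lit 5) (nat_lit 305) (nat_lit 5) (nat_lit 430) (nat_lit 395) (nat_lit 375)) (XT.lf (nat_lit 0) (nat_lit 3690912805) (nat_lit 608) (nat_lit 2968689939) (nat_lit 684) (nat_lit 960194763) (nat_lit 296) (nat_lit 5) (nat_lit 304) (nat_lit 5) (nat_lit 305) (nat_lit 5) (nat_lit 431) (nat_lit 395) (nat_lit 374))))))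 (XT.nd (nat_lit 624) (nat_lit 2356) (nat_lit 0) (XT.nd (nat_lit 312) (nat_lit 1520) (nat_lit 0) (XT.nd (nat_lit 156) (nat_lit 1216) (nat_lit 0) (XT.nd (nat_lit 78) (nat_lit 0) (nat_lit 0) (XT.lf (nat_lit 0) (nat_lit 1474419501) (nat_lit 532) (nat_lit 461189869) (nat_lit 608) (nat_lit 5767375690) (nat_lit 288) (nat_lit 5) (nat_lit 295) (nat_lit 5) (nat_lit 296) (nat_lit 5) (nat_lit 432) (nat_lit 395) (nat_lit 373)) (XT.lf (nat_lit 0) (nat_lit 4884623633) (nat_lit 608) (nat_lit 781811237) (nat_lit 76) (nat_lit 2122382720) (nat_lit 288) (nat_lit 5) (nat_lit 296) (nat_lit 5) (nat_lit 289) (nat_lit 5) (nat_lit 433) (nat_lit 395) (nat_lit 372))) (XT.nd (nat_lit 78) (nat_lit 532) (nat_lit 0) (XT.lf (nat_lit 0) (nat_lit 22199024) (nat_lit 684) (nat_lit 3041885515) (nat_lit 76) (nat_lit 4813785268) (nat_lit 279) (nat_lit 5) (nat_lit 288) (nat_lit 5) (nat_lit 280) (nat_lit 5) (nat_lit 434) (nat_lit 395) (nat_lit 371)) (XT.lf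 (nat_lit 0) (nat_lit 2608475360) (nat_lit 532) (nat_lit 330564776) (nat_lit 608) (nat_lit 5030863291) (nat_lit 272) (nat_lit 5) (nat_lit 279) (nat_lit 5) (nat_lit 280) (nat_lit 5) (nat_lit 435) (nat_lit 395) (nat_lit 370)))) (XT.nd (nat_lit 156) (nat_lit 912) (nat_lit 0) (XT.nd (nat_lit 78) (nat_lit 76) (nat_lit 0) (XT.lf (nat_lit 0) (nat_lit 325298138) (nat_lit 532) (nat_lit 5605309414) (nat_lit 608) (nat_lit 2134477077) (nat_lit 265) (nat_lit 5) (nat_lit 272) (nat_lit 5) (nat_lit 273) (nat_lit 5) (nat_lit 436) (nat_lit 395) (nat_lit 369)) (XT.lf (nat_lit 0) (nat_lit 819945762) (nat_lit 608) (nat_lit 1965299298) (nat_lit 76) (nat_lit 5378003208) (nat_lit 264) (nat_lit 5) (nat_lit 272) (nat_lit 5) (nat_lit 265) (nat_lit 5) (nat_lit 437) (nat_lit 395) (nat_lit 368))) (XT.nd (nat_lit 78) (nat_lit 456) (nat_lit 0) (XT.lf (nat_lit 0) (nat_lit 3791540691) (nat_lit 532) (nat_lit 4309643178) (nat_lit 76) (nat_lit 163398669)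 (nat_lit 258) (nat_lit 5) (nat_lit 265) (nat_lit 5) (nat_lit 259) (nat_lit 5) (nat_lit 438) (nat_lit 395) (nat_lit 367)) (XT.lf (nat_lit 0) (nat_lit 1646077332) (nat_lit 456) (nat_lit 5202524206) (nat_lit 532) (nat_lit 1520468605) (nat_lit 252) (nat_lit 5) (nat_lit 258) (nat_lit 5) (nat_lit 259) (nat_lit 5) (nat_lit 439) (nat_lit 395) (nat_lit 366))))) (XT.nd (nat_lit 312) (nat_lit 912) (nat_lit 0) (XT.nd (nat_lit 156) (nat_lit 912) (nat_lit 0) (XT.nd (nat_lit 78) (nat_lit 456) (nat_lit 0) (XT.lf (nat_lit 0) (nat_lit 1468343256) (nat_lit 532) (nat_lit 705118211) (nat_lit 76) (nat_lit 6303474999) (nat_lit 251) (nat_lit 5) (nat_lit 258) (nat_lit 5) (nat_lit 252) (nat_lit 5) (nat_lit 440) (nat_lit 395) (nat_lit 365)) (XT.lf (nat_lit 0) (nat_lit 4514112319) (nat_lit 532) (nat_lit 3092967026) (nat_lit 76) (nat_lit 980574835) (nat_lit 245) (nat_lit 5) (nat_lit 252) (nat_lit 5) (nat_lit 246) (nat_lit 5) (nat_lit 441) (nat_lit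 395) (nat_lit 364))) (XT.nd (nat_lit 78) (nat_lit 456) (nat_lit 0) (XT.lf (nat_lit 0) (nat_lit 3151347463) (nat_lit 456) (nat_lit 4495187223) (nat_lit 532) (nat_lit 1055302862) (nat_lit 239) (nat_lit 5) (nat_lit 245) (nat_lit 5) (nat_lit 246) (nat_lit 5) (nat_lit 442) (nat_lit 395) (nat_lit 363)) (XT.lf (nat_lit 0) (nat_lit 739796935) (nat_lit 380) (nat_lit 1248999002) (nat_lit 456) (nat_lit 6830799180) (nat_lit 233) (nat_lit 5) (nat_lit 238) (nat_lit 5) (nat_lit 239) (nat_lit 5) (nat_lit 443) (nat_lit 395) (nat_lit 362)))) (XT.nd (nat_lit 156) (nat_lit 456) (nat_lit 0) (XT.nd (nat_lit 78) (nat_lit 456) (nat_lit 0) (XT.lf (nat_lit 0) (nat_lit 5117346248) (nat_lit 456) (nat_lit 1721118025) (nat_lit 76) (nat_lit 2101679829) (nat_lit 233) (nat_lit 5) (nat_lit 239) (nat_lit 5) (nat_lit 234) (nat_lit 5) (nat_lit 444) (nat_lit 395) (nat_lit 361)) (XT.lf (nat_lit 0) (nat_lit 4829271889) (nat_lit 456) (nat_lit 3508687619)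 (nat_lit 532) (nat_lit 726406103) (nat_lit 227) (nat_lit 5) (nat_lit 233) (nat_lit 5) (nat_lit 234) (nat_lit 5) (nat_lit 445) (nat_lit 395) (nat_lit 360))) (XT.nd (nat_lit 78) (nat_lit 0) (nat_lit 0) (XT.lf (nat_lit 0) (nat_lit 2360551176) (nat_lit 380) (nat_lit 34330039) (nat_lit 456) (nat_lit 6797322528) (nat_lit 221) (nat_lit 5) (nat_lit 226) (nat_lit 5) (nat_lit 227) (nat_lit 5) (nat_lit 446) (nat_lit 395) (nat_lit 359)) (XT.lf (nat_lit 0) (nat_lit 5613060301) (nat_lit 456) (nat_lit 205501500) (nat_lit 76) (nat_lit 3504565915) (nat_lit 221) (nat_lit 5) (nat_lit 227) (nat_lit 5) (nat_lit 222) (nat_lit 5) (nat_lit 447) (nat_lit 395) (nat_lit 358))))))))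
noncomputable def xc83 : XT := (XT.nd (nat_lit 2418) (nat_lit 3496) (nat_lit 0) (XT.nd (nat_lit 1170) (nat_lit 2888) (nat_lit 0) (XT.nd (nat_lit 546) (nat_lit 1672) (nat_lit 0) (XT.nd (nat_lit 234) (nat_lit 988) (nat_lit 0) (XT.nd (nat_lit 78) (nat_lit 836) (nat_lit 0) (XT.lf (nat_lit 0) (nat_lit 6669529069) (nat_lit 380) (nat_lit 2265031495) (nat_lit 456) (nat_lit 523217566) (nat_lit 216) (nat_lit 5) (nat_lit 221) (nat_lit 5) (nat_lit 222) (nat_lit 5) (nat_lit 448) (nat_lit 395) (nat_lit 357)) (XT.nd (nat_lit 78) (nat_lit 380) (nat_lit 0) (XT.lf (nat_lit 0) (nat_lit 2703766498) (nat_lit 456) (nat_lit 5477364451) (nat_lit 76) (nat_lit 1414592146) (nat_lit 210) (nat_lit 5) (nat_lit 216) (nat_lit 5) (nat_lit 211) (nat_lit 5) (nat_lit 449) (nat_lit 395) (nat_lit 356)) (XT.lf (nat_lit 0) (nat_lit 1472444687) (nat_lit 380) (nat_lit 4552982986) (nat_lit 456) (nat_lit 3711973640) (nat_lit 205) (nat_lit 5) (nat_lit 210)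 (nat_lit 5) (nat_lit 211) (nat_lit 5) (nat_lit 450) (nat_lit 395) (nat_lit 355)))) (XT.nd (nat_lit 156) (nat_lit 608) (nat_lit 0) (XT.nd (nat_lit 78) (nat_lit 380) (nat_lit 0) (XT.lf (nat_lit 0) (nat_lit 8663058452) (nat_lit 380) (nat_lit 783240629) (nat_lit 456) (nat_lit 437045761) (nat_lit 205) (nat_lit 5) (nat_lit 210) (nat_lit 5) (nat_lit 211) (nat_lit 5) (nat_lit 451) (nat_lit 395) (nat_lit 354)) (XT.lf (nat_lit 0) (nat_lit 2912715420) (nat_lit 380) (nat_lit 4016372993) (nat_lit 76) (nat_lit 3102716822) (nat_lit 200) (nat_lit 5) (nat_lit 205) (nat_lit 5) (nat_lit 201) (nat_lit 5) (nat_lit 452) (nat_lit 395) (nat_lit 353))) (XT.nd (nat_lit 78) (nat_lit 304) (nat_lit 0) (XT.lf (nat_lit 0) (nat_lit 3281371691) (nat_lit 304) (nat_lit 3070502172) (nat_lit 380) (nat_lit 3832786727) (nat_lit 196) (nat_lit 5) (nat_lit 200) (nat_lit 5) (nat_lit 201) (nat_lit 5) (nat_lit 453) (nat_lit 395) (nat_lit 352)) (XT.lf (nat_lit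 0) (nat_lit 459451033) (nat_lit 304) (nat_lit 9435342236) (nat_lit 380) (nat_lit 447292328) (nat_lit 192) (nat_lit 5) (nat_lit 196) (nat_lit 5) (nat_lit 197) (nat_lit 5) (nat_lit 454) (nat_lit 395) (nat_lit 351))))) (XT.nd (nat_lit 312) (nat_lit 912) (nat_lit 0) (XT.nd (nat_lit 156) (nat_lit 380) (nat_lit 0) (XT.nd (nat_lit 78) (nat_lit 304) (nat_lit 0) (XT.lf (nat_lit 0) (nat_lit 3028047143) (nat_lit 380) (nat_lit 2458066582) (nat_lit 76) (nat_lit 5015816601) (nat_lit 191) (nat_lit 5) (nat_lit 196) (nat_lit 5) (nat_lit 192) (nat_lit 5) (nat_lit 455) (nat_lit 395) (nat_lit 350)) (XT.lf (nat_lit 0) (nat_lit 5208586896) (nat_lit 304) (nat_lit 1388483672) (nat_lit 380) (nat_lit 4069415997) (nat_lit 187) (nat_lit 5) (nat_lit 191) (nat_lit 5) (nat_lit 192) (nat_lit 5) (nat_lit 456) (nat_lit 395) (nat_lit 349))) (XT.nd (nat_lit 78) (nat_lit 76) (nat_lit 0) (XT.lf (nat_lit 0) (nat_lit 2258623514) (nat_lit 304) (nat_lit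 8037400746) (nat_lit 380) (nat_lit 539270844) (nat_lit 183) (nat_lit 5) (nat_lit 187) (nat_lit 5) (nat_lit 188) (nat_lit 5) (nat_lit 457) (nat_lit 395) (nat_lit 348)) (XT.lf (nat_lit 0) (nat_lit 3054856997) (nat_lit 380) (nat_lit 811671678) (nat_lit 76) (nat_lit 7141192273) (nat_lit 182) (nat_lit 5) (nat_lit 187) (nat_lit 5) (nat_lit 183) (nat_lit 5) (nat_lit 458) (nat_lit 395) (nat_lit 347)))) (XT.nd (nat_lit 156) (nat_lit 380) (nat_lit 0) (XT.nd (nat_lit 78) (nat_lit 228) (nat_lit 0) (XT.lf (nat_lit 0) (nat_lit 6770818025) (nat_lit 380) (nat_lit 3943161247) (nat_lit 76) (nat_lit 470435951) (nat_lit 178) (nat_lit 5) (nat_lit 183) (nat_lit 5) (nat_lit 179) (nat_lit 5) (nat_lit 459) (nat_lit 395) (nat_lit 346)) (XT.lf (nat_lit 0) (nat_lit 4152114758) (nat_lit 228) (nat_lit 6483653143) (nat_lit 304) (nat_lit 729518372) (nat_lit 175) (nat_lit 5) (nat_lit 178) (nat_lit 5) (nat_lit 179) (nat_lit 5) (nat_lit 460) (nat_lit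 395) (nat_lit 345))) (XT.nd (nat_lit 78) (nat_lit 0) (nat_lit 0) (XT.lf (nat_lit 0) (nat_lit 932016076) (nat_lit 304) (nat_lit 2073681066) (nat_lit 380) (nat_lit 8544990828) (nat_lit 170) (nat_lit 5) (nat_lit 174) (nat_lit 5) (nat_lit 175) (nat_lit 5) (nat_lit 461) (nat_lit 395) (nat_lit 344)) (XT.lf (nat_lit 0) (nat_lit 6887265641) (nat_lit 380) (nat_lit 2379139343) (nat_lit 76) (nat_lit 2473562411) (nat_lit 170) (nat_lit 5) (nat_lit 175) (nat_lit 5) (nat_lit 171) (nat_lit 5) (nat_lit 462) (nat_lit 395) (nat_lit 343)))))) (XT.nd (nat_lit 624) (nat_lit 1292) (nat_lit 0) (XT.nd (nat_lit 312) (nat_lit 836) (nat_lit 0) (XT.nd (nat_lit 156) (nat_lit 228) (nat_lit 0) (XT.nd (nat_lit 78) (nat_lit 304) (nat_lit 0) (XT.lf (nat_lit 0) (nat_lit 6131529601) (nat_lit 228) (nat_lit 4786300237) (nat_lit 304) (nat_lit 1016120012) (nat_lit 167) (nat_lit 5) (nat_lit 170) (nat_lit 5) (nat_lit 171) (nat_lit 5) (nat_lit 463) (nat_lit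 395) (nat_lit 342)) (XT.lf (nat_lit 0) (nat_lit 2763364058) (nat_lit 228) (nat_lit 119006617) (nat_lit 304) (nat_lit 9250412749) (nat_lit 163) (nat_lit 5) (nat_lit 166) (nat_lit 5) (nat_lit 167) (nat_lit 5) (nat_lit 464) (nat_lit 395) (nat_lit 341))) (XT.nd (nat_lit 78) (nat_lit 228) (nat_lit 0) (XT.lf (nat_lit 0) (nat_lit 6935271803) (nat_lit 304) (nat_lit 762196949) (nat_lit 76) (nat_lit 4638076087) (nat_lit 163) (nat_lit 5) (nat_lit 167) (nat_lit 5) (nat_lit 164) (nat_lit 5) (nat_lit 465) (nat_lit 395) (nat_lit 340)) (XT.lf (nat_lit 0) (nat_lit 8188322305) (nat_lit 228) (nat_lit 2956316099) (nat_lit 304) (nat_lit 1398705322) (nat_lit 160) (nat_lit 5) (nat_lit 163) (nat_lit 5) (nat_lit 164) (nat_lit 5) (nat_lit 466) (nat_lit 395) (nat_lit 339)))) (XT.nd (nat_lit 156) (nat_lit 304) (nat_lit 0) (XT.nd (nat_lit 78) (nat_lit 228) (nat_lit 0) (XT.lf (nat_lit 0) (nat_lit 2696497877) (nat_lit 304) (nat_lit 8118629831)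 (nat_lit 76) (nat_lit 1940662902) (nat_lit 156) (nat_lit 5) (nat_lit 160) (nat_lit 5) (nat_lit 157) (nat_lit 5) (nat_lit 467) (nat_lit 395) (nat_lit 338)) (XT.lf (nat_lit 0) (nat_lit 915371377) (nat_lit 228) (nat_lit 6009043269) (nat_lit 304) (nat_lit 6048642596) (nat_lit 153) (nat_lit 5) (nat_lit 156) (nat_lit 5) (nat_lit 157) (nat_lit 5) (nat_lit 468) (nat_lit 395) (nat_lit 337))) (XT.nd (nat_lit 78) (nat_lit 304) (nat_lit 0) (XT.lf (nat_lit 0) (nat_lit 10313515425) (nat_lit 228) (nat_lit 1003715492) (nat_lit 304) (nat_lit 1878469969) (nat_lit 153) (nat_lit 5) (nat_lit 156) (nat_lit 5) (nat_lit 157) (nat_lit 5) (nat_lit 469) (nat_lit 395) (nat_lit 336)) (XT.lf (nat_lit 0) (nat_lit 2430536505) (nat_lit 304) (nat_lit 6862049163) (nat_lit 76) (nat_lit 4129915360) (nat_lit 149) (nat_lit 5) (nat_lit 153) (nat_lit 5) (nat_lit 150) (nat_lit 5) (nat_lit 470) (nat_lit 395) (nat_lit 335))))) (XT.nd (nat_lit 312) (nat_lit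 684) (nat_lit 0) (XT.nd (nat_lit 156) (nat_lit 456) (nat_lit 0) (XT.nd (nat_lit 78) (nat_lit 0) (nat_lit 0) (XT.lf (nat_lit 0) (nat_lit 2640604779) (nat_lit 152) (nat_lit 4212394127) (nat_lit 228) (nat_lit 6801890873) (nat_lit 147) (nat_lit 5) (nat_lit 149) (nat_lit 5) (nat_lit 150) (nat_lit 5) (nat_lit 471) (nat_lit 395) (nat_lit 334)) (XT.lf (nat_lit 0) (nat_lit 11445423878) (nat_lit 228) (nat_lit 1406252887) (nat_lit 76) (nat_lit 1041455542) (nat_lit 147) (nat_lit 5) (nat_lit 150) (nat_lit 5) (nat_lit 148) (nat_lit 5) (nat_lit 472) (nat_lit 395) (nat_lit 333))) (XT.nd (nat_lit 78) (nat_lit 152) (nat_lit 0) (XT.lf (nat_lit 0) (nat_lit 2080748123) (nat_lit 304) (nat_lit 5611874087) (nat_lit 76) (nat_lit 6442811183) (nat_lit 143) (nat_lit 5) (nat_lit 147) (nat_lit 5) (nat_lit 144) (nat_lit 5) (nat_lit 473) (nat_lit 395) (nat_lit 332)) (XT.lf (nat_lit 0) (nat_lit 4386122629) (nat_lit 152) (nat_lit 2325109606) (nat_lit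 228) (nat_lit 7672583834) (nat_lit 141) (nat_lit 5) (nat_lit 143) (nat_lit 5) (nat_lit 144) (nat_lit 5) (nat_lit 474) (nat_lit 395) (nat_lit 331)))) (XT.nd (nat_lit 156) (nat_lit 380) (nat_lit 0) (XT.nd (nat_lit 78) (nat_lit 76) (nat_lit 0) (XT.lf (nat_lit 0) (nat_lit 60114453) (nat_lit 228) (nat_lit 11468229143) (nat_lit 304) (nat_lit 3109875937) (nat_lit 138) (nat_lit 5) (nat_lit 141) (nat_lit 5) (nat_lit 142) (nat_lit 5) (nat_lit 475) (nat_lit 395) (nat_lit 330)) (XT.lf (nat_lit 0) (nat_lit 1642897441) (nat_lit 304) (nat_lit 4382897337) (nat_lit 76) (nat_lit 8871476373) (nat_lit 137) (nat_lit 5) (nat_lit 141) (nat_lit 5) (nat_lit 138) (nat_lit 5) (nat_lit 476) (nat_lit 395) (nat_lit 329))) (XT.nd (nat_lit 78) (nat_lit 228) (nat_lit 0) (XT.lf (nat_lit 0) (nat_lit 6138253582) (nat_lit 152) (nat_lit 356914915) (nat_lit 228) (nat_lit 8667420132) (nat_lit 135) (nat_lit 5) (nat_lit 137) (nat_lit 5) (nat_lit 138) (nat_lit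 5) (nat_lit 477) (nat_lit 395) (nat_lit 328)) (XT.lf (nat_lit 0) (nat_lit 1538106126) (nat_lit 228) (nat_lit 10027712567) (nat_lit 304) (nat_lit 3867863219) (nat_lit 132) (nat_lit 5) (nat_lit 135) (nat_lit 5) (nat_lit 136) (nat_lit 5) (nat_lit 478) (nat_lit 395) (nat_lit 327))))))) (XT.nd (nat_lit 1248) (nat_lit 1520) (nat_lit 0) (XT.nd (nat_lit 624) (nat_lit 988) (nat_lit 0) (XT.nd (nat_lit 312) (nat_lit 532) (nat_lit 0) (XT.nd (nat_lit 156) (nat_lit 228) (nat_lit 0) (XT.nd (nat_lit 78) (nat_lit 152) (nat_lit 0) (XT.lf (nat_lit 0) (nat_lit 1110989646) (nat_lit 304) (nat_lit 3191763418) (nat_lit 76) (nat_lit 11408156314) (nat_lit 131) (nat_lit 5) (nat_lit 135) (nat_lit 5) (nat_lit 132) (nat_lit 5) (nat_lit 479) (nat_lit 395) (nat_lit 326)) (XT.lf (nat_lit 0) (nat_lit 6215280117) (nat_lit 228) (nat_lit 8128892096) (nat_lit 76) (nat_lit 1649518779) (nat_lit 129) (nat_lit 5) (nat_lit 132) (nat_lit 5) (nat_lit 130)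 (nat_lit 5) (nat_lit 480) (nat_lit 395) (nat_lit 325))) (XT.nd (nat_lit 78) (nat_lit 76) (nat_lit 0) (XT.lf (nat_lit 0) (nat_lit 2982372359) (nat_lit 152) (nat_lit 8556218448) (nat_lit 228) (nat_lit 4744389046) (nat_lit 127) (nat_lit 5) (nat_lit 129) (nat_lit 5) (nat_lit 130) (nat_lit 5) (nat_lit 481) (nat_lit 395) (nat_lit 324)) (XT.lf (nat_lit 0) (nat_lit 477116939) (nat_lit 228) (nat_lit 2057417839) (nat_lit 76) (nat_lit 14044934173) (nat_lit 126) (nat_lit 5) (nat_lit 129) (nat_lit 5) (nat_lit 127) (nat_lit 5) (nat_lit 482) (nat_lit 395) (nat_lit 323)))) (XT.nd (nat_lit 156) (nat_lit 228) (nat_lit 0) (XT.nd (nat_lit 78) (nat_lit 152) (nat_lit 0) (XT.lf (nat_lit 0) (nat_lit 5851795605) (nat_lit 228) (nat_lit 7320282769) (nat_lit 76) (nat_lit 3708609070) (nat_lit 124) (nat_lit 5) (nat_lit 127) (nat_lit 5) (nat_lit 125) (nat_lit 5) (nat_lit 483) (nat_lit 395) (nat_lit 322)) (XT.lf (nat_lit 0) (nat_lit 4372950086)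 (nat_lit 152) (nat_lit 7066312994) (nat_lit 228) (nat_lit 5750133443) (nat_lit 122) (nat_lit 5) (nat_lit 124) (nat_lit 5) (nat_lit 125) (nat_lit 5) (nat_lit 484) (nat_lit 395) (nat_lit 321))) (XT.nd (nat_lit 78) (nat_lit 228) (nat_lit 0) (XT.lf (nat_lit 0) (nat_lit 16501983145) (nat_lit 152) (nat_lit 730168511) (nat_lit 228) (nat_lit 274081773) (nat_lit 122) (nat_lit 5) (nat_lit 124) (nat_lit 5) (nat_lit 125) (nat_lit 5) (nat_lit 485) (nat_lit 395) (nat_lit 320)) (XT.lf (nat_lit 0) (nat_lit 5391445008) (nat_lit 228) (nat_lit 6619150386) (nat_lit 76) (nat_lit 5816535729) (nat_lit 119) (nat_lit 5) (nat_lit 122) (nat_lit 5) (nat_lit 120) (nat_lit 5) (nat_lit 486) (nat_lit 395) (nat_lit 319))))) (XT.nd (nat_lit 312) (nat_lit 456) (nat_lit 0) (XT.nd (nat_lit 156) (nat_lit 380) (nat_lit 0) (XT.nd (nat_lit 78) (nat_lit 0) (nat_lit 0) (XT.lf (nat_lit 0) (nat_lit 5686719644) (nat_lit 152) (nat_lit 5571577404) (nat_lit 228)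 (nat_lit 6898171671) (nat_lit 117) (nat_lit 5) (nat_lit 119) (nat_lit 5) (nat_lit 120) (nat_lit 5) (nat_lit 487) (nat_lit 395) (nat_lit 318)) (XT.lf (nat_lit 0) (nat_lit 17343728835) (nat_lit 228) (nat_lit 71248859) (nat_lit 76) (nat_lit 1079431940) (nat_lit 117) (nat_lit 5) (nat_lit 120) (nat_lit 5) (nat_lit 118) (nat_lit 4) (nat_lit 488) (nat_lit 395) (nat_lit 317))) (XT.nd (nat_lit 78) (nat_lit 152) (nat_lit 0) (XT.lf (nat_lit 0) (nat_lit 4822013628) (nat_lit 228) (nat_lit 6053281356) (nat_lit 76) (nat_lit 7961443528) (nat_lit 114) (nat_lit 5) (nat_lit 117) (nat_lit 5) (nat_lit 115) (nat_lit 5) (nat_lit 489) (nat_lit 395) (nat_lit 316)) (XT.lf (nat_lit 0) (nat_lit 6896769358) (nat_lit 152) (nat_lit 4086980503) (nat_lit 228) (nat_lit 8204256336) (nat_lit 112) (nat_lit 5) (nat_lit 114) (nat_lit 5) (nat_lit 115) (nat_lit 5) (nat_lit 490) (nat_lit 395) (nat_lit 315)))) (XT.nd (nat_lit 156) (nat_lit 228) (nat_lit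 0) (XT.nd (nat_lit 78) (nat_lit 76) (nat_lit 0) (XT.lf (nat_lit 0) (nat_lit 734749212) (nat_lit 152) (nat_lit 16658401212) (nat_lit 228) (nat_lit 2154777491) (nat_lit 110) (nat_lit 5) (nat_lit 112) (nat_lit 5) (nat_lit 113) (nat_lit 4) (nat_lit 491) (nat_lit 395) (nat_lit 314)) (XT.lf (nat_lit 0) (nat_lit 4128610117) (nat_lit 228) (nat_lit 5654877264) (nat_lit 76) (nat_lit 10130025805) (nat_lit 109) (nat_lit 5) (nat_lit 112) (nat_lit 5) (nat_lit 110) (nat_lit 5) (nat_lit 492) (nat_lit 395) (nat_lit 313))) (XT.nd (nat_lit 78) (nat_lit 76) (nat_lit 0) (XT.lf (nat_lit 0) (nat_lit 7971666734) (nat_lit 152) (nat_lit 2629292102) (nat_lit 228) (nat_lit 9687154435) (nat_lit 107) (nat_lit 5) (nat_lit 109) (nat_lit 5) (nat_lit 110) (nat_lit 5) (nat_lit 493) (nat_lit 395) (nat_lit 312)) (XT.lf (nat_lit 0) (nat_lit 1370464732) (nat_lit 76) (nat_lit 15980667929) (nat_lit 152) (nat_lit 3320309388) (nat_lit 106) (nat_lit 5) (nat_lit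 107) (nat_lit 5) (nat_lit 108) (nat_lit 4) (nat_lit 494) (nat_lit 395) (nat_lit 311)))))) (XT.nd (nat_lit 624) (nat_lit 684) (nat_lit 0) (XT.nd (nat_lit 312) (nat_lit 456) (nat_lit 0) (XT.nd (nat_lit 156) (nat_lit 152) (nat_lit 0) (XT.nd (nat_lit 78) (nat_lit 152) (nat_lit 0) (XT.lf (nat_lit 0) (nat_lit 3293307831) (nat_lit 152) (nat_lit 5461362387) (nat_lit 76) (nat_lit 12307098857) (nat_lit 105) (nat_lit 5) (nat_lit 107) (nat_lit 5) (nat_lit 106) (nat_lit 5) (nat_lit 495) (nat_lit 395) (nat_lit 310)) (XT.lf (nat_lit 0) (nat_lit 8874620064) (nat_lit 152) (nat_lit 1217546020) (nat_lit 228) (nat_lit 11369046876) (nat_lit 103) (nat_lit 5) (nat_lit 105) (nat_lit 5) (nat_lit 106) (nat_lit 5) (nat_lit 496) (nat_lit 395) (nat_lit 309))) (XT.nd (nat_lit 78) (nat_lit 76) (nat_lit 0) (XT.lf (nat_lit 0) (nat_lit 1793965068) (nat_lit 76) (nat_lit 15405245781) (nat_lit 152) (nat_lit 4670302981) (nat_lit 102) (nat_lit 5) (nat_lit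 103) (nat_lit 5) (nat_lit 104) (nat_lit 4) (nat_lit 497) (nat_lit 395) (nat_lit 308)) (XT.lf (nat_lit 0) (nat_lit 2294720421) (nat_lit 152) (nat_lit 5516313561) (nat_lit 76) (nat_lit 14475122484) (nat_lit 101) (nat_lit 5) (nat_lit 103) (nat_lit 5) (nat_lit 102) (nat_lit 5) (nat_lit 498) (nat_lit 395) (nat_lit 307)))) (XT.nd (nat_lit 156) (nat_lit 228) (nat_lit 0) (XT.nd (nat_lit 78) (nat_lit 76) (nat_lit 0) (XT.lf (nat_lit 0) (nat_lit 9437289975) (nat_lit 228) (nat_lit 13150777588) (nat_lit 76) (nat_lit 123969948) (nat_lit 99) (nat_lit 5) (nat_lit 102) (nat_lit 5) (nat_lit 100) (nat_lit 4) (nat_lit 499) (nat_lit 395) (nat_lit 306)) (XT.lf (nat_lit 0) (nat_lit 1957897898) (nat_lit 76) (nat_lit 14958068890) (nat_lit 152) (nat_lit 6231073554) (nat_lit 98) (nat_lit 5) (nat_lit 99) (nat_lit 5) (nat_lit 100) (nat_lit 4) (nat_lit 500) (nat_lit 395) (nat_lit 305))) (XT.nd (nat_lit 78) (nat_lit 152) (nat_lit 0) (XT.lf (nat_lit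 0) (nat_lit 1107502078) (nat_lit 152) (nat_lit 5870532945) (nat_lit 76) (nat_lit 16613656058) (nat_lit 97) (nat_lit 5) (nat_lit 99) (nat_lit 5) (nat_lit 98) (nat_lit 5) (nat_lit 501) (nat_lit 395) (nat_lit 304)) (XT.lf (nat_lit 0) (nat_lit 8620566607) (nat_lit 228) (nat_lit 14074299821) (nat_lit 76) (nat_lit 1350577238) (nat_lit 95) (nat_lit 5) (nat_lit 98) (nat_lit 5) (nat_lit 96) (nat_lit 4) (nat_lit 502) (nat_lit 395) (nat_lit 303))))) (XT.nd (nat_lit 312) (nat_lit 304) (nat_lit 0) (XT.nd (nat_lit 156) (nat_lit 304) (nat_lit 0) (XT.nd (nat_lit 78) (nat_lit 0) (nat_lit 0) (XT.lf (nat_lit 0) (nat_lit 1806885412) (nat_lit 76) (nat_lit 14668892498) (nat_lit 152) (nat_lit 8033528503) (nat_lit 94) (nat_lit 5) (nat_lit 95) (nat_lit 5) (nat_lit 96) (nat_lit 4) (nat_lit 503) (nat_lit 395) (nat_lit 302)) (XT.lf (nat_lit 0) (nat_lit 18397487591) (nat_lit 76) (nat_lit 6282037011) (nat_lit 152) (nat_lit 304174294) (nat_lit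 94) (nat_lit 5) (nat_lit 95) (nat_lit 5) (nat_lit 96) (nat_lit 4) (nat_lit 504) (nat_lit 395) (nat_lit 301))) (XT.nd (nat_lit 78) (nat_lit 76) (nat_lit 0) (XT.lf (nat_lit 0) (nat_lit 7599977662) (nat_lit 228) (nat_lit 15410021945) (nat_lit 76) (nat_lit 2457345607) (nat_lit 91) (nat_lit 5) (nat_lit 94) (nat_lit 5) (nat_lit 92) (nat_lit 4) (nat_lit 505) (nat_lit 395) (nat_lit 300)) (XT.lf (nat_lit 0) (nat_lit 1276150563) (nat_lit 76) (nat_lit 14572019085) (nat_lit 152) (nat_lit 10113850259) (nat_lit 90) (nat_lit 5) (nat_lit 91) (nat_lit 5) (nat_lit 92) (nat_lit 4) (nat_lit 506) (nat_lit 395) (nat_lit 299)))) (XT.nd (nat_lit 156) (nat_lit 76) (nat_lit 0) (XT.nd (nat_lit 78) (nat_lit 228) (nat_lit 0) (XT.lf (nat_lit 0) (nat_lit 18724781125) (nat_lit 76) (nat_lit 5746348350) (nat_lit 152) (nat_lit 1996585903) (nat_lit 90) (nat_lit 5) (nat_lit 91) (nat_lit 5) (nat_lit 92) (nat_lit 4) (nat_lit 507) (nat_lit 395) (nat_lit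 298)) (XT.lf (nat_lit 0) (nat_lit 6339770503) (nat_lit 228) (nat_lit 17233138861) (nat_lit 76) (nat_lit 3410844365) (nat_lit 87) (nat_lit 5) (nat_lit 90) (nat_lit 5) (nat_lit 88) (nat_lit 4) (nat_lit 508) (nat_lit 395) (nat_lit 297))) (XT.nd (nat_lit 78) (nat_lit 0) (nat_lit 0) (XT.lf (nat_lit 0) (nat_lit 289926866) (nat_lit 76) (nat_lit 14707131038) (nat_lit 152) (nat_lit 12514293372) (nat_lit 86) (nat_lit 5) (nat_lit 87) (nat_lit 5) (nat_lit 88) (nat_lit 4) (nat_lit 509) (nat_lit 395) (nat_lit 296)) (XT.lf (nat_lit 0) (nat_lit 18639407964) (nat_lit 76) (nat_lit 5421303499) (nat_lit 152) (nat_lit 3989666037) (nat_lit 86) (nat_lit 5) (nat_lit 87) (nat_lit 5) (nat_lit 88) (nat_lit 4) (nat_lit 510) (nat_lit 395) (nat_lit 295))))))))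
noncomputable def xc84 : XT := (XT.nd (nat_lit 2418) (nat_lit 760) (nat_lit 0) (XT.nd (nat_lit 1170) (nat_lit 1064) (nat_lit 0) (XT.nd (nat_lit 546) (nat_lit 532) (nat_lit 0) (XT.nd (nat_lit 234) (nat_lit 456) (nat_lit 0) (XT.nd (nat_lit 78) (nat_lit 76) (nat_lit 0) (XT.lf (nat_lit 0) (nat_lit 4797908572) (nat_lit 228) (nat_lit 19631239117) (nat_lit 76) (nat_lit 4172024688) (nat_lit 83) (nat_lit 5) (nat_lit 86) (nat_lit 5) (nat_lit 84) (nat_lit 4) (nat_lit 511) (nat_lit 395) (nat_lit 294)) (XT.nd (nat_lit 78) (nat_lit 76) (nat_lit 0) (XT.lf (nat_lit 0) (nat_lit 13891787934) (nat_lit 228) (nat_lit 1216179157) (nat_lit 76) (nat_lit 14055653144) (nat_lit 83) (nat_lit 5) (nat_lit 86) (nat_lit 5) (nat_lit 84) (nat_lit 4) (nat_lit 512) (nat_lit 395) (nat_lit 293)) (XT.lf (nat_lit 0) (nat_lit 18053525808) (nat_lit 76) (nat_lit 5352495833) (nat_lit 152) (nat_lit 6332493907) (nat_lit 82) (nat_lit 5) (nat_lit 83) (nat_lit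 5) (nat_lit 84) (nat_lit 4) (nat_lit 513) (nat_lit 395) (nat_lit 292)))) (XT.nd (nat_lit 156) (nat_lit 228) (nat_lit 0) (XT.nd (nat_lit 78) (nat_lit 0) (nat_lit 0) (XT.lf (nat_lit 0) (nat_lit 2925085483) (nat_lit 228) (nat_lit 22706348810) (nat_lit 76) (nat_lit 4695209592) (nat_lit 79) (nat_lit 5) (nat_lit 82) (nat_lit 5) (nat_lit 80) (nat_lit 4) (nat_lit 514) (nat_lit 395) (nat_lit 291)) (XT.lf (nat_lit 0) (nat_lit 12479345817) (nat_lit 228) (nat_lit 3351639950) (nat_lit 76) (nat_lit 15095162600) (nat_lit 79) (nat_lit 5) (nat_lit 82) (nat_lit 5) (nat_lit 80) (nat_lit 4) (nat_lit 515) (nat_lit 395) (nat_lit 290))) (XT.nd (nat_lit 78) (nat_lit 152) (nat_lit 0) (XT.lf (nat_lit 0) (nat_lit 16864078631) (nat_lit 76) (nat_lit 5593090015) (nat_lit 152) (nat_lit 9082361434) (nat_lit 78) (nat_lit 5) (nat_lit 79) (nat_lit 5) (nat_lit 80) (nat_lit 4) (nat_lit 516) (nat_lit 395) (nat_lit 289)) (XT.lf (nat_lit 0) (nat_lit 663577111)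 (nat_lit 152) (nat_lit 26577299569) (nat_lit 76) (nat_lit 4926927818) (nat_lit 76) (nat_lit 5) (nat_lit 78) (nat_lit 5) (nat_lit 77) (nat_lit 4) (nat_lit 517) (nat_lit 395) (nat_lit 288))))) (XT.nd (nat_lit 312) (nat_lit 304) (nat_lit 0) (XT.nd (nat_lit 156) (nat_lit 152) (nat_lit 0) (XT.nd (nat_lit 78) (nat_lit 76) (nat_lit 0) (XT.lf (nat_lit 0) (nat_lit 10699278695) (nat_lit 152) (nat_lit 6240755430) (nat_lit 76) (nat_lit 15866797481) (nat_lit 76) (nat_lit 5) (nat_lit 78) (nat_lit 5) (nat_lit 77) (nat_lit 4) (nat_lit 518) (nat_lit 395) (nat_lit 287)) (XT.lf (nat_lit 0) (nat_lit 14950261506) (nat_lit 76) (nat_lit 6205125812) (nat_lit 152) (nat_lit 12306062253) (nat_lit 75) (nat_lit 5) (nat_lit 76) (nat_lit 5) (nat_lit 77) (nat_lit 4) (nat_lit 519) (nat_lit 395) (nat_lit 286))) (XT.nd (nat_lit 78) (nat_lit 76) (nat_lit 0) (XT.lf (nat_lit 0) (nat_lit 2729729626) (nat_lit 76) (nat_lit 29307636687) (nat_lit 76) (nat_lit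 2094974268) (nat_lit 74) (nat_lit 4) (nat_lit 75) (nat_lit 5) (nat_lit 75) (nat_lit 4) (nat_lit 520) (nat_lit 395) (nat_lit 285)) (XT.lf (nat_lit 0) (nat_lit 8483992756) (nat_lit 152) (nat_lit 10022080530) (nat_lit 76) (nat_lit 16308079338) (nat_lit 73) (nat_lit 5) (nat_lit 75) (nat_lit 5) (nat_lit 74) (nat_lit 4) (nat_lit 521) (nat_lit 395) (nat_lit 284)))) (XT.nd (nat_lit 156) (nat_lit 228) (nat_lit 0) (XT.nd (nat_lit 78) (nat_lit 0) (nat_lit 0) (XT.lf (nat_lit 0) (nat_lit 12170579693) (nat_lit 76) (nat_lit 7261025783) (nat_lit 152) (nat_lit 16081389885) (nat_lit 72) (nat_lit 5) (nat_lit 73) (nat_lit 5) (nat_lit 74) (nat_lit 4) (nat_lit 522) (nat_lit 395) (nat_lit 283)) (XT.lf (nat_lit 0) (nat_lit 30827819933) (nat_lit 152) (nat_lit 1083917934) (nat_lit 0) (nat_lit 4317460421) (nat_lit 72) (nat_lit 5) (nat_lit 74) (nat_lit 4) (nat_lit 72) (nat_lit 4) (nat_lit 523) (nat_lit 395) (nat_lit 282))) (XT.nd (nat_lit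 78) (nat_lit 76) (nat_lit 0) (XT.lf (nat_lit 0) (nat_lit 5754373589) (nat_lit 152) (nat_lit 14857344658) (nat_lit 76) (nat_lit 16345616594) (nat_lit 70) (nat_lit 5) (nat_lit 72) (nat_lit 5) (nat_lit 71) (nat_lit 4) (nat_lit 524) (nat_lit 395) (nat_lit 281)) (XT.lf (nat_lit 0) (nat_lit 8359436705) (nat_lit 76) (nat_lit 8845340221) (nat_lit 152) (nat_lit 20498878057) (nat_lit 69) (nat_lit 5) (nat_lit 70) (nat_lit 5) (nat_lit 71) (nat_lit 4) (nat_lit 525) (nat_lit 395) (nat_lit 280)))))) (XT.nd (nat_lit 624) (nat_lit 532) (nat_lit 0) (XT.nd (nat_lit 312) (nat_lit 304) (nat_lit 0) (XT.nd (nat_lit 156) (nat_lit 76) (nat_lit 0) (XT.nd (nat_lit 78) (nat_lit 152) (nat_lit 0) (XT.lf (nat_lit 0) (nat_lit 29158842956) (nat_lit 152) (nat_lit 5968316924) (nat_lit 0) (nat_lit 3340400426) (nat_lit 69) (nat_lit 5) (nat_lit 71) (nat_lit 4) (nat_lit 69) (nat_lit 4) (nat_lit 526) (nat_lit 395) (nat_lit 279)) (XT.lf (nat_lit 0) (nat_lit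 2417935143) (nat_lit 152) (nat_lit 20935234820) (nat_lit 76) (nat_lit 15893251993) (nat_lit 67) (nat_lit 5) (nat_lit 69) (nat_lit 5) (nat_lit 68) (nat_lit 4) (nat_lit 527) (nat_lit 395) (nat_lit 278))) (XT.nd (nat_lit 78) (nat_lit 0) (nat_lit 0) (XT.lf (nat_lit 0) (nat_lit 3323175640) (nat_lit 76) (nat_lit 11056767924) (nat_lit 152) (nat_lit 25663821444) (nat_lit 66) (nat_lit 5) (nat_lit 67) (nat_lit 5) (nat_lit 68) (nat_lit 4) (nat_lit 528) (nat_lit 395) (nat_lit 277)) (XT.lf (nat_lit 0) (nat_lit 26907643485) (nat_lit 152) (nat_lit 12181268379) (nat_lit 0) (nat_lit 1769911633) (nat_lit 66) (nat_lit 5) (nat_lit 68) (nat_lit 4) (nat_lit 66) (nat_lit 4) (nat_lit 529) (nat_lit 395) (nat_lit 276)))) (XT.nd (nat_lit 156) (nat_lit 152) (nat_lit 0) (XT.nd (nat_lit 78) (nat_lit 76) (nat_lit 0) (XT.lf (nat_lit 0) (nat_lit 13200090974) (nat_lit 76) (nat_lit 26825959428) (nat_lit 76) (nat_lit 1665837141) (nat_lit 65) (nat_lit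 4) (nat_lit 66) (nat_lit 5) (nat_lit 66) (nat_lit 4) (nat_lit 530) (nat_lit 395) (nat_lit 275)) (XT.lf (nat_lit 0) (nat_lit 10876402816) (nat_lit 152) (nat_lit 3102762857) (nat_lit 76) (nat_lit 28564526589) (nat_lit 64) (nat_lit 5) (nat_lit 66) (nat_lit 5) (nat_lit 65) (nat_lit 4) (nat_lit 531) (nat_lit 395) (nat_lit 274))) (XT.nd (nat_lit 78) (nat_lit 76) (nat_lit 0) (XT.lf (nat_lit 0) (nat_lit 23447970934) (nat_lit 76) (nat_lit 518007706) (nat_lit 152) (nat_lit 19448441243) (nat_lit 63) (nat_lit 5) (nat_lit 64) (nat_lit 5) (nat_lit 65) (nat_lit 4) (nat_lit 532) (nat_lit 395) (nat_lit 273)) (XT.lf (nat_lit 0) (nat_lit 6505786394) (nat_lit 76) (nat_lit 31144112821) (nat_lit 76) (nat_lit 6655320465) (nat_lit 62) (nat_lit 4) (nat_lit 63) (nat_lit 5) (nat_lit 63) (nat_lit 4) (nat_lit 533) (nat_lit 395) (nat_lit 272))))) (XT.nd (nat_lit 312) (nat_lit 228) (nat_lit 0) (XT.nd (nat_lit 156) (nat_lit 152) (nat_lit 0) (XT.nd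 (nat_lit 78) (nat_lit 76) (nat_lit 0) (XT.lf (nat_lit 0) (nat_lit 6582271209) (nat_lit 152) (nat_lit 11146095986) (nat_lit 76) (nat_lit 27486857549) (nat_lit 61) (nat_lit 5) (nat_lit 63) (nat_lit 5) (nat_lit 62) (nat_lit 4) (nat_lit 534) (nat_lit 395) (nat_lit 271)) (XT.lf (nat_lit 0) (nat_lit 16523508490) (nat_lit 76) (nat_lit 3698347011) (nat_lit 152) (nat_lit 25924538790) (nat_lit 60) (nat_lit 5) (nat_lit 61) (nat_lit 5) (nat_lit 62) (nat_lit 4) (nat_lit 535) (nat_lit 395) (nat_lit 270))) (XT.nd (nat_lit 78) (nat_lit 152) (nat_lit 0) (XT.lf (nat_lit 0) (nat_lit 34467473529) (nat_lit 152) (nat_lit 1994805429) (nat_lit 0) (nat_lit 10637314645) (nat_lit 60) (nat_lit 5) (nat_lit 62) (nat_lit 4) (nat_lit 60) (nat_lit 4) (nat_lit 536) (nat_lit 395) (nat_lit 269)) (XT.lf (nat_lit 0) (nat_lit 1316851434) (nat_lit 152) (nat_lit 21174110876) (nat_lit 76) (nat_lit 25581767836) (nat_lit 58) (nat_lit 5) (nat_lit 60) (nat_lit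 5) (nat_lit 59) (nat_lit 4) (nat_lit 537) (nat_lit 395) (nat_lit 268)))) (XT.nd (nat_lit 156) (nat_lit 152) (nat_lit 0) (XT.nd (nat_lit 78) (nat_lit 0) (nat_lit 0) (XT.lf (nat_lit 0) (nat_lit 7609764054) (nat_lit 76) (nat_lit 7894543299) (nat_lit 152) (nat_lit 33564784126) (nat_lit 57) (nat_lit 5) (nat_lit 58) (nat_lit 5) (nat_lit 59) (nat_lit 4) (nat_lit 538) (nat_lit 395) (nat_lit 267)) (XT.lf (nat_lit 0) (nat_lit 30382387596) (nat_lit 152) (nat_lit 12507235201) (nat_lit 0) (nat_lit 7197770895) (nat_lit 57) (nat_lit 5) (nat_lit 59) (nat_lit 4) (nat_lit 57) (nat_lit 4) (nat_lit 539) (nat_lit 395) (nat_lit 266))) (XT.nd (nat_lit 78) (nat_lit 76) (nat_lit 0) (XT.lf (nat_lit 0) (nat_lit 17539890409) (nat_lit 76) (nat_lit 28394692467) (nat_lit 76) (nat_lit 5194828969) (nat_lit 56) (nat_lit 4) (nat_lit 57) (nat_lit 5) (nat_lit 57) (nat_lit 4) (nat_lit 540) (nat_lit 395) (nat_lit 265)) (XT.lf (nat_lit 0) (nat_lit 9668945686)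 (nat_lit 152) (nat_lit 3586706469) (nat_lit 76) (nat_lit 38940969687) (nat_lit 55) (nat_lit 5) (nat_lit 57) (nat_lit 5) (nat_lit 56) (nat_lit 4) (nat_lit 541) (nat_lit 395) (nat_lit 264))))))) (XT.nd (nat_lit 52260) (nat_lit 0) (nat_lit 22420) (XT.nd (nat_lit 546) (nat_lit 304) (nat_lit 0) (XT.nd (nat_lit 234) (nat_lit 228) (nat_lit 0) (XT.nd (nat_lit 78) (nat_lit 152) (nat_lit 0) (XT.lf (nat_lit 0) (nat_lit 25148180701) (nat_lit 152) (nat_lit 25542188894) (nat_lit 0) (nat_lit 2595716835) (nat_lit 54) (nat_lit 5) (nat_lit 56) (nat_lit 4) (nat_lit 54) (nat_lit 4) (nat_lit 542) (nat_lit 395) (nat_lit 263)) (XT.nd (nat_lit 78) (nat_lit 76) (nat_lit 0) (XT.lf (nat_lit 0) (nat_lit 5622343429) (nat_lit 76) (nat_lit 35672899263) (nat_lit 76) (nat_lit 13106888816) (nat_lit 53) (nat_lit 4) (nat_lit 54) (nat_lit 5) (nat_lit 54) (nat_lit 4) (nat_lit 543) (nat_lit 395) (nat_lit 262)) (XT.lf (nat_lit 0) (nat_lit 2570783424)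 (nat_lit 152) (nat_lit 17360472115) (nat_lit 76) (nat_lit 35612455407) (nat_lit 52) (nat_lit 5) (nat_lit 54) (nat_lit 5) (nat_lit 53) (nat_lit 4) (nat_lit 544) (nat_lit 395) (nat_lit 261)))) (XT.nd (nat_lit 156) (nat_lit 152) (nat_lit 0) (XT.nd (nat_lit 78) (nat_lit 0) (nat_lit 0) (XT.lf (nat_lit 0) (nat_lit 15131416440) (nat_lit 76) (nat_lit 3451513539) (nat_lit 152) (nat_lit 38128887309) (nat_lit 51) (nat_lit 5) (nat_lit 52) (nat_lit 5) (nat_lit 53) (nat_lit 4) (nat_lit 545) (nat_lit 395) (nat_lit 260)) (XT.lf (nat_lit 0) (nat_lit 35364613010) (nat_lit 152) (nat_lit 9123015645) (nat_lit 0) (nat_lit 13418663048) (nat_lit 51) (nat_lit 5) (nat_lit 53) (nat_lit 4) (nat_lit 51) (nat_lit 4) (nat_lit 546) (nat_lit 395) (nat_lit 259))) (XT.nd (nat_lit 78) (nat_lit 76) (nat_lit 0) (XT.lf (nat_lit 0) (nat_lit 24721845573) (nat_lit 76) (nat_lit 28182377937) (nat_lit 76) (nat_lit 6224742575) (nat_lit 50) (nat_lit 4) (nat_lit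 51) (nat_lit 5) (nat_lit 51) (nat_lit 4) (nat_lit 547) (nat_lit 395) (nat_lit 258)) (XT.lf (nat_lit 0) (nat_lit 10450920083) (nat_lit 152) (nat_lit 753612642) (nat_lit 76) (nat_lit 49178465312) (nat_lit 49) (nat_lit 5) (nat_lit 51) (nat_lit 5) (nat_lit 50) (nat_lit 4) (nat_lit 548) (nat_lit 395) (nat_lit 257))))) (XT.nd (nat_lit 312) (nat_lit 0) (nat_lit 0) (XT.nd (nat_lit 156) (nat_lit 152) (nat_lit 0) (XT.nd (nat_lit 78) (nat_lit 76) (nat_lit 0) (XT.lf (nat_lit 0) (nat_lit 27880553704) (nat_lit 152) (nat_lit 27240131268) (nat_lit 0) (nat_lit 6540752712) (nat_lit 48) (nat_lit 5) (nat_lit 50) (nat_lit 4) (nat_lit 48) (nat_lit 4) (nat_lit 549) (nat_lit 395) (nat_lit 256)) (XT.lf (nat_lit 0) (nat_lit 7694556931) (nat_lit 76) (nat_lit 38314291886) (nat_lit 76) (nat_lit 16964108568) (nat_lit 47) (nat_lit 4) (nat_lit 48) (nat_lit 5) (nat_lit 48) (nat_lit 4) (nat_lit 550) (nat_lit 395) (nat_lit 255))) (XT.nd (nat_lit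 78) (nat_lit 76) (nat_lit 0) (XT.lf (nat_lit 0) (nat_lit 611188242) (nat_lit 152) (nat_lit 20119551114) (nat_lit 76) (nat_lit 43585150724) (nat_lit 46) (nat_lit 5) (nat_lit 48) (nat_lit 5) (nat_lit 47) (nat_lit 4) (nat_lit 551) (nat_lit 395) (nat_lit 254)) (XT.lf (nat_lit 0) (nat_lit 16209885851) (nat_lit 76) (nat_lit 2302397615) (nat_lit 152) (nat_lit 47177603441) (nat_lit 45) (nat_lit 5) (nat_lit 46) (nat_lit 5) (nat_lit 47) (nat_lit 4) (nat_lit 552) (nat_lit 395) (nat_lit 253)))) (XT.nd (nat_lit 51246) (nat_lit 0) (nat_lit 30932) (XT.nd (nat_lit 51168) (nat_lit 0) (nat_lit 31388) (XT.lf (nat_lit 0) (nat_lit 37299611147) (nat_lit 152) (nat_lit 13252250909) (nat_lit 0) (nat_lit 16542765628) (nat_lit 45) (nat_lit 5) (nat_lit 47) (nat_lit 4) (nat_lit 45) (nat_lit 4) (nat_lit 553) (nat_lit 395) (nat_lit 252)) (XT.lf (nat_lit 0) (nat_lit 553496498) (nat_lit 380) (nat_lit 2147846461) (nat_lit 0) (nat_lit 553496498)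 (nat_lit 458) (nat_lit 5) (nat_lit 463) (nat_lit 4) (nat_lit 458) (nat_lit 4) (nat_lit 408) (nat_lit 396) (nat_lit 396))) (XT.nd (nat_lit 78) (nat_lit 456) (nat_lit 0) (XT.lf (nat_lit 0) (nat_lit 4332135173) (nat_lit 380) (nat_lit 475064751) (nat_lit 0) (nat_lit 1720841538) (nat_lit 458) (nat_lit 5) (nat_lit 463) (nat_lit 4) (nat_lit 458) (nat_lit 4) (nat_lit 409) (nat_lit 396) (nat_lit 395)) (XT.lf (nat_lit 0) (nat_lit 1004197702) (nat_lit 456) (nat_lit 3108008836) (nat_lit 76) (nat_lit 2436876390) (nat_lit 452) (nat_lit 5) (nat_lit 458) (nat_lit 5) (nat_lit 453) (nat_lit 4) (nat_lit 410) (nat_lit 396) (nat_lit 394)))))) (XT.nd (nat_lit 624) (nat_lit 5244) (nat_lit 0) (XT.nd (nat_lit 312) (nat_lit 2128) (nat_lit 0) (XT.nd (nat_lit 156) (nat_lit 608) (nat_lit 0) (XT.nd (nat_lit 78) (nat_lit 76) (nat_lit 0) (XT.lf (nat_lit 0) (nat_lit 830432969) (nat_lit 456) (nat_lit 3326393551) (nat_lit 532) (nat_lit 2416265908)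 (nat_lit 446) (nat_lit 5) (nat_lit 452) (nat_lit 5) (nat_lit 453) (nat_lit 4) (nat_lit 411) (nat_lit 396) (nat_lit 393)) (XT.lf (nat_lit 0) (nat_lit 711437908) (nat_lit 532) (nat_lit 1733457758) (nat_lit 76) (nat_lit 4155073570) (nat_lit 445) (nat_lit 5) (nat_lit 452) (nat_lit 5) (nat_lit 446) (nat_lit 5) (nat_lit 412) (nat_lit 396) (nat_lit 392))) (XT.nd (nat_lit 78) (nat_lit 76) (nat_lit 0) (XT.lf (nat_lit 0) (nat_lit 2340827252) (nat_lit 532) (nat_lit 1458570346) (nat_lit 608) (nat_lit 2830095383) (nat_lit 438) (nat_lit 5) (nat_lit 445) (nat_lit 5) (nat_lit 446) (nat_lit 5) (nat_lit 413) (nat_lit 396) (nat_lit 391)) (XT.lf (nat_lit 0) (nat_lit 225363801) (nat_lit 608) (nat_lit 168065832) (nat_lit 76) (nat_lit 6269042561) (nat_lit 437) (nat_lit 5) (nat_lit 445) (nat_lit 5) (nat_lit 438) (nat_lit 5) (nat_lit 414) (nat_lit 396) (nat_lit 390)))) (XT.nd (nat_lit 156) (nat_lit 836) (nat_lit 0) (XT.nd (nat_lit 78) (nat_lit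 684) (nat_lit 0) (XT.lf (nat_lit 0) (nat_lit 3259164336) (nat_lit 684) (nat_lit 2654066710) (nat_lit 76) (nat_lit 784069660) (nat_lit 429) (nat_lit 5) (nat_lit 438) (nat_lit 5) (nat_lit 430) (nat_lit 5) (nat_lit 415) (nat_lit 396) (nat_lit 389)) (XT.lf (nat_lit 0) (nat_lit 1599940387) (nat_lit 684) (nat_lit 4704481453) (nat_lit 760) (nat_lit 431146066) (nat_lit 420) (nat_lit 5) (nat_lit 429) (nat_lit 5) (nat_lit 430) (nat_lit 5) (nat_lit 416) (nat_lit 396) (nat_lit 388))) (XT.nd (nat_lit 78) (nat_lit 760) (nat_lit 0) (XT.lf (nat_lit 0) (nat_lit 2541749962) (nat_lit 760) (nat_lit 843875307) (nat_lit 76) (nat_lit 3390764123) (nat_lit 419) (nat_lit 5) (nat_lit 429) (nat_lit 5) (nat_lit 420) (nat_lit 5) (nat_lit 417) (nat_lit 396) (nat_lit 387)) (XT.lf (nat_lit 0) (nat_lit 3564463226) (nat_lit 760) (nat_lit 1968515512) (nat_lit 836) (nat_lit 1287200894) (nat_lit 409) (nat_lit 5) (nat_lit 419) (nat_lit 5) (nat_lit 420)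 (nat_lit 5) (nat_lit 418) (nat_lit 396) (nat_lit 386))))) (XT.nd (nat_lit 312) (nat_lit 2356) (nat_lit 0) (XT.nd (nat_lit 156) (nat_lit 1976) (nat_lit 0) (XT.nd (nat_lit 78) (nat_lit 0) (nat_lit 0) (XT.lf (nat_lit 0) (nat_lit 1184954905) (nat_lit 836) (nat_lit 454258669) (nat_lit 912) (nat_lit 5227831609) (nat_lit 397) (nat_lit 5) (nat_lit 408) (nat_lit 5) (nat_lit 409) (nat_lit 5) (nat_lit 419) (nat_lit 396) (nat_lit 385)) (XT.lf (nat_lit 0) (nat_lit 4578232878) (nat_lit 912) (nat_lit 1193220882) (nat_lit 76) (nat_lit 1144966052) (nat_lit 397) (nat_lit 5) (nat_lit 409) (nat_lit 5) (nat_lit 398) (nat_lit 5) (nat_lit 420) (nat_lit 396) (nat_lit 384))) (XT.nd (nat_lit 78) (nat_lit 988) (nat_lit 0) (XT.lf (nat_lit 0) (nat_lit 572047022) (nat_lit 988) (nat_lit 3560473554) (nat_lit 76) (nat_lit 2836186121) (nat_lit 384) (nat_lit 5) (nat_lit 397) (nat_lit 5) (nat_lit 385) (nat_lit 5) (nat_lit 421) (nat_lit 396) (nat_lit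 383)) (XT.lf (nat_lit 0) (nat_lit 1068119905) (nat_lit 988) (nat_lit 2387482905) (nat_lit 1064) (nat_lit 3568280025) (nat_lit 371) (nat_lit 5) (nat_lit 384) (nat_lit 5) (nat_lit 385) (nat_lit 5) (nat_lit 422) (nat_lit 396) (nat_lit 382)))) (XT.nd (nat_lit 156) (nat_lit 1216) (nat_lit 0) (XT.nd (nat_lit 78) (nat_lit 1140) (nat_lit 0) (XT.lf (nat_lit 0) (nat_lit 5829893012) (nat_lit 988) (nat_lit 544148674) (nat_lit 1064) (nat_lit 708226579) (nat_lit 371) (nat_lit 5) (nat_lit 384) (nat_lit 5) (nat_lit 385) (nat_lit 5) (nat_lit 423) (nat_lit 396) (nat_lit 381)) (XT.lf (nat_lit 0) (nat_lit 2155978130) (nat_lit 1140) (nat_lit 3594935611) (nat_lit 76) (nat_lit 1391990810) (nat_lit 356) (nat_lit 5) (nat_lit 371) (nat_lit 5) (nat_lit 357) (nat_lit 5) (nat_lit 424) (nat_lit 396) (nat_lit 380))) (XT.nd (nat_lit 78) (nat_lit 76) (nat_lit 0) (XT.lf (nat_lit 0) (nat_lit 1244866976) (nat_lit 1140) (nat_lit 3793082863) (nat_lit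 1216) (nat_lit 2168822308) (nat_lit 341) (nat_lit 5) (nat_lit 356) (nat_lit 5) (nat_lit 357) (nat_lit 5) (nat_lit 425) (nat_lit 396) (nat_lit 379)) (XT.lf (nat_lit 0) (nat_lit 672983629) (nat_lit 1216) (nat_lit 1056115696) (nat_lit 76) (nat_lit 5544645049) (nat_lit 340) (nat_lit 5) (nat_lit 356) (nat_lit 5) (nat_lit 341) (nat_lit 5) (nat_lit 426) (nat_lit 396) (nat_lit 378))))))))
noncomputable def xc85 : XT := (XT.nd (nat_lit 2418) (nat_lit 5548) (nat_lit 0) (XT.nd (nat_lit 1170) (nat_lit 4408) (nat_lit 0) (XT.nd (nat_lit 546) (nat_lit 3268) (nat_lit 0) (XT.nd (nat_lit 234) (nat_lit 1824) (nat_lit 0) (XT.nd (nat_lit 78) (nat_lit 912) (nat_lit 0) (XT.lf (nat_lit 0) (nat_lit 3518325172) (nat_lit 1292) (nat_lit 3373298253) (nat_lit 76) (nat_lit 451606398) (nat_lit 324) (nat_lit 5) (nat_lit 341) (nat_lit 5) (nat_lit 325) (nat_lit 5) (nat_lit 427) (nat_lit 396) (nat_lit 377)) (XT.nd (nat_lit 78) (nat_lit 76) (nat_lit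 0) (XT.lf (nat_lit 0) (nat_lit 1689611794) (nat_lit 836) (nat_lit 4724406582) (nat_lit 912) (nat_lit 1001836025) (nat_lit 313) (nat_lit 5) (nat_lit 324) (nat_lit 5) (nat_lit 325) (nat_lit 5) (nat_lit 428) (nat_lit 396) (nat_lit 376)) (XT.lf (nat_lit 0) (nat_lit 1824764512) (nat_lit 912) (nat_lit 615577302) (nat_lit 76) (nat_lit 5051089397) (nat_lit 312) (nat_lit 5) (nat_lit 324) (nat_lit 5) (nat_lit 313) (nat_lit 5) (nat_lit 429) (nat_lit 396) (nat_lit 375)))) (XT.nd (nat_lit 156) (nat_lit 608) (nat_lit 0) (XT.nd (nat_lit 78) (nat_lit 608) (nat_lit 0) (XT.lf (nat_lit 0) (nat_lit 4650754614) (nat_lit 608) (nat_lit 33891394) (nat_lit 684) (nat_lit 2885277119) (nat_lit 304) (nat_lit 5) (nat_lit 312) (nat_lit 5) (nat_lit 313) (nat_lit 5) (nat_lit 430) (nat_lit 396) (nat_lit 374)) (XT.lf (nat_lit 0) (nat_lit 2380063261) (nat_lit 608) (nat_lit 5228269657) (nat_lit 684) (nat_lit 43100441) (nat_lit 296) (nat_lit 5) (nat_lit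 304) (nat_lit 5) (nat_lit 305) (nat_lit 5) (nat_lit 431) (nat_lit 396) (nat_lit 373))) (XT.nd (nat_lit 78) (nat_lit 0) (nat_lit 0) (XT.lf (nat_lit 0) (nat_lit 55719091) (nat_lit 532) (nat_lit 2729016336) (nat_lit 608) (nat_lit 4951124965) (nat_lit 288) (nat_lit 5) (nat_lit 295) (nat_lit 5) (nat_lit 296) (nat_lit 5) (nat_lit 432) (nat_lit 396) (nat_lit 372)) (XT.lf (nat_lit 0) (nat_lit 5570411829) (nat_lit 532) (nat_lit 106778343) (nat_lit 608) (nat_lit 2146201263) (nat_lit 288) (nat_lit 5) (nat_lit 295) (nat_lit 5) (nat_lit 296) (nat_lit 5) (nat_lit 433) (nat_lit 396) (nat_lit 371))))) (XT.nd (nat_lit 312) (nat_lit 1444) (nat_lit 0) (XT.nd (nat_lit 156) (nat_lit 608) (nat_lit 0) (XT.nd (nat_lit 78) (nat_lit 532) (nat_lit 0) (XT.lf (nat_lit 0) (nat_lit 714330561) (nat_lit 684) (nat_lit 4624134525) (nat_lit 76) (nat_lit 2575293703) (nat_lit 279) (nat_lit 5) (nat_lit 288) (nat_lit 5) (nat_lit 280) (nat_lit 5) (nat_lit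 434) (nat_lit 396) (nat_lit 370)) (XT.lf (nat_lit 0) (nat_lit 954457396) (nat_lit 532) (nat_lit 2626370622) (nat_lit 608) (nat_lit 4426476280) (nat_lit 272) (nat_lit 5) (nat_lit 279) (nat_lit 5) (nat_lit 280) (nat_lit 5) (nat_lit 435) (nat_lit 396) (nat_lit 369))) (XT.nd (nat_lit 78) (nat_lit 608) (nat_lit 0) (XT.lf (nat_lit 0) (nat_lit 6513332036) (nat_lit 608) (nat_lit 1390470860) (nat_lit 76) (nat_lit 200456039) (nat_lit 272) (nat_lit 5) (nat_lit 280) (nat_lit 5) (nat_lit 273) (nat_lit 5) (nat_lit 436) (nat_lit 396) (nat_lit 368)) (XT.lf (nat_lit 0) (nat_lit 1305528769) (nat_lit 608) (nat_lit 3793762912) (nat_lit 76) (nat_lit 3104396406) (nat_lit 264) (nat_lit 5) (nat_lit 272) (nat_lit 5) (nat_lit 265) (nat_lit 5) (nat_lit 437) (nat_lit 396) (nat_lit 367)))) (XT.nd (nat_lit 156) (nat_lit 988) (nat_lit 0) (XT.nd (nat_lit 78) (nat_lit 0) (nat_lit 0) (XT.lf (nat_lit 0) (nat_lit 2051783028) (nat_lit 456) (nat_lit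 2172813501) (nat_lit 532) (nat_lit 4082003047) (nat_lit 258) (nat_lit 5) (nat_lit 264) (nat_lit 5) (nat_lit 265) (nat_lit 5) (nat_lit 438) (nat_lit 396) (nat_lit 366)) (XT.lf (nat_lit 0) (nat_lit 7212844997) (nat_lit 532) (nat_lit 350017171) (nat_lit 76) (nat_lit 850290746) (nat_lit 258) (nat_lit 5) (nat_lit 265) (nat_lit 5) (nat_lit 259) (nat_lit 5) (nat_lit 439) (nat_lit 396) (nat_lit 365))) (XT.nd (nat_lit 78) (nat_lit 456) (nat_lit 0) (XT.lf (nat_lit 0) (nat_lit 1746931728) (nat_lit 532) (nat_lit 2795340974) (nat_lit 76) (nat_lit 3979715235) (nat_lit 251) (nat_lit 5) (nat_lit 258) (nat_lit 5) (nat_lit 252) (nat_lit 5) (nat_lit 440) (nat_lit 396) (nat_lit 364)) (XT.lf (nat_lit 0) (nat_lit 3333225334) (nat_lit 456) (nat_lit 1398058228) (nat_lit 532) (nat_lit 3903265852) (nat_lit 245) (nat_lit 5) (nat_lit 251) (nat_lit 5) (nat_lit 252) (nat_lit 5) (nat_lit 441) (nat_lit 396) (nat_lit 363)))))) (XT.nd (nat_lit 624)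 (nat_lit 1748) (nat_lit 0) (XT.nd (nat_lit 312) (nat_lit 1292) (nat_lit 0) (XT.nd (nat_lit 156) (nat_lit 836) (nat_lit 0) (XT.nd (nat_lit 78) (nat_lit 76) (nat_lit 0) (XT.lf (nat_lit 0) (nat_lit 872739450) (nat_lit 456) (nat_lit 6925147920) (nat_lit 532) (nat_lit 952821180) (nat_lit 239) (nat_lit 5) (nat_lit 245) (nat_lit 5) (nat_lit 246) (nat_lit 5) (nat_lit 442) (nat_lit 396) (nat_lit 362)) (XT.lf (nat_lit 0) (nat_lit 2051906741) (nat_lit 532) (nat_lit 1642548198) (nat_lit 76) (nat_lit 5175103901) (nat_lit 238) (nat_lit 5) (nat_lit 245) (nat_lit 5) (nat_lit 239) (nat_lit 5) (nat_lit 443) (nat_lit 396) (nat_lit 361))) (XT.nd (nat_lit 78) (nat_lit 456) (nat_lit 0) (XT.lf (nat_lit 0) (nat_lit 4786155674) (nat_lit 380) (nat_lit 327839447) (nat_lit 456) (nat_lit 3878107669) (nat_lit 233) (nat_lit 5) (nat_lit 238) (nat_lit 5) (nat_lit 239) (nat_lit 5) (nat_lit 444) (nat_lit 396) (nat_lit 360)) (XT.lf (nat_lit 0) (nat_lit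 2258732279) (nat_lit 456) (nat_lit 6019041078) (nat_lit 532) (nat_lit 840257068) (nat_lit 227) (nat_lit 5) (nat_lit 233) (nat_lit 5) (nat_lit 234) (nat_lit 5) (nat_lit 445) (nat_lit 396) (nat_lit 359)))) (XT.nd (nat_lit 156) (nat_lit 836) (nat_lit 0) (XT.nd (nat_lit 78) (nat_lit 380) (nat_lit 0) (XT.lf (nat_lit 0) (nat_lit 2231779143) (nat_lit 532) (nat_lit 347517522) (nat_lit 76) (nat_lit 6668149919) (nat_lit 226) (nat_lit 5) (nat_lit 233) (nat_lit 5) (nat_lit 227) (nat_lit 5) (nat_lit 446) (nat_lit 396) (nat_lit 358)) (XT.lf (nat_lit 0) (nat_lit 5393642016) (nat_lit 456) (nat_lit 2990600851) (nat_lit 76) (nat_lit 995818160) (nat_lit 221) (nat_lit 5) (nat_lit 227) (nat_lit 5) (nat_lit 222) (nat_lit 5) (nat_lit 447) (nat_lit 396) (nat_lit 357))) (XT.nd (nat_lit 78) (nat_lit 456) (nat_lit 0) (XT.lf (nat_lit 0) (nat_lit 3790118920) (nat_lit 380) (nat_lit 4869760563) (nat_lit 456) (nat_lit 856490799) (nat_lit 216)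 (nat_lit 5) (nat_lit 221) (nat_lit 5) (nat_lit 222) (nat_lit 5) (nat_lit 448) (nat_lit 396) (nat_lit 356)) (XT.lf (nat_lit 0) (nat_lit 1100378309) (nat_lit 380) (nat_lit 1206188529) (nat_lit 456) (nat_lit 7349958312) (nat_lit 210) (nat_lit 5) (nat_lit 215) (nat_lit 5) (nat_lit 216) (nat_lit 5) (nat_lit 449) (nat_lit 396) (nat_lit 355))))) (XT.nd (nat_lit 312) (nat_lit 988) (nat_lit 0) (XT.nd (nat_lit 156) (nat_lit 380) (nat_lit 0) (XT.nd (nat_lit 78) (nat_lit 380) (nat_lit 0) (XT.lf (nat_lit 0) (nat_lit 5575394860) (nat_lit 456) (nat_lit 1662101268) (nat_lit 76) (nat_lit 2562293109) (nat_lit 210) (nat_lit 5) (nat_lit 216) (nat_lit 5) (nat_lit 211) (nat_lit 5) (nat_lit 450) (nat_lit 396) (nat_lit 354)) (XT.lf (nat_lit 0) (nat_lit 5457186614) (nat_lit 380) (nat_lit 3496121266) (nat_lit 456) (nat_lit 993714486) (nat_lit 205) (nat_lit 5) (nat_lit 210) (nat_lit 5) (nat_lit 211) (nat_lit 5) (nat_lit 451) (nat_lit 396)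 (nat_lit 353))) (XT.nd (nat_lit 78) (nat_lit 0) (nat_lit 0) (XT.lf (nat_lit 0) (nat_lit 2281832420) (nat_lit 380) (nat_lit 7422970891) (nat_lit 76) (nat_lit 393393086) (nat_lit 200) (nat_lit 5) (nat_lit 205) (nat_lit 5) (nat_lit 201) (nat_lit 5) (nat_lit 452) (nat_lit 396) (nat_lit 352)) (XT.lf (nat_lit 0) (nat_lit 5663596621) (nat_lit 380) (nat_lit 227204395) (nat_lit 76) (nat_lit 4361973341) (nat_lit 200) (nat_lit 5) (nat_lit 205) (nat_lit 5) (nat_lit 201) (nat_lit 5) (nat_lit 453) (nat_lit 396) (nat_lit 351)))) (XT.nd (nat_lit 156) (nat_lit 304) (nat_lit 0) (XT.nd (nat_lit 78) (nat_lit 380) (nat_lit 0) (XT.lf (nat_lit 0) (nat_lit 7251142632) (nat_lit 304) (nat_lit 1914423113) (nat_lit 380) (nat_lit 1245862881) (nat_lit 196) (nat_lit 5) (nat_lit 200) (nat_lit 5) (nat_lit 201) (nat_lit 5) (nat_lit 454) (nat_lit 396) (nat_lit 350)) (XT.lf (nat_lit 0) (nat_lit 2169921582) (nat_lit 380) (nat_lit 6222941573) (nat_lit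 76) (nat_lit 2180895341) (nat_lit 191) (nat_lit 5) (nat_lit 196) (nat_lit 5) (nat_lit 192) (nat_lit 5) (nat_lit 455) (nat_lit 396) (nat_lit 349))) (XT.nd (nat_lit 78) (nat_lit 0) (nat_lit 0) (XT.lf (nat_lit 0) (nat_lit 1330804273) (nat_lit 304) (nat_lit 4346160816) (nat_lit 380) (nat_lit 5063209734) (nat_lit 187) (nat_lit 5) (nat_lit 191) (nat_lit 5) (nat_lit 192) (nat_lit 5) (nat_lit 456) (nat_lit 396) (nat_lit 348)) (XT.lf (nat_lit 0) (nat_lit 9163874414) (nat_lit 304) (nat_lit 138776411) (nat_lit 380) (nat_lit 1608531246) (nat_lit 187) (nat_lit 5) (nat_lit 191) (nat_lit 5) (nat_lit 192) (nat_lit 5) (nat_lit 457) (nat_lit 396) (nat_lit 347))))))) (XT.nd (nat_lit 1248) (nat_lit 2280) (nat_lit 0) (XT.nd (nat_lit 624) (nat_lit 1444) (nat_lit 0) (XT.nd (nat_lit 312) (nat_lit 836) (nat_lit 0) (XT.nd (nat_lit 156) (nat_lit 304) (nat_lit 0) (XT.nd (nat_lit 78) (nat_lit 304) (nat_lit 0) (XT.lf (nat_lit 0) (nat_lit 1963484296)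 (nat_lit 380) (nat_lit 4954597618) (nat_lit 76) (nat_lit 4167124306) (nat_lit 182) (nat_lit 5) (nat_lit 187) (nat_lit 5) (nat_lit 183) (nat_lit 5) (nat_lit 458) (nat_lit 396) (nat_lit 346)) (XT.lf (nat_lit 0) (nat_lit 2983393768) (nat_lit 304) (nat_lit 2626830304) (nat_lit 380) (nat_lit 5653753675) (nat_lit 178) (nat_lit 5) (nat_lit 182) (nat_lit 5) (nat_lit 183) (nat_lit 5) (nat_lit 459) (nat_lit 396) (nat_lit 345))) (XT.nd (nat_lit 78) (nat_lit 304) (nat_lit 0) (XT.lf (nat_lit 0) (nat_lit 9386593607) (nat_lit 380) (nat_lit 277803780) (nat_lit 76) (nat_lit 1783109415) (nat_lit 178) (nat_lit 5) (nat_lit 183) (nat_lit 5) (nat_lit 179) (nat_lit 5) (nat_lit 460) (nat_lit 396) (nat_lit 344)) (XT.lf (nat_lit 0) (nat_lit 1665259381) (nat_lit 304) (nat_lit 3627923683) (nat_lit 76) (nat_lit 6341160639) (nat_lit 174) (nat_lit 5) (nat_lit 178) (nat_lit 5) (nat_lit 175) (nat_lit 5) (nat_lit 461) (nat_lit 396) (nat_lit 343))))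 (XT.nd (nat_lit 156) (nat_lit 304) (nat_lit 0) (XT.nd (nat_lit 78) (nat_lit 228) (nat_lit 0) (XT.lf (nat_lit 0) (nat_lit 4717196386) (nat_lit 304) (nat_lit 746827888) (nat_lit 380) (nat_lit 6362083508) (nat_lit 170) (nat_lit 5) (nat_lit 174) (nat_lit 5) (nat_lit 175) (nat_lit 5) (nat_lit 462) (nat_lit 396) (nat_lit 342)) (XT.lf (nat_lit 0) (nat_lit 1278282928) (nat_lit 228) (nat_lit 8140032733) (nat_lit 304) (nat_lit 2604063288) (nat_lit 167) (nat_lit 5) (nat_lit 170) (nat_lit 5) (nat_lit 171) (nat_lit 5) (nat_lit 463) (nat_lit 396) (nat_lit 341))) (XT.nd (nat_lit 78) (nat_lit 228) (nat_lit 0) (XT.lf (nat_lit 0) (nat_lit 1276501123) (nat_lit 304) (nat_lit 2253012736) (nat_lit 76) (nat_lit 8693624476) (nat_lit 166) (nat_lit 5) (nat_lit 170) (nat_lit 5) (nat_lit 167) (nat_lit 5) (nat_lit 464) (nat_lit 396) (nat_lit 340)) (XT.lf (nat_lit 0) (nat_lit 5252138402) (nat_lit 304) (nat_lit 5917647415) (nat_lit 76) (nat_lit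 1258432332) (nat_lit 163) (nat_lit 5) (nat_lit 167) (nat_lit 5) (nat_lit 164) (nat_lit 5) (nat_lit 465) (nat_lit 396) (nat_lit 339))))) (XT.nd (nat_lit 312) (nat_lit 684) (nat_lit 0) (XT.nd (nat_lit 156) (nat_lit 456) (nat_lit 0) (XT.nd (nat_lit 78) (nat_lit 76) (nat_lit 0) (XT.lf (nat_lit 0) (nat_lit 2894404040) (nat_lit 228) (nat_lit 6494685485) (nat_lit 304) (nat_lit 3249100445) (nat_lit 160) (nat_lit 5) (nat_lit 163) (nat_lit 5) (nat_lit 164) (nat_lit 5) (nat_lit 466) (nat_lit 396) (nat_lit 338)) (XT.lf (nat_lit 0) (nat_lit 796975423) (nat_lit 304) (nat_lit 840336710) (nat_lit 76) (nat_lit 11216415834) (nat_lit 159) (nat_lit 5) (nat_lit 163) (nat_lit 5) (nat_lit 160) (nat_lit 5) (nat_lit 467) (nat_lit 396) (nat_lit 337))) (XT.nd (nat_lit 78) (nat_lit 228) (nat_lit 0) (XT.lf (nat_lit 0) (nat_lit 4970745584) (nat_lit 304) (nat_lit 4714481078) (nat_lit 76) (nat_lit 3387392765) (nat_lit 156) (nat_lit 5) (nat_lit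 160) (nat_lit 5) (nat_lit 157) (nat_lit 5) (nat_lit 468) (nat_lit 396) (nat_lit 336)) (XT.lf (nat_lit 0) (nat_lit 4554778327) (nat_lit 228) (nat_lit 4741557700) (nat_lit 304) (nat_lit 4000944237) (nat_lit 153) (nat_lit 5) (nat_lit 156) (nat_lit 5) (nat_lit 157) (nat_lit 5) (nat_lit 469) (nat_lit 396) (nat_lit 335)))) (XT.nd (nat_lit 156) (nat_lit 380) (nat_lit 0) (XT.nd (nat_lit 78) (nat_lit 0) (nat_lit 0) (XT.lf (nat_lit 0) (nat_lit 234455870) (nat_lit 304) (nat_lit 12921022533) (nat_lit 76) (nat_lit 372665177) (nat_lit 149) (nat_lit 5) (nat_lit 153) (nat_lit 5) (nat_lit 150) (nat_lit 5) (nat_lit 470) (nat_lit 396) (nat_lit 334)) (XT.lf (nat_lit 0) (nat_lit 4611078731) (nat_lit 304) (nat_lit 3504482615) (nat_lit 76) (nat_lit 5646346553) (nat_lit 149) (nat_lit 5) (nat_lit 153) (nat_lit 5) (nat_lit 150) (nat_lit 5) (nat_lit 471) (nat_lit 396) (nat_lit 333))) (XT.nd (nat_lit 78) (nat_lit 228) (nat_lit 0) (XT.lf (nat_lit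 0) (nat_lit 6248315376) (nat_lit 152) (nat_lit 2890430487) (nat_lit 228) (nat_lit 4863347671) (nat_lit 147) (nat_lit 5) (nat_lit 149) (nat_lit 5) (nat_lit 150) (nat_lit 5) (nat_lit 472) (nat_lit 396) (nat_lit 332)) (XT.lf (nat_lit 0) (nat_lit 2064677070) (nat_lit 228) (nat_lit 11777043138) (nat_lit 304) (nat_lit 406580944) (nat_lit 144) (nat_lit 5) (nat_lit 147) (nat_lit 5) (nat_lit 148) (nat_lit 5) (nat_lit 473) (nat_lit 396) (nat_lit 331)))))) (XT.nd (nat_lit 624) (nat_lit 1140) (nat_lit 0) (XT.nd (nat_lit 312) (nat_lit 608) (nat_lit 0) (XT.nd (nat_lit 156) (nat_lit 304) (nat_lit 0) (XT.nd (nat_lit 78) (nat_lit 152) (nat_lit 0) (XT.lf (nat_lit 0) (nat_lit 4170002680) (nat_lit 304) (nat_lit 2301076469) (nat_lit 76) (nat_lit 8027577298) (nat_lit 143) (nat_lit 5) (nat_lit 147) (nat_lit 5) (nat_lit 144) (nat_lit 5) (nat_lit 474) (nat_lit 396) (nat_lit 330)) (XT.lf (nat_lit 0) (nat_lit 7962750797) (nat_lit 152) (nat_lit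 950732448) (nat_lit 228) (nat_lit 5841785919) (nat_lit 141) (nat_lit 5) (nat_lit 143) (nat_lit 5) (nat_lit 144) (nat_lit 5) (nat_lit 475) (nat_lit 396) (nat_lit 329))) (XT.nd (nat_lit 78) (nat_lit 76) (nat_lit 0) (XT.lf (nat_lit 0) (nat_lit 3518914212) (nat_lit 228) (nat_lit 10344622988) (nat_lit 304) (nat_lit 1154115643) (nat_lit 138) (nat_lit 5) (nat_lit 141) (nat_lit 5) (nat_lit 142) (nat_lit 5) (nat_lit 476) (nat_lit 396) (nat_lit 328)) (XT.lf (nat_lit 0) (nat_lit 3642739799) (nat_lit 304) (nat_lit 1119226184) (nat_lit 76) (nat_lit 10523675557) (nat_lit 137) (nat_lit 5) (nat_lit 141) (nat_lit 5) (nat_lit 138) (nat_lit 5) (nat_lit 477) (nat_lit 396) (nat_lit 327)))) (XT.nd (nat_lit 156) (nat_lit 228) (nat_lit 0) (XT.nd (nat_lit 78) (nat_lit 228) (nat_lit 0) (XT.lf (nat_lit 0) (nat_lit 8626351163) (nat_lit 228) (nat_lit 5885649024) (nat_lit 76) (nat_lit 1047346093) (nat_lit 135) (nat_lit 5) (nat_lit 138) (nat_lit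 5) (nat_lit 136) (nat_lit 5) (nat_lit 478) (nat_lit 396) (nat_lit 326)) (XT.lf (nat_lit 0) (nat_lit 4956740571) (nat_lit 228) (nat_lit 8871831736) (nat_lit 304) (nat_lit 2010617390) (nat_lit 132) (nat_lit 5) (nat_lit 135) (nat_lit 5) (nat_lit 136) (nat_lit 5) (nat_lit 479) (nat_lit 396) (nat_lit 325))) (XT.nd (nat_lit 78) (nat_lit 0) (nat_lit 0) (XT.lf (nat_lit 0) (nat_lit 24639772) (nat_lit 152) (nat_lit 2998339611) (nat_lit 228) (nat_lit 13102869858) (nat_lit 129) (nat_lit 5) (nat_lit 131) (nat_lit 5) (nat_lit 132) (nat_lit 5) (nat_lit 480) (nat_lit 396) (nat_lit 324)) (XT.lf (nat_lit 0) (nat_lit 8270660224) (nat_lit 228) (nat_lit 5051555272) (nat_lit 76) (nat_lit 3095191761) (nat_lit 129) (nat_lit 5) (nat_lit 132) (nat_lit 5) (nat_lit 130) (nat_lit 5) (nat_lit 481) (nat_lit 396) (nat_lit 323))))) (XT.nd (nat_lit 312) (nat_lit 608) (nat_lit 0) (XT.nd (nat_lit 156) (nat_lit 152) (nat_lit 0) (XT.nd (nat_lit 78)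 (nat_lit 228) (nat_lit 0) (XT.lf (nat_lit 0) (nat_lit 6360486297) (nat_lit 152) (nat_lit 7370361771) (nat_lit 228) (nat_lit 2985212161) (nat_lit 127) (nat_lit 5) (nat_lit 129) (nat_lit 5) (nat_lit 130) (nat_lit 5) (nat_lit 482) (nat_lit 396) (nat_lit 322)) (XT.lf (nat_lit 0) (nat_lit 1131852278) (nat_lit 152) (nat_lit 1180558492) (nat_lit 228) (nat_lit 14709788302) (nat_lit 124) (nat_lit 5) (nat_lit 126) (nat_lit 5) (nat_lit 127) (nat_lit 5) (nat_lit 483) (nat_lit 396) (nat_lit 321))) (XT.nd (nat_lit 78) (nat_lit 152) (nat_lit 0) (XT.lf (nat_lit 0) (nat_lit 7829007788) (nat_lit 228) (nat_lit 4302519339) (nat_lit 76) (nat_lit 5201507368) (nat_lit 124) (nat_lit 5) (nat_lit 127) (nat_lit 5) (nat_lit 125) (nat_lit 5) (nat_lit 484) (nat_lit 396) (nat_lit 320)) (XT.lf (nat_lit 0) (nat_lit 7709771561) (nat_lit 152) (nat_lit 5852666746) (nat_lit 228) (nat_lit 4089217061) (nat_lit 122) (nat_lit 5) (nat_lit 124) (nat_lit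 5) (nat_lit 125) (nat_lit 5) (nat_lit 485) (nat_lit 396) (nat_lit 319)))) (XT.nd (nat_lit 156) (nat_lit 380) (nat_lit 0) (XT.nd (nat_lit 78) (nat_lit 0) (nat_lit 0) (XT.lf (nat_lit 0) (nat_lit 1495651957) (nat_lit 228) (nat_lit 15827465677) (nat_lit 76) (nat_lit 655188985) (nat_lit 119) (nat_lit 5) (nat_lit 122) (nat_lit 5) (nat_lit 120) (nat_lit 5) (nat_lit 486) (nat_lit 396) (nat_lit 318)) (XT.lf (nat_lit 0) (nat_lit 7290972987) (nat_lit 228) (nat_lit 3663181745) (nat_lit 76) (nat_lit 7355635620) (nat_lit 119) (nat_lit 5) (nat_lit 122) (nat_lit 5) (nat_lit 120) (nat_lit 5) (nat_lit 487) (nat_lit 396) (nat_lit 317))) (XT.nd (nat_lit 78) (nat_lit 228) (nat_lit 0) (XT.lf (nat_lit 0) (nat_lit 8980937492) (nat_lit 152) (nat_lit 4332304120) (nat_lit 228) (nat_lit 5336384748) (nat_lit 117) (nat_lit 5) (nat_lit 119) (nat_lit 5) (nat_lit 120) (nat_lit 5) (nat_lit 488) (nat_lit 396) (nat_lit 316)) (XT.lf (nat_lit 0) (nat_lit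 564553383) (nat_lit 228) (nat_lit 15947676368) (nat_lit 76) (nat_lit 2485535776) (nat_lit 114) (nat_lit 5) (nat_lit 117) (nat_lit 5) (nat_lit 115) (nat_lit 5) (nat_lit 489) (nat_lit 396) (nat_lit 315))))))))
noncomputable def xc86 : XT := (XT.nd (nat_lit 2418) (nat_lit 2204) (nat_lit 0) (XT.nd (nat_lit 1170) (nat_lit 1444) (nat_lit 0) (XT.nd (nat_lit 546) (nat_lit 836) (nat_lit 0) (XT.nd (nat_lit 234) (nat_lit 380) (nat_lit 0) (XT.nd (nat_lit 78) (nat_lit 304) (nat_lit 0) (XT.lf (nat_lit 0) (nat_lit 6643716425) (nat_lit 228) (nat_lit 3162031259) (nat_lit 76) (nat_lit 9545762906) (nat_lit 114) (nat_lit 5) (nat_lit 117) (nat_lit 5) (nat_lit 115) (nat_lit 5) (nat_lit 490) (nat_lit 396) (nat_lit 314)) (XT.nd (nat_lit 78) (nat_lit 152) (nat_lit 0) (XT.lf (nat_lit 0) (nat_lit 10146395010) (nat_lit 152) (nat_lit 2824312350) (nat_lit 228) (nat_lit 6743197414) (nat_lit 112) (nat_lit 5) (nat_lit 114) (nat_lit 5) (nat_lit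 115) (nat_lit 5) (nat_lit 491) (nat_lit 396) (nat_lit 313)) (XT.lf (nat_lit 0) (nat_lit 3805752008) (nat_lit 152) (nat_lit 15760599595) (nat_lit 228) (nat_lit 518454224) (nat_lit 110) (nat_lit 5) (nat_lit 112) (nat_lit 5) (nat_lit 113) (nat_lit 4) (nat_lit 492) (nat_lit 396) (nat_lit 312)))) (XT.nd (nat_lit 156) (nat_lit 152) (nat_lit 0) (XT.nd (nat_lit 78) (nat_lit 152) (nat_lit 0) (XT.lf (nat_lit 0) (nat_lit 5871667069) (nat_lit 228) (nat_lit 2832125995) (nat_lit 76) (nat_lit 11758532850) (nat_lit 109) (nat_lit 5) (nat_lit 112) (nat_lit 5) (nat_lit 110) (nat_lit 5) (nat_lit 493) (nat_lit 396) (nat_lit 311)) (XT.lf (nat_lit 0) (nat_lit 11173877092) (nat_lit 152) (nat_lit 1345630780) (nat_lit 228) (nat_lit 8329216967) (nat_lit 107) (nat_lit 5) (nat_lit 109) (nat_lit 5) (nat_lit 110) (nat_lit 5) (nat_lit 494) (nat_lit 396) (nat_lit 310))) (XT.nd (nat_lit 78) (nat_lit 76) (nat_lit 0) (XT.lf (nat_lit 0) (nat_lit 4380181187)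 (nat_lit 76) (nat_lit 15086640739) (nat_lit 152) (nat_lit 1776892975) (nat_lit 106) (nat_lit 5) (nat_lit 107) (nat_lit 5) (nat_lit 108) (nat_lit 4) (nat_lit 495) (nat_lit 396) (nat_lit 309)) (XT.lf (nat_lit 0) (nat_lit 4956150119) (nat_lit 152) (nat_lit 2711922527) (nat_lit 76) (nat_lit 13978613364) (nat_lit 105) (nat_lit 5) (nat_lit 107) (nat_lit 5) (nat_lit 106) (nat_lit 5) (nat_lit 496) (nat_lit 396) (nat_lit 308))))) (XT.nd (nat_lit 312) (nat_lit 380) (nat_lit 0) (XT.nd (nat_lit 156) (nat_lit 228) (nat_lit 0) (XT.nd (nat_lit 78) (nat_lit 76) (nat_lit 0) (XT.lf (nat_lit 0) (nat_lit 11941960733) (nat_lit 228) (nat_lit 10033882152) (nat_lit 76) (nat_lit 82781161) (nat_lit 103) (nat_lit 5) (nat_lit 106) (nat_lit 5) (nat_lit 104) (nat_lit 4) (nat_lit 497) (nat_lit 396) (nat_lit 307)) (XT.lf (nat_lit 0) (nat_lit 4737427312) (nat_lit 76) (nat_lit 14519211229) (nat_lit 152) (nat_lit 3222703170) (nat_lit 102) (nat_lit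 5) (nat_lit 103) (nat_lit 5) (nat_lit 104) (nat_lit 4) (nat_lit 498) (nat_lit 396) (nat_lit 306))) (XT.nd (nat_lit 78) (nat_lit 152) (nat_lit 0) (XT.lf (nat_lit 0) (nat_lit 3874947452) (nat_lit 152) (nat_lit 2846231321) (nat_lit 76) (nat_lit 16188207634) (nat_lit 101) (nat_lit 5) (nat_lit 103) (nat_lit 5) (nat_lit 102) (nat_lit 5) (nat_lit 499) (nat_lit 396) (nat_lit 305)) (XT.lf (nat_lit 0) (nat_lit 11227388551) (nat_lit 228) (nat_lit 10705310921) (nat_lit 76) (nat_lit 1415476961) (nat_lit 99) (nat_lit 5) (nat_lit 102) (nat_lit 5) (nat_lit 100) (nat_lit 4) (nat_lit 500) (nat_lit 396) (nat_lit 304)))) (XT.nd (nat_lit 156) (nat_lit 228) (nat_lit 0) (XT.nd (nat_lit 78) (nat_lit 76) (nat_lit 0) (XT.lf (nat_lit 0) (nat_lit 4828781790) (nat_lit 76) (nat_lit 14084783338) (nat_lit 152) (nat_lit 4883170411) (nat_lit 98) (nat_lit 5) (nat_lit 99) (nat_lit 5) (nat_lit 100) (nat_lit 4) (nat_lit 501) (nat_lit 396) (nat_lit 303))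 (XT.lf (nat_lit 0) (nat_lit 2601780717) (nat_lit 152) (nat_lit 3287319621) (nat_lit 76) (nat_lit 18366498149) (nat_lit 97) (nat_lit 5) (nat_lit 99) (nat_lit 5) (nat_lit 98) (nat_lit 5) (nat_lit 502) (nat_lit 396) (nat_lit 302))) (XT.nd (nat_lit 78) (nat_lit 76) (nat_lit 0) (XT.lf (nat_lit 0) (nat_lit 10336322915) (nat_lit 228) (nat_lit 11733273859) (nat_lit 76) (nat_lit 2653484645) (nat_lit 95) (nat_lit 5) (nat_lit 98) (nat_lit 5) (nat_lit 96) (nat_lit 4) (nat_lit 503) (nat_lit 396) (nat_lit 301)) (XT.lf (nat_lit 0) (nat_lit 4597256197) (nat_lit 76) (nat_lit 13813795094) (nat_lit 152) (nat_lit 6790293267) (nat_lit 94) (nat_lit 5) (nat_lit 95) (nat_lit 5) (nat_lit 96) (nat_lit 4) (nat_lit 504) (nat_lit 396) (nat_lit 300)))))) (XT.nd (nat_lit 624) (nat_lit 608) (nat_lit 0) (XT.nd (nat_lit 312) (nat_lit 532) (nat_lit 0) (XT.nd (nat_lit 156) (nat_lit 76) (nat_lit 0) (XT.nd (nat_lit 78) (nat_lit 152) (nat_lit 0) (XT.lf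 (nat_lit 0) (nat_lit 1105705536) (nat_lit 152) (nat_lit 4096186176) (nat_lit 76) (nat_lit 20489011343) (nat_lit 93) (nat_lit 5) (nat_lit 95) (nat_lit 5) (nat_lit 94) (nat_lit 5) (nat_lit 505) (nat_lit 396) (nat_lit 299)) (XT.lf (nat_lit 0) (nat_lit 9237390675) (nat_lit 228) (nat_lit 13184234878) (nat_lit 76) (nat_lit 3767447499) (nat_lit 91) (nat_lit 5) (nat_lit 94) (nat_lit 5) (nat_lit 92) (nat_lit 4) (nat_lit 506) (nat_lit 396) (nat_lit 298))) (XT.nd (nat_lit 78) (nat_lit 0) (nat_lit 0) (XT.lf (nat_lit 0) (nat_lit 3976169005) (nat_lit 76) (nat_lit 13741394746) (nat_lit 152) (nat_lit 8981488468) (nat_lit 90) (nat_lit 5) (nat_lit 91) (nat_lit 5) (nat_lit 92) (nat_lit 4) (nat_lit 507) (nat_lit 396) (nat_lit 297)) (XT.lf (nat_lit 0) (nat_lit 21870732253) (nat_lit 76) (nat_lit 4687879664) (nat_lit 152) (nat_lit 662524938) (nat_lit 90) (nat_lit 5) (nat_lit 91) (nat_lit 5) (nat_lit 92) (nat_lit 4) (nat_lit 508) (nat_lit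 396) (nat_lit 296)))) (XT.nd (nat_lit 156) (nat_lit 228) (nat_lit 0) (XT.nd (nat_lit 78) (nat_lit 76) (nat_lit 0) (XT.lf (nat_lit 0) (nat_lit 7893631051) (nat_lit 228) (nat_lit 15135615989) (nat_lit 76) (nat_lit 4723100296) (nat_lit 87) (nat_lit 5) (nat_lit 90) (nat_lit 5) (nat_lit 88) (nat_lit 4) (nat_lit 509) (nat_lit 396) (nat_lit 295)) (XT.lf (nat_lit 0) (nat_lit 2887509190) (nat_lit 76) (nat_lit 13908295357) (nat_lit 152) (nat_lit 11500413501) (nat_lit 86) (nat_lit 5) (nat_lit 87) (nat_lit 5) (nat_lit 88) (nat_lit 4) (nat_lit 510) (nat_lit 396) (nat_lit 294))) (XT.nd (nat_lit 78) (nat_lit 228) (nat_lit 0) (XT.lf (nat_lit 0) (nat_lit 21712070317) (nat_lit 76) (nat_lit 4380010942) (nat_lit 152) (nat_lit 2760512647) (nat_lit 86) (nat_lit 5) (nat_lit 87) (nat_lit 5) (nat_lit 88) (nat_lit 4) (nat_lit 511) (nat_lit 396) (nat_lit 293)) (XT.lf (nat_lit 0) (nat_lit 6261623021) (nat_lit 228) (nat_lit 17677613795) (nat_lit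 76) (nat_lit 5480369435) (nat_lit 83) (nat_lit 5) (nat_lit 86) (nat_lit 5) (nat_lit 84) (nat_lit 4) (nat_lit 512) (nat_lit 396) (nat_lit 292))))) (XT.nd (nat_lit 312) (nat_lit 304) (nat_lit 0) (XT.nd (nat_lit 156) (nat_lit 228) (nat_lit 0) (XT.nd (nat_lit 78) (nat_lit 0) (nat_lit 0) (XT.lf (nat_lit 0) (nat_lit 1240040398) (nat_lit 76) (nat_lit 14361758279) (nat_lit 152) (nat_lit 14397924704) (nat_lit 82) (nat_lit 5) (nat_lit 83) (nat_lit 5) (nat_lit 84) (nat_lit 4) (nat_lit 513) (nat_lit 396) (nat_lit 291)) (XT.lf (nat_lit 0) (nat_lit 21039437807) (nat_lit 76) (nat_lit 4336277231) (nat_lit 152) (nat_lit 5216923071) (nat_lit 82) (nat_lit 5) (nat_lit 83) (nat_lit 5) (nat_lit 84) (nat_lit 4) (nat_lit 514) (nat_lit 396) (nat_lit 290))) (XT.nd (nat_lit 78) (nat_lit 0) (nat_lit 0) (XT.lf (nat_lit 0) (nat_lit 4290468561) (nat_lit 228) (nat_lit 20915303517) (nat_lit 76) (nat_lit 5992335118) (nat_lit 79) (nat_lit 5) (nat_lit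 82) (nat_lit 5) (nat_lit 80) (nat_lit 4) (nat_lit 515) (nat_lit 396) (nat_lit 289)) (XT.lf (nat_lit 0) (nat_lit 14094144165) (nat_lit 228) (nat_lit 1051960258) (nat_lit 76) (nat_lit 16670608971) (nat_lit 79) (nat_lit 5) (nat_lit 82) (nat_lit 5) (nat_lit 80) (nat_lit 4) (nat_lit 516) (nat_lit 396) (nat_lit 288)))) (XT.nd (nat_lit 156) (nat_lit 76) (nat_lit 0) (XT.nd (nat_lit 78) (nat_lit 152) (nat_lit 0) (XT.lf (nat_lit 0) (nat_lit 19746698226) (nat_lit 76) (nat_lit 4611321044) (nat_lit 152) (nat_lit 8090875963) (nat_lit 78) (nat_lit 5) (nat_lit 79) (nat_lit 5) (nat_lit 80) (nat_lit 4) (nat_lit 517) (nat_lit 396) (nat_lit 287)) (XT.lf (nat_lit 0) (nat_lit 1920609163) (nat_lit 152) (nat_lit 24971076958) (nat_lit 76) (nat_lit 6204032471) (nat_lit 76) (nat_lit 5) (nat_lit 78) (nat_lit 5) (nat_lit 77) (nat_lit 4) (nat_lit 518) (nat_lit 396) (nat_lit 286))) (XT.nd (nat_lit 78) (nat_lit 76) (nat_lit 0) (XT.lf (nat_lit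 0) (nat_lit 12221349035) (nat_lit 152) (nat_lit 4094442560) (nat_lit 76) (nat_lit 17439206083) (nat_lit 76) (nat_lit 5) (nat_lit 78) (nat_lit 5) (nat_lit 77) (nat_lit 4) (nat_lit 519) (nat_lit 396) (nat_lit 285)) (XT.lf (nat_lit 0) (nat_lit 17709427084) (nat_lit 76) (nat_lit 5268942027) (nat_lit 152) (nat_lit 11451268403) (nat_lit 75) (nat_lit 5) (nat_lit 76) (nat_lit 5) (nat_lit 77) (nat_lit 4) (nat_lit 520) (nat_lit 396) (nat_lit 284))))))) (XT.nd (nat_lit 1248) (nat_lit 1064) (nat_lit 0) (XT.nd (nat_lit 624) (nat_lit 532) (nat_lit 0) (XT.nd (nat_lit 312) (nat_lit 304) (nat_lit 0) (XT.nd (nat_lit 156) (nat_lit 152) (nat_lit 0) (XT.nd (nat_lit 78) (nat_lit 76) (nat_lit 0) (XT.lf (nat_lit 0) (nat_lit 5124248895) (nat_lit 76) (nat_lit 29060652067) (nat_lit 76) (nat_lit 935811661) (nat_lit 74) (nat_lit 4) (nat_lit 75) (nat_lit 5) (nat_lit 75) (nat_lit 4) (nat_lit 521) (nat_lit 396) (nat_lit 283)) (XT.lf (nat_lit 0)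 (nat_lit 9901780483) (nat_lit 152) (nat_lit 8054316897) (nat_lit 76) (nat_lit 17867576350) (nat_lit 73) (nat_lit 5) (nat_lit 75) (nat_lit 5) (nat_lit 74) (nat_lit 4) (nat_lit 522) (nat_lit 396) (nat_lit 282))) (XT.nd (nat_lit 78) (nat_lit 76) (nat_lit 0) (XT.lf (nat_lit 0) (nat_lit 14781883662) (nat_lit 76) (nat_lit 6383648052) (nat_lit 152) (nat_lit 15378318891) (nat_lit 72) (nat_lit 5) (nat_lit 73) (nat_lit 5) (nat_lit 74) (nat_lit 4) (nat_lit 523) (nat_lit 396) (nat_lit 281)) (XT.lf (nat_lit 0) (nat_lit 1109281856) (nat_lit 76) (nat_lit 31781711388) (nat_lit 76) (nat_lit 4390925708) (nat_lit 71) (nat_lit 4) (nat_lit 72) (nat_lit 5) (nat_lit 72) (nat_lit 4) (nat_lit 524) (nat_lit 396) (nat_lit 280)))) (XT.nd (nat_lit 156) (nat_lit 152) (nat_lit 0) (XT.nd (nat_lit 78) (nat_lit 76) (nat_lit 0) (XT.lf (nat_lit 0) (nat_lit 7053867160) (nat_lit 152) (nat_lit 13098170696) (nat_lit 76) (nat_lit 17880206331) (nat_lit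 70) (nat_lit 5) (nat_lit 72) (nat_lit 5) (nat_lit 71) (nat_lit 4) (nat_lit 525) (nat_lit 396) (nat_lit 279)) (XT.lf (nat_lit 0) (nat_lit 10793497497) (nat_lit 76) (nat_lit 8042450866) (nat_lit 152) (nat_lit 19965360737) (nat_lit 69) (nat_lit 5) (nat_lit 70) (nat_lit 5) (nat_lit 71) (nat_lit 4) (nat_lit 526) (nat_lit 396) (nat_lit 278))) (XT.nd (nat_lit 78) (nat_lit 152) (nat_lit 0) (XT.lf (nat_lit 0) (nat_lit 31126129408) (nat_lit 152) (nat_lit 4005167836) (nat_lit 0) (nat_lit 4457509686) (nat_lit 69) (nat_lit 5) (nat_lit 71) (nat_lit 4) (nat_lit 69) (nat_lit 4) (nat_lit 527) (nat_lit 396) (nat_lit 277)) (XT.lf (nat_lit 0) (nat_lit 3582271793) (nat_lit 152) (nat_lit 19420361993) (nat_lit 76) (nat_lit 17388422581) (nat_lit 67) (nat_lit 5) (nat_lit 69) (nat_lit 5) (nat_lit 68) (nat_lit 4) (nat_lit 528) (nat_lit 396) (nat_lit 276))))) (XT.nd (nat_lit 312) (nat_lit 304) (nat_lit 0) (XT.nd (nat_lit 156) (nat_lit 152)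 (nat_lit 0) (XT.nd (nat_lit 78) (nat_lit 0) (nat_lit 0) (XT.lf (nat_lit 0) (nat_lit 5544791665) (nat_lit 76) (nat_lit 10346946043) (nat_lit 152) (nat_lit 25320924210) (nat_lit 66) (nat_lit 5) (nat_lit 67) (nat_lit 5) (nat_lit 68) (nat_lit 4) (nat_lit 529) (nat_lit 396) (nat_lit 275)) (XT.lf (nat_lit 0) (nat_lit 28773520956) (nat_lit 152) (nat_lit 10464837478) (nat_lit 0) (nat_lit 2814466279) (nat_lit 66) (nat_lit 5) (nat_lit 68) (nat_lit 4) (nat_lit 66) (nat_lit 4) (nat_lit 530) (nat_lit 396) (nat_lit 274))) (XT.nd (nat_lit 78) (nat_lit 76) (nat_lit 0) (XT.lf (nat_lit 0) (nat_lit 15657552176) (nat_lit 76) (nat_lit 26616909493) (nat_lit 76) (nat_lit 636749682) (nat_lit 65) (nat_lit 4) (nat_lit 66) (nat_lit 5) (nat_lit 66) (nat_lit 4) (nat_lit 531) (nat_lit 396) (nat_lit 273)) (XT.lf (nat_lit 0) (nat_lit 12229885361) (nat_lit 152) (nat_lit 1173982945) (nat_lit 76) (nat_lit 30385315308) (nat_lit 64) (nat_lit 5) (nat_lit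 66) (nat_lit 5) (nat_lit 65) (nat_lit 4) (nat_lit 532) (nat_lit 396) (nat_lit 272)))) (XT.nd (nat_lit 156) (nat_lit 152) (nat_lit 0) (XT.nd (nat_lit 78) (nat_lit 76) (nat_lit 0) (XT.lf (nat_lit 0) (nat_lit 25705819796) (nat_lit 152) (nat_lit 18537247363) (nat_lit 0) (nat_lit 443155873) (nat_lit 63) (nat_lit 5) (nat_lit 65) (nat_lit 4) (nat_lit 63) (nat_lit 4) (nat_lit 533) (nat_lit 396) (nat_lit 271)) (XT.lf (nat_lit 0) (nat_lit 8704192268) (nat_lit 76) (nat_lit 31090567583) (nat_lit 76) (nat_lit 5809152022) (nat_lit 62) (nat_lit 4) (nat_lit 63) (nat_lit 5) (nat_lit 63) (nat_lit 4) (nat_lit 534) (nat_lit 396) (nat_lit 270))) (XT.nd (nat_lit 78) (nat_lit 76) (nat_lit 0) (XT.lf (nat_lit 0) (nat_lit 7775292923) (nat_lit 152) (nat_lit 9515776399) (nat_lit 76) (nat_lit 29250742269) (nat_lit 61) (nat_lit 5) (nat_lit 63) (nat_lit 5) (nat_lit 62) (nat_lit 4) (nat_lit 535) (nat_lit 396) (nat_lit 269)) (XT.lf (nat_lit 0)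 (nat_lit 18964654422) (nat_lit 76) (nat_lit 2849114381) (nat_lit 152) (nat_lit 25687456395) (nat_lit 60) (nat_lit 5) (nat_lit 61) (nat_lit 5) (nat_lit 62) (nat_lit 4) (nat_lit 536) (nat_lit 396) (nat_lit 268)))))) (XT.nd (nat_lit 624) (nat_lit 532) (nat_lit 0) (XT.nd (nat_lit 312) (nat_lit 304) (nat_lit 0) (XT.nd (nat_lit 156) (nat_lit 76) (nat_lit 0) (XT.nd (nat_lit 78) (nat_lit 152) (nat_lit 0) (XT.lf (nat_lit 0) (nat_lit 36467019584) (nat_lit 152) (nat_lit 146133347) (nat_lit 0) (nat_lit 11870459726) (nat_lit 60) (nat_lit 5) (nat_lit 62) (nat_lit 4) (nat_lit 60) (nat_lit 4) (nat_lit 537) (nat_lit 396) (nat_lit 267)) (XT.lf (nat_lit 0) (nat_lit 2321386793) (nat_lit 152) (nat_lit 19900319994) (nat_lit 76) (nat_lit 27264251449) (nat_lit 58) (nat_lit 5) (nat_lit 60) (nat_lit 5) (nat_lit 59) (nat_lit 4) (nat_lit 538) (nat_lit 396) (nat_lit 266))) (XT.nd (nat_lit 78) (nat_lit 0) (nat_lit 0) (XT.lf (nat_lit 0) (nat_lit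 9728355358) (nat_lit 76) (nat_lit 7196174071) (nat_lit 152) (nat_lit 33587979172) (nat_lit 57) (nat_lit 5) (nat_lit 58) (nat_lit 5) (nat_lit 59) (nat_lit 4) (nat_lit 539) (nat_lit 396) (nat_lit 265)) (XT.lf (nat_lit 0) (nat_lit 32229861770) (nat_lit 152) (nat_lit 11028118046) (nat_lit 0) (nat_lit 8303952855) (nat_lit 57) (nat_lit 5) (nat_lit 59) (nat_lit 4) (nat_lit 57) (nat_lit 4) (nat_lit 540) (nat_lit 396) (nat_lit 264)))) (XT.nd (nat_lit 156) (nat_lit 152) (nat_lit 0) (XT.nd (nat_lit 78) (nat_lit 76) (nat_lit 0) (XT.lf (nat_lit 0) (nat_lit 19902241585) (nat_lit 76) (nat_lit 28336769354) (nat_lit 76) (nat_lit 4396488871) (nat_lit 56) (nat_lit 4) (nat_lit 57) (nat_lit 5) (nat_lit 57) (nat_lit 4) (nat_lit 541) (nat_lit 396) (nat_lit 263)) (XT.lf (nat_lit 0) (nat_lit 10867329961) (nat_lit 152) (nat_lit 1893553640) (nat_lit 76) (nat_lit 40974384900) (nat_lit 55) (nat_lit 5) (nat_lit 57) (nat_lit 5) (nat_lit 56) (nat_lit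 4) (nat_lit 542) (nat_lit 396) (nat_lit 262))) (XT.nd (nat_lit 78) (nat_lit 76) (nat_lit 0) (XT.lf (nat_lit 0) (nat_lit 26810124969) (nat_lit 152) (nat_lit 24506881035) (nat_lit 0) (nat_lit 3540435607) (nat_lit 54) (nat_lit 5) (nat_lit 56) (nat_lit 4) (nat_lit 54) (nat_lit 4) (nat_lit 543) (nat_lit 396) (nat_lit 261)) (XT.lf (nat_lit 0) (nat_lit 7574924772) (nat_lit 76) (nat_lit 35857390087) (nat_lit 76) (nat_lit 12574931772) (nat_lit 53) (nat_lit 4) (nat_lit 54) (nat_lit 5) (nat_lit 54) (nat_lit 4) (nat_lit 544) (nat_lit 396) (nat_lit 260))))) (XT.nd (nat_lit 312) (nat_lit 304) (nat_lit 0) (XT.nd (nat_lit 156) (nat_lit 76) (nat_lit 0) (XT.nd (nat_lit 78) (nat_lit 76) (nat_lit 0) (XT.lf (nat_lit 0) (nat_lit 3528596667) (nat_lit 152) (nat_lit 16131804120) (nat_lit 76) (nat_lit 37523198557) (nat_lit 52) (nat_lit 5) (nat_lit 54) (nat_lit 5) (nat_lit 53) (nat_lit 4) (nat_lit 545) (nat_lit 396) (nat_lit 259)) (XT.lf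 (nat_lit 0) (nat_lit 17317689306) (nat_lit 76) (nat_lit 2694419375) (nat_lit 152) (nat_lit 38374910229) (nat_lit 51) (nat_lit 5) (nat_lit 52) (nat_lit 5) (nat_lit 53) (nat_lit 4) (nat_lit 546) (nat_lit 396) (nat_lit 258))) (XT.nd (nat_lit 78) (nat_lit 76) (nat_lit 0) (XT.lf (nat_lit 0) (nat_lit 37279885183) (nat_lit 152) (nat_lit 7697472837) (nat_lit 0) (nat_lit 14640490311) (nat_lit 51) (nat_lit 5) (nat_lit 53) (nat_lit 4) (nat_lit 51) (nat_lit 4) (nat_lit 547) (nat_lit 396) (nat_lit 257)) (XT.lf (nat_lit 0) (nat_lit 27146075068) (nat_lit 76) (nat_lit 28190899353) (nat_lit 76) (nat_lit 5540489871) (nat_lit 50) (nat_lit 4) (nat_lit 51) (nat_lit 5) (nat_lit 51) (nat_lit 4) (nat_lit 548) (nat_lit 396) (nat_lit 256)))) (XT.nd (nat_lit 156) (nat_lit 152) (nat_lit 0) (XT.nd (nat_lit 78) (nat_lit 0) (nat_lit 0) (XT.lf (nat_lit 0) (nat_lit 891240550) (nat_lit 76) (nat_lit 10710899266) (nat_lit 152) (nat_lit 50567215466)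 (nat_lit 48) (nat_lit 5) (nat_lit 49) (nat_lit 5) (nat_lit 50) (nat_lit 4) (nat_lit 549) (nat_lit 396) (nat_lit 255)) (XT.lf (nat_lit 0) (nat_lit 29545469092) (nat_lit 152) (nat_lit 26406636867) (nat_lit 0) (nat_lit 7534318018) (nat_lit 48) (nat_lit 5) (nat_lit 50) (nat_lit 4) (nat_lit 48) (nat_lit 4) (nat_lit 550) (nat_lit 396) (nat_lit 254))) (XT.nd (nat_lit 78) (nat_lit 76) (nat_lit 0) (XT.lf (nat_lit 0) (nat_lit 9559908662) (nat_lit 76) (nat_lit 38649285323) (nat_lit 76) (nat_lit 16628347911) (nat_lit 47) (nat_lit 4) (nat_lit 48) (nat_lit 5) (nat_lit 48) (nat_lit 4) (nat_lit 551) (nat_lit 396) (nat_lit 253)) (XT.lf (nat_lit 0) (nat_lit 1433602616) (nat_lit 152) (nat_lit 19120225399) (nat_lit 76) (nat_lit 45667414689) (nat_lit 46) (nat_lit 5) (nat_lit 48) (nat_lit 5) (nat_lit 47) (nat_lit 4) (nat_lit 552) (nat_lit 396) (nat_lit 252))))))))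
noncomputable def xc87 : XT := (XT.nd (nat_lit 53352) (nat_lit 0) (nat_lit 8740) (XT.nd (nat_lit 52104) (nat_lit 0) (nat_lit 17784) (XT.nd (nat_lit 51480) (nat_lit 0) (nat_lit 26752) (XT.nd (nat_lit 51168) (nat_lit 0) (nat_lit 30476) (XT.nd (nat_lit 51012) (nat_lit 0) (nat_lit 31692) (XT.lf (nat_lit 0) (nat_lit 18283379848) (nat_lit 76) (nat_lit 1580188192) (nat_lit 152) (nat_lit 47773136326) (nat_lit 45) (nat_lit 5) (nat_lit 46) (nat_lit 5) (nat_lit 47) (nat_lit 4) (nat_lit 553) (nat_lit 396) (nat_lit 251)) (XT.nd (nat_lit 78) (nat_lit 76) (nat_lit 0) (XT.lf (nat_lit 0) (nat_lit 609779911) (nat_lit 228) (nat_lit 1315093941) (nat_lit 228) (nat_lit 1315093941) (nat_lit 463) (nat_lit 4) (nat_lit 466) (nat_lit 5) (nat_lit 466) (nat_lit 4) (nat_lit 406) (nat_lit 397) (nat_lit 397)) (XT.lf (nat_lit 0) (nat_lit 588187455) (nat_lit 304) (nat_lit 1576300881) (nat_lit 76) (nat_lit 4329689115) (nat_lit 462) (nat_lit 5) (nat_lit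 466) (nat_lit 5) (nat_lit 463) (nat_lit 4) (nat_lit 407) (nat_lit 397) (nat_lit 396)))) (XT.nd (nat_lit 156) (nat_lit 836) (nat_lit 0) (XT.nd (nat_lit 78) (nat_lit 76) (nat_lit 0) (XT.lf (nat_lit 0) (nat_lit 2161227237) (nat_lit 304) (nat_lit 1593049164) (nat_lit 380) (nat_lit 2756677699) (nat_lit 458) (nat_lit 5) (nat_lit 462) (nat_lit 5) (nat_lit 463) (nat_lit 4) (nat_lit 408) (nat_lit 397) (nat_lit 395)) (XT.lf (nat_lit 0) (nat_lit 378500670) (nat_lit 380) (nat_lit 564187348) (nat_lit 76) (nat_lit 5588387817) (nat_lit 457) (nat_lit 5) (nat_lit 462) (nat_lit 5) (nat_lit 458) (nat_lit 5) (nat_lit 409) (nat_lit 397) (nat_lit 394))) (XT.nd (nat_lit 78) (nat_lit 456) (nat_lit 0) (XT.lf (nat_lit 0) (nat_lit 3299401299) (nat_lit 380) (nat_lit 172814216) (nat_lit 456) (nat_lit 3081179023) (nat_lit 452) (nat_lit 5) (nat_lit 457) (nat_lit 5) (nat_lit 458) (nat_lit 5) (nat_lit 410) (nat_lit 397) (nat_lit 393)) (XT.lf (nat_lit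 0) (nat_lit 645284956) (nat_lit 456) (nat_lit 5922471623) (nat_lit 532) (nat_lit 11364281) (nat_lit 446) (nat_lit 5) (nat_lit 452) (nat_lit 5) (nat_lit 453) (nat_lit 4) (nat_lit 411) (nat_lit 397) (nat_lit 392))))) (XT.nd (nat_lit 312) (nat_lit 2432) (nat_lit 0) (XT.nd (nat_lit 156) (nat_lit 684) (nat_lit 0) (XT.nd (nat_lit 78) (nat_lit 532) (nat_lit 0) (XT.lf (nat_lit 0) (nat_lit 3016449591) (nat_lit 532) (nat_lit 1985656656) (nat_lit 76) (nat_lit 1604790696) (nat_lit 445) (nat_lit 5) (nat_lit 452) (nat_lit 5) (nat_lit 446) (nat_lit 5) (nat_lit 412) (nat_lit 397) (nat_lit 391)) (XT.lf (nat_lit 0) (nat_lit 2046075651) (nat_lit 532) (nat_lit 4004081218) (nat_lit 608) (nat_lit 587895224) (nat_lit 438) (nat_lit 5) (nat_lit 445) (nat_lit 5) (nat_lit 446) (nat_lit 5) (nat_lit 413) (nat_lit 397) (nat_lit 390))) (XT.nd (nat_lit 78) (nat_lit 608) (nat_lit 0) (XT.lf (nat_lit 0) (nat_lit 2373037448) (nat_lit 608) (nat_lit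 530384286) (nat_lit 76) (nat_lit 3768489779) (nat_lit 437) (nat_lit 5) (nat_lit 445) (nat_lit 5) (nat_lit 438) (nat_lit 5) (nat_lit 414) (nat_lit 397) (nat_lit 389)) (XT.lf (nat_lit 0) (nat_lit 3644535120) (nat_lit 608) (nat_lit 1701412976) (nat_lit 684) (nat_lit 1362622132) (nat_lit 429) (nat_lit 5) (nat_lit 437) (nat_lit 5) (nat_lit 438) (nat_lit 5) (nat_lit 415) (nat_lit 397) (nat_lit 388)))) (XT.nd (nat_lit 156) (nat_lit 1672) (nat_lit 0) (XT.nd (nat_lit 78) (nat_lit 0) (nat_lit 0) (XT.lf (nat_lit 0) (nat_lit 1140568852) (nat_lit 684) (nat_lit 406264053) (nat_lit 760) (nat_lit 5201497062) (nat_lit 419) (nat_lit 5) (nat_lit 428) (nat_lit 5) (nat_lit 429) (nat_lit 5) (nat_lit 416) (nat_lit 397) (nat_lit 387)) (XT.lf (nat_lit 0) (nat_lit 4459897002) (nat_lit 760) (nat_lit 1354402265) (nat_lit 76) (nat_lit 976273624) (nat_lit 419) (nat_lit 5) (nat_lit 429) (nat_lit 5) (nat_lit 420) (nat_lit 5) (nat_lit 417) (nat_lit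 397) (nat_lit 386))) (XT.nd (nat_lit 78) (nat_lit 836) (nat_lit 0) (XT.lf (nat_lit 0) (nat_lit 552716544) (nat_lit 836) (nat_lit 3835334316) (nat_lit 76) (nat_lit 2447697762) (nat_lit 408) (nat_lit 5) (nat_lit 419) (nat_lit 5) (nat_lit 409) (nat_lit 5) (nat_lit 418) (nat_lit 397) (nat_lit 385)) (XT.lf (nat_lit 0) (nat_lit 542843765) (nat_lit 836) (nat_lit 2859408491) (nat_lit 912) (nat_lit 3481546478) (nat_lit 397) (nat_lit 5) (nat_lit 408) (nat_lit 5) (nat_lit 409) (nat_lit 5) (nat_lit 419) (nat_lit 397) (nat_lit 384)))))) (XT.nd (nat_lit 624) (nat_lit 3420) (nat_lit 0) (XT.nd (nat_lit 312) (nat_lit 3496) (nat_lit 0) (XT.nd (nat_lit 156) (nat_lit 1064) (nat_lit 0) (XT.nd (nat_lit 78) (nat_lit 988) (nat_lit 0) (XT.lf (nat_lit 0) (nat_lit 5055428264) (nat_lit 836) (nat_lit 1229999697) (nat_lit 912) (nat_lit 649423562) (nat_lit 397) (nat_lit 5) (nat_lit 408) (nat_lit 5) (nat_lit 409) (nat_lit 5) (nat_lit 420) (nat_lit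 397) (nat_lit 383)) (XT.lf (nat_lit 0) (nat_lit 2165186800) (nat_lit 988) (nat_lit 4322444144) (nat_lit 76) (nat_lit 500903243) (nat_lit 384) (nat_lit 5) (nat_lit 397) (nat_lit 5) (nat_lit 385) (nat_lit 5) (nat_lit 421) (nat_lit 397) (nat_lit 382))) (XT.nd (nat_lit 78) (nat_lit 76) (nat_lit 0) (XT.lf (nat_lit 0) (nat_lit 252233683) (nat_lit 988) (nat_lit 4745897035) (nat_lit 1064) (nat_lit 2047100574) (nat_lit 371) (nat_lit 5) (nat_lit 384) (nat_lit 5) (nat_lit 385) (nat_lit 5) (nat_lit 422) (nat_lit 397) (nat_lit 381)) (XT.lf (nat_lit 0) (nat_lit 754787024) (nat_lit 1064) (nat_lit 2135891146) (nat_lit 76) (nat_lit 4213975640) (nat_lit 370) (nat_lit 5) (nat_lit 384) (nat_lit 5) (nat_lit 371) (nat_lit 5) (nat_lit 423) (nat_lit 397) (nat_lit 380)))) (XT.nd (nat_lit 156) (nat_lit 1292) (nat_lit 0) (XT.nd (nat_lit 78) (nat_lit 1140) (nat_lit 0) (XT.lf (nat_lit 0) (nat_lit 2615892840) (nat_lit 1064) (nat_lit 925466963)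 (nat_lit 1140) (nat_lit 3625642801) (nat_lit 356) (nat_lit 5) (nat_lit 370) (nat_lit 5) (nat_lit 371) (nat_lit 5) (nat_lit 424) (nat_lit 397) (nat_lit 379)) (XT.lf (nat_lit 0) (nat_lit 239755103) (nat_lit 1140) (nat_lit 6124820375) (nat_lit 1216) (nat_lit 868059722) (nat_lit 341) (nat_lit 5) (nat_lit 356) (nat_lit 5) (nat_lit 357) (nat_lit 5) (nat_lit 425) (nat_lit 397) (nat_lit 378))) (XT.nd (nat_lit 78) (nat_lit 1216) (nat_lit 0) (XT.lf (nat_lit 0) (nat_lit 1908580324) (nat_lit 1216) (nat_lit 2138234110) (nat_lit 76) (nat_lit 3253613566) (nat_lit 340) (nat_lit 5) (nat_lit 356) (nat_lit 5) (nat_lit 341) (nat_lit 5) (nat_lit 426) (nat_lit 397) (nat_lit 377)) (XT.lf (nat_lit 0) (nat_lit 2832576275) (nat_lit 1216) (nat_lit 1867316698) (nat_lit 1292) (nat_lit 2671643466) (nat_lit 324) (nat_lit 5) (nat_lit 340) (nat_lit 5) (nat_lit 341) (nat_lit 5) (nat_lit 427) (nat_lit 397) (nat_lit 376))))) (XT.nd (nat_lit 312) (nat_lit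 1216) (nat_lit 0) (XT.nd (nat_lit 156) (nat_lit 1292) (nat_lit 0) (XT.nd (nat_lit 78) (nat_lit 0) (nat_lit 0) (XT.lf (nat_lit 0) (nat_lit 80373570) (nat_lit 912) (nat_lit 6966969117) (nat_lit 76) (nat_lit 398819564) (nat_lit 312) (nat_lit 5) (nat_lit 324) (nat_lit 5) (nat_lit 313) (nat_lit 5) (nat_lit 428) (nat_lit 397) (nat_lit 375)) (XT.lf (nat_lit 0) (nat_lit 2849943377) (nat_lit 912) (nat_lit 1904597695) (nat_lit 76) (nat_lit 2768035464) (nat_lit 312) (nat_lit 5) (nat_lit 324) (nat_lit 5) (nat_lit 313) (nat_lit 5) (nat_lit 429) (nat_lit 397) (nat_lit 374))) (XT.nd (nat_lit 78) (nat_lit 684) (nat_lit 0) (XT.lf (nat_lit 0) (nat_lit 3297795620) (nat_lit 608) (nat_lit 2362634170) (nat_lit 684) (nat_lit 1942122400) (nat_lit 304) (nat_lit 5) (nat_lit 312) (nat_lit 5) (nat_lit 313) (nat_lit 5) (nat_lit 430) (nat_lit 397) (nat_lit 373)) (XT.lf (nat_lit 0) (nat_lit 809951948) (nat_lit 684) (nat_lit 6743418125) (nat_lit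 76) (nat_lit 132610742) (nat_lit 295) (nat_lit 5) (nat_lit 304) (nat_lit 5) (nat_lit 296) (nat_lit 5) (nat_lit 431) (nat_lit 397) (nat_lit 372)))) (XT.nd (nat_lit 156) (nat_lit 684) (nat_lit 0) (XT.nd (nat_lit 78) (nat_lit 532) (nat_lit 0) (XT.lf (nat_lit 0) (nat_lit 3601037349) (nat_lit 684) (nat_lit 1456389148) (nat_lit 76) (nat_lit 2714047930) (nat_lit 295) (nat_lit 5) (nat_lit 304) (nat_lit 5) (nat_lit 296) (nat_lit 5) (nat_lit 432) (nat_lit 397) (nat_lit 371)) (XT.lf (nat_lit 0) (nat_lit 3991137988) (nat_lit 532) (nat_lit 2453365252) (nat_lit 608) (nat_lit 1415973571) (nat_lit 288) (nat_lit 5) (nat_lit 295) (nat_lit 5) (nat_lit 296) (nat_lit 5) (nat_lit 433) (nat_lit 397) (nat_lit 370))) (XT.nd (nat_lit 78) (nat_lit 0) (nat_lit 0) (XT.lf (nat_lit 0) (nat_lit 1357304273) (nat_lit 684) (nat_lit 6334022009) (nat_lit 76) (nat_lit 261499019) (nat_lit 279) (nat_lit 5) (nat_lit 288) (nat_lit 5) (nat_lit 280) (nat_lit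 5) (nat_lit 434) (nat_lit 397) (nat_lit 369)) (XT.lf (nat_lit 0) (nat_lit 4181185910) (nat_lit 684) (nat_lit 812397808) (nat_lit 76) (nat_lit 3054067099) (nat_lit 279) (nat_lit 5) (nat_lit 288) (nat_lit 5) (nat_lit 280) (nat_lit 5) (nat_lit 435) (nat_lit 397) (nat_lit 368))))))) (XT.nd (nat_lit 1248) (nat_lit 3420) (nat_lit 0) (XT.nd (nat_lit 624) (nat_lit 2508) (nat_lit 0) (XT.nd (nat_lit 312) (nat_lit 1520) (nat_lit 0) (XT.nd (nat_lit 156) (nat_lit 456) (nat_lit 0) (XT.nd (nat_lit 78) (nat_lit 608) (nat_lit 0) (XT.lf (nat_lit 0) (nat_lit 4894821865) (nat_lit 532) (nat_lit 2176106179) (nat_lit 608) (nat_lit 1074961756) (nat_lit 272) (nat_lit 5) (nat_lit 279) (nat_lit 5) (nat_lit 280) (nat_lit 5) (nat_lit 436) (nat_lit 397) (nat_lit 367)) (XT.lf (nat_lit 0) (nat_lit 1739470700) (nat_lit 608) (nat_lit 5756601812) (nat_lit 76) (nat_lit 751257697) (nat_lit 264) (nat_lit 5) (nat_lit 272) (nat_lit 5) (nat_lit 265) (nat_lit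 5) (nat_lit 437) (nat_lit 397) (nat_lit 366))) (XT.nd (nat_lit 78) (nat_lit 0) (nat_lit 0) (XT.lf (nat_lit 0) (nat_lit 11090744) (nat_lit 456) (nat_lit 4596166228) (nat_lit 532) (nat_lit 3744524531) (nat_lit 258) (nat_lit 5) (nat_lit 264) (nat_lit 5) (nat_lit 265) (nat_lit 5) (nat_lit 438) (nat_lit 397) (nat_lit 365)) (XT.lf (nat_lit 0) (nat_lit 5993370466) (nat_lit 456) (nat_lit 1562693966) (nat_lit 532) (nat_lit 903454963) (nat_lit 258) (nat_lit 5) (nat_lit 264) (nat_lit 5) (nat_lit 265) (nat_lit 5) (nat_lit 439) (nat_lit 397) (nat_lit 364)))) (XT.nd (nat_lit 156) (nat_lit 532) (nat_lit 0) (XT.nd (nat_lit 78) (nat_lit 456) (nat_lit 0) (XT.lf (nat_lit 0) (nat_lit 1971087370) (nat_lit 532) (nat_lit 5026973141) (nat_lit 76) (nat_lit 1572216686) (nat_lit 251) (nat_lit 5) (nat_lit 258) (nat_lit 5) (nat_lit 252) (nat_lit 5) (nat_lit 440) (nat_lit 397) (nat_lit 363)) (XT.lf (nat_lit 0) (nat_lit 1018789595) (nat_lit 456)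 (nat_lit 3884371476) (nat_lit 532) (nat_lit 3781247157) (nat_lit 245) (nat_lit 5) (nat_lit 251) (nat_lit 5) (nat_lit 252) (nat_lit 5) (nat_lit 441) (nat_lit 397) (nat_lit 362))) (XT.nd (nat_lit 78) (nat_lit 532) (nat_lit 0) (XT.lf (nat_lit 0) (nat_lit 7273311948) (nat_lit 456) (nat_lit 640734252) (nat_lit 532) (nat_lit 888193899) (nat_lit 245) (nat_lit 5) (nat_lit 251) (nat_lit 5) (nat_lit 252) (nat_lit 5) (nat_lit 442) (nat_lit 397) (nat_lit 361)) (XT.lf (nat_lit 0) (nat_lit 2064597517) (nat_lit 532) (nat_lit 4159235420) (nat_lit 76) (nat_lit 2698760185) (nat_lit 238) (nat_lit 5) (nat_lit 245) (nat_lit 5) (nat_lit 239) (nat_lit 5) (nat_lit 443) (nat_lit 397) (nat_lit 360))))) (XT.nd (nat_lit 312) (nat_lit 1216) (nat_lit 0) (XT.nd (nat_lit 156) (nat_lit 912) (nat_lit 0) (XT.nd (nat_lit 78) (nat_lit 0) (nat_lit 0) (XT.lf (nat_lit 0) (nat_lit 2181460873) (nat_lit 380) (nat_lit 2891664422) (nat_lit 456) (nat_lit 3973619670)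 (nat_lit 233) (nat_lit 5) (nat_lit 238) (nat_lit 5) (nat_lit 239) (nat_lit 5) (nat_lit 444) (nat_lit 397) (nat_lit 359)) (XT.lf (nat_lit 0) (nat_lit 8162416035) (nat_lit 456) (nat_lit 457609844) (nat_lit 76) (nat_lit 554882391) (nat_lit 233) (nat_lit 5) (nat_lit 239) (nat_lit 5) (nat_lit 234) (nat_lit 5) (nat_lit 445) (nat_lit 397) (nat_lit 358))) (XT.nd (nat_lit 78) (nat_lit 380) (nat_lit 0) (XT.lf (nat_lit 0) (nat_lit 2030430726) (nat_lit 532) (nat_lit 3166042303) (nat_lit 76) (nat_lit 4108876278) (nat_lit 226) (nat_lit 5) (nat_lit 233) (nat_lit 5) (nat_lit 227) (nat_lit 5) (nat_lit 446) (nat_lit 397) (nat_lit 357)) (XT.lf (nat_lit 0) (nat_lit 3487504324) (nat_lit 380) (nat_lit 1639904811) (nat_lit 456) (nat_lit 4312502104) (nat_lit 221) (nat_lit 5) (nat_lit 226) (nat_lit 5) (nat_lit 227) (nat_lit 5) (nat_lit 447) (nat_lit 397) (nat_lit 356)))) (XT.nd (nat_lit 156) (nat_lit 760) (nat_lit 0) (XT.nd (nat_lit 78)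 (nat_lit 76) (nat_lit 0) (XT.lf (nat_lit 0) (nat_lit 747695226) (nat_lit 380) (nat_lit 7574161248) (nat_lit 456) (nat_lit 1256518652) (nat_lit 216) (nat_lit 5) (nat_lit 221) (nat_lit 5) (nat_lit 222) (nat_lit 5) (nat_lit 448) (nat_lit 397) (nat_lit 355)) (XT.lf (nat_lit 0) (nat_lit 1877152653) (nat_lit 456) (nat_lit 2058857703) (nat_lit 76) (nat_lit 5783751641) (nat_lit 215) (nat_lit 5) (nat_lit 221) (nat_lit 5) (nat_lit 216) (nat_lit 5) (nat_lit 449) (nat_lit 397) (nat_lit 354))) (XT.nd (nat_lit 78) (nat_lit 380) (nat_lit 0) (XT.lf (nat_lit 0) (nat_lit 4926534859) (nat_lit 380) (nat_lit 147946900) (nat_lit 456) (nat_lit 4790690142) (nat_lit 210) (nat_lit 5) (nat_lit 215) (nat_lit 5) (nat_lit 216) (nat_lit 5) (nat_lit 450) (nat_lit 397) (nat_lit 353)) (XT.lf (nat_lit 0) (nat_lit 2079758990) (nat_lit 380) (nat_lit 6313218001) (nat_lit 456) (nat_lit 1621211398) (nat_lit 205) (nat_lit 5) (nat_lit 210) (nat_lit 5) (nat_lit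 211) (nat_lit 5) (nat_lit 451) (nat_lit 397) (nat_lit 352)))))) (XT.nd (nat_lit 624) (nat_lit 1672) (nat_lit 0) (XT.nd (nat_lit 312) (nat_lit 684) (nat_lit 0) (XT.nd (nat_lit 156) (nat_lit 684) (nat_lit 0) (XT.nd (nat_lit 78) (nat_lit 304) (nat_lit 0) (XT.lf (nat_lit 0) (nat_lit 1611587030) (nat_lit 456) (nat_lit 848201777) (nat_lit 76) (nat_lit 7707405141) (nat_lit 204) (nat_lit 5) (nat_lit 210) (nat_lit 5) (nat_lit 205) (nat_lit 5) (nat_lit 452) (nat_lit 397) (nat_lit 351)) (XT.lf (nat_lit 0) (nat_lit 4936209469) (nat_lit 380) (nat_lit 3849873815) (nat_lit 76) (nat_lit 1537403630) (nat_lit 200) (nat_lit 5) (nat_lit 205) (nat_lit 5) (nat_lit 201) (nat_lit 5) (nat_lit 453) (nat_lit 397) (nat_lit 350))) (XT.nd (nat_lit 78) (nat_lit 380) (nat_lit 0) (XT.lf (nat_lit 0) (nat_lit 3519894617) (nat_lit 304) (nat_lit 4858049240) (nat_lit 380) (nat_lit 2106005102) (nat_lit 196) (nat_lit 5) (nat_lit 200) (nat_lit 5) (nat_lit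 201) (nat_lit 5) (nat_lit 454) (nat_lit 397) (nat_lit 349)) (XT.lf (nat_lit 0) (nat_lit 465186278) (nat_lit 304) (nat_lit 778196751) (nat_lit 380) (nat_lit 9405639961) (nat_lit 191) (nat_lit 5) (nat_lit 195) (nat_lit 5) (nat_lit 196) (nat_lit 5) (nat_lit 455) (nat_lit 397) (nat_lit 348)))) (XT.nd (nat_lit 156) (nat_lit 380) (nat_lit 0) (XT.nd (nat_lit 78) (nat_lit 304) (nat_lit 0) (XT.lf (nat_lit 0) (nat_lit 4706168771) (nat_lit 380) (nat_lit 2684732667) (nat_lit 76) (nat_lit 3425866282) (nat_lit 191) (nat_lit 5) (nat_lit 196) (nat_lit 5) (nat_lit 192) (nat_lit 5) (nat_lit 456) (nat_lit 397) (nat_lit 347)) (XT.lf (nat_lit 0) (nat_lit 5059106955) (nat_lit 304) (nat_lit 3222796348) (nat_lit 380) (nat_lit 2707370850) (nat_lit 187) (nat_lit 5) (nat_lit 191) (nat_lit 5) (nat_lit 192) (nat_lit 5) (nat_lit 457) (nat_lit 397) (nat_lit 346))) (XT.nd (nat_lit 78) (nat_lit 0) (nat_lit 0) (XT.lf (nat_lit 0) (nat_lit 791392760)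 (nat_lit 380) (nat_lit 9295918235) (nat_lit 76) (nat_lit 1079145630) (nat_lit 182) (nat_lit 5) (nat_lit 187) (nat_lit 5) (nat_lit 183) (nat_lit 5) (nat_lit 458) (nat_lit 397) (nat_lit 345)) (XT.lf (nat_lit 0) (nat_lit 4386508398) (nat_lit 380) (nat_lit 1451586189) (nat_lit 76) (nat_lit 5508682886) (nat_lit 182) (nat_lit 5) (nat_lit 187) (nat_lit 5) (nat_lit 183) (nat_lit 5) (nat_lit 459) (nat_lit 397) (nat_lit 344))))) (XT.nd (nat_lit 312) (nat_lit 760) (nat_lit 0) (XT.nd (nat_lit 156) (nat_lit 304) (nat_lit 0) (XT.nd (nat_lit 78) (nat_lit 304) (nat_lit 0) (XT.lf (nat_lit 0) (nat_lit 6688744456) (nat_lit 304) (nat_lit 1419805812) (nat_lit 380) (nat_lit 3423386668) (nat_lit 178) (nat_lit 5) (nat_lit 182) (nat_lit 5) (nat_lit 183) (nat_lit 5) (nat_lit 460) (nat_lit 397) (nat_lit 343)) (XT.lf (nat_lit 0) (nat_lit 247888196) (nat_lit 304) (nat_lit 8378512973) (nat_lit 76) (nat_lit 3095210655) (nat_lit 174) (nat_lit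 5) (nat_lit 178) (nat_lit 5) (nat_lit 175) (nat_lit 5) (nat_lit 461) (nat_lit 397) (nat_lit 342))) (XT.nd (nat_lit 78) (nat_lit 304) (nat_lit 0) (XT.lf (nat_lit 0) (nat_lit 3979333204) (nat_lit 304) (nat_lit 160156602) (nat_lit 76) (nat_lit 7775906222) (nat_lit 174) (nat_lit 5) (nat_lit 178) (nat_lit 5) (nat_lit 175) (nat_lit 5) (nat_lit 462) (nat_lit 397) (nat_lit 341)) (XT.lf (nat_lit 0) (nat_lit 7865351070) (nat_lit 380) (nat_lit 3718811054) (nat_lit 76) (nat_lit 529553791) (nat_lit 170) (nat_lit 5) (nat_lit 175) (nat_lit 5) (nat_lit 171) (nat_lit 5) (nat_lit 463) (nat_lit 397) (nat_lit 340)))) (XT.nd (nat_lit 156) (nat_lit 228) (nat_lit 0) (XT.nd (nat_lit 78) (nat_lit 304) (nat_lit 0) (XT.lf (nat_lit 0) (nat_lit 4877350124) (nat_lit 228) (nat_lit 7037160680) (nat_lit 304) (nat_lit 402078767) (nat_lit 167) (nat_lit 5) (nat_lit 170) (nat_lit 5) (nat_lit 171) (nat_lit 5) (nat_lit 464) (nat_lit 397) (nat_lit 339))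 (XT.lf (nat_lit 0) (nat_lit 1203128303) (nat_lit 228) (nat_lit 2293731438) (nat_lit 304) (nat_lit 9027462408) (nat_lit 163) (nat_lit 5) (nat_lit 166) (nat_lit 5) (nat_lit 167) (nat_lit 5) (nat_lit 465) (nat_lit 397) (nat_lit 338))) (XT.nd (nat_lit 78) (nat_lit 228) (nat_lit 0) (XT.lf (nat_lit 0) (nat_lit 7563039239) (nat_lit 304) (nat_lit 2577714070) (nat_lit 76) (nat_lit 2595664267) (nat_lit 163) (nat_lit 5) (nat_lit 167) (nat_lit 5) (nat_lit 164) (nat_lit 5) (nat_lit 466) (nat_lit 397) (nat_lit 337)) (XT.lf (nat_lit 0) (nat_lit 6464214000) (nat_lit 228) (nat_lit 5330646865) (nat_lit 304) (nat_lit 1158706197) (nat_lit 160) (nat_lit 5) (nat_lit 163) (nat_lit 5) (nat_lit 164) (nat_lit 5) (nat_lit 467) (nat_lit 397) (nat_lit 336))))))))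
noncomputable def xc88 : XT := (XT.nd (nat_lit 2418) (nat_lit 2736) (nat_lit 0) (XT.nd (nat_lit 1170) (nat_lit 1976) (nat_lit 0) (XT.nd (nat_lit 546) (nat_lit 1064) (nat_lit 0) (XT.nd (nat_lit 234) (nat_lit 760) (nat_lit 0) (XT.nd (nat_lit 78) (nat_lit 228) (nat_lit 0) (XT.lf (nat_lit 0) (nat_lit 2608376600) (nat_lit 228) (nat_lit 320274690) (nat_lit 304) (nat_lit 10247412492) (nat_lit 156) (nat_lit 5) (nat_lit 159) (nat_lit 5) (nat_lit 160) (nat_lit 5) (nat_lit 468) (nat_lit 397) (nat_lit 335)) (XT.nd (nat_lit 78) (nat_lit 228) (nat_lit 0) (XT.lf (nat_lit 0) (nat_lit 7187313301) (nat_lit 304) (nat_lit 1417601203) (nat_lit 76) (nat_lit 4797818372) (nat_lit 156) (nat_lit 5) (nat_lit 160) (nat_lit 5) (nat_lit 157) (nat_lit 5) (nat_lit 469) (nat_lit 397) (nat_lit 334)) (XT.lf (nat_lit 0) (nat_lit 8096027020) (nat_lit 228) (nat_lit 3519154731) (nat_lit 304) (nat_lit 2019777694) (nat_lit 153) (nat_lit 5) (nat_lit 156)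 (nat_lit 5) (nat_lit 157) (nat_lit 5) (nat_lit 470) (nat_lit 397) (nat_lit 333)))) (XT.nd (nat_lit 156) (nat_lit 456) (nat_lit 0) (XT.nd (nat_lit 78) (nat_lit 0) (nat_lit 0) (XT.lf (nat_lit 0) (nat_lit 2287728507) (nat_lit 304) (nat_lit 9849014352) (nat_lit 76) (nat_lit 1735819630) (nat_lit 149) (nat_lit 5) (nat_lit 153) (nat_lit 5) (nat_lit 150) (nat_lit 5) (nat_lit 471) (nat_lit 397) (nat_lit 332)) (XT.lf (nat_lit 0) (nat_lit 6736050861) (nat_lit 304) (nat_lit 250744417) (nat_lit 76) (nat_lit 7128333549) (nat_lit 149) (nat_lit 5) (nat_lit 153) (nat_lit 5) (nat_lit 150) (nat_lit 5) (nat_lit 472) (nat_lit 397) (nat_lit 331))) (XT.nd (nat_lit 78) (nat_lit 304) (nat_lit 0) (XT.lf (nat_lit 0) (nat_lit 9761707389) (nat_lit 152) (nat_lit 1611948318) (nat_lit 228) (nat_lit 2989642174) (nat_lit 147) (nat_lit 5) (nat_lit 149) (nat_lit 5) (nat_lit 150) (nat_lit 5) (nat_lit 473) (nat_lit 397) (nat_lit 330)) (XT.lf (nat_lit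 0) (nat_lit 1557191669) (nat_lit 304) (nat_lit 9167287988) (nat_lit 76) (nat_lit 3892323385) (nat_lit 143) (nat_lit 5) (nat_lit 147) (nat_lit 5) (nat_lit 144) (nat_lit 5) (nat_lit 474) (nat_lit 397) (nat_lit 329))))) (XT.nd (nat_lit 312) (nat_lit 456) (nat_lit 0) (XT.nd (nat_lit 156) (nat_lit 456) (nat_lit 0) (XT.nd (nat_lit 78) (nat_lit 0) (nat_lit 0) (XT.lf (nat_lit 0) (nat_lit 927424813) (nat_lit 152) (nat_lit 5287076580) (nat_lit 228) (nat_lit 8661499811) (nat_lit 141) (nat_lit 5) (nat_lit 143) (nat_lit 5) (nat_lit 144) (nat_lit 5) (nat_lit 475) (nat_lit 397) (nat_lit 328)) (XT.lf (nat_lit 0) (nat_lit 11070612931) (nat_lit 228) (nat_lit 3696067254) (nat_lit 76) (nat_lit 374523281) (nat_lit 141) (nat_lit 5) (nat_lit 144) (nat_lit 5) (nat_lit 142) (nat_lit 5) (nat_lit 476) (nat_lit 397) (nat_lit 327))) (XT.nd (nat_lit 78) (nat_lit 152) (nat_lit 0) (XT.lf (nat_lit 0) (nat_lit 728200609) (nat_lit 304) (nat_lit 8536003928)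 (nat_lit 76) (nat_lit 6147478224) (nat_lit 137) (nat_lit 5) (nat_lit 141) (nat_lit 5) (nat_lit 138) (nat_lit 5) (nat_lit 477) (nat_lit 397) (nat_lit 326)) (XT.lf (nat_lit 0) (nat_lit 2088207592) (nat_lit 152) (nat_lit 3522473102) (nat_lit 228) (nat_lit 10077741031) (nat_lit 135) (nat_lit 5) (nat_lit 137) (nat_lit 5) (nat_lit 138) (nat_lit 5) (nat_lit 478) (nat_lit 397) (nat_lit 325)))) (XT.nd (nat_lit 156) (nat_lit 228) (nat_lit 0) (XT.nd (nat_lit 78) (nat_lit 228) (nat_lit 0) (XT.lf (nat_lit 0) (nat_lit 10713647140) (nat_lit 228) (nat_lit 2851847805) (nat_lit 76) (nat_lit 2405748115) (nat_lit 135) (nat_lit 5) (nat_lit 138) (nat_lit 5) (nat_lit 136) (nat_lit 5) (nat_lit 479) (nat_lit 397) (nat_lit 324)) (XT.lf (nat_lit 0) (nat_lit 8284339255) (nat_lit 228) (nat_lit 7764895720) (nat_lit 304) (nat_lit 210928631) (nat_lit 132) (nat_lit 5) (nat_lit 135) (nat_lit 5) (nat_lit 136) (nat_lit 5) (nat_lit 480) (nat_lit 397)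 (nat_lit 323))) (XT.nd (nat_lit 78) (nat_lit 0) (nat_lit 0) (XT.lf (nat_lit 0) (nat_lit 3209075934) (nat_lit 152) (nat_lit 1705790492) (nat_lit 228) (nat_lit 11640696329) (nat_lit 129) (nat_lit 5) (nat_lit 131) (nat_lit 5) (nat_lit 132) (nat_lit 5) (nat_lit 481) (nat_lit 397) (nat_lit 322)) (XT.lf (nat_lit 0) (nat_lit 10280417984) (nat_lit 228) (nat_lit 2072549015) (nat_lit 76) (nat_lit 4504088064) (nat_lit 129) (nat_lit 5) (nat_lit 132) (nat_lit 5) (nat_lit 130) (nat_lit 5) (nat_lit 482) (nat_lit 397) (nat_lit 321)))))) (XT.nd (nat_lit 624) (nat_lit 836) (nat_lit 0) (XT.nd (nat_lit 312) (nat_lit 608) (nat_lit 0) (XT.nd (nat_lit 156) (nat_lit 152) (nat_lit 0) (XT.nd (nat_lit 78) (nat_lit 228) (nat_lit 0) (XT.lf (nat_lit 0) (nat_lit 9651162106) (nat_lit 152) (nat_lit 6231737277) (nat_lit 228) (nat_lit 1282414340) (nat_lit 127) (nat_lit 5) (nat_lit 129) (nat_lit 5) (nat_lit 130) (nat_lit 5) (nat_lit 483) (nat_lit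 397) (nat_lit 320)) (XT.lf (nat_lit 0) (nat_lit 4119277225) (nat_lit 228) (nat_lit 13212288972) (nat_lit 76) (nat_lit 149150893) (nat_lit 124) (nat_lit 5) (nat_lit 127) (nat_lit 5) (nat_lit 125) (nat_lit 5) (nat_lit 484) (nat_lit 397) (nat_lit 319))) (XT.nd (nat_lit 78) (nat_lit 152) (nat_lit 0) (XT.lf (nat_lit 0) (nat_lit 9762113779) (nat_lit 228) (nat_lit 1380061397) (nat_lit 76) (nat_lit 6659880825) (nat_lit 124) (nat_lit 5) (nat_lit 127) (nat_lit 5) (nat_lit 125) (nat_lit 5) (nat_lit 485) (nat_lit 397) (nat_lit 318)) (XT.lf (nat_lit 0) (nat_lit 10962681235) (nat_lit 152) (nat_lit 4684448428) (nat_lit 228) (nat_lit 2483719019) (nat_lit 122) (nat_lit 5) (nat_lit 124) (nat_lit 5) (nat_lit 125) (nat_lit 5) (nat_lit 486) (nat_lit 397) (nat_lit 317)))) (XT.nd (nat_lit 156) (nat_lit 380) (nat_lit 0) (XT.nd (nat_lit 78) (nat_lit 0) (nat_lit 0) (XT.lf (nat_lit 0) (nat_lit 3227691058) (nat_lit 228) (nat_lit 13239626393)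 (nat_lit 76) (nat_lit 1999702731) (nat_lit 119) (nat_lit 5) (nat_lit 122) (nat_lit 5) (nat_lit 120) (nat_lit 5) (nat_lit 487) (nat_lit 397) (nat_lit 316)) (XT.lf (nat_lit 0) (nat_lit 9147730858) (nat_lit 228) (nat_lit 799617726) (nat_lit 76) (nat_lit 8862574665) (nat_lit 119) (nat_lit 5) (nat_lit 122) (nat_lit 5) (nat_lit 120) (nat_lit 5) (nat_lit 488) (nat_lit 397) (nat_lit 315))) (XT.nd (nat_lit 78) (nat_lit 228) (nat_lit 0) (XT.lf (nat_lit 0) (nat_lit 12194673525) (nat_lit 152) (nat_lit 3136586934) (nat_lit 228) (nat_lit 3829276675) (nat_lit 117) (nat_lit 5) (nat_lit 119) (nat_lit 5) (nat_lit 120) (nat_lit 5) (nat_lit 489) (nat_lit 397) (nat_lit 314)) (XT.lf (nat_lit 0) (nat_lit 2209686478) (nat_lit 228) (nat_lit 13442758564) (nat_lit 76) (nat_lit 3866389298) (nat_lit 114) (nat_lit 5) (nat_lit 117) (nat_lit 5) (nat_lit 115) (nat_lit 5) (nat_lit 490) (nat_lit 397) (nat_lit 313))))) (XT.nd (nat_lit 312) (nat_lit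 456) (nat_lit 0) (XT.nd (nat_lit 156) (nat_lit 228) (nat_lit 0) (XT.nd (nat_lit 78) (nat_lit 152) (nat_lit 0) (XT.lf (nat_lit 0) (nat_lit 8423801213) (nat_lit 228) (nat_lit 360437735) (nat_lit 76) (nat_lit 11100376034) (nat_lit 114) (nat_lit 5) (nat_lit 117) (nat_lit 5) (nat_lit 115) (nat_lit 5) (nat_lit 491) (nat_lit 397) (nat_lit 312)) (XT.lf (nat_lit 0) (nat_lit 13318844709) (nat_lit 152) (nat_lit 1603284752) (nat_lit 228) (nat_lit 5336306219) (nat_lit 112) (nat_lit 5) (nat_lit 114) (nat_lit 5) (nat_lit 115) (nat_lit 5) (nat_lit 492) (nat_lit 397) (nat_lit 311))) (XT.nd (nat_lit 78) (nat_lit 0) (nat_lit 0) (XT.lf (nat_lit 0) (nat_lit 1048450087) (nat_lit 228) (nat_lit 13857051848) (nat_lit 76) (nat_lit 5734824714) (nat_lit 109) (nat_lit 5) (nat_lit 112) (nat_lit 5) (nat_lit 110) (nat_lit 5) (nat_lit 493) (nat_lit 397) (nat_lit 310)) (XT.lf (nat_lit 0) (nat_lit 7574067102) (nat_lit 228) (nat_lit 96468052) (nat_lit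 76) (nat_lit 13359857287) (nat_lit 109) (nat_lit 5) (nat_lit 112) (nat_lit 5) (nat_lit 110) (nat_lit 5) (nat_lit 494) (nat_lit 397) (nat_lit 309)))) (XT.nd (nat_lit 156) (nat_lit 228) (nat_lit 0) (XT.nd (nat_lit 78) (nat_lit 76) (nat_lit 0) (XT.lf (nat_lit 0) (nat_lit 14302061974) (nat_lit 152) (nat_lit 101674994) (nat_lit 228) (nat_lit 7025175009) (nat_lit 107) (nat_lit 5) (nat_lit 109) (nat_lit 5) (nat_lit 110) (nat_lit 5) (nat_lit 495) (nat_lit 397) (nat_lit 308)) (XT.lf (nat_lit 0) (nat_lit 7309779207) (nat_lit 76) (nat_lit 14244634223) (nat_lit 152) (nat_lit 281490467) (nat_lit 106) (nat_lit 5) (nat_lit 107) (nat_lit 5) (nat_lit 108) (nat_lit 4) (nat_lit 496) (nat_lit 397) (nat_lit 307))) (XT.nd (nat_lit 78) (nat_lit 152) (nat_lit 0) (XT.lf (nat_lit 0) (nat_lit 6579095206) (nat_lit 152) (nat_lit 47233703) (nat_lit 76) (nat_lit 15625515870) (nat_lit 105) (nat_lit 5) (nat_lit 107) (nat_lit 5) (nat_lit 106) (nat_lit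 5) (nat_lit 497) (nat_lit 397) (nat_lit 306)) (XT.lf (nat_lit 0) (nat_lit 13769806299) (nat_lit 228) (nat_lit 7584164692) (nat_lit 76) (nat_lit 1322310587) (nat_lit 103) (nat_lit 5) (nat_lit 106) (nat_lit 5) (nat_lit 104) (nat_lit 4) (nat_lit 498) (nat_lit 397) (nat_lit 305))))))) (XT.nd (nat_lit 1170) (nat_lit 1216) (nat_lit 0) (XT.nd (nat_lit 546) (nat_lit 836) (nat_lit 0) (XT.nd (nat_lit 234) (nat_lit 380) (nat_lit 0) (XT.nd (nat_lit 78) (nat_lit 228) (nat_lit 0) (XT.lf (nat_lit 0) (nat_lit 7603316076) (nat_lit 76) (nat_lit 13683987373) (nat_lit 152) (nat_lit 1822816351) (nat_lit 102) (nat_lit 5) (nat_lit 103) (nat_lit 5) (nat_lit 104) (nat_lit 4) (nat_lit 499) (nat_lit 397) (nat_lit 304)) (XT.nd (nat_lit 78) (nat_lit 152) (nat_lit 0) (XT.lf (nat_lit 0) (nat_lit 5415821588) (nat_lit 152) (nat_lit 258820026) (nat_lit 76) (nat_lit 17879275180) (nat_lit 101) (nat_lit 5) (nat_lit 103) (nat_lit 5) (nat_lit 102) (nat_lit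 5) (nat_lit 500) (nat_lit 397) (nat_lit 303)) (XT.lf (nat_lit 0) (nat_lit 12984683275) (nat_lit 228) (nat_lit 8349507298) (nat_lit 76) (nat_lit 2671804891) (nat_lit 99) (nat_lit 5) (nat_lit 102) (nat_lit 5) (nat_lit 100) (nat_lit 4) (nat_lit 501) (nat_lit 397) (nat_lit 302)))) (XT.nd (nat_lit 156) (nat_lit 228) (nat_lit 0) (XT.nd (nat_lit 78) (nat_lit 76) (nat_lit 0) (XT.lf (nat_lit 0) (nat_lit 7624363460) (nat_lit 76) (nat_lit 13261189013) (nat_lit 152) (nat_lit 3582936002) (nat_lit 98) (nat_lit 5) (nat_lit 99) (nat_lit 5) (nat_lit 100) (nat_lit 4) (nat_lit 502) (nat_lit 397) (nat_lit 301)) (XT.lf (nat_lit 0) (nat_lit 4057017262) (nat_lit 152) (nat_lit 785006687) (nat_lit 76) (nat_lit 20099915952) (nat_lit 97) (nat_lit 5) (nat_lit 99) (nat_lit 5) (nat_lit 98) (nat_lit 5) (nat_lit 503) (nat_lit 397) (nat_lit 300))) (XT.nd (nat_lit 78) (nat_lit 76) (nat_lit 0) (XT.lf (nat_lit 0) (nat_lit 12019906155) (nat_lit 228)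 (nat_lit 9480639256) (nat_lit 76) (nat_lit 3923012919) (nat_lit 95) (nat_lit 5) (nat_lit 98) (nat_lit 5) (nat_lit 96) (nat_lit 4) (nat_lit 504) (nat_lit 397) (nat_lit 299)) (XT.lf (nat_lit 0) (nat_lit 7314271086) (nat_lit 76) (nat_lit 13007392490) (nat_lit 152) (nat_lit 5594962484) (nat_lit 94) (nat_lit 5) (nat_lit 95) (nat_lit 5) (nat_lit 96) (nat_lit 4) (nat_lit 505) (nat_lit 397) (nat_lit 298))))) (XT.nd (nat_lit 312) (nat_lit 456) (nat_lit 0) (XT.nd (nat_lit 156) (nat_lit 152) (nat_lit 0) (XT.nd (nat_lit 78) (nat_lit 152) (nat_lit 0) (XT.lf (nat_lit 0) (nat_lit 2470662410) (nat_lit 152) (nat_lit 1688578932) (nat_lit 76) (nat_lit 22262425418) (nat_lit 93) (nat_lit 5) (nat_lit 95) (nat_lit 5) (nat_lit 94) (nat_lit 5) (nat_lit 506) (nat_lit 397) (nat_lit 297)) (XT.lf (nat_lit 0) (nat_lit 10843019967) (nat_lit 228) (nat_lit 11045981430) (nat_lit 76) (nat_lit 5045879090) (nat_lit 91) (nat_lit 5) (nat_lit 94) (nat_lit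 5) (nat_lit 92) (nat_lit 4) (nat_lit 507) (nat_lit 397) (nat_lit 296))) (XT.nd (nat_lit 78) (nat_lit 76) (nat_lit 0) (XT.lf (nat_lit 0) (nat_lit 6604393585) (nat_lit 76) (nat_lit 12958627718) (nat_lit 152) (nat_lit 7897575314) (nat_lit 90) (nat_lit 5) (nat_lit 91) (nat_lit 5) (nat_lit 92) (nat_lit 4) (nat_lit 508) (nat_lit 397) (nat_lit 295)) (XT.lf (nat_lit 0) (nat_lit 619215334) (nat_lit 152) (nat_lit 3042845071) (nat_lit 76) (nat_lit 24337249627) (nat_lit 89) (nat_lit 5) (nat_lit 91) (nat_lit 5) (nat_lit 90) (nat_lit 5) (nat_lit 509) (nat_lit 397) (nat_lit 294)))) (XT.nd (nat_lit 156) (nat_lit 228) (nat_lit 0) (XT.nd (nat_lit 78) (nat_lit 76) (nat_lit 0) (XT.lf (nat_lit 0) (nat_lit 9415827326) (nat_lit 228) (nat_lit 13125251405) (nat_lit 76) (nat_lit 6005268939) (nat_lit 87) (nat_lit 5) (nat_lit 90) (nat_lit 5) (nat_lit 88) (nat_lit 4) (nat_lit 510) (nat_lit 397) (nat_lit 293)) (XT.lf (nat_lit 0) (nat_lit 5414406421)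 (nat_lit 76) (nat_lit 13156678526) (nat_lit 152) (nat_lit 10535869234) (nat_lit 86) (nat_lit 5) (nat_lit 87) (nat_lit 5) (nat_lit 88) (nat_lit 4) (nat_lit 511) (nat_lit 397) (nat_lit 292))) (XT.nd (nat_lit 78) (nat_lit 228) (nat_lit 0) (XT.lf (nat_lit 0) (nat_lit 24732628500) (nat_lit 76) (nat_lit 3376590210) (nat_lit 152) (nat_lit 1571913782) (nat_lit 86) (nat_lit 5) (nat_lit 87) (nat_lit 5) (nat_lit 88) (nat_lit 4) (nat_lit 512) (nat_lit 397) (nat_lit 291)) (XT.lf (nat_lit 0) (nat_lit 7693488293) (nat_lit 228) (nat_lit 15811333203) (nat_lit 76) (nat_lit 6760044923) (nat_lit 83) (nat_lit 5) (nat_lit 86) (nat_lit 5) (nat_lit 84) (nat_lit 4) (nat_lit 513) (nat_lit 397) (nat_lit 290)))))) (XT.nd (nat_lit 624) (nat_lit 608) (nat_lit 0) (XT.nd (nat_lit 312) (nat_lit 228) (nat_lit 0) (XT.nd (nat_lit 156) (nat_lit 304) (nat_lit 0) (XT.nd (nat_lit 78) (nat_lit 0) (nat_lit 0) (XT.lf (nat_lit 0) (nat_lit 3650354450) (nat_lit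 76) (nat_lit 13650093089) (nat_lit 152) (nat_lit 13562342394) (nat_lit 82) (nat_lit 5) (nat_lit 83) (nat_lit 5) (nat_lit 84) (nat_lit 4) (nat_lit 514) (nat_lit 397) (nat_lit 289)) (XT.lf (nat_lit 0) (nat_lit 23974613989) (nat_lit 76) (nat_lit 3357124832) (nat_lit 152) (nat_lit 4142828772) (nat_lit 82) (nat_lit 5) (nat_lit 83) (nat_lit 5) (nat_lit 84) (nat_lit 4) (nat_lit 515) (nat_lit 397) (nat_lit 288))) (XT.nd (nat_lit 78) (nat_lit 76) (nat_lit 0) (XT.lf (nat_lit 0) (nat_lit 5623471914) (nat_lit 228) (nat_lit 19212443311) (nat_lit 76) (nat_lit 7261999826) (nat_lit 79) (nat_lit 5) (nat_lit 82) (nat_lit 5) (nat_lit 80) (nat_lit 4) (nat_lit 516) (nat_lit 397) (nat_lit 287)) (XT.lf (nat_lit 0) (nat_lit 1202389823) (nat_lit 76) (nat_lit 14495349681) (nat_lit 152) (nat_lit 17038045673) (nat_lit 78) (nat_lit 5) (nat_lit 79) (nat_lit 5) (nat_lit 80) (nat_lit 4) (nat_lit 517) (nat_lit 397) (nat_lit 286)))) (XT.nd (nat_lit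 156) (nat_lit 76) (nat_lit 0) (XT.nd (nat_lit 78) (nat_lit 152) (nat_lit 0) (XT.lf (nat_lit 0) (nat_lit 22579364264) (nat_lit 76) (nat_lit 3666088546) (nat_lit 152) (nat_lit 7142202192) (nat_lit 78) (nat_lit 5) (nat_lit 79) (nat_lit 5) (nat_lit 80) (nat_lit 4) (nat_lit 518) (nat_lit 397) (nat_lit 285)) (XT.lf (nat_lit 0) (nat_lit 3144336156) (nat_lit 152) (nat_lit 23454640788) (nat_lit 76) (nat_lit 7454624005) (nat_lit 76) (nat_lit 5) (nat_lit 78) (nat_lit 5) (nat_lit 77) (nat_lit 4) (nat_lit 519) (nat_lit 397) (nat_lit 284))) (XT.nd (nat_lit 78) (nat_lit 76) (nat_lit 0) (XT.lf (nat_lit 0) (nat_lit 13720133893) (nat_lit 152) (nat_lit 2017694790) (nat_lit 76) (nat_lit 18995848829) (nat_lit 76) (nat_lit 5) (nat_lit 78) (nat_lit 5) (nat_lit 77) (nat_lit 4) (nat_lit 520) (nat_lit 397) (nat_lit 283)) (XT.lf (nat_lit 0) (nat_lit 20418726423) (nat_lit 76) (nat_lit 4369099495) (nat_lit 152) (nat_lit 10641091952) (nat_lit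 75) (nat_lit 5) (nat_lit 76) (nat_lit 5) (nat_lit 77) (nat_lit 4) (nat_lit 521) (nat_lit 397) (nat_lit 282))))) (XT.nd (nat_lit 312) (nat_lit 304) (nat_lit 0) (XT.nd (nat_lit 156) (nat_lit 152) (nat_lit 0) (XT.nd (nat_lit 78) (nat_lit 0) (nat_lit 0) (XT.lf (nat_lit 0) (nat_lit 184309230) (nat_lit 152) (nat_lit 28684736791) (nat_lit 76) (nat_lit 7271679078) (nat_lit 73) (nat_lit 5) (nat_lit 75) (nat_lit 5) (nat_lit 74) (nat_lit 4) (nat_lit 522) (nat_lit 397) (nat_lit 281)) (XT.lf (nat_lit 0) (nat_lit 11295325502) (nat_lit 152) (nat_lit 6157737291) (nat_lit 76) (nat_lit 19412421278) (nat_lit 73) (nat_lit 5) (nat_lit 75) (nat_lit 5) (nat_lit 74) (nat_lit 4) (nat_lit 523) (nat_lit 397) (nat_lit 280))) (XT.nd (nat_lit 78) (nat_lit 76) (nat_lit 0) (XT.lf (nat_lit 0) (nat_lit 17342586451) (nat_lit 76) (nat_lit 5542818437) (nat_lit 152) (nat_lit 14722209045) (nat_lit 72) (nat_lit 5) (nat_lit 73) (nat_lit 5) (nat_lit 74)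 (nat_lit 4) (nat_lit 524) (nat_lit 397) (nat_lit 279)) (XT.lf (nat_lit 0) (nat_lit 3261456140) (nat_lit 76) (nat_lit 31699577450) (nat_lit 76) (nat_lit 3406838786) (nat_lit 71) (nat_lit 4) (nat_lit 72) (nat_lit 5) (nat_lit 72) (nat_lit 4) (nat_lit 525) (nat_lit 397) (nat_lit 278)))) (XT.nd (nat_lit 156) (nat_lit 152) (nat_lit 0) (XT.nd (nat_lit 78) (nat_lit 76) (nat_lit 0) (XT.lf (nat_lit 0) (nat_lit 8327659028) (nat_lit 152) (nat_lit 11412791468) (nat_lit 76) (nat_lit 19400891190) (nat_lit 70) (nat_lit 5) (nat_lit 72) (nat_lit 5) (nat_lit 71) (nat_lit 4) (nat_lit 526) (nat_lit 397) (nat_lit 277)) (XT.lf (nat_lit 0) (nat_lit 13175251042) (nat_lit 76) (nat_lit 7276796726) (nat_lit 152) (nat_lit 19481765559) (nat_lit 69) (nat_lit 5) (nat_lit 70) (nat_lit 5) (nat_lit 71) (nat_lit 4) (nat_lit 527) (nat_lit 397) (nat_lit 276))) (XT.nd (nat_lit 78) (nat_lit 152) (nat_lit 0) (XT.lf (nat_lit 0) (nat_lit 33089719269) (nat_lit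 152) (nat_lit 2106095238) (nat_lit 0) (nat_lit 5549758162) (nat_lit 69) (nat_lit 5) (nat_lit 71) (nat_lit 4) (nat_lit 69) (nat_lit 4) (nat_lit 528) (nat_lit 397) (nat_lit 275)) (XT.lf (nat_lit 0) (nat_lit 4718864837) (nat_lit 152) (nat_lit 17983055922) (nat_lit 76) (nat_lit 18869989509) (nat_lit 67) (nat_lit 5) (nat_lit 69) (nat_lit 5) (nat_lit 68) (nat_lit 4) (nat_lit 529) (nat_lit 397) (nat_lit 274))))))))
noncomputable def xc89 : XT := (XT.nd (nat_lit 53196) (nat_lit 0) (nat_lit 15124) (XT.nd (nat_lit 1170) (nat_lit 608) (nat_lit 0) (XT.nd (nat_lit 546) (nat_lit 532) (nat_lit 0) (XT.nd (nat_lit 234) (nat_lit 228) (nat_lit 0) (XT.nd (nat_lit 78) (nat_lit 152) (nat_lit 0) (XT.lf (nat_lit 0) (nat_lit 7711249238) (nat_lit 76) (nat_lit 9675617297) (nat_lit 152) (nat_lit 25031620014) (nat_lit 66) (nat_lit 5) (nat_lit 67) (nat_lit 5) (nat_lit 68) (nat_lit 4) (nat_lit 530) (nat_lit 397) (nat_lit 273)) (XT.nd (nat_lit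 78) (nat_lit 152) (nat_lit 0) (XT.lf (nat_lit 0) (nat_lit 30634604016) (nat_lit 152) (nat_lit 8816421445) (nat_lit 0) (nat_lit 3833443859) (nat_lit 66) (nat_lit 5) (nat_lit 68) (nat_lit 4) (nat_lit 66) (nat_lit 4) (nat_lit 531) (nat_lit 397) (nat_lit 272)) (XT.lf (nat_lit 0) (nat_lit 354218157) (nat_lit 152) (nat_lit 26101990909) (nat_lit 76) (nat_lit 17712605998) (nat_lit 64) (nat_lit 5) (nat_lit 66) (nat_lit 5) (nat_lit 65) (nat_lit 4) (nat_lit 532) (nat_lit 397) (nat_lit 271)))) (XT.nd (nat_lit 156) (nat_lit 152) (nat_lit 0) (XT.nd (nat_lit 78) (nat_lit 0) (nat_lit 0) (XT.lf (nat_lit 0) (nat_lit 710460816) (nat_lit 76) (nat_lit 12861376016) (nat_lit 152) (nat_lit 31501767156) (nat_lit 63) (nat_lit 5) (nat_lit 64) (nat_lit 5) (nat_lit 65) (nat_lit 4) (nat_lit 533) (nat_lit 397) (nat_lit 270)) (XT.lf (nat_lit 0) (nat_lit 27444088920) (nat_lit 152) (nat_lit 17186430799) (nat_lit 0) (nat_lit 1367273782) (nat_lit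 63) (nat_lit 5) (nat_lit 65) (nat_lit 4) (nat_lit 63) (nat_lit 4) (nat_lit 534) (nat_lit 397) (nat_lit 269))) (XT.nd (nat_lit 78) (nat_lit 76) (nat_lit 0) (XT.lf (nat_lit 0) (nat_lit 10853556590) (nat_lit 76) (nat_lit 31092123688) (nat_lit 76) (nat_lit 4997633335) (nat_lit 62) (nat_lit 4) (nat_lit 63) (nat_lit 5) (nat_lit 63) (nat_lit 4) (nat_lit 535) (nat_lit 397) (nat_lit 268)) (XT.lf (nat_lit 0) (nat_lit 8946956440) (nat_lit 152) (nat_lit 7949329183) (nat_lit 76) (nat_lit 31013625075) (nat_lit 61) (nat_lit 5) (nat_lit 63) (nat_lit 5) (nat_lit 62) (nat_lit 4) (nat_lit 536) (nat_lit 397) (nat_lit 267))))) (XT.nd (nat_lit 312) (nat_lit 228) (nat_lit 0) (XT.nd (nat_lit 156) (nat_lit 152) (nat_lit 0) (XT.nd (nat_lit 78) (nat_lit 76) (nat_lit 0) (XT.lf (nat_lit 0) (nat_lit 21367358479) (nat_lit 76) (nat_lit 2029523206) (nat_lit 152) (nat_lit 25501516266) (nat_lit 60) (nat_lit 5) (nat_lit 61) (nat_lit 5) (nat_lit 62)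 (nat_lit 4) (nat_lit 537) (nat_lit 397) (nat_lit 266)) (XT.lf (nat_lit 0) (nat_lit 1681249489) (nat_lit 76) (nat_lit 36806038825) (nat_lit 76) (nat_lit 11423042057) (nat_lit 59) (nat_lit 4) (nat_lit 60) (nat_lit 5) (nat_lit 60) (nat_lit 4) (nat_lit 538) (nat_lit 397) (nat_lit 265))) (XT.nd (nat_lit 78) (nat_lit 76) (nat_lit 0) (XT.lf (nat_lit 0) (nat_lit 3300661553) (nat_lit 152) (nat_lit 18697900611) (nat_lit 76) (nat_lit 28944683071) (nat_lit 58) (nat_lit 5) (nat_lit 60) (nat_lit 5) (nat_lit 59) (nat_lit 4) (nat_lit 539) (nat_lit 397) (nat_lit 264)) (XT.lf (nat_lit 0) (nat_lit 11801993541) (nat_lit 76) (nat_lit 6530538389) (nat_lit 152) (nat_lit 33668341258) (nat_lit 57) (nat_lit 5) (nat_lit 58) (nat_lit 5) (nat_lit 59) (nat_lit 4) (nat_lit 540) (nat_lit 397) (nat_lit 263)))) (XT.nd (nat_lit 156) (nat_lit 152) (nat_lit 0) (XT.nd (nat_lit 78) (nat_lit 76) (nat_lit 0) (XT.lf (nat_lit 0) (nat_lit 34079029794) (nat_lit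 152) (nat_lit 9611073747) (nat_lit 0) (nat_lit 9392216350) (nat_lit 57) (nat_lit 5) (nat_lit 59) (nat_lit 4) (nat_lit 57) (nat_lit 4) (nat_lit 541) (nat_lit 397) (nat_lit 262)) (XT.lf (nat_lit 0) (nat_lit 22230060518) (nat_lit 76) (nat_lit 28329332717) (nat_lit 76) (nat_lit 3628972691) (nat_lit 56) (nat_lit 4) (nat_lit 57) (nat_lit 5) (nat_lit 57) (nat_lit 4) (nat_lit 542) (nat_lit 397) (nat_lit 261))) (XT.nd (nat_lit 78) (nat_lit 76) (nat_lit 0) (XT.lf (nat_lit 0) (nat_lit 12049524715) (nat_lit 152) (nat_lit 252976874) (nat_lit 76) (nat_lit 43019137346) (nat_lit 55) (nat_lit 5) (nat_lit 57) (nat_lit 5) (nat_lit 56) (nat_lit 4) (nat_lit 543) (nat_lit 397) (nat_lit 260)) (XT.lf (nat_lit 0) (nat_lit 28469833420) (nat_lit 152) (nat_lit 23543931630) (nat_lit 0) (nat_lit 4463735363) (nat_lit 54) (nat_lit 5) (nat_lit 56) (nat_lit 4) (nat_lit 54) (nat_lit 4) (nat_lit 544) (nat_lit 397) (nat_lit 259)))))) (XT.nd (nat_lit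 624) (nat_lit 76) (nat_lit 0) (XT.nd (nat_lit 312) (nat_lit 304) (nat_lit 0) (XT.nd (nat_lit 156) (nat_lit 76) (nat_lit 0) (XT.nd (nat_lit 78) (nat_lit 76) (nat_lit 0) (XT.lf (nat_lit 0) (nat_lit 9483679765) (nat_lit 76) (nat_lit 36098258218) (nat_lit 76) (nat_lit 12080124199) (nat_lit 53) (nat_lit 4) (nat_lit 54) (nat_lit 5) (nat_lit 54) (nat_lit 4) (nat_lit 545) (nat_lit 397) (nat_lit 258)) (XT.lf (nat_lit 0) (nat_lit 4464589113) (nat_lit 152) (nat_lit 14966703518) (nat_lit 76) (nat_lit 39442908546) (nat_lit 52) (nat_lit 5) (nat_lit 54) (nat_lit 5) (nat_lit 53) (nat_lit 4) (nat_lit 546) (nat_lit 397) (nat_lit 257))) (XT.nd (nat_lit 78) (nat_lit 0) (nat_lit 0) (XT.lf (nat_lit 0) (nat_lit 19470107508) (nat_lit 76) (nat_lit 1964016618) (nat_lit 152) (nat_lit 38679853738) (nat_lit 51) (nat_lit 5) (nat_lit 52) (nat_lit 5) (nat_lit 53) (nat_lit 4) (nat_lit 547) (nat_lit 397) (nat_lit 256)) (XT.lf (nat_lit 0) (nat_lit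 39203573267) (nat_lit 152) (nat_lit 6326706686) (nat_lit 0) (nat_lit 15851943093) (nat_lit 51) (nat_lit 5) (nat_lit 53) (nat_lit 4) (nat_lit 51) (nat_lit 4) (nat_lit 548) (nat_lit 397) (nat_lit 255)))) (XT.nd (nat_lit 156) (nat_lit 76) (nat_lit 0) (XT.nd (nat_lit 78) (nat_lit 152) (nat_lit 0) (XT.lf (nat_lit 0) (nat_lit 29546444810) (nat_lit 76) (nat_lit 28247720761) (nat_lit 76) (nat_lit 4885708261) (nat_lit 50) (nat_lit 4) (nat_lit 51) (nat_lit 5) (nat_lit 51) (nat_lit 4) (nat_lit 549) (nat_lit 397) (nat_lit 254)) (XT.lf (nat_lit 0) (nat_lit 2504281746) (nat_lit 76) (nat_lit 10242700605) (nat_lit 152) (nat_lit 51263548418) (nat_lit 48) (nat_lit 5) (nat_lit 49) (nat_lit 5) (nat_lit 50) (nat_lit 4) (nat_lit 550) (nat_lit 397) (nat_lit 253))) (XT.nd (nat_lit 78) (nat_lit 76) (nat_lit 0) (XT.lf (nat_lit 0) (nat_lit 31212772722) (nat_lit 152) (nat_lit 25642894471) (nat_lit 0) (nat_lit 8511919549) (nat_lit 48) (nat_lit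 5) (nat_lit 50) (nat_lit 4) (nat_lit 48) (nat_lit 4) (nat_lit 551) (nat_lit 397) (nat_lit 252)) (XT.lf (nat_lit 0) (nat_lit 11387393095) (nat_lit 76) (nat_lit 39041080482) (nat_lit 76) (nat_lit 16331002747) (nat_lit 47) (nat_lit 4) (nat_lit 48) (nat_lit 5) (nat_lit 48) (nat_lit 4) (nat_lit 552) (nat_lit 397) (nat_lit 251))))) (XT.nd (nat_lit 51090) (nat_lit 0) (nat_lit 30856) (XT.nd (nat_lit 50934) (nat_lit 0) (nat_lit 31616) (XT.nd (nat_lit 50856) (nat_lit 0) (nat_lit 31920) (XT.lf (nat_lit 0) (nat_lit 2234532013) (nat_lit 152) (nat_lit 18182933634) (nat_lit 76) (nat_lit 47767675082) (nat_lit 46) (nat_lit 5) (nat_lit 48) (nat_lit 5) (nat_lit 47) (nat_lit 4) (nat_lit 553) (nat_lit 397) (nat_lit 250)) (XT.lf (nat_lit 0) (nat_lit 133279683) (nat_lit 228) (nat_lit 2963055056) (nat_lit 0) (nat_lit 133279683) (nat_lit 466) (nat_lit 5) (nat_lit 469) (nat_lit 4) (nat_lit 466) (nat_lit 4) (nat_lit 404) (nat_lit 398) (nat_lit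 398))) (XT.nd (nat_lit 78) (nat_lit 304) (nat_lit 0) (XT.lf (nat_lit 0) (nat_lit 3461116554) (nat_lit 228) (nat_lit 2399910363) (nat_lit 0) (nat_lit 607685495) (nat_lit 466) (nat_lit 5) (nat_lit 469) (nat_lit 4) (nat_lit 466) (nat_lit 4) (nat_lit 405) (nat_lit 398) (nat_lit 397)) (XT.lf (nat_lit 0) (nat_lit 159649964) (nat_lit 304) (nat_lit 5299663047) (nat_lit 76) (nat_lit 1022340163) (nat_lit 462) (nat_lit 5) (nat_lit 466) (nat_lit 5) (nat_lit 463) (nat_lit 4) (nat_lit 406) (nat_lit 398) (nat_lit 396)))) (XT.nd (nat_lit 156) (nat_lit 456) (nat_lit 0) (XT.nd (nat_lit 78) (nat_lit 304) (nat_lit 0) (XT.lf (nat_lit 0) (nat_lit 3269189278) (nat_lit 304) (nat_lit 1676930682) (nat_lit 76) (nat_lit 1550746649) (nat_lit 462) (nat_lit 5) (nat_lit 466) (nat_lit 5) (nat_lit 463) (nat_lit 4) (nat_lit 407) (nat_lit 398) (nat_lit 395)) (XT.lf (nat_lit 0) (nat_lit 2022888686) (nat_lit 304) (nat_lit 4355223253) (nat_lit 380) (nat_lit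 137250885) (nat_lit 458) (nat_lit 5) (nat_lit 462) (nat_lit 5) (nat_lit 463) (nat_lit 4) (nat_lit 408) (nat_lit 398) (nat_lit 394))) (XT.nd (nat_lit 78) (nat_lit 380) (nat_lit 0) (XT.lf (nat_lit 0) (nat_lit 2891725226) (nat_lit 380) (nat_lit 767880864) (nat_lit 76) (nat_lit 2876780032) (nat_lit 457) (nat_lit 5) (nat_lit 462) (nat_lit 5) (nat_lit 458) (nat_lit 5) (nat_lit 409) (nat_lit 398) (nat_lit 393)) (XT.lf (nat_lit 0) (nat_lit 3056237828) (nat_lit 380) (nat_lit 2873381498) (nat_lit 456) (nat_lit 630764309) (nat_lit 452) (nat_lit 5) (nat_lit 457) (nat_lit 5) (nat_lit 458) (nat_lit 5) (nat_lit 410) (nat_lit 398) (nat_lit 392))))))) (XT.nd (nat_lit 1248) (nat_lit 7220) (nat_lit 0) (XT.nd (nat_lit 624) (nat_lit 5168) (nat_lit 0) (XT.nd (nat_lit 312) (nat_lit 2204) (nat_lit 0) (XT.nd (nat_lit 156) (nat_lit 608) (nat_lit 0) (XT.nd (nat_lit 78) (nat_lit 0) (nat_lit 0) (XT.lf (nat_lit 0) (nat_lit 336728327) (nat_lit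 456) (nat_lit 1992482491) (nat_lit 532) (nat_lit 4258067067) (nat_lit 445) (nat_lit 5) (nat_lit 451) (nat_lit 5) (nat_lit 452) (nat_lit 5) (nat_lit 411) (nat_lit 398) (nat_lit 391)) (XT.lf (nat_lit 0) (nat_lit 4287055212) (nat_lit 456) (nat_lit 1008873592) (nat_lit 532) (nat_lit 1320951945) (nat_lit 445) (nat_lit 5) (nat_lit 451) (nat_lit 5) (nat_lit 452) (nat_lit 5) (nat_lit 412) (nat_lit 398) (nat_lit 390))) (XT.nd (nat_lit 78) (nat_lit 0) (nat_lit 0) (XT.lf (nat_lit 0) (nat_lit 1584907474) (nat_lit 608) (nat_lit 4996967582) (nat_lit 76) (nat_lit 67595878) (nat_lit 437) (nat_lit 5) (nat_lit 445) (nat_lit 5) (nat_lit 438) (nat_lit 5) (nat_lit 413) (nat_lit 398) (nat_lit 389)) (XT.lf (nat_lit 0) (nat_lit 4485073911) (nat_lit 608) (nat_lit 977390071) (nat_lit 76) (nat_lit 1222179171) (nat_lit 437) (nat_lit 5) (nat_lit 445) (nat_lit 5) (nat_lit 438) (nat_lit 5) (nat_lit 414) (nat_lit 398) (nat_lit 388)))) (XT.nd (nat_lit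 156) (nat_lit 836) (nat_lit 0) (XT.nd (nat_lit 78) (nat_lit 684) (nat_lit 0) (XT.lf (nat_lit 0) (nat_lit 669196298) (nat_lit 684) (nat_lit 3576817524) (nat_lit 76) (nat_lit 2476672242) (nat_lit 428) (nat_lit 5) (nat_lit 437) (nat_lit 5) (nat_lit 429) (nat_lit 5) (nat_lit 415) (nat_lit 398) (nat_lit 387)) (XT.lf (nat_lit 0) (nat_lit 567605390) (nat_lit 684) (nat_lit 2931681361) (nat_lit 760) (nat_lit 3264352558) (nat_lit 419) (nat_lit 5) (nat_lit 428) (nat_lit 5) (nat_lit 429) (nat_lit 5) (nat_lit 416) (nat_lit 398) (nat_lit 386))) (XT.nd (nat_lit 78) (nat_lit 836) (nat_lit 0) (XT.lf (nat_lit 0) (nat_lit 4837515487) (nat_lit 684) (nat_lit 1519031794) (nat_lit 760) (nat_lit 451012176) (nat_lit 419) (nat_lit 5) (nat_lit 428) (nat_lit 5) (nat_lit 429) (nat_lit 5) (nat_lit 417) (nat_lit 398) (nat_lit 385)) (XT.lf (nat_lit 0) (nat_lit 2329415457) (nat_lit 836) (nat_lit 4521392958) (nat_lit 76) (nat_lit 3376229) (nat_lit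 408) (nat_lit 5) (nat_lit 419) (nat_lit 5) (nat_lit 409) (nat_lit 5) (nat_lit 418) (nat_lit 398) (nat_lit 384))))) (XT.nd (nat_lit 312) (nat_lit 3344) (nat_lit 0) (XT.nd (nat_lit 156) (nat_lit 912) (nat_lit 0) (XT.nd (nat_lit 78) (nat_lit 912) (nat_lit 0) (XT.lf (nat_lit 0) (nat_lit 5129472378) (nat_lit 836) (nat_lit 190302827) (nat_lit 76) (nat_lit 1583946769) (nat_lit 408) (nat_lit 5) (nat_lit 419) (nat_lit 5) (nat_lit 409) (nat_lit 5) (nat_lit 419) (nat_lit 398) (nat_lit 383)) (XT.lf (nat_lit 0) (nat_lit 991595724) (nat_lit 912) (nat_lit 2683497642) (nat_lit 76) (nat_lit 3280748057) (nat_lit 396) (nat_lit 5) (nat_lit 408) (nat_lit 5) (nat_lit 397) (nat_lit 5) (nat_lit 420) (nat_lit 398) (nat_lit 382))) (XT.nd (nat_lit 78) (nat_lit 0) (nat_lit 0) (XT.lf (nat_lit 0) (nat_lit 1808056369) (nat_lit 912) (nat_lit 1929793538) (nat_lit 988) (nat_lit 3273160019) (nat_lit 384) (nat_lit 5) (nat_lit 396) (nat_lit 5) (nat_lit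 397) (nat_lit 5) (nat_lit 421) (nat_lit 398) (nat_lit 381)) (XT.lf (nat_lit 0) (nat_lit 6417137732) (nat_lit 912) (nat_lit 92042509) (nat_lit 988) (nat_lit 560377732) (nat_lit 384) (nat_lit 5) (nat_lit 396) (nat_lit 5) (nat_lit 397) (nat_lit 5) (nat_lit 422) (nat_lit 398) (nat_lit 380)))) (XT.nd (nat_lit 156) (nat_lit 1216) (nat_lit 0) (XT.nd (nat_lit 78) (nat_lit 1064) (nat_lit 0) (XT.lf (nat_lit 0) (nat_lit 2164084068) (nat_lit 1064) (nat_lit 3128737499) (nat_lit 76) (nat_lit 1837185008) (nat_lit 370) (nat_lit 5) (nat_lit 384) (nat_lit 5) (nat_lit 371) (nat_lit 5) (nat_lit 423) (nat_lit 398) (nat_lit 379)) (XT.lf (nat_lit 0) (nat_lit 1566306810) (nat_lit 1064) (nat_lit 3334386885) (nat_lit 1140) (nat_lit 2293162888) (nat_lit 356) (nat_lit 5) (nat_lit 370) (nat_lit 5) (nat_lit 371) (nat_lit 5) (nat_lit 424) (nat_lit 398) (nat_lit 378))) (XT.nd (nat_lit 78) (nat_lit 1140) (nat_lit 0) (XT.lf (nat_lit 0) (nat_lit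 402637991) (nat_lit 1140) (nat_lit 871549465) (nat_lit 76) (nat_lit 5986751572) (nat_lit 355) (nat_lit 5) (nat_lit 370) (nat_lit 5) (nat_lit 356) (nat_lit 5) (nat_lit 425) (nat_lit 398) (nat_lit 377)) (XT.lf (nat_lit 0) (nat_lit 3102837006) (nat_lit 1216) (nat_lit 3328970172) (nat_lit 76) (nat_lit 898461505) (nat_lit 340) (nat_lit 5) (nat_lit 356) (nat_lit 5) (nat_lit 341) (nat_lit 5) (nat_lit 426) (nat_lit 398) (nat_lit 376)))))) (XT.nd (nat_lit 624) (nat_lit 3192) (nat_lit 0) (XT.nd (nat_lit 312) (nat_lit 1292) (nat_lit 0) (XT.nd (nat_lit 156) (nat_lit 1444) (nat_lit 0) (XT.nd (nat_lit 78) (nat_lit 76) (nat_lit 0) (XT.lf (nat_lit 0) (nat_lit 1580995686) (nat_lit 1216) (nat_lit 4263623409) (nat_lit 1292) (nat_lit 1558246003) (nat_lit 324) (nat_lit 5) (nat_lit 340) (nat_lit 5) (nat_lit 341) (nat_lit 5) (nat_lit 427) (nat_lit 398) (nat_lit 375)) (XT.lf (nat_lit 0) (nat_lit 1126369715) (nat_lit 1292) (nat_lit 856626153)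 (nat_lit 76) (nat_lit 5495546153) (nat_lit 323) (nat_lit 5) (nat_lit 340) (nat_lit 5) (nat_lit 324) (nat_lit 5) (nat_lit 428) (nat_lit 398) (nat_lit 374))) (XT.nd (nat_lit 78) (nat_lit 608) (nat_lit 0) (XT.lf (nat_lit 0) (nat_lit 3832006691) (nat_lit 912) (nat_lit 3308489820) (nat_lit 76) (nat_lit 416379665) (nat_lit 312) (nat_lit 5) (nat_lit 324) (nat_lit 5) (nat_lit 313) (nat_lit 5) (nat_lit 429) (nat_lit 398) (nat_lit 373)) (XT.lf (nat_lit 0) (nat_lit 1828793806) (nat_lit 608) (nat_lit 4764248632) (nat_lit 684) (nat_lit 1045294743) (nat_lit 304) (nat_lit 5) (nat_lit 312) (nat_lit 5) (nat_lit 313) (nat_lit 5) (nat_lit 430) (nat_lit 398) (nat_lit 372)))) (XT.nd (nat_lit 156) (nat_lit 608) (nat_lit 0) (XT.nd (nat_lit 78) (nat_lit 608) (nat_lit 0) (XT.lf (nat_lit 0) (nat_lit 1643913422) (nat_lit 684) (nat_lit 624709804) (nat_lit 76) (nat_lit 5454246655) (nat_lit 303) (nat_lit 5) (nat_lit 312) (nat_lit 5) (nat_lit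 304) (nat_lit 5) (nat_lit 431) (nat_lit 398) (nat_lit 371)) (XT.lf (nat_lit 0) (nat_lit 4372662670) (nat_lit 684) (nat_lit 3088734924) (nat_lit 76) (nat_lit 348837659) (nat_lit 295) (nat_lit 5) (nat_lit 304) (nat_lit 5) (nat_lit 296) (nat_lit 5) (nat_lit 432) (nat_lit 398) (nat_lit 370))) (XT.nd (nat_lit 78) (nat_lit 76) (nat_lit 0) (XT.lf (nat_lit 0) (nat_lit 2289236786) (nat_lit 532) (nat_lit 4877188843) (nat_lit 608) (nat_lit 734304723) (nat_lit 288) (nat_lit 5) (nat_lit 295) (nat_lit 5) (nat_lit 296) (nat_lit 5) (nat_lit 433) (nat_lit 398) (nat_lit 369)) (XT.lf (nat_lit 0) (nat_lit 1974477788) (nat_lit 608) (nat_lit 195551694) (nat_lit 76) (nat_lit 5824390120) (nat_lit 287) (nat_lit 5) (nat_lit 295) (nat_lit 5) (nat_lit 288) (nat_lit 5) (nat_lit 434) (nat_lit 398) (nat_lit 368))))) (XT.nd (nat_lit 312) (nat_lit 1444) (nat_lit 0) (XT.nd (nat_lit 156) (nat_lit 608) (nat_lit 0) (XT.nd (nat_lit 78) (nat_lit 532)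 (nat_lit 0) (XT.lf (nat_lit 0) (nat_lit 4743096637) (nat_lit 684) (nat_lit 2688643879) (nat_lit 76) (nat_lit 659163975) (nat_lit 279) (nat_lit 5) (nat_lit 288) (nat_lit 5) (nat_lit 280) (nat_lit 5) (nat_lit 435) (nat_lit 398) (nat_lit 367)) (XT.lf (nat_lit 0) (nat_lit 2944373740) (nat_lit 532) (nat_lit 4638194787) (nat_lit 608) (nat_lit 608084499) (nat_lit 272) (nat_lit 5) (nat_lit 279) (nat_lit 5) (nat_lit 280) (nat_lit 5) (nat_lit 436) (nat_lit 398) (nat_lit 366))) (XT.nd (nat_lit 78) (nat_lit 0) (nat_lit 0) (XT.lf (nat_lit 0) (nat_lit 421681930) (nat_lit 532) (nat_lit 1716973394) (nat_lit 608) (nat_lit 6155062301) (nat_lit 264) (nat_lit 5) (nat_lit 271) (nat_lit 5) (nat_lit 272) (nat_lit 5) (nat_lit 437) (nat_lit 398) (nat_lit 365)) (XT.lf (nat_lit 0) (nat_lit 4959087568) (nat_lit 608) (nat_lit 2124979356) (nat_lit 76) (nat_lit 1315523939) (nat_lit 264) (nat_lit 5) (nat_lit 272) (nat_lit 5) (nat_lit 265) (nat_lit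 5) (nat_lit 438) (nat_lit 398) (nat_lit 364)))) (XT.nd (nat_lit 156) (nat_lit 456) (nat_lit 0) (XT.nd (nat_lit 78) (nat_lit 532) (nat_lit 0) (XT.lf (nat_lit 0) (nat_lit 3778446716) (nat_lit 456) (nat_lit 4078416322) (nat_lit 532) (nat_lit 651997960) (nat_lit 258) (nat_lit 5) (nat_lit 264) (nat_lit 5) (nat_lit 265) (nat_lit 5) (nat_lit 439) (nat_lit 398) (nat_lit 363)) (XT.lf (nat_lit 0) (nat_lit 1210580212) (nat_lit 456) (nat_lit 939456466) (nat_lit 532) (nat_lit 6471538845) (nat_lit 251) (nat_lit 5) (nat_lit 257) (nat_lit 5) (nat_lit 258) (nat_lit 5) (nat_lit 440) (nat_lit 398) (nat_lit 362))) (XT.nd (nat_lit 78) (nat_lit 456) (nat_lit 0) (XT.lf (nat_lit 0) (nat_lit 5034130829) (nat_lit 532) (nat_lit 1412626466) (nat_lit 76) (nat_lit 2290389819) (nat_lit 251) (nat_lit 5) (nat_lit 258) (nat_lit 5) (nat_lit 252) (nat_lit 5) (nat_lit 441) (nat_lit 398) (nat_lit 361)) (XT.lf (nat_lit 0) (nat_lit 4777595859) (nat_lit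 456) (nat_lit 3224916482) (nat_lit 532) (nat_lit 853742895) (nat_lit 245) (nat_lit 5) (nat_lit 251) (nat_lit 5) (nat_lit 252) (nat_lit 5) (nat_lit 442) (nat_lit 398) (nat_lit 360))))))))
noncomputable def xc90 : XT := (XT.nd (nat_lit 2418) (nat_lit 3952) (nat_lit 0) (XT.nd (nat_lit 1170) (nat_lit 3040) (nat_lit 0) (XT.nd (nat_lit 546) (nat_lit 2128) (nat_lit 0) (XT.nd (nat_lit 234) (nat_lit 1368) (nat_lit 0) (XT.nd (nat_lit 78) (nat_lit 380) (nat_lit 0) (XT.lf (nat_lit 0) (nat_lit 2019767973) (nat_lit 532) (nat_lit 6826899880) (nat_lit 76) (nat_lit 132289795) (nat_lit 238) (nat_lit 5) (nat_lit 245) (nat_lit 5) (nat_lit 239) (nat_lit 5) (nat_lit 443) (nat_lit 398) (nat_lit 359)) (XT.nd (nat_lit 78) (nat_lit 380) (nat_lit 0) (XT.lf (nat_lit 0) (nat_lit 4979634293) (nat_lit 532) (nat_lit 564869415) (nat_lit 76) (nat_lit 3560066671) (nat_lit 238) (nat_lit 5) (nat_lit 245) (nat_lit 5) (nat_lit 239) (nat_lit 5) (nat_lit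 444) (nat_lit 398) (nat_lit 358)) (XT.lf (nat_lit 0) (nat_lit 5929585580) (nat_lit 380) (nat_lit 2101132540) (nat_lit 456) (nat_lit 1203162785) (nat_lit 233) (nat_lit 5) (nat_lit 238) (nat_lit 5) (nat_lit 239) (nat_lit 5) (nat_lit 445) (nat_lit 398) (nat_lit 357)))) (XT.nd (nat_lit 156) (nat_lit 456) (nat_lit 0) (XT.nd (nat_lit 78) (nat_lit 380) (nat_lit 0) (XT.lf (nat_lit 0) (nat_lit 1767968968) (nat_lit 532) (nat_lit 6143548810) (nat_lit 76) (nat_lit 1455125460) (nat_lit 226) (nat_lit 5) (nat_lit 233) (nat_lit 5) (nat_lit 227) (nat_lit 5) (nat_lit 446) (nat_lit 398) (nat_lit 356)) (XT.lf (nat_lit 0) (nat_lit 414435995) (nat_lit 380) (nat_lit 4394631847) (nat_lit 456) (nat_lit 4693814643) (nat_lit 221) (nat_lit 5) (nat_lit 226) (nat_lit 5) (nat_lit 227) (nat_lit 5) (nat_lit 447) (nat_lit 398) (nat_lit 355))) (XT.nd (nat_lit 78) (nat_lit 456) (nat_lit 0) (XT.lf (nat_lit 0) (nat_lit 7223547252) (nat_lit 380) (nat_lit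 727290967) (nat_lit 456) (nat_lit 1692089361) (nat_lit 221) (nat_lit 5) (nat_lit 226) (nat_lit 5) (nat_lit 227) (nat_lit 5) (nat_lit 448) (nat_lit 398) (nat_lit 354)) (XT.lf (nat_lit 0) (nat_lit 1393296453) (nat_lit 456) (nat_lit 5364032243) (nat_lit 76) (nat_lit 3028815766) (nat_lit 215) (nat_lit 5) (nat_lit 221) (nat_lit 5) (nat_lit 216) (nat_lit 5) (nat_lit 449) (nat_lit 398) (nat_lit 353))))) (XT.nd (nat_lit 312) (nat_lit 988) (nat_lit 0) (XT.nd (nat_lit 156) (nat_lit 760) (nat_lit 0) (XT.nd (nat_lit 78) (nat_lit 0) (nat_lit 0) (XT.lf (nat_lit 0) (nat_lit 1519837244) (nat_lit 380) (nat_lit 3012954044) (nat_lit 456) (nat_lit 5400498929) (nat_lit 210) (nat_lit 5) (nat_lit 215) (nat_lit 5) (nat_lit 216) (nat_lit 5) (nat_lit 450) (nat_lit 398) (nat_lit 352)) (XT.lf (nat_lit 0) (nat_lit 7778968255) (nat_lit 456) (nat_lit 1443448122) (nat_lit 76) (nat_lit 862060676) (nat_lit 210) (nat_lit 5) (nat_lit 216) (nat_lit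 5) (nat_lit 211) (nat_lit 5) (nat_lit 451) (nat_lit 398) (nat_lit 351))) (XT.nd (nat_lit 78) (nat_lit 304) (nat_lit 0) (XT.lf (nat_lit 0) (nat_lit 901708144) (nat_lit 456) (nat_lit 4499623992) (nat_lit 76) (nat_lit 4837516605) (nat_lit 204) (nat_lit 5) (nat_lit 210) (nat_lit 5) (nat_lit 205) (nat_lit 5) (nat_lit 452) (nat_lit 398) (nat_lit 350)) (XT.lf (nat_lit 0) (nat_lit 2729900705) (nat_lit 304) (nat_lit 1421295936) (nat_lit 380) (nat_lit 6246199817) (nat_lit 200) (nat_lit 5) (nat_lit 204) (nat_lit 5) (nat_lit 205) (nat_lit 5) (nat_lit 453) (nat_lit 398) (nat_lit 349)))) (XT.nd (nat_lit 156) (nat_lit 608) (nat_lit 0) (XT.nd (nat_lit 78) (nat_lit 380) (nat_lit 0) (XT.lf (nat_lit 0) (nat_lit 7521775324) (nat_lit 380) (nat_lit 387477484) (nat_lit 76) (nat_lit 2650741077) (nat_lit 200) (nat_lit 5) (nat_lit 205) (nat_lit 5) (nat_lit 201) (nat_lit 5) (nat_lit 454) (nat_lit 398) (nat_lit 348)) (XT.lf (nat_lit 0) (nat_lit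 297521548) (nat_lit 380) (nat_lit 3560990343) (nat_lit 76) (nat_lit 6867780691) (nat_lit 195) (nat_lit 5) (nat_lit 200) (nat_lit 5) (nat_lit 196) (nat_lit 5) (nat_lit 455) (nat_lit 398) (nat_lit 347))) (XT.nd (nat_lit 78) (nat_lit 304) (nat_lit 0) (XT.lf (nat_lit 0) (nat_lit 3672153913) (nat_lit 380) (nat_lit 6865241892) (nat_lit 76) (nat_lit 359286757) (nat_lit 191) (nat_lit 5) (nat_lit 196) (nat_lit 5) (nat_lit 192) (nat_lit 5) (nat_lit 456) (nat_lit 398) (nat_lit 346)) (XT.lf (nat_lit 0) (nat_lit 760641018) (nat_lit 304) (nat_lit 6423320011) (nat_lit 380) (nat_lit 3887146424) (nat_lit 187) (nat_lit 5) (nat_lit 191) (nat_lit 5) (nat_lit 192) (nat_lit 5) (nat_lit 457) (nat_lit 398) (nat_lit 345)))))) (XT.nd (nat_lit 624) (nat_lit 1444) (nat_lit 0) (XT.nd (nat_lit 312) (nat_lit 912) (nat_lit 0) (XT.nd (nat_lit 156) (nat_lit 304) (nat_lit 0) (XT.nd (nat_lit 78) (nat_lit 380) (nat_lit 0) (XT.lf (nat_lit 0) (nat_lit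 8687530701) (nat_lit 304) (nat_lit 2137701285) (nat_lit 380) (nat_lit 424811058) (nat_lit 187) (nat_lit 5) (nat_lit 191) (nat_lit 5) (nat_lit 192) (nat_lit 5) (nat_lit 458) (nat_lit 398) (nat_lit 344)) (XT.lf (nat_lit 0) (nat_lit 3110396265) (nat_lit 380) (nat_lit 6029505143) (nat_lit 76) (nat_lit 2292631505) (nat_lit 182) (nat_lit 5) (nat_lit 187) (nat_lit 5) (nat_lit 183) (nat_lit 5) (nat_lit 459) (nat_lit 398) (nat_lit 343))) (XT.nd (nat_lit 78) (nat_lit 0) (nat_lit 0) (XT.lf (nat_lit 0) (nat_lit 1985643019) (nat_lit 304) (nat_lit 4779957285) (nat_lit 380) (nat_lit 4854097769) (nat_lit 178) (nat_lit 5) (nat_lit 182) (nat_lit 5) (nat_lit 183) (nat_lit 5) (nat_lit 460) (nat_lit 398) (nat_lit 342)) (XT.lf (nat_lit 0) (nat_lit 10297691147) (nat_lit 304) (nat_lit 250382453) (nat_lit 380) (nat_lit 1263877299) (nat_lit 178) (nat_lit 5) (nat_lit 182) (nat_lit 5) (nat_lit 183) (nat_lit 5) (nat_lit 461) (nat_lit 398) (nat_lit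 341)))) (XT.nd (nat_lit 156) (nat_lit 304) (nat_lit 0) (XT.nd (nat_lit 78) (nat_lit 304) (nat_lit 0) (XT.lf (nat_lit 0) (nat_lit 2453495755) (nat_lit 304) (nat_lit 5157436526) (nat_lit 76) (nat_lit 4396329852) (nat_lit 174) (nat_lit 5) (nat_lit 178) (nat_lit 5) (nat_lit 175) (nat_lit 5) (nat_lit 462) (nat_lit 398) (nat_lit 340)) (XT.lf (nat_lit 0) (nat_lit 3270144032) (nat_lit 304) (nat_lit 2994150310) (nat_lit 380) (nat_lit 5943544755) (nat_lit 170) (nat_lit 5) (nat_lit 174) (nat_lit 5) (nat_lit 175) (nat_lit 5) (nat_lit 463) (nat_lit 398) (nat_lit 339))) (XT.nd (nat_lit 78) (nat_lit 304) (nat_lit 0) (XT.lf (nat_lit 0) (nat_lit 10217251278) (nat_lit 380) (nat_lit 440825618) (nat_lit 76) (nat_lit 1755522425) (nat_lit 170) (nat_lit 5) (nat_lit 175) (nat_lit 5) (nat_lit 171) (nat_lit 5) (nat_lit 464) (nat_lit 398) (nat_lit 338)) (XT.lf (nat_lit 0) (nat_lit 1701220234) (nat_lit 304) (nat_lit 4260130745) (nat_lit 76)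 (nat_lit 6661590292) (nat_lit 166) (nat_lit 5) (nat_lit 170) (nat_lit 5) (nat_lit 167) (nat_lit 5) (nat_lit 465) (nat_lit 398) (nat_lit 337))))) (XT.nd (nat_lit 312) (nat_lit 684) (nat_lit 0) (XT.nd (nat_lit 156) (nat_lit 304) (nat_lit 0) (XT.nd (nat_lit 78) (nat_lit 228) (nat_lit 0) (XT.lf (nat_lit 0) (nat_lit 4604210346) (nat_lit 228) (nat_lit 1075804407) (nat_lit 304) (nat_lit 7157643937) (nat_lit 163) (nat_lit 5) (nat_lit 166) (nat_lit 5) (nat_lit 167) (nat_lit 5) (nat_lit 466) (nat_lit 398) (nat_lit 336)) (XT.lf (nat_lit 0) (nat_lit 673645778) (nat_lit 228) (nat_lit 9152486484) (nat_lit 304) (nat_lit 3231247468) (nat_lit 160) (nat_lit 5) (nat_lit 163) (nat_lit 5) (nat_lit 164) (nat_lit 5) (nat_lit 467) (nat_lit 398) (nat_lit 335))) (XT.nd (nat_lit 78) (nat_lit 228) (nat_lit 0) (XT.lf (nat_lit 0) (nat_lit 851853786) (nat_lit 304) (nat_lit 3349236472) (nat_lit 76) (nat_lit 9080725242) (nat_lit 159) (nat_lit 5)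 (nat_lit 163) (nat_lit 5) (nat_lit 160) (nat_lit 5) (nat_lit 468) (nat_lit 398) (nat_lit 334)) (XT.lf (nat_lit 0) (nat_lit 5020568286) (nat_lit 304) (nat_lit 7543377531) (nat_lit 76) (nat_lit 947237597) (nat_lit 156) (nat_lit 5) (nat_lit 160) (nat_lit 5) (nat_lit 157) (nat_lit 5) (nat_lit 469) (nat_lit 398) (nat_lit 333)))) (XT.nd (nat_lit 156) (nat_lit 456) (nat_lit 0) (XT.nd (nat_lit 78) (nat_lit 0) (nat_lit 0) (XT.lf (nat_lit 0) (nat_lit 1816253406) (nat_lit 228) (nat_lit 7552903761) (nat_lit 304) (nat_lit 4376631586) (nat_lit 153) (nat_lit 5) (nat_lit 156) (nat_lit 5) (nat_lit 157) (nat_lit 5) (nat_lit 470) (nat_lit 398) (nat_lit 332)) (XT.lf (nat_lit 0) (nat_lit 11548074900) (nat_lit 228) (nat_lit 2338416148) (nat_lit 304) (nat_lit 99793336) (nat_lit 153) (nat_lit 5) (nat_lit 156) (nat_lit 5) (nat_lit 157) (nat_lit 5) (nat_lit 471) (nat_lit 398) (nat_lit 331))) (XT.nd (nat_lit 78) (nat_lit 152) (nat_lit 0)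 (XT.lf (nat_lit 0) (nat_lit 4285136837) (nat_lit 304) (nat_lit 6883443349) (nat_lit 76) (nat_lit 3062259849) (nat_lit 149) (nat_lit 5) (nat_lit 153) (nat_lit 5) (nat_lit 150) (nat_lit 5) (nat_lit 472) (nat_lit 398) (nat_lit 330)) (XT.lf (nat_lit 0) (nat_lit 2965663674) (nat_lit 152) (nat_lit 5873575005) (nat_lit 228) (nat_lit 5642275840) (nat_lit 147) (nat_lit 5) (nat_lit 149) (nat_lit 5) (nat_lit 150) (nat_lit 5) (nat_lit 473) (nat_lit 398) (nat_lit 329))))))) (XT.nd (nat_lit 1248) (nat_lit 1672) (nat_lit 0) (XT.nd (nat_lit 624) (nat_lit 1064) (nat_lit 0) (XT.nd (nat_lit 312) (nat_lit 760) (nat_lit 0) (XT.nd (nat_lit 156) (nat_lit 152) (nat_lit 0) (XT.nd (nat_lit 78) (nat_lit 304) (nat_lit 0) (XT.lf (nat_lit 0) (nat_lit 13189578455) (nat_lit 152) (nat_lit 373479466) (nat_lit 228) (nat_lit 1175659154) (nat_lit 147) (nat_lit 5) (nat_lit 149) (nat_lit 5) (nat_lit 150) (nat_lit 5) (nat_lit 474) (nat_lit 398) (nat_lit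 328)) (XT.lf (nat_lit 0) (nat_lit 3458745923) (nat_lit 304) (nat_lit 6258388008) (nat_lit 76) (nat_lit 5282496031) (nat_lit 143) (nat_lit 5) (nat_lit 147) (nat_lit 5) (nat_lit 144) (nat_lit 5) (nat_lit 475) (nat_lit 398) (nat_lit 327))) (XT.nd (nat_lit 78) (nat_lit 0) (nat_lit 0) (XT.lf (nat_lit 0) (nat_lit 4107951288) (nat_lit 152) (nat_lit 4124104945) (nat_lit 228) (nat_lit 7035260330) (nat_lit 141) (nat_lit 5) (nat_lit 143) (nat_lit 5) (nat_lit 144) (nat_lit 5) (nat_lit 476) (nat_lit 398) (nat_lit 326)) (XT.lf (nat_lit 0) (nat_lit 13192851388) (nat_lit 228) (nat_lit 705041955) (nat_lit 76) (nat_lit 1643812446) (nat_lit 141) (nat_lit 5) (nat_lit 144) (nat_lit 5) (nat_lit 142) (nat_lit 5) (nat_lit 477) (nat_lit 398) (nat_lit 325)))) (XT.nd (nat_lit 156) (nat_lit 304) (nat_lit 0) (XT.nd (nat_lit 78) (nat_lit 152) (nat_lit 0) (XT.lf (nat_lit 0) (nat_lit 2535081164) (nat_lit 304) (nat_lit 5685033453) (nat_lit 76)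 (nat_lit 7600339145) (nat_lit 137) (nat_lit 5) (nat_lit 141) (nat_lit 5) (nat_lit 138) (nat_lit 5) (nat_lit 478) (nat_lit 398) (nat_lit 324)) (XT.lf (nat_lit 0) (nat_lit 5227443133) (nat_lit 152) (nat_lit 2314175281) (nat_lit 228) (nat_lit 8564549827) (nat_lit 135) (nat_lit 5) (nat_lit 137) (nat_lit 5) (nat_lit 138) (nat_lit 5) (nat_lit 479) (nat_lit 398) (nat_lit 323))) (XT.nd (nat_lit 78) (nat_lit 76) (nat_lit 0) (XT.lf (nat_lit 0) (nat_lit 90443925) (nat_lit 228) (nat_lit 12669023780) (nat_lit 304) (nat_lit 3639153499) (nat_lit 132) (nat_lit 5) (nat_lit 135) (nat_lit 5) (nat_lit 136) (nat_lit 5) (nat_lit 480) (nat_lit 398) (nat_lit 322)) (XT.lf (nat_lit 0) (nat_lit 1506006286) (nat_lit 304) (nat_lit 5182358666) (nat_lit 76) (nat_lit 10008070241) (nat_lit 131) (nat_lit 5) (nat_lit 135) (nat_lit 5) (nat_lit 132) (nat_lit 5) (nat_lit 481) (nat_lit 398) (nat_lit 321))))) (XT.nd (nat_lit 312) (nat_lit 532) (nat_lit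 0) (XT.nd (nat_lit 156) (nat_lit 228) (nat_lit 0) (XT.nd (nat_lit 78) (nat_lit 152) (nat_lit 0) (XT.lf (nat_lit 0) (nat_lit 6306287951) (nat_lit 152) (nat_lit 453826016) (nat_lit 228) (nat_lit 10241157087) (nat_lit 129) (nat_lit 5) (nat_lit 131) (nat_lit 5) (nat_lit 132) (nat_lit 5) (nat_lit 482) (nat_lit 398) (nat_lit 320)) (XT.lf (nat_lit 0) (nat_lit 832363290) (nat_lit 152) (nat_lit 11424981145) (nat_lit 228) (nat_lit 5055343038) (nat_lit 127) (nat_lit 5) (nat_lit 129) (nat_lit 5) (nat_lit 130) (nat_lit 5) (nat_lit 483) (nat_lit 398) (nat_lit 319))) (XT.nd (nat_lit 78) (nat_lit 152) (nat_lit 0) (XT.lf (nat_lit 0) (nat_lit 361386649) (nat_lit 228) (nat_lit 4771972473) (nat_lit 76) (nat_lit 12497577528) (nat_lit 126) (nat_lit 5) (nat_lit 129) (nat_lit 5) (nat_lit 127) (nat_lit 5) (nat_lit 484) (nat_lit 398) (nat_lit 318)) (XT.lf (nat_lit 0) (nat_lit 5891628122) (nat_lit 228) (nat_lit 10646003737) (nat_lit 76) (nat_lit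 1418021765) (nat_lit 124) (nat_lit 5) (nat_lit 127) (nat_lit 5) (nat_lit 125) (nat_lit 5) (nat_lit 485) (nat_lit 398) (nat_lit 317)))) (XT.nd (nat_lit 156) (nat_lit 380) (nat_lit 0) (XT.nd (nat_lit 78) (nat_lit 0) (nat_lit 0) (XT.lf (nat_lit 0) (nat_lit 1483855133) (nat_lit 152) (nat_lit 10186135860) (nat_lit 228) (nat_lit 6617655108) (nat_lit 122) (nat_lit 5) (nat_lit 124) (nat_lit 5) (nat_lit 125) (nat_lit 5) (nat_lit 486) (nat_lit 398) (nat_lit 316)) (XT.lf (nat_lit 0) (nat_lit 14139725049) (nat_lit 152) (nat_lit 3558323082) (nat_lit 228) (nat_lit 929260324) (nat_lit 122) (nat_lit 5) (nat_lit 124) (nat_lit 5) (nat_lit 125) (nat_lit 5) (nat_lit 487) (nat_lit 398) (nat_lit 315))) (XT.nd (nat_lit 78) (nat_lit 152) (nat_lit 0) (XT.lf (nat_lit 0) (nat_lit 4914840898) (nat_lit 228) (nat_lit 10749961329) (nat_lit 76) (nat_lit 3308499616) (nat_lit 119) (nat_lit 5) (nat_lit 122) (nat_lit 5) (nat_lit 120) (nat_lit 5) (nat_lit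 488) (nat_lit 398) (nat_lit 314)) (XT.lf (nat_lit 0) (nat_lit 2018553729) (nat_lit 152) (nat_lit 8967011763) (nat_lit 228) (nat_lit 8341734568) (nat_lit 117) (nat_lit 5) (nat_lit 119) (nat_lit 5) (nat_lit 120) (nat_lit 5) (nat_lit 489) (nat_lit 398) (nat_lit 313)))))) (XT.nd (nat_lit 624) (nat_lit 760) (nat_lit 0) (XT.nd (nat_lit 312) (nat_lit 532) (nat_lit 0) (XT.nd (nat_lit 156) (nat_lit 152) (nat_lit 0) (XT.nd (nat_lit 78) (nat_lit 228) (nat_lit 0) (XT.lf (nat_lit 0) (nat_lit 15335806319) (nat_lit 152) (nat_lit 1981098049) (nat_lit 228) (nat_lit 2372659438) (nat_lit 117) (nat_lit 5) (nat_lit 119) (nat_lit 5) (nat_lit 120) (nat_lit 5) (nat_lit 490) (nat_lit 398) (nat_lit 312)) (XT.lf (nat_lit 0) (nat_lit 3810708426) (nat_lit 228) (nat_lit 11033949611) (nat_lit 76) (nat_lit 5213682182) (nat_lit 114) (nat_lit 5) (nat_lit 117) (nat_lit 5) (nat_lit 115) (nat_lit 5) (nat_lit 491) (nat_lit 398) (nat_lit 311))) (XT.nd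 (nat_lit 78) (nat_lit 0) (nat_lit 0) (XT.lf (nat_lit 0) (nat_lit 2405882695) (nat_lit 152) (nat_lit 7783789811) (nat_lit 228) (nat_lit 10246069499) (nat_lit 112) (nat_lit 5) (nat_lit 114) (nat_lit 5) (nat_lit 115) (nat_lit 5) (nat_lit 492) (nat_lit 398) (nat_lit 310)) (XT.lf (nat_lit 0) (nat_lit 16421829646) (nat_lit 152) (nat_lit 420582118) (nat_lit 228) (nat_lit 3979582212) (nat_lit 112) (nat_lit 5) (nat_lit 114) (nat_lit 5) (nat_lit 115) (nat_lit 5) (nat_lit 493) (nat_lit 398) (nat_lit 309)))) (XT.nd (nat_lit 156) (nat_lit 152) (nat_lit 0) (XT.nd (nat_lit 78) (nat_lit 152) (nat_lit 0) (XT.lf (nat_lit 0) (nat_lit 2561699727) (nat_lit 228) (nat_lit 11534295710) (nat_lit 76) (nat_lit 7119071836) (nat_lit 109) (nat_lit 5) (nat_lit 112) (nat_lit 5) (nat_lit 110) (nat_lit 5) (nat_lit 494) (nat_lit 398) (nat_lit 308)) (XT.lf (nat_lit 0) (nat_lit 2610280376) (nat_lit 152) (nat_lit 6654737377) (nat_lit 228) (nat_lit 12352359756)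 (nat_lit 107) (nat_lit 5) (nat_lit 109) (nat_lit 5) (nat_lit 110) (nat_lit 5) (nat_lit 495) (nat_lit 398) (nat_lit 307))) (XT.nd (nat_lit 78) (nat_lit 152) (nat_lit 0) (XT.lf (nat_lit 0) (nat_lit 16268520945) (nat_lit 228) (nat_lit 4675969434) (nat_lit 76) (nat_lit 1084294388) (nat_lit 107) (nat_lit 5) (nat_lit 110) (nat_lit 5) (nat_lit 108) (nat_lit 4) (nat_lit 496) (nat_lit 398) (nat_lit 306)) (XT.lf (nat_lit 0) (nat_lit 1147043452) (nat_lit 152) (nat_lit 12293056834) (nat_lit 76) (nat_lit 9008011124) (nat_lit 105) (nat_lit 5) (nat_lit 107) (nat_lit 5) (nat_lit 106) (nat_lit 5) (nat_lit 497) (nat_lit 398) (nat_lit 305))))) (XT.nd (nat_lit 312) (nat_lit 304) (nat_lit 0) (XT.nd (nat_lit 156) (nat_lit 304) (nat_lit 0) (XT.nd (nat_lit 78) (nat_lit 0) (nat_lit 0) (XT.lf (nat_lit 0) (nat_lit 2590307715) (nat_lit 152) (nat_lit 5600691964) (nat_lit 228) (nat_lit 14685951305) (nat_lit 103) (nat_lit 5) (nat_lit 105) (nat_lit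 5) (nat_lit 106) (nat_lit 5) (nat_lit 498) (nat_lit 398) (nat_lit 304)) (XT.lf (nat_lit 0) (nat_lit 15568126942) (nat_lit 228) (nat_lit 5218859088) (nat_lit 76) (nat_lit 2528014396) (nat_lit 103) (nat_lit 5) (nat_lit 106) (nat_lit 5) (nat_lit 104) (nat_lit 4) (nat_lit 499) (nat_lit 398) (nat_lit 303))) (XT.nd (nat_lit 78) (nat_lit 228) (nat_lit 0) (XT.lf (nat_lit 0) (nat_lit 10398826195) (nat_lit 76) (nat_lit 12896655930) (nat_lit 152) (nat_lit 466842048) (nat_lit 102) (nat_lit 5) (nat_lit 103) (nat_lit 5) (nat_lit 104) (nat_lit 4) (nat_lit 500) (nat_lit 398) (nat_lit 302)) (XT.lf (nat_lit 0) (nat_lit 2297618874) (nat_lit 152) (nat_lit 4645609848) (nat_lit 228) (nat_lit 17276345882) (nat_lit 99) (nat_lit 5) (nat_lit 101) (nat_lit 5) (nat_lit 102) (nat_lit 5) (nat_lit 501) (nat_lit 398) (nat_lit 301)))) (XT.nd (nat_lit 156) (nat_lit 228) (nat_lit 0) (XT.nd (nat_lit 78) (nat_lit 76) (nat_lit 0) (XT.lf (nat_lit 0)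 (nat_lit 14713155876) (nat_lit 228) (nat_lit 6076698191) (nat_lit 76) (nat_lit 3896141920) (nat_lit 99) (nat_lit 5) (nat_lit 102) (nat_lit 5) (nat_lit 100) (nat_lit 4) (nat_lit 502) (nat_lit 398) (nat_lit 300)) (XT.lf (nat_lit 0) (nat_lit 10351650510) (nat_lit 76) (nat_lit 12484420266) (nat_lit 152) (nat_lit 2326742754) (nat_lit 98) (nat_lit 5) (nat_lit 99) (nat_lit 5) (nat_lit 100) (nat_lit 4) (nat_lit 503) (nat_lit 398) (nat_lit 299))) (XT.nd (nat_lit 78) (nat_lit 0) (nat_lit 0) (XT.lf (nat_lit 0) (nat_lit 1675771810) (nat_lit 152) (nat_lit 3817191692) (nat_lit 228) (nat_lit 20157797112) (nat_lit 95) (nat_lit 5) (nat_lit 97) (nat_lit 5) (nat_lit 98) (nat_lit 5) (nat_lit 504) (nat_lit 398) (nat_lit 298)) (XT.lf (nat_lit 0) (nat_lit 13675152743) (nat_lit 228) (nat_lit 7309942194) (nat_lit 76) (nat_lit 5162320552) (nat_lit 95) (nat_lit 5) (nat_lit 98) (nat_lit 5) (nat_lit 96) (nat_lit 4) (nat_lit 505) (nat_lit 398)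 (nat_lit 297))))))))
noncomputable def xc91 : XT := (XT.nd (nat_lit 2418) (nat_lit 1140) (nat_lit 0) (XT.nd (nat_lit 1170) (nat_lit 1064) (nat_lit 0) (XT.nd (nat_lit 546) (nat_lit 760) (nat_lit 0) (XT.nd (nat_lit 234) (nat_lit 380) (nat_lit 0) (XT.nd (nat_lit 78) (nat_lit 228) (nat_lit 0) (XT.lf (nat_lit 0) (nat_lit 9964745691) (nat_lit 76) (nat_lit 12246877666) (nat_lit 152) (nat_lit 4444082373) (nat_lit 94) (nat_lit 5) (nat_lit 95) (nat_lit 5) (nat_lit 96) (nat_lit 4) (nat_lit 506) (nat_lit 398) (nat_lit 296)) (XT.nd (nat_lit 78) (nat_lit 0) (nat_lit 0) (XT.lf (nat_lit 0) (nat_lit 658852472) (nat_lit 152) (nat_lit 3147598864) (nat_lit 228) (nat_lit 23370006105) (nat_lit 91) (nat_lit 5) (nat_lit 93) (nat_lit 5) (nat_lit 94) (nat_lit 5) (nat_lit 507) (nat_lit 398) (nat_lit 295)) (XT.lf (nat_lit 0) (nat_lit 12420556369) (nat_lit 228) (nat_lit 8989029744) (nat_lit 76) (nat_lit 6295764433) (nat_lit 91) (nat_lit 5)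 (nat_lit 94) (nat_lit 5) (nat_lit 92) (nat_lit 4) (nat_lit 508) (nat_lit 398) (nat_lit 294)))) (XT.nd (nat_lit 156) (nat_lit 228) (nat_lit 0) (XT.nd (nat_lit 78) (nat_lit 76) (nat_lit 0) (XT.lf (nat_lit 0) (nat_lit 9167441510) (nat_lit 76) (nat_lit 12220976076) (nat_lit 152) (nat_lit 6858833040) (nat_lit 90) (nat_lit 5) (nat_lit 91) (nat_lit 5) (nat_lit 92) (nat_lit 4) (nat_lit 509) (nat_lit 398) (nat_lit 293)) (XT.lf (nat_lit 0) (nat_lit 1852138033) (nat_lit 152) (nat_lit 813919267) (nat_lit 76) (nat_lit 26136793426) (nat_lit 89) (nat_lit 5) (nat_lit 91) (nat_lit 5) (nat_lit 90) (nat_lit 5) (nat_lit 510) (nat_lit 398) (nat_lit 292))) (XT.nd (nat_lit 78) (nat_lit 76) (nat_lit 0) (XT.lf (nat_lit 0) (nat_lit 10909902997) (nat_lit 228) (nat_lit 11196044423) (nat_lit 76) (nat_lit 7260434674) (nat_lit 87) (nat_lit 5) (nat_lit 90) (nat_lit 5) (nat_lit 88) (nat_lit 4) (nat_lit 511) (nat_lit 398) (nat_lit 291)) (XT.lf (nat_lit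 0) (nat_lit 7877028976) (nat_lit 76) (nat_lit 12449610862) (nat_lit 152) (nat_lit 9617562550) (nat_lit 86) (nat_lit 5) (nat_lit 87) (nat_lit 5) (nat_lit 88) (nat_lit 4) (nat_lit 512) (nat_lit 398) (nat_lit 290))))) (XT.nd (nat_lit 312) (nat_lit 456) (nat_lit 0) (XT.nd (nat_lit 156) (nat_lit 76) (nat_lit 0) (XT.nd (nat_lit 78) (nat_lit 228) (nat_lit 0) (XT.lf (nat_lit 0) (nat_lit 27707801882) (nat_lit 76) (nat_lit 2408210228) (nat_lit 152) (nat_lit 420641330) (nat_lit 86) (nat_lit 5) (nat_lit 87) (nat_lit 5) (nat_lit 88) (nat_lit 4) (nat_lit 513) (nat_lit 398) (nat_lit 289)) (XT.lf (nat_lit 0) (nat_lit 9096897882) (nat_lit 228) (nat_lit 14026639354) (nat_lit 76) (nat_lit 8014089937) (nat_lit 83) (nat_lit 5) (nat_lit 86) (nat_lit 5) (nat_lit 84) (nat_lit 4) (nat_lit 514) (nat_lit 398) (nat_lit 288))) (XT.nd (nat_lit 78) (nat_lit 0) (nat_lit 0) (XT.lf (nat_lit 0) (nat_lit 5996751538) (nat_lit 76) (nat_lit 12982663147)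 (nat_lit 152) (nat_lit 12774453450) (nat_lit 82) (nat_lit 5) (nat_lit 83) (nat_lit 5) (nat_lit 84) (nat_lit 4) (nat_lit 515) (nat_lit 398) (nat_lit 287)) (XT.lf (nat_lit 0) (nat_lit 26865586831) (nat_lit 76) (nat_lit 2412272815) (nat_lit 152) (nat_lit 3107153232) (nat_lit 82) (nat_lit 5) (nat_lit 83) (nat_lit 5) (nat_lit 84) (nat_lit 4) (nat_lit 516) (nat_lit 398) (nat_lit 286)))) (XT.nd (nat_lit 156) (nat_lit 152) (nat_lit 0) (XT.nd (nat_lit 78) (nat_lit 76) (nat_lit 0) (XT.lf (nat_lit 0) (nat_lit 6927334234) (nat_lit 228) (nat_lit 17592267160) (nat_lit 76) (nat_lit 8507190063) (nat_lit 79) (nat_lit 5) (nat_lit 82) (nat_lit 5) (nat_lit 80) (nat_lit 4) (nat_lit 517) (nat_lit 398) (nat_lit 285)) (XT.lf (nat_lit 0) (nat_lit 3413476170) (nat_lit 76) (nat_lit 13878198395) (nat_lit 152) (nat_lit 16392487965) (nat_lit 78) (nat_lit 5) (nat_lit 79) (nat_lit 5) (nat_lit 80) (nat_lit 4) (nat_lit 518) (nat_lit 398) (nat_lit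 284))) (XT.nd (nat_lit 78) (nat_lit 152) (nat_lit 0) (XT.lf (nat_lit 0) (nat_lit 25368409902) (nat_lit 76) (nat_lit 2754700545) (nat_lit 152) (nat_lit 6233459444) (nat_lit 78) (nat_lit 5) (nat_lit 79) (nat_lit 5) (nat_lit 80) (nat_lit 4) (nat_lit 519) (nat_lit 398) (nat_lit 283)) (XT.lf (nat_lit 0) (nat_lit 4337835548) (nat_lit 152) (nat_lit 22022764433) (nat_lit 76) (nat_lit 8681628321) (nat_lit 76) (nat_lit 5) (nat_lit 78) (nat_lit 5) (nat_lit 77) (nat_lit 4) (nat_lit 520) (nat_lit 398) (nat_lit 282)))))) (XT.nd (nat_lit 624) (nat_lit 532) (nat_lit 0) (XT.nd (nat_lit 312) (nat_lit 304) (nat_lit 0) (XT.nd (nat_lit 156) (nat_lit 152) (nat_lit 0) (XT.nd (nat_lit 78) (nat_lit 76) (nat_lit 0) (XT.lf (nat_lit 0) (nat_lit 15198892576) (nat_lit 152) (nat_lit 4909537) (nat_lit 76) (nat_lit 20539865649) (nat_lit 76) (nat_lit 5) (nat_lit 78) (nat_lit 5) (nat_lit 77) (nat_lit 4) (nat_lit 521) (nat_lit 398) (nat_lit 281))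 (XT.lf (nat_lit 0) (nat_lit 23084277684) (nat_lit 76) (nat_lit 3502990095) (nat_lit 152) (nat_lit 9872838139) (nat_lit 75) (nat_lit 5) (nat_lit 76) (nat_lit 5) (nat_lit 77) (nat_lit 4) (nat_lit 522) (nat_lit 398) (nat_lit 280))) (XT.nd (nat_lit 78) (nat_lit 0) (nat_lit 0) (XT.lf (nat_lit 0) (nat_lit 1254393463) (nat_lit 152) (nat_lit 27469347716) (nat_lit 76) (nat_lit 8469264051) (nat_lit 73) (nat_lit 5) (nat_lit 75) (nat_lit 5) (nat_lit 74) (nat_lit 4) (nat_lit 523) (nat_lit 398) (nat_lit 279)) (XT.lf (nat_lit 0) (nat_lit 12667733769) (nat_lit 152) (nat_lit 4327002246) (nat_lit 76) (nat_lit 20945701296) (nat_lit 73) (nat_lit 5) (nat_lit 75) (nat_lit 5) (nat_lit 74) (nat_lit 4) (nat_lit 524) (nat_lit 398) (nat_lit 278)))) (XT.nd (nat_lit 156) (nat_lit 152) (nat_lit 0) (XT.nd (nat_lit 78) (nat_lit 76) (nat_lit 0) (XT.lf (nat_lit 0) (nat_lit 19858571726) (nat_lit 76) (nat_lit 4736024419) (nat_lit 152) (nat_lit 14110562645)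 (nat_lit 72) (nat_lit 5) (nat_lit 73) (nat_lit 5) (nat_lit 74) (nat_lit 4) (nat_lit 525) (nat_lit 398) (nat_lit 277)) (XT.lf (nat_lit 0) (nat_lit 5356562363) (nat_lit 76) (nat_lit 31674426325) (nat_lit 76) (nat_lit 2457281585) (nat_lit 71) (nat_lit 4) (nat_lit 72) (nat_lit 5) (nat_lit 72) (nat_lit 4) (nat_lit 526) (nat_lit 398) (nat_lit 276))) (XT.nd (nat_lit 78) (nat_lit 76) (nat_lit 0) (XT.lf (nat_lit 0) (nat_lit 9578691412) (nat_lit 152) (nat_lit 9796155183) (nat_lit 76) (nat_lit 20910694972) (nat_lit 70) (nat_lit 5) (nat_lit 72) (nat_lit 5) (nat_lit 71) (nat_lit 4) (nat_lit 527) (nat_lit 398) (nat_lit 275)) (XT.lf (nat_lit 0) (nat_lit 15510322523) (nat_lit 76) (nat_lit 6545974729) (nat_lit 152) (nat_lit 19045805668) (nat_lit 69) (nat_lit 5) (nat_lit 70) (nat_lit 5) (nat_lit 71) (nat_lit 4) (nat_lit 528) (nat_lit 398) (nat_lit 274))))) (XT.nd (nat_lit 312) (nat_lit 304) (nat_lit 0) (XT.nd (nat_lit 156) (nat_lit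 76) (nat_lit 0) (XT.nd (nat_lit 78) (nat_lit 152) (nat_lit 0) (XT.lf (nat_lit 0) (nat_lit 35053101750) (nat_lit 152) (nat_lit 265962388) (nat_lit 0) (nat_lit 6619750940) (nat_lit 69) (nat_lit 5) (nat_lit 71) (nat_lit 4) (nat_lit 69) (nat_lit 4) (nat_lit 529) (nat_lit 398) (nat_lit 273)) (XT.lf (nat_lit 0) (nat_lit 5830479693) (nat_lit 152) (nat_lit 16618582164) (nat_lit 76) (nat_lit 20340900440) (nat_lit 67) (nat_lit 5) (nat_lit 69) (nat_lit 5) (nat_lit 68) (nat_lit 4) (nat_lit 530) (nat_lit 398) (nat_lit 272))) (XT.nd (nat_lit 78) (nat_lit 0) (nat_lit 0) (XT.lf (nat_lit 0) (nat_lit 9827885823) (nat_lit 76) (nat_lit 9040504416) (nat_lit 152) (nat_lit 24793849675) (nat_lit 66) (nat_lit 5) (nat_lit 67) (nat_lit 5) (nat_lit 68) (nat_lit 4) (nat_lit 531) (nat_lit 398) (nat_lit 271)) (XT.lf (nat_lit 0) (nat_lit 32494237321) (nat_lit 152) (nat_lit 7231200489) (nat_lit 0) (nat_lit 4829344142) (nat_lit 66) (nat_lit 5) (nat_lit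 68) (nat_lit 4) (nat_lit 66) (nat_lit 4) (nat_lit 532) (nat_lit 398) (nat_lit 270)))) (XT.nd (nat_lit 156) (nat_lit 76) (nat_lit 0) (XT.nd (nat_lit 78) (nat_lit 76) (nat_lit 0) (XT.lf (nat_lit 0) (nat_lit 1304869484) (nat_lit 152) (nat_lit 25034759761) (nat_lit 76) (nat_lit 19126046140) (nat_lit 64) (nat_lit 5) (nat_lit 66) (nat_lit 5) (nat_lit 65) (nat_lit 4) (nat_lit 533) (nat_lit 398) (nat_lit 269)) (XT.lf (nat_lit 0) (nat_lit 2563925409) (nat_lit 76) (nat_lit 12345323702) (nat_lit 152) (nat_lit 31488651993) (nat_lit 63) (nat_lit 5) (nat_lit 64) (nat_lit 5) (nat_lit 65) (nat_lit 4) (nat_lit 534) (nat_lit 398) (nat_lit 268))) (XT.nd (nat_lit 78) (nat_lit 76) (nat_lit 0) (XT.lf (nat_lit 0) (nat_lit 29178990934) (nat_lit 152) (nat_lit 15904555550) (nat_lit 0) (nat_lit 2266830250) (nat_lit 63) (nat_lit 5) (nat_lit 65) (nat_lit 4) (nat_lit 63) (nat_lit 4) (nat_lit 535) (nat_lit 398) (nat_lit 267)) (XT.lf (nat_lit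 0) (nat_lit 12959009224) (nat_lit 76) (nat_lit 31147178923) (nat_lit 76) (nat_lit 4218357652) (nat_lit 62) (nat_lit 4) (nat_lit 63) (nat_lit 5) (nat_lit 63) (nat_lit 4) (nat_lit 536) (nat_lit 398) (nat_lit 266))))))) (XT.nd (nat_lit 1248) (nat_lit 76) (nat_lit 0) (XT.nd (nat_lit 624) (nat_lit 456) (nat_lit 0) (XT.nd (nat_lit 312) (nat_lit 304) (nat_lit 0) (XT.nd (nat_lit 156) (nat_lit 152) (nat_lit 0) (XT.nd (nat_lit 78) (nat_lit 76) (nat_lit 0) (XT.lf (nat_lit 0) (nat_lit 10099901592) (nat_lit 152) (nat_lit 6442196364) (nat_lit 76) (nat_lit 32778571048) (nat_lit 61) (nat_lit 5) (nat_lit 63) (nat_lit 5) (nat_lit 62) (nat_lit 4) (nat_lit 537) (nat_lit 398) (nat_lit 265)) (XT.lf (nat_lit 0) (nat_lit 23736878078) (nat_lit 76) (nat_lit 1237298707) (nat_lit 152) (nat_lit 25364908608) (nat_lit 60) (nat_lit 5) (nat_lit 61) (nat_lit 5) (nat_lit 62) (nat_lit 4) (nat_lit 538) (nat_lit 398) (nat_lit 264))) (XT.nd (nat_lit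 78) (nat_lit 76) (nat_lit 0) (XT.lf (nat_lit 0) (nat_lit 3461126533) (nat_lit 76) (nat_lit 37055258518) (nat_lit 76) (nat_lit 10865018135) (nat_lit 59) (nat_lit 4) (nat_lit 60) (nat_lit 5) (nat_lit 60) (nat_lit 4) (nat_lit 539) (nat_lit 398) (nat_lit 263)) (XT.lf (nat_lit 0) (nat_lit 4257097891) (nat_lit 152) (nat_lit 17562703231) (nat_lit 76) (nat_lit 30626016379) (nat_lit 58) (nat_lit 5) (nat_lit 60) (nat_lit 5) (nat_lit 59) (nat_lit 4) (nat_lit 540) (nat_lit 398) (nat_lit 262)))) (XT.nd (nat_lit 156) (nat_lit 228) (nat_lit 0) (XT.nd (nat_lit 78) (nat_lit 0) (nat_lit 0) (XT.lf (nat_lit 0) (nat_lit 13835558977) (nat_lit 76) (nat_lit 5895536543) (nat_lit 152) (nat_lit 33804343715) (nat_lit 57) (nat_lit 5) (nat_lit 58) (nat_lit 5) (nat_lit 59) (nat_lit 4) (nat_lit 541) (nat_lit 398) (nat_lit 261)) (XT.lf (nat_lit 0) (nat_lit 35933026828) (nat_lit 152) (nat_lit 8251854031) (nat_lit 0) (nat_lit 10464957398) (nat_lit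 57) (nat_lit 5) (nat_lit 59) (nat_lit 4) (nat_lit 57) (nat_lit 4) (nat_lit 542) (nat_lit 398) (nat_lit 260))) (XT.nd (nat_lit 78) (nat_lit 152) (nat_lit 0) (XT.lf (nat_lit 0) (nat_lit 24528361792) (nat_lit 76) (nat_lit 28370899269) (nat_lit 76) (nat_lit 2890060887) (nat_lit 56) (nat_lit 4) (nat_lit 57) (nat_lit 5) (nat_lit 57) (nat_lit 4) (nat_lit 543) (nat_lit 398) (nat_lit 259)) (XT.lf (nat_lit 0) (nat_lit 1366036743) (nat_lit 76) (nat_lit 11865131811) (nat_lit 152) (nat_lit 43725512568) (nat_lit 54) (nat_lit 5) (nat_lit 55) (nat_lit 5) (nat_lit 56) (nat_lit 4) (nat_lit 544) (nat_lit 398) (nat_lit 258))))) (XT.nd (nat_lit 312) (nat_lit 228) (nat_lit 0) (XT.nd (nat_lit 156) (nat_lit 152) (nat_lit 0) (XT.nd (nat_lit 78) (nat_lit 76) (nat_lit 0) (XT.lf (nat_lit 0) (nat_lit 30130229395) (nat_lit 152) (nat_lit 22649574835) (nat_lit 0) (nat_lit 5367829992) (nat_lit 54) (nat_lit 5) (nat_lit 56) (nat_lit 4) (nat_lit 54)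 (nat_lit 4) (nat_lit 545) (nat_lit 398) (nat_lit 257)) (XT.lf (nat_lit 0) (nat_lit 11353172012) (nat_lit 76) (nat_lit 36394276404) (nat_lit 76) (nat_lit 11620531952) (nat_lit 53) (nat_lit 4) (nat_lit 54) (nat_lit 5) (nat_lit 54) (nat_lit 4) (nat_lit 546) (nat_lit 398) (nat_lit 256))) (XT.nd (nat_lit 78) (nat_lit 76) (nat_lit 0) (XT.lf (nat_lit 0) (nat_lit 5381008214) (nat_lit 152) (nat_lit 13861312386) (nat_lit 76) (nat_lit 41374630181) (nat_lit 52) (nat_lit 5) (nat_lit 54) (nat_lit 5) (nat_lit 53) (nat_lit 4) (nat_lit 547) (nat_lit 398) (nat_lit 255)) (XT.lf (nat_lit 0) (nat_lit 21593363831) (nat_lit 76) (nat_lit 1258270005) (nat_lit 152) (nat_lit 39042526852) (nat_lit 51) (nat_lit 5) (nat_lit 52) (nat_lit 5) (nat_lit 53) (nat_lit 4) (nat_lit 548) (nat_lit 398) (nat_lit 254)))) (XT.nd (nat_lit 156) (nat_lit 152) (nat_lit 0) (XT.nd (nat_lit 78) (nat_lit 76) (nat_lit 0) (XT.lf (nat_lit 0) (nat_lit 41138744965) (nat_lit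 152) (nat_lit 5006761128) (nat_lit 0) (nat_lit 17055409835) (nat_lit 51) (nat_lit 5) (nat_lit 53) (nat_lit 4) (nat_lit 51) (nat_lit 4) (nat_lit 549) (nat_lit 398) (nat_lit 253)) (XT.lf (nat_lit 0) (nat_lit 31927783474) (nat_lit 76) (nat_lit 28351533219) (nat_lit 76) (nat_lit 4258411749) (nat_lit 50) (nat_lit 4) (nat_lit 51) (nat_lit 5) (nat_lit 51) (nat_lit 4) (nat_lit 550) (nat_lit 398) (nat_lit 252))) (XT.nd (nat_lit 78) (nat_lit 0) (nat_lit 0) (XT.lf (nat_lit 0) (nat_lit 4074653840) (nat_lit 76) (nat_lit 9805777986) (nat_lit 152) (nat_lit 52027881950) (nat_lit 48) (nat_lit 5) (nat_lit 49) (nat_lit 5) (nat_lit 50) (nat_lit 4) (nat_lit 551) (nat_lit 398) (nat_lit 251)) (XT.lf (nat_lit 0) (nat_lit 32885266336) (nat_lit 152) (nat_lit 24945557211) (nat_lit 0) (nat_lit 9475705819) (nat_lit 48) (nat_lit 5) (nat_lit 50) (nat_lit 4) (nat_lit 48) (nat_lit 4) (nat_lit 552) (nat_lit 398) (nat_lit 250)))))) (XT.nd (nat_lit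 51246) (nat_lit 0) (nat_lit 28956) (XT.nd (nat_lit 50934) (nat_lit 0) (nat_lit 31160) (XT.nd (nat_lit 50778) (nat_lit 0) (nat_lit 31844) (XT.nd (nat_lit 50700) (nat_lit 0) (nat_lit 32072) (XT.lf (nat_lit 0) (nat_lit 13181260315) (nat_lit 76) (nat_lit 39488697664) (nat_lit 76) (nat_lit 16070442112) (nat_lit 47) (nat_lit 4) (nat_lit 48) (nat_lit 5) (nat_lit 48) (nat_lit 4) (nat_lit 553) (nat_lit 398) (nat_lit 249)) (XT.lf (nat_lit 0) (nat_lit 54051676) (nat_lit 76) (nat_lit 1584523405) (nat_lit 76) (nat_lit 1584523405) (nat_lit 469) (nat_lit 4) (nat_lit 470) (nat_lit 5) (nat_lit 470) (nat_lit 4) (nat_lit 402) (nat_lit 399) (nat_lit 399))) (XT.nd (nat_lit 78) (nat_lit 152) (nat_lit 0) (XT.lf (nat_lit 0) (nat_lit 43488033) (nat_lit 152) (nat_lit 2938924302) (nat_lit 76) (nat_lit 3469437121) (nat_lit 468) (nat_lit 5) (nat_lit 470) (nat_lit 5) (nat_lit 469) (nat_lit 4) (nat_lit 403) (nat_lit 399) (nat_lit 398)) (XT.lf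 (nat_lit 0) (nat_lit 471883203) (nat_lit 152) (nat_lit 2699605567) (nat_lit 228) (nat_lit 3288768364) (nat_lit 466) (nat_lit 5) (nat_lit 468) (nat_lit 5) (nat_lit 469) (nat_lit 4) (nat_lit 404) (nat_lit 399) (nat_lit 397)))) (XT.nd (nat_lit 156) (nat_lit 380) (nat_lit 0) (XT.nd (nat_lit 78) (nat_lit 304) (nat_lit 0) (XT.lf (nat_lit 0) (nat_lit 3977759985) (nat_lit 152) (nat_lit 2326392746) (nat_lit 228) (nat_lit 167449769) (nat_lit 466) (nat_lit 5) (nat_lit 468) (nat_lit 5) (nat_lit 469) (nat_lit 4) (nat_lit 405) (nat_lit 399) (nat_lit 396)) (XT.lf (nat_lit 0) (nat_lit 1028435781) (nat_lit 228) (nat_lit 1852946126) (nat_lit 304) (nat_lit 3604236812) (nat_lit 462) (nat_lit 5) (nat_lit 465) (nat_lit 5) (nat_lit 466) (nat_lit 5) (nat_lit 406) (nat_lit 399) (nat_lit 395))) (XT.nd (nat_lit 78) (nat_lit 380) (nat_lit 0) (XT.lf (nat_lit 0) (nat_lit 4638615132) (nat_lit 228) (nat_lit 1291068488) (nat_lit 304) (nat_lit 572990240)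 (nat_lit 462) (nat_lit 5) (nat_lit 465) (nat_lit 5) (nat_lit 466) (nat_lit 5) (nat_lit 407) (nat_lit 399) (nat_lit 394)) (XT.lf (nat_lit 0) (nat_lit 1779611429) (nat_lit 304) (nat_lit 625360779) (nat_lit 380) (nat_lit 4117376400) (nat_lit 457) (nat_lit 5) (nat_lit 461) (nat_lit 5) (nat_lit 462) (nat_lit 5) (nat_lit 408) (nat_lit 399) (nat_lit 393))))) (XT.nd (nat_lit 312) (nat_lit 1216) (nat_lit 0) (XT.nd (nat_lit 156) (nat_lit 532) (nat_lit 0) (XT.nd (nat_lit 78) (nat_lit 456) (nat_lit 0) (XT.lf (nat_lit 0) (nat_lit 5371775402) (nat_lit 380) (nat_lit 1048176854) (nat_lit 76) (nat_lit 125169098) (nat_lit 457) (nat_lit 5) (nat_lit 462) (nat_lit 5) (nat_lit 458) (nat_lit 5) (nat_lit 409) (nat_lit 399) (nat_lit 392)) (XT.lf (nat_lit 0) (nat_lit 1749082214) (nat_lit 456) (nat_lit 3851942041) (nat_lit 76) (nat_lit 969234365) (nat_lit 451) (nat_lit 5) (nat_lit 457) (nat_lit 5) (nat_lit 452) (nat_lit 5) (nat_lit 410) (nat_lit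 399) (nat_lit 391))) (XT.nd (nat_lit 78) (nat_lit 532) (nat_lit 0) (XT.lf (nat_lit 0) (nat_lit 4642271787) (nat_lit 456) (nat_lit 58108622) (nat_lit 76) (nat_lit 1898228707) (nat_lit 451) (nat_lit 5) (nat_lit 457) (nat_lit 5) (nat_lit 452) (nat_lit 5) (nat_lit 411) (nat_lit 399) (nat_lit 390)) (XT.lf (nat_lit 0) (nat_lit 910489212) (nat_lit 532) (nat_lit 2781668953) (nat_lit 76) (nat_lit 2937309095) (nat_lit 444) (nat_lit 5) (nat_lit 451) (nat_lit 5) (nat_lit 445) (nat_lit 5) (nat_lit 412) (nat_lit 399) (nat_lit 389)))) (XT.nd (nat_lit 156) (nat_lit 684) (nat_lit 0) (XT.nd (nat_lit 78) (nat_lit 0) (nat_lit 0) (XT.lf (nat_lit 0) (nat_lit 1144663887) (nat_lit 532) (nat_lit 2591255595) (nat_lit 608) (nat_lit 2927400116) (nat_lit 437) (nat_lit 5) (nat_lit 444) (nat_lit 5) (nat_lit 445) (nat_lit 5) (nat_lit 413) (nat_lit 399) (nat_lit 388)) (XT.lf (nat_lit 0) (nat_lit 5177348804) (nat_lit 532) (nat_lit 1399421956) (nat_lit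 608) (nat_lit 123503918) (nat_lit 437) (nat_lit 5) (nat_lit 444) (nat_lit 5) (nat_lit 445) (nat_lit 5) (nat_lit 414) (nat_lit 399) (nat_lit 387))) (XT.nd (nat_lit 78) (nat_lit 0) (nat_lit 0) (XT.lf (nat_lit 0) (nat_lit 2547438080) (nat_lit 608) (nat_lit 92076437) (nat_lit 684) (nat_lit 4100164657) (nat_lit 428) (nat_lit 5) (nat_lit 436) (nat_lit 5) (nat_lit 437) (nat_lit 5) (nat_lit 415) (nat_lit 399) (nat_lit 386)) (XT.lf (nat_lit 0) (nat_lit 5417373179) (nat_lit 684) (nat_lit 92865526) (nat_lit 76) (nat_lit 1271963785) (nat_lit 428) (nat_lit 5) (nat_lit 437) (nat_lit 5) (nat_lit 429) (nat_lit 5) (nat_lit 416) (nat_lit 399) (nat_lit 385))))))))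
noncomputable def xc92 : XT := (XT.nd (nat_lit 2418) (nat_lit 6688) (nat_lit 0) (XT.nd (nat_lit 1170) (nat_lit 5852) (nat_lit 0) (XT.nd (nat_lit 546) (nat_lit 5092) (nat_lit 0) (XT.nd (nat_lit 234) (nat_lit 2888) (nat_lit 0) (XT.nd (nat_lit 78) (nat_lit 760) (nat_lit 0) (XT.lf (nat_lit 0) (nat_lit 1373992875) (nat_lit 760) (nat_lit 2700288390) (nat_lit 76) (nat_lit 2752814168) (nat_lit 418) (nat_lit 5) (nat_lit 428) (nat_lit 5) (nat_lit 419) (nat_lit 5) (nat_lit 417) (nat_lit 399) (nat_lit 384)) (XT.nd (nat_lit 78) (nat_lit 0) (nat_lit 0) (XT.lf (nat_lit 0) (nat_lit 1548553790) (nat_lit 760) (nat_lit 2545481159) (nat_lit 836) (nat_lit 2781106002) (nat_lit 408) (nat_lit 5) (nat_lit 418) (nat_lit 5) (nat_lit 419) (nat_lit 5) (nat_lit 418) (nat_lit 399) (nat_lit 383)) (XT.lf (nat_lit 0) (nat_lit 5911090857) (nat_lit 760) (nat_lit 924447141) (nat_lit 836) (nat_lit 90899668) (nat_lit 408) (nat_lit 5) (nat_lit 418) (nat_lit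 5) (nat_lit 419) (nat_lit 5) (nat_lit 419) (nat_lit 399) (nat_lit 382)))) (XT.nd (nat_lit 156) (nat_lit 1064) (nat_lit 0) (XT.nd (nat_lit 78) (nat_lit 912) (nat_lit 0) (XT.lf (nat_lit 0) (nat_lit 2582566125) (nat_lit 912) (nat_lit 3591067666) (nat_lit 76) (nat_lit 806226432) (nat_lit 396) (nat_lit 5) (nat_lit 408) (nat_lit 5) (nat_lit 397) (nat_lit 5) (nat_lit 420) (nat_lit 399) (nat_lit 381)) (XT.lf (nat_lit 0) (nat_lit 846843459) (nat_lit 912) (nat_lit 4431498050) (nat_lit 988) (nat_lit 1758204115) (nat_lit 384) (nat_lit 5) (nat_lit 396) (nat_lit 5) (nat_lit 397) (nat_lit 5) (nat_lit 421) (nat_lit 399) (nat_lit 380))) (XT.nd (nat_lit 78) (nat_lit 988) (nat_lit 0) (XT.lf (nat_lit 0) (nat_lit 895178843) (nat_lit 988) (nat_lit 1683702810) (nat_lit 76) (nat_lit 4517162289) (nat_lit 383) (nat_lit 5) (nat_lit 396) (nat_lit 5) (nat_lit 384) (nat_lit 5) (nat_lit 422) (nat_lit 399) (nat_lit 379)) (XT.lf (nat_lit 0) (nat_lit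 2927508704) (nat_lit 988) (nat_lit 613100825) (nat_lit 1064) (nat_lit 3617766617) (nat_lit 370) (nat_lit 5) (nat_lit 383) (nat_lit 5) (nat_lit 384) (nat_lit 5) (nat_lit 423) (nat_lit 399) (nat_lit 378))))) (XT.nd (nat_lit 312) (nat_lit 1596) (nat_lit 0) (XT.nd (nat_lit 156) (nat_lit 2356) (nat_lit 0) (XT.nd (nat_lit 78) (nat_lit 76) (nat_lit 0) (XT.lf (nat_lit 0) (nat_lit 412350115) (nat_lit 1064) (nat_lit 5809170490) (nat_lit 1140) (nat_lit 1002378758) (nat_lit 356) (nat_lit 5) (nat_lit 370) (nat_lit 5) (nat_lit 371) (nat_lit 5) (nat_lit 424) (nat_lit 399) (nat_lit 377)) (XT.lf (nat_lit 0) (nat_lit 1629936651) (nat_lit 1140) (nat_lit 2103578345) (nat_lit 76) (nat_lit 3558245628) (nat_lit 355) (nat_lit 5) (nat_lit 370) (nat_lit 5) (nat_lit 356) (nat_lit 5) (nat_lit 425) (nat_lit 399) (nat_lit 376))) (XT.nd (nat_lit 78) (nat_lit 1216) (nat_lit 0) (XT.lf (nat_lit 0) (nat_lit 2718550173) (nat_lit 1140) (nat_lit 1553177114)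 (nat_lit 1216) (nat_lit 3091117305) (nat_lit 340) (nat_lit 5) (nat_lit 355) (nat_lit 5) (nat_lit 356) (nat_lit 5) (nat_lit 426) (nat_lit 399) (nat_lit 375)) (XT.lf (nat_lit 0) (nat_lit 218656528) (nat_lit 1216) (nat_lit 6730419744) (nat_lit 1292) (nat_lit 488299729) (nat_lit 324) (nat_lit 5) (nat_lit 340) (nat_lit 5) (nat_lit 341) (nat_lit 5) (nat_lit 427) (nat_lit 399) (nat_lit 374)))) (XT.nd (nat_lit 156) (nat_lit 684) (nat_lit 0) (XT.nd (nat_lit 78) (nat_lit 836) (nat_lit 0) (XT.lf (nat_lit 0) (nat_lit 2139398729) (nat_lit 1292) (nat_lit 2299494501) (nat_lit 76) (nat_lit 3074934193) (nat_lit 323) (nat_lit 5) (nat_lit 340) (nat_lit 5) (nat_lit 324) (nat_lit 5) (nat_lit 428) (nat_lit 399) (nat_lit 373)) (XT.lf (nat_lit 0) (nat_lit 2745623735) (nat_lit 836) (nat_lit 2045854842) (nat_lit 912) (nat_lit 2802291544) (nat_lit 312) (nat_lit 5) (nat_lit 323) (nat_lit 5) (nat_lit 324) (nat_lit 5) (nat_lit 429) (nat_lit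 399) (nat_lit 372))) (XT.nd (nat_lit 78) (nat_lit 76) (nat_lit 0) (XT.lf (nat_lit 0) (nat_lit 242465579) (nat_lit 608) (nat_lit 7240833279) (nat_lit 684) (nat_lit 194010511) (nat_lit 304) (nat_lit 5) (nat_lit 312) (nat_lit 5) (nat_lit 313) (nat_lit 5) (nat_lit 430) (nat_lit 399) (nat_lit 371)) (XT.lf (nat_lit 0) (nat_lit 2444612850) (nat_lit 684) (nat_lit 2293906894) (nat_lit 76) (nat_lit 3024097703) (nat_lit 303) (nat_lit 5) (nat_lit 312) (nat_lit 5) (nat_lit 304) (nat_lit 5) (nat_lit 431) (nat_lit 399) (nat_lit 370)))))) (XT.nd (nat_lit 624) (nat_lit 2432) (nat_lit 0) (XT.nd (nat_lit 312) (nat_lit 1596) (nat_lit 0) (XT.nd (nat_lit 156) (nat_lit 684) (nat_lit 0) (XT.nd (nat_lit 78) (nat_lit 532) (nat_lit 0) (XT.lf (nat_lit 0) (nat_lit 2987242043) (nat_lit 608) (nat_lit 2133011792) (nat_lit 684) (nat_lit 2731323859) (nat_lit 295) (nat_lit 5) (nat_lit 303) (nat_lit 5) (nat_lit 304) (nat_lit 5) (nat_lit 432) (nat_lit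 399) (nat_lit 369)) (XT.lf (nat_lit 0) (nat_lit 463221124) (nat_lit 532) (nat_lit 7380367021) (nat_lit 608) (nat_lit 100599086) (nat_lit 288) (nat_lit 5) (nat_lit 295) (nat_lit 5) (nat_lit 296) (nat_lit 5) (nat_lit 433) (nat_lit 399) (nat_lit 368))) (XT.nd (nat_lit 78) (nat_lit 608) (nat_lit 0) (XT.lf (nat_lit 0) (nat_lit 2563736486) (nat_lit 608) (nat_lit 2106696424) (nat_lit 76) (nat_lit 3368224744) (nat_lit 287) (nat_lit 5) (nat_lit 295) (nat_lit 5) (nat_lit 288) (nat_lit 5) (nat_lit 434) (nat_lit 399) (nat_lit 367)) (XT.lf (nat_lit 0) (nat_lit 3424504825) (nat_lit 608) (nat_lit 1851166075) (nat_lit 684) (nat_lit 2861173622) (nat_lit 279) (nat_lit 5) (nat_lit 287) (nat_lit 5) (nat_lit 288) (nat_lit 5) (nat_lit 435) (nat_lit 399) (nat_lit 366)))) (XT.nd (nat_lit 156) (nat_lit 988) (nat_lit 0) (XT.nd (nat_lit 78) (nat_lit 76) (nat_lit 0) (XT.lf (nat_lit 0) (nat_lit 862763639) (nat_lit 532) (nat_lit 7183971656)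 (nat_lit 608) (nat_lit 191911390) (nat_lit 272) (nat_lit 5) (nat_lit 279) (nat_lit 5) (nat_lit 280) (nat_lit 5) (nat_lit 436) (nat_lit 399) (nat_lit 365)) (XT.lf (nat_lit 0) (nat_lit 2512309233) (nat_lit 608) (nat_lit 1755501216) (nat_lit 76) (nat_lit 4074814087) (nat_lit 271) (nat_lit 5) (nat_lit 279) (nat_lit 5) (nat_lit 272) (nat_lit 5) (nat_lit 437) (nat_lit 399) (nat_lit 364))) (XT.nd (nat_lit 78) (nat_lit 456) (nat_lit 0) (XT.lf (nat_lit 0) (nat_lit 4040770887) (nat_lit 532) (nat_lit 1232065149) (nat_lit 608) (nat_lit 3177460187) (nat_lit 264) (nat_lit 5) (nat_lit 271) (nat_lit 5) (nat_lit 272) (nat_lit 5) (nat_lit 438) (nat_lit 399) (nat_lit 363)) (XT.lf (nat_lit 0) (nat_lit 1425015394) (nat_lit 456) (nat_lit 6682152070) (nat_lit 532) (nat_lit 454303461) (nat_lit 258) (nat_lit 5) (nat_lit 264) (nat_lit 5) (nat_lit 265) (nat_lit 5) (nat_lit 439) (nat_lit 399) (nat_lit 362))))) (XT.nd (nat_lit 312) (nat_lit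 1368) (nat_lit 0) (XT.nd (nat_lit 156) (nat_lit 532) (nat_lit 0) (XT.nd (nat_lit 78) (nat_lit 456) (nat_lit 0) (XT.lf (nat_lit 0) (nat_lit 2303488267) (nat_lit 532) (nat_lit 1256021062) (nat_lit 76) (nat_lit 5115831841) (nat_lit 257) (nat_lit 5) (nat_lit 264) (nat_lit 5) (nat_lit 258) (nat_lit 5) (nat_lit 440) (nat_lit 399) (nat_lit 361)) (XT.lf (nat_lit 0) (nat_lit 4821357154) (nat_lit 456) (nat_lit 303212024) (nat_lit 532) (nat_lit 3668235122) (nat_lit 251) (nat_lit 5) (nat_lit 257) (nat_lit 5) (nat_lit 258) (nat_lit 5) (nat_lit 441) (nat_lit 399) (nat_lit 360))) (XT.nd (nat_lit 78) (nat_lit 76) (nat_lit 0) (XT.lf (nat_lit 0) (nat_lit 2135690267) (nat_lit 456) (nat_lit 5901468115) (nat_lit 532) (nat_lit 876428914) (nat_lit 245) (nat_lit 5) (nat_lit 251) (nat_lit 5) (nat_lit 252) (nat_lit 5) (nat_lit 442) (nat_lit 399) (nat_lit 359)) (XT.lf (nat_lit 0) (nat_lit 1948250007) (nat_lit 532) (nat_lit 622299105) (nat_lit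 76) (nat_lit 6467226422) (nat_lit 244) (nat_lit 5) (nat_lit 251) (nat_lit 5) (nat_lit 245) (nat_lit 5) (nat_lit 443) (nat_lit 399) (nat_lit 358)))) (XT.nd (nat_lit 156) (nat_lit 532) (nat_lit 0) (XT.nd (nat_lit 78) (nat_lit 380) (nat_lit 0) (XT.lf (nat_lit 0) (nat_lit 4850359896) (nat_lit 532) (nat_lit 3420888364) (nat_lit 76) (nat_lit 893873711) (nat_lit 238) (nat_lit 5) (nat_lit 245) (nat_lit 5) (nat_lit 239) (nat_lit 5) (nat_lit 444) (nat_lit 399) (nat_lit 357)) (XT.lf (nat_lit 0) (nat_lit 2982023562) (nat_lit 380) (nat_lit 4864984098) (nat_lit 456) (nat_lit 1449058903) (nat_lit 233) (nat_lit 5) (nat_lit 238) (nat_lit 5) (nat_lit 239) (nat_lit 5) (nat_lit 445) (nat_lit 399) (nat_lit 356))) (XT.nd (nat_lit 78) (nat_lit 0) (nat_lit 0) (XT.lf (nat_lit 0) (nat_lit 135661972) (nat_lit 456) (nat_lit 1321202769) (nat_lit 532) (nat_lit 7974136188) (nat_lit 226) (nat_lit 5) (nat_lit 232) (nat_lit 5) (nat_lit 233) (nat_lit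 5) (nat_lit 446) (nat_lit 399) (nat_lit 355)) (XT.lf (nat_lit 0) (nat_lit 4455707437) (nat_lit 532) (nat_lit 2767299518) (nat_lit 76) (nat_lit 2345501806) (nat_lit 226) (nat_lit 5) (nat_lit 233) (nat_lit 5) (nat_lit 227) (nat_lit 5) (nat_lit 447) (nat_lit 399) (nat_lit 354))))))) (XT.nd (nat_lit 1170) (nat_lit 2736) (nat_lit 0) (XT.nd (nat_lit 546) (nat_lit 1976) (nat_lit 0) (XT.nd (nat_lit 234) (nat_lit 1140) (nat_lit 0) (XT.nd (nat_lit 78) (nat_lit 456) (nat_lit 0) (XT.lf (nat_lit 0) (nat_lit 3952517423) (nat_lit 380) (nat_lit 3592673726) (nat_lit 456) (nat_lit 2164932183) (nat_lit 221) (nat_lit 5) (nat_lit 226) (nat_lit 5) (nat_lit 227) (nat_lit 5) (nat_lit 448) (nat_lit 399) (nat_lit 353)) (XT.nd (nat_lit 78) (nat_lit 0) (nat_lit 0) (XT.lf (nat_lit 0) (nat_lit 843997939) (nat_lit 456) (nat_lit 8839505671) (nat_lit 76) (nat_lit 172544261) (nat_lit 215) (nat_lit 5) (nat_lit 221) (nat_lit 5) (nat_lit 216) (nat_lit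 5) (nat_lit 449) (nat_lit 399) (nat_lit 352)) (XT.lf (nat_lit 0) (nat_lit 3944526851) (nat_lit 456) (nat_lit 2019319054) (nat_lit 76) (nat_lit 4040517499) (nat_lit 215) (nat_lit 5) (nat_lit 221) (nat_lit 5) (nat_lit 216) (nat_lit 5) (nat_lit 450) (nat_lit 399) (nat_lit 351)))) (XT.nd (nat_lit 156) (nat_lit 304) (nat_lit 0) (XT.nd (nat_lit 78) (nat_lit 456) (nat_lit 0) (XT.lf (nat_lit 0) (nat_lit 5036697555) (nat_lit 380) (nat_lit 2101786664) (nat_lit 456) (nat_lit 3018633386) (nat_lit 210) (nat_lit 5) (nat_lit 215) (nat_lit 5) (nat_lit 216) (nat_lit 5) (nat_lit 451) (nat_lit 399) (nat_lit 350)) (XT.lf (nat_lit 0) (nat_lit 121964594) (nat_lit 456) (nat_lit 8330540005) (nat_lit 76) (nat_lit 1861607115) (nat_lit 204) (nat_lit 5) (nat_lit 210) (nat_lit 5) (nat_lit 205) (nat_lit 5) (nat_lit 452) (nat_lit 399) (nat_lit 349))) (XT.nd (nat_lit 78) (nat_lit 304) (nat_lit 0) (XT.lf (nat_lit 0) (nat_lit 3321983199) (nat_lit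 456) (nat_lit 1187740537) (nat_lit 76) (nat_lit 5964420503) (nat_lit 204) (nat_lit 5) (nat_lit 210) (nat_lit 5) (nat_lit 205) (nat_lit 5) (nat_lit 453) (nat_lit 399) (nat_lit 348)) (XT.lf (nat_lit 0) (nat_lit 6224877037) (nat_lit 304) (nat_lit 407182372) (nat_lit 380) (nat_lit 4006498020) (nat_lit 200) (nat_lit 5) (nat_lit 204) (nat_lit 5) (nat_lit 205) (nat_lit 5) (nat_lit 454) (nat_lit 399) (nat_lit 347))))) (XT.nd (nat_lit 312) (nat_lit 988) (nat_lit 0) (XT.nd (nat_lit 156) (nat_lit 608) (nat_lit 0) (XT.nd (nat_lit 78) (nat_lit 76) (nat_lit 0) (XT.lf (nat_lit 0) (nat_lit 3032581659) (nat_lit 304) (nat_lit 7041556225) (nat_lit 380) (nat_lit 732785491) (nat_lit 196) (nat_lit 5) (nat_lit 200) (nat_lit 5) (nat_lit 201) (nat_lit 5) (nat_lit 455) (nat_lit 399) (nat_lit 346)) (XT.lf (nat_lit 0) (nat_lit 2591656155) (nat_lit 380) (nat_lit 282831747) (nat_lit 76) (nat_lit 8104972105) (nat_lit 195) (nat_lit 5) (nat_lit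 200) (nat_lit 5) (nat_lit 196) (nat_lit 5) (nat_lit 456) (nat_lit 399) (nat_lit 345))) (XT.nd (nat_lit 78) (nat_lit 304) (nat_lit 0) (XT.lf (nat_lit 0) (nat_lit 6043770422) (nat_lit 380) (nat_lit 3662390586) (nat_lit 76) (nat_lit 1449515287) (nat_lit 191) (nat_lit 5) (nat_lit 196) (nat_lit 5) (nat_lit 192) (nat_lit 5) (nat_lit 457) (nat_lit 399) (nat_lit 344)) (XT.lf (nat_lit 0) (nat_lit 4158849119) (nat_lit 304) (nat_lit 5468661404) (nat_lit 380) (nat_lit 1708827887) (nat_lit 187) (nat_lit 5) (nat_lit 191) (nat_lit 5) (nat_lit 192) (nat_lit 5) (nat_lit 458) (nat_lit 399) (nat_lit 343)))) (XT.nd (nat_lit 156) (nat_lit 608) (nat_lit 0) (XT.nd (nat_lit 78) (nat_lit 0) (nat_lit 0) (XT.lf (nat_lit 0) (nat_lit 699072216) (nat_lit 304) (nat_lit 1063242742) (nat_lit 380) (nat_lit 9759557772) (nat_lit 182) (nat_lit 5) (nat_lit 186) (nat_lit 5) (nat_lit 187) (nat_lit 5) (nat_lit 459) (nat_lit 399) (nat_lit 342)) (XT.lf (nat_lit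 0) (nat_lit 5367212462) (nat_lit 380) (nat_lit 2868613844) (nat_lit 76) (nat_lit 3474721324) (nat_lit 182) (nat_lit 5) (nat_lit 187) (nat_lit 5) (nat_lit 183) (nat_lit 5) (nat_lit 460) (nat_lit 399) (nat_lit 341))) (XT.nd (nat_lit 78) (nat_lit 304) (nat_lit 0) (XT.lf (nat_lit 0) (nat_lit 5354226248) (nat_lit 304) (nat_lit 3746639951) (nat_lit 380) (nat_lit 2803399372) (nat_lit 178) (nat_lit 5) (nat_lit 182) (nat_lit 5) (nat_lit 183) (nat_lit 5) (nat_lit 461) (nat_lit 399) (nat_lit 340)) (XT.lf (nat_lit 0) (nat_lit 839834097) (nat_lit 304) (nat_lit 10371059431) (nat_lit 76) (nat_lit 892253179) (nat_lit 174) (nat_lit 5) (nat_lit 178) (nat_lit 5) (nat_lit 175) (nat_lit 5) (nat_lit 462) (nat_lit 399) (nat_lit 339)))))) (XT.nd (nat_lit 624) (nat_lit 1368) (nat_lit 0) (XT.nd (nat_lit 312) (nat_lit 760) (nat_lit 0) (XT.nd (nat_lit 156) (nat_lit 304) (nat_lit 0) (XT.nd (nat_lit 78) (nat_lit 304) (nat_lit 0) (XT.lf (nat_lit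 0) (nat_lit 4599087539) (nat_lit 304) (nat_lit 2039059578) (nat_lit 76) (nat_lit 5667123393) (nat_lit 174) (nat_lit 5) (nat_lit 178) (nat_lit 5) (nat_lit 175) (nat_lit 5) (nat_lit 463) (nat_lit 399) (nat_lit 338)) (XT.lf (nat_lit 0) (nat_lit 6609259181) (nat_lit 304) (nat_lit 1885756348) (nat_lit 380) (nat_lit 4017726543) (nat_lit 170) (nat_lit 5) (nat_lit 174) (nat_lit 5) (nat_lit 175) (nat_lit 5) (nat_lit 464) (nat_lit 399) (nat_lit 337))) (XT.nd (nat_lit 78) (nat_lit 76) (nat_lit 0) (XT.lf (nat_lit 0) (nat_lit 2795475146) (nat_lit 228) (nat_lit 9749641570) (nat_lit 304) (nat_lit 180203132) (nat_lit 167) (nat_lit 5) (nat_lit 170) (nat_lit 5) (nat_lit 171) (nat_lit 5) (nat_lit 465) (nat_lit 399) (nat_lit 336)) (XT.lf (nat_lit 0) (nat_lit 3738570330) (nat_lit 304) (nat_lit 1184706363) (nat_lit 76) (nat_lit 8018719094) (nat_lit 166) (nat_lit 5) (nat_lit 170) (nat_lit 5) (nat_lit 167) (nat_lit 5) (nat_lit 466) (nat_lit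 399) (nat_lit 335)))) (XT.nd (nat_lit 156) (nat_lit 304) (nat_lit 0) (XT.nd (nat_lit 78) (nat_lit 228) (nat_lit 0) (XT.lf (nat_lit 0) (nat_lit 7810371774) (nat_lit 304) (nat_lit 5250823553) (nat_lit 76) (nat_lit 102751400) (nat_lit 163) (nat_lit 5) (nat_lit 167) (nat_lit 5) (nat_lit 164) (nat_lit 5) (nat_lit 467) (nat_lit 399) (nat_lit 334)) (XT.lf (nat_lit 0) (nat_lit 3881273270) (nat_lit 228) (nat_lit 8183494127) (nat_lit 304) (nat_lit 1325976416) (nat_lit 160) (nat_lit 5) (nat_lit 163) (nat_lit 5) (nat_lit 164) (nat_lit 5) (nat_lit 468) (nat_lit 399) (nat_lit 333))) (XT.nd (nat_lit 78) (nat_lit 228) (nat_lit 0) (XT.lf (nat_lit 0) (nat_lit 2783368796) (nat_lit 304) (nat_lit 317161163) (nat_lit 76) (nat_lit 10522521848) (nat_lit 159) (nat_lit 5) (nat_lit 163) (nat_lit 5) (nat_lit 160) (nat_lit 5) (nat_lit 469) (nat_lit 399) (nat_lit 332)) (XT.lf (nat_lit 0) (nat_lit 7063190702) (nat_lit 304) (nat_lit 4623134197)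 (nat_lit 76) (nat_lit 2173395627) (nat_lit 156) (nat_lit 5) (nat_lit 160) (nat_lit 5) (nat_lit 157) (nat_lit 5) (nat_lit 470) (nat_lit 399) (nat_lit 331))))) (XT.nd (nat_lit 312) (nat_lit 684) (nat_lit 0) (XT.nd (nat_lit 156) (nat_lit 152) (nat_lit 0) (XT.nd (nat_lit 78) (nat_lit 304) (nat_lit 0) (XT.lf (nat_lit 0) (nat_lit 4986437191) (nat_lit 228) (nat_lit 6530643083) (nat_lit 304) (nat_lit 2585039574) (nat_lit 153) (nat_lit 5) (nat_lit 156) (nat_lit 5) (nat_lit 157) (nat_lit 5) (nat_lit 471) (nat_lit 399) (nat_lit 330)) (XT.lf (nat_lit 0) (nat_lit 562011527) (nat_lit 228) (nat_lit 1173064269) (nat_lit 304) (nat_lit 12615716061) (nat_lit 149) (nat_lit 5) (nat_lit 152) (nat_lit 5) (nat_lit 153) (nat_lit 5) (nat_lit 472) (nat_lit 399) (nat_lit 329))) (XT.nd (nat_lit 78) (nat_lit 152) (nat_lit 0) (XT.lf (nat_lit 0) (nat_lit 6231747756) (nat_lit 304) (nat_lit 4016102334) (nat_lit 76) (nat_lit 4355339475) (nat_lit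 149) (nat_lit 5) (nat_lit 153) (nat_lit 5) (nat_lit 150) (nat_lit 5) (nat_lit 473) (nat_lit 399) (nat_lit 328)) (XT.lf (nat_lit 0) (nat_lit 6098342170) (nat_lit 152) (nat_lit 4800435361) (nat_lit 228) (nat_lit 3963318595) (nat_lit 147) (nat_lit 5) (nat_lit 149) (nat_lit 5) (nat_lit 150) (nat_lit 5) (nat_lit 474) (nat_lit 399) (nat_lit 327)))) (XT.nd (nat_lit 156) (nat_lit 380) (nat_lit 0) (XT.nd (nat_lit 78) (nat_lit 0) (nat_lit 0) (XT.lf (nat_lit 0) (nat_lit 594018774) (nat_lit 304) (nat_lit 13702040473) (nat_lit 76) (nat_lit 831697919) (nat_lit 143) (nat_lit 5) (nat_lit 147) (nat_lit 5) (nat_lit 144) (nat_lit 5) (nat_lit 475) (nat_lit 399) (nat_lit 326)) (XT.lf (nat_lit 0) (nat_lit 5310871486) (nat_lit 304) (nat_lit 3444990983) (nat_lit 76) (nat_lit 6641275318) (nat_lit 143) (nat_lit 5) (nat_lit 147) (nat_lit 5) (nat_lit 144) (nat_lit 5) (nat_lit 476) (nat_lit 399) (nat_lit 325))) (XT.nd (nat_lit 78) (nat_lit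 228) (nat_lit 0) (XT.lf (nat_lit 0) (nat_lit 7202915466) (nat_lit 152) (nat_lit 3002108484) (nat_lit 228) (nat_lit 5468502629) (nat_lit 141) (nat_lit 5) (nat_lit 143) (nat_lit 5) (nat_lit 144) (nat_lit 5) (nat_lit 477) (nat_lit 399) (nat_lit 324)) (XT.lf (nat_lit 0) (nat_lit 2241389514) (nat_lit 228) (nat_lit 13056152877) (nat_lit 304) (nat_lit 659118963) (nat_lit 138) (nat_lit 5) (nat_lit 141) (nat_lit 5) (nat_lit 142) (nat_lit 5) (nat_lit 478) (nat_lit 399) (nat_lit 323))))))))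
noncomputable def xc93 : XT := (XT.nd (nat_lit 2418) (nat_lit 2508) (nat_lit 0) (XT.nd (nat_lit 1170) (nat_lit 1596) (nat_lit 0) (XT.nd (nat_lit 546) (nat_lit 1064) (nat_lit 0) (XT.nd (nat_lit 234) (nat_lit 456) (nat_lit 0) (XT.nd (nat_lit 78) (nat_lit 380) (nat_lit 0) (XT.lf (nat_lit 0) (nat_lit 4293699852) (nat_lit 304) (nat_lit 2926891278) (nat_lit 76) (nat_lit 9023972445) (nat_lit 137) (nat_lit 5) (nat_lit 141) (nat_lit 5) (nat_lit 138) (nat_lit 5) (nat_lit 479) (nat_lit 399) (nat_lit 322)) (XT.nd (nat_lit 78) (nat_lit 228) (nat_lit 0) (XT.lf (nat_lit 0) (nat_lit 8284246927) (nat_lit 152) (nat_lit 1145055894) (nat_lit 228) (nat_lit 7110181359) (nat_lit 135) (nat_lit 5) (nat_lit 137) (nat_lit 5) (nat_lit 138) (nat_lit 5) (nat_lit 480) (nat_lit 399) (nat_lit 321)) (XT.lf (nat_lit 0) (nat_lit 3002297830) (nat_lit 228) (nat_lit 11792521747) (nat_lit 304) (nat_lit 2046157954) (nat_lit 132) (nat_lit 5) (nat_lit 135)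 (nat_lit 5) (nat_lit 136) (nat_lit 5) (nat_lit 481) (nat_lit 399) (nat_lit 320)))) (XT.nd (nat_lit 156) (nat_lit 228) (nat_lit 0) (XT.nd (nat_lit 78) (nat_lit 152) (nat_lit 0) (XT.lf (nat_lit 0) (nat_lit 3171530823) (nat_lit 304) (nat_lit 2481149236) (nat_lit 76) (nat_lit 11496014036) (nat_lit 131) (nat_lit 5) (nat_lit 135) (nat_lit 5) (nat_lit 132) (nat_lit 5) (nat_lit 482) (nat_lit 399) (nat_lit 319)) (XT.lf (nat_lit 0) (nat_lit 8570572339) (nat_lit 228) (nat_lit 8146439880) (nat_lit 76) (nat_lit 746044189) (nat_lit 129) (nat_lit 5) (nat_lit 132) (nat_lit 5) (nat_lit 130) (nat_lit 5) (nat_lit 483) (nat_lit 399) (nat_lit 318))) (XT.nd (nat_lit 78) (nat_lit 76) (nat_lit 0) (XT.lf (nat_lit 0) (nat_lit 3694146329) (nat_lit 152) (nat_lit 10523380117) (nat_lit 228) (nat_lit 3566745346) (nat_lit 127) (nat_lit 5) (nat_lit 129) (nat_lit 5) (nat_lit 130) (nat_lit 5) (nat_lit 484) (nat_lit 399) (nat_lit 317)) (XT.lf (nat_lit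 0) (nat_lit 1933636639) (nat_lit 228) (nat_lit 2129848848) (nat_lit 76) (nat_lit 14049515843) (nat_lit 126) (nat_lit 5) (nat_lit 129) (nat_lit 5) (nat_lit 127) (nat_lit 5) (nat_lit 485) (nat_lit 399) (nat_lit 316))))) (XT.nd (nat_lit 312) (nat_lit 532) (nat_lit 0) (XT.nd (nat_lit 156) (nat_lit 228) (nat_lit 0) (XT.nd (nat_lit 78) (nat_lit 152) (nat_lit 0) (XT.lf (nat_lit 0) (nat_lit 7622503255) (nat_lit 228) (nat_lit 8172798398) (nat_lit 76) (nat_lit 2652377241) (nat_lit 124) (nat_lit 5) (nat_lit 127) (nat_lit 5) (nat_lit 125) (nat_lit 5) (nat_lit 486) (nat_lit 399) (nat_lit 315)) (XT.lf (nat_lit 0) (nat_lit 4293577949) (nat_lit 152) (nat_lit 9261954111) (nat_lit 228) (nat_lit 5234660231) (nat_lit 122) (nat_lit 5) (nat_lit 124) (nat_lit 5) (nat_lit 125) (nat_lit 5) (nat_lit 487) (nat_lit 399) (nat_lit 314))) (XT.nd (nat_lit 78) (nat_lit 152) (nat_lit 0) (XT.lf (nat_lit 0) (nat_lit 567037417) (nat_lit 228) (nat_lit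 1898361989) (nat_lit 76) (nat_lit 16675820565) (nat_lit 121) (nat_lit 5) (nat_lit 124) (nat_lit 5) (nat_lit 122) (nat_lit 5) (nat_lit 488) (nat_lit 399) (nat_lit 313)) (XT.lf (nat_lit 0) (nat_lit 6561314411) (nat_lit 228) (nat_lit 8351323534) (nat_lit 76) (nat_lit 4584873846) (nat_lit 119) (nat_lit 5) (nat_lit 122) (nat_lit 5) (nat_lit 120) (nat_lit 5) (nat_lit 489) (nat_lit 399) (nat_lit 312)))) (XT.nd (nat_lit 156) (nat_lit 380) (nat_lit 0) (XT.nd (nat_lit 78) (nat_lit 0) (nat_lit 0) (XT.lf (nat_lit 0) (nat_lit 4773569165) (nat_lit 152) (nat_lit 8022831346) (nat_lit 228) (nat_lit 7066262782) (nat_lit 117) (nat_lit 5) (nat_lit 119) (nat_lit 5) (nat_lit 120) (nat_lit 5) (nat_lit 490) (nat_lit 399) (nat_lit 311)) (XT.lf (nat_lit 0) (nat_lit 18411859950) (nat_lit 152) (nat_lit 862675874) (nat_lit 228) (nat_lit 962553956) (nat_lit 117) (nat_lit 5) (nat_lit 119) (nat_lit 5) (nat_lit 120) (nat_lit 5) (nat_lit 491) (nat_lit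 399) (nat_lit 310))) (XT.nd (nat_lit 78) (nat_lit 152) (nat_lit 0) (XT.lf (nat_lit 0) (nat_lit 5371661174) (nat_lit 228) (nat_lit 8714301958) (nat_lit 76) (nat_lit 6530712126) (nat_lit 114) (nat_lit 5) (nat_lit 117) (nat_lit 5) (nat_lit 115) (nat_lit 5) (nat_lit 492) (nat_lit 399) (nat_lit 309)) (XT.lf (nat_lit 0) (nat_lit 5102738394) (nat_lit 152) (nat_lit 6822350906) (nat_lit 228) (nat_lit 9080817416) (nat_lit 112) (nat_lit 5) (nat_lit 114) (nat_lit 5) (nat_lit 115) (nat_lit 5) (nat_lit 493) (nat_lit 399) (nat_lit 308)))))) (XT.nd (nat_lit 624) (nat_lit 760) (nat_lit 0) (XT.nd (nat_lit 312) (nat_lit 456) (nat_lit 0) (XT.nd (nat_lit 156) (nat_lit 152) (nat_lit 0) (XT.nd (nat_lit 78) (nat_lit 228) (nat_lit 0) (XT.lf (nat_lit 0) (nat_lit 18742756089) (nat_lit 228) (nat_lit 1949267069) (nat_lit 76) (nat_lit 712763187) (nat_lit 112) (nat_lit 5) (nat_lit 115) (nat_lit 5) (nat_lit 113) (nat_lit 4) (nat_lit 494) (nat_lit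 399) (nat_lit 307)) (XT.lf (nat_lit 0) (nat_lit 4035285696) (nat_lit 228) (nat_lit 9299056137) (nat_lit 76) (nat_lit 8475260995) (nat_lit 109) (nat_lit 5) (nat_lit 112) (nat_lit 5) (nat_lit 110) (nat_lit 5) (nat_lit 495) (nat_lit 399) (nat_lit 306))) (XT.nd (nat_lit 78) (nat_lit 0) (nat_lit 0) (XT.lf (nat_lit 0) (nat_lit 5244550678) (nat_lit 152) (nat_lit 5679040453) (nat_lit 228) (nat_lit 11300875024) (nat_lit 107) (nat_lit 5) (nat_lit 109) (nat_lit 5) (nat_lit 110) (nat_lit 5) (nat_lit 496) (nat_lit 399) (nat_lit 305)) (XT.lf (nat_lit 0) (nat_lit 18107956111) (nat_lit 228) (nat_lit 2305475223) (nat_lit 76) (nat_lit 2235662004) (nat_lit 107) (nat_lit 5) (nat_lit 110) (nat_lit 5) (nat_lit 108) (nat_lit 4) (nat_lit 497) (nat_lit 399) (nat_lit 304)))) (XT.nd (nat_lit 156) (nat_lit 152) (nat_lit 0) (XT.nd (nat_lit 78) (nat_lit 152) (nat_lit 0) (XT.lf (nat_lit 0) (nat_lit 2530612032) (nat_lit 152) (nat_lit 10148826989)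 (nat_lit 76) (nat_lit 10401628207) (nat_lit 105) (nat_lit 5) (nat_lit 107) (nat_lit 5) (nat_lit 106) (nat_lit 5) (nat_lit 498) (nat_lit 399) (nat_lit 303)) (XT.lf (nat_lit 0) (nat_lit 5156401031) (nat_lit 152) (nat_lit 4614109942) (nat_lit 228) (nat_lit 13752722668) (nat_lit 103) (nat_lit 5) (nat_lit 105) (nat_lit 5) (nat_lit 106) (nat_lit 5) (nat_lit 499) (nat_lit 399) (nat_lit 302))) (XT.nd (nat_lit 78) (nat_lit 152) (nat_lit 0) (XT.lf (nat_lit 0) (nat_lit 17340879539) (nat_lit 228) (nat_lit 2931433396) (nat_lit 76) (nat_lit 3702954169) (nat_lit 103) (nat_lit 5) (nat_lit 106) (nat_lit 5) (nat_lit 104) (nat_lit 4) (nat_lit 500) (nat_lit 399) (nat_lit 301)) (XT.lf (nat_lit 0) (nat_lit 832270092) (nat_lit 152) (nat_lit 11313791708) (nat_lit 76) (nat_lit 12290147357) (nat_lit 101) (nat_lit 5) (nat_lit 103) (nat_lit 5) (nat_lit 102) (nat_lit 5) (nat_lit 501) (nat_lit 399) (nat_lit 300))))) (XT.nd (nat_lit 312) (nat_lit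 304) (nat_lit 0) (XT.nd (nat_lit 156) (nat_lit 304) (nat_lit 0) (XT.nd (nat_lit 78) (nat_lit 0) (nat_lit 0) (XT.lf (nat_lit 0) (nat_lit 4788556167) (nat_lit 152) (nat_lit 3652012740) (nat_lit 228) (nat_lit 16466910588) (nat_lit 99) (nat_lit 5) (nat_lit 101) (nat_lit 5) (nat_lit 102) (nat_lit 5) (nat_lit 502) (nat_lit 399) (nat_lit 299)) (XT.lf (nat_lit 0) (nat_lit 16416622474) (nat_lit 228) (nat_lit 3880552227) (nat_lit 76) (nat_lit 5091528283) (nat_lit 99) (nat_lit 5) (nat_lit 102) (nat_lit 5) (nat_lit 100) (nat_lit 4) (nat_lit 503) (nat_lit 399) (nat_lit 298))) (XT.nd (nat_lit 78) (nat_lit 228) (nat_lit 0) (XT.lf (nat_lit 0) (nat_lit 13017328828) (nat_lit 76) (nat_lit 11751775557) (nat_lit 152) (nat_lit 1111144594) (nat_lit 98) (nat_lit 5) (nat_lit 99) (nat_lit 5) (nat_lit 100) (nat_lit 4) (nat_lit 504) (nat_lit 399) (nat_lit 297)) (XT.lf (nat_lit 0) (nat_lit 4082931162) (nat_lit 152) (nat_lit 2821086446) (nat_lit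 228) (nat_lit 19478868054) (nat_lit 95) (nat_lit 5) (nat_lit 97) (nat_lit 5) (nat_lit 98) (nat_lit 5) (nat_lit 505) (nat_lit 399) (nat_lit 296)))) (XT.nd (nat_lit 156) (nat_lit 228) (nat_lit 0) (XT.nd (nat_lit 78) (nat_lit 76) (nat_lit 0) (XT.lf (nat_lit 0) (nat_lit 15305738557) (nat_lit 228) (nat_lit 5215057935) (nat_lit 76) (nat_lit 6374421995) (nat_lit 95) (nat_lit 5) (nat_lit 98) (nat_lit 5) (nat_lit 96) (nat_lit 4) (nat_lit 506) (nat_lit 399) (nat_lit 295)) (XT.lf (nat_lit 0) (nat_lit 12555182522) (nat_lit 76) (nat_lit 11529604386) (nat_lit 152) (nat_lit 3334376297) (nat_lit 94) (nat_lit 5) (nat_lit 95) (nat_lit 5) (nat_lit 96) (nat_lit 4) (nat_lit 507) (nat_lit 399) (nat_lit 294))) (XT.nd (nat_lit 78) (nat_lit 0) (nat_lit 0) (XT.lf (nat_lit 0) (nat_lit 2971673929) (nat_lit 152) (nat_lit 2154287555) (nat_lit 228) (nat_lit 22829621461) (nat_lit 91) (nat_lit 5) (nat_lit 93) (nat_lit 5) (nat_lit 94) (nat_lit 5)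 (nat_lit 508) (nat_lit 399) (nat_lit 293)) (XT.lf (nat_lit 0) (nat_lit 13973534830) (nat_lit 228) (nat_lit 7007469485) (nat_lit 76) (nat_lit 7520087428) (nat_lit 91) (nat_lit 5) (nat_lit 94) (nat_lit 5) (nat_lit 92) (nat_lit 4) (nat_lit 509) (nat_lit 399) (nat_lit 292))))))) (XT.nd (nat_lit 1248) (nat_lit 1140) (nat_lit 0) (XT.nd (nat_lit 624) (nat_lit 684) (nat_lit 0) (XT.nd (nat_lit 312) (nat_lit 304) (nat_lit 0) (XT.nd (nat_lit 156) (nat_lit 76) (nat_lit 0) (XT.nd (nat_lit 78) (nat_lit 228) (nat_lit 0) (XT.lf (nat_lit 0) (nat_lit 11671625013) (nat_lit 76) (nat_lit 11525855454) (nat_lit 152) (nat_lit 5862157147) (nat_lit 90) (nat_lit 5) (nat_lit 91) (nat_lit 5) (nat_lit 92) (nat_lit 4) (nat_lit 510) (nat_lit 399) (nat_lit 291)) (XT.lf (nat_lit 0) (nat_lit 1375526169) (nat_lit 152) (nat_lit 1690036201) (nat_lit 228) (nat_lit 26566630324) (nat_lit 87) (nat_lit 5) (nat_lit 89) (nat_lit 5) (nat_lit 90) (nat_lit 5)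 (nat_lit 511) (nat_lit 399) (nat_lit 290))) (XT.nd (nat_lit 78) (nat_lit 76) (nat_lit 0) (XT.lf (nat_lit 0) (nat_lit 12379250093) (nat_lit 228) (nat_lit 9342308897) (nat_lit 76) (nat_lit 8491545544) (nat_lit 87) (nat_lit 5) (nat_lit 90) (nat_lit 5) (nat_lit 88) (nat_lit 4) (nat_lit 512) (nat_lit 399) (nat_lit 289)) (XT.lf (nat_lit 0) (nat_lit 10281489871) (nat_lit 76) (nat_lit 11784577160) (nat_lit 152) (nat_lit 8742565285) (nat_lit 86) (nat_lit 5) (nat_lit 87) (nat_lit 5) (nat_lit 88) (nat_lit 4) (nat_lit 513) (nat_lit 399) (nat_lit 288)))) (XT.nd (nat_lit 156) (nat_lit 76) (nat_lit 0) (XT.nd (nat_lit 78) (nat_lit 152) (nat_lit 0) (XT.lf (nat_lit 0) (nat_lit 682785743) (nat_lit 152) (nat_lit 782502181) (nat_lit 76) (nat_lit 29954355424) (nat_lit 85) (nat_lit 5) (nat_lit 87) (nat_lit 5) (nat_lit 86) (nat_lit 5) (nat_lit 514) (nat_lit 399) (nat_lit 287)) (XT.lf (nat_lit 0) (nat_lit 10475097439) (nat_lit 228) (nat_lit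 12318082474) (nat_lit 76) (nat_lit 9245410614) (nat_lit 83) (nat_lit 5) (nat_lit 86) (nat_lit 5) (nat_lit 84) (nat_lit 4) (nat_lit 515) (nat_lit 399) (nat_lit 286))) (XT.nd (nat_lit 78) (nat_lit 0) (nat_lit 0) (XT.lf (nat_lit 0) (nat_lit 8285134105) (nat_lit 76) (nat_lit 12357030651) (nat_lit 152) (nat_lit 12031511905) (nat_lit 82) (nat_lit 5) (nat_lit 83) (nat_lit 5) (nat_lit 84) (nat_lit 4) (nat_lit 516) (nat_lit 399) (nat_lit 285)) (XT.lf (nat_lit 0) (nat_lit 29718622417) (nat_lit 76) (nat_lit 1499094989) (nat_lit 152) (nat_lit 2106993898) (nat_lit 82) (nat_lit 5) (nat_lit 83) (nat_lit 5) (nat_lit 84) (nat_lit 4) (nat_lit 517) (nat_lit 399) (nat_lit 284))))) (XT.nd (nat_lit 312) (nat_lit 228) (nat_lit 0) (XT.nd (nat_lit 156) (nat_lit 152) (nat_lit 0) (XT.nd (nat_lit 78) (nat_lit 76) (nat_lit 0) (XT.lf (nat_lit 0) (nat_lit 8205149702) (nat_lit 228) (nat_lit 16049576649) (nat_lit 76) (nat_lit 9730763049) (nat_lit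 79) (nat_lit 5) (nat_lit 82) (nat_lit 5) (nat_lit 80) (nat_lit 4) (nat_lit 518) (nat_lit 399) (nat_lit 283)) (XT.lf (nat_lit 0) (nat_lit 5566040368) (nat_lit 76) (nat_lit 13302922351) (nat_lit 152) (nat_lit 15793962784) (nat_lit 78) (nat_lit 5) (nat_lit 79) (nat_lit 5) (nat_lit 80) (nat_lit 4) (nat_lit 519) (nat_lit 399) (nat_lit 282))) (XT.nd (nat_lit 78) (nat_lit 152) (nat_lit 0) (XT.lf (nat_lit 0) (nat_lit 28119908717) (nat_lit 76) (nat_lit 1874601759) (nat_lit 152) (nat_lit 5361919714) (nat_lit 78) (nat_lit 5) (nat_lit 79) (nat_lit 5) (nat_lit 80) (nat_lit 4) (nat_lit 520) (nat_lit 399) (nat_lit 281)) (XT.lf (nat_lit 0) (nat_lit 5504043107) (nat_lit 152) (nat_lit 20670519116) (nat_lit 76) (nat_lit 9887845477) (nat_lit 76) (nat_lit 5) (nat_lit 78) (nat_lit 5) (nat_lit 77) (nat_lit 4) (nat_lit 521) (nat_lit 399) (nat_lit 280)))) (XT.nd (nat_lit 156) (nat_lit 152) (nat_lit 0) (XT.nd (nat_lit 78) (nat_lit 0) (nat_lit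 0) (XT.lf (nat_lit 0) (nat_lit 1988036193) (nat_lit 76) (nat_lit 14691829004) (nat_lit 152) (nat_lit 20105357301) (nat_lit 75) (nat_lit 5) (nat_lit 76) (nat_lit 5) (nat_lit 77) (nat_lit 4) (nat_lit 522) (nat_lit 399) (nat_lit 279)) (XT.lf (nat_lit 0) (nat_lit 25711945489) (nat_lit 76) (nat_lit 2668139760) (nat_lit 152) (nat_lit 9143962890) (nat_lit 75) (nat_lit 5) (nat_lit 76) (nat_lit 5) (nat_lit 77) (nat_lit 4) (nat_lit 523) (nat_lit 399) (nat_lit 278))) (XT.nd (nat_lit 78) (nat_lit 0) (nat_lit 0) (XT.lf (nat_lit 0) (nat_lit 2295470414) (nat_lit 152) (nat_lit 26336663911) (nat_lit 76) (nat_lit 9646553020) (nat_lit 73) (nat_lit 5) (nat_lit 75) (nat_lit 5) (nat_lit 74) (nat_lit 4) (nat_lit 524) (nat_lit 399) (nat_lit 277)) (XT.lf (nat_lit 0) (nat_lit 14021984372) (nat_lit 152) (nat_lit 2557041210) (nat_lit 76) (nat_lit 22470393739) (nat_lit 73) (nat_lit 5) (nat_lit 75) (nat_lit 5) (nat_lit 74) (nat_lit 4) (nat_lit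 525) (nat_lit 399) (nat_lit 276)))))) (XT.nd (nat_lit 624) (nat_lit 608) (nat_lit 0) (XT.nd (nat_lit 312) (nat_lit 228) (nat_lit 0) (XT.nd (nat_lit 156) (nat_lit 152) (nat_lit 0) (XT.nd (nat_lit 78) (nat_lit 76) (nat_lit 0) (XT.lf (nat_lit 0) (nat_lit 22335474774) (nat_lit 76) (nat_lit 3960885271) (nat_lit 152) (nat_lit 13541031309) (nat_lit 72) (nat_lit 5) (nat_lit 73) (nat_lit 5) (nat_lit 74) (nat_lit 4) (nat_lit 526) (nat_lit 399) (nat_lit 275)) (XT.lf (nat_lit 0) (nat_lit 7399870733) (nat_lit 76) (nat_lit 31704555006) (nat_lit 76) (nat_lit 1539613131) (nat_lit 71) (nat_lit 4) (nat_lit 72) (nat_lit 5) (nat_lit 72) (nat_lit 4) (nat_lit 527) (nat_lit 399) (nat_lit 274))) (XT.nd (nat_lit 78) (nat_lit 76) (nat_lit 0) (XT.lf (nat_lit 0) (nat_lit 10809781643) (nat_lit 152) (nat_lit 8243475573) (nat_lit 76) (nat_lit 22412534670) (nat_lit 70) (nat_lit 5) (nat_lit 72) (nat_lit 5) (nat_lit 71) (nat_lit 4) (nat_lit 528)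 (nat_lit 399) (nat_lit 273)) (XT.lf (nat_lit 0) (nat_lit 17804092893) (nat_lit 76) (nat_lit 5847711781) (nat_lit 152) (nat_lit 18655342853) (nat_lit 69) (nat_lit 5) (nat_lit 70) (nat_lit 5) (nat_lit 71) (nat_lit 4) (nat_lit 529) (nat_lit 399) (nat_lit 272)))) (XT.nd (nat_lit 156) (nat_lit 76) (nat_lit 0) (XT.nd (nat_lit 78) (nat_lit 76) (nat_lit 0) (XT.lf (nat_lit 0) (nat_lit 1550369634) (nat_lit 76) (nat_lit 35484197544) (nat_lit 76) (nat_lit 6134512370) (nat_lit 68) (nat_lit 4) (nat_lit 69) (nat_lit 5) (nat_lit 69) (nat_lit 4) (nat_lit 530) (nat_lit 399) (nat_lit 271)) (XT.lf (nat_lit 0) (nat_lit 6919758219) (nat_lit 152) (nat_lit 15322469599) (nat_lit 76) (nat_lit 21803998832) (nat_lit 67) (nat_lit 5) (nat_lit 69) (nat_lit 5) (nat_lit 68) (nat_lit 4) (nat_lit 531) (nat_lit 399) (nat_lit 270))) (XT.nd (nat_lit 78) (nat_lit 0) (nat_lit 0) (XT.lf (nat_lit 0) (nat_lit 11899797624) (nat_lit 76) (nat_lit 8439458826)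 (nat_lit 152) (nat_lit 24605702738) (nat_lit 66) (nat_lit 5) (nat_lit 67) (nat_lit 5) (nat_lit 68) (nat_lit 4) (nat_lit 532) (nat_lit 399) (nat_lit 269)) (XT.lf (nat_lit 0) (nat_lit 34355665614) (nat_lit 152) (nat_lit 5704604032) (nat_lit 0) (nat_lit 5804554344) (nat_lit 66) (nat_lit 5) (nat_lit 68) (nat_lit 4) (nat_lit 66) (nat_lit 4) (nat_lit 533) (nat_lit 399) (nat_lit 268))))) (XT.nd (nat_lit 312) (nat_lit 304) (nat_lit 0) (XT.nd (nat_lit 156) (nat_lit 76) (nat_lit 0) (XT.nd (nat_lit 78) (nat_lit 76) (nat_lit 0) (XT.lf (nat_lit 0) (nat_lit 2230079084) (nat_lit 152) (nat_lit 24041725944) (nat_lit 76) (nat_lit 20531255522) (nat_lit 64) (nat_lit 5) (nat_lit 66) (nat_lit 5) (nat_lit 65) (nat_lit 4) (nat_lit 534) (nat_lit 399) (nat_lit 267)) (XT.lf (nat_lit 0) (nat_lit 4367820991) (nat_lit 76) (nat_lit 11865562201) (nat_lit 152) (nat_lit 31530146148) (nat_lit 63) (nat_lit 5) (nat_lit 64) (nat_lit 5) (nat_lit 65)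 (nat_lit 4) (nat_lit 535) (nat_lit 399) (nat_lit 266))) (XT.nd (nat_lit 78) (nat_lit 76) (nat_lit 0) (XT.lf (nat_lit 0) (nat_lit 30913611626) (nat_lit 152) (nat_lit 14687406069) (nat_lit 0) (nat_lit 3144089803) (nat_lit 63) (nat_lit 5) (nat_lit 65) (nat_lit 4) (nat_lit 63) (nat_lit 4) (nat_lit 536) (nat_lit 399) (nat_lit 265)) (XT.lf (nat_lit 0) (nat_lit 15025455000) (nat_lit 76) (nat_lit 31254269871) (nat_lit 76) (nat_lit 3469043848) (nat_lit 62) (nat_lit 4) (nat_lit 63) (nat_lit 5) (nat_lit 63) (nat_lit 4) (nat_lit 537) (nat_lit 399) (nat_lit 264)))) (XT.nd (nat_lit 156) (nat_lit 152) (nat_lit 0) (XT.nd (nat_lit 78) (nat_lit 76) (nat_lit 0) (XT.lf (nat_lit 0) (nat_lit 11236659088) (nat_lit 152) (nat_lit 4990054870) (nat_lit 76) (nat_lit 34548559549) (nat_lit 61) (nat_lit 5) (nat_lit 63) (nat_lit 5) (nat_lit 62) (nat_lit 4) (nat_lit 538) (nat_lit 399) (nat_lit 263)) (XT.lf (nat_lit 0) (nat_lit 26078260361) (nat_lit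 76) (nat_lit 470279489) (nat_lit 152) (nat_lit 25275961301) (nat_lit 60) (nat_lit 5) (nat_lit 61) (nat_lit 5) (nat_lit 62) (nat_lit 4) (nat_lit 539) (nat_lit 399) (nat_lit 262))) (XT.nd (nat_lit 78) (nat_lit 76) (nat_lit 0) (XT.lf (nat_lit 0) (nat_lit 5195122983) (nat_lit 76) (nat_lit 37361033088) (nat_lit 76) (nat_lit 10341958231) (nat_lit 59) (nat_lit 4) (nat_lit 60) (nat_lit 5) (nat_lit 60) (nat_lit 4) (nat_lit 540) (nat_lit 399) (nat_lit 261)) (XT.lf (nat_lit 0) (nat_lit 5193008106) (nat_lit 152) (nat_lit 16490814983) (nat_lit 76) (nat_lit 32311120573) (nat_lit 58) (nat_lit 5) (nat_lit 60) (nat_lit 5) (nat_lit 59) (nat_lit 4) (nat_lit 541) (nat_lit 399) (nat_lit 260))))))))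
noncomputable def xc94 : XT := (XT.nd (nat_lit 52884) (nat_lit 0) (nat_lit 12692) (XT.nd (nat_lit 51636) (nat_lit 0) (nat_lit 27360) (XT.nd (nat_lit 546) (nat_lit 304) (nat_lit 0) (XT.nd (nat_lit 234) (nat_lit 304) (nat_lit 0) (XT.nd (nat_lit 78) (nat_lit 76) (nat_lit 0) (XT.lf (nat_lit 0) (nat_lit 15833720882) (nat_lit 76) (nat_lit 5289182734) (nat_lit 152) (nat_lit 33994600164) (nat_lit 57) (nat_lit 5) (nat_lit 58) (nat_lit 5) (nat_lit 59) (nat_lit 4) (nat_lit 542) (nat_lit 399) (nat_lit 259)) (XT.nd (nat_lit 78) (nat_lit 76) (nat_lit 0) (XT.lf (nat_lit 0) (nat_lit 37794905029) (nat_lit 152) (nat_lit 6946433945) (nat_lit 0) (nat_lit 11524475503) (nat_lit 57) (nat_lit 5) (nat_lit 59) (nat_lit 4) (nat_lit 57) (nat_lit 4) (nat_lit 543) (nat_lit 399) (nat_lit 258)) (XT.lf (nat_lit 0) (nat_lit 26801963101) (nat_lit 76) (nat_lit 28460113314) (nat_lit 76) (nat_lit 2177647826) (nat_lit 56) (nat_lit 4) (nat_lit 57) (nat_lit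 5) (nat_lit 57) (nat_lit 4) (nat_lit 544) (nat_lit 399) (nat_lit 257)))) (XT.nd (nat_lit 156) (nat_lit 152) (nat_lit 0) (XT.nd (nat_lit 78) (nat_lit 0) (nat_lit 0) (XT.lf (nat_lit 0) (nat_lit 2945135199) (nat_lit 76) (nat_lit 11458454006) (nat_lit 152) (nat_lit 44238525672) (nat_lit 54) (nat_lit 5) (nat_lit 55) (nat_lit 5) (nat_lit 56) (nat_lit 4) (nat_lit 545) (nat_lit 399) (nat_lit 256)) (XT.lf (nat_lit 0) (nat_lit 31794152275) (nat_lit 152) (nat_lit 21820272615) (nat_lit 0) (nat_lit 6254835831) (nat_lit 54) (nat_lit 5) (nat_lit 56) (nat_lit 4) (nat_lit 54) (nat_lit 4) (nat_lit 546) (nat_lit 399) (nat_lit 255))) (XT.nd (nat_lit 78) (nat_lit 76) (nat_lit 0) (XT.lf (nat_lit 0) (nat_lit 13187764584) (nat_lit 76) (nat_lit 36744348110) (nat_lit 76) (nat_lit 11194337870) (nat_lit 53) (nat_lit 4) (nat_lit 54) (nat_lit 5) (nat_lit 54) (nat_lit 4) (nat_lit 547) (nat_lit 399) (nat_lit 254)) (XT.lf (nat_lit 0) (nat_lit 6280002253)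 (nat_lit 152) (nat_lit 12811987993) (nat_lit 76) (nat_lit 43321340270) (nat_lit 52) (nat_lit 5) (nat_lit 54) (nat_lit 5) (nat_lit 53) (nat_lit 4) (nat_lit 548) (nat_lit 399) (nat_lit 253))))) (XT.nd (nat_lit 312) (nat_lit 0) (nat_lit 0) (XT.nd (nat_lit 156) (nat_lit 228) (nat_lit 0) (XT.nd (nat_lit 78) (nat_lit 0) (nat_lit 0) (XT.lf (nat_lit 0) (nat_lit 23691964160) (nat_lit 76) (nat_lit 575246014) (nat_lit 152) (nat_lit 39461872694) (nat_lit 51) (nat_lit 5) (nat_lit 52) (nat_lit 5) (nat_lit 53) (nat_lit 4) (nat_lit 549) (nat_lit 399) (nat_lit 252)) (XT.lf (nat_lit 0) (nat_lit 43088398407) (nat_lit 152) (nat_lit 3733882843) (nat_lit 0) (nat_lit 18253195655) (nat_lit 51) (nat_lit 5) (nat_lit 53) (nat_lit 4) (nat_lit 51) (nat_lit 4) (nat_lit 550) (nat_lit 399) (nat_lit 251))) (XT.nd (nat_lit 78) (nat_lit 152) (nat_lit 0) (XT.lf (nat_lit 0) (nat_lit 34294746321) (nat_lit 76) (nat_lit 28501146832) (nat_lit 76) (nat_lit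 3656719517) (nat_lit 50) (nat_lit 4) (nat_lit 51) (nat_lit 5) (nat_lit 51) (nat_lit 4) (nat_lit 551) (nat_lit 399) (nat_lit 250)) (XT.lf (nat_lit 0) (nat_lit 5606303996) (nat_lit 76) (nat_lit 9398468022) (nat_lit 152) (nat_lit 52859551738) (nat_lit 48) (nat_lit 5) (nat_lit 49) (nat_lit 5) (nat_lit 50) (nat_lit 4) (nat_lit 552) (nat_lit 399) (nat_lit 249)))) (XT.nd (nat_lit 50622) (nat_lit 0) (nat_lit 31996) (XT.nd (nat_lit 50544) (nat_lit 0) (nat_lit 32148) (XT.lf (nat_lit 0) (nat_lit 34565679008) (nat_lit 152) (nat_lit 24311490055) (nat_lit 0) (nat_lit 10427738973) (nat_lit 48) (nat_lit 5) (nat_lit 50) (nat_lit 4) (nat_lit 48) (nat_lit 4) (nat_lit 553) (nat_lit 399) (nat_lit 248)) (XT.lf (nat_lit 0) (nat_lit 1073741823) (nat_lit 0) (nat_lit 0) (nat_lit 0) (nat_lit 0) (nat_lit 471) (nat_lit 0) (nat_lit 1) (nat_lit 0) (nat_lit 1) (nat_lit 0) (nat_lit 400) (nat_lit 400) (nat_lit 400))) (XT.nd (nat_lit 78) (nat_lit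 76) (nat_lit 0) (XT.lf (nat_lit 0) (nat_lit 3180690298) (nat_lit 76) (nat_lit 3200023281) (nat_lit 0) (nat_lit 62669138) (nat_lit 470) (nat_lit 5) (nat_lit 471) (nat_lit 0) (nat_lit 470) (nat_lit 4) (nat_lit 401) (nat_lit 400) (nat_lit 399)) (XT.lf (nat_lit 0) (nat_lit 74750236) (nat_lit 76) (nat_lit 6259256653) (nat_lit 76) (nat_lit 114030482) (nat_lit 469) (nat_lit 4) (nat_lit 470) (nat_lit 5) (nat_lit 470) (nat_lit 4) (nat_lit 402) (nat_lit 400) (nat_lit 398)))))) (XT.nd (nat_lit 624) (nat_lit 3268) (nat_lit 0) (XT.nd (nat_lit 312) (nat_lit 836) (nat_lit 0) (XT.nd (nat_lit 156) (nat_lit 304) (nat_lit 0) (XT.nd (nat_lit 78) (nat_lit 152) (nat_lit 0) (XT.lf (nat_lit 0) (nat_lit 2978913891) (nat_lit 152) (nat_lit 3037064962) (nat_lit 76) (nat_lit 438634436) (nat_lit 468) (nat_lit 5) (nat_lit 470) (nat_lit 5) (nat_lit 469) (nat_lit 4) (nat_lit 403) (nat_lit 400) (nat_lit 397)) (XT.lf (nat_lit 0) (nat_lit 338538112)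 (nat_lit 152) (nat_lit 5708865500) (nat_lit 228) (nat_lit 417407687) (nat_lit 466) (nat_lit 5) (nat_lit 468) (nat_lit 5) (nat_lit 469) (nat_lit 4) (nat_lit 404) (nat_lit 400) (nat_lit 396))) (XT.nd (nat_lit 78) (nat_lit 228) (nat_lit 0) (XT.lf (nat_lit 0) (nat_lit 2593736751) (nat_lit 228) (nat_lit 2691163482) (nat_lit 76) (nat_lit 1192203729) (nat_lit 465) (nat_lit 5) (nat_lit 468) (nat_lit 5) (nat_lit 466) (nat_lit 5) (nat_lit 405) (nat_lit 400) (nat_lit 395)) (XT.lf (nat_lit 0) (nat_lit 792443757) (nat_lit 228) (nat_lit 4788849678) (nat_lit 304) (nat_lit 911523260) (nat_lit 462) (nat_lit 5) (nat_lit 465) (nat_lit 5) (nat_lit 466) (nat_lit 5) (nat_lit 406) (nat_lit 400) (nat_lit 394)))) (XT.nd (nat_lit 156) (nat_lit 456) (nat_lit 0) (XT.nd (nat_lit 78) (nat_lit 304) (nat_lit 0) (XT.lf (nat_lit 0) (nat_lit 2023392248) (nat_lit 304) (nat_lit 2160861257) (nat_lit 76) (nat_lit 2326660391) (nat_lit 461) (nat_lit 5)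 (nat_lit 465) (nat_lit 5) (nat_lit 462) (nat_lit 5) (nat_lit 407) (nat_lit 400) (nat_lit 393)) (XT.lf (nat_lit 0) (nat_lit 1438373792) (nat_lit 304) (nat_lit 3495152988) (nat_lit 380) (nat_lit 1598600218) (nat_lit 457) (nat_lit 5) (nat_lit 461) (nat_lit 5) (nat_lit 462) (nat_lit 5) (nat_lit 408) (nat_lit 400) (nat_lit 392))) (XT.nd (nat_lit 78) (nat_lit 380) (nat_lit 0) (XT.lf (nat_lit 0) (nat_lit 1265297317) (nat_lit 380) (nat_lit 1443890301) (nat_lit 76) (nat_lit 3846944444) (nat_lit 456) (nat_lit 5) (nat_lit 461) (nat_lit 5) (nat_lit 457) (nat_lit 5) (nat_lit 409) (nat_lit 400) (nat_lit 391)) (XT.lf (nat_lit 0) (nat_lit 2279067617) (nat_lit 380) (nat_lit 1822076013) (nat_lit 456) (nat_lit 2481701733) (nat_lit 451) (nat_lit 5) (nat_lit 456) (nat_lit 5) (nat_lit 457) (nat_lit 5) (nat_lit 410) (nat_lit 400) (nat_lit 390))))) (XT.nd (nat_lit 312) (nat_lit 2128) (nat_lit 0) (XT.nd (nat_lit 156) (nat_lit 608) (nat_lit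 0) (XT.nd (nat_lit 78) (nat_lit 456) (nat_lit 0) (XT.lf (nat_lit 0) (nat_lit 316042360) (nat_lit 456) (nat_lit 537164605) (nat_lit 76) (nat_lit 5759670577) (nat_lit 450) (nat_lit 5) (nat_lit 456) (nat_lit 5) (nat_lit 451) (nat_lit 5) (nat_lit 411) (nat_lit 400) (nat_lit 389)) (XT.lf (nat_lit 0) (nat_lit 3082647351) (nat_lit 532) (nat_lit 3329283616) (nat_lit 76) (nat_lit 233105453) (nat_lit 444) (nat_lit 5) (nat_lit 451) (nat_lit 5) (nat_lit 445) (nat_lit 5) (nat_lit 412) (nat_lit 400) (nat_lit 388))) (XT.nd (nat_lit 78) (nat_lit 76) (nat_lit 0) (XT.lf (nat_lit 0) (nat_lit 552426778) (nat_lit 532) (nat_lit 5302286355) (nat_lit 608) (nat_lit 825779964) (nat_lit 437) (nat_lit 5) (nat_lit 444) (nat_lit 5) (nat_lit 445) (nat_lit 5) (nat_lit 413) (nat_lit 400) (nat_lit 387)) (XT.lf (nat_lit 0) (nat_lit 1892453671) (nat_lit 608) (nat_lit 2185032782) (nat_lit 76) (nat_lit 2640806359) (nat_lit 436) (nat_lit 5) (nat_lit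 444) (nat_lit 5) (nat_lit 437) (nat_lit 5) (nat_lit 414) (nat_lit 400) (nat_lit 386)))) (XT.nd (nat_lit 156) (nat_lit 1444) (nat_lit 0) (XT.nd (nat_lit 78) (nat_lit 76) (nat_lit 0) (XT.lf (nat_lit 0) (nat_lit 1837591897) (nat_lit 608) (nat_lit 2762955088) (nat_lit 684) (nat_lit 2158693279) (nat_lit 428) (nat_lit 5) (nat_lit 436) (nat_lit 5) (nat_lit 437) (nat_lit 5) (nat_lit 415) (nat_lit 400) (nat_lit 385)) (XT.lf (nat_lit 0) (nat_lit 507678666) (nat_lit 684) (nat_lit 848502829) (nat_lit 76) (nat_lit 5447150063) (nat_lit 427) (nat_lit 5) (nat_lit 436) (nat_lit 5) (nat_lit 428) (nat_lit 5) (nat_lit 416) (nat_lit 400) (nat_lit 384))) (XT.nd (nat_lit 78) (nat_lit 760) (nat_lit 0) (XT.lf (nat_lit 0) (nat_lit 3155337429) (nat_lit 760) (nat_lit 3526713645) (nat_lit 76) (nat_lit 167718612) (nat_lit 418) (nat_lit 5) (nat_lit 428) (nat_lit 5) (nat_lit 419) (nat_lit 5) (nat_lit 417) (nat_lit 400) (nat_lit 383)) (XT.lf (nat_lit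 0) (nat_lit 671629996) (nat_lit 760) (nat_lit 5152589217) (nat_lit 836) (nat_lit 1075133570) (nat_lit 408) (nat_lit 5) (nat_lit 418) (nat_lit 5) (nat_lit 419) (nat_lit 5) (nat_lit 418) (nat_lit 400) (nat_lit 382))))))) (XT.nd (nat_lit 1248) (nat_lit 5472) (nat_lit 0) (XT.nd (nat_lit 624) (nat_lit 4028) (nat_lit 0) (XT.nd (nat_lit 312) (nat_lit 3268) (nat_lit 0) (XT.nd (nat_lit 156) (nat_lit 988) (nat_lit 0) (XT.nd (nat_lit 78) (nat_lit 836) (nat_lit 0) (XT.lf (nat_lit 0) (nat_lit 1541336377) (nat_lit 836) (nat_lit 1965909660) (nat_lit 76) (nat_lit 3444206933) (nat_lit 407) (nat_lit 5) (nat_lit 418) (nat_lit 5) (nat_lit 408) (nat_lit 5) (nat_lit 419) (nat_lit 400) (nat_lit 381)) (XT.lf (nat_lit 0) (nat_lit 2392991990) (nat_lit 836) (nat_lit 1761490941) (nat_lit 912) (nat_lit 2852125283) (nat_lit 396) (nat_lit 5) (nat_lit 407) (nat_lit 5) (nat_lit 408) (nat_lit 5) (nat_lit 420) (nat_lit 400) (nat_lit 380))) (XT.nd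 (nat_lit 78) (nat_lit 988) (nat_lit 0) (XT.lf (nat_lit 0) (nat_lit 6785147513) (nat_lit 912) (nat_lit 209167593) (nat_lit 76) (nat_lit 70934291) (nat_lit 396) (nat_lit 5) (nat_lit 408) (nat_lit 5) (nat_lit 397) (nat_lit 5) (nat_lit 421) (nat_lit 400) (nat_lit 379)) (XT.lf (nat_lit 0) (nat_lit 2302782474) (nat_lit 988) (nat_lit 2821158249) (nat_lit 76) (nat_lit 2001632724) (nat_lit 383) (nat_lit 5) (nat_lit 396) (nat_lit 5) (nat_lit 384) (nat_lit 5) (nat_lit 422) (nat_lit 400) (nat_lit 378)))) (XT.nd (nat_lit 156) (nat_lit 2204) (nat_lit 0) (XT.nd (nat_lit 78) (nat_lit 76) (nat_lit 0) (XT.lf (nat_lit 0) (nat_lit 1733424093) (nat_lit 988) (nat_lit 3164879208) (nat_lit 1064) (nat_lit 2291101898) (nat_lit 370) (nat_lit 5) (nat_lit 383) (nat_lit 5) (nat_lit 384) (nat_lit 5) (nat_lit 423) (nat_lit 400) (nat_lit 377)) (XT.lf (nat_lit 0) (nat_lit 261982833) (nat_lit 1064) (nat_lit 843680013) (nat_lit 76) (nat_lit 6150853429)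 (nat_lit 369) (nat_lit 5) (nat_lit 383) (nat_lit 5) (nat_lit 370) (nat_lit 5) (nat_lit 424) (nat_lit 400) (nat_lit 376))) (XT.nd (nat_lit 78) (nat_lit 1140) (nat_lit 0) (XT.lf (nat_lit 0) (nat_lit 2818574488) (nat_lit 1140) (nat_lit 3442773767) (nat_lit 76) (nat_lit 1064427189) (nat_lit 355) (nat_lit 5) (nat_lit 370) (nat_lit 5) (nat_lit 356) (nat_lit 5) (nat_lit 425) (nat_lit 400) (nat_lit 375)) (XT.lf (nat_lit 0) (nat_lit 1318457119) (nat_lit 1140) (nat_lit 4092350271) (nat_lit 1216) (nat_lit 1987540754) (nat_lit 340) (nat_lit 5) (nat_lit 355) (nat_lit 5) (nat_lit 356) (nat_lit 5) (nat_lit 426) (nat_lit 400) (nat_lit 374))))) (XT.nd (nat_lit 312) (nat_lit 1824) (nat_lit 0) (XT.nd (nat_lit 156) (nat_lit 912) (nat_lit 0) (XT.nd (nat_lit 78) (nat_lit 1216) (nat_lit 0) (XT.lf (nat_lit 0) (nat_lit 558449704) (nat_lit 1216) (nat_lit 1254082067) (nat_lit 76) (nat_lit 5661516862) (nat_lit 339) (nat_lit 5) (nat_lit 355)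 (nat_lit 5) (nat_lit 340) (nat_lit 5) (nat_lit 427) (nat_lit 400) (nat_lit 373)) (XT.lf (nat_lit 0) (nat_lit 3111790775) (nat_lit 1292) (nat_lit 3856074741) (nat_lit 76) (nat_lit 584440422) (nat_lit 323) (nat_lit 5) (nat_lit 340) (nat_lit 5) (nat_lit 324) (nat_lit 5) (nat_lit 428) (nat_lit 400) (nat_lit 372))) (XT.nd (nat_lit 78) (nat_lit 76) (nat_lit 0) (XT.lf (nat_lit 0) (nat_lit 1123712087) (nat_lit 836) (nat_lit 4590597747) (nat_lit 912) (nat_lit 1919427403) (nat_lit 312) (nat_lit 5) (nat_lit 323) (nat_lit 5) (nat_lit 324) (nat_lit 5) (nat_lit 429) (nat_lit 400) (nat_lit 371)) (XT.lf (nat_lit 0) (nat_lit 635126770) (nat_lit 912) (nat_lit 1460467583) (nat_lit 76) (nat_lit 5622693702) (nat_lit 311) (nat_lit 5) (nat_lit 323) (nat_lit 5) (nat_lit 312) (nat_lit 5) (nat_lit 430) (nat_lit 400) (nat_lit 370)))) (XT.nd (nat_lit 156) (nat_lit 608) (nat_lit 0) (XT.nd (nat_lit 78) (nat_lit 608) (nat_lit 0) (XT.lf (nat_lit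 0) (nat_lit 3202376405) (nat_lit 684) (nat_lit 4083566917) (nat_lit 76) (nat_lit 519626127) (nat_lit 303) (nat_lit 5) (nat_lit 312) (nat_lit 5) (nat_lit 304) (nat_lit 5) (nat_lit 431) (nat_lit 400) (nat_lit 369)) (XT.lf (nat_lit 0) (nat_lit 1127630804) (nat_lit 608) (nat_lit 4700487882) (nat_lit 684) (nat_lit 2067909550) (nat_lit 295) (nat_lit 5) (nat_lit 303) (nat_lit 5) (nat_lit 304) (nat_lit 5) (nat_lit 432) (nat_lit 400) (nat_lit 368))) (XT.nd (nat_lit 78) (nat_lit 532) (nat_lit 0) (XT.lf (nat_lit 0) (nat_lit 510074330) (nat_lit 684) (nat_lit 1483673825) (nat_lit 76) (nat_lit 5995981552) (nat_lit 294) (nat_lit 5) (nat_lit 303) (nat_lit 5) (nat_lit 295) (nat_lit 5) (nat_lit 433) (nat_lit 400) (nat_lit 367)) (XT.lf (nat_lit 0) (nat_lit 3107445226) (nat_lit 608) (nat_lit 4145300413) (nat_lit 76) (nat_lit 833376975) (nat_lit 287) (nat_lit 5) (nat_lit 295) (nat_lit 5) (nat_lit 288) (nat_lit 5) (nat_lit 434) (nat_lit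 400) (nat_lit 366)))))) (XT.nd (nat_lit 624) (nat_lit 2736) (nat_lit 0) (XT.nd (nat_lit 312) (nat_lit 988) (nat_lit 0) (XT.nd (nat_lit 156) (nat_lit 1064) (nat_lit 0) (XT.nd (nat_lit 78) (nat_lit 76) (nat_lit 0) (XT.lf (nat_lit 0) (nat_lit 1311122994) (nat_lit 608) (nat_lit 4457702052) (nat_lit 684) (nat_lit 2417002477) (nat_lit 279) (nat_lit 5) (nat_lit 287) (nat_lit 5) (nat_lit 288) (nat_lit 5) (nat_lit 435) (nat_lit 400) (nat_lit 365)) (XT.lf (nat_lit 0) (nat_lit 198628399) (nat_lit 684) (nat_lit 1342226557) (nat_lit 76) (nat_lit 6748164572) (nat_lit 278) (nat_lit 5) (nat_lit 287) (nat_lit 5) (nat_lit 279) (nat_lit 5) (nat_lit 436) (nat_lit 400) (nat_lit 364))) (XT.nd (nat_lit 78) (nat_lit 532) (nat_lit 0) (XT.lf (nat_lit 0) (nat_lit 2841542255) (nat_lit 608) (nat_lit 4059195531) (nat_lit 76) (nat_lit 1493932391) (nat_lit 271) (nat_lit 5) (nat_lit 279) (nat_lit 5) (nat_lit 272) (nat_lit 5) (nat_lit 437) (nat_lit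 400) (nat_lit 363)) (XT.lf (nat_lit 0) (nat_lit 1657244294) (nat_lit 532) (nat_lit 3893310058) (nat_lit 608) (nat_lit 2953334198) (nat_lit 264) (nat_lit 5) (nat_lit 271) (nat_lit 5) (nat_lit 272) (nat_lit 5) (nat_lit 438) (nat_lit 400) (nat_lit 362)))) (XT.nd (nat_lit 156) (nat_lit 456) (nat_lit 0) (XT.nd (nat_lit 78) (nat_lit 532) (nat_lit 0) (XT.lf (nat_lit 0) (nat_lit 7561408189) (nat_lit 532) (nat_lit 763402212) (nat_lit 608) (nat_lit 292056324) (nat_lit 264) (nat_lit 5) (nat_lit 271) (nat_lit 5) (nat_lit 272) (nat_lit 5) (nat_lit 439) (nat_lit 400) (nat_lit 361)) (XT.lf (nat_lit 0) (nat_lit 2416869992) (nat_lit 532) (nat_lit 3841342188) (nat_lit 76) (nat_lit 2473850123) (nat_lit 257) (nat_lit 5) (nat_lit 264) (nat_lit 5) (nat_lit 258) (nat_lit 5) (nat_lit 440) (nat_lit 400) (nat_lit 360))) (XT.nd (nat_lit 78) (nat_lit 0) (nat_lit 0) (XT.lf (nat_lit 0) (nat_lit 2150900169) (nat_lit 456) (nat_lit 3034282599)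 (nat_lit 532) (nat_lit 3665926818) (nat_lit 251) (nat_lit 5) (nat_lit 257) (nat_lit 5) (nat_lit 258) (nat_lit 5) (nat_lit 441) (nat_lit 400) (nat_lit 359)) (XT.lf (nat_lit 0) (nat_lit 8024308103) (nat_lit 532) (nat_lit 641937472) (nat_lit 76) (nat_lit 307851999) (nat_lit 251) (nat_lit 5) (nat_lit 258) (nat_lit 5) (nat_lit 252) (nat_lit 5) (nat_lit 442) (nat_lit 400) (nat_lit 358))))) (XT.nd (nat_lit 312) (nat_lit 1292) (nat_lit 0) (XT.nd (nat_lit 156) (nat_lit 456) (nat_lit 0) (XT.nd (nat_lit 78) (nat_lit 456) (nat_lit 0) (XT.lf (nat_lit 0) (nat_lit 1843481729) (nat_lit 532) (nat_lit 3506277637) (nat_lit 76) (nat_lit 3749533793) (nat_lit 244) (nat_lit 5) (nat_lit 251) (nat_lit 5) (nat_lit 245) (nat_lit 5) (nat_lit 443) (nat_lit 400) (nat_lit 357)) (XT.lf (nat_lit 0) (nat_lit 2778571065) (nat_lit 456) (nat_lit 1903950484) (nat_lit 532) (nat_lit 4546011133) (nat_lit 238) (nat_lit 5) (nat_lit 244) (nat_lit 5) (nat_lit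 245) (nat_lit 5) (nat_lit 444) (nat_lit 400) (nat_lit 356))) (XT.nd (nat_lit 78) (nat_lit 456) (nat_lit 0) (XT.lf (nat_lit 0) (nat_lit 7606860309) (nat_lit 532) (nat_lit 119972257) (nat_lit 76) (nat_lit 1634814933) (nat_lit 238) (nat_lit 5) (nat_lit 245) (nat_lit 5) (nat_lit 239) (nat_lit 5) (nat_lit 445) (nat_lit 400) (nat_lit 355)) (XT.lf (nat_lit 0) (nat_lit 1129444429) (nat_lit 456) (nat_lit 3067246881) (nat_lit 76) (nat_lit 5300809357) (nat_lit 232) (nat_lit 5) (nat_lit 238) (nat_lit 5) (nat_lit 233) (nat_lit 5) (nat_lit 446) (nat_lit 400) (nat_lit 354)))) (XT.nd (nat_lit 156) (nat_lit 456) (nat_lit 0) (XT.nd (nat_lit 78) (nat_lit 380) (nat_lit 0) (XT.lf (nat_lit 0) (nat_lit 3528054375) (nat_lit 456) (nat_lit 522417472) (nat_lit 532) (nat_lit 5586871986) (nat_lit 226) (nat_lit 5) (nat_lit 232) (nat_lit 5) (nat_lit 233) (nat_lit 5) (nat_lit 447) (nat_lit 400) (nat_lit 353)) (XT.lf (nat_lit 0) (nat_lit 515914129)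 (nat_lit 380) (nat_lit 6561880689) (nat_lit 456) (nat_lit 2703029255) (nat_lit 221) (nat_lit 5) (nat_lit 226) (nat_lit 5) (nat_lit 227) (nat_lit 5) (nat_lit 448) (nat_lit 400) (nat_lit 352))) (XT.nd (nat_lit 78) (nat_lit 380) (nat_lit 0) (XT.lf (nat_lit 0) (nat_lit 280973307) (nat_lit 456) (nat_lit 2536450047) (nat_lit 76) (nat_lit 7110544068) (nat_lit 220) (nat_lit 5) (nat_lit 226) (nat_lit 5) (nat_lit 221) (nat_lit 5) (nat_lit 449) (nat_lit 400) (nat_lit 351)) (XT.lf (nat_lit 0) (nat_lit 3305659145) (nat_lit 456) (nat_lit 5701162534) (nat_lit 76) (nat_lit 1071737346) (nat_lit 215) (nat_lit 5) (nat_lit 221) (nat_lit 5) (nat_lit 216) (nat_lit 5) (nat_lit 450) (nat_lit 400) (nat_lit 350))))))))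
noncomputable def xc95 : XT := (XT.nd (nat_lit 2418) (nat_lit 3648) (nat_lit 0) (XT.nd (nat_lit 1170) (nat_lit 2660) (nat_lit 0) (XT.nd (nat_lit 546) (nat_lit 1596) (nat_lit 0) (XT.nd (nat_lit 234) (nat_lit 988) (nat_lit 0) (XT.nd (nat_lit 78) (nat_lit 456) (nat_lit 0) (XT.lf (nat_lit 0) (nat_lit 1248867694) (nat_lit 380) (nat_lit 5191379714) (nat_lit 456) (nat_lit 3792847645) (nat_lit 210) (nat_lit 5) (nat_lit 215) (nat_lit 5) (nat_lit 216) (nat_lit 5) (nat_lit 451) (nat_lit 400) (nat_lit 349)) (XT.nd (nat_lit 78) (nat_lit 456) (nat_lit 0) (XT.lf (nat_lit 0) (nat_lit 8459798852) (nat_lit 380) (nat_lit 1220777674) (nat_lit 456) (nat_lit 711341024) (nat_lit 210) (nat_lit 5) (nat_lit 215) (nat_lit 5) (nat_lit 216) (nat_lit 5) (nat_lit 452) (nat_lit 400) (nat_lit 348)) (XT.lf (nat_lit 0) (nat_lit 2449141794) (nat_lit 456) (nat_lit 5233978365) (nat_lit 76) (nat_lit 2870638241) (nat_lit 204) (nat_lit 5) (nat_lit 210)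 (nat_lit 5) (nat_lit 205) (nat_lit 5) (nat_lit 453) (nat_lit 400) (nat_lit 347)))) (XT.nd (nat_lit 156) (nat_lit 684) (nat_lit 0) (XT.nd (nat_lit 78) (nat_lit 0) (nat_lit 0) (XT.lf (nat_lit 0) (nat_lit 2065948964) (nat_lit 304) (nat_lit 3631395869) (nat_lit 380) (nat_lit 5022683622) (nat_lit 200) (nat_lit 5) (nat_lit 204) (nat_lit 5) (nat_lit 205) (nat_lit 5) (nat_lit 454) (nat_lit 400) (nat_lit 346)) (XT.lf (nat_lit 0) (nat_lit 9057628782) (nat_lit 380) (nat_lit 1267780774) (nat_lit 76) (nat_lit 565439333) (nat_lit 200) (nat_lit 5) (nat_lit 205) (nat_lit 5) (nat_lit 201) (nat_lit 5) (nat_lit 455) (nat_lit 400) (nat_lit 345))) (XT.nd (nat_lit 78) (nat_lit 304) (nat_lit 0) (XT.lf (nat_lit 0) (nat_lit 1478608682) (nat_lit 380) (nat_lit 4713920253) (nat_lit 76) (nat_lit 4872197129) (nat_lit 195) (nat_lit 5) (nat_lit 200) (nat_lit 5) (nat_lit 196) (nat_lit 5) (nat_lit 456) (nat_lit 400) (nat_lit 344)) (XT.lf (nat_lit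 0) (nat_lit 2957062367) (nat_lit 304) (nat_lit 1894797182) (nat_lit 380) (nat_lit 6391449301) (nat_lit 191) (nat_lit 5) (nat_lit 195) (nat_lit 5) (nat_lit 196) (nat_lit 5) (nat_lit 457) (nat_lit 400) (nat_lit 343))))) (XT.nd (nat_lit 312) (nat_lit 608) (nat_lit 0) (XT.nd (nat_lit 156) (nat_lit 608) (nat_lit 0) (XT.nd (nat_lit 78) (nat_lit 380) (nat_lit 0) (XT.lf (nat_lit 0) (nat_lit 8356718836) (nat_lit 380) (nat_lit 559133298) (nat_lit 76) (nat_lit 2510485831) (nat_lit 191) (nat_lit 5) (nat_lit 196) (nat_lit 5) (nat_lit 192) (nat_lit 5) (nat_lit 458) (nat_lit 400) (nat_lit 342)) (XT.lf (nat_lit 0) (nat_lit 395235702) (nat_lit 380) (nat_lit 4151999285) (nat_lit 76) (nat_lit 7066015526) (nat_lit 186) (nat_lit 5) (nat_lit 191) (nat_lit 5) (nat_lit 187) (nat_lit 5) (nat_lit 459) (nat_lit 400) (nat_lit 341))) (XT.nd (nat_lit 78) (nat_lit 304) (nat_lit 0) (XT.lf (nat_lit 0) (nat_lit 3905146872) (nat_lit 380) (nat_lit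 7892514215) (nat_lit 76) (nat_lit 7114445) (nat_lit 182) (nat_lit 5) (nat_lit 187) (nat_lit 5) (nat_lit 183) (nat_lit 5) (nat_lit 460) (nat_lit 400) (nat_lit 340)) (XT.lf (nat_lit 0) (nat_lit 199158861) (nat_lit 304) (nat_lit 7370294723) (nat_lit 380) (nat_lit 4431120815) (nat_lit 178) (nat_lit 5) (nat_lit 182) (nat_lit 5) (nat_lit 183) (nat_lit 5) (nat_lit 461) (nat_lit 400) (nat_lit 339)))) (XT.nd (nat_lit 156) (nat_lit 304) (nat_lit 0) (XT.nd (nat_lit 78) (nat_lit 304) (nat_lit 0) (XT.lf (nat_lit 0) (nat_lit 8633916038) (nat_lit 304) (nat_lit 2749871413) (nat_lit 380) (nat_lit 817257853) (nat_lit 178) (nat_lit 5) (nat_lit 182) (nat_lit 5) (nat_lit 183) (nat_lit 5) (nat_lit 462) (nat_lit 400) (nat_lit 338)) (XT.lf (nat_lit 0) (nat_lit 2876666897) (nat_lit 304) (nat_lit 7504424181) (nat_lit 76) (nat_lit 2024752468) (nat_lit 174) (nat_lit 5) (nat_lit 178) (nat_lit 5) (nat_lit 175) (nat_lit 5) (nat_lit 463) (nat_lit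 400) (nat_lit 337))) (XT.nd (nat_lit 78) (nat_lit 0) (nat_lit 0) (XT.lf (nat_lit 0) (nat_lit 1004582366) (nat_lit 304) (nat_lit 5695180845) (nat_lit 380) (nat_lit 5915737305) (nat_lit 170) (nat_lit 5) (nat_lit 174) (nat_lit 5) (nat_lit 175) (nat_lit 5) (nat_lit 464) (nat_lit 400) (nat_lit 336)) (XT.lf (nat_lit 0) (nat_lit 9862500504) (nat_lit 304) (nat_lit 812893209) (nat_lit 380) (nat_lit 2154919142) (nat_lit 170) (nat_lit 5) (nat_lit 174) (nat_lit 5) (nat_lit 175) (nat_lit 5) (nat_lit 465) (nat_lit 400) (nat_lit 335)))))) (XT.nd (nat_lit 624) (nat_lit 1064) (nat_lit 0) (XT.nd (nat_lit 312) (nat_lit 760) (nat_lit 0) (XT.nd (nat_lit 156) (nat_lit 304) (nat_lit 0) (XT.nd (nat_lit 78) (nat_lit 228) (nat_lit 0) (XT.lf (nat_lit 0) (nat_lit 1746472376) (nat_lit 304) (nat_lit 7116025461) (nat_lit 76) (nat_lit 4186738313) (nat_lit 166) (nat_lit 5) (nat_lit 170) (nat_lit 5) (nat_lit 167) (nat_lit 5) (nat_lit 466) (nat_lit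 400) (nat_lit 334)) (XT.lf (nat_lit 0) (nat_lit 1834908005) (nat_lit 228) (nat_lit 3905748662) (nat_lit 304) (nat_lit 7532859343) (nat_lit 163) (nat_lit 5) (nat_lit 166) (nat_lit 5) (nat_lit 167) (nat_lit 5) (nat_lit 467) (nat_lit 400) (nat_lit 333))) (XT.nd (nat_lit 78) (nat_lit 304) (nat_lit 0) (XT.lf (nat_lit 0) (nat_lit 9902170067) (nat_lit 304) (nat_lit 2374153977) (nat_lit 76) (nat_lit 1226775912) (nat_lit 163) (nat_lit 5) (nat_lit 167) (nat_lit 5) (nat_lit 164) (nat_lit 5) (nat_lit 468) (nat_lit 400) (nat_lit 332)) (XT.lf (nat_lit 0) (nat_lit 511341119) (nat_lit 304) (nat_lit 6740313168) (nat_lit 76) (nat_lit 6485654085) (nat_lit 159) (nat_lit 5) (nat_lit 163) (nat_lit 5) (nat_lit 160) (nat_lit 5) (nat_lit 469) (nat_lit 400) (nat_lit 331)))) (XT.nd (nat_lit 156) (nat_lit 532) (nat_lit 0) (XT.nd (nat_lit 78) (nat_lit 0) (nat_lit 0) (XT.lf (nat_lit 0) (nat_lit 2678318726) (nat_lit 228) (nat_lit 2010846300)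 (nat_lit 304) (nat_lit 9287872364) (nat_lit 156) (nat_lit 5) (nat_lit 159) (nat_lit 5) (nat_lit 160) (nat_lit 5) (nat_lit 470) (nat_lit 400) (nat_lit 330)) (XT.lf (nat_lit 0) (nat_lit 9058482942) (nat_lit 304) (nat_lit 1795908098) (nat_lit 76) (nat_lit 3367583172) (nat_lit 156) (nat_lit 5) (nat_lit 160) (nat_lit 5) (nat_lit 157) (nat_lit 5) (nat_lit 471) (nat_lit 400) (nat_lit 329))) (XT.nd (nat_lit 78) (nat_lit 304) (nat_lit 0) (XT.lf (nat_lit 0) (nat_lit 8072872783) (nat_lit 228) (nat_lit 5549403556) (nat_lit 304) (nat_lit 850081608) (nat_lit 153) (nat_lit 5) (nat_lit 156) (nat_lit 5) (nat_lit 157) (nat_lit 5) (nat_lit 472) (nat_lit 400) (nat_lit 328)) (XT.lf (nat_lit 0) (nat_lit 3521977240) (nat_lit 228) (nat_lit 18820954) (nat_lit 304) (nat_lit 11187874338) (nat_lit 149) (nat_lit 5) (nat_lit 152) (nat_lit 5) (nat_lit 153) (nat_lit 5) (nat_lit 473) (nat_lit 400) (nat_lit 327))))) (XT.nd (nat_lit 312) (nat_lit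 608) (nat_lit 0) (XT.nd (nat_lit 156) (nat_lit 304) (nat_lit 0) (XT.nd (nat_lit 78) (nat_lit 152) (nat_lit 0) (XT.lf (nat_lit 0) (nat_lit 8132393105) (nat_lit 304) (nat_lit 1239192328) (nat_lit 76) (nat_lit 5618257016) (nat_lit 149) (nat_lit 5) (nat_lit 153) (nat_lit 5) (nat_lit 150) (nat_lit 5) (nat_lit 474) (nat_lit 400) (nat_lit 326)) (XT.lf (nat_lit 0) (nat_lit 9150279697) (nat_lit 152) (nat_lit 3766819150) (nat_lit 228) (nat_lit 2340088339) (nat_lit 147) (nat_lit 5) (nat_lit 149) (nat_lit 5) (nat_lit 150) (nat_lit 5) (nat_lit 475) (nat_lit 400) (nat_lit 325))) (XT.nd (nat_lit 78) (nat_lit 0) (nat_lit 0) (XT.lf (nat_lit 0) (nat_lit 2309279323) (nat_lit 304) (nat_lit 11199365119) (nat_lit 76) (nat_lit 2021992940) (nat_lit 143) (nat_lit 5) (nat_lit 147) (nat_lit 5) (nat_lit 144) (nat_lit 5) (nat_lit 476) (nat_lit 400) (nat_lit 324)) (XT.lf (nat_lit 0) (nat_lit 7118197616) (nat_lit 304) (nat_lit 719470258) (nat_lit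 76) (nat_lit 7971915600) (nat_lit 143) (nat_lit 5) (nat_lit 147) (nat_lit 5) (nat_lit 144) (nat_lit 5) (nat_lit 477) (nat_lit 400) (nat_lit 323)))) (XT.nd (nat_lit 156) (nat_lit 152) (nat_lit 0) (XT.nd (nat_lit 78) (nat_lit 304) (nat_lit 0) (XT.lf (nat_lit 0) (nat_lit 10220139360) (nat_lit 152) (nat_lit 1917961532) (nat_lit 228) (nat_lit 3956796080) (nat_lit 141) (nat_lit 5) (nat_lit 143) (nat_lit 5) (nat_lit 144) (nat_lit 5) (nat_lit 478) (nat_lit 400) (nat_lit 322)) (XT.lf (nat_lit 0) (nat_lit 967914574) (nat_lit 304) (nat_lit 11276812630) (nat_lit 76) (nat_lit 4141796953) (nat_lit 137) (nat_lit 5) (nat_lit 141) (nat_lit 5) (nat_lit 138) (nat_lit 5) (nat_lit 479) (nat_lit 400) (nat_lit 321))) (XT.nd (nat_lit 78) (nat_lit 152) (nat_lit 0) (XT.lf (nat_lit 0) (nat_lit 6008490913) (nat_lit 304) (nat_lit 254123807) (nat_lit 76) (nat_lit 10421681086) (nat_lit 137) (nat_lit 5) (nat_lit 141) (nat_lit 5) (nat_lit 138)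 (nat_lit 5) (nat_lit 480) (nat_lit 400) (nat_lit 320)) (XT.lf (nat_lit 0) (nat_lit 11266284092) (nat_lit 152) (nat_lit 11960454) (nat_lit 228) (nat_lit 5710417742) (nat_lit 135) (nat_lit 5) (nat_lit 137) (nat_lit 5) (nat_lit 138) (nat_lit 5) (nat_lit 481) (nat_lit 400) (nat_lit 319))))))) (XT.nd (nat_lit 1248) (nat_lit 1520) (nat_lit 0) (XT.nd (nat_lit 624) (nat_lit 912) (nat_lit 0) (XT.nd (nat_lit 312) (nat_lit 608) (nat_lit 0) (XT.nd (nat_lit 156) (nat_lit 152) (nat_lit 0) (XT.nd (nat_lit 78) (nat_lit 228) (nat_lit 0) (XT.lf (nat_lit 0) (nat_lit 5834510781) (nat_lit 228) (nat_lit 10961857068) (nat_lit 304) (nat_lit 503084073) (nat_lit 132) (nat_lit 5) (nat_lit 135) (nat_lit 5) (nat_lit 136) (nat_lit 5) (nat_lit 482) (nat_lit 400) (nat_lit 318)) (XT.lf (nat_lit 0) (nat_lit 139840131) (nat_lit 152) (nat_lit 4655510799) (nat_lit 228) (nat_lit 12821921306) (nat_lit 129) (nat_lit 5) (nat_lit 131) (nat_lit 5) (nat_lit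 132) (nat_lit 5) (nat_lit 483) (nat_lit 400) (nat_lit 317))) (XT.nd (nat_lit 78) (nat_lit 152) (nat_lit 0) (XT.lf (nat_lit 0) (nat_lit 10347293882) (nat_lit 228) (nat_lit 5690390632) (nat_lit 76) (nat_lit 1903653653) (nat_lit 129) (nat_lit 5) (nat_lit 132) (nat_lit 5) (nat_lit 130) (nat_lit 5) (nat_lit 484) (nat_lit 400) (nat_lit 316)) (XT.lf (nat_lit 0) (nat_lit 6478938237) (nat_lit 152) (nat_lit 9666161865) (nat_lit 228) (nat_lit 2127647241) (nat_lit 127) (nat_lit 5) (nat_lit 129) (nat_lit 5) (nat_lit 130) (nat_lit 5) (nat_lit 485) (nat_lit 400) (nat_lit 315)))) (XT.nd (nat_lit 156) (nat_lit 380) (nat_lit 0) (XT.nd (nat_lit 78) (nat_lit 0) (nat_lit 0) (XT.lf (nat_lit 0) (nat_lit 440242576) (nat_lit 152) (nat_lit 3027412204) (nat_lit 228) (nat_lit 15144436368) (nat_lit 124) (nat_lit 5) (nat_lit 126) (nat_lit 5) (nat_lit 127) (nat_lit 5) (nat_lit 486) (nat_lit 400) (nat_lit 314)) (XT.lf (nat_lit 0) (nat_lit 9316091435)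 (nat_lit 228) (nat_lit 5785702728) (nat_lit 76) (nat_lit 3855348335) (nat_lit 124) (nat_lit 5) (nat_lit 127) (nat_lit 5) (nat_lit 125) (nat_lit 5) (nat_lit 487) (nat_lit 400) (nat_lit 313))) (XT.nd (nat_lit 78) (nat_lit 228) (nat_lit 0) (XT.lf (nat_lit 0) (nat_lit 7028858247) (nat_lit 152) (nat_lit 8380640499) (nat_lit 228) (nat_lit 3900961487) (nat_lit 122) (nat_lit 5) (nat_lit 124) (nat_lit 5) (nat_lit 125) (nat_lit 5) (nat_lit 488) (nat_lit 400) (nat_lit 312)) (XT.lf (nat_lit 0) (nat_lit 615514459) (nat_lit 152) (nat_lit 1393527357) (nat_lit 228) (nat_lit 17663647228) (nat_lit 119) (nat_lit 5) (nat_lit 121) (nat_lit 5) (nat_lit 122) (nat_lit 5) (nat_lit 489) (nat_lit 400) (nat_lit 311))))) (XT.nd (nat_lit 312) (nat_lit 532) (nat_lit 0) (XT.nd (nat_lit 156) (nat_lit 228) (nat_lit 0) (XT.nd (nat_lit 78) (nat_lit 152) (nat_lit 0) (XT.lf (nat_lit 0) (nat_lit 8171131774) (nat_lit 228) (nat_lit 6036930981) (nat_lit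 76) (nat_lit 5831967843) (nat_lit 119) (nat_lit 5) (nat_lit 122) (nat_lit 5) (nat_lit 120) (nat_lit 5) (nat_lit 490) (nat_lit 400) (nat_lit 310)) (XT.lf (nat_lit 0) (nat_lit 7456562105) (nat_lit 152) (nat_lit 7119967630) (nat_lit 228) (nat_lit 5840109632) (nat_lit 117) (nat_lit 5) (nat_lit 119) (nat_lit 5) (nat_lit 120) (nat_lit 5) (nat_lit 491) (nat_lit 400) (nat_lit 309))) (XT.nd (nat_lit 78) (nat_lit 0) (nat_lit 0) (XT.lf (nat_lit 0) (nat_lit 405257329) (nat_lit 228) (nat_lit 20170441216) (nat_lit 76) (nat_lit 227453841) (nat_lit 114) (nat_lit 5) (nat_lit 117) (nat_lit 5) (nat_lit 115) (nat_lit 5) (nat_lit 492) (nat_lit 400) (nat_lit 308)) (XT.lf (nat_lit 0) (nat_lit 6896399940) (nat_lit 228) (nat_lit 6477223955) (nat_lit 76) (nat_lit 7820628663) (nat_lit 114) (nat_lit 5) (nat_lit 117) (nat_lit 5) (nat_lit 115) (nat_lit 5) (nat_lit 493) (nat_lit 400) (nat_lit 307)))) (XT.nd (nat_lit 156) (nat_lit 228) (nat_lit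 0) (XT.nd (nat_lit 78) (nat_lit 152) (nat_lit 0) (XT.lf (nat_lit 0) (nat_lit 7729832441) (nat_lit 152) (nat_lit 5900664002) (nat_lit 228) (nat_lit 7965142995) (nat_lit 112) (nat_lit 5) (nat_lit 114) (nat_lit 5) (nat_lit 115) (nat_lit 5) (nat_lit 494) (nat_lit 400) (nat_lit 306)) (XT.lf (nat_lit 0) (nat_lit 431380607) (nat_lit 152) (nat_lit 20196719130) (nat_lit 228) (nat_lit 1379123956) (nat_lit 110) (nat_lit 5) (nat_lit 112) (nat_lit 5) (nat_lit 113) (nat_lit 4) (nat_lit 495) (nat_lit 400) (nat_lit 305))) (XT.nd (nat_lit 78) (nat_lit 152) (nat_lit 0) (XT.lf (nat_lit 0) (nat_lit 5472900943) (nat_lit 228) (nat_lit 7144934745) (nat_lit 76) (nat_lit 9806544940) (nat_lit 109) (nat_lit 5) (nat_lit 112) (nat_lit 5) (nat_lit 110) (nat_lit 5) (nat_lit 496) (nat_lit 400) (nat_lit 304)) (XT.lf (nat_lit 0) (nat_lit 7811126421) (nat_lit 152) (nat_lit 4741541890) (nat_lit 228) (nat_lit 10299477555) (nat_lit 107) (nat_lit 5)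 (nat_lit 109) (nat_lit 5) (nat_lit 110) (nat_lit 5) (nat_lit 497) (nat_lit 400) (nat_lit 303)))))) (XT.nd (nat_lit 624) (nat_lit 760) (nat_lit 0) (XT.nd (nat_lit 312) (nat_lit 456) (nat_lit 0) (XT.nd (nat_lit 156) (nat_lit 152) (nat_lit 0) (XT.nd (nat_lit 78) (nat_lit 152) (nat_lit 0) (XT.lf (nat_lit 0) (nat_lit 19924999618) (nat_lit 228) (nat_lit 7994845) (nat_lit 76) (nat_lit 3357344725) (nat_lit 107) (nat_lit 5) (nat_lit 110) (nat_lit 5) (nat_lit 108) (nat_lit 4) (nat_lit 498) (nat_lit 400) (nat_lit 302)) (XT.lf (nat_lit 0) (nat_lit 3878240523) (nat_lit 152) (nat_lit 8084527966) (nat_lit 76) (nat_lit 11772567382) (nat_lit 105) (nat_lit 5) (nat_lit 107) (nat_lit 5) (nat_lit 106) (nat_lit 5) (nat_lit 499) (nat_lit 400) (nat_lit 301))) (XT.nd (nat_lit 78) (nat_lit 0) (nat_lit 0) (XT.lf (nat_lit 0) (nat_lit 7656633720) (nat_lit 152) (nat_lit 3664209383) (nat_lit 228) (nat_lit 12870359324) (nat_lit 103) (nat_lit 5)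 (nat_lit 105) (nat_lit 5) (nat_lit 106) (nat_lit 5) (nat_lit 500) (nat_lit 400) (nat_lit 300)) (XT.lf (nat_lit 0) (nat_lit 19091861687) (nat_lit 228) (nat_lit 715680042) (nat_lit 76) (nat_lit 4850049337) (nat_lit 103) (nat_lit 5) (nat_lit 106) (nat_lit 5) (nat_lit 104) (nat_lit 4) (nat_lit 501) (nat_lit 400) (nat_lit 299)))) (XT.nd (nat_lit 156) (nat_lit 152) (nat_lit 0) (XT.nd (nat_lit 78) (nat_lit 152) (nat_lit 0) (XT.lf (nat_lit 0) (nat_lit 2086132849) (nat_lit 152) (nat_lit 9347626223) (nat_lit 76) (nat_lit 13698658795) (nat_lit 101) (nat_lit 5) (nat_lit 103) (nat_lit 5) (nat_lit 102) (nat_lit 5) (nat_lit 502) (nat_lit 400) (nat_lit 298)) (XT.lf (nat_lit 0) (nat_lit 7215188370) (nat_lit 152) (nat_lit 2693644568) (nat_lit 228) (nat_lit 15709409121) (nat_lit 99) (nat_lit 5) (nat_lit 101) (nat_lit 5) (nat_lit 102) (nat_lit 5) (nat_lit 503) (nat_lit 400) (nat_lit 297))) (XT.nd (nat_lit 78) (nat_lit 152) (nat_lit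 0) (XT.lf (nat_lit 0) (nat_lit 18098744979) (nat_lit 228) (nat_lit 1755054467) (nat_lit 76) (nat_lit 6260865803) (nat_lit 99) (nat_lit 5) (nat_lit 102) (nat_lit 5) (nat_lit 100) (nat_lit 4) (nat_lit 504) (nat_lit 400) (nat_lit 296)) (XT.lf (nat_lit 0) (nat_lit 65824233) (nat_lit 152) (nat_lit 10994219083) (nat_lit 76) (nat_lit 15561294538) (nat_lit 97) (nat_lit 5) (nat_lit 99) (nat_lit 5) (nat_lit 98) (nat_lit 5) (nat_lit 505) (nat_lit 400) (nat_lit 295))))) (XT.nd (nat_lit 312) (nat_lit 304) (nat_lit 0) (XT.nd (nat_lit 156) (nat_lit 304) (nat_lit 0) (XT.nd (nat_lit 78) (nat_lit 0) (nat_lit 0) (XT.lf (nat_lit 0) (nat_lit 6427010385) (nat_lit 152) (nat_lit 1858852231) (nat_lit 228) (nat_lit 18853258631) (nat_lit 95) (nat_lit 5) (nat_lit 97) (nat_lit 5) (nat_lit 98) (nat_lit 5) (nat_lit 506) (nat_lit 400) (nat_lit 294)) (XT.lf (nat_lit 0) (nat_lit 16915189941) (nat_lit 228) (nat_lit 3190170693) (nat_lit 76) (nat_lit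 7562197049) (nat_lit 95) (nat_lit 5) (nat_lit 98) (nat_lit 5) (nat_lit 96) (nat_lit 4) (nat_lit 507) (nat_lit 400) (nat_lit 293))) (XT.nd (nat_lit 78) (nat_lit 228) (nat_lit 0) (XT.lf (nat_lit 0) (nat_lit 15091791302) (nat_lit 76) (nat_lit 10853077955) (nat_lit 152) (nat_lit 2262733962) (nat_lit 94) (nat_lit 5) (nat_lit 95) (nat_lit 5) (nat_lit 96) (nat_lit 4) (nat_lit 508) (nat_lit 400) (nat_lit 292)) (XT.lf (nat_lit 0) (nat_lit 5222249241) (nat_lit 152) (nat_lit 1193617592) (nat_lit 228) (nat_lit 22344291586) (nat_lit 91) (nat_lit 5) (nat_lit 93) (nat_lit 5) (nat_lit 94) (nat_lit 5) (nat_lit 509) (nat_lit 400) (nat_lit 291)))) (XT.nd (nat_lit 156) (nat_lit 228) (nat_lit 0) (XT.nd (nat_lit 78) (nat_lit 76) (nat_lit 0) (XT.lf (nat_lit 0) (nat_lit 15505345051) (nat_lit 228) (nat_lit 5095692296) (nat_lit 76) (nat_lit 8721701043) (nat_lit 91) (nat_lit 5) (nat_lit 94) (nat_lit 5) (nat_lit 92) (nat_lit 4) (nat_lit 510)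 (nat_lit 400) (nat_lit 290)) (XT.lf (nat_lit 0) (nat_lit 14122971103) (nat_lit 76) (nat_lit 10870830001) (nat_lit 152) (nat_lit 4904606003) (nat_lit 90) (nat_lit 5) (nat_lit 91) (nat_lit 5) (nat_lit 92) (nat_lit 4) (nat_lit 511) (nat_lit 400) (nat_lit 289))) (XT.nd (nat_lit 78) (nat_lit 0) (nat_lit 0) (XT.lf (nat_lit 0) (nat_lit 3519296960) (nat_lit 152) (nat_lit 737373750) (nat_lit 228) (nat_lit 26231506217) (nat_lit 87) (nat_lit 5) (nat_lit 89) (nat_lit 5) (nat_lit 90) (nat_lit 5) (nat_lit 512) (nat_lit 400) (nat_lit 288)) (XT.lf (nat_lit 0) (nat_lit 13827119260) (nat_lit 228) (nat_lit 7558654271) (nat_lit 76) (nat_lit 9701422299) (nat_lit 87) (nat_lit 5) (nat_lit 90) (nat_lit 5) (nat_lit 88) (nat_lit 4) (nat_lit 513) (nat_lit 400) (nat_lit 287))))))))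
noncomputable def xc96 : XT := (XT.nd (nat_lit 2418) (nat_lit 684) (nat_lit 0) (XT.nd (nat_lit 1170) (nat_lit 1064) (nat_lit 0) (XT.nd (nat_lit 546) (nat_lit 532) (nat_lit 0) (XT.nd (nat_lit 234) (nat_lit 380) (nat_lit 0) (XT.nd (nat_lit 78) (nat_lit 228) (nat_lit 0) (XT.lf (nat_lit 0) (nat_lit 12633623913) (nat_lit 76) (nat_lit 11159207860) (nat_lit 152) (nat_lit 7908109148) (nat_lit 86) (nat_lit 5) (nat_lit 87) (nat_lit 5) (nat_lit 88) (nat_lit 4) (nat_lit 514) (nat_lit 400) (nat_lit 286)) (XT.nd (nat_lit 78) (nat_lit 0) (nat_lit 0) (XT.lf (nat_lit 0) (nat_lit 1222833415) (nat_lit 152) (nat_lit 536202059) (nat_lit 228) (nat_lit 30571517700) (nat_lit 83) (nat_lit 5) (nat_lit 85) (nat_lit 5) (nat_lit 86) (nat_lit 5) (nat_lit 515) (nat_lit 400) (nat_lit 285)) (XT.lf (nat_lit 0) (nat_lit 11831194664) (nat_lit 228) (nat_lit 10680502636) (nat_lit 76) (nat_lit 10456789313) (nat_lit 83) (nat_lit 5) (nat_lit 86) (nat_lit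 5) (nat_lit 84) (nat_lit 4) (nat_lit 516) (nat_lit 400) (nat_lit 284)))) (XT.nd (nat_lit 156) (nat_lit 304) (nat_lit 0) (XT.nd (nat_lit 78) (nat_lit 0) (nat_lit 0) (XT.lf (nat_lit 0) (nat_lit 10521132771) (nat_lit 76) (nat_lit 11770900785) (nat_lit 152) (nat_lit 11330929174) (nat_lit 82) (nat_lit 5) (nat_lit 83) (nat_lit 5) (nat_lit 84) (nat_lit 4) (nat_lit 517) (nat_lit 400) (nat_lit 283)) (XT.lf (nat_lit 0) (nat_lit 32539738995) (nat_lit 76) (nat_lit 615096202) (nat_lit 152) (nat_lit 1139593921) (nat_lit 82) (nat_lit 5) (nat_lit 83) (nat_lit 5) (nat_lit 84) (nat_lit 4) (nat_lit 518) (nat_lit 400) (nat_lit 282))) (XT.nd (nat_lit 78) (nat_lit 76) (nat_lit 0) (XT.lf (nat_lit 0) (nat_lit 9459877519) (nat_lit 228) (nat_lit 14579458211) (nat_lit 76) (nat_lit 10935455555) (nat_lit 79) (nat_lit 5) (nat_lit 82) (nat_lit 5) (nat_lit 80) (nat_lit 4) (nat_lit 519) (nat_lit 400) (nat_lit 281)) (XT.lf (nat_lit 0) (nat_lit 7665493926)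 (nat_lit 76) (nat_lit 12767311184) (nat_lit 152) (nat_lit 15240069519) (nat_lit 78) (nat_lit 5) (nat_lit 79) (nat_lit 5) (nat_lit 80) (nat_lit 4) (nat_lit 520) (nat_lit 400) (nat_lit 280))))) (XT.nd (nat_lit 312) (nat_lit 304) (nat_lit 0) (XT.nd (nat_lit 156) (nat_lit 76) (nat_lit 0) (XT.nd (nat_lit 78) (nat_lit 152) (nat_lit 0) (XT.lf (nat_lit 0) (nat_lit 30839692723) (nat_lit 76) (nat_lit 1023365213) (nat_lit 152) (nat_lit 4524998519) (nat_lit 78) (nat_lit 5) (nat_lit 79) (nat_lit 5) (nat_lit 80) (nat_lit 4) (nat_lit 521) (nat_lit 400) (nat_lit 279)) (XT.lf (nat_lit 0) (nat_lit 6645762093) (nat_lit 152) (nat_lit 19393256757) (nat_lit 76) (nat_lit 11075958178) (nat_lit 76) (nat_lit 5) (nat_lit 78) (nat_lit 5) (nat_lit 77) (nat_lit 4) (nat_lit 522) (nat_lit 400) (nat_lit 278))) (XT.nd (nat_lit 78) (nat_lit 0) (nat_lit 0) (XT.lf (nat_lit 0) (nat_lit 3926453468) (nat_lit 76) (nat_lit 14220020731) (nat_lit 152) (nat_lit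 19713313755) (nat_lit 75) (nat_lit 5) (nat_lit 76) (nat_lit 5) (nat_lit 77) (nat_lit 4) (nat_lit 523) (nat_lit 400) (nat_lit 277)) (XT.lf (nat_lit 0) (nat_lit 28307358406) (nat_lit 76) (nat_lit 1862200320) (nat_lit 152) (nat_lit 8452064043) (nat_lit 75) (nat_lit 5) (nat_lit 76) (nat_lit 5) (nat_lit 77) (nat_lit 4) (nat_lit 524) (nat_lit 400) (nat_lit 276)))) (XT.nd (nat_lit 156) (nat_lit 152) (nat_lit 0) (XT.nd (nat_lit 78) (nat_lit 0) (nat_lit 0) (XT.lf (nat_lit 0) (nat_lit 3310177817) (nat_lit 152) (nat_lit 25282325864) (nat_lit 76) (nat_lit 10806164567) (nat_lit 73) (nat_lit 5) (nat_lit 75) (nat_lit 5) (nat_lit 74) (nat_lit 4) (nat_lit 525) (nat_lit 400) (nat_lit 275)) (XT.lf (nat_lit 0) (nat_lit 15360938360) (nat_lit 152) (nat_lit 843035976) (nat_lit 76) (nat_lit 23989374441) (nat_lit 73) (nat_lit 5) (nat_lit 75) (nat_lit 5) (nat_lit 74) (nat_lit 4) (nat_lit 526) (nat_lit 400) (nat_lit 274))) (XT.nd (nat_lit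 78) (nat_lit 76) (nat_lit 0) (XT.lf (nat_lit 0) (nat_lit 24778699444) (nat_lit 76) (nat_lit 3215144122) (nat_lit 152) (nat_lit 13011407583) (nat_lit 72) (nat_lit 5) (nat_lit 73) (nat_lit 5) (nat_lit 74) (nat_lit 4) (nat_lit 527) (nat_lit 400) (nat_lit 273)) (XT.lf (nat_lit 0) (nat_lit 9396408753) (nat_lit 76) (nat_lit 31788405287) (nat_lit 76) (nat_lit 651324287) (nat_lit 71) (nat_lit 4) (nat_lit 72) (nat_lit 5) (nat_lit 72) (nat_lit 4) (nat_lit 528) (nat_lit 400) (nat_lit 272)))))) (XT.nd (nat_lit 624) (nat_lit 456) (nat_lit 0) (XT.nd (nat_lit 312) (nat_lit 304) (nat_lit 0) (XT.nd (nat_lit 156) (nat_lit 152) (nat_lit 0) (XT.nd (nat_lit 78) (nat_lit 76) (nat_lit 0) (XT.lf (nat_lit 0) (nat_lit 12023630647) (nat_lit 152) (nat_lit 6750215918) (nat_lit 76) (nat_lit 23909228600) (nat_lit 70) (nat_lit 5) (nat_lit 72) (nat_lit 5) (nat_lit 71) (nat_lit 4) (nat_lit 529) (nat_lit 400) (nat_lit 271)) (XT.lf (nat_lit 0) (nat_lit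 20061715250) (nat_lit 76) (nat_lit 5179857066) (nat_lit 152) (nat_lit 18308379531) (nat_lit 69) (nat_lit 5) (nat_lit 70) (nat_lit 5) (nat_lit 71) (nat_lit 4) (nat_lit 530) (nat_lit 400) (nat_lit 270))) (XT.nd (nat_lit 78) (nat_lit 76) (nat_lit 0) (XT.lf (nat_lit 0) (nat_lit 3321607712) (nat_lit 76) (nat_lit 35703021906) (nat_lit 76) (nat_lit 5413147960) (nat_lit 68) (nat_lit 4) (nat_lit 69) (nat_lit 5) (nat_lit 69) (nat_lit 4) (nat_lit 531) (nat_lit 400) (nat_lit 269)) (XT.lf (nat_lit 0) (nat_lit 7989226859) (nat_lit 152) (nat_lit 14090495057) (nat_lit 76) (nat_lit 23262031870) (nat_lit 67) (nat_lit 5) (nat_lit 69) (nat_lit 5) (nat_lit 68) (nat_lit 4) (nat_lit 532) (nat_lit 400) (nat_lit 268)))) (XT.nd (nat_lit 156) (nat_lit 228) (nat_lit 0) (XT.nd (nat_lit 78) (nat_lit 0) (nat_lit 0) (XT.lf (nat_lit 0) (nat_lit 13931855392) (nat_lit 76) (nat_lit 7870453202) (nat_lit 152) (nat_lit 24465409848) (nat_lit 66) (nat_lit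 5) (nat_lit 67) (nat_lit 5) (nat_lit 68) (nat_lit 4) (nat_lit 533) (nat_lit 400) (nat_lit 267)) (XT.lf (nat_lit 0) (nat_lit 36222042221) (nat_lit 152) (nat_lit 4232295577) (nat_lit 0) (nat_lit 6761356519) (nat_lit 66) (nat_lit 5) (nat_lit 68) (nat_lit 4) (nat_lit 66) (nat_lit 4) (nat_lit 534) (nat_lit 400) (nat_lit 266))) (XT.nd (nat_lit 78) (nat_lit 76) (nat_lit 0) (XT.lf (nat_lit 0) (nat_lit 3132181301) (nat_lit 152) (nat_lit 23119018245) (nat_lit 76) (nat_lit 21930893816) (nat_lit 64) (nat_lit 5) (nat_lit 66) (nat_lit 5) (nat_lit 65) (nat_lit 4) (nat_lit 535) (nat_lit 400) (nat_lit 265)) (XT.lf (nat_lit 0) (nat_lit 6126697848) (nat_lit 76) (nat_lit 11420208290) (nat_lit 152) (nat_lit 31624730518) (nat_lit 63) (nat_lit 5) (nat_lit 64) (nat_lit 5) (nat_lit 65) (nat_lit 4) (nat_lit 536) (nat_lit 400) (nat_lit 264))))) (XT.nd (nat_lit 312) (nat_lit 228) (nat_lit 0) (XT.nd (nat_lit 156) (nat_lit 152) (nat_lit 0) (XT.nd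 (nat_lit 78) (nat_lit 76) (nat_lit 0) (XT.lf (nat_lit 0) (nat_lit 32650946417) (nat_lit 152) (nat_lit 13531001060) (nat_lit 0) (nat_lit 4001212616) (nat_lit 63) (nat_lit 5) (nat_lit 65) (nat_lit 4) (nat_lit 63) (nat_lit 4) (nat_lit 537) (nat_lit 400) (nat_lit 263)) (XT.lf (nat_lit 0) (nat_lit 17057588712) (nat_lit 76) (nat_lit 31412065354) (nat_lit 76) (nat_lit 2747528838) (nat_lit 62) (nat_lit 4) (nat_lit 63) (nat_lit 5) (nat_lit 63) (nat_lit 4) (nat_lit 538) (nat_lit 400) (nat_lit 262))) (XT.nd (nat_lit 78) (nat_lit 76) (nat_lit 0) (XT.lf (nat_lit 0) (nat_lit 12359658048) (nat_lit 152) (nat_lit 3588802246) (nat_lit 76) (nat_lit 36326491848) (nat_lit 61) (nat_lit 5) (nat_lit 63) (nat_lit 5) (nat_lit 62) (nat_lit 4) (nat_lit 539) (nat_lit 400) (nat_lit 261)) (XT.lf (nat_lit 0) (nat_lit 28125397432) (nat_lit 152) (nat_lit 24962173423) (nat_lit 0) (nat_lit 268250768) (nat_lit 60) (nat_lit 5) (nat_lit 62) (nat_lit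 4) (nat_lit 60) (nat_lit 4) (nat_lit 540) (nat_lit 400) (nat_lit 260)))) (XT.nd (nat_lit 156) (nat_lit 76) (nat_lit 0) (XT.nd (nat_lit 78) (nat_lit 76) (nat_lit 0) (XT.lf (nat_lit 0) (nat_lit 6887561321) (nat_lit 76) (nat_lit 37722241887) (nat_lit 76) (nat_lit 9851943203) (nat_lit 59) (nat_lit 4) (nat_lit 60) (nat_lit 5) (nat_lit 60) (nat_lit 4) (nat_lit 541) (nat_lit 400) (nat_lit 259)) (XT.lf (nat_lit 0) (nat_lit 6110601796) (nat_lit 152) (nat_lit 15478545988) (nat_lit 76) (nat_lit 34002787777) (nat_lit 58) (nat_lit 5) (nat_lit 60) (nat_lit 5) (nat_lit 59) (nat_lit 4) (nat_lit 542) (nat_lit 400) (nat_lit 258))) (XT.nd (nat_lit 78) (nat_lit 0) (nat_lit 0) (XT.lf (nat_lit 0) (nat_lit 17800951507) (nat_lit 76) (nat_lit 4709598337) (nat_lit 152) (nat_lit 34237858037) (nat_lit 57) (nat_lit 5) (nat_lit 58) (nat_lit 5) (nat_lit 59) (nat_lit 4) (nat_lit 543) (nat_lit 400) (nat_lit 257)) (XT.lf (nat_lit 0) (nat_lit 39667641234)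 (nat_lit 152) (nat_lit 5690998414) (nat_lit 0) (nat_lit 12572980419) (nat_lit 57) (nat_lit 5) (nat_lit 59) (nat_lit 4) (nat_lit 57) (nat_lit 4) (nat_lit 544) (nat_lit 400) (nat_lit 256))))))) (XT.nd (nat_lit 51714) (nat_lit 0) (nat_lit 25460) (XT.nd (nat_lit 546) (nat_lit 228) (nat_lit 0) (XT.nd (nat_lit 234) (nat_lit 228) (nat_lit 0) (XT.nd (nat_lit 78) (nat_lit 152) (nat_lit 0) (XT.lf (nat_lit 0) (nat_lit 29055499283) (nat_lit 76) (nat_lit 28595740701) (nat_lit 76) (nat_lit 1489734837) (nat_lit 56) (nat_lit 4) (nat_lit 57) (nat_lit 5) (nat_lit 57) (nat_lit 4) (nat_lit 545) (nat_lit 400) (nat_lit 255)) (XT.nd (nat_lit 78) (nat_lit 0) (nat_lit 0) (XT.lf (nat_lit 0) (nat_lit 4483312381) (nat_lit 76) (nat_lit 11083354049) (nat_lit 152) (nat_lit 44812780817) (nat_lit 54) (nat_lit 5) (nat_lit 55) (nat_lit 5) (nat_lit 56) (nat_lit 4) (nat_lit 546) (nat_lit 400) (nat_lit 254)) (XT.lf (nat_lit 0) (nat_lit 33464364814)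 (nat_lit 152) (nat_lit 21052702015) (nat_lit 0) (nat_lit 7126778143) (nat_lit 54) (nat_lit 5) (nat_lit 56) (nat_lit 4) (nat_lit 54) (nat_lit 4) (nat_lit 547) (nat_lit 400) (nat_lit 253)))) (XT.nd (nat_lit 156) (nat_lit 76) (nat_lit 0) (XT.nd (nat_lit 78) (nat_lit 76) (nat_lit 0) (XT.lf (nat_lit 0) (nat_lit 14991633371) (nat_lit 76) (nat_lit 37147501831) (nat_lit 76) (nat_lit 10799835232) (nat_lit 53) (nat_lit 4) (nat_lit 54) (nat_lit 5) (nat_lit 54) (nat_lit 4) (nat_lit 548) (nat_lit 400) (nat_lit 252)) (XT.lf (nat_lit 0) (nat_lit 7163626934) (nat_lit 152) (nat_lit 11815290261) (nat_lit 76) (nat_lit 45285954730) (nat_lit 52) (nat_lit 5) (nat_lit 54) (nat_lit 5) (nat_lit 53) (nat_lit 4) (nat_lit 549) (nat_lit 400) (nat_lit 251))) (XT.nd (nat_lit 78) (nat_lit 0) (nat_lit 0) (XT.lf (nat_lit 0) (nat_lit 25684182522) (nat_lit 152) (nat_lit 39850904611) (nat_lit 0) (nat_lit 85197825) (nat_lit 51) (nat_lit 5) (nat_lit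 53) (nat_lit 4) (nat_lit 51) (nat_lit 4) (nat_lit 550) (nat_lit 400) (nat_lit 250)) (XT.lf (nat_lit 0) (nat_lit 45055469336) (nat_lit 152) (nat_lit 2504508888) (nat_lit 0) (nat_lit 19447528753) (nat_lit 51) (nat_lit 5) (nat_lit 53) (nat_lit 4) (nat_lit 51) (nat_lit 4) (nat_lit 551) (nat_lit 400) (nat_lit 249))))) (XT.nd (nat_lit 50856) (nat_lit 0) (nat_lit 31312) (XT.nd (nat_lit 50700) (nat_lit 0) (nat_lit 31844) (XT.nd (nat_lit 78) (nat_lit 152) (nat_lit 0) (XT.lf (nat_lit 0) (nat_lit 36651828264) (nat_lit 76) (nat_lit 28695485240) (nat_lit 76) (nat_lit 3078849622) (nat_lit 50) (nat_lit 4) (nat_lit 51) (nat_lit 5) (nat_lit 51) (nat_lit 4) (nat_lit 552) (nat_lit 400) (nat_lit 248)) (XT.lf (nat_lit 0) (nat_lit 7102997725) (nat_lit 76) (nat_lit 9019206769) (nat_lit 152) (nat_lit 53758028770) (nat_lit 48) (nat_lit 5) (nat_lit 49) (nat_lit 5) (nat_lit 50) (nat_lit 4) (nat_lit 553) (nat_lit 400) (nat_lit 247))) (XT.nd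 (nat_lit 78) (nat_lit 228) (nat_lit 0) (XT.lf (nat_lit 0) (nat_lit 1574753530) (nat_lit 0) (nat_lit 1574753530) (nat_lit 76) (nat_lit 73588415) (nat_lit 470) (nat_lit 5) (nat_lit 470) (nat_lit 3) (nat_lit 471) (nat_lit 0) (nat_lit 401) (nat_lit 401) (nat_lit 398)) (XT.lf (nat_lit 0) (nat_lit 2880998289) (nat_lit 228) (nat_lit 81849253) (nat_lit 228) (nat_lit 3488995162) (nat_lit 467) (nat_lit 3) (nat_lit 470) (nat_lit 3) (nat_lit 470) (nat_lit 5) (nat_lit 402) (nat_lit 401) (nat_lit 397)))) (XT.nd (nat_lit 156) (nat_lit 304) (nat_lit 0) (XT.nd (nat_lit 78) (nat_lit 228) (nat_lit 0) (XT.lf (nat_lit 76) (nat_lit 3230150925) (nat_lit 0) (nat_lit 2679806216) (nat_lit 228) (nat_lit 550286410) (nat_lit 468) (nat_lit 5) (nat_lit 467) (nat_lit 3) (nat_lit 470) (nat_lit 5) (nat_lit 403) (nat_lit 401) (nat_lit 396)) (XT.lf (nat_lit 76) (nat_lit 88841338) (nat_lit 0) (nat_lit 2307320908) (nat_lit 304) (nat_lit 4075447860)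 (nat_lit 465) (nat_lit 5) (nat_lit 464) (nat_lit 5) (nat_lit 468) (nat_lit 5) (nat_lit 404) (nat_lit 401) (nat_lit 395))) (XT.nd (nat_lit 78) (nat_lit 304) (nat_lit 0) (XT.lf (nat_lit 76) (nat_lit 3506029236) (nat_lit 0) (nat_lit 1832832300) (nat_lit 304) (nat_lit 1146734440) (nat_lit 465) (nat_lit 5) (nat_lit 464) (nat_lit 5) (nat_lit 468) (nat_lit 5) (nat_lit 405) (nat_lit 401) (nat_lit 394)) (XT.lf (nat_lit 76) (nat_lit 454228312) (nat_lit 0) (nat_lit 1272053081) (nat_lit 380) (nat_lit 4776401716) (nat_lit 461) (nat_lit 5) (nat_lit 460) (nat_lit 5) (nat_lit 465) (nat_lit 5) (nat_lit 406) (nat_lit 401) (nat_lit 393)))))) (XT.nd (nat_lit 624) (nat_lit 4028) (nat_lit 0) (XT.nd (nat_lit 312) (nat_lit 1140) (nat_lit 0) (XT.nd (nat_lit 156) (nat_lit 380) (nat_lit 0) (XT.nd (nat_lit 78) (nat_lit 304) (nat_lit 0) (XT.lf (nat_lit 76) (nat_lit 3978754722) (nat_lit 0) (nat_lit 604875128) (nat_lit 380) (nat_lit 1938685185)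 (nat_lit 461) (nat_lit 5) (nat_lit 460) (nat_lit 5) (nat_lit 465) (nat_lit 5) (nat_lit 407) (nat_lit 401) (nat_lit 392)) (XT.lf (nat_lit 0) (nat_lit 869450759) (nat_lit 380) (nat_lit 5531868717) (nat_lit 76) (nat_lit 143805872) (nat_lit 456) (nat_lit 5) (nat_lit 461) (nat_lit 5) (nat_lit 457) (nat_lit 5) (nat_lit 408) (nat_lit 401) (nat_lit 391))) (XT.nd (nat_lit 78) (nat_lit 380) (nat_lit 0) (XT.lf (nat_lit 0) (nat_lit 3651047611) (nat_lit 380) (nat_lit 1929414883) (nat_lit 76) (nat_lit 989743936) (nat_lit 456) (nat_lit 5) (nat_lit 461) (nat_lit 5) (nat_lit 457) (nat_lit 5) (nat_lit 409) (nat_lit 401) (nat_lit 390)) (XT.lf (nat_lit 0) (nat_lit 1752151935) (nat_lit 380) (nat_lit 4680059246) (nat_lit 456) (nat_lit 166352752) (nat_lit 451) (nat_lit 5) (nat_lit 456) (nat_lit 5) (nat_lit 457) (nat_lit 5) (nat_lit 410) (nat_lit 401) (nat_lit 389)))) (XT.nd (nat_lit 156) (nat_lit 608) (nat_lit 0) (XT.nd (nat_lit 78) (nat_lit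 456) (nat_lit 0) (XT.lf (nat_lit 0) (nat_lit 2537258475) (nat_lit 456) (nat_lit 1133837244) (nat_lit 76) (nat_lit 2958304768) (nat_lit 450) (nat_lit 5) (nat_lit 456) (nat_lit 5) (nat_lit 451) (nat_lit 5) (nat_lit 411) (nat_lit 401) (nat_lit 388)) (XT.lf (nat_lit 0) (nat_lit 2678088868) (nat_lit 456) (nat_lit 2569810727) (nat_lit 532) (nat_lit 1415342091) (nat_lit 444) (nat_lit 5) (nat_lit 450) (nat_lit 5) (nat_lit 451) (nat_lit 5) (nat_lit 412) (nat_lit 401) (nat_lit 387))) (XT.nd (nat_lit 78) (nat_lit 532) (nat_lit 0) (XT.lf (nat_lit 0) (nat_lit 1231937714) (nat_lit 532) (nat_lit 147075676) (nat_lit 76) (nat_lit 5321213559) (nat_lit 443) (nat_lit 5) (nat_lit 450) (nat_lit 5) (nat_lit 444) (nat_lit 5) (nat_lit 413) (nat_lit 401) (nat_lit 386)) (XT.lf (nat_lit 0) (nat_lit 3804302881) (nat_lit 532) (nat_lit 70023885) (nat_lit 608) (nat_lit 2865256797) (nat_lit 436) (nat_lit 5) (nat_lit 443) (nat_lit 5) (nat_lit 444)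 (nat_lit 5) (nat_lit 414) (nat_lit 401) (nat_lit 385))))) (XT.nd (nat_lit 312) (nat_lit 2584) (nat_lit 0) (XT.nd (nat_lit 156) (nat_lit 760) (nat_lit 0) (XT.nd (nat_lit 78) (nat_lit 76) (nat_lit 0) (XT.lf (nat_lit 0) (nat_lit 1040719269) (nat_lit 608) (nat_lit 5489006856) (nat_lit 684) (nat_lit 252388734) (nat_lit 428) (nat_lit 5) (nat_lit 436) (nat_lit 5) (nat_lit 437) (nat_lit 5) (nat_lit 415) (nat_lit 401) (nat_lit 384)) (XT.lf (nat_lit 0) (nat_lit 2332981106) (nat_lit 684) (nat_lit 1718885969) (nat_lit 76) (nat_lit 2775106290) (nat_lit 427) (nat_lit 5) (nat_lit 436) (nat_lit 5) (nat_lit 428) (nat_lit 5) (nat_lit 416) (nat_lit 401) (nat_lit 383))) (XT.nd (nat_lit 78) (nat_lit 76) (nat_lit 0) (XT.lf (nat_lit 0) (nat_lit 2405049625) (nat_lit 684) (nat_lit 2522577808) (nat_lit 760) (nat_lit 1947377203) (nat_lit 418) (nat_lit 5) (nat_lit 427) (nat_lit 5) (nat_lit 428) (nat_lit 5) (nat_lit 417) (nat_lit 401) (nat_lit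 382)) (XT.lf (nat_lit 0) (nat_lit 594717911) (nat_lit 760) (nat_lit 307443323) (nat_lit 76) (nat_lit 6024158101) (nat_lit 417) (nat_lit 5) (nat_lit 427) (nat_lit 5) (nat_lit 418) (nat_lit 5) (nat_lit 418) (nat_lit 401) (nat_lit 381)))) (XT.nd (nat_lit 156) (nat_lit 988) (nat_lit 0) (XT.nd (nat_lit 78) (nat_lit 836) (nat_lit 0) (XT.lf (nat_lit 0) (nat_lit 3137501235) (nat_lit 836) (nat_lit 3012706271) (nat_lit 76) (nat_lit 829485712) (nat_lit 407) (nat_lit 5) (nat_lit 418) (nat_lit 5) (nat_lit 408) (nat_lit 5) (nat_lit 419) (nat_lit 401) (nat_lit 380)) (XT.lf (nat_lit 0) (nat_lit 1292770051) (nat_lit 836) (nat_lit 4407504861) (nat_lit 912) (nat_lit 1336087195) (nat_lit 396) (nat_lit 5) (nat_lit 407) (nat_lit 5) (nat_lit 408) (nat_lit 5) (nat_lit 420) (nat_lit 401) (nat_lit 379))) (XT.nd (nat_lit 78) (nat_lit 912) (nat_lit 0) (XT.lf (nat_lit 0) (nat_lit 1171786501) (nat_lit 912) (nat_lit 1382749483) (nat_lit 76) (nat_lit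 4541314174) (nat_lit 395) (nat_lit 5) (nat_lit 407) (nat_lit 5) (nat_lit 396) (nat_lit 5) (nat_lit 421) (nat_lit 401) (nat_lit 378)) (XT.lf (nat_lit 0) (nat_lit 3092117018) (nat_lit 912) (nat_lit 588134584) (nat_lit 988) (nat_lit 3477912685) (nat_lit 383) (nat_lit 5) (nat_lit 395) (nat_lit 5) (nat_lit 396) (nat_lit 5) (nat_lit 422) (nat_lit 401) (nat_lit 377))))))))
noncomputable def xc97 : XT := (XT.nd (nat_lit 2418) (nat_lit 5700) (nat_lit 0) (XT.nd (nat_lit 1170) (nat_lit 5092) (nat_lit 0) (XT.nd (nat_lit 546) (nat_lit 3952) (nat_lit 0) (XT.nd (nat_lit 234) (nat_lit 2432) (nat_lit 0) (XT.nd (nat_lit 78) (nat_lit 1140) (nat_lit 0) (XT.lf (nat_lit 0) (nat_lit 436523834) (nat_lit 988) (nat_lit 5783816267) (nat_lit 1064) (nat_lit 1003321093) (nat_lit 370) (nat_lit 5) (nat_lit 383) (nat_lit 5) (nat_lit 384) (nat_lit 5) (nat_lit 423) (nat_lit 401) (nat_lit 376)) (XT.nd (nat_lit 78) (nat_lit 1064) (nat_lit 0) (XT.lf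 (nat_lit 0) (nat_lit 1487737150) (nat_lit 1064) (nat_lit 2219991915) (nat_lit 76) (nat_lit 3583780816) (nat_lit 369) (nat_lit 5) (nat_lit 383) (nat_lit 5) (nat_lit 370) (nat_lit 5) (nat_lit 424) (nat_lit 401) (nat_lit 375)) (XT.lf (nat_lit 0) (nat_lit 2457591729) (nat_lit 1064) (nat_lit 1526673712) (nat_lit 1140) (nat_lit 3378307510) (nat_lit 355) (nat_lit 5) (nat_lit 369) (nat_lit 5) (nat_lit 370) (nat_lit 5) (nat_lit 425) (nat_lit 401) (nat_lit 374)))) (XT.nd (nat_lit 156) (nat_lit 1216) (nat_lit 0) (XT.nd (nat_lit 78) (nat_lit 1216) (nat_lit 0) (XT.lf (nat_lit 0) (nat_lit 6514101456) (nat_lit 1140) (nat_lit 187401671) (nat_lit 76) (nat_lit 735516374) (nat_lit 355) (nat_lit 5) (nat_lit 370) (nat_lit 5) (nat_lit 356) (nat_lit 5) (nat_lit 426) (nat_lit 401) (nat_lit 373)) (XT.lf (nat_lit 0) (nat_lit 1565763275) (nat_lit 1216) (nat_lit 2845583832) (nat_lit 76) (nat_lit 3102163733) (nat_lit 339) (nat_lit 5) (nat_lit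 355) (nat_lit 5) (nat_lit 340) (nat_lit 5) (nat_lit 427) (nat_lit 401) (nat_lit 372))) (XT.nd (nat_lit 78) (nat_lit 0) (nat_lit 0) (XT.lf (nat_lit 0) (nat_lit 2046309151) (nat_lit 1216) (nat_lit 2017479614) (nat_lit 1292) (nat_lit 3529640625) (nat_lit 323) (nat_lit 5) (nat_lit 339) (nat_lit 5) (nat_lit 340) (nat_lit 5) (nat_lit 428) (nat_lit 401) (nat_lit 371)) (XT.lf (nat_lit 0) (nat_lit 6603132203) (nat_lit 1292) (nat_lit 602568873) (nat_lit 76) (nat_lit 471056609) (nat_lit 323) (nat_lit 5) (nat_lit 340) (nat_lit 5) (nat_lit 324) (nat_lit 5) (nat_lit 429) (nat_lit 401) (nat_lit 370))))) (XT.nd (nat_lit 312) (nat_lit 1748) (nat_lit 0) (XT.nd (nat_lit 156) (nat_lit 684) (nat_lit 0) (XT.nd (nat_lit 78) (nat_lit 608) (nat_lit 0) (XT.lf (nat_lit 0) (nat_lit 1425805039) (nat_lit 912) (nat_lit 3283042320) (nat_lit 76) (nat_lit 3053377428) (nat_lit 311) (nat_lit 5) (nat_lit 323) (nat_lit 5) (nat_lit 312) (nat_lit 5) (nat_lit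 430) (nat_lit 401) (nat_lit 369)) (XT.lf (nat_lit 0) (nat_lit 1835694105) (nat_lit 608) (nat_lit 2102381481) (nat_lit 684) (nat_lit 3913081547) (nat_lit 303) (nat_lit 5) (nat_lit 311) (nat_lit 5) (nat_lit 312) (nat_lit 5) (nat_lit 431) (nat_lit 401) (nat_lit 368))) (XT.nd (nat_lit 78) (nat_lit 684) (nat_lit 0) (XT.lf (nat_lit 0) (nat_lit 6501678739) (nat_lit 684) (nat_lit 838743082) (nat_lit 76) (nat_lit 603059807) (nat_lit 303) (nat_lit 5) (nat_lit 312) (nat_lit 5) (nat_lit 304) (nat_lit 5) (nat_lit 432) (nat_lit 401) (nat_lit 367)) (XT.lf (nat_lit 0) (nat_lit 1084859787) (nat_lit 684) (nat_lit 3553354532) (nat_lit 76) (nat_lit 3399962779) (nat_lit 294) (nat_lit 5) (nat_lit 303) (nat_lit 5) (nat_lit 295) (nat_lit 5) (nat_lit 433) (nat_lit 401) (nat_lit 366)))) (XT.nd (nat_lit 156) (nat_lit 1216) (nat_lit 0) (XT.nd (nat_lit 78) (nat_lit 0) (nat_lit 0) (XT.lf (nat_lit 0) (nat_lit 1805712566) (nat_lit 532) (nat_lit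 1817840723) (nat_lit 608) (nat_lit 4512778440) (nat_lit 287) (nat_lit 5) (nat_lit 294) (nat_lit 5) (nat_lit 295) (nat_lit 5) (nat_lit 434) (nat_lit 401) (nat_lit 365)) (XT.lf (nat_lit 0) (nat_lit 6225496883) (nat_lit 608) (nat_lit 914867601) (nat_lit 76) (nat_lit 1097456603) (nat_lit 287) (nat_lit 5) (nat_lit 295) (nat_lit 5) (nat_lit 288) (nat_lit 5) (nat_lit 435) (nat_lit 401) (nat_lit 364))) (XT.nd (nat_lit 78) (nat_lit 532) (nat_lit 0) (XT.lf (nat_lit 0) (nat_lit 557251730) (nat_lit 684) (nat_lit 3675311181) (nat_lit 76) (nat_lit 4109479512) (nat_lit 278) (nat_lit 5) (nat_lit 287) (nat_lit 5) (nat_lit 279) (nat_lit 5) (nat_lit 436) (nat_lit 401) (nat_lit 363)) (XT.lf (nat_lit 0) (nat_lit 1938542125) (nat_lit 532) (nat_lit 1195538729) (nat_lit 608) (nat_lit 5315596005) (nat_lit 271) (nat_lit 5) (nat_lit 278) (nat_lit 5) (nat_lit 279) (nat_lit 5) (nat_lit 437) (nat_lit 401) (nat_lit 362)))))) (XT.nd (nat_lit 624)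 (nat_lit 2584) (nat_lit 0) (XT.nd (nat_lit 312) (nat_lit 1444) (nat_lit 0) (XT.nd (nat_lit 156) (nat_lit 532) (nat_lit 0) (XT.nd (nat_lit 78) (nat_lit 532) (nat_lit 0) (XT.lf (nat_lit 0) (nat_lit 5787900559) (nat_lit 608) (nat_lit 847892036) (nat_lit 76) (nat_lit 1924759621) (nat_lit 271) (nat_lit 5) (nat_lit 279) (nat_lit 5) (nat_lit 272) (nat_lit 5) (nat_lit 438) (nat_lit 401) (nat_lit 361)) (XT.lf (nat_lit 0) (nat_lit 5007363735) (nat_lit 532) (nat_lit 3519211407) (nat_lit 608) (nat_lit 148023867) (nat_lit 264) (nat_lit 5) (nat_lit 271) (nat_lit 5) (nat_lit 272) (nat_lit 5) (nat_lit 439) (nat_lit 401) (nat_lit 360))) (XT.nd (nat_lit 78) (nat_lit 0) (nat_lit 0) (XT.lf (nat_lit 0) (nat_lit 2218269641) (nat_lit 456) (nat_lit 262901618) (nat_lit 532) (nat_lit 6310890517) (nat_lit 257) (nat_lit 5) (nat_lit 263) (nat_lit 5) (nat_lit 264) (nat_lit 5) (nat_lit 440) (nat_lit 401) (nat_lit 359)) (XT.lf (nat_lit 0) (nat_lit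 5199972291) (nat_lit 532) (nat_lit 653058129) (nat_lit 76) (nat_lit 3059565067) (nat_lit 257) (nat_lit 5) (nat_lit 264) (nat_lit 5) (nat_lit 258) (nat_lit 5) (nat_lit 441) (nat_lit 401) (nat_lit 358)))) (XT.nd (nat_lit 156) (nat_lit 456) (nat_lit 0) (XT.nd (nat_lit 78) (nat_lit 532) (nat_lit 0) (XT.lf (nat_lit 0) (nat_lit 5486564005) (nat_lit 456) (nat_lit 2517265210) (nat_lit 532) (nat_lit 1032813358) (nat_lit 251) (nat_lit 5) (nat_lit 257) (nat_lit 5) (nat_lit 258) (nat_lit 5) (nat_lit 442) (nat_lit 401) (nat_lit 357)) (XT.lf (nat_lit 0) (nat_lit 1683374897) (nat_lit 532) (nat_lit 6543082406) (nat_lit 76) (nat_lit 937766871) (nat_lit 244) (nat_lit 5) (nat_lit 251) (nat_lit 5) (nat_lit 245) (nat_lit 5) (nat_lit 443) (nat_lit 401) (nat_lit 356))) (XT.nd (nat_lit 78) (nat_lit 456) (nat_lit 0) (XT.lf (nat_lit 0) (nat_lit 4470742216) (nat_lit 532) (nat_lit 344165758) (nat_lit 76) (nat_lit 4480106854) (nat_lit 244)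 (nat_lit 5) (nat_lit 251) (nat_lit 5) (nat_lit 245) (nat_lit 5) (nat_lit 444) (nat_lit 401) (nat_lit 355)) (XT.lf (nat_lit 0) (nat_lit 6097196049) (nat_lit 456) (nat_lit 1253945214) (nat_lit 532) (nat_lit 2078307501) (nat_lit 238) (nat_lit 5) (nat_lit 244) (nat_lit 5) (nat_lit 245) (nat_lit 5) (nat_lit 445) (nat_lit 401) (nat_lit 354))))) (XT.nd (nat_lit 312) (nat_lit 1292) (nat_lit 0) (XT.nd (nat_lit 156) (nat_lit 380) (nat_lit 0) (XT.nd (nat_lit 78) (nat_lit 456) (nat_lit 0) (XT.lf (nat_lit 0) (nat_lit 743945733) (nat_lit 456) (nat_lit 6428973716) (nat_lit 76) (nat_lit 2394525397) (nat_lit 232) (nat_lit 5) (nat_lit 238) (nat_lit 5) (nat_lit 233) (nat_lit 5) (nat_lit 446) (nat_lit 401) (nat_lit 353)) (XT.lf (nat_lit 0) (nat_lit 67493695) (nat_lit 456) (nat_lit 3540493085) (nat_lit 532) (nat_lit 6101011672) (nat_lit 226) (nat_lit 5) (nat_lit 232) (nat_lit 5) (nat_lit 233) (nat_lit 5) (nat_lit 447) (nat_lit 401)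 (nat_lit 352))) (XT.nd (nat_lit 78) (nat_lit 380) (nat_lit 0) (XT.lf (nat_lit 0) (nat_lit 6577936734) (nat_lit 532) (nat_lit 3028982788) (nat_lit 76) (nat_lit 247281186) (nat_lit 226) (nat_lit 5) (nat_lit 233) (nat_lit 5) (nat_lit 227) (nat_lit 5) (nat_lit 448) (nat_lit 401) (nat_lit 351)) (XT.lf (nat_lit 0) (nat_lit 3757859232) (nat_lit 380) (nat_lit 5904180504) (nat_lit 456) (nat_lit 340969282) (nat_lit 221) (nat_lit 5) (nat_lit 226) (nat_lit 5) (nat_lit 227) (nat_lit 5) (nat_lit 449) (nat_lit 401) (nat_lit 350)))) (XT.nd (nat_lit 156) (nat_lit 836) (nat_lit 0) (XT.nd (nat_lit 78) (nat_lit 0) (nat_lit 0) (XT.lf (nat_lit 0) (nat_lit 577583887) (nat_lit 380) (nat_lit 2043075735) (nat_lit 456) (nat_lit 7535131397) (nat_lit 215) (nat_lit 5) (nat_lit 220) (nat_lit 5) (nat_lit 221) (nat_lit 5) (nat_lit 450) (nat_lit 401) (nat_lit 349)) (XT.lf (nat_lit 0) (nat_lit 5701314231) (nat_lit 456) (nat_lit 2664045552) (nat_lit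 76) (nat_lit 1946586005) (nat_lit 215) (nat_lit 5) (nat_lit 221) (nat_lit 5) (nat_lit 216) (nat_lit 5) (nat_lit 451) (nat_lit 401) (nat_lit 348))) (XT.nd (nat_lit 78) (nat_lit 456) (nat_lit 0) (XT.lf (nat_lit 0) (nat_lit 4463033114) (nat_lit 380) (nat_lit 4430555484) (nat_lit 456) (nat_lit 1578622042) (nat_lit 210) (nat_lit 5) (nat_lit 215) (nat_lit 5) (nat_lit 216) (nat_lit 5) (nat_lit 452) (nat_lit 401) (nat_lit 347)) (XT.lf (nat_lit 0) (nat_lit 1168102556) (nat_lit 380) (nat_lit 340842101) (nat_lit 456) (nat_lit 9128052803) (nat_lit 204) (nat_lit 5) (nat_lit 209) (nat_lit 5) (nat_lit 210) (nat_lit 5) (nat_lit 453) (nat_lit 401) (nat_lit 346))))))) (XT.nd (nat_lit 1248) (nat_lit 2356) (nat_lit 0) (XT.nd (nat_lit 624) (nat_lit 1672) (nat_lit 0) (XT.nd (nat_lit 312) (nat_lit 988) (nat_lit 0) (XT.nd (nat_lit 156) (nat_lit 380) (nat_lit 0) (XT.nd (nat_lit 78) (nat_lit 304) (nat_lit 0) (XT.lf (nat_lit 0) (nat_lit 4712754857)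 (nat_lit 456) (nat_lit 2236621394) (nat_lit 76) (nat_lit 3855223701) (nat_lit 204) (nat_lit 5) (nat_lit 210) (nat_lit 5) (nat_lit 205) (nat_lit 5) (nat_lit 454) (nat_lit 401) (nat_lit 345)) (XT.lf (nat_lit 0) (nat_lit 5251378496) (nat_lit 304) (nat_lit 2773259562) (nat_lit 380) (nat_lit 2952234981) (nat_lit 200) (nat_lit 5) (nat_lit 204) (nat_lit 5) (nat_lit 205) (nat_lit 5) (nat_lit 455) (nat_lit 401) (nat_lit 344))) (XT.nd (nat_lit 78) (nat_lit 0) (nat_lit 0) (XT.lf (nat_lit 0) (nat_lit 289728962) (nat_lit 380) (nat_lit 9340807302) (nat_lit 76) (nat_lit 1523288272) (nat_lit 195) (nat_lit 5) (nat_lit 200) (nat_lit 5) (nat_lit 196) (nat_lit 5) (nat_lit 456) (nat_lit 401) (nat_lit 343)) (XT.lf (nat_lit 0) (nat_lit 3614256863) (nat_lit 380) (nat_lit 1757594045) (nat_lit 76) (nat_lit 5962018681) (nat_lit 195) (nat_lit 5) (nat_lit 200) (nat_lit 5) (nat_lit 196) (nat_lit 5) (nat_lit 457) (nat_lit 401) (nat_lit 342))))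 (XT.nd (nat_lit 156) (nat_lit 380) (nat_lit 0) (XT.nd (nat_lit 78) (nat_lit 304) (nat_lit 0) (XT.lf (nat_lit 0) (nat_lit 6113148016) (nat_lit 304) (nat_lit 944131356) (nat_lit 380) (nat_lit 4461474997) (nat_lit 191) (nat_lit 5) (nat_lit 195) (nat_lit 5) (nat_lit 196) (nat_lit 5) (nat_lit 458) (nat_lit 401) (nat_lit 341)) (XT.lf (nat_lit 0) (nat_lit 2501589990) (nat_lit 304) (nat_lit 8139147940) (nat_lit 380) (nat_lit 1067334509) (nat_lit 187) (nat_lit 5) (nat_lit 191) (nat_lit 5) (nat_lit 192) (nat_lit 5) (nat_lit 459) (nat_lit 401) (nat_lit 340))) (XT.nd (nat_lit 78) (nat_lit 304) (nat_lit 0) (XT.lf (nat_lit 0) (nat_lit 2406322368) (nat_lit 380) (nat_lit 1237728464) (nat_lit 76) (nat_lit 8257567391) (nat_lit 186) (nat_lit 5) (nat_lit 191) (nat_lit 5) (nat_lit 187) (nat_lit 5) (nat_lit 460) (nat_lit 401) (nat_lit 339)) (XT.lf (nat_lit 0) (nat_lit 6002214202) (nat_lit 380) (nat_lit 5071090793) (nat_lit 76) (nat_lit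 1026165038) (nat_lit 182) (nat_lit 5) (nat_lit 187) (nat_lit 5) (nat_lit 183) (nat_lit 5) (nat_lit 461) (nat_lit 401) (nat_lit 338))))) (XT.nd (nat_lit 312) (nat_lit 760) (nat_lit 0) (XT.nd (nat_lit 156) (nat_lit 532) (nat_lit 0) (XT.nd (nat_lit 78) (nat_lit 76) (nat_lit 0) (XT.lf (nat_lit 0) (nat_lit 3233350133) (nat_lit 304) (nat_lit 6514541685) (nat_lit 380) (nat_lit 2554109293) (nat_lit 178) (nat_lit 5) (nat_lit 182) (nat_lit 5) (nat_lit 183) (nat_lit 5) (nat_lit 462) (nat_lit 401) (nat_lit 337)) (XT.lf (nat_lit 0) (nat_lit 1087974636) (nat_lit 380) (nat_lit 687909538) (nat_lit 76) (nat_lit 10733988498) (nat_lit 177) (nat_lit 5) (nat_lit 182) (nat_lit 5) (nat_lit 178) (nat_lit 5) (nat_lit 463) (nat_lit 401) (nat_lit 336))) (XT.nd (nat_lit 78) (nat_lit 304) (nat_lit 0) (XT.lf (nat_lit 0) (nat_lit 4859128444) (nat_lit 304) (nat_lit 4734206701) (nat_lit 76) (nat_lit 3127753214) (nat_lit 174) (nat_lit 5) (nat_lit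 178) (nat_lit 5) (nat_lit 175) (nat_lit 5) (nat_lit 464) (nat_lit 401) (nat_lit 335)) (XT.lf (nat_lit 0) (nat_lit 4000703864) (nat_lit 304) (nat_lit 4769496630) (nat_lit 380) (nat_lit 4167637388) (nat_lit 170) (nat_lit 5) (nat_lit 174) (nat_lit 5) (nat_lit 175) (nat_lit 5) (nat_lit 465) (nat_lit 401) (nat_lit 334)))) (XT.nd (nat_lit 156) (nat_lit 456) (nat_lit 0) (XT.nd (nat_lit 78) (nat_lit 304) (nat_lit 0) (XT.lf (nat_lit 0) (nat_lit 12812835229) (nat_lit 380) (nat_lit 124942870) (nat_lit 76) (nat_lit 222885724) (nat_lit 170) (nat_lit 5) (nat_lit 175) (nat_lit 5) (nat_lit 171) (nat_lit 5) (nat_lit 466) (nat_lit 401) (nat_lit 333)) (XT.lf (nat_lit 0) (nat_lit 3616624769) (nat_lit 304) (nat_lit 4398098559) (nat_lit 76) (nat_lit 5371416602) (nat_lit 166) (nat_lit 5) (nat_lit 170) (nat_lit 5) (nat_lit 167) (nat_lit 5) (nat_lit 467) (nat_lit 401) (nat_lit 332))) (XT.nd (nat_lit 78) (nat_lit 228) (nat_lit 0) (XT.lf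 (nat_lit 0) (nat_lit 4792623620) (nat_lit 228) (nat_lit 2912968779) (nat_lit 304) (nat_lit 5912308234) (nat_lit 163) (nat_lit 5) (nat_lit 166) (nat_lit 5) (nat_lit 167) (nat_lit 5) (nat_lit 468) (nat_lit 401) (nat_lit 331)) (XT.lf (nat_lit 0) (nat_lit 422892679) (nat_lit 228) (nat_lit 11531267372) (nat_lit 304) (nat_lit 1901346928) (nat_lit 160) (nat_lit 5) (nat_lit 163) (nat_lit 5) (nat_lit 164) (nat_lit 5) (nat_lit 469) (nat_lit 401) (nat_lit 330)))))) (XT.nd (nat_lit 624) (nat_lit 1064) (nat_lit 0) (XT.nd (nat_lit 312) (nat_lit 684) (nat_lit 0) (XT.nd (nat_lit 156) (nat_lit 304) (nat_lit 0) (XT.nd (nat_lit 78) (nat_lit 228) (nat_lit 0) (XT.lf (nat_lit 0) (nat_lit 2270904196) (nat_lit 304) (nat_lit 4075793359) (nat_lit 76) (nat_lit 7750367347) (nat_lit 159) (nat_lit 5) (nat_lit 163) (nat_lit 5) (nat_lit 160) (nat_lit 5) (nat_lit 470) (nat_lit 401) (nat_lit 329)) (XT.lf (nat_lit 0) (nat_lit 5597292303) (nat_lit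 228) (nat_lit 953254501) (nat_lit 304) (nat_lit 7794145518) (nat_lit 156) (nat_lit 5) (nat_lit 159) (nat_lit 5) (nat_lit 160) (nat_lit 5) (nat_lit 471) (nat_lit 401) (nat_lit 328))) (XT.nd (nat_lit 78) (nat_lit 76) (nat_lit 0) (XT.lf (nat_lit 0) (nat_lit 964703678) (nat_lit 228) (nat_lit 10055829337) (nat_lit 304) (nat_lit 3577357589) (nat_lit 153) (nat_lit 5) (nat_lit 156) (nat_lit 5) (nat_lit 157) (nat_lit 5) (nat_lit 472) (nat_lit 401) (nat_lit 327)) (XT.lf (nat_lit 0) (nat_lit 816627173) (nat_lit 304) (nat_lit 3781427069) (nat_lit 76) (nat_lit 10258441164) (nat_lit 152) (nat_lit 5) (nat_lit 156) (nat_lit 5) (nat_lit 153) (nat_lit 5) (nat_lit 473) (nat_lit 401) (nat_lit 326)))) (XT.nd (nat_lit 156) (nat_lit 304) (nat_lit 0) (XT.nd (nat_lit 78) (nat_lit 152) (nat_lit 0) (XT.lf (nat_lit 0) (nat_lit 5310615324) (nat_lit 304) (nat_lit 8729706818) (nat_lit 76) (nat_lit 1080271686) (nat_lit 149) (nat_lit 5) (nat_lit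 153) (nat_lit 5) (nat_lit 150) (nat_lit 5) (nat_lit 474) (nat_lit 401) (nat_lit 325)) (XT.lf (nat_lit 0) (nat_lit 1483654200) (nat_lit 152) (nat_lit 8522292422) (nat_lit 228) (nat_lit 5384673471) (nat_lit 147) (nat_lit 5) (nat_lit 149) (nat_lit 5) (nat_lit 150) (nat_lit 5) (nat_lit 475) (nat_lit 401) (nat_lit 324))) (XT.nd (nat_lit 78) (nat_lit 304) (nat_lit 0) (XT.lf (nat_lit 0) (nat_lit 12129083745) (nat_lit 152) (nat_lit 2769795191) (nat_lit 228) (nat_lit 768166553) (nat_lit 147) (nat_lit 5) (nat_lit 149) (nat_lit 5) (nat_lit 150) (nat_lit 5) (nat_lit 476) (nat_lit 401) (nat_lit 323)) (XT.lf (nat_lit 0) (nat_lit 3978557689) (nat_lit 304) (nat_lit 8788869903) (nat_lit 76) (nat_lit 3181101294) (nat_lit 143) (nat_lit 5) (nat_lit 147) (nat_lit 5) (nat_lit 144) (nat_lit 5) (nat_lit 477) (nat_lit 401) (nat_lit 322))))) (XT.nd (nat_lit 312) (nat_lit 456) (nat_lit 0) (XT.nd (nat_lit 156) (nat_lit 456) (nat_lit 0) (XT.nd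 (nat_lit 78) (nat_lit 0) (nat_lit 0) (XT.lf (nat_lit 0) (nat_lit 1963747131) (nat_lit 152) (nat_lit 6940271197) (nat_lit 228) (nat_lit 7332657594) (nat_lit 141) (nat_lit 5) (nat_lit 143) (nat_lit 5) (nat_lit 144) (nat_lit 5) (nat_lit 478) (nat_lit 401) (nat_lit 321)) (XT.lf (nat_lit 0) (nat_lit 13167083282) (nat_lit 152) (nat_lit 868694640) (nat_lit 228) (nat_lit 2495933908) (nat_lit 141) (nat_lit 5) (nat_lit 143) (nat_lit 5) (nat_lit 144) (nat_lit 5) (nat_lit 479) (nat_lit 401) (nat_lit 320))) (XT.nd (nat_lit 78) (nat_lit 152) (nat_lit 0) (XT.lf (nat_lit 0) (nat_lit 2536738483) (nat_lit 304) (nat_lit 8934947873) (nat_lit 76) (nat_lit 5360215392) (nat_lit 137) (nat_lit 5) (nat_lit 141) (nat_lit 5) (nat_lit 138) (nat_lit 5) (nat_lit 480) (nat_lit 401) (nat_lit 319)) (XT.lf (nat_lit 0) (nat_lit 2386936156) (nat_lit 152) (nat_lit 5319692497) (nat_lit 228) (nat_lit 9432635713) (nat_lit 135) (nat_lit 5) (nat_lit 137)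 (nat_lit 5) (nat_lit 138) (nat_lit 5) (nat_lit 481) (nat_lit 401) (nat_lit 318)))) (XT.nd (nat_lit 156) (nat_lit 152) (nat_lit 0) (XT.nd (nat_lit 78) (nat_lit 304) (nat_lit 0) (XT.lf (nat_lit 0) (nat_lit 13103215715) (nat_lit 228) (nat_lit 3283605967) (nat_lit 76) (nat_lit 1066878630) (nat_lit 135) (nat_lit 5) (nat_lit 138) (nat_lit 5) (nat_lit 136) (nat_lit 5) (nat_lit 482) (nat_lit 401) (nat_lit 317)) (XT.lf (nat_lit 0) (nat_lit 974779512) (nat_lit 304) (nat_lit 9189641296) (nat_lit 76) (nat_lit 7609656964) (nat_lit 131) (nat_lit 5) (nat_lit 135) (nat_lit 5) (nat_lit 132) (nat_lit 5) (nat_lit 483) (nat_lit 401) (nat_lit 316))) (XT.nd (nat_lit 78) (nat_lit 0) (nat_lit 0) (XT.lf (nat_lit 0) (nat_lit 2732672316) (nat_lit 152) (nat_lit 3671077672) (nat_lit 228) (nat_lit 11698083094) (nat_lit 129) (nat_lit 5) (nat_lit 131) (nat_lit 5) (nat_lit 132) (nat_lit 5) (nat_lit 484) (nat_lit 401) (nat_lit 315)) (XT.lf (nat_lit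 0) (nat_lit 12090085564) (nat_lit 228) (nat_lit 3315676351) (nat_lit 76) (nat_lit 3030824662) (nat_lit 129) (nat_lit 5) (nat_lit 132) (nat_lit 5) (nat_lit 130) (nat_lit 5) (nat_lit 485) (nat_lit 401) (nat_lit 314))))))))
noncomputable def xc98 : XT := (XT.nd (nat_lit 2418) (nat_lit 2204) (nat_lit 0) (XT.nd (nat_lit 1170) (nat_lit 1672) (nat_lit 0) (XT.nd (nat_lit 546) (nat_lit 912) (nat_lit 0) (XT.nd (nat_lit 234) (nat_lit 532) (nat_lit 0) (XT.nd (nat_lit 78) (nat_lit 228) (nat_lit 0) (XT.lf (nat_lit 0) (nat_lit 9193777228) (nat_lit 152) (nat_lit 8850557452) (nat_lit 228) (nat_lit 734128684) (nat_lit 127) (nat_lit 5) (nat_lit 129) (nat_lit 5) (nat_lit 130) (nat_lit 5) (nat_lit 486) (nat_lit 401) (nat_lit 313)) (XT.nd (nat_lit 78) (nat_lit 0) (nat_lit 0) (XT.lf (nat_lit 0) (nat_lit 2977388682) (nat_lit 152) (nat_lit 2005848517) (nat_lit 228) (nat_lit 14144851293) (nat_lit 124) (nat_lit 5) (nat_lit 126) (nat_lit 5)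 (nat_lit 127) (nat_lit 5) (nat_lit 487) (nat_lit 401) (nat_lit 312)) (XT.lf (nat_lit 0) (nat_lit 10976395257) (nat_lit 228) (nat_lit 3478097807) (nat_lit 76) (nat_lit 5029920819) (nat_lit 124) (nat_lit 5) (nat_lit 127) (nat_lit 5) (nat_lit 125) (nat_lit 5) (nat_lit 488) (nat_lit 401) (nat_lit 311)))) (XT.nd (nat_lit 156) (nat_lit 152) (nat_lit 0) (XT.nd (nat_lit 78) (nat_lit 228) (nat_lit 0) (XT.lf (nat_lit 0) (nat_lit 9696574742) (nat_lit 152) (nat_lit 7539428707) (nat_lit 228) (nat_lit 2612826271) (nat_lit 122) (nat_lit 5) (nat_lit 124) (nat_lit 5) (nat_lit 125) (nat_lit 5) (nat_lit 489) (nat_lit 401) (nat_lit 310)) (XT.lf (nat_lit 0) (nat_lit 3093911901) (nat_lit 152) (nat_lit 336663316) (nat_lit 228) (nat_lit 16791439925) (nat_lit 119) (nat_lit 5) (nat_lit 121) (nat_lit 5) (nat_lit 122) (nat_lit 5) (nat_lit 490) (nat_lit 401) (nat_lit 309))) (XT.nd (nat_lit 78) (nat_lit 152) (nat_lit 0) (XT.lf (nat_lit 0) (nat_lit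 9748132944) (nat_lit 228) (nat_lit 3800344255) (nat_lit 76) (nat_lit 7052782078) (nat_lit 119) (nat_lit 5) (nat_lit 122) (nat_lit 5) (nat_lit 120) (nat_lit 5) (nat_lit 491) (nat_lit 401) (nat_lit 308)) (XT.lf (nat_lit 0) (nat_lit 10074250735) (nat_lit 152) (nat_lit 6255662373) (nat_lit 228) (nat_lit 4659727065) (nat_lit 117) (nat_lit 5) (nat_lit 119) (nat_lit 5) (nat_lit 120) (nat_lit 5) (nat_lit 492) (nat_lit 401) (nat_lit 307))))) (XT.nd (nat_lit 312) (nat_lit 380) (nat_lit 0) (XT.nd (nat_lit 156) (nat_lit 304) (nat_lit 0) (XT.nd (nat_lit 78) (nat_lit 0) (nat_lit 0) (XT.lf (nat_lit 0) (nat_lit 1741287796) (nat_lit 228) (nat_lit 18349819441) (nat_lit 76) (nat_lit 1296408691) (nat_lit 114) (nat_lit 5) (nat_lit 117) (nat_lit 5) (nat_lit 115) (nat_lit 5) (nat_lit 493) (nat_lit 401) (nat_lit 306)) (XT.lf (nat_lit 0) (nat_lit 8388605285) (nat_lit 228) (nat_lit 4316458138) (nat_lit 76) (nat_lit 9086442897) (nat_lit 114)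 (nat_lit 5) (nat_lit 117) (nat_lit 5) (nat_lit 115) (nat_lit 5) (nat_lit 494) (nat_lit 401) (nat_lit 305))) (XT.nd (nat_lit 78) (nat_lit 152) (nat_lit 0) (XT.lf (nat_lit 0) (nat_lit 10293720905) (nat_lit 152) (nat_lit 5015984015) (nat_lit 228) (nat_lit 6895680900) (nat_lit 112) (nat_lit 5) (nat_lit 114) (nat_lit 5) (nat_lit 115) (nat_lit 5) (nat_lit 495) (nat_lit 401) (nat_lit 304)) (XT.lf (nat_lit 0) (nat_lit 2781096230) (nat_lit 152) (nat_lit 19731512199) (nat_lit 228) (nat_lit 116848417) (nat_lit 110) (nat_lit 5) (nat_lit 112) (nat_lit 5) (nat_lit 113) (nat_lit 4) (nat_lit 496) (nat_lit 401) (nat_lit 303)))) (XT.nd (nat_lit 156) (nat_lit 152) (nat_lit 0) (XT.nd (nat_lit 78) (nat_lit 152) (nat_lit 0) (XT.lf (nat_lit 0) (nat_lit 6878068908) (nat_lit 228) (nat_lit 5065859207) (nat_lit 76) (nat_lit 11115941697) (nat_lit 109) (nat_lit 5) (nat_lit 112) (nat_lit 5) (nat_lit 110) (nat_lit 5) (nat_lit 497) (nat_lit 401)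 (nat_lit 302)) (XT.lf (nat_lit 0) (nat_lit 10316399249) (nat_lit 152) (nat_lit 3839514627) (nat_lit 228) (nat_lit 9344983967) (nat_lit 107) (nat_lit 5) (nat_lit 109) (nat_lit 5) (nat_lit 110) (nat_lit 5) (nat_lit 498) (nat_lit 401) (nat_lit 301))) (XT.nd (nat_lit 78) (nat_lit 76) (nat_lit 0) (XT.lf (nat_lit 0) (nat_lit 2266788060) (nat_lit 76) (nat_lit 19478434514) (nat_lit 152) (nat_lit 2207140528) (nat_lit 106) (nat_lit 5) (nat_lit 107) (nat_lit 5) (nat_lit 108) (nat_lit 4) (nat_lit 499) (nat_lit 401) (nat_lit 300)) (XT.lf (nat_lit 0) (nat_lit 5193296505) (nat_lit 152) (nat_lit 6094276706) (nat_lit 76) (nat_lit 13123850095) (nat_lit 105) (nat_lit 5) (nat_lit 107) (nat_lit 5) (nat_lit 106) (nat_lit 5) (nat_lit 500) (nat_lit 401) (nat_lit 299)))))) (XT.nd (nat_lit 624) (nat_lit 912) (nat_lit 0) (XT.nd (nat_lit 312) (nat_lit 304) (nat_lit 0) (XT.nd (nat_lit 156) (nat_lit 228) (nat_lit 0) (XT.nd (nat_lit 78) (nat_lit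 76) (nat_lit 0) (XT.lf (nat_lit 0) (nat_lit 10097229761) (nat_lit 152) (nat_lit 2748286049) (nat_lit 228) (nat_lit 12035860222) (nat_lit 103) (nat_lit 5) (nat_lit 105) (nat_lit 5) (nat_lit 106) (nat_lit 5) (nat_lit 501) (nat_lit 401) (nat_lit 298)) (XT.lf (nat_lit 0) (nat_lit 1462849785) (nat_lit 76) (nat_lit 19375934906) (nat_lit 152) (nat_lit 4523298368) (nat_lit 102) (nat_lit 5) (nat_lit 103) (nat_lit 5) (nat_lit 104) (nat_lit 4) (nat_lit 502) (nat_lit 401) (nat_lit 297))) (XT.nd (nat_lit 78) (nat_lit 152) (nat_lit 0) (XT.lf (nat_lit 0) (nat_lit 3307067908) (nat_lit 152) (nat_lit 7454825454) (nat_lit 76) (nat_lit 15089736399) (nat_lit 101) (nat_lit 5) (nat_lit 103) (nat_lit 5) (nat_lit 102) (nat_lit 5) (nat_lit 503) (nat_lit 401) (nat_lit 296)) (XT.lf (nat_lit 0) (nat_lit 9583567405) (nat_lit 152) (nat_lit 1767828818) (nat_lit 228) (nat_lit 15001024334) (nat_lit 99) (nat_lit 5) (nat_lit 101) (nat_lit 5) (nat_lit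 102) (nat_lit 5) (nat_lit 504) (nat_lit 401) (nat_lit 295)))) (XT.nd (nat_lit 156) (nat_lit 152) (nat_lit 0) (XT.nd (nat_lit 78) (nat_lit 76) (nat_lit 0) (XT.lf (nat_lit 0) (nat_lit 311593483) (nat_lit 76) (nat_lit 19454443629) (nat_lit 152) (nat_lit 7098328672) (nat_lit 98) (nat_lit 5) (nat_lit 99) (nat_lit 5) (nat_lit 100) (nat_lit 4) (nat_lit 505) (nat_lit 401) (nat_lit 294)) (XT.lf (nat_lit 0) (nat_lit 1187574868) (nat_lit 152) (nat_lit 9209249500) (nat_lit 76) (nat_lit 16989551363) (nat_lit 97) (nat_lit 5) (nat_lit 99) (nat_lit 5) (nat_lit 98) (nat_lit 5) (nat_lit 506) (nat_lit 401) (nat_lit 293))) (XT.nd (nat_lit 78) (nat_lit 0) (nat_lit 0) (XT.lf (nat_lit 0) (nat_lit 8713883556) (nat_lit 152) (nat_lit 927845426) (nat_lit 228) (nat_lit 18278338466) (nat_lit 95) (nat_lit 5) (nat_lit 97) (nat_lit 5) (nat_lit 98) (nat_lit 5) (nat_lit 507) (nat_lit 401) (nat_lit 292)) (XT.lf (nat_lit 0) (nat_lit 18506894132) (nat_lit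 228) (nat_lit 1229754615) (nat_lit 76) (nat_lit 8728399745) (nat_lit 95) (nat_lit 5) (nat_lit 98) (nat_lit 5) (nat_lit 96) (nat_lit 4) (nat_lit 508) (nat_lit 401) (nat_lit 291))))) (XT.nd (nat_lit 312) (nat_lit 532) (nat_lit 0) (XT.nd (nat_lit 156) (nat_lit 76) (nat_lit 0) (XT.nd (nat_lit 78) (nat_lit 228) (nat_lit 0) (XT.lf (nat_lit 0) (nat_lit 17580508189) (nat_lit 76) (nat_lit 10214946509) (nat_lit 152) (nat_lit 1226201217) (nat_lit 94) (nat_lit 5) (nat_lit 95) (nat_lit 5) (nat_lit 96) (nat_lit 4) (nat_lit 509) (nat_lit 401) (nat_lit 290)) (XT.lf (nat_lit 0) (nat_lit 7416267170) (nat_lit 152) (nat_lit 262983863) (nat_lit 228) (nat_lit 21911577145) (nat_lit 91) (nat_lit 5) (nat_lit 93) (nat_lit 5) (nat_lit 94) (nat_lit 5) (nat_lit 510) (nat_lit 401) (nat_lit 289))) (XT.nd (nat_lit 78) (nat_lit 76) (nat_lit 0) (XT.lf (nat_lit 0) (nat_lit 17019241548) (nat_lit 228) (nat_lit 3248373345) (nat_lit 76) (nat_lit 9903336042)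 (nat_lit 91) (nat_lit 5) (nat_lit 94) (nat_lit 5) (nat_lit 92) (nat_lit 4) (nat_lit 511) (nat_lit 401) (nat_lit 288)) (XT.lf (nat_lit 0) (nat_lit 16527240253) (nat_lit 76) (nat_lit 10253603863) (nat_lit 152) (nat_lit 3983391032) (nat_lit 90) (nat_lit 5) (nat_lit 91) (nat_lit 5) (nat_lit 92) (nat_lit 4) (nat_lit 512) (nat_lit 401) (nat_lit 287)))) (XT.nd (nat_lit 156) (nat_lit 304) (nat_lit 0) (XT.nd (nat_lit 78) (nat_lit 0) (nat_lit 0) (XT.lf (nat_lit 0) (nat_lit 5422207640) (nat_lit 228) (nat_lit 25766836032) (nat_lit 76) (nat_lit 182636576) (nat_lit 87) (nat_lit 5) (nat_lit 90) (nat_lit 5) (nat_lit 88) (nat_lit 4) (nat_lit 513) (nat_lit 401) (nat_lit 286)) (XT.lf (nat_lit 0) (nat_lit 15256629476) (nat_lit 228) (nat_lit 5839967681) (nat_lit 76) (nat_lit 10892766965) (nat_lit 87) (nat_lit 5) (nat_lit 90) (nat_lit 5) (nat_lit 88) (nat_lit 4) (nat_lit 514) (nat_lit 401) (nat_lit 285))) (XT.nd (nat_lit 78) (nat_lit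 228) (nat_lit 0) (XT.lf (nat_lit 0) (nat_lit 14939005846) (nat_lit 76) (nat_lit 10571270725) (nat_lit 152) (nat_lit 7111576293) (nat_lit 86) (nat_lit 5) (nat_lit 87) (nat_lit 5) (nat_lit 88) (nat_lit 4) (nat_lit 515) (nat_lit 401) (nat_lit 284)) (XT.lf (nat_lit 0) (nat_lit 2817996930) (nat_lit 228) (nat_lit 30086979981) (nat_lit 76) (nat_lit 365301030) (nat_lit 83) (nat_lit 5) (nat_lit 86) (nat_lit 5) (nat_lit 84) (nat_lit 4) (nat_lit 516) (nat_lit 401) (nat_lit 283))))))) (XT.nd (nat_lit 1248) (nat_lit 1064) (nat_lit 0) (XT.nd (nat_lit 624) (nat_lit 532) (nat_lit 0) (XT.nd (nat_lit 312) (nat_lit 304) (nat_lit 0) (XT.nd (nat_lit 156) (nat_lit 228) (nat_lit 0) (XT.nd (nat_lit 78) (nat_lit 76) (nat_lit 0) (XT.lf (nat_lit 0) (nat_lit 13168168682) (nat_lit 228) (nat_lit 9109012434) (nat_lit 76) (nat_lit 11650893013) (nat_lit 83) (nat_lit 5) (nat_lit 86) (nat_lit 5) (nat_lit 84) (nat_lit 4) (nat_lit 517) (nat_lit 401)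 (nat_lit 282)) (XT.lf (nat_lit 0) (nat_lit 12710123943) (nat_lit 76) (nat_lit 11222113597) (nat_lit 152) (nat_lit 10670265016) (nat_lit 82) (nat_lit 5) (nat_lit 83) (nat_lit 5) (nat_lit 84) (nat_lit 4) (nat_lit 518) (nat_lit 401) (nat_lit 281))) (XT.nd (nat_lit 78) (nat_lit 76) (nat_lit 0) (XT.lf (nat_lit 0) (nat_lit 38180479) (nat_lit 152) (nat_lit 35057142484) (nat_lit 152) (nat_lit 199558150) (nat_lit 80) (nat_lit 4) (nat_lit 82) (nat_lit 5) (nat_lit 82) (nat_lit 4) (nat_lit 519) (nat_lit 401) (nat_lit 280)) (XT.lf (nat_lit 0) (nat_lit 10694350935) (nat_lit 228) (nat_lit 13177266374) (nat_lit 76) (nat_lit 12123892126) (nat_lit 79) (nat_lit 5) (nat_lit 82) (nat_lit 5) (nat_lit 80) (nat_lit 4) (nat_lit 520) (nat_lit 401) (nat_lit 279)))) (XT.nd (nat_lit 156) (nat_lit 228) (nat_lit 0) (XT.nd (nat_lit 78) (nat_lit 0) (nat_lit 0) (XT.lf (nat_lit 0) (nat_lit 9716999273) (nat_lit 76) (nat_lit 12269287219) (nat_lit 152)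 (nat_lit 14728554337) (nat_lit 78) (nat_lit 5) (nat_lit 79) (nat_lit 5) (nat_lit 80) (nat_lit 4) (nat_lit 521) (nat_lit 401) (nat_lit 278)) (XT.lf (nat_lit 0) (nat_lit 33533369455) (nat_lit 76) (nat_lit 198684324) (nat_lit 152) (nat_lit 3720246273) (nat_lit 78) (nat_lit 5) (nat_lit 79) (nat_lit 5) (nat_lit 80) (nat_lit 4) (nat_lit 522) (nat_lit 401) (nat_lit 277))) (XT.nd (nat_lit 78) (nat_lit 76) (nat_lit 0) (XT.lf (nat_lit 0) (nat_lit 7765671946) (nat_lit 152) (nat_lit 18186593782) (nat_lit 76) (nat_lit 12248539813) (nat_lit 76) (nat_lit 5) (nat_lit 78) (nat_lit 5) (nat_lit 77) (nat_lit 4) (nat_lit 523) (nat_lit 401) (nat_lit 276)) (XT.lf (nat_lit 0) (nat_lit 5815173821) (nat_lit 76) (nat_lit 13786443068) (nat_lit 152) (nat_lit 19366637698) (nat_lit 75) (nat_lit 5) (nat_lit 76) (nat_lit 5) (nat_lit 77) (nat_lit 4) (nat_lit 524) (nat_lit 401) (nat_lit 275))))) (XT.nd (nat_lit 312) (nat_lit 304) (nat_lit 0) (XT.nd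 (nat_lit 156) (nat_lit 76) (nat_lit 0) (XT.nd (nat_lit 78) (nat_lit 152) (nat_lit 0) (XT.lf (nat_lit 0) (nat_lit 30875925516) (nat_lit 76) (nat_lit 1082941781) (nat_lit 152) (nat_lit 7794873081) (nat_lit 75) (nat_lit 5) (nat_lit 76) (nat_lit 5) (nat_lit 77) (nat_lit 4) (nat_lit 525) (nat_lit 401) (nat_lit 274)) (XT.lf (nat_lit 0) (nat_lit 4301031168) (nat_lit 152) (nat_lit 24302235960) (nat_lit 76) (nat_lit 11950610562) (nat_lit 73) (nat_lit 5) (nat_lit 75) (nat_lit 5) (nat_lit 74) (nat_lit 4) (nat_lit 526) (nat_lit 401) (nat_lit 273))) (XT.nd (nat_lit 78) (nat_lit 0) (nat_lit 0) (XT.lf (nat_lit 0) (nat_lit 835906510) (nat_lit 76) (nat_lit 15859475843) (nat_lit 152) (nat_lit 24677554368) (nat_lit 72) (nat_lit 5) (nat_lit 73) (nat_lit 5) (nat_lit 74) (nat_lit 4) (nat_lit 527) (nat_lit 401) (nat_lit 272)) (XT.lf (nat_lit 0) (nat_lit 27193434191) (nat_lit 76) (nat_lit 2496660461) (nat_lit 152) (nat_lit 12519617031)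 (nat_lit 72) (nat_lit 5) (nat_lit 73) (nat_lit 5) (nat_lit 74) (nat_lit 4) (nat_lit 528) (nat_lit 401) (nat_lit 271)))) (XT.nd (nat_lit 156) (nat_lit 152) (nat_lit 0) (XT.nd (nat_lit 78) (nat_lit 0) (nat_lit 0) (XT.lf (nat_lit 0) (nat_lit 205873127) (nat_lit 152) (nat_lit 31716604821) (nat_lit 76) (nat_lit 11143024906) (nat_lit 70) (nat_lit 5) (nat_lit 72) (nat_lit 5) (nat_lit 71) (nat_lit 4) (nat_lit 529) (nat_lit 401) (nat_lit 270)) (XT.lf (nat_lit 0) (nat_lit 13222830994) (nat_lit 152) (nat_lit 5312073963) (nat_lit 76) (nat_lit 25403504128) (nat_lit 70) (nat_lit 5) (nat_lit 72) (nat_lit 5) (nat_lit 71) (nat_lit 4) (nat_lit 530) (nat_lit 401) (nat_lit 269))) (XT.nd (nat_lit 78) (nat_lit 76) (nat_lit 0) (XT.lf (nat_lit 0) (nat_lit 22288130352) (nat_lit 76) (nat_lit 4540374780) (nat_lit 152) (nat_lit 18003051213) (nat_lit 69) (nat_lit 5) (nat_lit 70) (nat_lit 5) (nat_lit 71) (nat_lit 4) (nat_lit 531) (nat_lit 401)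 (nat_lit 268)) (XT.lf (nat_lit 0) (nat_lit 5046976548) (nat_lit 76) (nat_lit 35976957729) (nat_lit 76) (nat_lit 4722116269) (nat_lit 68) (nat_lit 4) (nat_lit 69) (nat_lit 5) (nat_lit 69) (nat_lit 4) (nat_lit 532) (nat_lit 401) (nat_lit 267)))))) (XT.nd (nat_lit 624) (nat_lit 532) (nat_lit 0) (XT.nd (nat_lit 312) (nat_lit 228) (nat_lit 0) (XT.nd (nat_lit 156) (nat_lit 152) (nat_lit 0) (XT.nd (nat_lit 78) (nat_lit 76) (nat_lit 0) (XT.lf (nat_lit 0) (nat_lit 9041304356) (nat_lit 152) (nat_lit 12918668831) (nat_lit 76) (nat_lit 24717658000) (nat_lit 67) (nat_lit 5) (nat_lit 69) (nat_lit 5) (nat_lit 68) (nat_lit 4) (nat_lit 533) (nat_lit 401) (nat_lit 266)) (XT.lf (nat_lit 0) (nat_lit 15928719376) (nat_lit 76) (nat_lit 7331574444) (nat_lit 152) (nat_lit 24371335597) (nat_lit 66) (nat_lit 5) (nat_lit 67) (nat_lit 5) (nat_lit 68) (nat_lit 4) (nat_lit 534) (nat_lit 401) (nat_lit 265))) (XT.nd (nat_lit 78) (nat_lit 152)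 (nat_lit 0) (XT.lf (nat_lit 0) (nat_lit 38096437146) (nat_lit 152) (nat_lit 2810158426) (nat_lit 0) (nat_lit 7701934557) (nat_lit 66) (nat_lit 5) (nat_lit 68) (nat_lit 4) (nat_lit 66) (nat_lit 4) (nat_lit 535) (nat_lit 401) (nat_lit 264)) (XT.lf (nat_lit 0) (nat_lit 4013402697) (nat_lit 152) (nat_lit 22262999314) (nat_lit 76) (nat_lit 23327533637) (nat_lit 64) (nat_lit 5) (nat_lit 66) (nat_lit 5) (nat_lit 65) (nat_lit 4) (nat_lit 536) (nat_lit 401) (nat_lit 263)))) (XT.nd (nat_lit 156) (nat_lit 152) (nat_lit 0) (XT.nd (nat_lit 78) (nat_lit 0) (nat_lit 0) (XT.lf (nat_lit 0) (nat_lit 7844896209) (nat_lit 76) (nat_lit 11007492852) (nat_lit 152) (nat_lit 31771021669) (nat_lit 63) (nat_lit 5) (nat_lit 64) (nat_lit 5) (nat_lit 65) (nat_lit 4) (nat_lit 537) (nat_lit 401) (nat_lit 262)) (XT.lf (nat_lit 0) (nat_lit 34393908162) (nat_lit 152) (nat_lit 12431579795) (nat_lit 0) (nat_lit 4840261266) (nat_lit 63) (nat_lit 5)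 (nat_lit 65) (nat_lit 4) (nat_lit 63) (nat_lit 4) (nat_lit 538) (nat_lit 401) (nat_lit 261))) (XT.nd (nat_lit 78) (nat_lit 76) (nat_lit 0) (XT.lf (nat_lit 0) (nat_lit 19059909324) (nat_lit 76) (nat_lit 31619360284) (nat_lit 76) (nat_lit 2051760410) (nat_lit 62) (nat_lit 4) (nat_lit 63) (nat_lit 5) (nat_lit 63) (nat_lit 4) (nat_lit 539) (nat_lit 401) (nat_lit 260)) (XT.lf (nat_lit 0) (nat_lit 13471233148) (nat_lit 152) (nat_lit 2234543164) (nat_lit 76) (nat_lit 38115198387) (nat_lit 61) (nat_lit 5) (nat_lit 63) (nat_lit 5) (nat_lit 62) (nat_lit 4) (nat_lit 540) (nat_lit 401) (nat_lit 259))))) (XT.nd (nat_lit 312) (nat_lit 228) (nat_lit 0) (XT.nd (nat_lit 156) (nat_lit 152) (nat_lit 0) (XT.nd (nat_lit 78) (nat_lit 76) (nat_lit 0) (XT.lf (nat_lit 0) (nat_lit 29709151455) (nat_lit 152) (nat_lit 24248319842) (nat_lit 0) (nat_lit 976822837) (nat_lit 60) (nat_lit 5) (nat_lit 62) (nat_lit 4) (nat_lit 60) (nat_lit 4) (nat_lit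 541) (nat_lit 401) (nat_lit 258)) (XT.lf (nat_lit 0) (nat_lit 8542566564) (nat_lit 76) (nat_lit 38137892371) (nat_lit 76) (nat_lit 9393166713) (nat_lit 59) (nat_lit 4) (nat_lit 60) (nat_lit 5) (nat_lit 60) (nat_lit 4) (nat_lit 542) (nat_lit 401) (nat_lit 257))) (XT.nd (nat_lit 78) (nat_lit 76) (nat_lit 0) (XT.lf (nat_lit 0) (nat_lit 7011992664) (nat_lit 152) (nat_lit 14522416512) (nat_lit 76) (nat_lit 35703740095) (nat_lit 58) (nat_lit 5) (nat_lit 60) (nat_lit 5) (nat_lit 59) (nat_lit 4) (nat_lit 543) (nat_lit 401) (nat_lit 256)) (XT.lf (nat_lit 0) (nat_lit 19741539576) (nat_lit 76) (nat_lit 4155005545) (nat_lit 152) (nat_lit 34532992523) (nat_lit 57) (nat_lit 5) (nat_lit 58) (nat_lit 5) (nat_lit 59) (nat_lit 4) (nat_lit 544) (nat_lit 401) (nat_lit 255)))) (XT.nd (nat_lit 156) (nat_lit 152) (nat_lit 0) (XT.nd (nat_lit 78) (nat_lit 76) (nat_lit 0) (XT.lf (nat_lit 0) (nat_lit 41554144270) (nat_lit 152) (nat_lit 4481929564)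 (nat_lit 0) (nat_lit 13612598571) (nat_lit 57) (nat_lit 5) (nat_lit 59) (nat_lit 4) (nat_lit 57) (nat_lit 4) (nat_lit 545) (nat_lit 401) (nat_lit 254)) (XT.lf (nat_lit 0) (nat_lit 31293435624) (nat_lit 76) (nat_lit 28776663149) (nat_lit 76) (nat_lit 824423654) (nat_lit 56) (nat_lit 4) (nat_lit 57) (nat_lit 5) (nat_lit 57) (nat_lit 4) (nat_lit 546) (nat_lit 401) (nat_lit 253))) (XT.nd (nat_lit 78) (nat_lit 0) (nat_lit 0) (XT.lf (nat_lit 0) (nat_lit 5984409100) (nat_lit 76) (nat_lit 10738266230) (nat_lit 152) (nat_lit 45447483192) (nat_lit 54) (nat_lit 5) (nat_lit 55) (nat_lit 5) (nat_lit 56) (nat_lit 4) (nat_lit 547) (nat_lit 401) (nat_lit 252)) (XT.lf (nat_lit 0) (nat_lit 35143560128) (nat_lit 152) (nat_lit 20343743178) (nat_lit 0) (nat_lit 7985597263) (nat_lit 54) (nat_lit 5) (nat_lit 56) (nat_lit 4) (nat_lit 54) (nat_lit 4) (nat_lit 548) (nat_lit 401) (nat_lit 251))))))))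
noncomputable def xc99 : XT := (XT.nd (nat_lit 53040) (nat_lit 0) (nat_lit 10716) (XT.nd (nat_lit 51792) (nat_lit 0) (nat_lit 21964) (XT.nd (nat_lit 51168) (nat_lit 0) (nat_lit 30324) (XT.nd (nat_lit 234) (nat_lit 76) (nat_lit 0) (XT.nd (nat_lit 78) (nat_lit 152) (nat_lit 0) (XT.lf (nat_lit 0) (nat_lit 16768779722) (nat_lit 76) (nat_lit 37602885767) (nat_lit 76) (nat_lit 10435421603) (nat_lit 53) (nat_lit 4) (nat_lit 54) (nat_lit 5) (nat_lit 54) (nat_lit 4) (nat_lit 549) (nat_lit 401) (nat_lit 250)) (XT.nd (nat_lit 78) (nat_lit 76) (nat_lit 0) (XT.lf (nat_lit 0) (nat_lit 8033851618) (nat_lit 152) (nat_lit 10867969941) (nat_lit 76) (nat_lit 47271335382) (nat_lit 52) (nat_lit 5) (nat_lit 54) (nat_lit 5) (nat_lit 53) (nat_lit 4) (nat_lit 550) (nat_lit 401) (nat_lit 249)) (XT.lf (nat_lit 0) (nat_lit 27109483703) (nat_lit 152) (nat_lit 39744110933) (nat_lit 0) (nat_lit 715653981) (nat_lit 51) (nat_lit 5) (nat_lit 53)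 (nat_lit 4) (nat_lit 51) (nat_lit 4) (nat_lit 551) (nat_lit 401) (nat_lit 248)))) (XT.nd (nat_lit 50778) (nat_lit 0) (nat_lit 31464) (XT.nd (nat_lit 78) (nat_lit 76) (nat_lit 0) (XT.lf (nat_lit 0) (nat_lit 47042837985) (nat_lit 152) (nat_lit 1315255012) (nat_lit 0) (nat_lit 20640566482) (nat_lit 51) (nat_lit 5) (nat_lit 53) (nat_lit 4) (nat_lit 51) (nat_lit 4) (nat_lit 552) (nat_lit 401) (nat_lit 247)) (XT.lf (nat_lit 0) (nat_lit 39003376282) (nat_lit 76) (nat_lit 28933580453) (nat_lit 76) (nat_lit 2523113045) (nat_lit 50) (nat_lit 4) (nat_lit 51) (nat_lit 5) (nat_lit 51) (nat_lit 4) (nat_lit 553) (nat_lit 401) (nat_lit 246))) (XT.nd (nat_lit 78) (nat_lit 228) (nat_lit 0) (XT.lf (nat_lit 0) (nat_lit 2924048858) (nat_lit 228) (nat_lit 152776353) (nat_lit 228) (nat_lit 152776353) (nat_lit 467) (nat_lit 3) (nat_lit 470) (nat_lit 3) (nat_lit 470) (nat_lit 5) (nat_lit 402) (nat_lit 402) (nat_lit 396)) (XT.lf (nat_lit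 0) (nat_lit 2302859704) (nat_lit 228) (nat_lit 3519643697) (nat_lit 304) (nat_lit 646197729) (nat_lit 464) (nat_lit 5) (nat_lit 467) (nat_lit 3) (nat_lit 468) (nat_lit 5) (nat_lit 403) (nat_lit 402) (nat_lit 395))))) (XT.nd (nat_lit 312) (nat_lit 456) (nat_lit 0) (XT.nd (nat_lit 156) (nat_lit 380) (nat_lit 0) (XT.nd (nat_lit 78) (nat_lit 304) (nat_lit 0) (XT.lf (nat_lit 0) (nat_lit 5182026098) (nat_lit 228) (nat_lit 237664921) (nat_lit 304) (nat_lit 1061918878) (nat_lit 464) (nat_lit 5) (nat_lit 467) (nat_lit 3) (nat_lit 468) (nat_lit 5) (nat_lit 404) (nat_lit 402) (nat_lit 394)) (XT.lf (nat_lit 0) (nat_lit 1540090755) (nat_lit 304) (nat_lit 3367245091) (nat_lit 380) (nat_lit 1589511892) (nat_lit 460) (nat_lit 5) (nat_lit 464) (nat_lit 5) (nat_lit 465) (nat_lit 5) (nat_lit 405) (nat_lit 402) (nat_lit 393))) (XT.nd (nat_lit 78) (nat_lit 380) (nat_lit 0) (XT.lf (nat_lit 76) (nat_lit 17157956) (nat_lit 0) (nat_lit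 4316073665) (nat_lit 380) (nat_lit 2182101686) (nat_lit 461) (nat_lit 5) (nat_lit 460) (nat_lit 5) (nat_lit 465) (nat_lit 5) (nat_lit 406) (nat_lit 402) (nat_lit 392)) (XT.lf (nat_lit 0) (nat_lit 590273958) (nat_lit 380) (nat_lit 3030180311) (nat_lit 456) (nat_lit 2915902271) (nat_lit 455) (nat_lit 5) (nat_lit 460) (nat_lit 5) (nat_lit 461) (nat_lit 5) (nat_lit 407) (nat_lit 402) (nat_lit 391)))) (XT.nd (nat_lit 156) (nat_lit 456) (nat_lit 0) (XT.nd (nat_lit 78) (nat_lit 0) (nat_lit 0) (XT.lf (nat_lit 76) (nat_lit 469100082) (nat_lit 0) (nat_lit 2833807534) (nat_lit 456) (nat_lit 3257434142) (nat_lit 456) (nat_lit 5) (nat_lit 455) (nat_lit 5) (nat_lit 461) (nat_lit 5) (nat_lit 408) (nat_lit 402) (nat_lit 390)) (XT.lf (nat_lit 76) (nat_lit 4075762459) (nat_lit 0) (nat_lit 1950634705) (nat_lit 456) (nat_lit 560772616) (nat_lit 456) (nat_lit 5) (nat_lit 455) (nat_lit 5) (nat_lit 461) (nat_lit 5) (nat_lit 409) (nat_lit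 402) (nat_lit 389))) (XT.nd (nat_lit 78) (nat_lit 0) (nat_lit 76) (XT.lf (nat_lit 76) (nat_lit 1116343330) (nat_lit 0) (nat_lit 968762931) (nat_lit 532) (nat_lit 4531716978) (nat_lit 450) (nat_lit 5) (nat_lit 449) (nat_lit 5) (nat_lit 456) (nat_lit 5) (nat_lit 410) (nat_lit 402) (nat_lit 388)) (XT.lf (nat_lit 0) (nat_lit 4728632727) (nat_lit 456) (nat_lit 1811048049) (nat_lit 76) (nat_lit 109639608) (nat_lit 450) (nat_lit 5) (nat_lit 456) (nat_lit 5) (nat_lit 451) (nat_lit 5) (nat_lit 411) (nat_lit 402) (nat_lit 387)))))) (XT.nd (nat_lit 624) (nat_lit 5168) (nat_lit 0) (XT.nd (nat_lit 312) (nat_lit 1520) (nat_lit 0) (XT.nd (nat_lit 156) (nat_lit 1216) (nat_lit 0) (XT.nd (nat_lit 78) (nat_lit 0) (nat_lit 0) (XT.lf (nat_lit 0) (nat_lit 687754011) (nat_lit 532) (nat_lit 4734653228) (nat_lit 76) (nat_lit 1262147622) (nat_lit 443) (nat_lit 5) (nat_lit 450) (nat_lit 5) (nat_lit 444) (nat_lit 5) (nat_lit 412) (nat_lit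 402) (nat_lit 386)) (XT.lf (nat_lit 0) (nat_lit 3261882656) (nat_lit 532) (nat_lit 940754255) (nat_lit 76) (nat_lit 2519864157) (nat_lit 443) (nat_lit 5) (nat_lit 450) (nat_lit 5) (nat_lit 444) (nat_lit 5) (nat_lit 413) (nat_lit 402) (nat_lit 385))) (XT.nd (nat_lit 78) (nat_lit 684) (nat_lit 0) (XT.lf (nat_lit 0) (nat_lit 2964555242) (nat_lit 532) (nat_lit 2887437756) (nat_lit 608) (nat_lit 911436072) (nat_lit 436) (nat_lit 5) (nat_lit 443) (nat_lit 5) (nat_lit 444) (nat_lit 5) (nat_lit 414) (nat_lit 402) (nat_lit 384)) (XT.lf (nat_lit 0) (nat_lit 125451017) (nat_lit 608) (nat_lit 1477546618) (nat_lit 684) (nat_lit 5204431926) (nat_lit 427) (nat_lit 5) (nat_lit 435) (nat_lit 5) (nat_lit 436) (nat_lit 5) (nat_lit 415) (nat_lit 402) (nat_lit 383)))) (XT.nd (nat_lit 156) (nat_lit 836) (nat_lit 0) (XT.nd (nat_lit 78) (nat_lit 684) (nat_lit 0) (XT.lf (nat_lit 0) (nat_lit 4126711966) (nat_lit 684) (nat_lit 2679062201)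 (nat_lit 76) (nat_lit 48145801) (nat_lit 427) (nat_lit 5) (nat_lit 436) (nat_lit 5) (nat_lit 428) (nat_lit 5) (nat_lit 416) (nat_lit 402) (nat_lit 382)) (XT.lf (nat_lit 0) (nat_lit 1394701309) (nat_lit 684) (nat_lit 5275656145) (nat_lit 760) (nat_lit 233126498) (nat_lit 418) (nat_lit 5) (nat_lit 427) (nat_lit 5) (nat_lit 428) (nat_lit 5) (nat_lit 417) (nat_lit 402) (nat_lit 381))) (XT.nd (nat_lit 78) (nat_lit 760) (nat_lit 0) (XT.lf (nat_lit 0) (nat_lit 2234739023) (nat_lit 760) (nat_lit 1393721440) (nat_lit 76) (nat_lit 3327069720) (nat_lit 417) (nat_lit 5) (nat_lit 427) (nat_lit 5) (nat_lit 418) (nat_lit 5) (nat_lit 418) (nat_lit 402) (nat_lit 380)) (XT.lf (nat_lit 0) (nat_lit 2836797533) (nat_lit 760) (nat_lit 1882057345) (nat_lit 836) (nat_lit 2291811673) (nat_lit 407) (nat_lit 5) (nat_lit 417) (nat_lit 5) (nat_lit 418) (nat_lit 5) (nat_lit 419) (nat_lit 402) (nat_lit 379))))) (XT.nd (nat_lit 312) (nat_lit 3268)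 (nat_lit 0) (XT.nd (nat_lit 156) (nat_lit 988) (nat_lit 0) (XT.nd (nat_lit 78) (nat_lit 0) (nat_lit 0) (XT.lf (nat_lit 0) (nat_lit 93403145) (nat_lit 836) (nat_lit 48254226) (nat_lit 912) (nat_lit 6927672214) (nat_lit 395) (nat_lit 5) (nat_lit 406) (nat_lit 5) (nat_lit 407) (nat_lit 5) (nat_lit 420) (nat_lit 402) (nat_lit 378)) (XT.lf (nat_lit 0) (nat_lit 2584811062) (nat_lit 912) (nat_lit 2658946607) (nat_lit 76) (nat_lit 1885836365) (nat_lit 395) (nat_lit 5) (nat_lit 407) (nat_lit 5) (nat_lit 396) (nat_lit 5) (nat_lit 421) (nat_lit 402) (nat_lit 377))) (XT.nd (nat_lit 78) (nat_lit 76) (nat_lit 0) (XT.lf (nat_lit 0) (nat_lit 1759346426) (nat_lit 912) (nat_lit 3284046209) (nat_lit 988) (nat_lit 2150014220) (nat_lit 383) (nat_lit 5) (nat_lit 395) (nat_lit 5) (nat_lit 396) (nat_lit 5) (nat_lit 422) (nat_lit 402) (nat_lit 376)) (XT.lf (nat_lit 0) (nat_lit 263147060) (nat_lit 988) (nat_lit 959869626) (nat_lit 76) (nat_lit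 6037448435) (nat_lit 382) (nat_lit 5) (nat_lit 395) (nat_lit 5) (nat_lit 383) (nat_lit 5) (nat_lit 423) (nat_lit 402) (nat_lit 375)))) (XT.nd (nat_lit 156) (nat_lit 1216) (nat_lit 0) (XT.nd (nat_lit 78) (nat_lit 1064) (nat_lit 0) (XT.lf (nat_lit 0) (nat_lit 2677544283) (nat_lit 1064) (nat_lit 3702191932) (nat_lit 76) (nat_lit 950002736) (nat_lit 369) (nat_lit 5) (nat_lit 383) (nat_lit 5) (nat_lit 370) (nat_lit 5) (nat_lit 424) (nat_lit 402) (nat_lit 374)) (XT.lf (nat_lit 0) (nat_lit 914382957) (nat_lit 1064) (nat_lit 4210076157) (nat_lit 1140) (nat_lit 2277833253) (nat_lit 355) (nat_lit 5) (nat_lit 369) (nat_lit 5) (nat_lit 370) (nat_lit 5) (nat_lit 425) (nat_lit 402) (nat_lit 373))) (XT.nd (nat_lit 78) (nat_lit 1140) (nat_lit 0) (XT.lf (nat_lit 0) (nat_lit 132409751) (nat_lit 1140) (nat_lit 1796033041) (nat_lit 76) (nat_lit 5549497202) (nat_lit 354) (nat_lit 5) (nat_lit 369) (nat_lit 5) (nat_lit 355) (nat_lit 5)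 (nat_lit 426) (nat_lit 402) (nat_lit 372)) (XT.lf (nat_lit 0) (nat_lit 2534948221) (nat_lit 1216) (nat_lit 4549812773) (nat_lit 76) (nat_lit 471449971) (nat_lit 339) (nat_lit 5) (nat_lit 355) (nat_lit 5) (nat_lit 340) (nat_lit 5) (nat_lit 427) (nat_lit 402) (nat_lit 371))))))) (XT.nd (nat_lit 1248) (nat_lit 4484) (nat_lit 0) (XT.nd (nat_lit 624) (nat_lit 2812) (nat_lit 0) (XT.nd (nat_lit 312) (nat_lit 1824) (nat_lit 0) (XT.nd (nat_lit 156) (nat_lit 912) (nat_lit 0) (XT.nd (nat_lit 78) (nat_lit 0) (nat_lit 0) (XT.lf (nat_lit 0) (nat_lit 276465647) (nat_lit 1216) (nat_lit 4706806913) (nat_lit 1292) (nat_lit 2654349714) (nat_lit 323) (nat_lit 5) (nat_lit 339) (nat_lit 5) (nat_lit 340) (nat_lit 5) (nat_lit 428) (nat_lit 402) (nat_lit 370)) (XT.lf (nat_lit 0) (nat_lit 5278328206) (nat_lit 1216) (nat_lit 2207637528) (nat_lit 1292) (nat_lit 236086018) (nat_lit 323) (nat_lit 5) (nat_lit 339) (nat_lit 5) (nat_lit 340) (nat_lit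 5) (nat_lit 429) (nat_lit 402) (nat_lit 369))) (XT.nd (nat_lit 78) (nat_lit 0) (nat_lit 0) (XT.lf (nat_lit 0) (nat_lit 2175848752) (nat_lit 912) (nat_lit 5225396057) (nat_lit 76) (nat_lit 408168667) (nat_lit 311) (nat_lit 5) (nat_lit 323) (nat_lit 5) (nat_lit 312) (nat_lit 5) (nat_lit 430) (nat_lit 402) (nat_lit 368)) (XT.lf (nat_lit 0) (nat_lit 4639694918) (nat_lit 912) (nat_lit 173616393) (nat_lit 76) (nat_lit 3086488776) (nat_lit 311) (nat_lit 5) (nat_lit 323) (nat_lit 5) (nat_lit 312) (nat_lit 5) (nat_lit 431) (nat_lit 402) (nat_lit 367)))) (XT.nd (nat_lit 156) (nat_lit 532) (nat_lit 0) (XT.nd (nat_lit 78) (nat_lit 684) (nat_lit 0) (XT.lf (nat_lit 0) (nat_lit 5067231956) (nat_lit 608) (nat_lit 2098273176) (nat_lit 684) (nat_lit 827754726) (nat_lit 303) (nat_lit 5) (nat_lit 311) (nat_lit 5) (nat_lit 312) (nat_lit 5) (nat_lit 432) (nat_lit 402) (nat_lit 366)) (XT.lf (nat_lit 0) (nat_lit 1616187431) (nat_lit 684)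 (nat_lit 5750119168) (nat_lit 76) (nat_lit 723595200) (nat_lit 294) (nat_lit 5) (nat_lit 303) (nat_lit 5) (nat_lit 295) (nat_lit 5) (nat_lit 433) (nat_lit 402) (nat_lit 365))) (XT.nd (nat_lit 78) (nat_lit 532) (nat_lit 0) (XT.lf (nat_lit 0) (nat_lit 4108492101) (nat_lit 684) (nat_lit 457372012) (nat_lit 76) (nat_lit 3623585346) (nat_lit 294) (nat_lit 5) (nat_lit 303) (nat_lit 5) (nat_lit 295) (nat_lit 5) (nat_lit 434) (nat_lit 402) (nat_lit 364)) (XT.lf (nat_lit 0) (nat_lit 5031069225) (nat_lit 532) (nat_lit 1635641531) (nat_lit 608) (nat_lit 1625541130) (nat_lit 287) (nat_lit 5) (nat_lit 294) (nat_lit 5) (nat_lit 295) (nat_lit 5) (nat_lit 435) (nat_lit 402) (nat_lit 363))))) (XT.nd (nat_lit 312) (nat_lit 1064) (nat_lit 0) (XT.nd (nat_lit 156) (nat_lit 1064) (nat_lit 0) (XT.nd (nat_lit 78) (nat_lit 0) (nat_lit 0) (XT.lf (nat_lit 0) (nat_lit 869281105) (nat_lit 684) (nat_lit 6143077379) (nat_lit 76) (nat_lit 1386020630)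 (nat_lit 278) (nat_lit 5) (nat_lit 287) (nat_lit 5) (nat_lit 279) (nat_lit 5) (nat_lit 436) (nat_lit 402) (nat_lit 362)) (XT.lf (nat_lit 0) (nat_lit 3400046127) (nat_lit 684) (nat_lit 597990380) (nat_lit 76) (nat_lit 4509360178) (nat_lit 278) (nat_lit 5) (nat_lit 287) (nat_lit 5) (nat_lit 279) (nat_lit 5) (nat_lit 437) (nat_lit 402) (nat_lit 361))) (XT.nd (nat_lit 78) (nat_lit 532) (nat_lit 0) (XT.lf (nat_lit 0) (nat_lit 5153027740) (nat_lit 532) (nat_lit 849180036) (nat_lit 608) (nat_lit 2617615181) (nat_lit 271) (nat_lit 5) (nat_lit 278) (nat_lit 5) (nat_lit 279) (nat_lit 5) (nat_lit 438) (nat_lit 402) (nat_lit 360)) (XT.lf (nat_lit 0) (nat_lit 2313564142) (nat_lit 532) (nat_lit 6367085327) (nat_lit 608) (nat_lit 55028410) (nat_lit 264) (nat_lit 5) (nat_lit 271) (nat_lit 5) (nat_lit 272) (nat_lit 5) (nat_lit 439) (nat_lit 402) (nat_lit 359)))) (XT.nd (nat_lit 156) (nat_lit 532) (nat_lit 0) (XT.nd (nat_lit 78)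 (nat_lit 456) (nat_lit 0) (XT.lf (nat_lit 0) (nat_lit 2525069644) (nat_lit 608) (nat_lit 611501451) (nat_lit 76) (nat_lit 5717962281) (nat_lit 263) (nat_lit 5) (nat_lit 271) (nat_lit 5) (nat_lit 264) (nat_lit 5) (nat_lit 440) (nat_lit 402) (nat_lit 358)) (XT.lf (nat_lit 0) (nat_lit 5184650207) (nat_lit 532) (nat_lit 3561097745) (nat_lit 76) (nat_lit 231096793) (nat_lit 257) (nat_lit 5) (nat_lit 264) (nat_lit 5) (nat_lit 258) (nat_lit 5) (nat_lit 441) (nat_lit 402) (nat_lit 357))) (XT.nd (nat_lit 78) (nat_lit 76) (nat_lit 0) (XT.lf (nat_lit 0) (nat_lit 2489824075) (nat_lit 456) (nat_lit 5445077985) (nat_lit 532) (nat_lit 1167598934) (nat_lit 251) (nat_lit 5) (nat_lit 257) (nat_lit 5) (nat_lit 258) (nat_lit 5) (nat_lit 442) (nat_lit 402) (nat_lit 356)) (XT.lf (nat_lit 0) (nat_lit 1492132483) (nat_lit 532) (nat_lit 512441523) (nat_lit 76) (nat_lit 7227321025) (nat_lit 250) (nat_lit 5) (nat_lit 257) (nat_lit 5) (nat_lit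 251) (nat_lit 5) (nat_lit 443) (nat_lit 402) (nat_lit 355)))))) (XT.nd (nat_lit 624) (nat_lit 1824) (nat_lit 0) (XT.nd (nat_lit 312) (nat_lit 1292) (nat_lit 0) (XT.nd (nat_lit 156) (nat_lit 456) (nat_lit 0) (XT.nd (nat_lit 78) (nat_lit 456) (nat_lit 0) (XT.lf (nat_lit 0) (nat_lit 4230920839) (nat_lit 532) (nat_lit 3567238754) (nat_lit 76) (nat_lit 1565984389) (nat_lit 244) (nat_lit 5) (nat_lit 251) (nat_lit 5) (nat_lit 245) (nat_lit 5) (nat_lit 444) (nat_lit 402) (nat_lit 354)) (XT.lf (nat_lit 0) (nat_lit 2779490958) (nat_lit 456) (nat_lit 4276406929) (nat_lit 532) (nat_lit 2444343591) (nat_lit 238) (nat_lit 5) (nat_lit 244) (nat_lit 5) (nat_lit 245) (nat_lit 5) (nat_lit 445) (nat_lit 402) (nat_lit 353))) (XT.nd (nat_lit 78) (nat_lit 380) (nat_lit 0) (XT.lf (nat_lit 0) (nat_lit 307816025) (nat_lit 532) (nat_lit 314107221) (nat_lit 76) (nat_lit 9018737810) (nat_lit 237) (nat_lit 5) (nat_lit 244) (nat_lit 5) (nat_lit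 238) (nat_lit 5) (nat_lit 446) (nat_lit 402) (nat_lit 352)) (XT.lf (nat_lit 0) (nat_lit 3139089569) (nat_lit 456) (nat_lit 3490346870) (nat_lit 76) (nat_lit 3153762071) (nat_lit 232) (nat_lit 5) (nat_lit 238) (nat_lit 5) (nat_lit 233) (nat_lit 5) (nat_lit 447) (nat_lit 402) (nat_lit 351)))) (XT.nd (nat_lit 156) (nat_lit 836) (nat_lit 0) (XT.nd (nat_lit 78) (nat_lit 0) (nat_lit 0) (XT.lf (nat_lit 0) (nat_lit 3170313621) (nat_lit 456) (nat_lit 2879433544) (nat_lit 532) (nat_lit 3880433172) (nat_lit 226) (nat_lit 5) (nat_lit 232) (nat_lit 5) (nat_lit 233) (nat_lit 5) (nat_lit 448) (nat_lit 402) (nat_lit 350)) (XT.lf (nat_lit 0) (nat_lit 9047989683) (nat_lit 532) (nat_lit 48485598) (nat_lit 76) (nat_lit 985089959) (nat_lit 226) (nat_lit 5) (nat_lit 233) (nat_lit 5) (nat_lit 227) (nat_lit 5) (nat_lit 449) (nat_lit 402) (nat_lit 349))) (XT.nd (nat_lit 78) (nat_lit 380) (nat_lit 0) (XT.lf (nat_lit 0) (nat_lit 1913620828)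 (nat_lit 456) (nat_lit 3342859712) (nat_lit 76) (nat_lit 4978905597) (nat_lit 220) (nat_lit 5) (nat_lit 226) (nat_lit 5) (nat_lit 221) (nat_lit 5) (nat_lit 450) (nat_lit 402) (nat_lit 348)) (XT.lf (nat_lit 0) (nat_lit 3650922504) (nat_lit 380) (nat_lit 1269933199) (nat_lit 456) (nat_lit 5472888506) (nat_lit 215) (nat_lit 5) (nat_lit 220) (nat_lit 5) (nat_lit 221) (nat_lit 5) (nat_lit 451) (nat_lit 402) (nat_lit 347))))) (XT.nd (nat_lit 312) (nat_lit 684) (nat_lit 0) (XT.nd (nat_lit 156) (nat_lit 684) (nat_lit 0) (XT.nd (nat_lit 78) (nat_lit 76) (nat_lit 0) (XT.lf (nat_lit 0) (nat_lit 285596922) (nat_lit 380) (nat_lit 7754159727) (nat_lit 456) (nat_lit 2516454305) (nat_lit 210) (nat_lit 5) (nat_lit 215) (nat_lit 5) (nat_lit 216) (nat_lit 5) (nat_lit 452) (nat_lit 402) (nat_lit 346)) (XT.lf (nat_lit 0) (nat_lit 557301577) (nat_lit 456) (nat_lit 3136591913) (nat_lit 76) (nat_lit 7028338725) (nat_lit 209) (nat_lit 5)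 (nat_lit 215) (nat_lit 5) (nat_lit 210) (nat_lit 5) (nat_lit 453) (nat_lit 402) (nat_lit 345))) (XT.nd (nat_lit 78) (nat_lit 304) (nat_lit 0) (XT.lf (nat_lit 0) (nat_lit 3677186682) (nat_lit 456) (nat_lit 6687085794) (nat_lit 76) (nat_lit 528080615) (nat_lit 204) (nat_lit 5) (nat_lit 210) (nat_lit 5) (nat_lit 205) (nat_lit 5) (nat_lit 454) (nat_lit 402) (nat_lit 344)) (XT.lf (nat_lit 0) (nat_lit 682908179) (nat_lit 304) (nat_lit 6242209736) (nat_lit 380) (nat_lit 4141427436) (nat_lit 200) (nat_lit 5) (nat_lit 204) (nat_lit 5) (nat_lit 205) (nat_lit 5) (nat_lit 455) (nat_lit 402) (nat_lit 343)))) (XT.nd (nat_lit 156) (nat_lit 304) (nat_lit 0) (XT.nd (nat_lit 78) (nat_lit 380) (nat_lit 0) (XT.lf (nat_lit 0) (nat_lit 8353072047) (nat_lit 304) (nat_lit 1944893409) (nat_lit 380) (nat_lit 947174781) (nat_lit 200) (nat_lit 5) (nat_lit 204) (nat_lit 5) (nat_lit 205) (nat_lit 5) (nat_lit 456) (nat_lit 402) (nat_lit 342))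 (XT.lf (nat_lit 0) (nat_lit 2328799394) (nat_lit 380) (nat_lit 6613513254) (nat_lit 76) (nat_lit 2485157443) (nat_lit 195) (nat_lit 5) (nat_lit 200) (nat_lit 5) (nat_lit 196) (nat_lit 5) (nat_lit 457) (nat_lit 402) (nat_lit 341))) (XT.nd (nat_lit 78) (nat_lit 0) (nat_lit 0) (XT.lf (nat_lit 0) (nat_lit 1131681972) (nat_lit 304) (nat_lit 4573122339) (nat_lit 380) (nat_lit 5909561632) (nat_lit 191) (nat_lit 5) (nat_lit 195) (nat_lit 5) (nat_lit 196) (nat_lit 5) (nat_lit 458) (nat_lit 402) (nat_lit 340)) (XT.lf (nat_lit 0) (nat_lit 9187836431) (nat_lit 304) (nat_lit 22780736) (nat_lit 380) (nat_lit 2595396745) (nat_lit 191) (nat_lit 5) (nat_lit 195) (nat_lit 5) (nat_lit 196) (nat_lit 5) (nat_lit 459) (nat_lit 402) (nat_lit 339))))))))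
noncomputable def xc100 : XT := (XT.nd (nat_lit 2418) (nat_lit 3268) (nat_lit 0) (XT.nd (nat_lit 1170) (nat_lit 2280) (nat_lit 0) (XT.nd (nat_lit 546) (nat_lit 1368) (nat_lit 0) (XT.nd (nat_lit 234) (nat_lit 912) (nat_lit 0) (XT.nd (nat_lit 78) (nat_lit 304) (nat_lit 0) (XT.lf (nat_lit 0) (nat_lit 863097429) (nat_lit 380) (nat_lit 6521788088) (nat_lit 76) (nat_lit 4616464759) (nat_lit 186) (nat_lit 5) (nat_lit 191) (nat_lit 5) (nat_lit 187) (nat_lit 5) (nat_lit 460) (nat_lit 402) (nat_lit 338)) (XT.nd (nat_lit 78) (nat_lit 0) (nat_lit 0) (XT.lf (nat_lit 0) (nat_lit 1621163910) (nat_lit 304) (nat_lit 2757397386) (nat_lit 380) (nat_lit 7823054115) (nat_lit 182) (nat_lit 5) (nat_lit 186) (nat_lit 5) (nat_lit 187) (nat_lit 5) (nat_lit 461) (nat_lit 402) (nat_lit 337)) (XT.lf (nat_lit 0) (nat_lit 8048538450) (nat_lit 380) (nat_lit 2340577793) (nat_lit 76) (nat_lit 2017301729) (nat_lit 182) (nat_lit 5) (nat_lit 187) (nat_lit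 5) (nat_lit 183) (nat_lit 5) (nat_lit 462) (nat_lit 402) (nat_lit 336)))) (XT.nd (nat_lit 156) (nat_lit 304) (nat_lit 0) (XT.nd (nat_lit 78) (nat_lit 304) (nat_lit 0) (XT.lf (nat_lit 0) (nat_lit 6184735129) (nat_lit 304) (nat_lit 5694932332) (nat_lit 380) (nat_lit 736166500) (nat_lit 178) (nat_lit 5) (nat_lit 182) (nat_lit 5) (nat_lit 183) (nat_lit 5) (nat_lit 463) (nat_lit 402) (nat_lit 335)) (XT.lf (nat_lit 0) (nat_lit 2140404593) (nat_lit 228) (nat_lit 804275678) (nat_lit 304) (nat_lit 9885722271) (nat_lit 174) (nat_lit 5) (nat_lit 177) (nat_lit 5) (nat_lit 178) (nat_lit 5) (nat_lit 464) (nat_lit 402) (nat_lit 334))) (XT.nd (nat_lit 78) (nat_lit 304) (nat_lit 0) (XT.lf (nat_lit 0) (nat_lit 6792216408) (nat_lit 304) (nat_lit 2052828052) (nat_lit 76) (nat_lit 4204014100) (nat_lit 174) (nat_lit 5) (nat_lit 178) (nat_lit 5) (nat_lit 175) (nat_lit 5) (nat_lit 465) (nat_lit 402) (nat_lit 333)) (XT.lf (nat_lit 0) (nat_lit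 6916449390) (nat_lit 304) (nat_lit 3878987750) (nat_lit 380) (nat_lit 2477630186) (nat_lit 170) (nat_lit 5) (nat_lit 174) (nat_lit 5) (nat_lit 175) (nat_lit 5) (nat_lit 466) (nat_lit 402) (nat_lit 332))))) (XT.nd (nat_lit 312) (nat_lit 608) (nat_lit 0) (XT.nd (nat_lit 156) (nat_lit 456) (nat_lit 0) (XT.nd (nat_lit 78) (nat_lit 0) (nat_lit 0) (XT.lf (nat_lit 0) (nat_lit 1412267196) (nat_lit 304) (nat_lit 10837290752) (nat_lit 76) (nat_lit 1253083540) (nat_lit 166) (nat_lit 5) (nat_lit 170) (nat_lit 5) (nat_lit 167) (nat_lit 5) (nat_lit 467) (nat_lit 402) (nat_lit 331)) (XT.lf (nat_lit 0) (nat_lit 5438534977) (nat_lit 304) (nat_lit 1766908642) (nat_lit 76) (nat_lit 6530839937) (nat_lit 166) (nat_lit 5) (nat_lit 170) (nat_lit 5) (nat_lit 167) (nat_lit 5) (nat_lit 468) (nat_lit 402) (nat_lit 330))) (XT.nd (nat_lit 78) (nat_lit 228) (nat_lit 0) (XT.lf (nat_lit 0) (nat_lit 7672445665) (nat_lit 228) (nat_lit 1954121304)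 (nat_lit 304) (nat_lit 4349139363) (nat_lit 163) (nat_lit 5) (nat_lit 166) (nat_lit 5) (nat_lit 167) (nat_lit 5) (nat_lit 469) (nat_lit 402) (nat_lit 329)) (XT.lf (nat_lit 0) (nat_lit 3185074328) (nat_lit 228) (nat_lit 10804493617) (nat_lit 304) (nat_lit 231264716) (nat_lit 160) (nat_lit 5) (nat_lit 163) (nat_lit 5) (nat_lit 164) (nat_lit 5) (nat_lit 470) (nat_lit 402) (nat_lit 328)))) (XT.nd (nat_lit 156) (nat_lit 304) (nat_lit 0) (XT.nd (nat_lit 78) (nat_lit 228) (nat_lit 0) (XT.lf (nat_lit 0) (nat_lit 3983128639) (nat_lit 304) (nat_lit 1495899940) (nat_lit 76) (nat_lit 8991591385) (nat_lit 159) (nat_lit 5) (nat_lit 163) (nat_lit 5) (nat_lit 160) (nat_lit 5) (nat_lit 471) (nat_lit 402) (nat_lit 327)) (XT.lf (nat_lit 0) (nat_lit 8369685495) (nat_lit 304) (nat_lit 6286146792) (nat_lit 76) (nat_lit 70489159) (nat_lit 156) (nat_lit 5) (nat_lit 160) (nat_lit 5) (nat_lit 157) (nat_lit 5) (nat_lit 472) (nat_lit 402)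 (nat_lit 326))) (XT.nd (nat_lit 78) (nat_lit 76) (nat_lit 0) (XT.lf (nat_lit 0) (nat_lit 3681271685) (nat_lit 228) (nat_lit 9280237142) (nat_lit 304) (nat_lit 2025975683) (nat_lit 153) (nat_lit 5) (nat_lit 156) (nat_lit 5) (nat_lit 157) (nat_lit 5) (nat_lit 473) (nat_lit 402) (nat_lit 325)) (XT.lf (nat_lit 0) (nat_lit 2420092367) (nat_lit 304) (nat_lit 1254068674) (nat_lit 76) (nat_lit 11580630057) (nat_lit 152) (nat_lit 5) (nat_lit 156) (nat_lit 5) (nat_lit 153) (nat_lit 5) (nat_lit 474) (nat_lit 402) (nat_lit 324)))))) (XT.nd (nat_lit 624) (nat_lit 988) (nat_lit 0) (XT.nd (nat_lit 312) (nat_lit 608) (nat_lit 0) (XT.nd (nat_lit 156) (nat_lit 304) (nat_lit 0) (XT.nd (nat_lit 78) (nat_lit 152) (nat_lit 0) (XT.lf (nat_lit 0) (nat_lit 7038205562) (nat_lit 304) (nat_lit 6340072915) (nat_lit 76) (nat_lit 2148855713) (nat_lit 149) (nat_lit 5) (nat_lit 153) (nat_lit 5) (nat_lit 150) (nat_lit 5) (nat_lit 475) (nat_lit 402)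 (nat_lit 323)) (XT.lf (nat_lit 0) (nat_lit 4153693589) (nat_lit 152) (nat_lit 7700263588) (nat_lit 228) (nat_lit 3951918106) (nat_lit 147) (nat_lit 5) (nat_lit 149) (nat_lit 5) (nat_lit 150) (nat_lit 5) (nat_lit 476) (nat_lit 402) (nat_lit 322))) (XT.nd (nat_lit 78) (nat_lit 228) (nat_lit 0) (XT.lf (nat_lit 0) (nat_lit 741883293) (nat_lit 228) (nat_lit 1057205832) (nat_lit 76) (nat_lit 14292639421) (nat_lit 146) (nat_lit 5) (nat_lit 149) (nat_lit 5) (nat_lit 147) (nat_lit 5) (nat_lit 477) (nat_lit 402) (nat_lit 321)) (XT.lf (nat_lit 0) (nat_lit 5606067861) (nat_lit 304) (nat_lit 6463718798) (nat_lit 76) (nat_lit 4311927458) (nat_lit 143) (nat_lit 5) (nat_lit 147) (nat_lit 5) (nat_lit 144) (nat_lit 5) (nat_lit 478) (nat_lit 402) (nat_lit 320)))) (XT.nd (nat_lit 156) (nat_lit 456) (nat_lit 0) (XT.nd (nat_lit 78) (nat_lit 0) (nat_lit 0) (XT.lf (nat_lit 0) (nat_lit 4586096186) (nat_lit 152) (nat_lit 6073910656) (nat_lit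 228) (nat_lit 6019078045) (nat_lit 141) (nat_lit 5) (nat_lit 143) (nat_lit 5) (nat_lit 144) (nat_lit 5) (nat_lit 479) (nat_lit 402) (nat_lit 319)) (XT.lf (nat_lit 0) (nat_lit 15903781755) (nat_lit 228) (nat_lit 934831960) (nat_lit 76) (nat_lit 145617017) (nat_lit 141) (nat_lit 5) (nat_lit 144) (nat_lit 5) (nat_lit 142) (nat_lit 5) (nat_lit 480) (nat_lit 402) (nat_lit 318))) (XT.nd (nat_lit 78) (nat_lit 152) (nat_lit 0) (XT.lf (nat_lit 0) (nat_lit 4064237067) (nat_lit 304) (nat_lit 6676679847) (nat_lit 76) (nat_lit 6552376865) (nat_lit 137) (nat_lit 5) (nat_lit 141) (nat_lit 5) (nat_lit 138) (nat_lit 5) (nat_lit 481) (nat_lit 402) (nat_lit 317)) (XT.lf (nat_lit 0) (nat_lit 4960092895) (nat_lit 152) (nat_lit 4410903781) (nat_lit 228) (nat_lit 8239428091) (nat_lit 135) (nat_lit 5) (nat_lit 137) (nat_lit 5) (nat_lit 138) (nat_lit 5) (nat_lit 482) (nat_lit 402) (nat_lit 316))))) (XT.nd (nat_lit 312) (nat_lit 532) (nat_lit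 0) (XT.nd (nat_lit 156) (nat_lit 152) (nat_lit 0) (XT.nd (nat_lit 78) (nat_lit 304) (nat_lit 0) (XT.lf (nat_lit 0) (nat_lit 14897709352) (nat_lit 228) (nat_lit 921632333) (nat_lit 76) (nat_lit 2115905920) (nat_lit 135) (nat_lit 5) (nat_lit 138) (nat_lit 5) (nat_lit 136) (nat_lit 5) (nat_lit 483) (nat_lit 402) (nat_lit 315)) (XT.lf (nat_lit 0) (nat_lit 2401746166) (nat_lit 304) (nat_lit 7001133109) (nat_lit 76) (nat_lit 8862468581) (nat_lit 131) (nat_lit 5) (nat_lit 135) (nat_lit 5) (nat_lit 132) (nat_lit 5) (nat_lit 484) (nat_lit 402) (nat_lit 314))) (XT.nd (nat_lit 78) (nat_lit 0) (nat_lit 0) (XT.lf (nat_lit 0) (nat_lit 5254691113) (nat_lit 152) (nat_lit 2721639401) (nat_lit 228) (nat_lit 10627123568) (nat_lit 129) (nat_lit 5) (nat_lit 131) (nat_lit 5) (nat_lit 132) (nat_lit 5) (nat_lit 485) (nat_lit 402) (nat_lit 313)) (XT.lf (nat_lit 0) (nat_lit 13802936934) (nat_lit 228) (nat_lit 1015838506) (nat_lit 76) (nat_lit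 4130384899) (nat_lit 129) (nat_lit 5) (nat_lit 132) (nat_lit 5) (nat_lit 130) (nat_lit 5) (nat_lit 486) (nat_lit 402) (nat_lit 312)))) (XT.nd (nat_lit 156) (nat_lit 152) (nat_lit 0) (XT.nd (nat_lit 78) (nat_lit 152) (nat_lit 0) (XT.lf (nat_lit 0) (nat_lit 605487308) (nat_lit 228) (nat_lit 7462348711) (nat_lit 76) (nat_lit 11233774509) (nat_lit 126) (nat_lit 5) (nat_lit 129) (nat_lit 5) (nat_lit 127) (nat_lit 5) (nat_lit 487) (nat_lit 402) (nat_lit 311)) (XT.lf (nat_lit 0) (nat_lit 5445764758) (nat_lit 152) (nat_lit 1017493429) (nat_lit 228) (nat_lit 13198739517) (nat_lit 124) (nat_lit 5) (nat_lit 126) (nat_lit 5) (nat_lit 127) (nat_lit 5) (nat_lit 488) (nat_lit 402) (nat_lit 310))) (XT.nd (nat_lit 78) (nat_lit 152) (nat_lit 0) (XT.lf (nat_lit 0) (nat_lit 12607243414) (nat_lit 228) (nat_lit 1243694390) (nat_lit 76) (nat_lit 6178944595) (nat_lit 124) (nat_lit 5) (nat_lit 127) (nat_lit 5) (nat_lit 125) (nat_lit 5)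 (nat_lit 489) (nat_lit 402) (nat_lit 309)) (XT.lf (nat_lit 0) (nat_lit 12303289450) (nat_lit 152) (nat_lit 6735702051) (nat_lit 228) (nat_lit 1366709165) (nat_lit 122) (nat_lit 5) (nat_lit 124) (nat_lit 5) (nat_lit 125) (nat_lit 5) (nat_lit 490) (nat_lit 402) (nat_lit 308))))))) (XT.nd (nat_lit 1170) (nat_lit 1520) (nat_lit 0) (XT.nd (nat_lit 546) (nat_lit 760) (nat_lit 0) (XT.nd (nat_lit 234) (nat_lit 608) (nat_lit 0) (XT.nd (nat_lit 78) (nat_lit 152) (nat_lit 0) (XT.lf (nat_lit 0) (nat_lit 4823234141) (nat_lit 228) (nat_lit 15291336675) (nat_lit 76) (nat_lit 675396781) (nat_lit 119) (nat_lit 5) (nat_lit 122) (nat_lit 5) (nat_lit 120) (nat_lit 5) (nat_lit 491) (nat_lit 402) (nat_lit 307)) (XT.nd (nat_lit 78) (nat_lit 152) (nat_lit 0) (XT.lf (nat_lit 0) (nat_lit 11295989522) (nat_lit 228) (nat_lit 1635445491) (nat_lit 76) (nat_lit 8250184373) (nat_lit 119) (nat_lit 5) (nat_lit 122) (nat_lit 5) (nat_lit 120) (nat_lit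 5) (nat_lit 492) (nat_lit 402) (nat_lit 306)) (XT.lf (nat_lit 0) (nat_lit 12633045102) (nat_lit 152) (nat_lit 5427304075) (nat_lit 228) (nat_lit 3521749196) (nat_lit 117) (nat_lit 5) (nat_lit 119) (nat_lit 5) (nat_lit 120) (nat_lit 5) (nat_lit 493) (nat_lit 402) (nat_lit 305)))) (XT.nd (nat_lit 156) (nat_lit 380) (nat_lit 0) (XT.nd (nat_lit 78) (nat_lit 0) (nat_lit 0) (XT.lf (nat_lit 0) (nat_lit 3041403466) (nat_lit 228) (nat_lit 16613826125) (nat_lit 76) (nat_lit 2336461510) (nat_lit 114) (nat_lit 5) (nat_lit 117) (nat_lit 5) (nat_lit 115) (nat_lit 5) (nat_lit 494) (nat_lit 402) (nat_lit 304)) (XT.lf (nat_lit 0) (nat_lit 9851794546) (nat_lit 228) (nat_lit 2226060719) (nat_lit 76) (nat_lit 10331036725) (nat_lit 114) (nat_lit 5) (nat_lit 117) (nat_lit 5) (nat_lit 115) (nat_lit 5) (nat_lit 495) (nat_lit 402) (nat_lit 303))) (XT.nd (nat_lit 78) (nat_lit 228) (nat_lit 0) (XT.lf (nat_lit 0) (nat_lit 12800660057) (nat_lit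 152) (nat_lit 4165709547) (nat_lit 228) (nat_lit 5869243395) (nat_lit 112) (nat_lit 5) (nat_lit 114) (nat_lit 5) (nat_lit 115) (nat_lit 5) (nat_lit 496) (nat_lit 402) (nat_lit 302)) (XT.lf (nat_lit 0) (nat_lit 1086830528) (nat_lit 228) (nat_lit 18216029685) (nat_lit 76) (nat_lit 3969357538) (nat_lit 109) (nat_lit 5) (nat_lit 112) (nat_lit 5) (nat_lit 110) (nat_lit 5) (nat_lit 497) (nat_lit 402) (nat_lit 301))))) (XT.nd (nat_lit 312) (nat_lit 456) (nat_lit 0) (XT.nd (nat_lit 156) (nat_lit 152) (nat_lit 0) (XT.nd (nat_lit 78) (nat_lit 152) (nat_lit 0) (XT.lf (nat_lit 0) (nat_lit 8254154529) (nat_lit 228) (nat_lit 3056063299) (nat_lit 76) (nat_lit 12406343701) (nat_lit 109) (nat_lit 5) (nat_lit 112) (nat_lit 5) (nat_lit 110) (nat_lit 5) (nat_lit 498) (nat_lit 402) (nat_lit 300)) (XT.lf (nat_lit 0) (nat_lit 12766469071) (nat_lit 152) (nat_lit 2970372119) (nat_lit 228) (nat_lit 8434384373) (nat_lit 107) (nat_lit 5) (nat_lit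 109) (nat_lit 5) (nat_lit 110) (nat_lit 5) (nat_lit 499) (nat_lit 402) (nat_lit 299))) (XT.nd (nat_lit 78) (nat_lit 76) (nat_lit 0) (XT.lf (nat_lit 0) (nat_lit 4479373319) (nat_lit 76) (nat_lit 19070580050) (nat_lit 152) (nat_lit 1086398025) (nat_lit 106) (nat_lit 5) (nat_lit 107) (nat_lit 5) (nat_lit 108) (nat_lit 4) (nat_lit 500) (nat_lit 402) (nat_lit 298)) (XT.lf (nat_lit 0) (nat_lit 6478993379) (nat_lit 152) (nat_lit 4172489022) (nat_lit 76) (nat_lit 14458375939) (nat_lit 105) (nat_lit 5) (nat_lit 107) (nat_lit 5) (nat_lit 106) (nat_lit 5) (nat_lit 501) (nat_lit 402) (nat_lit 297)))) (XT.nd (nat_lit 156) (nat_lit 228) (nat_lit 0) (XT.nd (nat_lit 78) (nat_lit 76) (nat_lit 0) (XT.lf (nat_lit 0) (nat_lit 12484129149) (nat_lit 152) (nat_lit 1863772979) (nat_lit 228) (nat_lit 11246394147) (nat_lit 103) (nat_lit 5) (nat_lit 105) (nat_lit 5) (nat_lit 106) (nat_lit 5) (nat_lit 502) (nat_lit 402) (nat_lit 296)) (XT.lf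 (nat_lit 0) (nat_lit 3594275074) (nat_lit 76) (nat_lit 18983250421) (nat_lit 152) (nat_lit 3512002628) (nat_lit 102) (nat_lit 5) (nat_lit 103) (nat_lit 5) (nat_lit 104) (nat_lit 4) (nat_lit 503) (nat_lit 402) (nat_lit 295))) (XT.nd (nat_lit 78) (nat_lit 152) (nat_lit 0) (XT.lf (nat_lit 0) (nat_lit 4498136929) (nat_lit 152) (nat_lit 5629992929) (nat_lit 76) (nat_lit 16466283558) (nat_lit 101) (nat_lit 5) (nat_lit 103) (nat_lit 5) (nat_lit 102) (nat_lit 5) (nat_lit 504) (nat_lit 402) (nat_lit 294)) (XT.lf (nat_lit 0) (nat_lit 11899468606) (nat_lit 152) (nat_lit 872022994) (nat_lit 228) (nat_lit 14339105719) (nat_lit 99) (nat_lit 5) (nat_lit 101) (nat_lit 5) (nat_lit 102) (nat_lit 5) (nat_lit 505) (nat_lit 402) (nat_lit 293)))))) (XT.nd (nat_lit 624) (nat_lit 836) (nat_lit 0) (XT.nd (nat_lit 312) (nat_lit 304) (nat_lit 0) (XT.nd (nat_lit 156) (nat_lit 228) (nat_lit 0) (XT.nd (nat_lit 78) (nat_lit 76) (nat_lit 0) (XT.lf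 (nat_lit 0) (nat_lit 2352496081) (nat_lit 76) (nat_lit 19083016058) (nat_lit 152) (nat_lit 6202480820) (nat_lit 98) (nat_lit 5) (nat_lit 99) (nat_lit 5) (nat_lit 100) (nat_lit 4) (nat_lit 506) (nat_lit 402) (nat_lit 292)) (XT.lf (nat_lit 0) (nat_lit 2278698304) (nat_lit 152) (nat_lit 7492128780) (nat_lit 76) (nat_lit 18405466567) (nat_lit 97) (nat_lit 5) (nat_lit 99) (nat_lit 5) (nat_lit 98) (nat_lit 5) (nat_lit 507) (nat_lit 402) (nat_lit 291))) (XT.nd (nat_lit 78) (nat_lit 76) (nat_lit 0) (XT.lf (nat_lit 0) (nat_lit 10949155148) (nat_lit 152) (nat_lit 25553189) (nat_lit 228) (nat_lit 17751641091) (nat_lit 95) (nat_lit 5) (nat_lit 97) (nat_lit 5) (nat_lit 98) (nat_lit 5) (nat_lit 508) (nat_lit 402) (nat_lit 290)) (XT.lf (nat_lit 0) (nat_lit 684807232) (nat_lit 76) (nat_lit 19405884704) (nat_lit 152) (nat_lit 9197442301) (nat_lit 94) (nat_lit 5) (nat_lit 95) (nat_lit 5) (nat_lit 96) (nat_lit 4) (nat_lit 509) (nat_lit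 402) (nat_lit 289)))) (XT.nd (nat_lit 156) (nat_lit 76) (nat_lit 0) (XT.nd (nat_lit 78) (nat_lit 228) (nat_lit 0) (XT.lf (nat_lit 0) (nat_lit 20027013969) (nat_lit 76) (nat_lit 9612992807) (nat_lit 152) (nat_lit 221970415) (nat_lit 94) (nat_lit 5) (nat_lit 95) (nat_lit 5) (nat_lit 96) (nat_lit 4) (nat_lit 510) (nat_lit 402) (nat_lit 288)) (XT.lf (nat_lit 0) (nat_lit 8925215196) (nat_lit 228) (nat_lit 20895262271) (nat_lit 76) (nat_lit 627600654) (nat_lit 91) (nat_lit 5) (nat_lit 94) (nat_lit 5) (nat_lit 92) (nat_lit 4) (nat_lit 511) (nat_lit 402) (nat_lit 287))) (XT.nd (nat_lit 78) (nat_lit 76) (nat_lit 0) (XT.lf (nat_lit 0) (nat_lit 18518353194) (nat_lit 228) (nat_lit 1460453898) (nat_lit 76) (nat_lit 11067609248) (nat_lit 91) (nat_lit 5) (nat_lit 94) (nat_lit 5) (nat_lit 92) (nat_lit 4) (nat_lit 512) (nat_lit 402) (nat_lit 286)) (XT.lf (nat_lit 0) (nat_lit 18889944082) (nat_lit 76) (nat_lit 9672013150) (nat_lit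 152) (nat_lit 3095867453) (nat_lit 90) (nat_lit 5) (nat_lit 91) (nat_lit 5) (nat_lit 92) (nat_lit 4) (nat_lit 513) (nat_lit 402) (nat_lit 285))))) (XT.nd (nat_lit 312) (nat_lit 304) (nat_lit 0) (XT.nd (nat_lit 156) (nat_lit 304) (nat_lit 0) (XT.nd (nat_lit 78) (nat_lit 0) (nat_lit 0) (XT.lf (nat_lit 0) (nat_lit 6570016236) (nat_lit 228) (nat_lit 24651058376) (nat_lit 76) (nat_lit 1062195282) (nat_lit 87) (nat_lit 5) (nat_lit 90) (nat_lit 5) (nat_lit 88) (nat_lit 4) (nat_lit 514) (nat_lit 402) (nat_lit 284)) (XT.lf (nat_lit 0) (nat_lit 16670777261) (nat_lit 228) (nat_lit 4181397065) (nat_lit 76) (nat_lit 12068170954) (nat_lit 87) (nat_lit 5) (nat_lit 90) (nat_lit 5) (nat_lit 88) (nat_lit 4) (nat_lit 515) (nat_lit 402) (nat_lit 283))) (XT.nd (nat_lit 78) (nat_lit 228) (nat_lit 0) (XT.lf (nat_lit 0) (nat_lit 17202967534) (nat_lit 76) (nat_lit 10018662998) (nat_lit 152) (nat_lit 6350490431) (nat_lit 86) (nat_lit 5)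 (nat_lit 87) (nat_lit 5) (nat_lit 88) (nat_lit 4) (nat_lit 516) (nat_lit 402) (nat_lit 282)) (XT.lf (nat_lit 0) (nat_lit 3855971961) (nat_lit 228) (nat_lit 29152788138) (nat_lit 76) (nat_lit 1231017362) (nat_lit 83) (nat_lit 5) (nat_lit 86) (nat_lit 5) (nat_lit 84) (nat_lit 4) (nat_lit 517) (nat_lit 402) (nat_lit 281)))) (XT.nd (nat_lit 156) (nat_lit 228) (nat_lit 0) (XT.nd (nat_lit 78) (nat_lit 76) (nat_lit 0) (XT.lf (nat_lit 0) (nat_lit 14488878910) (nat_lit 228) (nat_lit 7598980629) (nat_lit 76) (nat_lit 12830281260) (nat_lit 83) (nat_lit 5) (nat_lit 86) (nat_lit 5) (nat_lit 84) (nat_lit 4) (nat_lit 518) (nat_lit 402) (nat_lit 280)) (XT.lf (nat_lit 0) (nat_lit 14857246485) (nat_lit 76) (nat_lit 10708636360) (nat_lit 152) (nat_lit 10047219009) (nat_lit 82) (nat_lit 5) (nat_lit 83) (nat_lit 5) (nat_lit 84) (nat_lit 4) (nat_lit 519) (nat_lit 402) (nat_lit 279))) (XT.nd (nat_lit 78) (nat_lit 0) (nat_lit 0) (XT.lf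 (nat_lit 0) (nat_lit 721453493) (nat_lit 228) (nat_lit 34526430118) (nat_lit 76) (nat_lit 1078208464) (nat_lit 79) (nat_lit 5) (nat_lit 82) (nat_lit 5) (nat_lit 80) (nat_lit 4) (nat_lit 520) (nat_lit 402) (nat_lit 278)) (XT.lf (nat_lit 0) (nat_lit 11911285800) (nat_lit 228) (nat_lit 11838607946) (nat_lit 76) (nat_lit 13298592869) (nat_lit 79) (nat_lit 5) (nat_lit 82) (nat_lit 5) (nat_lit 80) (nat_lit 4) (nat_lit 521) (nat_lit 402) (nat_lit 277))))))))
noncomputable def xc101 : XT := (XT.nd (nat_lit 2418) (nat_lit 0) (nat_lit 0) (XT.nd (nat_lit 1170) (nat_lit 1140) (nat_lit 0) (XT.nd (nat_lit 546) (nat_lit 456) (nat_lit 0) (XT.nd (nat_lit 234) (nat_lit 304) (nat_lit 0) (XT.nd (nat_lit 78) (nat_lit 152) (nat_lit 0) (XT.lf (nat_lit 0) (nat_lit 11725485902) (nat_lit 76) (nat_lit 11806898025) (nat_lit 152) (nat_lit 14257302033) (nat_lit 78) (nat_lit 5) (nat_lit 79) (nat_lit 5) (nat_lit 80) (nat_lit 4) (nat_lit 522) (nat_lit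 402) (nat_lit 276)) (XT.nd (nat_lit 78) (nat_lit 152) (nat_lit 0) (XT.lf (nat_lit 0) (nat_lit 35610486867) (nat_lit 152) (nat_lit 2349488840) (nat_lit 0) (nat_lit 589894516) (nat_lit 78) (nat_lit 5) (nat_lit 80) (nat_lit 4) (nat_lit 78) (nat_lit 4) (nat_lit 523) (nat_lit 402) (nat_lit 275)) (XT.lf (nat_lit 0) (nat_lit 8866336505) (nat_lit 152) (nat_lit 17046395877) (nat_lit 76) (nat_lit 13408062075) (nat_lit 76) (nat_lit 5) (nat_lit 78) (nat_lit 5) (nat_lit 77) (nat_lit 4) (nat_lit 524) (nat_lit 402) (nat_lit 274)))) (XT.nd (nat_lit 156) (nat_lit 228) (nat_lit 0) (XT.nd (nat_lit 78) (nat_lit 0) (nat_lit 0) (XT.lf (nat_lit 0) (nat_lit 7658897345) (nat_lit 76) (nat_lit 13389235827) (nat_lit 152) (nat_lit 19063410729) (nat_lit 75) (nat_lit 5) (nat_lit 76) (nat_lit 5) (nat_lit 77) (nat_lit 4) (nat_lit 525) (nat_lit 402) (nat_lit 273)) (XT.lf (nat_lit 0) (nat_lit 33422852126) (nat_lit 76) (nat_lit 328245051) (nat_lit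 152) (nat_lit 7170247332) (nat_lit 75) (nat_lit 5) (nat_lit 76) (nat_lit 5) (nat_lit 77) (nat_lit 4) (nat_lit 526) (nat_lit 402) (nat_lit 272))) (XT.nd (nat_lit 78) (nat_lit 76) (nat_lit 0) (XT.lf (nat_lit 0) (nat_lit 5270431617) (nat_lit 152) (nat_lit 23392543797) (nat_lit 76) (nat_lit 13082303596) (nat_lit 73) (nat_lit 5) (nat_lit 75) (nat_lit 5) (nat_lit 74) (nat_lit 4) (nat_lit 527) (nat_lit 402) (nat_lit 271)) (XT.lf (nat_lit 0) (nat_lit 2483676680) (nat_lit 76) (nat_lit 15544058192) (nat_lit 152) (nat_lit 24561441408) (nat_lit 72) (nat_lit 5) (nat_lit 73) (nat_lit 5) (nat_lit 74) (nat_lit 4) (nat_lit 528) (nat_lit 402) (nat_lit 270))))) (XT.nd (nat_lit 312) (nat_lit 228) (nat_lit 0) (XT.nd (nat_lit 156) (nat_lit 76) (nat_lit 0) (XT.nd (nat_lit 78) (nat_lit 152) (nat_lit 0) (XT.lf (nat_lit 0) (nat_lit 29584667290) (nat_lit 76) (nat_lit 1803403065) (nat_lit 152) (nat_lit 12063710793) (nat_lit 72) (nat_lit 5)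 (nat_lit 73) (nat_lit 5) (nat_lit 74) (nat_lit 4) (nat_lit 529) (nat_lit 402) (nat_lit 269)) (XT.lf (nat_lit 0) (nat_lit 1026118667) (nat_lit 152) (nat_lit 31075240409) (nat_lit 76) (nat_lit 12231683295) (nat_lit 70) (nat_lit 5) (nat_lit 72) (nat_lit 5) (nat_lit 71) (nat_lit 4) (nat_lit 530) (nat_lit 402) (nat_lit 268))) (XT.nd (nat_lit 78) (nat_lit 76) (nat_lit 0) (XT.lf (nat_lit 0) (nat_lit 14409874512) (nat_lit 152) (nat_lit 3924967681) (nat_lit 76) (nat_lit 26898005020) (nat_lit 70) (nat_lit 5) (nat_lit 72) (nat_lit 5) (nat_lit 71) (nat_lit 4) (nat_lit 531) (nat_lit 402) (nat_lit 267)) (XT.lf (nat_lit 0) (nat_lit 24488081308) (nat_lit 76) (nat_lit 3927337274) (nat_lit 152) (nat_lit 17737619417) (nat_lit 69) (nat_lit 5) (nat_lit 70) (nat_lit 5) (nat_lit 71) (nat_lit 4) (nat_lit 532) (nat_lit 402) (nat_lit 266)))) (XT.nd (nat_lit 156) (nat_lit 76) (nat_lit 0) (XT.nd (nat_lit 78) (nat_lit 76) (nat_lit 0) (XT.lf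 (nat_lit 0) (nat_lit 6730783436) (nat_lit 76) (nat_lit 36304871576) (nat_lit 76) (nat_lit 4059343779) (nat_lit 68) (nat_lit 4) (nat_lit 69) (nat_lit 5) (nat_lit 69) (nat_lit 4) (nat_lit 533) (nat_lit 402) (nat_lit 265)) (XT.lf (nat_lit 0) (nat_lit 10078309055) (nat_lit 152) (nat_lit 11803221000) (nat_lit 76) (nat_lit 26173454092) (nat_lit 67) (nat_lit 5) (nat_lit 69) (nat_lit 5) (nat_lit 68) (nat_lit 4) (nat_lit 534) (nat_lit 402) (nat_lit 264))) (XT.nd (nat_lit 78) (nat_lit 0) (nat_lit 0) (XT.lf (nat_lit 0) (nat_lit 17894853482) (nat_lit 76) (nat_lit 6821017055) (nat_lit 152) (nat_lit 24321971804) (nat_lit 66) (nat_lit 5) (nat_lit 67) (nat_lit 5) (nat_lit 68) (nat_lit 4) (nat_lit 535) (nat_lit 402) (nat_lit 263)) (XT.lf (nat_lit 0) (nat_lit 39981844785) (nat_lit 152) (nat_lit 1434282182) (nat_lit 0) (nat_lit 8628380794) (nat_lit 66) (nat_lit 5) (nat_lit 68) (nat_lit 4) (nat_lit 66) (nat_lit 4) (nat_lit 536) (nat_lit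 402) (nat_lit 262)))))) (XT.nd (nat_lit 624) (nat_lit 532) (nat_lit 0) (XT.nd (nat_lit 312) (nat_lit 304) (nat_lit 0) (XT.nd (nat_lit 156) (nat_lit 76) (nat_lit 0) (XT.nd (nat_lit 78) (nat_lit 76) (nat_lit 0) (XT.lf (nat_lit 0) (nat_lit 4875869022) (nat_lit 152) (nat_lit 21470252591) (nat_lit 76) (nat_lit 24723667505) (nat_lit 64) (nat_lit 5) (nat_lit 66) (nat_lit 5) (nat_lit 65) (nat_lit 4) (nat_lit 537) (nat_lit 402) (nat_lit 261)) (XT.lf (nat_lit 0) (nat_lit 9526559830) (nat_lit 76) (nat_lit 10625754506) (nat_lit 152) (nat_lit 31967765512) (nat_lit 63) (nat_lit 5) (nat_lit 64) (nat_lit 5) (nat_lit 65) (nat_lit 4) (nat_lit 538) (nat_lit 402) (nat_lit 260))) (XT.nd (nat_lit 78) (nat_lit 76) (nat_lit 0) (XT.lf (nat_lit 0) (nat_lit 36145334561) (nat_lit 152) (nat_lit 11385589214) (nat_lit 0) (nat_lit 5663207130) (nat_lit 63) (nat_lit 5) (nat_lit 65) (nat_lit 4) (nat_lit 63) (nat_lit 4) (nat_lit 539) (nat_lit 402)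 (nat_lit 259)) (XT.lf (nat_lit 0) (nat_lit 21036733422) (nat_lit 76) (nat_lit 31875069916) (nat_lit 76) (nat_lit 1379790465) (nat_lit 62) (nat_lit 4) (nat_lit 63) (nat_lit 5) (nat_lit 63) (nat_lit 4) (nat_lit 540) (nat_lit 402) (nat_lit 258)))) (XT.nd (nat_lit 156) (nat_lit 152) (nat_lit 0) (XT.nd (nat_lit 78) (nat_lit 76) (nat_lit 0) (XT.lf (nat_lit 0) (nat_lit 14573631391) (nat_lit 152) (nat_lit 923576678) (nat_lit 76) (nat_lit 39917445727) (nat_lit 61) (nat_lit 5) (nat_lit 63) (nat_lit 5) (nat_lit 62) (nat_lit 4) (nat_lit 541) (nat_lit 402) (nat_lit 257)) (XT.lf (nat_lit 0) (nat_lit 31297939525) (nat_lit 152) (nat_lit 23597016695) (nat_lit 0) (nat_lit 1666439093) (nat_lit 60) (nat_lit 5) (nat_lit 62) (nat_lit 4) (nat_lit 60) (nat_lit 4) (nat_lit 542) (nat_lit 402) (nat_lit 256))) (XT.nd (nat_lit 78) (nat_lit 76) (nat_lit 0) (XT.lf (nat_lit 0) (nat_lit 10164079120) (nat_lit 76) (nat_lit 38607114662) (nat_lit 76)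 (nat_lit 8963928830) (nat_lit 59) (nat_lit 4) (nat_lit 60) (nat_lit 5) (nat_lit 60) (nat_lit 4) (nat_lit 543) (nat_lit 402) (nat_lit 255)) (XT.lf (nat_lit 0) (nat_lit 7899204940) (nat_lit 152) (nat_lit 13619144851) (nat_lit 76) (nat_lit 37416636334) (nat_lit 58) (nat_lit 5) (nat_lit 60) (nat_lit 5) (nat_lit 59) (nat_lit 4) (nat_lit 544) (nat_lit 402) (nat_lit 254))))) (XT.nd (nat_lit 312) (nat_lit 228) (nat_lit 0) (XT.nd (nat_lit 156) (nat_lit 228) (nat_lit 0) (XT.nd (nat_lit 78) (nat_lit 0) (nat_lit 0) (XT.lf (nat_lit 0) (nat_lit 21659603017) (nat_lit 76) (nat_lit 3623721371) (nat_lit 152) (nat_lit 34879000910) (nat_lit 57) (nat_lit 5) (nat_lit 58) (nat_lit 5) (nat_lit 59) (nat_lit 4) (nat_lit 545) (nat_lit 402) (nat_lit 253)) (XT.lf (nat_lit 0) (nat_lit 43457261952) (nat_lit 152) (nat_lit 3315794745) (nat_lit 0) (nat_lit 14645379149) (nat_lit 57) (nat_lit 5) (nat_lit 59) (nat_lit 4) (nat_lit 57) (nat_lit 4) (nat_lit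 546) (nat_lit 402) (nat_lit 252))) (XT.nd (nat_lit 78) (nat_lit 152) (nat_lit 0) (XT.lf (nat_lit 0) (nat_lit 33520080490) (nat_lit 76) (nat_lit 29001872958) (nat_lit 76) (nat_lit 179910226) (nat_lit 56) (nat_lit 4) (nat_lit 57) (nat_lit 5) (nat_lit 57) (nat_lit 4) (nat_lit 547) (nat_lit 402) (nat_lit 251)) (XT.lf (nat_lit 0) (nat_lit 7452090442) (nat_lit 76) (nat_lit 10421722125) (nat_lit 152) (nat_lit 46141965234) (nat_lit 54) (nat_lit 5) (nat_lit 55) (nat_lit 5) (nat_lit 56) (nat_lit 4) (nat_lit 548) (nat_lit 402) (nat_lit 250)))) (XT.nd (nat_lit 156) (nat_lit 152) (nat_lit 0) (XT.nd (nat_lit 78) (nat_lit 76) (nat_lit 0) (XT.lf (nat_lit 0) (nat_lit 36834368365) (nat_lit 152) (nat_lit 19690468049) (nat_lit 0) (nat_lit 8833154413) (nat_lit 54) (nat_lit 5) (nat_lit 56) (nat_lit 4) (nat_lit 54) (nat_lit 4) (nat_lit 549) (nat_lit 402) (nat_lit 249)) (XT.lf (nat_lit 0) (nat_lit 18523042425) (nat_lit 76) (nat_lit 38109762878)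 (nat_lit 76) (nat_lit 10099593040) (nat_lit 53) (nat_lit 4) (nat_lit 54) (nat_lit 5) (nat_lit 54) (nat_lit 4) (nat_lit 550) (nat_lit 402) (nat_lit 248))) (XT.nd (nat_lit 78) (nat_lit 76) (nat_lit 0) (XT.lf (nat_lit 0) (nat_lit 8892565231) (nat_lit 152) (nat_lit 9966957453) (nat_lit 76) (nat_lit 49280296453) (nat_lit 52) (nat_lit 5) (nat_lit 54) (nat_lit 5) (nat_lit 53) (nat_lit 4) (nat_lit 551) (nat_lit 402) (nat_lit 247)) (XT.lf (nat_lit 0) (nat_lit 28539957116) (nat_lit 152) (nat_lit 39708871988) (nat_lit 0) (nat_lit 1328979781) (nat_lit 51) (nat_lit 5) (nat_lit 53) (nat_lit 4) (nat_lit 51) (nat_lit 4) (nat_lit 552) (nat_lit 402) (nat_lit 246))))))) (XT.nd (nat_lit 51948) (nat_lit 0) (nat_lit 18468) (XT.nd (nat_lit 51324) (nat_lit 0) (nat_lit 27816) (XT.nd (nat_lit 51012) (nat_lit 0) (nat_lit 30248) (XT.nd (nat_lit 50856) (nat_lit 0) (nat_lit 31008) (XT.nd (nat_lit 50778) (nat_lit 0) (nat_lit 31388) (XT.lf (nat_lit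 0) (nat_lit 49053335651) (nat_lit 152) (nat_lit 162904630) (nat_lit 0) (nat_lit 21834401127) (nat_lit 51) (nat_lit 5) (nat_lit 53) (nat_lit 4) (nat_lit 51) (nat_lit 4) (nat_lit 553) (nat_lit 402) (nat_lit 245)) (XT.lf (nat_lit 0) (nat_lit 1285550974) (nat_lit 0) (nat_lit 1285550974) (nat_lit 228) (nat_lit 668852231) (nat_lit 464) (nat_lit 5) (nat_lit 464) (nat_lit 3) (nat_lit 467) (nat_lit 3) (nat_lit 403) (nat_lit 403) (nat_lit 394))) (XT.nd (nat_lit 78) (nat_lit 0) (nat_lit 0) (XT.lf (nat_lit 0) (nat_lit 1439737989) (nat_lit 380) (nat_lit 665665975) (nat_lit 380) (nat_lit 4388746303) (nat_lit 459) (nat_lit 3) (nat_lit 464) (nat_lit 3) (nat_lit 464) (nat_lit 5) (nat_lit 404) (nat_lit 403) (nat_lit 393)) (XT.lf (nat_lit 76) (nat_lit 2657686235) (nat_lit 0) (nat_lit 1533333361) (nat_lit 380) (nat_lit 2319888930) (nat_lit 460) (nat_lit 5) (nat_lit 459) (nat_lit 3) (nat_lit 464) (nat_lit 5) (nat_lit 405) (nat_lit 403)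 (nat_lit 392)))) (XT.nd (nat_lit 156) (nat_lit 380) (nat_lit 0) (XT.nd (nat_lit 78) (nat_lit 0) (nat_lit 0) (XT.lf (nat_lit 0) (nat_lit 387188670) (nat_lit 380) (nat_lit 495706143) (nat_lit 456) (nat_lit 5648133193) (nat_lit 454) (nat_lit 5) (nat_lit 459) (nat_lit 3) (nat_lit 460) (nat_lit 5) (nat_lit 406) (nat_lit 403) (nat_lit 391)) (XT.lf (nat_lit 76) (nat_lit 2941349081) (nat_lit 0) (nat_lit 112302211) (nat_lit 456) (nat_lit 3499674481) (nat_lit 455) (nat_lit 5) (nat_lit 454) (nat_lit 5) (nat_lit 460) (nat_lit 5) (nat_lit 407) (nat_lit 403) (nat_lit 390))) (XT.nd (nat_lit 78) (nat_lit 456) (nat_lit 0) (XT.lf (nat_lit 0) (nat_lit 5711165117) (nat_lit 380) (nat_lit 149611478) (nat_lit 456) (nat_lit 718191712) (nat_lit 455) (nat_lit 5) (nat_lit 460) (nat_lit 5) (nat_lit 461) (nat_lit 5) (nat_lit 408) (nat_lit 403) (nat_lit 389)) (XT.lf (nat_lit 0) (nat_lit 1742844131) (nat_lit 456) (nat_lit 3198866314) (nat_lit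 532) (nat_lit 1665071787) (nat_lit 449) (nat_lit 5) (nat_lit 455) (nat_lit 5) (nat_lit 456) (nat_lit 5) (nat_lit 409) (nat_lit 403) (nat_lit 388))))) (XT.nd (nat_lit 312) (nat_lit 1900) (nat_lit 0) (XT.nd (nat_lit 156) (nat_lit 0) (nat_lit 0) (XT.nd (nat_lit 78) (nat_lit 532) (nat_lit 0) (XT.lf (nat_lit 76) (nat_lit 380460595) (nat_lit 0) (nat_lit 3942823354) (nat_lit 532) (nat_lit 2314628324) (nat_lit 450) (nat_lit 5) (nat_lit 449) (nat_lit 5) (nat_lit 456) (nat_lit 5) (nat_lit 410) (nat_lit 403) (nat_lit 387)) (XT.lf (nat_lit 0) (nat_lit 242755510) (nat_lit 532) (nat_lit 2599110028) (nat_lit 608) (nat_lit 3829897464) (nat_lit 442) (nat_lit 5) (nat_lit 449) (nat_lit 5) (nat_lit 450) (nat_lit 5) (nat_lit 411) (nat_lit 403) (nat_lit 386))) (XT.nd (nat_lit 78) (nat_lit 0) (nat_lit 0) (XT.lf (nat_lit 76) (nat_lit 1109924429) (nat_lit 0) (nat_lit 1638894188) (nat_lit 608) (nat_lit 3959575065) (nat_lit 443) (nat_lit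 5) (nat_lit 442) (nat_lit 5) (nat_lit 450) (nat_lit 5) (nat_lit 412) (nat_lit 403) (nat_lit 385)) (XT.lf (nat_lit 76) (nat_lit 4926276829) (nat_lit 0) (nat_lit 339977912) (nat_lit 608) (nat_lit 1481788949) (nat_lit 443) (nat_lit 5) (nat_lit 442) (nat_lit 5) (nat_lit 450) (nat_lit 5) (nat_lit 413) (nat_lit 403) (nat_lit 384)))) (XT.nd (nat_lit 156) (nat_lit 1368) (nat_lit 0) (XT.nd (nat_lit 78) (nat_lit 0) (nat_lit 0) (XT.lf (nat_lit 0) (nat_lit 990941608) (nat_lit 608) (nat_lit 4760391672) (nat_lit 76) (nat_lit 1039002145) (nat_lit 435) (nat_lit 5) (nat_lit 443) (nat_lit 5) (nat_lit 436) (nat_lit 5) (nat_lit 414) (nat_lit 403) (nat_lit 383)) (XT.lf (nat_lit 0) (nat_lit 3444022721) (nat_lit 608) (nat_lit 876657438) (nat_lit 76) (nat_lit 2514702703) (nat_lit 435) (nat_lit 5) (nat_lit 443) (nat_lit 5) (nat_lit 436) (nat_lit 5) (nat_lit 415) (nat_lit 403) (nat_lit 382))) (XT.nd (nat_lit 78) (nat_lit 760) (nat_lit 0)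 (XT.lf (nat_lit 0) (nat_lit 3126695009) (nat_lit 608) (nat_lit 2790568222) (nat_lit 684) (nat_lit 966126940) (nat_lit 427) (nat_lit 5) (nat_lit 435) (nat_lit 5) (nat_lit 436) (nat_lit 5) (nat_lit 416) (nat_lit 403) (nat_lit 381)) (XT.lf (nat_lit 0) (nat_lit 266958313) (nat_lit 684) (nat_lit 1164097703) (nat_lit 760) (nat_lit 5503472525) (nat_lit 417) (nat_lit 5) (nat_lit 426) (nat_lit 5) (nat_lit 427) (nat_lit 5) (nat_lit 417) (nat_lit 403) (nat_lit 380)))))) (XT.nd (nat_lit 624) (nat_lit 5700) (nat_lit 0) (XT.nd (nat_lit 312) (nat_lit 1976) (nat_lit 0) (XT.nd (nat_lit 156) (nat_lit 912) (nat_lit 0) (XT.nd (nat_lit 78) (nat_lit 760) (nat_lit 0) (XT.lf (nat_lit 0) (nat_lit 3843591715) (nat_lit 760) (nat_lit 2573629921) (nat_lit 76) (nat_lit 570811789) (nat_lit 417) (nat_lit 5) (nat_lit 427) (nat_lit 5) (nat_lit 418) (nat_lit 5) (nat_lit 418) (nat_lit 403) (nat_lit 379)) (XT.lf (nat_lit 0) (nat_lit 1603631403) (nat_lit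 760) (nat_lit 4673784679) (nat_lit 836) (nat_lit 767264843) (nat_lit 407) (nat_lit 5) (nat_lit 417) (nat_lit 5) (nat_lit 418) (nat_lit 5) (nat_lit 419) (nat_lit 403) (nat_lit 378))) (XT.nd (nat_lit 78) (nat_lit 836) (nat_lit 0) (XT.lf (nat_lit 0) (nat_lit 1597586562) (nat_lit 836) (nat_lit 1219920723) (nat_lit 76) (nat_lit 4286565328) (nat_lit 406) (nat_lit 5) (nat_lit 417) (nat_lit 5) (nat_lit 407) (nat_lit 5) (nat_lit 420) (nat_lit 403) (nat_lit 377)) (XT.lf (nat_lit 0) (nat_lit 3122712979) (nat_lit 836) (nat_lit 850431845) (nat_lit 912) (nat_lit 3193222286) (nat_lit 395) (nat_lit 5) (nat_lit 406) (nat_lit 5) (nat_lit 407) (nat_lit 5) (nat_lit 421) (nat_lit 403) (nat_lit 376)))) (XT.nd (nat_lit 156) (nat_lit 988) (nat_lit 0) (XT.nd (nat_lit 78) (nat_lit 76) (nat_lit 0) (XT.lf (nat_lit 0) (nat_lit 325151431) (nat_lit 912) (nat_lit 6048621385) (nat_lit 988) (nat_lit 858147844) (nat_lit 383) (nat_lit 5) (nat_lit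 395) (nat_lit 5) (nat_lit 396) (nat_lit 5) (nat_lit 422) (nat_lit 403) (nat_lit 375)) (XT.lf (nat_lit 0) (nat_lit 1494227175) (nat_lit 988) (nat_lit 2475091786) (nat_lit 76) (nat_lit 3330356739) (nat_lit 382) (nat_lit 5) (nat_lit 395) (nat_lit 5) (nat_lit 383) (nat_lit 5) (nat_lit 423) (nat_lit 403) (nat_lit 374))) (XT.nd (nat_lit 78) (nat_lit 0) (nat_lit 0) (XT.lf (nat_lit 0) (nat_lit 2061962034) (nat_lit 988) (nat_lit 1787665972) (nat_lit 1064) (nat_lit 3521093358) (nat_lit 369) (nat_lit 5) (nat_lit 382) (nat_lit 5) (nat_lit 383) (nat_lit 5) (nat_lit 424) (nat_lit 403) (nat_lit 373)) (XT.lf (nat_lit 0) (nat_lit 6236802884) (nat_lit 1064) (nat_lit 722838539) (nat_lit 76) (nat_lit 485427441) (nat_lit 369) (nat_lit 5) (nat_lit 383) (nat_lit 5) (nat_lit 370) (nat_lit 5) (nat_lit 425) (nat_lit 403) (nat_lit 372))))) (XT.nd (nat_lit 312) (nat_lit 2128) (nat_lit 0) (XT.nd (nat_lit 156) (nat_lit 1292) (nat_lit 0) (XT.nd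 (nat_lit 78) (nat_lit 1140) (nat_lit 0) (XT.lf (nat_lit 0) (nat_lit 1140551662) (nat_lit 1140) (nat_lit 3531208423) (nat_lit 76) (nat_lit 2849866372) (nat_lit 354) (nat_lit 5) (nat_lit 369) (nat_lit 5) (nat_lit 355) (nat_lit 5) (nat_lit 426) (nat_lit 403) (nat_lit 371)) (XT.lf (nat_lit 0) (nat_lit 1211380148) (nat_lit 1140) (nat_lit 2277362656) (nat_lit 1216) (nat_lit 4112786768) (nat_lit 339) (nat_lit 5) (nat_lit 354) (nat_lit 5) (nat_lit 355) (nat_lit 5) (nat_lit 427) (nat_lit 403) (nat_lit 370))) (XT.nd (nat_lit 78) (nat_lit 1292) (nat_lit 0) (XT.lf (nat_lit 0) (nat_lit 5880781940) (nat_lit 1216) (nat_lit 1577547783) (nat_lit 76) (nat_lit 226301391) (nat_lit 339) (nat_lit 5) (nat_lit 355) (nat_lit 5) (nat_lit 340) (nat_lit 5) (nat_lit 428) (nat_lit 403) (nat_lit 369)) (XT.lf (nat_lit 0) (nat_lit 555397200) (nat_lit 1292) (nat_lit 4412863289) (nat_lit 76) (nat_lit 2802035334) (nat_lit 322) (nat_lit 5) (nat_lit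 339) (nat_lit 5) (nat_lit 323) (nat_lit 5) (nat_lit 429) (nat_lit 403) (nat_lit 368)))) (XT.nd (nat_lit 156) (nat_lit 1292) (nat_lit 0) (XT.nd (nat_lit 78) (nat_lit 0) (nat_lit 0) (XT.lf (nat_lit 0) (nat_lit 547289933) (nat_lit 836) (nat_lit 2361321821) (nat_lit 912) (nat_lit 4950602644) (nat_lit 311) (nat_lit 5) (nat_lit 322) (nat_lit 5) (nat_lit 323) (nat_lit 5) (nat_lit 430) (nat_lit 403) (nat_lit 367)) (XT.lf (nat_lit 0) (nat_lit 5319877348) (nat_lit 912) (nat_lit 2267675224) (nat_lit 76) (nat_lit 363627343) (nat_lit 311) (nat_lit 5) (nat_lit 323) (nat_lit 5) (nat_lit 312) (nat_lit 5) (nat_lit 431) (nat_lit 403) (nat_lit 366))) (XT.nd (nat_lit 78) (nat_lit 684) (nat_lit 0) (XT.lf (nat_lit 0) (nat_lit 2901564719) (nat_lit 608) (nat_lit 4894293374) (nat_lit 684) (nat_lit 250277923) (nat_lit 303) (nat_lit 5) (nat_lit 311) (nat_lit 5) (nat_lit 312) (nat_lit 5) (nat_lit 432) (nat_lit 403) (nat_lit 365)) (XT.lf (nat_lit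 0) (nat_lit 48507621) (nat_lit 608) (nat_lit 2075969396) (nat_lit 684) (nat_lit 6019873327) (nat_lit 294) (nat_lit 5) (nat_lit 302) (nat_lit 5) (nat_lit 303) (nat_lit 5) (nat_lit 433) (nat_lit 403) (nat_lit 364))))))))
noncomputable def xc102 : XT := (XT.nd (nat_lit 2418) (nat_lit 4788) (nat_lit 0) (XT.nd (nat_lit 1170) (nat_lit 4180) (nat_lit 0) (XT.nd (nat_lit 546) (nat_lit 2356) (nat_lit 0) (XT.nd (nat_lit 234) (nat_lit 1748) (nat_lit 0) (XT.nd (nat_lit 78) (nat_lit 608) (nat_lit 0) (XT.lf (nat_lit 0) (nat_lit 4568640550) (nat_lit 684) (nat_lit 2813318708) (nat_lit 76) (nat_lit 863384302) (nat_lit 294) (nat_lit 5) (nat_lit 303) (nat_lit 5) (nat_lit 295) (nat_lit 5) (nat_lit 434) (nat_lit 403) (nat_lit 363)) (XT.nd (nat_lit 78) (nat_lit 76) (nat_lit 0) (XT.lf (nat_lit 0) (nat_lit 2598351812) (nat_lit 532) (nat_lit 4477757918) (nat_lit 608) (nat_lit 1273560028) (nat_lit 287) (nat_lit 5) (nat_lit 294) (nat_lit 5)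 (nat_lit 295) (nat_lit 5) (nat_lit 435) (nat_lit 403) (nat_lit 362)) (XT.lf (nat_lit 0) (nat_lit 1151877879) (nat_lit 608) (nat_lit 298056300) (nat_lit 76) (nat_lit 7007637989) (nat_lit 286) (nat_lit 5) (nat_lit 294) (nat_lit 5) (nat_lit 287) (nat_lit 5) (nat_lit 436) (nat_lit 403) (nat_lit 361)))) (XT.nd (nat_lit 156) (nat_lit 608) (nat_lit 0) (XT.nd (nat_lit 78) (nat_lit 532) (nat_lit 0) (XT.lf (nat_lit 0) (nat_lit 3639123466) (nat_lit 684) (nat_lit 3232631704) (nat_lit 76) (nat_lit 1696141327) (nat_lit 278) (nat_lit 5) (nat_lit 287) (nat_lit 5) (nat_lit 279) (nat_lit 5) (nat_lit 437) (nat_lit 403) (nat_lit 360)) (XT.lf (nat_lit 0) (nat_lit 2436209120) (nat_lit 532) (nat_lit 3753105197) (nat_lit 608) (nat_lit 2492568718) (nat_lit 271) (nat_lit 5) (nat_lit 278) (nat_lit 5) (nat_lit 279) (nat_lit 5) (nat_lit 438) (nat_lit 403) (nat_lit 359))) (XT.nd (nat_lit 78) (nat_lit 608) (nat_lit 0) (XT.lf (nat_lit 0) (nat_lit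 8282761706) (nat_lit 532) (nat_lit 514371853) (nat_lit 608) (nat_lit 2724177) (nat_lit 271) (nat_lit 5) (nat_lit 278) (nat_lit 5) (nat_lit 279) (nat_lit 5) (nat_lit 439) (nat_lit 403) (nat_lit 358)) (XT.lf (nat_lit 0) (nat_lit 2541086068) (nat_lit 608) (nat_lit 3542110664) (nat_lit 76) (nat_lit 2836560477) (nat_lit 263) (nat_lit 5) (nat_lit 271) (nat_lit 5) (nat_lit 264) (nat_lit 5) (nat_lit 440) (nat_lit 403) (nat_lit 357))))) (XT.nd (nat_lit 312) (nat_lit 912) (nat_lit 0) (XT.nd (nat_lit 156) (nat_lit 988) (nat_lit 0) (XT.nd (nat_lit 78) (nat_lit 0) (nat_lit 0) (XT.lf (nat_lit 0) (nat_lit 2399621134) (nat_lit 456) (nat_lit 2745295686) (nat_lit 532) (nat_lit 3898825266) (nat_lit 257) (nat_lit 5) (nat_lit 263) (nat_lit 5) (nat_lit 264) (nat_lit 5) (nat_lit 441) (nat_lit 403) (nat_lit 356)) (XT.lf (nat_lit 0) (nat_lit 7820769217) (nat_lit 532) (nat_lit 644737945) (nat_lit 76) (nat_lit 706124143) (nat_lit 257) (nat_lit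 5) (nat_lit 264) (nat_lit 5) (nat_lit 258) (nat_lit 5) (nat_lit 442) (nat_lit 403) (nat_lit 355))) (XT.nd (nat_lit 78) (nat_lit 456) (nat_lit 0) (XT.lf (nat_lit 0) (nat_lit 1282172443) (nat_lit 532) (nat_lit 3756862351) (nat_lit 76) (nat_lit 4262952514) (nat_lit 250) (nat_lit 5) (nat_lit 257) (nat_lit 5) (nat_lit 251) (nat_lit 5) (nat_lit 443) (nat_lit 403) (nat_lit 354)) (XT.lf (nat_lit 0) (nat_lit 2474485423) (nat_lit 456) (nat_lit 1475839790) (nat_lit 532) (nat_lit 5486031014) (nat_lit 244) (nat_lit 5) (nat_lit 250) (nat_lit 5) (nat_lit 251) (nat_lit 5) (nat_lit 444) (nat_lit 403) (nat_lit 353)))) (XT.nd (nat_lit 156) (nat_lit 456) (nat_lit 0) (XT.nd (nat_lit 78) (nat_lit 456) (nat_lit 0) (XT.lf (nat_lit 0) (nat_lit 6711552578) (nat_lit 532) (nat_lit 684213383) (nat_lit 76) (nat_lit 2178601127) (nat_lit 244) (nat_lit 5) (nat_lit 251) (nat_lit 5) (nat_lit 245) (nat_lit 5) (nat_lit 445) (nat_lit 403) (nat_lit 352))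 (XT.lf (nat_lit 0) (nat_lit 5823604078) (nat_lit 456) (nat_lit 3757580704) (nat_lit 532) (nat_lit 134568177) (nat_lit 238) (nat_lit 5) (nat_lit 244) (nat_lit 5) (nat_lit 245) (nat_lit 5) (nat_lit 446) (nat_lit 403) (nat_lit 351))) (XT.nd (nat_lit 78) (nat_lit 0) (nat_lit 0) (XT.lf (nat_lit 0) (nat_lit 2611403621) (nat_lit 456) (nat_lit 7213468878) (nat_lit 76) (nat_lit 36095351) (nat_lit 232) (nat_lit 5) (nat_lit 238) (nat_lit 5) (nat_lit 233) (nat_lit 5) (nat_lit 447) (nat_lit 403) (nat_lit 350)) (XT.lf (nat_lit 0) (nat_lit 5469877832) (nat_lit 456) (nat_lit 643321903) (nat_lit 76) (nat_lit 3896316220) (nat_lit 232) (nat_lit 5) (nat_lit 238) (nat_lit 5) (nat_lit 233) (nat_lit 5) (nat_lit 448) (nat_lit 403) (nat_lit 349)))))) (XT.nd (nat_lit 624) (nat_lit 1748) (nat_lit 0) (XT.nd (nat_lit 312) (nat_lit 1140) (nat_lit 0) (XT.nd (nat_lit 156) (nat_lit 380) (nat_lit 0) (XT.nd (nat_lit 78) (nat_lit 456) (nat_lit 0)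 (XT.lf (nat_lit 0) (nat_lit 6188219821) (nat_lit 456) (nat_lit 2242586902) (nat_lit 532) (nat_lit 1731214297) (nat_lit 226) (nat_lit 5) (nat_lit 232) (nat_lit 5) (nat_lit 233) (nat_lit 5) (nat_lit 449) (nat_lit 403) (nat_lit 348)) (XT.lf (nat_lit 0) (nat_lit 1147896607) (nat_lit 456) (nat_lit 7428345375) (nat_lit 76) (nat_lit 1742252799) (nat_lit 220) (nat_lit 5) (nat_lit 226) (nat_lit 5) (nat_lit 221) (nat_lit 5) (nat_lit 450) (nat_lit 403) (nat_lit 347))) (XT.nd (nat_lit 78) (nat_lit 380) (nat_lit 0) (XT.lf (nat_lit 0) (nat_lit 4099379011) (nat_lit 456) (nat_lit 534041313) (nat_lit 76) (nat_lit 5845105794) (nat_lit 220) (nat_lit 5) (nat_lit 226) (nat_lit 5) (nat_lit 221) (nat_lit 5) (nat_lit 451) (nat_lit 403) (nat_lit 346)) (XT.lf (nat_lit 0) (nat_lit 6641033740) (nat_lit 380) (nat_lit 521496359) (nat_lit 456) (nat_lit 3480135929) (nat_lit 215) (nat_lit 5) (nat_lit 220) (nat_lit 5) (nat_lit 221) (nat_lit 5) (nat_lit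 452) (nat_lit 403) (nat_lit 345)))) (XT.nd (nat_lit 156) (nat_lit 684) (nat_lit 0) (XT.nd (nat_lit 78) (nat_lit 76) (nat_lit 0) (XT.lf (nat_lit 0) (nat_lit 3201294780) (nat_lit 380) (nat_lit 7147997136) (nat_lit 456) (nat_lit 461488055) (nat_lit 210) (nat_lit 5) (nat_lit 215) (nat_lit 5) (nat_lit 216) (nat_lit 5) (nat_lit 453) (nat_lit 403) (nat_lit 344)) (XT.lf (nat_lit 0) (nat_lit 2602066191) (nat_lit 456) (nat_lit 367808138) (nat_lit 76) (nat_lit 8013120300) (nat_lit 209) (nat_lit 5) (nat_lit 215) (nat_lit 5) (nat_lit 210) (nat_lit 5) (nat_lit 454) (nat_lit 403) (nat_lit 343))) (XT.nd (nat_lit 78) (nat_lit 304) (nat_lit 0) (XT.lf (nat_lit 0) (nat_lit 5791789546) (nat_lit 456) (nat_lit 4000997187) (nat_lit 76) (nat_lit 1366146987) (nat_lit 204) (nat_lit 5) (nat_lit 210) (nat_lit 5) (nat_lit 205) (nat_lit 5) (nat_lit 455) (nat_lit 403) (nat_lit 342)) (XT.lf (nat_lit 0) (nat_lit 3561795614) (nat_lit 304) (nat_lit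 5544462495) (nat_lit 380) (nat_lit 2233022443) (nat_lit 200) (nat_lit 5) (nat_lit 204) (nat_lit 5) (nat_lit 205) (nat_lit 5) (nat_lit 456) (nat_lit 403) (nat_lit 341))))) (XT.nd (nat_lit 312) (nat_lit 760) (nat_lit 0) (XT.nd (nat_lit 156) (nat_lit 608) (nat_lit 0) (XT.nd (nat_lit 78) (nat_lit 304) (nat_lit 0) (XT.lf (nat_lit 0) (nat_lit 978382722) (nat_lit 380) (nat_lit 155741302) (nat_lit 76) (nat_lit 10390547554) (nat_lit 199) (nat_lit 5) (nat_lit 204) (nat_lit 5) (nat_lit 200) (nat_lit 5) (nat_lit 457) (nat_lit 403) (nat_lit 340)) (XT.lf (nat_lit 0) (nat_lit 4312489904) (nat_lit 380) (nat_lit 3977044236) (nat_lit 76) (nat_lit 3423290752) (nat_lit 195) (nat_lit 5) (nat_lit 200) (nat_lit 5) (nat_lit 196) (nat_lit 5) (nat_lit 458) (nat_lit 403) (nat_lit 339))) (XT.nd (nat_lit 78) (nat_lit 304) (nat_lit 0) (XT.lf (nat_lit 0) (nat_lit 3972713960) (nat_lit 304) (nat_lit 3788301873) (nat_lit 380) (nat_lit 4145176149)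 (nat_lit 191) (nat_lit 5) (nat_lit 195) (nat_lit 5) (nat_lit 196) (nat_lit 5) (nat_lit 459) (nat_lit 403) (nat_lit 338)) (XT.lf (nat_lit 0) (nat_lit 76672201) (nat_lit 304) (nat_lit 11249542285) (nat_lit 380) (nat_lit 778750102) (nat_lit 187) (nat_lit 5) (nat_lit 191) (nat_lit 5) (nat_lit 192) (nat_lit 5) (nat_lit 460) (nat_lit 403) (nat_lit 337)))) (XT.nd (nat_lit 156) (nat_lit 380) (nat_lit 0) (XT.nd (nat_lit 78) (nat_lit 304) (nat_lit 0) (XT.lf (nat_lit 0) (nat_lit 2718568641) (nat_lit 380) (nat_lit 3936481070) (nat_lit 76) (nat_lit 5651405298) (nat_lit 186) (nat_lit 5) (nat_lit 191) (nat_lit 5) (nat_lit 187) (nat_lit 5) (nat_lit 461) (nat_lit 403) (nat_lit 336)) (XT.lf (nat_lit 0) (nat_lit 4423495168) (nat_lit 304) (nat_lit 1889182781) (nat_lit 380) (nat_lit 6200856113) (nat_lit 182) (nat_lit 5) (nat_lit 186) (nat_lit 5) (nat_lit 187) (nat_lit 5) (nat_lit 462) (nat_lit 403) (nat_lit 335))) (XT.nd (nat_lit 78)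 (nat_lit 76) (nat_lit 0) (XT.lf (nat_lit 0) (nat_lit 312472401) (nat_lit 304) (nat_lit 9739652867) (nat_lit 380) (nat_lit 2673575676) (nat_lit 178) (nat_lit 5) (nat_lit 182) (nat_lit 5) (nat_lit 183) (nat_lit 5) (nat_lit 463) (nat_lit 403) (nat_lit 334)) (XT.lf (nat_lit 0) (nat_lit 1007507361) (nat_lit 380) (nat_lit 3891321259) (nat_lit 76) (nat_lit 8043127117) (nat_lit 177) (nat_lit 5) (nat_lit 182) (nat_lit 5) (nat_lit 178) (nat_lit 5) (nat_lit 464) (nat_lit 403) (nat_lit 333))))))) (XT.nd (nat_lit 1248) (nat_lit 2052) (nat_lit 0) (XT.nd (nat_lit 624) (nat_lit 1140) (nat_lit 0) (XT.nd (nat_lit 312) (nat_lit 760) (nat_lit 0) (XT.nd (nat_lit 156) (nat_lit 304) (nat_lit 0) (XT.nd (nat_lit 78) (nat_lit 304) (nat_lit 0) (XT.lf (nat_lit 0) (nat_lit 4760313972) (nat_lit 304) (nat_lit 8261565005) (nat_lit 76) (nat_lit 141575068) (nat_lit 174) (nat_lit 5) (nat_lit 178) (nat_lit 5) (nat_lit 175) (nat_lit 5) (nat_lit 465)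 (nat_lit 403) (nat_lit 332)) (XT.lf (nat_lit 0) (nat_lit 557801687) (nat_lit 304) (nat_lit 8128258112) (nat_lit 380) (nat_lit 4703727653) (nat_lit 170) (nat_lit 5) (nat_lit 174) (nat_lit 5) (nat_lit 175) (nat_lit 5) (nat_lit 466) (nat_lit 403) (nat_lit 331))) (XT.nd (nat_lit 78) (nat_lit 304) (nat_lit 0) (XT.lf (nat_lit 0) (nat_lit 9759181264) (nat_lit 304) (nat_lit 3021096114) (nat_lit 380) (nat_lit 841113277) (nat_lit 170) (nat_lit 5) (nat_lit 174) (nat_lit 5) (nat_lit 175) (nat_lit 5) (nat_lit 467) (nat_lit 403) (nat_lit 330)) (XT.lf (nat_lit 0) (nat_lit 3118141487) (nat_lit 304) (nat_lit 8479756199) (nat_lit 76) (nat_lit 2259880742) (nat_lit 166) (nat_lit 5) (nat_lit 170) (nat_lit 5) (nat_lit 167) (nat_lit 5) (nat_lit 468) (nat_lit 403) (nat_lit 329)))) (XT.nd (nat_lit 156) (nat_lit 532) (nat_lit 0) (XT.nd (nat_lit 78) (nat_lit 0) (nat_lit 0) (XT.lf (nat_lit 0) (nat_lit 800216956) (nat_lit 228) (nat_lit 6424220881)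 (nat_lit 304) (nat_lit 6875215787) (nat_lit 163) (nat_lit 5) (nat_lit 166) (nat_lit 5) (nat_lit 167) (nat_lit 5) (nat_lit 469) (nat_lit 403) (nat_lit 328)) (XT.lf (nat_lit 0) (nat_lit 10481602290) (nat_lit 228) (nat_lit 1026566663) (nat_lit 304) (nat_lit 2838989435) (nat_lit 163) (nat_lit 5) (nat_lit 166) (nat_lit 5) (nat_lit 167) (nat_lit 5) (nat_lit 470) (nat_lit 403) (nat_lit 327))) (XT.nd (nat_lit 78) (nat_lit 228) (nat_lit 0) (XT.lf (nat_lit 0) (nat_lit 1362656521) (nat_lit 304) (nat_lit 8741078013) (nat_lit 76) (nat_lit 4495872493) (nat_lit 159) (nat_lit 5) (nat_lit 163) (nat_lit 5) (nat_lit 160) (nat_lit 5) (nat_lit 471) (nat_lit 403) (nat_lit 326)) (XT.lf (nat_lit 0) (nat_lit 1026301671) (nat_lit 228) (nat_lit 4635905672) (nat_lit 304) (nat_lit 9195711658) (nat_lit 156) (nat_lit 5) (nat_lit 159) (nat_lit 5) (nat_lit 160) (nat_lit 5) (nat_lit 472) (nat_lit 403) (nat_lit 325))))) (XT.nd (nat_lit 312) (nat_lit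 608) (nat_lit 0) (XT.nd (nat_lit 156) (nat_lit 304) (nat_lit 0) (XT.nd (nat_lit 78) (nat_lit 228) (nat_lit 0) (XT.lf (nat_lit 0) (nat_lit 10159149564) (nat_lit 304) (nat_lit 3916302443) (nat_lit 76) (nat_lit 1046476795) (nat_lit 156) (nat_lit 5) (nat_lit 160) (nat_lit 5) (nat_lit 157) (nat_lit 5) (nat_lit 473) (nat_lit 403) (nat_lit 324)) (XT.lf (nat_lit 0) (nat_lit 6325055955) (nat_lit 228) (nat_lit 8543216719) (nat_lit 304) (nat_lit 523268637) (nat_lit 153) (nat_lit 5) (nat_lit 156) (nat_lit 5) (nat_lit 157) (nat_lit 5) (nat_lit 474) (nat_lit 403) (nat_lit 323))) (XT.nd (nat_lit 78) (nat_lit 0) (nat_lit 0) (XT.lf (nat_lit 0) (nat_lit 1221350630) (nat_lit 228) (nat_lit 2771412127) (nat_lit 304) (nat_lit 11674641600) (nat_lit 149) (nat_lit 5) (nat_lit 152) (nat_lit 5) (nat_lit 153) (nat_lit 5) (nat_lit 475) (nat_lit 403) (nat_lit 322)) (XT.lf (nat_lit 0) (nat_lit 8727598292) (nat_lit 304) (nat_lit 4030958382) (nat_lit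 76) (nat_lit 3190016527) (nat_lit 149) (nat_lit 5) (nat_lit 153) (nat_lit 5) (nat_lit 150) (nat_lit 5) (nat_lit 476) (nat_lit 403) (nat_lit 321)))) (XT.nd (nat_lit 156) (nat_lit 152) (nat_lit 0) (XT.nd (nat_lit 78) (nat_lit 304) (nat_lit 0) (XT.lf (nat_lit 0) (nat_lit 6753118011) (nat_lit 152) (nat_lit 6915438142) (nat_lit 228) (nat_lit 2567699168) (nat_lit 147) (nat_lit 5) (nat_lit 149) (nat_lit 5) (nat_lit 150) (nat_lit 5) (nat_lit 477) (nat_lit 403) (nat_lit 320)) (XT.lf (nat_lit 0) (nat_lit 1369019908) (nat_lit 228) (nat_lit 838815564) (nat_lit 304) (nat_lit 14323308785) (nat_lit 143) (nat_lit 5) (nat_lit 146) (nat_lit 5) (nat_lit 147) (nat_lit 5) (nat_lit 478) (nat_lit 403) (nat_lit 319))) (XT.nd (nat_lit 78) (nat_lit 152) (nat_lit 0) (XT.lf (nat_lit 0) (nat_lit 7195829162) (nat_lit 304) (nat_lit 4217421857) (nat_lit 76) (nat_lit 5417242605) (nat_lit 143) (nat_lit 5) (nat_lit 147) (nat_lit 5) (nat_lit 144)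 (nat_lit 5) (nat_lit 479) (nat_lit 403) (nat_lit 318)) (XT.lf (nat_lit 0) (nat_lit 7139963963) (nat_lit 152) (nat_lit 5243243936) (nat_lit 228) (nat_lit 4754123686) (nat_lit 141) (nat_lit 5) (nat_lit 143) (nat_lit 5) (nat_lit 144) (nat_lit 5) (nat_lit 480) (nat_lit 403) (nat_lit 317)))))) (XT.nd (nat_lit 624) (nat_lit 912) (nat_lit 0) (XT.nd (nat_lit 312) (nat_lit 456) (nat_lit 0) (XT.nd (nat_lit 156) (nat_lit 380) (nat_lit 0) (XT.nd (nat_lit 78) (nat_lit 0) (nat_lit 0) (XT.lf (nat_lit 0) (nat_lit 308442820) (nat_lit 304) (nat_lit 16012555502) (nat_lit 76) (nat_lit 1131070122) (nat_lit 137) (nat_lit 5) (nat_lit 141) (nat_lit 5) (nat_lit 138) (nat_lit 5) (nat_lit 481) (nat_lit 403) (nat_lit 316)) (XT.lf (nat_lit 0) (nat_lit 5554244516) (nat_lit 304) (nat_lit 4495684679) (nat_lit 76) (nat_lit 7721099185) (nat_lit 137) (nat_lit 5) (nat_lit 141) (nat_lit 5) (nat_lit 138) (nat_lit 5) (nat_lit 482) (nat_lit 403) (nat_lit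 315))) (XT.nd (nat_lit 78) (nat_lit 228) (nat_lit 0) (XT.lf (nat_lit 0) (nat_lit 7466845210) (nat_lit 152) (nat_lit 3536180756) (nat_lit 228) (nat_lit 7095163395) (nat_lit 135) (nat_lit 5) (nat_lit 137) (nat_lit 5) (nat_lit 138) (nat_lit 5) (nat_lit 483) (nat_lit 403) (nat_lit 314)) (XT.lf (nat_lit 0) (nat_lit 1397223654) (nat_lit 228) (nat_lit 15281799183) (nat_lit 304) (nat_lit 1754230181) (nat_lit 132) (nat_lit 5) (nat_lit 135) (nat_lit 5) (nat_lit 136) (nat_lit 5) (nat_lit 484) (nat_lit 403) (nat_lit 313)))) (XT.nd (nat_lit 156) (nat_lit 228) (nat_lit 0) (XT.nd (nat_lit 78) (nat_lit 152) (nat_lit 0) (XT.lf (nat_lit 0) (nat_lit 3791286787) (nat_lit 304) (nat_lit 4888424689) (nat_lit 76) (nat_lit 10094052799) (nat_lit 131) (nat_lit 5) (nat_lit 135) (nat_lit 5) (nat_lit 132) (nat_lit 5) (nat_lit 485) (nat_lit 403) (nat_lit 312)) (XT.lf (nat_lit 0) (nat_lit 7712302275) (nat_lit 152) (nat_lit 1804541669) (nat_lit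 228) (nat_lit 9605658248) (nat_lit 129) (nat_lit 5) (nat_lit 131) (nat_lit 5) (nat_lit 132) (nat_lit 5) (nat_lit 486) (nat_lit 403) (nat_lit 311))) (XT.nd (nat_lit 78) (nat_lit 76) (nat_lit 0) (XT.lf (nat_lit 0) (nat_lit 1239450515) (nat_lit 152) (nat_lit 14262133622) (nat_lit 228) (nat_lit 3977495981) (nat_lit 127) (nat_lit 5) (nat_lit 129) (nat_lit 5) (nat_lit 130) (nat_lit 5) (nat_lit 487) (nat_lit 403) (nat_lit 310)) (XT.lf (nat_lit 0) (nat_lit 1893219835) (nat_lit 228) (nat_lit 5421529372) (nat_lit 76) (nat_lit 12527805389) (nat_lit 126) (nat_lit 5) (nat_lit 129) (nat_lit 5) (nat_lit 127) (nat_lit 5) (nat_lit 488) (nat_lit 403) (nat_lit 309))))) (XT.nd (nat_lit 312) (nat_lit 380) (nat_lit 0) (XT.nd (nat_lit 156) (nat_lit 228) (nat_lit 0) (XT.nd (nat_lit 78) (nat_lit 152) (nat_lit 0) (XT.lf (nat_lit 0) (nat_lit 7851624660) (nat_lit 152) (nat_lit 59677631) (nat_lit 228) (nat_lit 12302914244) (nat_lit 124) (nat_lit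 5) (nat_lit 126) (nat_lit 5) (nat_lit 127) (nat_lit 5) (nat_lit 489) (nat_lit 403) (nat_lit 308)) (XT.lf (nat_lit 0) (nat_lit 941866732) (nat_lit 152) (nat_lit 13279489427) (nat_lit 228) (nat_lit 6372329626) (nat_lit 122) (nat_lit 5) (nat_lit 124) (nat_lit 5) (nat_lit 125) (nat_lit 5) (nat_lit 490) (nat_lit 403) (nat_lit 307))) (XT.nd (nat_lit 78) (nat_lit 228) (nat_lit 0) (XT.lf (nat_lit 0) (nat_lit 14855268202) (nat_lit 152) (nat_lit 5966984615) (nat_lit 228) (nat_lit 159240372) (nat_lit 122) (nat_lit 5) (nat_lit 124) (nat_lit 5) (nat_lit 125) (nat_lit 5) (nat_lit 491) (nat_lit 403) (nat_lit 306)) (XT.lf (nat_lit 0) (nat_lit 6186778340) (nat_lit 228) (nat_lit 13537543676) (nat_lit 76) (nat_lit 1652764347) (nat_lit 119) (nat_lit 5) (nat_lit 122) (nat_lit 5) (nat_lit 120) (nat_lit 5) (nat_lit 492) (nat_lit 403) (nat_lit 305)))) (XT.nd (nat_lit 156) (nat_lit 228) (nat_lit 0) (XT.nd (nat_lit 78) (nat_lit 0) (nat_lit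 0) (XT.lf (nat_lit 0) (nat_lit 472807712) (nat_lit 152) (nat_lit 12349953184) (nat_lit 228) (nat_lit 8958655907) (nat_lit 117) (nat_lit 5) (nat_lit 119) (nat_lit 5) (nat_lit 120) (nat_lit 5) (nat_lit 493) (nat_lit 403) (nat_lit 304)) (XT.lf (nat_lit 0) (nat_lit 15139067133) (nat_lit 152) (nat_lit 4632419200) (nat_lit 228) (nat_lit 2422981197) (nat_lit 117) (nat_lit 5) (nat_lit 119) (nat_lit 5) (nat_lit 120) (nat_lit 5) (nat_lit 494) (nat_lit 403) (nat_lit 303))) (XT.nd (nat_lit 78) (nat_lit 0) (nat_lit 0) (XT.lf (nat_lit 0) (nat_lit 4308889359) (nat_lit 228) (nat_lit 14957006770) (nat_lit 76) (nat_lit 3350245201) (nat_lit 114) (nat_lit 5) (nat_lit 117) (nat_lit 5) (nat_lit 115) (nat_lit 5) (nat_lit 495) (nat_lit 403) (nat_lit 302)) (XT.lf (nat_lit 0) (nat_lit 11289332644) (nat_lit 228) (nat_lit 200382211) (nat_lit 76) (nat_lit 11557171561) (nat_lit 114) (nat_lit 5) (nat_lit 117) (nat_lit 5) (nat_lit 115) (nat_lit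 5) (nat_lit 496) (nat_lit 403) (nat_lit 301))))))))
noncomputable def xc103 : XT := (XT.nd (nat_lit 2418) (nat_lit 1824) (nat_lit 0) (XT.nd (nat_lit 1170) (nat_lit 1368) (nat_lit 0) (XT.nd (nat_lit 546) (nat_lit 760) (nat_lit 0) (XT.nd (nat_lit 234) (nat_lit 456) (nat_lit 0) (XT.nd (nat_lit 78) (nat_lit 228) (nat_lit 0) (XT.lf (nat_lit 0) (nat_lit 15256625871) (nat_lit 152) (nat_lit 3347374217) (nat_lit 228) (nat_lit 4882809685) (nat_lit 112) (nat_lit 5) (nat_lit 114) (nat_lit 5) (nat_lit 115) (nat_lit 5) (nat_lit 497) (nat_lit 403) (nat_lit 300)) (XT.nd (nat_lit 78) (nat_lit 0) (nat_lit 0) (XT.lf (nat_lit 0) (nat_lit 2255108797) (nat_lit 228) (nat_lit 16663703115) (nat_lit 76) (nat_lit 5017490451) (nat_lit 109) (nat_lit 5) (nat_lit 112) (nat_lit 5) (nat_lit 110) (nat_lit 5) (nat_lit 498) (nat_lit 403) (nat_lit 299)) (XT.lf (nat_lit 0) (nat_lit 9604374654) (nat_lit 228) (nat_lit 1110068051) (nat_lit 76) (nat_lit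 13680526427) (nat_lit 109) (nat_lit 5) (nat_lit 112) (nat_lit 5) (nat_lit 110) (nat_lit 5) (nat_lit 499) (nat_lit 403) (nat_lit 298)))) (XT.nd (nat_lit 156) (nat_lit 228) (nat_lit 0) (XT.nd (nat_lit 78) (nat_lit 76) (nat_lit 0) (XT.lf (nat_lit 0) (nat_lit 15167163063) (nat_lit 152) (nat_lit 2131659786) (nat_lit 228) (nat_lit 7564832141) (nat_lit 107) (nat_lit 5) (nat_lit 109) (nat_lit 5) (nat_lit 110) (nat_lit 5) (nat_lit 500) (nat_lit 403) (nat_lit 297)) (XT.lf (nat_lit 0) (nat_lit 6635228378) (nat_lit 76) (nat_lit 18707446721) (nat_lit 152) (nat_lit 169418) (nat_lit 106) (nat_lit 5) (nat_lit 107) (nat_lit 5) (nat_lit 108) (nat_lit 4) (nat_lit 501) (nat_lit 403) (nat_lit 296))) (XT.nd (nat_lit 78) (nat_lit 152) (nat_lit 0) (XT.lf (nat_lit 0) (nat_lit 7738400393) (nat_lit 152) (nat_lit 2313861275) (nat_lit 76) (nat_lit 15778931197) (nat_lit 105) (nat_lit 5) (nat_lit 107) (nat_lit 5) (nat_lit 106) (nat_lit 5) (nat_lit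 502) (nat_lit 403) (nat_lit 295)) (XT.lf (nat_lit 0) (nat_lit 14823006398) (nat_lit 152) (nat_lit 1008232071) (nat_lit 228) (nat_lit 10499289900) (nat_lit 103) (nat_lit 5) (nat_lit 105) (nat_lit 5) (nat_lit 106) (nat_lit 5) (nat_lit 503) (nat_lit 403) (nat_lit 294))))) (XT.nd (nat_lit 312) (nat_lit 380) (nat_lit 0) (XT.nd (nat_lit 156) (nat_lit 228) (nat_lit 0) (XT.nd (nat_lit 78) (nat_lit 76) (nat_lit 0) (XT.lf (nat_lit 0) (nat_lit 5669809797) (nat_lit 76) (nat_lit 18634694836) (nat_lit 152) (nat_lit 2536210204) (nat_lit 102) (nat_lit 5) (nat_lit 103) (nat_lit 5) (nat_lit 104) (nat_lit 4) (nat_lit 504) (nat_lit 403) (nat_lit 293)) (XT.lf (nat_lit 0) (nat_lit 5662260963) (nat_lit 152) (nat_lit 3868006404) (nat_lit 76) (nat_lit 17831094072) (nat_lit 101) (nat_lit 5) (nat_lit 103) (nat_lit 5) (nat_lit 102) (nat_lit 5) (nat_lit 505) (nat_lit 403) (nat_lit 292))) (XT.nd (nat_lit 78) (nat_lit 76) (nat_lit 0) (XT.lf (nat_lit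 0) (nat_lit 14168408719) (nat_lit 152) (nat_lit 3810332) (nat_lit 228) (nat_lit 13721159986) (nat_lit 99) (nat_lit 5) (nat_lit 101) (nat_lit 5) (nat_lit 102) (nat_lit 5) (nat_lit 506) (nat_lit 403) (nat_lit 291)) (XT.lf (nat_lit 0) (nat_lit 4338006201) (nat_lit 76) (nat_lit 18755270061) (nat_lit 152) (nat_lit 5343407057) (nat_lit 98) (nat_lit 5) (nat_lit 99) (nat_lit 5) (nat_lit 100) (nat_lit 4) (nat_lit 507) (nat_lit 403) (nat_lit 290)))) (XT.nd (nat_lit 156) (nat_lit 152) (nat_lit 0) (XT.nd (nat_lit 78) (nat_lit 152) (nat_lit 0) (XT.lf (nat_lit 0) (nat_lit 3341965644) (nat_lit 152) (nat_lit 5837923651) (nat_lit 76) (nat_lit 19811837994) (nat_lit 97) (nat_lit 5) (nat_lit 99) (nat_lit 5) (nat_lit 98) (nat_lit 5) (nat_lit 508) (nat_lit 403) (nat_lit 289)) (XT.lf (nat_lit 0) (nat_lit 12295937551) (nat_lit 228) (nat_lit 16428614941) (nat_lit 76) (nat_lit 833820032) (nat_lit 95) (nat_lit 5) (nat_lit 98) (nat_lit 5)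 (nat_lit 96) (nat_lit 4) (nat_lit 509) (nat_lit 403) (nat_lit 288))) (XT.nd (nat_lit 78) (nat_lit 76) (nat_lit 0) (XT.lf (nat_lit 0) (nat_lit 2568546143) (nat_lit 76) (nat_lit 19106117462) (nat_lit 152) (nat_lit 8462669610) (nat_lit 94) (nat_lit 5) (nat_lit 95) (nat_lit 5) (nat_lit 96) (nat_lit 4) (nat_lit 510) (nat_lit 403) (nat_lit 287)) (XT.lf (nat_lit 0) (nat_lit 737942189) (nat_lit 152) (nat_lit 8299732533) (nat_lit 76) (nat_lit 21691357317) (nat_lit 93) (nat_lit 5) (nat_lit 95) (nat_lit 5) (nat_lit 94) (nat_lit 5) (nat_lit 511) (nat_lit 403) (nat_lit 286)))))) (XT.nd (nat_lit 624) (nat_lit 608) (nat_lit 0) (XT.nd (nat_lit 312) (nat_lit 304) (nat_lit 0) (XT.nd (nat_lit 156) (nat_lit 228) (nat_lit 0) (XT.nd (nat_lit 78) (nat_lit 76) (nat_lit 0) (XT.lf (nat_lit 0) (nat_lit 10152713788) (nat_lit 228) (nat_lit 19691663200) (nat_lit 76) (nat_lit 1488344329) (nat_lit 91) (nat_lit 5) (nat_lit 94) (nat_lit 5) (nat_lit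 92) (nat_lit 4) (nat_lit 512) (nat_lit 403) (nat_lit 285)) (XT.lf (nat_lit 0) (nat_lit 278305894) (nat_lit 76) (nat_lit 19730061623) (nat_lit 152) (nat_lit 11941400718) (nat_lit 90) (nat_lit 5) (nat_lit 91) (nat_lit 5) (nat_lit 92) (nat_lit 4) (nat_lit 513) (nat_lit 403) (nat_lit 284))) (XT.nd (nat_lit 78) (nat_lit 228) (nat_lit 0) (XT.lf (nat_lit 0) (nat_lit 21216362096) (nat_lit 76) (nat_lit 9124018366) (nat_lit 152) (nat_lit 2239525539) (nat_lit 90) (nat_lit 5) (nat_lit 91) (nat_lit 5) (nat_lit 92) (nat_lit 4) (nat_lit 514) (nat_lit 403) (nat_lit 283)) (XT.lf (nat_lit 0) (nat_lit 7695707889) (nat_lit 228) (nat_lit 23610231247) (nat_lit 76) (nat_lit 1917965004) (nat_lit 87) (nat_lit 5) (nat_lit 90) (nat_lit 5) (nat_lit 88) (nat_lit 4) (nat_lit 515) (nat_lit 403) (nat_lit 282)))) (XT.nd (nat_lit 156) (nat_lit 228) (nat_lit 0) (XT.nd (nat_lit 78) (nat_lit 76) (nat_lit 0) (XT.lf (nat_lit 0) (nat_lit 18072445400)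 (nat_lit 228) (nat_lit 2578335210) (nat_lit 76) (nat_lit 13230122746) (nat_lit 87) (nat_lit 5) (nat_lit 90) (nat_lit 5) (nat_lit 88) (nat_lit 4) (nat_lit 516) (nat_lit 403) (nat_lit 281)) (XT.lf (nat_lit 0) (nat_lit 19430614212) (nat_lit 76) (nat_lit 9499404009) (nat_lit 152) (nat_lit 5622508443) (nat_lit 86) (nat_lit 5) (nat_lit 87) (nat_lit 5) (nat_lit 88) (nat_lit 4) (nat_lit 517) (nat_lit 403) (nat_lit 280))) (XT.nd (nat_lit 78) (nat_lit 0) (nat_lit 0) (XT.lf (nat_lit 0) (nat_lit 4870355167) (nat_lit 228) (nat_lit 28296010444) (nat_lit 76) (nat_lit 2073638618) (nat_lit 83) (nat_lit 5) (nat_lit 86) (nat_lit 5) (nat_lit 84) (nat_lit 4) (nat_lit 518) (nat_lit 403) (nat_lit 279)) (XT.lf (nat_lit 0) (nat_lit 15796073479) (nat_lit 228) (nat_lit 6146016710) (nat_lit 76) (nat_lit 13997413713) (nat_lit 83) (nat_lit 5) (nat_lit 86) (nat_lit 5) (nat_lit 84) (nat_lit 4) (nat_lit 519) (nat_lit 403) (nat_lit 278))))) (XT.nd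 (nat_lit 312) (nat_lit 228) (nat_lit 0) (XT.nd (nat_lit 156) (nat_lit 76) (nat_lit 0) (XT.nd (nat_lit 78) (nat_lit 228) (nat_lit 0) (XT.lf (nat_lit 0) (nat_lit 16967417479) (nat_lit 76) (nat_lit 10228556356) (nat_lit 152) (nat_lit 9459622518) (nat_lit 82) (nat_lit 5) (nat_lit 83) (nat_lit 5) (nat_lit 84) (nat_lit 4) (nat_lit 520) (nat_lit 403) (nat_lit 277)) (XT.lf (nat_lit 0) (nat_lit 1613101308) (nat_lit 228) (nat_lit 33878750769) (nat_lit 76) (nat_lit 1897917806) (nat_lit 79) (nat_lit 5) (nat_lit 82) (nat_lit 5) (nat_lit 80) (nat_lit 4) (nat_lit 521) (nat_lit 403) (nat_lit 276))) (XT.nd (nat_lit 78) (nat_lit 76) (nat_lit 0) (XT.lf (nat_lit 0) (nat_lit 13113288655) (nat_lit 228) (nat_lit 10559327104) (nat_lit 76) (nat_lit 14461980837) (nat_lit 79) (nat_lit 5) (nat_lit 82) (nat_lit 5) (nat_lit 80) (nat_lit 4) (nat_lit 522) (nat_lit 403) (nat_lit 275)) (XT.lf (nat_lit 0) (nat_lit 13695665646) (nat_lit 76) (nat_lit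 11378309404) (nat_lit 152) (nat_lit 13824328349) (nat_lit 78) (nat_lit 5) (nat_lit 79) (nat_lit 5) (nat_lit 80) (nat_lit 4) (nat_lit 523) (nat_lit 403) (nat_lit 274)))) (XT.nd (nat_lit 156) (nat_lit 76) (nat_lit 0) (XT.nd (nat_lit 78) (nat_lit 152) (nat_lit 0) (XT.lf (nat_lit 0) (nat_lit 37497388187) (nat_lit 152) (nat_lit 831659333) (nat_lit 0) (nat_lit 1352756788) (nat_lit 78) (nat_lit 5) (nat_lit 80) (nat_lit 4) (nat_lit 78) (nat_lit 4) (nat_lit 524) (nat_lit 403) (nat_lit 273)) (XT.lf (nat_lit 0) (nat_lit 9950211793) (nat_lit 152) (nat_lit 15968763606) (nat_lit 76) (nat_lit 14556902171) (nat_lit 76) (nat_lit 5) (nat_lit 78) (nat_lit 5) (nat_lit 77) (nat_lit 4) (nat_lit 525) (nat_lit 403) (nat_lit 272))) (XT.nd (nat_lit 78) (nat_lit 0) (nat_lit 0) (XT.lf (nat_lit 0) (nat_lit 9462109745) (nat_lit 76) (nat_lit 13026655637) (nat_lit 152) (nat_lit 18801845146) (nat_lit 75) (nat_lit 5) (nat_lit 76) (nat_lit 5) (nat_lit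 77) (nat_lit 4) (nat_lit 526) (nat_lit 403) (nat_lit 271)) (XT.lf (nat_lit 0) (nat_lit 35553132300) (nat_lit 152) (nat_lit 6176140251) (nat_lit 0) (nat_lit 396023301) (nat_lit 75) (nat_lit 5) (nat_lit 77) (nat_lit 4) (nat_lit 75) (nat_lit 4) (nat_lit 527) (nat_lit 403) (nat_lit 270))))))) (XT.nd (nat_lit 1248) (nat_lit 684) (nat_lit 0) (XT.nd (nat_lit 624) (nat_lit 532) (nat_lit 0) (XT.nd (nat_lit 312) (nat_lit 228) (nat_lit 0) (XT.nd (nat_lit 156) (nat_lit 152) (nat_lit 0) (XT.nd (nat_lit 78) (nat_lit 76) (nat_lit 0) (XT.lf (nat_lit 0) (nat_lit 6220673430) (nat_lit 152) (nat_lit 22549632354) (nat_lit 76) (nat_lit 14203564030) (nat_lit 73) (nat_lit 5) (nat_lit 75) (nat_lit 5) (nat_lit 74) (nat_lit 4) (nat_lit 528) (nat_lit 403) (nat_lit 269)) (XT.lf (nat_lit 0) (nat_lit 4087730741) (nat_lit 76) (nat_lit 15264596239) (nat_lit 152) (nat_lit 24491008194) (nat_lit 72) (nat_lit 5) (nat_lit 73) (nat_lit 5) (nat_lit 74)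 (nat_lit 4) (nat_lit 529) (nat_lit 403) (nat_lit 268))) (XT.nd (nat_lit 78) (nat_lit 152) (nat_lit 0) (XT.lf (nat_lit 0) (nat_lit 31957201250) (nat_lit 76) (nat_lit 1133443314) (nat_lit 152) (nat_lit 11641858567) (nat_lit 72) (nat_lit 5) (nat_lit 73) (nat_lit 5) (nat_lit 74) (nat_lit 4) (nat_lit 530) (nat_lit 403) (nat_lit 267)) (XT.lf (nat_lit 0) (nat_lit 1824240663) (nat_lit 152) (nat_lit 30506071892) (nat_lit 76) (nat_lit 13309697646) (nat_lit 70) (nat_lit 5) (nat_lit 72) (nat_lit 5) (nat_lit 71) (nat_lit 4) (nat_lit 531) (nat_lit 403) (nat_lit 266)))) (XT.nd (nat_lit 156) (nat_lit 152) (nat_lit 0) (XT.nd (nat_lit 78) (nat_lit 76) (nat_lit 0) (XT.lf (nat_lit 0) (nat_lit 15587159520) (nat_lit 152) (nat_lit 2585021828) (nat_lit 76) (nat_lit 28395298426) (nat_lit 70) (nat_lit 5) (nat_lit 72) (nat_lit 5) (nat_lit 71) (nat_lit 4) (nat_lit 532) (nat_lit 403) (nat_lit 265)) (XT.lf (nat_lit 0) (nat_lit 26666127503) (nat_lit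 76) (nat_lit 3338918586) (nat_lit 152) (nat_lit 17510465002) (nat_lit 69) (nat_lit 5) (nat_lit 70) (nat_lit 5) (nat_lit 71) (nat_lit 4) (nat_lit 533) (nat_lit 403) (nat_lit 264))) (XT.nd (nat_lit 78) (nat_lit 76) (nat_lit 0) (XT.lf (nat_lit 0) (nat_lit 8377138639) (nat_lit 76) (nat_lit 36685755977) (nat_lit 76) (nat_lit 3422866029) (nat_lit 68) (nat_lit 4) (nat_lit 69) (nat_lit 5) (nat_lit 69) (nat_lit 4) (nat_lit 534) (nat_lit 403) (nat_lit 263)) (XT.lf (nat_lit 0) (nat_lit 11102465819) (nat_lit 152) (nat_lit 10740588535) (nat_lit 76) (nat_lit 27631922257) (nat_lit 67) (nat_lit 5) (nat_lit 69) (nat_lit 5) (nat_lit 68) (nat_lit 4) (nat_lit 535) (nat_lit 403) (nat_lit 262))))) (XT.nd (nat_lit 312) (nat_lit 228) (nat_lit 0) (XT.nd (nat_lit 156) (nat_lit 228) (nat_lit 0) (XT.nd (nat_lit 78) (nat_lit 0) (nat_lit 0) (XT.lf (nat_lit 0) (nat_lit 19834538681) (nat_lit 76) (nat_lit 6337076898) (nat_lit 152) (nat_lit 24315931212)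 (nat_lit 66) (nat_lit 5) (nat_lit 67) (nat_lit 5) (nat_lit 68) (nat_lit 4) (nat_lit 536) (nat_lit 403) (nat_lit 261)) (XT.lf (nat_lit 0) (nat_lit 41881191281) (nat_lit 152) (nat_lit 100950014) (nat_lit 0) (nat_lit 9542702290) (nat_lit 66) (nat_lit 5) (nat_lit 68) (nat_lit 4) (nat_lit 66) (nat_lit 4) (nat_lit 537) (nat_lit 403) (nat_lit 260))) (XT.nd (nat_lit 78) (nat_lit 76) (nat_lit 0) (XT.lf (nat_lit 0) (nat_lit 5721611813) (nat_lit 152) (nat_lit 20737569987) (nat_lit 76) (nat_lit 26121714469) (nat_lit 64) (nat_lit 5) (nat_lit 66) (nat_lit 5) (nat_lit 65) (nat_lit 4) (nat_lit 538) (nat_lit 403) (nat_lit 259)) (XT.lf (nat_lit 0) (nat_lit 11175648863) (nat_lit 76) (nat_lit 10273433606) (nat_lit 152) (nat_lit 32213831367) (nat_lit 63) (nat_lit 5) (nat_lit 64) (nat_lit 5) (nat_lit 65) (nat_lit 4) (nat_lit 539) (nat_lit 403) (nat_lit 258)))) (XT.nd (nat_lit 156) (nat_lit 152) (nat_lit 0) (XT.nd (nat_lit 78) (nat_lit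 76) (nat_lit 0) (XT.lf (nat_lit 0) (nat_lit 37907995243) (nat_lit 152) (nat_lit 10389671760) (nat_lit 0) (nat_lit 6471936435) (nat_lit 63) (nat_lit 5) (nat_lit 65) (nat_lit 4) (nat_lit 63) (nat_lit 4) (nat_lit 540) (nat_lit 403) (nat_lit 257)) (XT.lf (nat_lit 0) (nat_lit 22992207955) (nat_lit 76) (nat_lit 32178224478) (nat_lit 76) (nat_lit 729768628) (nat_lit 62) (nat_lit 4) (nat_lit 63) (nat_lit 5) (nat_lit 63) (nat_lit 4) (nat_lit 541) (nat_lit 403) (nat_lit 256))) (XT.nd (nat_lit 78) (nat_lit 0) (nat_lit 0) (XT.lf (nat_lit 0) (nat_lit 354534041) (nat_lit 76) (nat_lit 15317892487) (nat_lit 152) (nat_lit 41384817123) (nat_lit 60) (nat_lit 5) (nat_lit 61) (nat_lit 5) (nat_lit 62) (nat_lit 4) (nat_lit 542) (nat_lit 403) (nat_lit 255)) (XT.lf (nat_lit 0) (nat_lit 32894351107) (nat_lit 152) (nat_lit 23005320501) (nat_lit 0) (nat_lit 2338839252) (nat_lit 60) (nat_lit 5) (nat_lit 62) (nat_lit 4) (nat_lit 60) (nat_lit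 4) (nat_lit 543) (nat_lit 403) (nat_lit 254)))))) (XT.nd (nat_lit 624) (nat_lit 152) (nat_lit 0) (XT.nd (nat_lit 312) (nat_lit 304) (nat_lit 0) (XT.nd (nat_lit 156) (nat_lit 76) (nat_lit 0) (XT.nd (nat_lit 78) (nat_lit 76) (nat_lit 0) (XT.lf (nat_lit 0) (nat_lit 11755866946) (nat_lit 76) (nat_lit 39129156474) (nat_lit 76) (nat_lit 8562630008) (nat_lit 59) (nat_lit 4) (nat_lit 60) (nat_lit 5) (nat_lit 60) (nat_lit 4) (nat_lit 544) (nat_lit 403) (nat_lit 253)) (XT.lf (nat_lit 0) (nat_lit 8774179482) (nat_lit 152) (nat_lit 12765635912) (nat_lit 76) (nat_lit 39144078431) (nat_lit 58) (nat_lit 5) (nat_lit 60) (nat_lit 5) (nat_lit 59) (nat_lit 4) (nat_lit 545) (nat_lit 403) (nat_lit 252))) (XT.nd (nat_lit 78) (nat_lit 0) (nat_lit 0) (XT.lf (nat_lit 0) (nat_lit 23559101026) (nat_lit 76) (nat_lit 3114151986) (nat_lit 152) (nat_lit 35274997302) (nat_lit 57) (nat_lit 5) (nat_lit 58) (nat_lit 5) (nat_lit 59) (nat_lit 4) (nat_lit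 546) (nat_lit 403) (nat_lit 251)) (XT.lf (nat_lit 0) (nat_lit 45379787761) (nat_lit 152) (nat_lit 2189335223) (nat_lit 0) (nat_lit 15673299879) (nat_lit 57) (nat_lit 5) (nat_lit 59) (nat_lit 4) (nat_lit 57) (nat_lit 4) (nat_lit 547) (nat_lit 403) (nat_lit 250)))) (XT.nd (nat_lit 156) (nat_lit 76) (nat_lit 0) (XT.nd (nat_lit 78) (nat_lit 76) (nat_lit 0) (XT.lf (nat_lit 0) (nat_lit 436827416) (nat_lit 152) (nat_lit 28829229526) (nat_lit 76) (nat_lit 35298358798) (nat_lit 55) (nat_lit 5) (nat_lit 57) (nat_lit 5) (nat_lit 56) (nat_lit 4) (nat_lit 548) (nat_lit 403) (nat_lit 249)) (XT.lf (nat_lit 0) (nat_lit 8889857198) (nat_lit 76) (nat_lit 10132345236) (nat_lit 152) (nat_lit 46895681771) (nat_lit 54) (nat_lit 5) (nat_lit 55) (nat_lit 5) (nat_lit 56) (nat_lit 4) (nat_lit 549) (nat_lit 403) (nat_lit 248))) (XT.nd (nat_lit 78) (nat_lit 76) (nat_lit 0) (XT.lf (nat_lit 0) (nat_lit 38539363063) (nat_lit 152) (nat_lit 19090129754)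 (nat_lit 0) (nat_lit 9671237209) (nat_lit 54) (nat_lit 5) (nat_lit 56) (nat_lit 4) (nat_lit 54) (nat_lit 4) (nat_lit 550) (nat_lit 403) (nat_lit 247)) (XT.lf (nat_lit 0) (nat_lit 20258109051) (nat_lit 76) (nat_lit 38667506266) (nat_lit 76) (nat_lit 9790938630) (nat_lit 53) (nat_lit 4) (nat_lit 54) (nat_lit 5) (nat_lit 54) (nat_lit 4) (nat_lit 551) (nat_lit 403) (nat_lit 246))))) (XT.nd (nat_lit 51090) (nat_lit 0) (nat_lit 30172) (XT.nd (nat_lit 50934) (nat_lit 0) (nat_lit 30628) (XT.nd (nat_lit 78) (nat_lit 76) (nat_lit 0) (XT.lf (nat_lit 0) (nat_lit 9741581857) (nat_lit 152) (nat_lit 9109352371) (nat_lit 76) (nat_lit 51315610814) (nat_lit 52) (nat_lit 5) (nat_lit 54) (nat_lit 5) (nat_lit 53) (nat_lit 4) (nat_lit 552) (nat_lit 403) (nat_lit 245)) (XT.lf (nat_lit 0) (nat_lit 29977915564) (nat_lit 152) (nat_lit 39743042970) (nat_lit 0) (nat_lit 1926730389) (nat_lit 51) (nat_lit 5) (nat_lit 53) (nat_lit 4) (nat_lit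 51) (nat_lit 4) (nat_lit 553) (nat_lit 403) (nat_lit 244))) (XT.nd (nat_lit 78) (nat_lit 380) (nat_lit 0) (XT.lf (nat_lit 0) (nat_lit 2068901832) (nat_lit 380) (nat_lit 592951284) (nat_lit 380) (nat_lit 592951284) (nat_lit 459) (nat_lit 3) (nat_lit 464) (nat_lit 3) (nat_lit 464) (nat_lit 5) (nat_lit 404) (nat_lit 404) (nat_lit 392)) (XT.lf (nat_lit 0) (nat_lit 297987889) (nat_lit 380) (nat_lit 4431078025) (nat_lit 456) (nat_lit 1798930064) (nat_lit 454) (nat_lit 5) (nat_lit 459) (nat_lit 3) (nat_lit 460) (nat_lit 5) (nat_lit 405) (nat_lit 404) (nat_lit 391)))) (XT.nd (nat_lit 156) (nat_lit 456) (nat_lit 0) (XT.nd (nat_lit 78) (nat_lit 0) (nat_lit 0) (XT.lf (nat_lit 0) (nat_lit 2908823745) (nat_lit 380) (nat_lit 1123257894) (nat_lit 456) (nat_lit 2516897818) (nat_lit 454) (nat_lit 5) (nat_lit 459) (nat_lit 3) (nat_lit 460) (nat_lit 5) (nat_lit 406) (nat_lit 404) (nat_lit 390)) (XT.lf (nat_lit 76) (nat_lit 2274180581)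 (nat_lit 0) (nat_lit 3245204829) (nat_lit 456) (nat_lit 1053572563) (nat_lit 455) (nat_lit 5) (nat_lit 454) (nat_lit 5) (nat_lit 460) (nat_lit 5) (nat_lit 407) (nat_lit 404) (nat_lit 389))) (XT.nd (nat_lit 78) (nat_lit 0) (nat_lit 0) (XT.lf (nat_lit 0) (nat_lit 1491608366) (nat_lit 456) (nat_lit 871784417) (nat_lit 532) (nat_lit 4236432847) (nat_lit 448) (nat_lit 5) (nat_lit 454) (nat_lit 5) (nat_lit 455) (nat_lit 5) (nat_lit 408) (nat_lit 404) (nat_lit 388)) (XT.lf (nat_lit 76) (nat_lit 2645380362) (nat_lit 0) (nat_lit 1375875905) (nat_lit 532) (nat_lit 2608058401) (nat_lit 449) (nat_lit 5) (nat_lit 448) (nat_lit 5) (nat_lit 455) (nat_lit 5) (nat_lit 409) (nat_lit 404) (nat_lit 387))))))))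
noncomputable def xc104 : XT := (XT.nd (nat_lit 2418) (nat_lit 7600) (nat_lit 0) (XT.nd (nat_lit 1170) (nat_lit 8056) (nat_lit 0) (XT.nd (nat_lit 546) (nat_lit 4332) (nat_lit 0) (XT.nd (nat_lit 234) (nat_lit 1216) (nat_lit 0) (XT.nd (nat_lit 78) (nat_lit 456) (nat_lit 0) (XT.lf (nat_lit 76) (nat_lit 6232631062) (nat_lit 0) (nat_lit 309112049) (nat_lit 532) (nat_lit 120503496) (nat_lit 449) (nat_lit 5) (nat_lit 448) (nat_lit 5) (nat_lit 455) (nat_lit 5) (nat_lit 410) (nat_lit 404) (nat_lit 386)) (XT.nd (nat_lit 78) (nat_lit 0) (nat_lit 0) (XT.lf (nat_lit 0) (nat_lit 2341426383) (nat_lit 532) (nat_lit 3488747636) (nat_lit 608) (nat_lit 866872855) (nat_lit 442) (nat_lit 5) (nat_lit 449) (nat_lit 5) (nat_lit 450) (nat_lit 5) (nat_lit 411) (nat_lit 404) (nat_lit 385)) (XT.lf (nat_lit 76) (nat_lit 174388037) (nat_lit 0) (nat_lit 4620017550) (nat_lit 608) (nat_lit 1940867510) (nat_lit 443) (nat_lit 5) (nat_lit 442) (nat_lit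 5) (nat_lit 450) (nat_lit 5) (nat_lit 412) (nat_lit 404) (nat_lit 384)))) (XT.nd (nat_lit 156) (nat_lit 608) (nat_lit 0) (XT.nd (nat_lit 78) (nat_lit 0) (nat_lit 0) (XT.lf (nat_lit 0) (nat_lit 482942204) (nat_lit 608) (nat_lit 2817584518) (nat_lit 684) (nat_lit 3475549376) (nat_lit 434) (nat_lit 5) (nat_lit 442) (nat_lit 5) (nat_lit 443) (nat_lit 5) (nat_lit 413) (nat_lit 404) (nat_lit 383)) (XT.lf (nat_lit 76) (nat_lit 982308125) (nat_lit 0) (nat_lit 1881859715) (nat_lit 684) (nat_lit 3955653142) (nat_lit 435) (nat_lit 5) (nat_lit 434) (nat_lit 5) (nat_lit 443) (nat_lit 5) (nat_lit 414) (nat_lit 404) (nat_lit 382))) (XT.nd (nat_lit 78) (nat_lit 608) (nat_lit 0) (XT.lf (nat_lit 76) (nat_lit 4898842168) (nat_lit 0) (nat_lit 362676003) (nat_lit 684) (nat_lit 1605024860) (nat_lit 435) (nat_lit 5) (nat_lit 434) (nat_lit 5) (nat_lit 443) (nat_lit 5) (nat_lit 415) (nat_lit 404) (nat_lit 381)) (XT.lf (nat_lit 0) (nat_lit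 749312769) (nat_lit 684) (nat_lit 4934282220) (nat_lit 76) (nat_lit 1232368066) (nat_lit 426) (nat_lit 5) (nat_lit 435) (nat_lit 5) (nat_lit 427) (nat_lit 5) (nat_lit 416) (nat_lit 404) (nat_lit 380))))) (XT.nd (nat_lit 312) (nat_lit 2812) (nat_lit 0) (XT.nd (nat_lit 156) (nat_lit 836) (nat_lit 0) (XT.nd (nat_lit 78) (nat_lit 684) (nat_lit 0) (XT.lf (nat_lit 0) (nat_lit 3085657838) (nat_lit 684) (nat_lit 953335247) (nat_lit 76) (nat_lit 2929091748) (nat_lit 426) (nat_lit 5) (nat_lit 435) (nat_lit 5) (nat_lit 427) (nat_lit 5) (nat_lit 417) (nat_lit 404) (nat_lit 379)) (XT.lf (nat_lit 0) (nat_lit 3152967169) (nat_lit 684) (nat_lit 2291744258) (nat_lit 760) (nat_lit 1578485141) (nat_lit 417) (nat_lit 5) (nat_lit 426) (nat_lit 5) (nat_lit 427) (nat_lit 5) (nat_lit 418) (nat_lit 404) (nat_lit 378))) (XT.nd (nat_lit 78) (nat_lit 0) (nat_lit 0) (XT.lf (nat_lit 0) (nat_lit 263144956) (nat_lit 760) (nat_lit 451463501) (nat_lit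 836) (nat_lit 6367062477) (nat_lit 406) (nat_lit 5) (nat_lit 416) (nat_lit 5) (nat_lit 417) (nat_lit 5) (nat_lit 419) (nat_lit 404) (nat_lit 377)) (XT.lf (nat_lit 0) (nat_lit 3023283562) (nat_lit 836) (nat_lit 2629234655) (nat_lit 76) (nat_lit 1489561453) (nat_lit 406) (nat_lit 5) (nat_lit 417) (nat_lit 5) (nat_lit 407) (nat_lit 5) (nat_lit 420) (nat_lit 404) (nat_lit 376)))) (XT.nd (nat_lit 156) (nat_lit 1900) (nat_lit 0) (XT.nd (nat_lit 78) (nat_lit 76) (nat_lit 0) (XT.lf (nat_lit 0) (nat_lit 1656831504) (nat_lit 836) (nat_lit 3692128635) (nat_lit 912) (nat_lit 1856912601) (nat_lit 395) (nat_lit 5) (nat_lit 406) (nat_lit 5) (nat_lit 407) (nat_lit 5) (nat_lit 421) (nat_lit 404) (nat_lit 375)) (XT.lf (nat_lit 0) (nat_lit 418626644) (nat_lit 912) (nat_lit 1207855664) (nat_lit 76) (nat_lit 5646314229) (nat_lit 394) (nat_lit 5) (nat_lit 406) (nat_lit 5) (nat_lit 395) (nat_lit 5) (nat_lit 422) (nat_lit 404) (nat_lit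 374))) (XT.nd (nat_lit 78) (nat_lit 988) (nat_lit 0) (XT.lf (nat_lit 0) (nat_lit 2692121336) (nat_lit 988) (nat_lit 4095084350) (nat_lit 76) (nat_lit 554964404) (nat_lit 382) (nat_lit 5) (nat_lit 395) (nat_lit 5) (nat_lit 383) (nat_lit 5) (nat_lit 423) (nat_lit 404) (nat_lit 373)) (XT.lf (nat_lit 0) (nat_lit 380796306) (nat_lit 988) (nat_lit 4617030455) (nat_lit 1064) (nat_lit 2416881740) (nat_lit 369) (nat_lit 5) (nat_lit 382) (nat_lit 5) (nat_lit 383) (nat_lit 5) (nat_lit 424) (nat_lit 404) (nat_lit 372)))))) (XT.nd (nat_lit 624) (nat_lit 2964) (nat_lit 0) (XT.nd (nat_lit 312) (nat_lit 2812) (nat_lit 0) (XT.nd (nat_lit 156) (nat_lit 1140) (nat_lit 0) (XT.nd (nat_lit 78) (nat_lit 1140) (nat_lit 0) (XT.lf (nat_lit 0) (nat_lit 5017877013) (nat_lit 988) (nat_lit 2329537256) (nat_lit 1064) (nat_lit 142771185) (nat_lit 369) (nat_lit 5) (nat_lit 382) (nat_lit 5) (nat_lit 383) (nat_lit 5) (nat_lit 425) (nat_lit 404) (nat_lit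 371)) (XT.lf (nat_lit 0) (nat_lit 2113115700) (nat_lit 1140) (nat_lit 5378289995) (nat_lit 76) (nat_lit 77195985) (nat_lit 354) (nat_lit 5) (nat_lit 369) (nat_lit 5) (nat_lit 355) (nat_lit 5) (nat_lit 426) (nat_lit 404) (nat_lit 370))) (XT.nd (nat_lit 78) (nat_lit 1140) (nat_lit 0) (XT.lf (nat_lit 0) (nat_lit 4418182030) (nat_lit 1140) (nat_lit 687964295) (nat_lit 76) (nat_lit 2543653889) (nat_lit 354) (nat_lit 5) (nat_lit 369) (nat_lit 5) (nat_lit 355) (nat_lit 5) (nat_lit 427) (nat_lit 404) (nat_lit 369)) (XT.lf (nat_lit 0) (nat_lit 4167988399) (nat_lit 1140) (nat_lit 2602433535) (nat_lit 1216) (nat_lit 963675426) (nat_lit 339) (nat_lit 5) (nat_lit 354) (nat_lit 5) (nat_lit 355) (nat_lit 5) (nat_lit 428) (nat_lit 404) (nat_lit 368)))) (XT.nd (nat_lit 156) (nat_lit 1520) (nat_lit 0) (XT.nd (nat_lit 78) (nat_lit 0) (nat_lit 0) (XT.lf (nat_lit 0) (nat_lit 1303977442) (nat_lit 1292) (nat_lit 6503534631) (nat_lit 76)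 (nat_lit 14265203) (nat_lit 322) (nat_lit 5) (nat_lit 339) (nat_lit 5) (nat_lit 323) (nat_lit 5) (nat_lit 429) (nat_lit 404) (nat_lit 367)) (XT.lf (nat_lit 0) (nat_lit 3622325498) (nat_lit 1292) (nat_lit 1582814136) (nat_lit 76) (nat_lit 2706603701) (nat_lit 322) (nat_lit 5) (nat_lit 339) (nat_lit 5) (nat_lit 323) (nat_lit 5) (nat_lit 430) (nat_lit 404) (nat_lit 366))) (XT.nd (nat_lit 78) (nat_lit 684) (nat_lit 0) (XT.lf (nat_lit 0) (nat_lit 3497100202) (nat_lit 836) (nat_lit 2488391131) (nat_lit 912) (nat_lit 2019661956) (nat_lit 311) (nat_lit 5) (nat_lit 322) (nat_lit 5) (nat_lit 323) (nat_lit 5) (nat_lit 431) (nat_lit 404) (nat_lit 365)) (XT.lf (nat_lit 0) (nat_lit 279480185) (nat_lit 684) (nat_lit 7493139450) (nat_lit 76) (nat_lit 329631838) (nat_lit 302) (nat_lit 5) (nat_lit 311) (nat_lit 5) (nat_lit 303) (nat_lit 5) (nat_lit 432) (nat_lit 404) (nat_lit 364))))) (XT.nd (nat_lit 312) (nat_lit 1748) (nat_lit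 0) (XT.nd (nat_lit 156) (nat_lit 608) (nat_lit 0) (XT.nd (nat_lit 78) (nat_lit 608) (nat_lit 0) (XT.lf (nat_lit 0) (nat_lit 2620992670) (nat_lit 684) (nat_lit 2332183630) (nat_lit 76) (nat_lit 3248069410) (nat_lit 302) (nat_lit 5) (nat_lit 311) (nat_lit 5) (nat_lit 303) (nat_lit 5) (nat_lit 433) (nat_lit 404) (nat_lit 363)) (XT.lf (nat_lit 0) (nat_lit 2985148413) (nat_lit 608) (nat_lit 2021324892) (nat_lit 684) (nat_lit 3297527391) (nat_lit 294) (nat_lit 5) (nat_lit 302) (nat_lit 5) (nat_lit 303) (nat_lit 5) (nat_lit 434) (nat_lit 404) (nat_lit 362))) (XT.nd (nat_lit 78) (nat_lit 76) (nat_lit 0) (XT.lf (nat_lit 0) (nat_lit 33757729) (nat_lit 532) (nat_lit 7409534419) (nat_lit 608) (nat_lit 967155501) (nat_lit 287) (nat_lit 5) (nat_lit 294) (nat_lit 5) (nat_lit 295) (nat_lit 5) (nat_lit 435) (nat_lit 404) (nat_lit 361)) (XT.lf (nat_lit 0) (nat_lit 1425979473) (nat_lit 608) (nat_lit 2955066061) (nat_lit 76) (nat_lit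 4138007058) (nat_lit 286) (nat_lit 5) (nat_lit 294) (nat_lit 5) (nat_lit 287) (nat_lit 5) (nat_lit 436) (nat_lit 404) (nat_lit 360)))) (XT.nd (nat_lit 156) (nat_lit 1140) (nat_lit 0) (XT.nd (nat_lit 78) (nat_lit 0) (nat_lit 0) (XT.lf (nat_lit 0) (nat_lit 2614091890) (nat_lit 608) (nat_lit 1230624950) (nat_lit 684) (nat_lit 4786716467) (nat_lit 278) (nat_lit 5) (nat_lit 286) (nat_lit 5) (nat_lit 287) (nat_lit 5) (nat_lit 437) (nat_lit 404) (nat_lit 359)) (XT.lf (nat_lit 0) (nat_lit 6334557824) (nat_lit 684) (nat_lit 412523279) (nat_lit 76) (nat_lit 2000150346) (nat_lit 278) (nat_lit 5) (nat_lit 287) (nat_lit 5) (nat_lit 279) (nat_lit 5) (nat_lit 438) (nat_lit 404) (nat_lit 358))) (XT.nd (nat_lit 78) (nat_lit 532) (nat_lit 0) (XT.lf (nat_lit 0) (nat_lit 46695242) (nat_lit 608) (nat_lit 3468741693) (nat_lit 76) (nat_lit 5350617100) (nat_lit 270) (nat_lit 5) (nat_lit 278) (nat_lit 5) (nat_lit 271) (nat_lit 5) (nat_lit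 439) (nat_lit 404) (nat_lit 357)) (XT.lf (nat_lit 0) (nat_lit 2367622337) (nat_lit 532) (nat_lit 141650457) (nat_lit 608) (nat_lit 6479116327) (nat_lit 263) (nat_lit 5) (nat_lit 270) (nat_lit 5) (nat_lit 271) (nat_lit 5) (nat_lit 440) (nat_lit 404) (nat_lit 356))))))) (XT.nd (nat_lit 1170) (nat_lit 3116) (nat_lit 0) (XT.nd (nat_lit 546) (nat_lit 2508) (nat_lit 0) (XT.nd (nat_lit 234) (nat_lit 988) (nat_lit 0) (XT.nd (nat_lit 78) (nat_lit 988) (nat_lit 0) (XT.lf (nat_lit 0) (nat_lit 5064919098) (nat_lit 608) (nat_lit 752604685) (nat_lit 76) (nat_lit 3296296733) (nat_lit 263) (nat_lit 5) (nat_lit 271) (nat_lit 5) (nat_lit 264) (nat_lit 5) (nat_lit 441) (nat_lit 404) (nat_lit 355)) (XT.nd (nat_lit 78) (nat_lit 532) (nat_lit 0) (XT.lf (nat_lit 0) (nat_lit 5338989172) (nat_lit 456) (nat_lit 2364149272) (nat_lit 532) (nat_lit 1539701238) (nat_lit 257) (nat_lit 5) (nat_lit 263) (nat_lit 5) (nat_lit 264) (nat_lit 5) (nat_lit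 442) (nat_lit 404) (nat_lit 354)) (XT.lf (nat_lit 0) (nat_lit 1018830477) (nat_lit 532) (nat_lit 7156818739) (nat_lit 76) (nat_lit 1199947458) (nat_lit 250) (nat_lit 5) (nat_lit 257) (nat_lit 5) (nat_lit 251) (nat_lit 5) (nat_lit 443) (nat_lit 404) (nat_lit 353)))) (XT.nd (nat_lit 156) (nat_lit 532) (nat_lit 0) (XT.nd (nat_lit 78) (nat_lit 456) (nat_lit 0) (XT.lf (nat_lit 0) (nat_lit 3640678867) (nat_lit 532) (nat_lit 1001593396) (nat_lit 76) (nat_lit 4869083336) (nat_lit 250) (nat_lit 5) (nat_lit 257) (nat_lit 5) (nat_lit 251) (nat_lit 5) (nat_lit 444) (nat_lit 404) (nat_lit 352)) (XT.lf (nat_lit 0) (nat_lit 5388577410) (nat_lit 456) (nat_lit 960023240) (nat_lit 532) (nat_lit 3302365827) (nat_lit 244) (nat_lit 5) (nat_lit 250) (nat_lit 5) (nat_lit 251) (nat_lit 5) (nat_lit 445) (nat_lit 404) (nat_lit 351))) (XT.nd (nat_lit 78) (nat_lit 76) (nat_lit 0) (XT.lf (nat_lit 0) (nat_lit 2155728095) (nat_lit 456) (nat_lit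 6996485107) (nat_lit 532) (nat_lit 642120560) (nat_lit 238) (nat_lit 5) (nat_lit 244) (nat_lit 5) (nat_lit 245) (nat_lit 5) (nat_lit 446) (nat_lit 404) (nat_lit 350)) (XT.lf (nat_lit 0) (nat_lit 2066571654) (nat_lit 532) (nat_lit 1172896961) (nat_lit 76) (nat_lit 6701642694) (nat_lit 237) (nat_lit 5) (nat_lit 244) (nat_lit 5) (nat_lit 238) (nat_lit 5) (nat_lit 447) (nat_lit 404) (nat_lit 349))))) (XT.nd (nat_lit 312) (nat_lit 1216) (nat_lit 0) (XT.nd (nat_lit 156) (nat_lit 456) (nat_lit 0) (XT.nd (nat_lit 78) (nat_lit 456) (nat_lit 0) (XT.lf (nat_lit 0) (nat_lit 4861217162) (nat_lit 456) (nat_lit 4564110446) (nat_lit 76) (nat_lit 666247422) (nat_lit 232) (nat_lit 5) (nat_lit 238) (nat_lit 5) (nat_lit 233) (nat_lit 5) (nat_lit 448) (nat_lit 404) (nat_lit 348)) (XT.lf (nat_lit 0) (nat_lit 2161857757) (nat_lit 456) (nat_lit 5601122200) (nat_lit 532) (nat_lit 2482875854) (nat_lit 226) (nat_lit 5) (nat_lit 232) (nat_lit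 5) (nat_lit 233) (nat_lit 5) (nat_lit 449) (nat_lit 404) (nat_lit 347))) (XT.nd (nat_lit 78) (nat_lit 380) (nat_lit 0) (XT.lf (nat_lit 0) (nat_lit 345547531) (nat_lit 532) (nat_lit 1279114318) (nat_lit 76) (nat_lit 8779845830) (nat_lit 225) (nat_lit 5) (nat_lit 232) (nat_lit 5) (nat_lit 226) (nat_lit 5) (nat_lit 450) (nat_lit 404) (nat_lit 346)) (XT.lf (nat_lit 0) (nat_lit 3248692299) (nat_lit 456) (nat_lit 4826822736) (nat_lit 76) (nat_lit 2490474780) (nat_lit 220) (nat_lit 5) (nat_lit 226) (nat_lit 5) (nat_lit 221) (nat_lit 5) (nat_lit 451) (nat_lit 404) (nat_lit 345)))) (XT.nd (nat_lit 156) (nat_lit 836) (nat_lit 0) (XT.nd (nat_lit 78) (nat_lit 0) (nat_lit 0) (XT.lf (nat_lit 0) (nat_lit 2235673192) (nat_lit 380) (nat_lit 4014351432) (nat_lit 456) (nat_lit 4481960314) (nat_lit 215) (nat_lit 5) (nat_lit 220) (nat_lit 5) (nat_lit 221) (nat_lit 5) (nat_lit 452) (nat_lit 404) (nat_lit 344)) (XT.lf (nat_lit 0) (nat_lit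 9353211076) (nat_lit 456) (nat_lit 1349137952) (nat_lit 76) (nat_lit 200257746) (nat_lit 215) (nat_lit 5) (nat_lit 221) (nat_lit 5) (nat_lit 216) (nat_lit 5) (nat_lit 453) (nat_lit 404) (nat_lit 343))) (XT.nd (nat_lit 78) (nat_lit 380) (nat_lit 0) (XT.lf (nat_lit 0) (nat_lit 1502919033) (nat_lit 456) (nat_lit 5053703925) (nat_lit 76) (nat_lit 4519486853) (nat_lit 209) (nat_lit 5) (nat_lit 215) (nat_lit 5) (nat_lit 210) (nat_lit 5) (nat_lit 454) (nat_lit 404) (nat_lit 342)) (XT.lf (nat_lit 0) (nat_lit 2365864578) (nat_lit 380) (nat_lit 2248633190) (nat_lit 456) (nat_lit 6639896052) (nat_lit 204) (nat_lit 5) (nat_lit 209) (nat_lit 5) (nat_lit 210) (nat_lit 5) (nat_lit 455) (nat_lit 404) (nat_lit 341)))))) (XT.nd (nat_lit 624) (nat_lit 1444) (nat_lit 0) (XT.nd (nat_lit 312) (nat_lit 988) (nat_lit 0) (XT.nd (nat_lit 156) (nat_lit 380) (nat_lit 0) (XT.nd (nat_lit 78) (nat_lit 304) (nat_lit 0) (XT.lf (nat_lit 0) (nat_lit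 7854776208) (nat_lit 456) (nat_lit 1400034377) (nat_lit 76) (nat_lit 2182156331) (nat_lit 204) (nat_lit 5) (nat_lit 210) (nat_lit 5) (nat_lit 205) (nat_lit 5) (nat_lit 456) (nat_lit 404) (nat_lit 340)) (XT.lf (nat_lit 0) (nat_lit 6362965808) (nat_lit 304) (nat_lit 4876586234) (nat_lit 380) (nat_lit 384047601) (nat_lit 200) (nat_lit 5) (nat_lit 204) (nat_lit 5) (nat_lit 205) (nat_lit 5) (nat_lit 457) (nat_lit 404) (nat_lit 339))) (XT.nd (nat_lit 78) (nat_lit 0) (nat_lit 0) (XT.lf (nat_lit 0) (nat_lit 2541370190) (nat_lit 304) (nat_lit 314655478) (nat_lit 380) (nat_lit 8958884395) (nat_lit 195) (nat_lit 5) (nat_lit 199) (nat_lit 5) (nat_lit 200) (nat_lit 5) (nat_lit 458) (nat_lit 404) (nat_lit 338)) (XT.lf (nat_lit 0) (nat_lit 6245829656) (nat_lit 380) (nat_lit 1424214536) (nat_lit 76) (nat_lit 4339995117) (nat_lit 195) (nat_lit 5) (nat_lit 200) (nat_lit 5) (nat_lit 196) (nat_lit 5) (nat_lit 459) (nat_lit 404) (nat_lit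 337)))) (XT.nd (nat_lit 156) (nat_lit 304) (nat_lit 0) (XT.nd (nat_lit 78) (nat_lit 380) (nat_lit 0) (XT.lf (nat_lit 0) (nat_lit 6737838945) (nat_lit 304) (nat_lit 3032864176) (nat_lit 380) (nat_lit 2439319036) (nat_lit 191) (nat_lit 5) (nat_lit 195) (nat_lit 5) (nat_lit 196) (nat_lit 5) (nat_lit 460) (nat_lit 404) (nat_lit 336)) (XT.lf (nat_lit 0) (nat_lit 989829101) (nat_lit 380) (nat_lit 9681468955) (nat_lit 76) (nat_lit 1743711077) (nat_lit 186) (nat_lit 5) (nat_lit 191) (nat_lit 5) (nat_lit 187) (nat_lit 5) (nat_lit 461) (nat_lit 404) (nat_lit 335))) (XT.nd (nat_lit 78) (nat_lit 304) (nat_lit 0) (XT.lf (nat_lit 0) (nat_lit 4524678710) (nat_lit 380) (nat_lit 1433253359) (nat_lit 76) (nat_lit 6665934351) (nat_lit 186) (nat_lit 5) (nat_lit 191) (nat_lit 5) (nat_lit 187) (nat_lit 5) (nat_lit 462) (nat_lit 404) (nat_lit 334)) (XT.lf (nat_lit 0) (nat_lit 7151822929) (nat_lit 304) (nat_lit 1049509385) (nat_lit 380)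 (nat_lit 4636585230) (nat_lit 182) (nat_lit 5) (nat_lit 186) (nat_lit 5) (nat_lit 187) (nat_lit 5) (nat_lit 463) (nat_lit 404) (nat_lit 333))))) (XT.nd (nat_lit 312) (nat_lit 532) (nat_lit 0) (XT.nd (nat_lit 156) (nat_lit 532) (nat_lit 0) (XT.nd (nat_lit 78) (nat_lit 76) (nat_lit 0) (XT.lf (nat_lit 0) (nat_lit 2934012733) (nat_lit 304) (nat_lit 9102931935) (nat_lit 380) (nat_lit 1019986607) (nat_lit 178) (nat_lit 5) (nat_lit 182) (nat_lit 5) (nat_lit 183) (nat_lit 5) (nat_lit 464) (nat_lit 404) (nat_lit 332)) (XT.lf (nat_lit 0) (nat_lit 2688182803) (nat_lit 380) (nat_lit 1439089493) (nat_lit 76) (nat_lit 9153388049) (nat_lit 177) (nat_lit 5) (nat_lit 182) (nat_lit 5) (nat_lit 178) (nat_lit 5) (nat_lit 465) (nat_lit 404) (nat_lit 331))) (XT.nd (nat_lit 78) (nat_lit 304) (nat_lit 0) (XT.lf (nat_lit 0) (nat_lit 6538768992) (nat_lit 304) (nat_lit 5925596556) (nat_lit 76) (nat_lit 1044883375) (nat_lit 174) (nat_lit 5)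 (nat_lit 178) (nat_lit 5) (nat_lit 175) (nat_lit 5) (nat_lit 466) (nat_lit 404) (nat_lit 330)) (XT.lf (nat_lit 0) (nat_lit 3133019613) (nat_lit 304) (nat_lit 7426221130) (nat_lit 380) (nat_lit 3183824129) (nat_lit 170) (nat_lit 5) (nat_lit 174) (nat_lit 5) (nat_lit 175) (nat_lit 5) (nat_lit 467) (nat_lit 404) (nat_lit 329)))) (XT.nd (nat_lit 156) (nat_lit 228) (nat_lit 0) (XT.nd (nat_lit 78) (nat_lit 228) (nat_lit 0) (XT.lf (nat_lit 0) (nat_lit 731726791) (nat_lit 380) (nat_lit 1454278515) (nat_lit 76) (nat_lit 11796805833) (nat_lit 169) (nat_lit 5) (nat_lit 174) (nat_lit 5) (nat_lit 170) (nat_lit 5) (nat_lit 468) (nat_lit 404) (nat_lit 328)) (XT.lf (nat_lit 0) (nat_lit 4779699942) (nat_lit 304) (nat_lit 6205490881) (nat_lit 76) (nat_lit 3241245546) (nat_lit 166) (nat_lit 5) (nat_lit 170) (nat_lit 5) (nat_lit 167) (nat_lit 5) (nat_lit 469) (nat_lit 404) (nat_lit 327))) (XT.nd (nat_lit 78) (nat_lit 0) (nat_lit 0)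 (XT.lf (nat_lit 0) (nat_lit 3328090703) (nat_lit 228) (nat_lit 5659492866) (nat_lit 304) (nat_lit 5488633319) (nat_lit 163) (nat_lit 5) (nat_lit 166) (nat_lit 5) (nat_lit 167) (nat_lit 5) (nat_lit 470) (nat_lit 404) (nat_lit 326)) (XT.lf (nat_lit 0) (nat_lit 13226989425) (nat_lit 228) (nat_lit 127796050) (nat_lit 304) (nat_lit 1377713544) (nat_lit 163) (nat_lit 5) (nat_lit 166) (nat_lit 5) (nat_lit 167) (nat_lit 5) (nat_lit 471) (nat_lit 404) (nat_lit 325))))))))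
noncomputable def xc105 : XT := (XT.nd (nat_lit 2418) (nat_lit 2736) (nat_lit 0) (XT.nd (nat_lit 1170) (nat_lit 1976) (nat_lit 0) (XT.nd (nat_lit 546) (nat_lit 1216) (nat_lit 0) (XT.nd (nat_lit 234) (nat_lit 684) (nat_lit 0) (XT.nd (nat_lit 78) (nat_lit 228) (nat_lit 0) (XT.lf (nat_lit 0) (nat_lit 2908118164) (nat_lit 304) (nat_lit 6530444560) (nat_lit 76) (nat_lit 5553863972) (nat_lit 159) (nat_lit 5) (nat_lit 163) (nat_lit 5) (nat_lit 160) (nat_lit 5) (nat_lit 472) (nat_lit 404) (nat_lit 324)) (XT.nd (nat_lit 78) (nat_lit 0) (nat_lit 0) (XT.lf (nat_lit 0) (nat_lit 3505712732) (nat_lit 228) (nat_lit 3810657656) (nat_lit 304) (nat_lit 7942727100) (nat_lit 156) (nat_lit 5) (nat_lit 159) (nat_lit 5) (nat_lit 160) (nat_lit 5) (nat_lit 473) (nat_lit 404) (nat_lit 323)) (XT.lf (nat_lit 0) (nat_lit 11913988622) (nat_lit 304) (nat_lit 1622227039) (nat_lit 76) (nat_lit 1995839768) (nat_lit 156) (nat_lit 5) (nat_lit 160)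 (nat_lit 5) (nat_lit 157) (nat_lit 5) (nat_lit 474) (nat_lit 404) (nat_lit 322)))) (XT.nd (nat_lit 156) (nat_lit 152) (nat_lit 0) (XT.nd (nat_lit 78) (nat_lit 228) (nat_lit 0) (XT.lf (nat_lit 0) (nat_lit 916528397) (nat_lit 304) (nat_lit 6916591841) (nat_lit 76) (nat_lit 7976945784) (nat_lit 152) (nat_lit 5) (nat_lit 156) (nat_lit 5) (nat_lit 153) (nat_lit 5) (nat_lit 475) (nat_lit 404) (nat_lit 321)) (XT.lf (nat_lit 0) (nat_lit 3651005140) (nat_lit 228) (nat_lit 1887434792) (nat_lit 304) (nat_lit 10556182914) (nat_lit 149) (nat_lit 5) (nat_lit 152) (nat_lit 5) (nat_lit 153) (nat_lit 5) (nat_lit 476) (nat_lit 404) (nat_lit 320))) (XT.nd (nat_lit 78) (nat_lit 152) (nat_lit 0) (XT.lf (nat_lit 0) (nat_lit 10382815403) (nat_lit 304) (nat_lit 1796041418) (nat_lit 76) (nat_lit 4206345869) (nat_lit 149) (nat_lit 5) (nat_lit 153) (nat_lit 5) (nat_lit 150) (nat_lit 5) (nat_lit 477) (nat_lit 404) (nat_lit 319)) (XT.lf (nat_lit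 0) (nat_lit 9288460741) (nat_lit 152) (nat_lit 6165380922) (nat_lit 228) (nat_lit 1228219180) (nat_lit 147) (nat_lit 5) (nat_lit 149) (nat_lit 5) (nat_lit 150) (nat_lit 5) (nat_lit 478) (nat_lit 404) (nat_lit 318))))) (XT.nd (nat_lit 312) (nat_lit 456) (nat_lit 0) (XT.nd (nat_lit 156) (nat_lit 456) (nat_lit 0) (XT.nd (nat_lit 78) (nat_lit 0) (nat_lit 0) (XT.lf (nat_lit 0) (nat_lit 3645939476) (nat_lit 304) (nat_lit 13239548505) (nat_lit 76) (nat_lit 100410712) (nat_lit 143) (nat_lit 5) (nat_lit 147) (nat_lit 5) (nat_lit 144) (nat_lit 5) (nat_lit 479) (nat_lit 404) (nat_lit 317)) (XT.lf (nat_lit 0) (nat_lit 8751678836) (nat_lit 304) (nat_lit 2043813960) (nat_lit 76) (nat_lit 6499693264) (nat_lit 143) (nat_lit 5) (nat_lit 147) (nat_lit 5) (nat_lit 144) (nat_lit 5) (nat_lit 480) (nat_lit 404) (nat_lit 316))) (XT.nd (nat_lit 78) (nat_lit 304) (nat_lit 0) (XT.lf (nat_lit 0) (nat_lit 9631743136) (nat_lit 152) (nat_lit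 4445800902) (nat_lit 228) (nat_lit 3534199842) (nat_lit 141) (nat_lit 5) (nat_lit 143) (nat_lit 5) (nat_lit 144) (nat_lit 5) (nat_lit 481) (nat_lit 404) (nat_lit 315)) (XT.lf (nat_lit 0) (nat_lit 1645929441) (nat_lit 304) (nat_lit 14180994727) (nat_lit 76) (nat_lit 2108838162) (nat_lit 137) (nat_lit 5) (nat_lit 141) (nat_lit 5) (nat_lit 138) (nat_lit 5) (nat_lit 482) (nat_lit 404) (nat_lit 314)))) (XT.nd (nat_lit 156) (nat_lit 304) (nat_lit 0) (XT.nd (nat_lit 78) (nat_lit 152) (nat_lit 0) (XT.lf (nat_lit 0) (nat_lit 7010418781) (nat_lit 304) (nat_lit 2385955764) (nat_lit 76) (nat_lit 8869077730) (nat_lit 137) (nat_lit 5) (nat_lit 141) (nat_lit 5) (nat_lit 138) (nat_lit 5) (nat_lit 483) (nat_lit 404) (nat_lit 313)) (XT.lf (nat_lit 0) (nat_lit 9913444146) (nat_lit 152) (nat_lit 2693024839) (nat_lit 228) (nat_lit 5996445539) (nat_lit 135) (nat_lit 5) (nat_lit 137) (nat_lit 5) (nat_lit 138) (nat_lit 5) (nat_lit 484)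 (nat_lit 404) (nat_lit 312))) (XT.nd (nat_lit 78) (nat_lit 76) (nat_lit 0) (XT.lf (nat_lit 0) (nat_lit 3668754386) (nat_lit 228) (nat_lit 14777194779) (nat_lit 304) (nat_lit 502285403) (nat_lit 132) (nat_lit 5) (nat_lit 135) (nat_lit 5) (nat_lit 136) (nat_lit 5) (nat_lit 485) (nat_lit 404) (nat_lit 311)) (XT.lf (nat_lit 0) (nat_lit 5146884411) (nat_lit 304) (nat_lit 2845669933) (nat_lit 76) (nat_lit 11307148830) (nat_lit 131) (nat_lit 5) (nat_lit 135) (nat_lit 5) (nat_lit 132) (nat_lit 5) (nat_lit 486) (nat_lit 404) (nat_lit 310)))))) (XT.nd (nat_lit 624) (nat_lit 912) (nat_lit 0) (XT.nd (nat_lit 312) (nat_lit 532) (nat_lit 0) (XT.nd (nat_lit 156) (nat_lit 228) (nat_lit 0) (XT.nd (nat_lit 78) (nat_lit 152) (nat_lit 0) (XT.lf (nat_lit 0) (nat_lit 10111614061) (nat_lit 152) (nat_lit 917263163) (nat_lit 228) (nat_lit 8630486469) (nat_lit 129) (nat_lit 5) (nat_lit 131) (nat_lit 5) (nat_lit 132) (nat_lit 5) (nat_lit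 487) (nat_lit 404) (nat_lit 309)) (XT.lf (nat_lit 0) (nat_lit 3450814321) (nat_lit 152) (nat_lit 13736306615) (nat_lit 228) (nat_lit 2839699697) (nat_lit 127) (nat_lit 5) (nat_lit 129) (nat_lit 5) (nat_lit 130) (nat_lit 5) (nat_lit 488) (nat_lit 404) (nat_lit 308))) (XT.nd (nat_lit 78) (nat_lit 152) (nat_lit 0) (XT.lf (nat_lit 0) (nat_lit 3146705947) (nat_lit 228) (nat_lit 3449487911) (nat_lit 76) (nat_lit 13805720467) (nat_lit 126) (nat_lit 5) (nat_lit 129) (nat_lit 5) (nat_lit 127) (nat_lit 5) (nat_lit 489) (nat_lit 404) (nat_lit 307)) (XT.lf (nat_lit 0) (nat_lit 9339158885) (nat_lit 228) (nat_lit 10592594549) (nat_lit 76) (nat_lit 853158322) (nat_lit 124) (nat_lit 5) (nat_lit 127) (nat_lit 5) (nat_lit 125) (nat_lit 5) (nat_lit 490) (nat_lit 404) (nat_lit 306)))) (XT.nd (nat_lit 156) (nat_lit 304) (nat_lit 0) (XT.nd (nat_lit 78) (nat_lit 76) (nat_lit 0) (XT.lf (nat_lit 0) (nat_lit 3089423771) (nat_lit 152) (nat_lit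 12735361005) (nat_lit 228) (nat_lit 5351392653) (nat_lit 122) (nat_lit 5) (nat_lit 124) (nat_lit 5) (nat_lit 125) (nat_lit 5) (nat_lit 491) (nat_lit 404) (nat_lit 305)) (XT.lf (nat_lit 0) (nat_lit 993022108) (nat_lit 228) (nat_lit 4227883202) (nat_lit 76) (nat_lit 16355450386) (nat_lit 121) (nat_lit 5) (nat_lit 124) (nat_lit 5) (nat_lit 122) (nat_lit 5) (nat_lit 492) (nat_lit 404) (nat_lit 304))) (XT.nd (nat_lit 78) (nat_lit 152) (nat_lit 0) (XT.lf (nat_lit 0) (nat_lit 7521262051) (nat_lit 228) (nat_lit 11858145339) (nat_lit 76) (nat_lit 2604511160) (nat_lit 119) (nat_lit 5) (nat_lit 122) (nat_lit 5) (nat_lit 120) (nat_lit 5) (nat_lit 493) (nat_lit 404) (nat_lit 303)) (XT.lf (nat_lit 0) (nat_lit 2552070271) (nat_lit 152) (nat_lit 11790642074) (nat_lit 228) (nat_lit 8058075318) (nat_lit 117) (nat_lit 5) (nat_lit 119) (nat_lit 5) (nat_lit 120) (nat_lit 5) (nat_lit 494) (nat_lit 404) (nat_lit 302))))) (XT.nd (nat_lit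 312) (nat_lit 532) (nat_lit 0) (XT.nd (nat_lit 156) (nat_lit 152) (nat_lit 0) (XT.nd (nat_lit 78) (nat_lit 228) (nat_lit 0) (XT.lf (nat_lit 0) (nat_lit 17598169562) (nat_lit 152) (nat_lit 3868663907) (nat_lit 228) (nat_lit 1360388820) (nat_lit 117) (nat_lit 5) (nat_lit 119) (nat_lit 5) (nat_lit 120) (nat_lit 5) (nat_lit 495) (nat_lit 404) (nat_lit 301)) (XT.lf (nat_lit 0) (nat_lit 5546878624) (nat_lit 228) (nat_lit 13374202090) (nat_lit 76) (nat_lit 4340270746) (nat_lit 114) (nat_lit 5) (nat_lit 117) (nat_lit 5) (nat_lit 115) (nat_lit 5) (nat_lit 496) (nat_lit 404) (nat_lit 300))) (XT.nd (nat_lit 78) (nat_lit 0) (nat_lit 0) (XT.lf (nat_lit 0) (nat_lit 1801096753) (nat_lit 152) (nat_lit 10920658806) (nat_lit 228) (nat_lit 10983713090) (nat_lit 112) (nat_lit 5) (nat_lit 114) (nat_lit 5) (nat_lit 115) (nat_lit 5) (nat_lit 497) (nat_lit 404) (nat_lit 299)) (XT.lf (nat_lit 0) (nat_lit 17667332482) (nat_lit 152) (nat_lit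 2558638486) (nat_lit 228) (nat_lit 3933515852) (nat_lit 112) (nat_lit 5) (nat_lit 114) (nat_lit 5) (nat_lit 115) (nat_lit 5) (nat_lit 498) (nat_lit 404) (nat_lit 298)))) (XT.nd (nat_lit 156) (nat_lit 152) (nat_lit 0) (XT.nd (nat_lit 78) (nat_lit 152) (nat_lit 0) (XT.lf (nat_lit 0) (nat_lit 3393243118) (nat_lit 228) (nat_lit 15185286882) (nat_lit 76) (nat_lit 6043735956) (nat_lit 109) (nat_lit 5) (nat_lit 112) (nat_lit 5) (nat_lit 110) (nat_lit 5) (nat_lit 499) (nat_lit 404) (nat_lit 297)) (XT.lf (nat_lit 0) (nat_lit 792806560) (nat_lit 152) (nat_lit 10146622272) (nat_lit 228) (nat_lit 14155970961) (nat_lit 107) (nat_lit 5) (nat_lit 109) (nat_lit 5) (nat_lit 110) (nat_lit 5) (nat_lit 500) (nat_lit 404) (nat_lit 296))) (XT.nd (nat_lit 78) (nat_lit 152) (nat_lit 0) (XT.lf (nat_lit 0) (nat_lit 17524053645) (nat_lit 152) (nat_lit 1321046947) (nat_lit 228) (nat_lit 6733634243) (nat_lit 107) (nat_lit 5) (nat_lit 109) (nat_lit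 5) (nat_lit 110) (nat_lit 5) (nat_lit 501) (nat_lit 404) (nat_lit 295)) (XT.lf (nat_lit 0) (nat_lit 1033845615) (nat_lit 152) (nat_lit 17342821182) (nat_lit 76) (nat_lit 7695432790) (nat_lit 105) (nat_lit 5) (nat_lit 107) (nat_lit 5) (nat_lit 106) (nat_lit 5) (nat_lit 502) (nat_lit 404) (nat_lit 294))))))) (XT.nd (nat_lit 1248) (nat_lit 1292) (nat_lit 0) (XT.nd (nat_lit 624) (nat_lit 684) (nat_lit 0) (XT.nd (nat_lit 312) (nat_lit 456) (nat_lit 0) (XT.nd (nat_lit 156) (nat_lit 152) (nat_lit 0) (XT.nd (nat_lit 78) (nat_lit 152) (nat_lit 0) (XT.lf (nat_lit 0) (nat_lit 8974452124) (nat_lit 152) (nat_lit 513353070) (nat_lit 76) (nat_lit 17088196936) (nat_lit 105) (nat_lit 5) (nat_lit 107) (nat_lit 5) (nat_lit 106) (nat_lit 5) (nat_lit 503) (nat_lit 404) (nat_lit 293)) (XT.lf (nat_lit 0) (nat_lit 17119288045) (nat_lit 152) (nat_lit 179346130) (nat_lit 228) (nat_lit 9792027037) (nat_lit 103) (nat_lit 5) (nat_lit 105) (nat_lit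 5) (nat_lit 106) (nat_lit 5) (nat_lit 504) (nat_lit 404) (nat_lit 292))) (XT.nd (nat_lit 78) (nat_lit 76) (nat_lit 0) (XT.lf (nat_lit 0) (nat_lit 7694656161) (nat_lit 76) (nat_lit 18328382587) (nat_lit 152) (nat_lit 1593206583) (nat_lit 102) (nat_lit 5) (nat_lit 103) (nat_lit 5) (nat_lit 104) (nat_lit 4) (nat_lit 505) (nat_lit 404) (nat_lit 291)) (XT.lf (nat_lit 0) (nat_lit 6802229579) (nat_lit 152) (nat_lit 2164001057) (nat_lit 76) (nat_lit 19186860155) (nat_lit 101) (nat_lit 5) (nat_lit 103) (nat_lit 5) (nat_lit 102) (nat_lit 5) (nat_lit 506) (nat_lit 404) (nat_lit 290)))) (XT.nd (nat_lit 156) (nat_lit 228) (nat_lit 0) (XT.nd (nat_lit 78) (nat_lit 76) (nat_lit 0) (XT.lf (nat_lit 0) (nat_lit 15564620935) (nat_lit 228) (nat_lit 12313800193) (nat_lit 76) (nat_lit 822734000) (nat_lit 99) (nat_lit 5) (nat_lit 102) (nat_lit 5) (nat_lit 100) (nat_lit 4) (nat_lit 507) (nat_lit 404) (nat_lit 289)) (XT.lf (nat_lit 0) (nat_lit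 6273156508) (nat_lit 76) (nat_lit 18469368941) (nat_lit 152) (nat_lit 4518556862) (nat_lit 98) (nat_lit 5) (nat_lit 99) (nat_lit 5) (nat_lit 100) (nat_lit 4) (nat_lit 508) (nat_lit 404) (nat_lit 288))) (XT.nd (nat_lit 78) (nat_lit 152) (nat_lit 0) (XT.lf (nat_lit 0) (nat_lit 4380019307) (nat_lit 152) (nat_lit 4241952874) (nat_lit 76) (nat_lit 21211365564) (nat_lit 97) (nat_lit 5) (nat_lit 99) (nat_lit 5) (nat_lit 98) (nat_lit 5) (nat_lit 509) (nat_lit 404) (nat_lit 287)) (XT.lf (nat_lit 0) (nat_lit 13600097953) (nat_lit 228) (nat_lit 15147845181) (nat_lit 76) (nat_lit 1669114794) (nat_lit 95) (nat_lit 5) (nat_lit 98) (nat_lit 5) (nat_lit 96) (nat_lit 4) (nat_lit 510) (nat_lit 404) (nat_lit 286))))) (XT.nd (nat_lit 312) (nat_lit 304) (nat_lit 0) (XT.nd (nat_lit 156) (nat_lit 228) (nat_lit 0) (XT.nd (nat_lit 78) (nat_lit 76) (nat_lit 0) (XT.lf (nat_lit 0) (nat_lit 4401842224) (nat_lit 76) (nat_lit 18847984383) (nat_lit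 152) (nat_lit 7763871821) (nat_lit 94) (nat_lit 5) (nat_lit 95) (nat_lit 5) (nat_lit 96) (nat_lit 4) (nat_lit 511) (nat_lit 404) (nat_lit 285)) (XT.lf (nat_lit 0) (nat_lit 1666961717) (nat_lit 152) (nat_lit 6825582026) (nat_lit 76) (nat_lit 23131146135) (nat_lit 93) (nat_lit 5) (nat_lit 95) (nat_lit 5) (nat_lit 94) (nat_lit 5) (nat_lit 512) (nat_lit 404) (nat_lit 284))) (XT.nd (nat_lit 78) (nat_lit 76) (nat_lit 0) (XT.lf (nat_lit 0) (nat_lit 11361944213) (nat_lit 228) (nat_lit 18557031873) (nat_lit 76) (nat_lit 2326580912) (nat_lit 91) (nat_lit 5) (nat_lit 94) (nat_lit 5) (nat_lit 92) (nat_lit 4) (nat_lit 513) (nat_lit 404) (nat_lit 283)) (XT.lf (nat_lit 0) (nat_lit 1995120792) (nat_lit 76) (nat_lit 19508220580) (nat_lit 152) (nat_lit 11378071926) (nat_lit 90) (nat_lit 5) (nat_lit 91) (nat_lit 5) (nat_lit 92) (nat_lit 4) (nat_lit 514) (nat_lit 404) (nat_lit 282)))) (XT.nd (nat_lit 156) (nat_lit 76) (nat_lit 0) (XT.nd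 (nat_lit 78) (nat_lit 228) (nat_lit 0) (XT.lf (nat_lit 0) (nat_lit 23511557542) (nat_lit 76) (nat_lit 8607697274) (nat_lit 152) (nat_lit 1411982361) (nat_lit 90) (nat_lit 5) (nat_lit 91) (nat_lit 5) (nat_lit 92) (nat_lit 4) (nat_lit 515) (nat_lit 404) (nat_lit 281)) (XT.lf (nat_lit 0) (nat_lit 8801865360) (nat_lit 228) (nat_lit 22640379187) (nat_lit 76) (nat_lit 2752112365) (nat_lit 87) (nat_lit 5) (nat_lit 90) (nat_lit 5) (nat_lit 88) (nat_lit 4) (nat_lit 516) (nat_lit 404) (nat_lit 280))) (XT.nd (nat_lit 78) (nat_lit 76) (nat_lit 0) (XT.lf (nat_lit 0) (nat_lit 19464411222) (nat_lit 228) (nat_lit 1026404686) (nat_lit 76) (nat_lit 14381015177) (nat_lit 87) (nat_lit 5) (nat_lit 90) (nat_lit 5) (nat_lit 88) (nat_lit 4) (nat_lit 517) (nat_lit 404) (nat_lit 279)) (XT.lf (nat_lit 0) (nat_lit 21626839880) (nat_lit 76) (nat_lit 9011628208) (nat_lit 152) (nat_lit 4925412463) (nat_lit 86) (nat_lit 5) (nat_lit 87) (nat_lit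 5) (nat_lit 88) (nat_lit 4) (nat_lit 518) (nat_lit 404) (nat_lit 278)))))) (XT.nd (nat_lit 624) (nat_lit 532) (nat_lit 0) (XT.nd (nat_lit 312) (nat_lit 228) (nat_lit 0) (XT.nd (nat_lit 156) (nat_lit 304) (nat_lit 0) (XT.nd (nat_lit 78) (nat_lit 0) (nat_lit 0) (XT.lf (nat_lit 0) (nat_lit 5863580580) (nat_lit 228) (nat_lit 27512916643) (nat_lit 76) (nat_lit 2895288567) (nat_lit 83) (nat_lit 5) (nat_lit 86) (nat_lit 5) (nat_lit 84) (nat_lit 4) (nat_lit 519) (nat_lit 404) (nat_lit 277)) (XT.lf (nat_lit 0) (nat_lit 17092397196) (nat_lit 228) (nat_lit 4745956324) (nat_lit 76) (nat_lit 15154657281) (nat_lit 83) (nat_lit 5) (nat_lit 86) (nat_lit 5) (nat_lit 84) (nat_lit 4) (nat_lit 520) (nat_lit 404) (nat_lit 276))) (XT.nd (nat_lit 78) (nat_lit 228) (nat_lit 0) (XT.lf (nat_lit 0) (nat_lit 19045347156) (nat_lit 76) (nat_lit 9780074094) (nat_lit 152) (nat_lit 8905431118) (nat_lit 82) (nat_lit 5) (nat_lit 83) (nat_lit 5) (nat_lit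 84) (nat_lit 4) (nat_lit 521) (nat_lit 404) (nat_lit 275)) (XT.lf (nat_lit 0) (nat_lit 2481556756) (nat_lit 228) (nat_lit 33308279235) (nat_lit 76) (nat_lit 2697020565) (nat_lit 79) (nat_lit 5) (nat_lit 82) (nat_lit 5) (nat_lit 80) (nat_lit 4) (nat_lit 522) (nat_lit 404) (nat_lit 274)))) (XT.nd (nat_lit 156) (nat_lit 152) (nat_lit 0) (XT.nd (nat_lit 78) (nat_lit 76) (nat_lit 0) (XT.lf (nat_lit 0) (nat_lit 14302864412) (nat_lit 228) (nat_lit 9335491327) (nat_lit 76) (nat_lit 15616389025) (nat_lit 79) (nat_lit 5) (nat_lit 82) (nat_lit 5) (nat_lit 80) (nat_lit 4) (nat_lit 523) (nat_lit 404) (nat_lit 273)) (XT.lf (nat_lit 0) (nat_lit 15632047131) (nat_lit 76) (nat_lit 10981798793) (nat_lit 152) (nat_lit 13427772739) (nat_lit 78) (nat_lit 5) (nat_lit 79) (nat_lit 5) (nat_lit 80) (nat_lit 4) (nat_lit 524) (nat_lit 404) (nat_lit 272))) (XT.nd (nat_lit 78) (nat_lit 76) (nat_lit 0) (XT.lf (nat_lit 0) (nat_lit 653277116)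 (nat_lit 76) (nat_lit 38746908904) (nat_lit 76) (nat_lit 1448731968) (nat_lit 77) (nat_lit 4) (nat_lit 78) (nat_lit 5) (nat_lit 78) (nat_lit 4) (nat_lit 525) (nat_lit 404) (nat_lit 271)) (XT.lf (nat_lit 0) (nat_lit 11019653384) (nat_lit 152) (nat_lit 14950018852) (nat_lit 76) (nat_lit 15697349678) (nat_lit 76) (nat_lit 5) (nat_lit 78) (nat_lit 5) (nat_lit 77) (nat_lit 4) (nat_lit 526) (nat_lit 404) (nat_lit 270))))) (XT.nd (nat_lit 312) (nat_lit 228) (nat_lit 0) (XT.nd (nat_lit 156) (nat_lit 228) (nat_lit 0) (XT.nd (nat_lit 78) (nat_lit 0) (nat_lit 0) (XT.lf (nat_lit 0) (nat_lit 11229096310) (nat_lit 76) (nat_lit 12697069534) (nat_lit 152) (nat_lit 18580277064) (nat_lit 75) (nat_lit 5) (nat_lit 76) (nat_lit 5) (nat_lit 77) (nat_lit 4) (nat_lit 527) (nat_lit 404) (nat_lit 269)) (XT.lf (nat_lit 0) (nat_lit 37366971210) (nat_lit 152) (nat_lit 4906002692) (nat_lit 0) (nat_lit 1093659778) (nat_lit 75) (nat_lit 5) (nat_lit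 77) (nat_lit 4) (nat_lit 75) (nat_lit 4) (nat_lit 528) (nat_lit 404) (nat_lit 268))) (XT.nd (nat_lit 78) (nat_lit 76) (nat_lit 0) (XT.lf (nat_lit 0) (nat_lit 7153951061) (nat_lit 152) (nat_lit 21770104963) (nat_lit 76) (nat_lit 15316626673) (nat_lit 73) (nat_lit 5) (nat_lit 75) (nat_lit 5) (nat_lit 74) (nat_lit 4) (nat_lit 529) (nat_lit 404) (nat_lit 267)) (XT.lf (nat_lit 0) (nat_lit 5652104354) (nat_lit 76) (nat_lit 15019561463) (nat_lit 152) (nat_lit 24464802956) (nat_lit 72) (nat_lit 5) (nat_lit 73) (nat_lit 5) (nat_lit 74) (nat_lit 4) (nat_lit 530) (nat_lit 404) (nat_lit 266)))) (XT.nd (nat_lit 156) (nat_lit 76) (nat_lit 0) (XT.nd (nat_lit 78) (nat_lit 152) (nat_lit 0) (XT.lf (nat_lit 0) (nat_lit 34315666502) (nat_lit 76) (nat_lit 484948882) (nat_lit 152) (nat_lit 11252342009) (nat_lit 72) (nat_lit 5) (nat_lit 73) (nat_lit 5) (nat_lit 74) (nat_lit 4) (nat_lit 531) (nat_lit 404) (nat_lit 265)) (XT.lf (nat_lit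 0) (nat_lit 2602257954) (nat_lit 152) (nat_lit 30006016299) (nat_lit 76) (nat_lit 14379234454) (nat_lit 70) (nat_lit 5) (nat_lit 72) (nat_lit 5) (nat_lit 71) (nat_lit 4) (nat_lit 532) (nat_lit 404) (nat_lit 264))) (XT.nd (nat_lit 78) (nat_lit 76) (nat_lit 0) (XT.lf (nat_lit 0) (nat_lit 16756997675) (nat_lit 152) (nat_lit 1288555250) (nat_lit 76) (nat_lit 29897881532) (nat_lit 70) (nat_lit 5) (nat_lit 72) (nat_lit 5) (nat_lit 71) (nat_lit 4) (nat_lit 533) (nat_lit 404) (nat_lit 263)) (XT.lf (nat_lit 0) (nat_lit 28826657804) (nat_lit 76) (nat_lit 2773388335) (nat_lit 152) (nat_lit 17320081904) (nat_lit 69) (nat_lit 5) (nat_lit 70) (nat_lit 5) (nat_lit 71) (nat_lit 4) (nat_lit 534) (nat_lit 404) (nat_lit 262))))))))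
noncomputable def xc106 : XT := (XT.nd (nat_lit 53352) (nat_lit 0) (nat_lit 13604) (XT.nd (nat_lit 1170) (nat_lit 152) (nat_lit 0) (XT.nd (nat_lit 546) (nat_lit 608) (nat_lit 0) (XT.nd (nat_lit 234) (nat_lit 228) (nat_lit 0) (XT.nd (nat_lit 78) (nat_lit 152) (nat_lit 0) (XT.lf (nat_lit 0) (nat_lit 9989968210) (nat_lit 76) (nat_lit 37118724033) (nat_lit 76) (nat_lit 2810821062) (nat_lit 68) (nat_lit 4) (nat_lit 69) (nat_lit 5) (nat_lit 69) (nat_lit 4) (nat_lit 535) (nat_lit 404) (nat_lit 261)) (XT.nd (nat_lit 78) (nat_lit 76) (nat_lit 0) (XT.lf (nat_lit 0) (nat_lit 12115912583) (nat_lit 152) (nat_lit 9727403142) (nat_lit 76) (nat_lit 29095496328) (nat_lit 67) (nat_lit 5) (nat_lit 69) (nat_lit 5) (nat_lit 68) (nat_lit 4) (nat_lit 536) (nat_lit 404) (nat_lit 260)) (XT.lf (nat_lit 0) (nat_lit 21751885703) (nat_lit 76) (nat_lit 5878145310) (nat_lit 152) (nat_lit 24351941577) (nat_lit 66) (nat_lit 5) (nat_lit 67) (nat_lit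 5) (nat_lit 68) (nat_lit 4) (nat_lit 537) (nat_lit 404) (nat_lit 259)))) (XT.nd (nat_lit 156) (nat_lit 76) (nat_lit 0) (XT.nd (nat_lit 78) (nat_lit 76) (nat_lit 0) (XT.lf (nat_lit 0) (nat_lit 1217123858) (nat_lit 76) (nat_lit 42591917438) (nat_lit 76) (nat_lit 9241402649) (nat_lit 65) (nat_lit 4) (nat_lit 66) (nat_lit 5) (nat_lit 66) (nat_lit 4) (nat_lit 538) (nat_lit 404) (nat_lit 258)) (XT.lf (nat_lit 0) (nat_lit 6552574638) (nat_lit 152) (nat_lit 20061940295) (nat_lit 76) (nat_lit 27524026416) (nat_lit 64) (nat_lit 5) (nat_lit 66) (nat_lit 5) (nat_lit 65) (nat_lit 4) (nat_lit 539) (nat_lit 404) (nat_lit 257))) (XT.nd (nat_lit 78) (nat_lit 0) (nat_lit 0) (XT.lf (nat_lit 0) (nat_lit 12795952016) (nat_lit 76) (nat_lit 9949066594) (nat_lit 152) (nat_lit 32508206426) (nat_lit 63) (nat_lit 5) (nat_lit 64) (nat_lit 5) (nat_lit 65) (nat_lit 4) (nat_lit 540) (nat_lit 404) (nat_lit 256)) (XT.lf (nat_lit 0) (nat_lit 39684598513)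 (nat_lit 152) (nat_lit 9440653901) (nat_lit 0) (nat_lit 7268255985) (nat_lit 63) (nat_lit 5) (nat_lit 65) (nat_lit 4) (nat_lit 63) (nat_lit 4) (nat_lit 541) (nat_lit 404) (nat_lit 255))))) (XT.nd (nat_lit 312) (nat_lit 304) (nat_lit 0) (XT.nd (nat_lit 156) (nat_lit 76) (nat_lit 0) (XT.nd (nat_lit 78) (nat_lit 152) (nat_lit 0) (XT.lf (nat_lit 0) (nat_lit 24930322324) (nat_lit 76) (nat_lit 32527964146) (nat_lit 76) (nat_lit 99936218) (nat_lit 62) (nat_lit 4) (nat_lit 63) (nat_lit 5) (nat_lit 63) (nat_lit 4) (nat_lit 542) (nat_lit 404) (nat_lit 254)) (XT.lf (nat_lit 0) (nat_lit 1613874404) (nat_lit 76) (nat_lit 15161124305) (nat_lit 152) (nat_lit 41974988221) (nat_lit 60) (nat_lit 5) (nat_lit 61) (nat_lit 5) (nat_lit 62) (nat_lit 4) (nat_lit 543) (nat_lit 404) (nat_lit 253))) (XT.nd (nat_lit 78) (nat_lit 76) (nat_lit 0) (XT.lf (nat_lit 0) (nat_lit 34500913375) (nat_lit 152) (nat_lit 22470476163) (nat_lit 0) (nat_lit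 2995682707) (nat_lit 60) (nat_lit 5) (nat_lit 62) (nat_lit 4) (nat_lit 60) (nat_lit 4) (nat_lit 544) (nat_lit 404) (nat_lit 252)) (XT.lf (nat_lit 0) (nat_lit 13321537065) (nat_lit 76) (nat_lit 39703378394) (nat_lit 76) (nat_lit 8187765400) (nat_lit 59) (nat_lit 4) (nat_lit 60) (nat_lit 5) (nat_lit 60) (nat_lit 4) (nat_lit 545) (nat_lit 404) (nat_lit 251)))) (XT.nd (nat_lit 156) (nat_lit 152) (nat_lit 0) (XT.nd (nat_lit 78) (nat_lit 76) (nat_lit 0) (XT.lf (nat_lit 0) (nat_lit 9638779543) (nat_lit 152) (nat_lit 11958970449) (nat_lit 76) (nat_lit 40888617588) (nat_lit 58) (nat_lit 5) (nat_lit 60) (nat_lit 5) (nat_lit 59) (nat_lit 4) (nat_lit 546) (nat_lit 404) (nat_lit 250)) (XT.lf (nat_lit 0) (nat_lit 25443845514) (nat_lit 76) (nat_lit 2624787379) (nat_lit 152) (nat_lit 35720207694) (nat_lit 57) (nat_lit 5) (nat_lit 58) (nat_lit 5) (nat_lit 59) (nat_lit 4) (nat_lit 547) (nat_lit 404) (nat_lit 249))) (XT.nd (nat_lit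 78) (nat_lit 152) (nat_lit 0) (XT.lf (nat_lit 0) (nat_lit 47324467235) (nat_lit 152) (nat_lit 1099455506) (nat_lit 0) (nat_lit 16698272516) (nat_lit 57) (nat_lit 5) (nat_lit 59) (nat_lit 4) (nat_lit 57) (nat_lit 4) (nat_lit 548) (nat_lit 404) (nat_lit 248)) (XT.lf (nat_lit 0) (nat_lit 1032945654) (nat_lit 152) (nat_lit 28538270927) (nat_lit 76) (nat_lit 36912639611) (nat_lit 55) (nat_lit 5) (nat_lit 57) (nat_lit 5) (nat_lit 56) (nat_lit 4) (nat_lit 549) (nat_lit 404) (nat_lit 247)))))) (XT.nd (nat_lit 51558) (nat_lit 0) (nat_lit 28272) (XT.nd (nat_lit 51246) (nat_lit 0) (nat_lit 30020) (XT.nd (nat_lit 156) (nat_lit 76) (nat_lit 0) (XT.nd (nat_lit 78) (nat_lit 0) (nat_lit 0) (XT.lf (nat_lit 0) (nat_lit 10301056678) (nat_lit 76) (nat_lit 9868845941) (nat_lit 152) (nat_lit 47708205518) (nat_lit 54) (nat_lit 5) (nat_lit 55) (nat_lit 5) (nat_lit 56) (nat_lit 4) (nat_lit 550) (nat_lit 404) (nat_lit 246)) (XT.lf (nat_lit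 0) (nat_lit 40261067235) (nat_lit 152) (nat_lit 18540152586) (nat_lit 0) (nat_lit 10501564883) (nat_lit 54) (nat_lit 5) (nat_lit 56) (nat_lit 4) (nat_lit 54) (nat_lit 4) (nat_lit 551) (nat_lit 404) (nat_lit 245))) (XT.nd (nat_lit 51012) (nat_lit 0) (nat_lit 30476) (XT.lf (nat_lit 0) (nat_lit 21977526706) (nat_lit 76) (nat_lit 39275594893) (nat_lit 76) (nat_lit 9508135352) (nat_lit 53) (nat_lit 4) (nat_lit 54) (nat_lit 5) (nat_lit 54) (nat_lit 4) (nat_lit 552) (nat_lit 404) (nat_lit 244)) (XT.lf (nat_lit 0) (nat_lit 714509064) (nat_lit 0) (nat_lit 714509064) (nat_lit 380) (nat_lit 1844785311) (nat_lit 454) (nat_lit 5) (nat_lit 454) (nat_lit 3) (nat_lit 459) (nat_lit 3) (nat_lit 405) (nat_lit 405) (nat_lit 390)))) (XT.nd (nat_lit 156) (nat_lit 0) (nat_lit 0) (XT.nd (nat_lit 78) (nat_lit 456) (nat_lit 0) (XT.lf (nat_lit 0) (nat_lit 4740208441) (nat_lit 0) (nat_lit 671898044) (nat_lit 380) (nat_lit 1158190562) (nat_lit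 454) (nat_lit 5) (nat_lit 454) (nat_lit 3) (nat_lit 459) (nat_lit 3) (nat_lit 406) (nat_lit 405) (nat_lit 389)) (XT.lf (nat_lit 0) (nat_lit 1338281225) (nat_lit 456) (nat_lit 5075715657) (nat_lit 532) (nat_lit 181737421) (nat_lit 448) (nat_lit 5) (nat_lit 454) (nat_lit 5) (nat_lit 455) (nat_lit 5) (nat_lit 407) (nat_lit 405) (nat_lit 388))) (XT.nd (nat_lit 78) (nat_lit 0) (nat_lit 0) (XT.lf (nat_lit 0) (nat_lit 3815542714) (nat_lit 456) (nat_lit 1685366261) (nat_lit 532) (nat_lit 1122813376) (nat_lit 448) (nat_lit 5) (nat_lit 454) (nat_lit 5) (nat_lit 455) (nat_lit 5) (nat_lit 408) (nat_lit 405) (nat_lit 387)) (XT.lf (nat_lit 76) (nat_lit 1789350610) (nat_lit 0) (nat_lit 4501630309) (nat_lit 532) (nat_lit 363860068) (nat_lit 449) (nat_lit 5) (nat_lit 448) (nat_lit 5) (nat_lit 455) (nat_lit 5) (nat_lit 409) (nat_lit 405) (nat_lit 386))))) (XT.nd (nat_lit 312) (nat_lit 608) (nat_lit 0) (XT.nd (nat_lit 156) (nat_lit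 608) (nat_lit 0) (XT.nd (nat_lit 78) (nat_lit 0) (nat_lit 0) (XT.lf (nat_lit 0) (nat_lit 2036919530) (nat_lit 532) (nat_lit 1357982526) (nat_lit 608) (nat_lit 3293621590) (nat_lit 441) (nat_lit 5) (nat_lit 448) (nat_lit 5) (nat_lit 449) (nat_lit 5) (nat_lit 410) (nat_lit 405) (nat_lit 385)) (XT.lf (nat_lit 76) (nat_lit 2242890379) (nat_lit 0) (nat_lit 2191730620) (nat_lit 608) (nat_lit 2290527498) (nat_lit 442) (nat_lit 5) (nat_lit 441) (nat_lit 5) (nat_lit 449) (nat_lit 5) (nat_lit 411) (nat_lit 405) (nat_lit 384))) (XT.nd (nat_lit 78) (nat_lit 0) (nat_lit 76) (XT.lf (nat_lit 0) (nat_lit 64360533) (nat_lit 608) (nat_lit 837602541) (nat_lit 684) (nat_lit 5863101899) (nat_lit 433) (nat_lit 5) (nat_lit 441) (nat_lit 5) (nat_lit 442) (nat_lit 5) (nat_lit 412) (nat_lit 405) (nat_lit 383)) (XT.lf (nat_lit 0) (nat_lit 2391101400) (nat_lit 608) (nat_lit 3913606656) (nat_lit 684) (nat_lit 502378850) (nat_lit 434) (nat_lit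 5) (nat_lit 442) (nat_lit 5) (nat_lit 443) (nat_lit 5) (nat_lit 413) (nat_lit 405) (nat_lit 382)))) (XT.nd (nat_lit 156) (nat_lit 0) (nat_lit 0) (XT.nd (nat_lit 78) (nat_lit 684) (nat_lit 0) (XT.lf (nat_lit 0) (nat_lit 4721882335) (nat_lit 608) (nat_lit 159501912) (nat_lit 684) (nat_lit 1970963572) (nat_lit 434) (nat_lit 5) (nat_lit 442) (nat_lit 5) (nat_lit 443) (nat_lit 5) (nat_lit 414) (nat_lit 405) (nat_lit 381)) (XT.lf (nat_lit 0) (nat_lit 173826904) (nat_lit 684) (nat_lit 3174526240) (nat_lit 760) (nat_lit 3551916960) (nat_lit 425) (nat_lit 5) (nat_lit 434) (nat_lit 5) (nat_lit 435) (nat_lit 5) (nat_lit 415) (nat_lit 405) (nat_lit 380))) (XT.nd (nat_lit 78) (nat_lit 0) (nat_lit 76) (XT.lf (nat_lit 76) (nat_lit 720646236) (nat_lit 0) (nat_lit 1712592946) (nat_lit 760) (nat_lit 4517898718) (nat_lit 426) (nat_lit 5) (nat_lit 425) (nat_lit 5) (nat_lit 435) (nat_lit 5) (nat_lit 416) (nat_lit 405) (nat_lit 379))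 (XT.lf (nat_lit 0) (nat_lit 4714850786) (nat_lit 684) (nat_lit 2260470728) (nat_lit 76) (nat_lit 29582558) (nat_lit 426) (nat_lit 5) (nat_lit 435) (nat_lit 5) (nat_lit 427) (nat_lit 5) (nat_lit 417) (nat_lit 405) (nat_lit 378))))))) (XT.nd (nat_lit 1248) (nat_lit 5320) (nat_lit 0) (XT.nd (nat_lit 624) (nat_lit 5016) (nat_lit 0) (XT.nd (nat_lit 312) (nat_lit 2052) (nat_lit 0) (XT.nd (nat_lit 156) (nat_lit 1596) (nat_lit 0) (XT.nd (nat_lit 78) (nat_lit 76) (nat_lit 0) (XT.lf (nat_lit 0) (nat_lit 1792697117) (nat_lit 684) (nat_lit 5230975223) (nat_lit 760) (nat_lit 37852748) (nat_lit 417) (nat_lit 5) (nat_lit 426) (nat_lit 5) (nat_lit 427) (nat_lit 5) (nat_lit 418) (nat_lit 405) (nat_lit 377)) (XT.lf (nat_lit 0) (nat_lit 2185959005) (nat_lit 760) (nat_lit 1182460499) (nat_lit 76) (nat_lit 3752314406) (nat_lit 416) (nat_lit 5) (nat_lit 426) (nat_lit 5) (nat_lit 417) (nat_lit 5) (nat_lit 419) (nat_lit 405) (nat_lit 376)))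 (XT.nd (nat_lit 78) (nat_lit 836) (nat_lit 0) (XT.lf (nat_lit 0) (nat_lit 3031950765) (nat_lit 760) (nat_lit 1400609023) (nat_lit 836) (nat_lit 2750447210) (nat_lit 406) (nat_lit 5) (nat_lit 416) (nat_lit 5) (nat_lit 417) (nat_lit 5) (nat_lit 420) (nat_lit 405) (nat_lit 375)) (XT.lf (nat_lit 0) (nat_lit 90765385) (nat_lit 836) (nat_lit 6604205198) (nat_lit 912) (nat_lit 553729520) (nat_lit 395) (nat_lit 5) (nat_lit 406) (nat_lit 5) (nat_lit 407) (nat_lit 5) (nat_lit 421) (nat_lit 405) (nat_lit 374)))) (XT.nd (nat_lit 156) (nat_lit 1064) (nat_lit 0) (XT.nd (nat_lit 78) (nat_lit 912) (nat_lit 0) (XT.lf (nat_lit 0) (nat_lit 1662046777) (nat_lit 912) (nat_lit 2856843677) (nat_lit 76) (nat_lit 2797389572) (nat_lit 394) (nat_lit 5) (nat_lit 406) (nat_lit 5) (nat_lit 395) (nat_lit 5) (nat_lit 422) (nat_lit 405) (nat_lit 373)) (XT.lf (nat_lit 0) (nat_lit 1543586415) (nat_lit 912) (nat_lit 2336752121) (nat_lit 988) (nat_lit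 3506973016) (nat_lit 382) (nat_lit 5) (nat_lit 394) (nat_lit 5) (nat_lit 395) (nat_lit 5) (nat_lit 423) (nat_lit 405) (nat_lit 372))) (XT.nd (nat_lit 78) (nat_lit 1064) (nat_lit 0) (XT.lf (nat_lit 0) (nat_lit 6080792435) (nat_lit 912) (nat_lit 47022535) (nat_lit 988) (nat_lit 1333783696) (nat_lit 382) (nat_lit 5) (nat_lit 394) (nat_lit 5) (nat_lit 395) (nat_lit 5) (nat_lit 424) (nat_lit 405) (nat_lit 371)) (XT.lf (nat_lit 0) (nat_lit 875664914) (nat_lit 1064) (nat_lit 4345054639) (nat_lit 76) (nat_lit 2317476004) (nat_lit 368) (nat_lit 5) (nat_lit 382) (nat_lit 5) (nat_lit 369) (nat_lit 5) (nat_lit 425) (nat_lit 405) (nat_lit 370))))) (XT.nd (nat_lit 312) (nat_lit 2736) (nat_lit 0) (XT.nd (nat_lit 156) (nat_lit 1216) (nat_lit 0) (XT.nd (nat_lit 78) (nat_lit 0) (nat_lit 0) (XT.lf (nat_lit 0) (nat_lit 252033971) (nat_lit 1064) (nat_lit 2826083755) (nat_lit 1140) (nat_lit 4539974003) (nat_lit 354) (nat_lit 5) (nat_lit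 368) (nat_lit 5) (nat_lit 369) (nat_lit 5) (nat_lit 426) (nat_lit 405) (nat_lit 369)) (XT.lf (nat_lit 0) (nat_lit 5021629636) (nat_lit 1064) (nat_lit 306773888) (nat_lit 1140) (nat_lit 2372531782) (nat_lit 354) (nat_lit 5) (nat_lit 368) (nat_lit 5) (nat_lit 369) (nat_lit 5) (nat_lit 427) (nat_lit 405) (nat_lit 368))) (XT.nd (nat_lit 78) (nat_lit 76) (nat_lit 0) (XT.lf (nat_lit 0) (nat_lit 2112504712) (nat_lit 1140) (nat_lit 5515758063) (nat_lit 1216) (nat_lit 158542676) (nat_lit 339) (nat_lit 5) (nat_lit 354) (nat_lit 5) (nat_lit 355) (nat_lit 5) (nat_lit 428) (nat_lit 405) (nat_lit 367)) (XT.lf (nat_lit 0) (nat_lit 2051231136) (nat_lit 1216) (nat_lit 850573491) (nat_lit 76) (nat_lit 4973715086) (nat_lit 338) (nat_lit 5) (nat_lit 354) (nat_lit 5) (nat_lit 339) (nat_lit 5) (nat_lit 429) (nat_lit 405) (nat_lit 366)))) (XT.nd (nat_lit 156) (nat_lit 684) (nat_lit 0) (XT.nd (nat_lit 78) (nat_lit 836) (nat_lit 0) (XT.lf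 (nat_lit 0) (nat_lit 4143337485) (nat_lit 1216) (nat_lit 162747378) (nat_lit 1292) (nat_lit 3661307183) (nat_lit 322) (nat_lit 5) (nat_lit 338) (nat_lit 5) (nat_lit 339) (nat_lit 5) (nat_lit 430) (nat_lit 405) (nat_lit 365)) (XT.lf (nat_lit 0) (nat_lit 1185208282) (nat_lit 836) (nat_lit 5432348540) (nat_lit 912) (nat_lit 1444797398) (nat_lit 311) (nat_lit 5) (nat_lit 322) (nat_lit 5) (nat_lit 323) (nat_lit 5) (nat_lit 431) (nat_lit 405) (nat_lit 364))) (XT.nd (nat_lit 78) (nat_lit 608) (nat_lit 0) (XT.lf (nat_lit 0) (nat_lit 806384782) (nat_lit 912) (nat_lit 1801517020) (nat_lit 76) (nat_lit 5552488415) (nat_lit 310) (nat_lit 5) (nat_lit 322) (nat_lit 5) (nat_lit 311) (nat_lit 5) (nat_lit 432) (nat_lit 405) (nat_lit 363)) (XT.lf (nat_lit 0) (nat_lit 3077911768) (nat_lit 684) (nat_lit 4840024112) (nat_lit 76) (nat_lit 343549422) (nat_lit 302) (nat_lit 5) (nat_lit 311) (nat_lit 5) (nat_lit 303) (nat_lit 5) (nat_lit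 433) (nat_lit 405) (nat_lit 362)))))) (XT.nd (nat_lit 624) (nat_lit 2356) (nat_lit 0) (XT.nd (nat_lit 312) (nat_lit 1748) (nat_lit 0) (XT.nd (nat_lit 156) (nat_lit 608) (nat_lit 0) (XT.nd (nat_lit 78) (nat_lit 0) (nat_lit 0) (XT.lf (nat_lit 0) (nat_lit 399738105) (nat_lit 608) (nat_lit 5012510540) (nat_lit 684) (nat_lit 2953527204) (nat_lit 294) (nat_lit 5) (nat_lit 302) (nat_lit 5) (nat_lit 303) (nat_lit 5) (nat_lit 434) (nat_lit 405) (nat_lit 361)) (XT.lf (nat_lit 0) (nat_lit 5841396771) (nat_lit 608) (nat_lit 1971752944) (nat_lit 684) (nat_lit 660151831) (nat_lit 294) (nat_lit 5) (nat_lit 302) (nat_lit 5) (nat_lit 303) (nat_lit 5) (nat_lit 435) (nat_lit 405) (nat_lit 360))) (XT.nd (nat_lit 78) (nat_lit 0) (nat_lit 0) (XT.lf (nat_lit 0) (nat_lit 1656423076) (nat_lit 608) (nat_lit 5748335290) (nat_lit 76) (nat_lit 1179177809) (nat_lit 286) (nat_lit 5) (nat_lit 294) (nat_lit 5) (nat_lit 287) (nat_lit 5) (nat_lit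 436) (nat_lit 405) (nat_lit 359)) (XT.lf (nat_lit 0) (nat_lit 4025219415) (nat_lit 608) (nat_lit 257233061) (nat_lit 76) (nat_lit 4415363754) (nat_lit 286) (nat_lit 5) (nat_lit 294) (nat_lit 5) (nat_lit 287) (nat_lit 5) (nat_lit 437) (nat_lit 405) (nat_lit 358)))) (XT.nd (nat_lit 156) (nat_lit 532) (nat_lit 0) (XT.nd (nat_lit 78) (nat_lit 608) (nat_lit 0) (XT.lf (nat_lit 0) (nat_lit 5451681149) (nat_lit 608) (nat_lit 1016900535) (nat_lit 684) (nat_lit 2346428124) (nat_lit 278) (nat_lit 5) (nat_lit 286) (nat_lit 5) (nat_lit 287) (nat_lit 5) (nat_lit 438) (nat_lit 405) (nat_lit 357)) (XT.lf (nat_lit 0) (nat_lit 48496507) (nat_lit 608) (nat_lit 6565196124) (nat_lit 76) (nat_lit 2322016219) (nat_lit 270) (nat_lit 5) (nat_lit 278) (nat_lit 5) (nat_lit 271) (nat_lit 5) (nat_lit 439) (nat_lit 405) (nat_lit 356))) (XT.nd (nat_lit 78) (nat_lit 532) (nat_lit 0) (XT.lf (nat_lit 0) (nat_lit 2464858149) (nat_lit 608) (nat_lit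 801926819) (nat_lit 76) (nat_lit 5792646430) (nat_lit 270) (nat_lit 5) (nat_lit 278) (nat_lit 5) (nat_lit 271) (nat_lit 5) (nat_lit 440) (nat_lit 405) (nat_lit 355)) (XT.lf (nat_lit 0) (nat_lit 4959459613) (nat_lit 608) (nat_lit 4006560804) (nat_lit 76) (nat_lit 220674675) (nat_lit 263) (nat_lit 5) (nat_lit 271) (nat_lit 5) (nat_lit 264) (nat_lit 5) (nat_lit 441) (nat_lit 405) (nat_lit 354))))) (XT.nd (nat_lit 312) (nat_lit 912) (nat_lit 0) (XT.nd (nat_lit 156) (nat_lit 912) (nat_lit 0) (XT.nd (nat_lit 78) (nat_lit 76) (nat_lit 0) (XT.lf (nat_lit 0) (nat_lit 1993253014) (nat_lit 456) (nat_lit 5549872192) (nat_lit 532) (nat_lit 1774226592) (nat_lit 257) (nat_lit 5) (nat_lit 263) (nat_lit 5) (nat_lit 264) (nat_lit 5) (nat_lit 442) (nat_lit 405) (nat_lit 353)) (XT.lf (nat_lit 0) (nat_lit 733461561) (nat_lit 532) (nat_lit 1257307479) (nat_lit 76) (nat_lit 7461070858) (nat_lit 256) (nat_lit 5) (nat_lit 263) (nat_lit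 5) (nat_lit 257) (nat_lit 5) (nat_lit 443) (nat_lit 405) (nat_lit 352))) (XT.nd (nat_lit 78) (nat_lit 456) (nat_lit 0) (XT.lf (nat_lit 0) (nat_lit 3301862626) (nat_lit 532) (nat_lit 4587081724) (nat_lit 76) (nat_lit 1700258743) (nat_lit 250) (nat_lit 5) (nat_lit 257) (nat_lit 5) (nat_lit 251) (nat_lit 5) (nat_lit 444) (nat_lit 405) (nat_lit 351)) (XT.lf (nat_lit 0) (nat_lit 1704970249) (nat_lit 456) (nat_lit 4248179593) (nat_lit 532) (nat_lit 3777363989) (nat_lit 244) (nat_lit 5) (nat_lit 250) (nat_lit 5) (nat_lit 251) (nat_lit 5) (nat_lit 445) (nat_lit 405) (nat_lit 350)))) (XT.nd (nat_lit 156) (nat_lit 380) (nat_lit 0) (XT.nd (nat_lit 78) (nat_lit 532) (nat_lit 0) (XT.lf (nat_lit 0) (nat_lit 8227072724) (nat_lit 456) (nat_lit 460883751) (nat_lit 532) (nat_lit 1187989618) (nat_lit 244) (nat_lit 5) (nat_lit 250) (nat_lit 5) (nat_lit 251) (nat_lit 5) (nat_lit 446) (nat_lit 405) (nat_lit 349)) (XT.lf (nat_lit 0) (nat_lit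 1489844324) (nat_lit 532) (nat_lit 5109285792) (nat_lit 76) (nat_lit 3424997000) (nat_lit 237) (nat_lit 5) (nat_lit 244) (nat_lit 5) (nat_lit 238) (nat_lit 5) (nat_lit 447) (nat_lit 405) (nat_lit 348))) (XT.nd (nat_lit 78) (nat_lit 0) (nat_lit 0) (XT.lf (nat_lit 0) (nat_lit 1493011735) (nat_lit 380) (nat_lit 2725950087) (nat_lit 456) (nat_lit 5957595588) (nat_lit 232) (nat_lit 5) (nat_lit 237) (nat_lit 5) (nat_lit 238) (nat_lit 5) (nat_lit 448) (nat_lit 405) (nat_lit 347)) (XT.lf (nat_lit 0) (nat_lit 7053873765) (nat_lit 456) (nat_lit 1999777752) (nat_lit 76) (nat_lit 1279192909) (nat_lit 232) (nat_lit 5) (nat_lit 238) (nat_lit 5) (nat_lit 233) (nat_lit 5) (nat_lit 449) (nat_lit 405) (nat_lit 346))))))))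
noncomputable def xc107 : XT := (XT.nd (nat_lit 2418) (nat_lit 3724) (nat_lit 0) (XT.nd (nat_lit 1170) (nat_lit 2964) (nat_lit 0) (XT.nd (nat_lit 546) (nat_lit 1672) (nat_lit 0) (XT.nd (nat_lit 234) (nat_lit 1216) (nat_lit 0) (XT.nd (nat_lit 78) (nat_lit 456) (nat_lit 0) (XT.lf (nat_lit 0) (nat_lit 4901486595) (nat_lit 456) (nat_lit 5107298286) (nat_lit 532) (nat_lit 483988021) (nat_lit 226) (nat_lit 5) (nat_lit 232) (nat_lit 5) (nat_lit 233) (nat_lit 5) (nat_lit 450) (nat_lit 405) (nat_lit 345)) (XT.nd (nat_lit 78) (nat_lit 0) (nat_lit 0) (XT.lf (nat_lit 0) (nat_lit 1344972211) (nat_lit 380) (nat_lit 997574433) (nat_lit 456) (nat_lit 8314430249) (nat_lit 220) (nat_lit 5) (nat_lit 225) (nat_lit 5) (nat_lit 226) (nat_lit 5) (nat_lit 451) (nat_lit 405) (nat_lit 344)) (XT.lf (nat_lit 0) (nat_lit 5293894413) (nat_lit 456) (nat_lit 2309384982) (nat_lit 76) (nat_lit 3221192790) (nat_lit 220) (nat_lit 5) (nat_lit 226)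 (nat_lit 5) (nat_lit 221) (nat_lit 5) (nat_lit 452) (nat_lit 405) (nat_lit 343)))) (XT.nd (nat_lit 156) (nat_lit 380) (nat_lit 0) (XT.nd (nat_lit 78) (nat_lit 456) (nat_lit 0) (XT.lf (nat_lit 0) (nat_lit 4938885408) (nat_lit 380) (nat_lit 3414991180) (nat_lit 456) (nat_lit 2642514175) (nat_lit 215) (nat_lit 5) (nat_lit 220) (nat_lit 5) (nat_lit 221) (nat_lit 5) (nat_lit 453) (nat_lit 405) (nat_lit 342)) (XT.lf (nat_lit 0) (nat_lit 333132667) (nat_lit 456) (nat_lit 9933345924) (nat_lit 76) (nat_lit 906670975) (nat_lit 209) (nat_lit 5) (nat_lit 215) (nat_lit 5) (nat_lit 210) (nat_lit 5) (nat_lit 454) (nat_lit 405) (nat_lit 341))) (XT.nd (nat_lit 78) (nat_lit 380) (nat_lit 0) (XT.lf (nat_lit 0) (nat_lit 3403955589) (nat_lit 456) (nat_lit 2585372886) (nat_lit 76) (nat_lit 5363328336) (nat_lit 209) (nat_lit 5) (nat_lit 215) (nat_lit 5) (nat_lit 210) (nat_lit 5) (nat_lit 455) (nat_lit 405) (nat_lit 340)) (XT.lf (nat_lit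 0) (nat_lit 5031096964) (nat_lit 380) (nat_lit 1548665535) (nat_lit 456) (nat_lit 4957402100) (nat_lit 204) (nat_lit 5) (nat_lit 209) (nat_lit 5) (nat_lit 210) (nat_lit 5) (nat_lit 456) (nat_lit 405) (nat_lit 339))))) (XT.nd (nat_lit 312) (nat_lit 684) (nat_lit 0) (XT.nd (nat_lit 156) (nat_lit 608) (nat_lit 0) (XT.nd (nat_lit 78) (nat_lit 76) (nat_lit 0) (XT.lf (nat_lit 0) (nat_lit 1145106351) (nat_lit 304) (nat_lit 8737103880) (nat_lit 380) (nat_lit 1844057466) (nat_lit 200) (nat_lit 5) (nat_lit 204) (nat_lit 5) (nat_lit 205) (nat_lit 5) (nat_lit 457) (nat_lit 405) (nat_lit 338)) (XT.lf (nat_lit 0) (nat_lit 1382890005) (nat_lit 380) (nat_lit 2839706276) (nat_lit 76) (nat_lit 7696651845) (nat_lit 199) (nat_lit 5) (nat_lit 204) (nat_lit 5) (nat_lit 200) (nat_lit 5) (nat_lit 458) (nat_lit 405) (nat_lit 337))) (XT.nd (nat_lit 78) (nat_lit 304) (nat_lit 0) (XT.lf (nat_lit 0) (nat_lit 4690013422) (nat_lit 380) (nat_lit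 6954318992) (nat_lit 76) (nat_lit 472525861) (nat_lit 195) (nat_lit 5) (nat_lit 200) (nat_lit 5) (nat_lit 196) (nat_lit 5) (nat_lit 459) (nat_lit 405) (nat_lit 336)) (XT.lf (nat_lit 0) (nat_lit 1072741273) (nat_lit 304) (nat_lit 7071185199) (nat_lit 380) (nat_lit 4175043931) (nat_lit 191) (nat_lit 5) (nat_lit 195) (nat_lit 5) (nat_lit 196) (nat_lit 5) (nat_lit 460) (nat_lit 405) (nat_lit 335)))) (XT.nd (nat_lit 156) (nat_lit 304) (nat_lit 0) (XT.nd (nat_lit 78) (nat_lit 380) (nat_lit 0) (XT.lf (nat_lit 0) (nat_lit 9434029694) (nat_lit 304) (nat_lit 2304652482) (nat_lit 380) (nat_lit 787347888) (nat_lit 191) (nat_lit 5) (nat_lit 195) (nat_lit 5) (nat_lit 196) (nat_lit 5) (nat_lit 461) (nat_lit 405) (nat_lit 334)) (XT.lf (nat_lit 0) (nat_lit 2693847286) (nat_lit 380) (nat_lit 7426940070) (nat_lit 76) (nat_lit 2616398034) (nat_lit 186) (nat_lit 5) (nat_lit 191) (nat_lit 5) (nat_lit 187) (nat_lit 5) (nat_lit 462) (nat_lit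 405) (nat_lit 333))) (XT.nd (nat_lit 78) (nat_lit 0) (nat_lit 0) (XT.lf (nat_lit 0) (nat_lit 1014390989) (nat_lit 304) (nat_lit 5281335642) (nat_lit 380) (nat_lit 6657753528) (nat_lit 182) (nat_lit 5) (nat_lit 186) (nat_lit 5) (nat_lit 187) (nat_lit 5) (nat_lit 463) (nat_lit 405) (nat_lit 332)) (XT.lf (nat_lit 0) (nat_lit 9813001150) (nat_lit 304) (nat_lit 236099880) (nat_lit 380) (nat_lit 3125860405) (nat_lit 182) (nat_lit 5) (nat_lit 186) (nat_lit 5) (nat_lit 187) (nat_lit 5) (nat_lit 464) (nat_lit 405) (nat_lit 331)))))) (XT.nd (nat_lit 624) (nat_lit 1216) (nat_lit 0) (XT.nd (nat_lit 312) (nat_lit 836) (nat_lit 0) (XT.nd (nat_lit 156) (nat_lit 304) (nat_lit 0) (XT.nd (nat_lit 78) (nat_lit 228) (nat_lit 0) (XT.lf (nat_lit 0) (nat_lit 572293370) (nat_lit 380) (nat_lit 7922360229) (nat_lit 76) (nat_lit 4906177840) (nat_lit 177) (nat_lit 5) (nat_lit 182) (nat_lit 5) (nat_lit 178) (nat_lit 5) (nat_lit 465) (nat_lit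 405) (nat_lit 330)) (XT.lf (nat_lit 0) (nat_lit 957932469) (nat_lit 228) (nat_lit 3375811676) (nat_lit 304) (nat_lit 9298350304) (nat_lit 174) (nat_lit 5) (nat_lit 177) (nat_lit 5) (nat_lit 178) (nat_lit 5) (nat_lit 466) (nat_lit 405) (nat_lit 329))) (XT.nd (nat_lit 78) (nat_lit 304) (nat_lit 0) (XT.lf (nat_lit 0) (nat_lit 8276684914) (nat_lit 304) (nat_lit 3667870627) (nat_lit 76) (nat_lit 1923681148) (nat_lit 174) (nat_lit 5) (nat_lit 178) (nat_lit 5) (nat_lit 175) (nat_lit 5) (nat_lit 467) (nat_lit 405) (nat_lit 328)) (XT.lf (nat_lit 0) (nat_lit 5638626637) (nat_lit 304) (nat_lit 6757420690) (nat_lit 380) (nat_lit 1713672576) (nat_lit 170) (nat_lit 5) (nat_lit 174) (nat_lit 5) (nat_lit 175) (nat_lit 5) (nat_lit 468) (nat_lit 405) (nat_lit 327)))) (XT.nd (nat_lit 156) (nat_lit 532) (nat_lit 0) (XT.nd (nat_lit 78) (nat_lit 0) (nat_lit 0) (XT.lf (nat_lit 0) (nat_lit 890541885) (nat_lit 228) (nat_lit 1362099559)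 (nat_lit 304) (nat_lit 12104651177) (nat_lit 166) (nat_lit 5) (nat_lit 169) (nat_lit 5) (nat_lit 170) (nat_lit 5) (nat_lit 469) (nat_lit 405) (nat_lit 326)) (XT.lf (nat_lit 0) (nat_lit 6401094721) (nat_lit 304) (nat_lit 4008152918) (nat_lit 76) (nat_lit 4199608731) (nat_lit 166) (nat_lit 5) (nat_lit 170) (nat_lit 5) (nat_lit 167) (nat_lit 5) (nat_lit 470) (nat_lit 405) (nat_lit 325))) (XT.nd (nat_lit 78) (nat_lit 304) (nat_lit 0) (XT.lf (nat_lit 0) (nat_lit 5788068440) (nat_lit 228) (nat_lit 4926784824) (nat_lit 304) (nat_lit 4151888849) (nat_lit 163) (nat_lit 5) (nat_lit 166) (nat_lit 5) (nat_lit 167) (nat_lit 5) (nat_lit 471) (nat_lit 405) (nat_lit 324)) (XT.lf (nat_lit 0) (nat_lit 52786375) (nat_lit 304) (nat_lit 14340569291) (nat_lit 76) (nat_lit 738173148) (nat_lit 159) (nat_lit 5) (nat_lit 163) (nat_lit 5) (nat_lit 160) (nat_lit 5) (nat_lit 472) (nat_lit 405) (nat_lit 323))))) (XT.nd (nat_lit 312) (nat_lit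 684) (nat_lit 0) (XT.nd (nat_lit 156) (nat_lit 304) (nat_lit 0) (XT.nd (nat_lit 78) (nat_lit 228) (nat_lit 0) (XT.lf (nat_lit 0) (nat_lit 4413574497) (nat_lit 304) (nat_lit 4395444716) (nat_lit 76) (nat_lit 6590604601) (nat_lit 159) (nat_lit 5) (nat_lit 163) (nat_lit 5) (nat_lit 160) (nat_lit 5) (nat_lit 473) (nat_lit 405) (nat_lit 322)) (XT.lf (nat_lit 0) (nat_lit 5918945205) (nat_lit 228) (nat_lit 3016008409) (nat_lit 304) (nat_lit 6739915589) (nat_lit 156) (nat_lit 5) (nat_lit 159) (nat_lit 5) (nat_lit 160) (nat_lit 5) (nat_lit 474) (nat_lit 405) (nat_lit 321))) (XT.nd (nat_lit 78) (nat_lit 76) (nat_lit 0) (XT.lf (nat_lit 0) (nat_lit 614222655) (nat_lit 228) (nat_lit 13029914841) (nat_lit 304) (nat_lit 2312670101) (nat_lit 153) (nat_lit 5) (nat_lit 156) (nat_lit 5) (nat_lit 157) (nat_lit 5) (nat_lit 475) (nat_lit 405) (nat_lit 320)) (XT.lf (nat_lit 0) (nat_lit 2306054518) (nat_lit 304) (nat_lit 4846111276) (nat_lit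 76) (nat_lit 9091315268) (nat_lit 152) (nat_lit 5) (nat_lit 156) (nat_lit 5) (nat_lit 153) (nat_lit 5) (nat_lit 476) (nat_lit 405) (nat_lit 319)))) (XT.nd (nat_lit 156) (nat_lit 304) (nat_lit 0) (XT.nd (nat_lit 78) (nat_lit 152) (nat_lit 0) (XT.lf (nat_lit 0) (nat_lit 6016180493) (nat_lit 228) (nat_lit 1032454763) (nat_lit 304) (nat_lit 9488479738) (nat_lit 149) (nat_lit 5) (nat_lit 152) (nat_lit 5) (nat_lit 153) (nat_lit 5) (nat_lit 477) (nat_lit 405) (nat_lit 318)) (XT.lf (nat_lit 0) (nat_lit 378065288) (nat_lit 152) (nat_lit 11633271697) (nat_lit 228) (nat_lit 4825886135) (nat_lit 147) (nat_lit 5) (nat_lit 149) (nat_lit 5) (nat_lit 150) (nat_lit 5) (nat_lit 478) (nat_lit 405) (nat_lit 317))) (XT.nd (nat_lit 78) (nat_lit 228) (nat_lit 0) (XT.lf (nat_lit 0) (nat_lit 68763161) (nat_lit 228) (nat_lit 5378330036) (nat_lit 76) (nat_lit 11696496871) (nat_lit 146) (nat_lit 5) (nat_lit 149) (nat_lit 5) (nat_lit 147) (nat_lit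 5) (nat_lit 479) (nat_lit 405) (nat_lit 316)) (XT.lf (nat_lit 0) (nat_lit 5056264067) (nat_lit 304) (nat_lit 11403598501) (nat_lit 76) (nat_lit 996562238) (nat_lit 143) (nat_lit 5) (nat_lit 147) (nat_lit 5) (nat_lit 144) (nat_lit 5) (nat_lit 480) (nat_lit 405) (nat_lit 315))))))) (XT.nd (nat_lit 1248) (nat_lit 1748) (nat_lit 0) (XT.nd (nat_lit 624) (nat_lit 912) (nat_lit 0) (XT.nd (nat_lit 312) (nat_lit 608) (nat_lit 0) (XT.nd (nat_lit 156) (nat_lit 304) (nat_lit 0) (XT.nd (nat_lit 78) (nat_lit 0) (nat_lit 0) (XT.lf (nat_lit 0) (nat_lit 64218403) (nat_lit 152) (nat_lit 10213682869) (nat_lit 228) (nat_lit 7498208407) (nat_lit 141) (nat_lit 5) (nat_lit 143) (nat_lit 5) (nat_lit 144) (nat_lit 5) (nat_lit 481) (nat_lit 405) (nat_lit 314)) (XT.lf (nat_lit 0) (nat_lit 12067533260) (nat_lit 152) (nat_lit 3679240579) (nat_lit 228) (nat_lit 2355894086) (nat_lit 141) (nat_lit 5) (nat_lit 143) (nat_lit 5) (nat_lit 144) (nat_lit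 5) (nat_lit 482) (nat_lit 405) (nat_lit 313))) (XT.nd (nat_lit 78) (nat_lit 0) (nat_lit 0) (XT.lf (nat_lit 0) (nat_lit 2947294634) (nat_lit 304) (nat_lit 12427201796) (nat_lit 76) (nat_lit 3061759199) (nat_lit 137) (nat_lit 5) (nat_lit 141) (nat_lit 5) (nat_lit 138) (nat_lit 5) (nat_lit 483) (nat_lit 405) (nat_lit 312)) (XT.lf (nat_lit 0) (nat_lit 8436253004) (nat_lit 304) (nat_lit 341784172) (nat_lit 76) (nat_lit 9998893647) (nat_lit 137) (nat_lit 5) (nat_lit 141) (nat_lit 5) (nat_lit 138) (nat_lit 5) (nat_lit 484) (nat_lit 405) (nat_lit 311)))) (XT.nd (nat_lit 156) (nat_lit 152) (nat_lit 0) (XT.nd (nat_lit 78) (nat_lit 304) (nat_lit 0) (XT.lf (nat_lit 0) (nat_lit 12305855085) (nat_lit 152) (nat_lit 1879064580) (nat_lit 228) (nat_lit 4940055790) (nat_lit 135) (nat_lit 5) (nat_lit 137) (nat_lit 5) (nat_lit 138) (nat_lit 5) (nat_lit 485) (nat_lit 405) (nat_lit 310)) (XT.lf (nat_lit 0) (nat_lit 698429843) (nat_lit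 304) (nat_lit 13607253119) (nat_lit 76) (nat_lit 5174959459) (nat_lit 131) (nat_lit 5) (nat_lit 135) (nat_lit 5) (nat_lit 132) (nat_lit 5) (nat_lit 486) (nat_lit 405) (nat_lit 309))) (XT.nd (nat_lit 78) (nat_lit 152) (nat_lit 0) (XT.lf (nat_lit 0) (nat_lit 6471862177) (nat_lit 304) (nat_lit 867313481) (nat_lit 76) (nat_lit 12504384264) (nat_lit 131) (nat_lit 5) (nat_lit 135) (nat_lit 5) (nat_lit 132) (nat_lit 5) (nat_lit 487) (nat_lit 405) (nat_lit 308)) (XT.lf (nat_lit 0) (nat_lit 12458456419) (nat_lit 152) (nat_lit 57407361) (nat_lit 228) (nat_lit 7698580507) (nat_lit 129) (nat_lit 5) (nat_lit 131) (nat_lit 5) (nat_lit 132) (nat_lit 5) (nat_lit 488) (nat_lit 405) (nat_lit 307))))) (XT.nd (nat_lit 312) (nat_lit 380) (nat_lit 0) (XT.nd (nat_lit 156) (nat_lit 304) (nat_lit 0) (XT.nd (nat_lit 78) (nat_lit 76) (nat_lit 0) (XT.lf (nat_lit 0) (nat_lit 5603712199) (nat_lit 152) (nat_lit 13249450564) (nat_lit 228) (nat_lit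 1739933421) (nat_lit 127) (nat_lit 5) (nat_lit 129) (nat_lit 5) (nat_lit 130) (nat_lit 5) (nat_lit 489) (nat_lit 405) (nat_lit 306)) (XT.lf (nat_lit 0) (nat_lit 4369101769) (nat_lit 228) (nat_lit 1540824993) (nat_lit 76) (nat_lit 15070189863) (nat_lit 126) (nat_lit 5) (nat_lit 129) (nat_lit 5) (nat_lit 127) (nat_lit 5) (nat_lit 490) (nat_lit 405) (nat_lit 305))) (XT.nd (nat_lit 78) (nat_lit 152) (nat_lit 0) (XT.lf (nat_lit 0) (nat_lit 10742067550) (nat_lit 228) (nat_lit 8892949239) (nat_lit 76) (nat_lit 1739745458) (nat_lit 124) (nat_lit 5) (nat_lit 127) (nat_lit 5) (nat_lit 125) (nat_lit 5) (nat_lit 491) (nat_lit 405) (nat_lit 304)) (XT.lf (nat_lit 0) (nat_lit 5179750973) (nat_lit 152) (nat_lit 12229012839) (nat_lit 228) (nat_lit 4369407463) (nat_lit 122) (nat_lit 5) (nat_lit 124) (nat_lit 5) (nat_lit 125) (nat_lit 5) (nat_lit 492) (nat_lit 405) (nat_lit 303)))) (XT.nd (nat_lit 156) (nat_lit 152) (nat_lit 0) (XT.nd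 (nat_lit 78) (nat_lit 152) (nat_lit 0) (XT.lf (nat_lit 0) (nat_lit 2110416803) (nat_lit 228) (nat_lit 2393599991) (nat_lit 76) (nat_lit 17686987866) (nat_lit 121) (nat_lit 5) (nat_lit 124) (nat_lit 5) (nat_lit 122) (nat_lit 5) (nat_lit 493) (nat_lit 405) (nat_lit 302)) (XT.lf (nat_lit 0) (nat_lit 8829829841) (nat_lit 228) (nat_lit 10248082698) (nat_lit 76) (nat_lit 3533022480) (nat_lit 119) (nat_lit 5) (nat_lit 122) (nat_lit 5) (nat_lit 120) (nat_lit 5) (nat_lit 494) (nat_lit 405) (nat_lit 301))) (XT.nd (nat_lit 78) (nat_lit 0) (nat_lit 0) (XT.lf (nat_lit 0) (nat_lit 4575166763) (nat_lit 152) (nat_lit 11267926511) (nat_lit 228) (nat_lit 7197602225) (nat_lit 117) (nat_lit 5) (nat_lit 119) (nat_lit 5) (nat_lit 120) (nat_lit 5) (nat_lit 495) (nat_lit 405) (nat_lit 300)) (XT.lf (nat_lit 0) (nat_lit 20015953856) (nat_lit 152) (nat_lit 3133816227) (nat_lit 228) (nat_lit 331088493) (nat_lit 117) (nat_lit 5) (nat_lit 119)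 (nat_lit 5) (nat_lit 120) (nat_lit 5) (nat_lit 496) (nat_lit 405) (nat_lit 299)))))) (XT.nd (nat_lit 624) (nat_lit 684) (nat_lit 0) (XT.nd (nat_lit 312) (nat_lit 456) (nat_lit 0) (XT.nd (nat_lit 156) (nat_lit 228) (nat_lit 0) (XT.nd (nat_lit 78) (nat_lit 152) (nat_lit 0) (XT.lf (nat_lit 0) (nat_lit 6758362354) (nat_lit 228) (nat_lit 11860530535) (nat_lit 76) (nat_lit 5308935074) (nat_lit 114) (nat_lit 5) (nat_lit 117) (nat_lit 5) (nat_lit 115) (nat_lit 5) (nat_lit 497) (nat_lit 405) (nat_lit 298)) (XT.lf (nat_lit 0) (nat_lit 3751253768) (nat_lit 152) (nat_lit 10385019389) (nat_lit 228) (nat_lit 10249362226) (nat_lit 112) (nat_lit 5) (nat_lit 114) (nat_lit 5) (nat_lit 115) (nat_lit 5) (nat_lit 498) (nat_lit 405) (nat_lit 297))) (XT.nd (nat_lit 78) (nat_lit 228) (nat_lit 0) (XT.lf (nat_lit 0) (nat_lit 20038249653) (nat_lit 152) (nat_lit 1797281931) (nat_lit 228) (nat_lit 3018645351) (nat_lit 112) (nat_lit 5) (nat_lit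 114) (nat_lit 5) (nat_lit 115) (nat_lit 5) (nat_lit 499) (nat_lit 405) (nat_lit 296)) (XT.lf (nat_lit 0) (nat_lit 4504071477) (nat_lit 228) (nat_lit 13776082243) (nat_lit 76) (nat_lit 7050498870) (nat_lit 109) (nat_lit 5) (nat_lit 112) (nat_lit 5) (nat_lit 110) (nat_lit 5) (nat_lit 500) (nat_lit 405) (nat_lit 295)))) (XT.nd (nat_lit 156) (nat_lit 304) (nat_lit 0) (XT.nd (nat_lit 78) (nat_lit 0) (nat_lit 0) (XT.lf (nat_lit 0) (nat_lit 2663072009) (nat_lit 152) (nat_lit 9601931006) (nat_lit 228) (nat_lit 13553326922) (nat_lit 107) (nat_lit 5) (nat_lit 109) (nat_lit 5) (nat_lit 110) (nat_lit 5) (nat_lit 501) (nat_lit 405) (nat_lit 294)) (XT.lf (nat_lit 0) (nat_lit 19842475499) (nat_lit 152) (nat_lit 536319197) (nat_lit 228) (nat_lit 5938242138) (nat_lit 107) (nat_lit 5) (nat_lit 109) (nat_lit 5) (nat_lit 110) (nat_lit 5) (nat_lit 502) (nat_lit 405) (nat_lit 293))) (XT.nd (nat_lit 78) (nat_lit 152) (nat_lit 0) (XT.lf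 (nat_lit 0) (nat_lit 2039520905) (nat_lit 152) (nat_lit 16047645581) (nat_lit 76) (nat_lit 8737847040) (nat_lit 105) (nat_lit 5) (nat_lit 107) (nat_lit 5) (nat_lit 106) (nat_lit 5) (nat_lit 503) (nat_lit 405) (nat_lit 292)) (XT.lf (nat_lit 0) (nat_lit 1258384710) (nat_lit 152) (nat_lit 8943669111) (nat_lit 228) (nat_lit 17142468348) (nat_lit 103) (nat_lit 5) (nat_lit 105) (nat_lit 5) (nat_lit 106) (nat_lit 5) (nat_lit 504) (nat_lit 405) (nat_lit 291))))) (XT.nd (nat_lit 312) (nat_lit 380) (nat_lit 0) (XT.nd (nat_lit 156) (nat_lit 228) (nat_lit 0) (XT.nd (nat_lit 78) (nat_lit 76) (nat_lit 0) (XT.lf (nat_lit 0) (nat_lit 18759089306) (nat_lit 228) (nat_lit 8503147225) (nat_lit 76) (nat_lit 612890914) (nat_lit 103) (nat_lit 5) (nat_lit 106) (nat_lit 5) (nat_lit 104) (nat_lit 4) (nat_lit 505) (nat_lit 405) (nat_lit 290)) (XT.lf (nat_lit 0) (nat_lit 9673777560) (nat_lit 76) (nat_lit 18062555777) (nat_lit 152) (nat_lit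 680412785) (nat_lit 102) (nat_lit 5) (nat_lit 103) (nat_lit 5) (nat_lit 104) (nat_lit 4) (nat_lit 506) (nat_lit 405) (nat_lit 289))) (XT.nd (nat_lit 78) (nat_lit 152) (nat_lit 0) (XT.lf (nat_lit 0) (nat_lit 7920709501) (nat_lit 152) (nat_lit 513353609) (nat_lit 76) (nat_lit 20536180034) (nat_lit 101) (nat_lit 5) (nat_lit 103) (nat_lit 5) (nat_lit 102) (nat_lit 5) (nat_lit 507) (nat_lit 405) (nat_lit 288)) (XT.lf (nat_lit 0) (nat_lit 16943307173) (nat_lit 228) (nat_lit 10964973546) (nat_lit 76) (nat_lit 1626548887) (nat_lit 99) (nat_lit 5) (nat_lit 102) (nat_lit 5) (nat_lit 100) (nat_lit 4) (nat_lit 508) (nat_lit 405) (nat_lit 287)))) (XT.nd (nat_lit 156) (nat_lit 228) (nat_lit 0) (XT.nd (nat_lit 78) (nat_lit 76) (nat_lit 0) (XT.lf (nat_lit 0) (nat_lit 8162746359) (nat_lit 76) (nat_lit 18223601557) (nat_lit 152) (nat_lit 3725512940) (nat_lit 98) (nat_lit 5) (nat_lit 99) (nat_lit 5) (nat_lit 100) (nat_lit 4) (nat_lit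 509) (nat_lit 405) (nat_lit 286)) (XT.lf (nat_lit 0) (nat_lit 5395381328) (nat_lit 152) (nat_lit 2699771846) (nat_lit 76) (nat_lit 22606658769) (nat_lit 97) (nat_lit 5) (nat_lit 99) (nat_lit 5) (nat_lit 98) (nat_lit 5) (nat_lit 510) (nat_lit 405) (nat_lit 285))) (XT.nd (nat_lit 78) (nat_lit 76) (nat_lit 0) (XT.lf (nat_lit 0) (nat_lit 14889694138) (nat_lit 228) (nat_lit 13930465843) (nat_lit 76) (nat_lit 2482955004) (nat_lit 95) (nat_lit 5) (nat_lit 98) (nat_lit 5) (nat_lit 96) (nat_lit 4) (nat_lit 511) (nat_lit 405) (nat_lit 284)) (XT.lf (nat_lit 0) (nat_lit 6189321844) (nat_lit 76) (nat_lit 18629828286) (nat_lit 152) (nat_lit 7098797705) (nat_lit 94) (nat_lit 5) (nat_lit 95) (nat_lit 5) (nat_lit 96) (nat_lit 4) (nat_lit 512) (nat_lit 405) (nat_lit 283))))))))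
noncomputable def xc108 : XT := (XT.nd (nat_lit 2418) (nat_lit 532) (nat_lit 0) (XT.nd (nat_lit 1170) (nat_lit 1140) (nat_lit 0) (XT.nd (nat_lit 546) (nat_lit 760) (nat_lit 0) (XT.nd (nat_lit 234) (nat_lit 304) (nat_lit 0) (XT.nd (nat_lit 78) (nat_lit 228) (nat_lit 0) (XT.lf (nat_lit 0) (nat_lit 2571793137) (nat_lit 152) (nat_lit 5406122432) (nat_lit 76) (nat_lit 24568834029) (nat_lit 93) (nat_lit 5) (nat_lit 95) (nat_lit 5) (nat_lit 94) (nat_lit 5) (nat_lit 513) (nat_lit 405) (nat_lit 282)) (XT.nd (nat_lit 78) (nat_lit 76) (nat_lit 0) (XT.lf (nat_lit 0) (nat_lit 12555520996) (nat_lit 228) (nat_lit 17487405547) (nat_lit 76) (nat_lit 3144409494) (nat_lit 91) (nat_lit 5) (nat_lit 94) (nat_lit 5) (nat_lit 92) (nat_lit 4) (nat_lit 514) (nat_lit 405) (nat_lit 281)) (XT.lf (nat_lit 0) (nat_lit 3665367215) (nat_lit 76) (nat_lit 19326436476) (nat_lit 152) (nat_lit 10850745206) (nat_lit 90) (nat_lit 5) (nat_lit 91) (nat_lit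 5) (nat_lit 92) (nat_lit 4) (nat_lit 515) (nat_lit 405) (nat_lit 280)))) (XT.nd (nat_lit 156) (nat_lit 76) (nat_lit 0) (XT.nd (nat_lit 78) (nat_lit 228) (nat_lit 0) (XT.lf (nat_lit 0) (nat_lit 25780392423) (nat_lit 76) (nat_lit 8121238172) (nat_lit 152) (nat_lit 610973988) (nat_lit 90) (nat_lit 5) (nat_lit 91) (nat_lit 5) (nat_lit 92) (nat_lit 4) (nat_lit 516) (nat_lit 405) (nat_lit 279)) (XT.lf (nat_lit 0) (nat_lit 9890962544) (nat_lit 228) (nat_lit 21737764757) (nat_lit 76) (nat_lit 3566703648) (nat_lit 87) (nat_lit 5) (nat_lit 90) (nat_lit 5) (nat_lit 88) (nat_lit 4) (nat_lit 517) (nat_lit 405) (nat_lit 278))) (XT.nd (nat_lit 78) (nat_lit 0) (nat_lit 0) (XT.lf (nat_lit 0) (nat_lit 488080592) (nat_lit 76) (nat_lit 20365965591) (nat_lit 152) (nat_lit 15039763479) (nat_lit 86) (nat_lit 5) (nat_lit 87) (nat_lit 5) (nat_lit 88) (nat_lit 4) (nat_lit 518) (nat_lit 405) (nat_lit 277)) (XT.lf (nat_lit 0) (nat_lit 23796341881)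 (nat_lit 76) (nat_lit 8553578599) (nat_lit 152) (nat_lit 4257102414) (nat_lit 86) (nat_lit 5) (nat_lit 87) (nat_lit 5) (nat_lit 88) (nat_lit 4) (nat_lit 519) (nat_lit 405) (nat_lit 276))))) (XT.nd (nat_lit 312) (nat_lit 228) (nat_lit 0) (XT.nd (nat_lit 156) (nat_lit 304) (nat_lit 0) (XT.nd (nat_lit 78) (nat_lit 0) (nat_lit 0) (XT.lf (nat_lit 0) (nat_lit 6837974903) (nat_lit 228) (nat_lit 26800012018) (nat_lit 76) (nat_lit 3697993007) (nat_lit 83) (nat_lit 5) (nat_lit 86) (nat_lit 5) (nat_lit 84) (nat_lit 4) (nat_lit 520) (nat_lit 405) (nat_lit 275)) (XT.lf (nat_lit 0) (nat_lit 18380399117) (nat_lit 228) (nat_lit 3394847515) (nat_lit 76) (nat_lit 16304292905) (nat_lit 83) (nat_lit 5) (nat_lit 86) (nat_lit 5) (nat_lit 84) (nat_lit 4) (nat_lit 521) (nat_lit 405) (nat_lit 274))) (XT.nd (nat_lit 78) (nat_lit 228) (nat_lit 0) (XT.lf (nat_lit 0) (nat_lit 21095553036) (nat_lit 76) (nat_lit 9361496911) (nat_lit 152) (nat_lit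 8382717460) (nat_lit 82) (nat_lit 5) (nat_lit 83) (nat_lit 5) (nat_lit 84) (nat_lit 4) (nat_lit 522) (nat_lit 405) (nat_lit 273)) (XT.lf (nat_lit 0) (nat_lit 3328990931) (nat_lit 228) (nat_lit 32811784320) (nat_lit 76) (nat_lit 3477493087) (nat_lit 79) (nat_lit 5) (nat_lit 82) (nat_lit 5) (nat_lit 80) (nat_lit 4) (nat_lit 523) (nat_lit 405) (nat_lit 272)))) (XT.nd (nat_lit 156) (nat_lit 152) (nat_lit 0) (XT.nd (nat_lit 78) (nat_lit 76) (nat_lit 0) (XT.lf (nat_lit 0) (nat_lit 15482423618) (nat_lit 228) (nat_lit 8163378114) (nat_lit 76) (nat_lit 16764067011) (nat_lit 79) (nat_lit 5) (nat_lit 82) (nat_lit 5) (nat_lit 80) (nat_lit 4) (nat_lit 524) (nat_lit 405) (nat_lit 271)) (XT.lf (nat_lit 0) (nat_lit 17538949460) (nat_lit 76) (nat_lit 10615749040) (nat_lit 152) (nat_lit 13065891564) (nat_lit 78) (nat_lit 5) (nat_lit 79) (nat_lit 5) (nat_lit 80) (nat_lit 4) (nat_lit 525) (nat_lit 405) (nat_lit 270))) (XT.nd (nat_lit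 78) (nat_lit 76) (nat_lit 0) (XT.lf (nat_lit 0) (nat_lit 2112157577) (nat_lit 76) (nat_lit 39211172977) (nat_lit 76) (nat_lit 728816878) (nat_lit 77) (nat_lit 4) (nat_lit 78) (nat_lit 5) (nat_lit 78) (nat_lit 4) (nat_lit 526) (nat_lit 405) (nat_lit 269)) (XT.lf (nat_lit 0) (nat_lit 12076923386) (nat_lit 152) (nat_lit 13986692044) (nat_lit 76) (nat_lit 16831613029) (nat_lit 76) (nat_lit 5) (nat_lit 78) (nat_lit 5) (nat_lit 77) (nat_lit 4) (nat_lit 527) (nat_lit 405) (nat_lit 268)))))) (XT.nd (nat_lit 624) (nat_lit 608) (nat_lit 0) (XT.nd (nat_lit 312) (nat_lit 228) (nat_lit 0) (XT.nd (nat_lit 156) (nat_lit 228) (nat_lit 0) (XT.nd (nat_lit 78) (nat_lit 0) (nat_lit 0) (XT.lf (nat_lit 0) (nat_lit 12963955129) (nat_lit 76) (nat_lit 12398948939) (nat_lit 152) (nat_lit 18397159938) (nat_lit 75) (nat_lit 5) (nat_lit 76) (nat_lit 5) (nat_lit 77) (nat_lit 4) (nat_lit 528) (nat_lit 405) (nat_lit 267)) (XT.lf (nat_lit 0) (nat_lit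 39192330371) (nat_lit 152) (nat_lit 3681308168) (nat_lit 0) (nat_lit 1772860161) (nat_lit 75) (nat_lit 5) (nat_lit 77) (nat_lit 4) (nat_lit 75) (nat_lit 4) (nat_lit 529) (nat_lit 405) (nat_lit 266))) (XT.nd (nat_lit 78) (nat_lit 76) (nat_lit 0) (XT.lf (nat_lit 0) (nat_lit 8072365830) (nat_lit 152) (nat_lit 21050773046) (nat_lit 76) (nat_lit 16423647127) (nat_lit 73) (nat_lit 5) (nat_lit 75) (nat_lit 5) (nat_lit 74) (nat_lit 4) (nat_lit 530) (nat_lit 405) (nat_lit 265)) (XT.lf (nat_lit 0) (nat_lit 7180647304) (nat_lit 76) (nat_lit 14807529150) (nat_lit 152) (nat_lit 24481492369) (nat_lit 72) (nat_lit 5) (nat_lit 73) (nat_lit 5) (nat_lit 74) (nat_lit 4) (nat_lit 531) (nat_lit 405) (nat_lit 264)))) (XT.nd (nat_lit 156) (nat_lit 76) (nat_lit 0) (XT.nd (nat_lit 78) (nat_lit 152) (nat_lit 0) (XT.lf (nat_lit 0) (nat_lit 36522094666) (nat_lit 152) (nat_lit 10751108793) (nat_lit 0) (nat_lit 141015731) (nat_lit 72) (nat_lit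 5) (nat_lit 74) (nat_lit 4) (nat_lit 72) (nat_lit 4) (nat_lit 532) (nat_lit 405) (nat_lit 263)) (XT.lf (nat_lit 0) (nat_lit 3362095954) (nat_lit 152) (nat_lit 29572199474) (nat_lit 76) (nat_lit 15442382511) (nat_lit 70) (nat_lit 5) (nat_lit 72) (nat_lit 5) (nat_lit 71) (nat_lit 4) (nat_lit 533) (nat_lit 405) (nat_lit 262))) (XT.nd (nat_lit 78) (nat_lit 76) (nat_lit 0) (XT.lf (nat_lit 0) (nat_lit 17921620481) (nat_lit 152) (nat_lit 32068884) (nat_lit 76) (nat_lit 31408187904) (nat_lit 70) (nat_lit 5) (nat_lit 72) (nat_lit 5) (nat_lit 71) (nat_lit 4) (nat_lit 534) (nat_lit 405) (nat_lit 261)) (XT.lf (nat_lit 0) (nat_lit 30973903081) (nat_lit 76) (nat_lit 2229105953) (nat_lit 152) (nat_lit 17165071252) (nat_lit 69) (nat_lit 5) (nat_lit 70) (nat_lit 5) (nat_lit 71) (nat_lit 4) (nat_lit 535) (nat_lit 405) (nat_lit 260))))) (XT.nd (nat_lit 312) (nat_lit 304) (nat_lit 0) (XT.nd (nat_lit 156) (nat_lit 152) (nat_lit 0) (XT.nd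 (nat_lit 78) (nat_lit 76) (nat_lit 0) (XT.lf (nat_lit 0) (nat_lit 11573026114) (nat_lit 76) (nat_lit 37603004367) (nat_lit 76) (nat_lit 2221443226) (nat_lit 68) (nat_lit 4) (nat_lit 69) (nat_lit 5) (nat_lit 69) (nat_lit 4) (nat_lit 536) (nat_lit 405) (nat_lit 259)) (XT.lf (nat_lit 0) (nat_lit 13120706568) (nat_lit 152) (nat_lit 8760479785) (nat_lit 76) (nat_lit 30566548043) (nat_lit 67) (nat_lit 5) (nat_lit 69) (nat_lit 5) (nat_lit 68) (nat_lit 4) (nat_lit 537) (nat_lit 405) (nat_lit 258))) (XT.nd (nat_lit 78) (nat_lit 76) (nat_lit 0) (XT.lf (nat_lit 0) (nat_lit 23650847084) (nat_lit 76) (nat_lit 5442703548) (nat_lit 152) (nat_lit 24428840129) (nat_lit 66) (nat_lit 5) (nat_lit 67) (nat_lit 5) (nat_lit 68) (nat_lit 4) (nat_lit 538) (nat_lit 405) (nat_lit 257)) (XT.lf (nat_lit 0) (nat_lit 2500853852) (nat_lit 76) (nat_lit 43256291914) (nat_lit 76) (nat_lit 8865794126) (nat_lit 65) (nat_lit 4) (nat_lit 66) (nat_lit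 5) (nat_lit 66) (nat_lit 4) (nat_lit 539) (nat_lit 405) (nat_lit 256)))) (XT.nd (nat_lit 156) (nat_lit 152) (nat_lit 0) (XT.nd (nat_lit 78) (nat_lit 76) (nat_lit 0) (XT.lf (nat_lit 0) (nat_lit 7370618999) (nat_lit 152) (nat_lit 19440538260) (nat_lit 76) (nat_lit 28932894078) (nat_lit 64) (nat_lit 5) (nat_lit 66) (nat_lit 5) (nat_lit 65) (nat_lit 4) (nat_lit 540) (nat_lit 405) (nat_lit 255)) (XT.lf (nat_lit 0) (nat_lit 14391098072) (nat_lit 76) (nat_lit 9651280677) (nat_lit 152) (nat_lit 32849990576) (nat_lit 63) (nat_lit 5) (nat_lit 64) (nat_lit 5) (nat_lit 65) (nat_lit 4) (nat_lit 541) (nat_lit 405) (nat_lit 254))) (XT.nd (nat_lit 78) (nat_lit 152) (nat_lit 0) (XT.lf (nat_lit 0) (nat_lit 41477797806) (nat_lit 152) (nat_lit 8535535303) (nat_lit 0) (nat_lit 8053898592) (nat_lit 63) (nat_lit 5) (nat_lit 65) (nat_lit 4) (nat_lit 63) (nat_lit 4) (nat_lit 542) (nat_lit 405) (nat_lit 253)) (XT.lf (nat_lit 0) (nat_lit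 501400601) (nat_lit 152) (nat_lit 32417070604) (nat_lit 76) (nat_lit 26348456070) (nat_lit 61) (nat_lit 5) (nat_lit 63) (nat_lit 5) (nat_lit 62) (nat_lit 4) (nat_lit 543) (nat_lit 405) (nat_lit 252))))))) (XT.nd (nat_lit 52182) (nat_lit 0) (nat_lit 22800) (XT.nd (nat_lit 546) (nat_lit 76) (nat_lit 0) (XT.nd (nat_lit 234) (nat_lit 304) (nat_lit 0) (XT.nd (nat_lit 78) (nat_lit 76) (nat_lit 0) (XT.lf (nat_lit 0) (nat_lit 2839314241) (nat_lit 76) (nat_lit 15035031504) (nat_lit 152) (nat_lit 42620255950) (nat_lit 60) (nat_lit 5) (nat_lit 61) (nat_lit 5) (nat_lit 62) (nat_lit 4) (nat_lit 544) (nat_lit 405) (nat_lit 251)) (XT.nd (nat_lit 78) (nat_lit 76) (nat_lit 0) (XT.lf (nat_lit 0) (nat_lit 36120097373) (nat_lit 152) (nat_lit 21989906733) (nat_lit 0) (nat_lit 3638553734) (nat_lit 60) (nat_lit 5) (nat_lit 62) (nat_lit 4) (nat_lit 60) (nat_lit 4) (nat_lit 545) (nat_lit 405) (nat_lit 250)) (XT.lf (nat_lit 0) (nat_lit 14864546463)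 (nat_lit 76) (nat_lit 40329249494) (nat_lit 76) (nat_lit 7837919516) (nat_lit 59) (nat_lit 4) (nat_lit 60) (nat_lit 5) (nat_lit 60) (nat_lit 4) (nat_lit 546) (nat_lit 405) (nat_lit 249)))) (XT.nd (nat_lit 156) (nat_lit 152) (nat_lit 0) (XT.nd (nat_lit 78) (nat_lit 76) (nat_lit 0) (XT.lf (nat_lit 0) (nat_lit 10494796239) (nat_lit 152) (nat_lit 11196394911) (nat_lit 76) (nat_lit 42652760143) (nat_lit 58) (nat_lit 5) (nat_lit 60) (nat_lit 5) (nat_lit 59) (nat_lit 4) (nat_lit 547) (nat_lit 405) (nat_lit 248)) (XT.lf (nat_lit 0) (nat_lit 27317511956) (nat_lit 76) (nat_lit 2154196317) (nat_lit 152) (nat_lit 36213965374) (nat_lit 57) (nat_lit 5) (nat_lit 58) (nat_lit 5) (nat_lit 59) (nat_lit 4) (nat_lit 548) (nat_lit 405) (nat_lit 247))) (XT.nd (nat_lit 78) (nat_lit 152) (nat_lit 0) (XT.lf (nat_lit 0) (nat_lit 49294004101) (nat_lit 152) (nat_lit 43213255) (nat_lit 0) (nat_lit 17722148056) (nat_lit 57) (nat_lit 5) (nat_lit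 59) (nat_lit 4) (nat_lit 57) (nat_lit 4) (nat_lit 549) (nat_lit 405) (nat_lit 246)) (XT.lf (nat_lit 0) (nat_lit 1613480083) (nat_lit 152) (nat_lit 28304933256) (nat_lit 76) (nat_lit 38543470632) (nat_lit 55) (nat_lit 5) (nat_lit 57) (nat_lit 5) (nat_lit 56) (nat_lit 4) (nat_lit 550) (nat_lit 405) (nat_lit 245))))) (XT.nd (nat_lit 51324) (nat_lit 0) (nat_lit 29336) (XT.nd (nat_lit 51168) (nat_lit 0) (nat_lit 29868) (XT.nd (nat_lit 78) (nat_lit 0) (nat_lit 0) (XT.lf (nat_lit 0) (nat_lit 11688892944) (nat_lit 76) (nat_lit 9630016747) (nat_lit 152) (nat_lit 48579222910) (nat_lit 54) (nat_lit 5) (nat_lit 55) (nat_lit 5) (nat_lit 56) (nat_lit 4) (nat_lit 551) (nat_lit 405) (nat_lit 244)) (XT.lf (nat_lit 0) (nat_lit 42001959181) (nat_lit 152) (nat_lit 18038122589) (nat_lit 0) (nat_lit 11325793239) (nat_lit 54) (nat_lit 5) (nat_lit 56) (nat_lit 4) (nat_lit 54) (nat_lit 4) (nat_lit 552) (nat_lit 405) (nat_lit 243))) (XT.nd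 (nat_lit 78) (nat_lit 0) (nat_lit 0) (XT.lf (nat_lit 0) (nat_lit 648816851) (nat_lit 532) (nat_lit 1324105955) (nat_lit 532) (nat_lit 1324105955) (nat_lit 447) (nat_lit 3) (nat_lit 454) (nat_lit 3) (nat_lit 454) (nat_lit 5) (nat_lit 406) (nat_lit 406) (nat_lit 388)) (XT.lf (nat_lit 76) (nat_lit 651226559) (nat_lit 0) (nat_lit 3062787990) (nat_lit 532) (nat_lit 2906874353) (nat_lit 448) (nat_lit 5) (nat_lit 447) (nat_lit 3) (nat_lit 454) (nat_lit 5) (nat_lit 407) (nat_lit 406) (nat_lit 387)))) (XT.nd (nat_lit 156) (nat_lit 0) (nat_lit 76) (XT.nd (nat_lit 78) (nat_lit 532) (nat_lit 0) (XT.lf (nat_lit 76) (nat_lit 4054924398) (nat_lit 0) (nat_lit 2080932429) (nat_lit 532) (nat_lit 514686006) (nat_lit 448) (nat_lit 5) (nat_lit 447) (nat_lit 3) (nat_lit 454) (nat_lit 5) (nat_lit 408) (nat_lit 406) (nat_lit 386)) (XT.lf (nat_lit 76) (nat_lit 827641139) (nat_lit 0) (nat_lit 999597096) (nat_lit 608) (nat_lit 4855812124)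 (nat_lit 441) (nat_lit 5) (nat_lit 440) (nat_lit 5) (nat_lit 448) (nat_lit 5) (nat_lit 409) (nat_lit 406) (nat_lit 385))) (XT.nd (nat_lit 78) (nat_lit 0) (nat_lit 0) (XT.lf (nat_lit 0) (nat_lit 4167294921) (nat_lit 532) (nat_lit 2367418097) (nat_lit 608) (nat_lit 183526776) (nat_lit 441) (nat_lit 5) (nat_lit 448) (nat_lit 5) (nat_lit 449) (nat_lit 5) (nat_lit 410) (nat_lit 406) (nat_lit 384)) (XT.lf (nat_lit 76) (nat_lit 1187988492) (nat_lit 0) (nat_lit 5324135542) (nat_lit 608) (nat_lit 244329720) (nat_lit 442) (nat_lit 5) (nat_lit 441) (nat_lit 5) (nat_lit 449) (nat_lit 5) (nat_lit 411) (nat_lit 406) (nat_lit 383)))))) (XT.nd (nat_lit 624) (nat_lit 4636) (nat_lit 0) (XT.nd (nat_lit 312) (nat_lit 760) (nat_lit 0) (XT.nd (nat_lit 156) (nat_lit 608) (nat_lit 0) (XT.nd (nat_lit 78) (nat_lit 0) (nat_lit 0) (XT.lf (nat_lit 0) (nat_lit 2028489513) (nat_lit 608) (nat_lit 1968957875) (nat_lit 684) (nat_lit 2799599737)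 (nat_lit 433) (nat_lit 5) (nat_lit 441) (nat_lit 5) (nat_lit 442) (nat_lit 5) (nat_lit 412) (nat_lit 406) (nat_lit 382)) (XT.lf (nat_lit 76) (nat_lit 1719452677) (nat_lit 0) (nat_lit 2578605455) (nat_lit 684) (nat_lit 2542728781) (nat_lit 434) (nat_lit 5) (nat_lit 433) (nat_lit 5) (nat_lit 442) (nat_lit 5) (nat_lit 413) (nat_lit 406) (nat_lit 381))) (XT.nd (nat_lit 78) (nat_lit 608) (nat_lit 0) (XT.lf (nat_lit 76) (nat_lit 5509153896) (nat_lit 0) (nat_lit 1065330733) (nat_lit 684) (nat_lit 313196440) (nat_lit 434) (nat_lit 5) (nat_lit 433) (nat_lit 5) (nat_lit 442) (nat_lit 5) (nat_lit 414) (nat_lit 406) (nat_lit 380)) (XT.lf (nat_lit 0) (nat_lit 1894042281) (nat_lit 684) (nat_lit 4486989124) (nat_lit 760) (nat_lit 555898116) (nat_lit 425) (nat_lit 5) (nat_lit 434) (nat_lit 5) (nat_lit 435) (nat_lit 5) (nat_lit 415) (nat_lit 406) (nat_lit 379)))) (XT.nd (nat_lit 156) (nat_lit 760) (nat_lit 0) (XT.nd (nat_lit 78)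 (nat_lit 0) (nat_lit 0) (XT.lf (nat_lit 0) (nat_lit 4108389369) (nat_lit 684) (nat_lit 631485923) (nat_lit 760) (nat_lit 2249276370) (nat_lit 425) (nat_lit 5) (nat_lit 434) (nat_lit 5) (nat_lit 435) (nat_lit 5) (nat_lit 416) (nat_lit 406) (nat_lit 378)) (XT.lf (nat_lit 76) (nat_lit 3354676277) (nat_lit 0) (nat_lit 2991572809) (nat_lit 760) (nat_lit 697983622) (nat_lit 426) (nat_lit 5) (nat_lit 425) (nat_lit 5) (nat_lit 435) (nat_lit 5) (nat_lit 417) (nat_lit 406) (nat_lit 377))) (XT.nd (nat_lit 78) (nat_lit 0) (nat_lit 76) (XT.lf (nat_lit 76) (nat_lit 312267348) (nat_lit 0) (nat_lit 1143013300) (nat_lit 836) (nat_lit 5647185296) (nat_lit 416) (nat_lit 5) (nat_lit 415) (nat_lit 5) (nat_lit 426) (nat_lit 5) (nat_lit 418) (nat_lit 406) (nat_lit 376)) (XT.lf (nat_lit 0) (nat_lit 3631745980) (nat_lit 760) (nat_lit 2719481897) (nat_lit 76) (nat_lit 811836330) (nat_lit 416) (nat_lit 5) (nat_lit 426) (nat_lit 5) (nat_lit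 417) (nat_lit 5) (nat_lit 419) (nat_lit 406) (nat_lit 375))))) (XT.nd (nat_lit 312) (nat_lit 3040) (nat_lit 0) (XT.nd (nat_lit 156) (nat_lit 836) (nat_lit 0) (XT.nd (nat_lit 78) (nat_lit 76) (nat_lit 0) (XT.lf (nat_lit 0) (nat_lit 1438322967) (nat_lit 760) (nat_lit 4390121923) (nat_lit 836) (nat_lit 1398391522) (nat_lit 406) (nat_lit 5) (nat_lit 416) (nat_lit 5) (nat_lit 417) (nat_lit 5) (nat_lit 420) (nat_lit 406) (nat_lit 374)) (XT.lf (nat_lit 0) (nat_lit 741339039) (nat_lit 836) (nat_lit 1575696441) (nat_lit 76) (nat_lit 4976508026) (nat_lit 405) (nat_lit 5) (nat_lit 416) (nat_lit 5) (nat_lit 406) (nat_lit 5) (nat_lit 421) (nat_lit 406) (nat_lit 373))) (XT.nd (nat_lit 78) (nat_lit 0) (nat_lit 0) (XT.lf (nat_lit 0) (nat_lit 2752240094) (nat_lit 836) (nat_lit 124055609) (nat_lit 912) (nat_lit 4486770359) (nat_lit 394) (nat_lit 5) (nat_lit 405) (nat_lit 5) (nat_lit 406) (nat_lit 5) (nat_lit 422) (nat_lit 406) (nat_lit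 372)) (XT.lf (nat_lit 0) (nat_lit 5046194780) (nat_lit 912) (nat_lit 265309357) (nat_lit 76) (nat_lit 2124047064) (nat_lit 394) (nat_lit 5) (nat_lit 406) (nat_lit 5) (nat_lit 395) (nat_lit 5) (nat_lit 423) (nat_lit 406) (nat_lit 371)))) (XT.nd (nat_lit 156) (nat_lit 1064) (nat_lit 0) (XT.nd (nat_lit 78) (nat_lit 1064) (nat_lit 0) (XT.lf (nat_lit 0) (nat_lit 4240886191) (nat_lit 912) (nat_lit 3018516916) (nat_lit 988) (nat_lit 251465027) (nat_lit 382) (nat_lit 5) (nat_lit 394) (nat_lit 5) (nat_lit 395) (nat_lit 5) (nat_lit 424) (nat_lit 406) (nat_lit 370)) (XT.lf (nat_lit 0) (nat_lit 1253047886) (nat_lit 988) (nat_lit 611170306) (nat_lit 1064) (nat_lit 5725115756) (nat_lit 368) (nat_lit 5) (nat_lit 381) (nat_lit 5) (nat_lit 382) (nat_lit 5) (nat_lit 425) (nat_lit 406) (nat_lit 369))) (XT.nd (nat_lit 78) (nat_lit 1064) (nat_lit 0) (XT.lf (nat_lit 0) (nat_lit 4028031739) (nat_lit 1064) (nat_lit 1764551909) (nat_lit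 76) (nat_lit 1877807275) (nat_lit 368) (nat_lit 5) (nat_lit 382) (nat_lit 5) (nat_lit 369) (nat_lit 5) (nat_lit 426) (nat_lit 406) (nat_lit 368)) (XT.lf (nat_lit 0) (nat_lit 2943872355) (nat_lit 1064) (nat_lit 3287437331) (nat_lit 1140) (nat_lit 1523336630) (nat_lit 354) (nat_lit 5) (nat_lit 368) (nat_lit 5) (nat_lit 369) (nat_lit 5) (nat_lit 427) (nat_lit 406) (nat_lit 367))))))))
noncomputable def xc109 : XT := (XT.nd (nat_lit 2418) (nat_lit 5548) (nat_lit 0) (XT.nd (nat_lit 1170) (nat_lit 4788) (nat_lit 0) (XT.nd (nat_lit 546) (nat_lit 2964) (nat_lit 0) (XT.nd (nat_lit 234) (nat_lit 1520) (nat_lit 0) (XT.nd (nat_lit 78) (nat_lit 2356) (nat_lit 0) (XT.lf (nat_lit 0) (nat_lit 605252944) (nat_lit 1140) (nat_lit 70215266) (nat_lit 76) (nat_lit 7167008242) (nat_lit 353) (nat_lit 5) (nat_lit 368) (nat_lit 5) (nat_lit 354) (nat_lit 5) (nat_lit 428) (nat_lit 406) (nat_lit 366)) (XT.nd (nat_lit 78) (nat_lit 1216) (nat_lit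 0) (XT.lf (nat_lit 0) (nat_lit 2776244783) (nat_lit 1216) (nat_lit 3111914014) (nat_lit 76) (nat_lit 2044058290) (nat_lit 338) (nat_lit 5) (nat_lit 354) (nat_lit 5) (nat_lit 339) (nat_lit 5) (nat_lit 429) (nat_lit 406) (nat_lit 365)) (XT.lf (nat_lit 0) (nat_lit 1810744438) (nat_lit 1216) (nat_lit 3170261837) (nat_lit 1292) (nat_lit 3044587315) (nat_lit 322) (nat_lit 5) (nat_lit 338) (nat_lit 5) (nat_lit 339) (nat_lit 5) (nat_lit 430) (nat_lit 406) (nat_lit 364)))) (XT.nd (nat_lit 156) (nat_lit 608) (nat_lit 0) (XT.nd (nat_lit 78) (nat_lit 912) (nat_lit 0) (XT.lf (nat_lit 0) (nat_lit 6893143491) (nat_lit 1216) (nat_lit 335160161) (nat_lit 1292) (nat_lit 894178712) (nat_lit 322) (nat_lit 5) (nat_lit 338) (nat_lit 5) (nat_lit 339) (nat_lit 5) (nat_lit 431) (nat_lit 406) (nat_lit 363)) (XT.lf (nat_lit 0) (nat_lit 1304046601) (nat_lit 912) (nat_lit 4329562181) (nat_lit 76) (nat_lit 2588018446) (nat_lit 310) (nat_lit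 5) (nat_lit 322) (nat_lit 5) (nat_lit 311) (nat_lit 5) (nat_lit 432) (nat_lit 406) (nat_lit 362))) (XT.nd (nat_lit 78) (nat_lit 0) (nat_lit 0) (XT.lf (nat_lit 0) (nat_lit 820242590) (nat_lit 608) (nat_lit 2700887267) (nat_lit 684) (nat_lit 4803227014) (nat_lit 302) (nat_lit 5) (nat_lit 310) (nat_lit 5) (nat_lit 311) (nat_lit 5) (nat_lit 433) (nat_lit 406) (nat_lit 361)) (XT.lf (nat_lit 0) (nat_lit 5800136178) (nat_lit 684) (nat_lit 2272519094) (nat_lit 76) (nat_lit 357653273) (nat_lit 302) (nat_lit 5) (nat_lit 311) (nat_lit 5) (nat_lit 303) (nat_lit 5) (nat_lit 434) (nat_lit 406) (nat_lit 360))))) (XT.nd (nat_lit 312) (nat_lit 1140) (nat_lit 0) (XT.nd (nat_lit 156) (nat_lit 1140) (nat_lit 0) (XT.nd (nat_lit 78) (nat_lit 76) (nat_lit 0) (XT.lf (nat_lit 0) (nat_lit 3097840836) (nat_lit 608) (nat_lit 5055884211) (nat_lit 684) (nat_lit 385529736) (nat_lit 294) (nat_lit 5) (nat_lit 302) (nat_lit 5) (nat_lit 303) (nat_lit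 5) (nat_lit 435) (nat_lit 406) (nat_lit 359)) (XT.lf (nat_lit 0) (nat_lit 1862208502) (nat_lit 684) (nat_lit 46007283) (nat_lit 76) (nat_lit 6743499874) (nat_lit 293) (nat_lit 5) (nat_lit 302) (nat_lit 5) (nat_lit 294) (nat_lit 5) (nat_lit 436) (nat_lit 406) (nat_lit 358))) (XT.nd (nat_lit 78) (nat_lit 608) (nat_lit 0) (XT.lf (nat_lit 0) (nat_lit 4188116310) (nat_lit 608) (nat_lit 3215460123) (nat_lit 76) (nat_lit 1363307012) (nat_lit 286) (nat_lit 5) (nat_lit 294) (nat_lit 5) (nat_lit 287) (nat_lit 5) (nat_lit 437) (nat_lit 406) (nat_lit 357)) (XT.lf (nat_lit 0) (nat_lit 2408579350) (nat_lit 608) (nat_lit 4170258650) (nat_lit 684) (nat_lit 2306819285) (nat_lit 278) (nat_lit 5) (nat_lit 286) (nat_lit 5) (nat_lit 287) (nat_lit 5) (nat_lit 438) (nat_lit 406) (nat_lit 356)))) (XT.nd (nat_lit 156) (nat_lit 532) (nat_lit 0) (XT.nd (nat_lit 78) (nat_lit 532) (nat_lit 0) (XT.lf (nat_lit 0) (nat_lit 18377278) (nat_lit 684)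 (nat_lit 792589478) (nat_lit 76) (nat_lit 8197447788) (nat_lit 277) (nat_lit 5) (nat_lit 286) (nat_lit 5) (nat_lit 278) (nat_lit 5) (nat_lit 439) (nat_lit 406) (nat_lit 355)) (XT.lf (nat_lit 0) (nat_lit 2396322324) (nat_lit 608) (nat_lit 4071980042) (nat_lit 76) (nat_lit 2664988179) (nat_lit 270) (nat_lit 5) (nat_lit 278) (nat_lit 5) (nat_lit 271) (nat_lit 5) (nat_lit 440) (nat_lit 406) (nat_lit 354))) (XT.nd (nat_lit 78) (nat_lit 0) (nat_lit 0) (XT.lf (nat_lit 0) (nat_lit 1821374393) (nat_lit 532) (nat_lit 3012967686) (nat_lit 608) (nat_lit 4427910539) (nat_lit 263) (nat_lit 5) (nat_lit 270) (nat_lit 5) (nat_lit 271) (nat_lit 5) (nat_lit 441) (nat_lit 406) (nat_lit 353)) (XT.lf (nat_lit 0) (nat_lit 7348144537) (nat_lit 608) (nat_lit 1476718507) (nat_lit 76) (nat_lit 570143075) (nat_lit 263) (nat_lit 5) (nat_lit 271) (nat_lit 5) (nat_lit 264) (nat_lit 5) (nat_lit 442) (nat_lit 406) (nat_lit 352)))))) (XT.nd (nat_lit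 624) (nat_lit 1976) (nat_lit 0) (XT.nd (nat_lit 312) (nat_lit 1368) (nat_lit 0) (XT.nd (nat_lit 156) (nat_lit 456) (nat_lit 0) (XT.nd (nat_lit 78) (nat_lit 456) (nat_lit 0) (XT.lf (nat_lit 0) (nat_lit 429961532) (nat_lit 532) (nat_lit 4857892062) (nat_lit 76) (nat_lit 4242805650) (nat_lit 256) (nat_lit 5) (nat_lit 263) (nat_lit 5) (nat_lit 257) (nat_lit 5) (nat_lit 443) (nat_lit 406) (nat_lit 351)) (XT.lf (nat_lit 0) (nat_lit 1321402389) (nat_lit 456) (nat_lit 1603808568) (nat_lit 532) (nat_lit 6745006853) (nat_lit 250) (nat_lit 5) (nat_lit 256) (nat_lit 5) (nat_lit 257) (nat_lit 5) (nat_lit 444) (nat_lit 406) (nat_lit 350))) (XT.nd (nat_lit 78) (nat_lit 456) (nat_lit 0) (XT.lf (nat_lit 0) (nat_lit 5524084905) (nat_lit 532) (nat_lit 2100090935) (nat_lit 76) (nat_lit 2188925908) (nat_lit 250) (nat_lit 5) (nat_lit 257) (nat_lit 5) (nat_lit 251) (nat_lit 5) (nat_lit 445) (nat_lit 406) (nat_lit 349)) (XT.lf (nat_lit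 0) (nat_lit 4354991192) (nat_lit 456) (nat_lit 3863061693) (nat_lit 532) (nat_lit 1741707061) (nat_lit 244) (nat_lit 5) (nat_lit 250) (nat_lit 5) (nat_lit 251) (nat_lit 5) (nat_lit 446) (nat_lit 406) (nat_lit 348)))) (XT.nd (nat_lit 156) (nat_lit 836) (nat_lit 0) (XT.nd (nat_lit 78) (nat_lit 0) (nat_lit 0) (XT.lf (nat_lit 0) (nat_lit 854910935) (nat_lit 532) (nat_lit 9216411944) (nat_lit 76) (nat_lit 39539131) (nat_lit 237) (nat_lit 5) (nat_lit 244) (nat_lit 5) (nat_lit 238) (nat_lit 5) (nat_lit 447) (nat_lit 406) (nat_lit 347)) (XT.lf (nat_lit 0) (nat_lit 3550113708) (nat_lit 532) (nat_lit 2668426920) (nat_lit 76) (nat_lit 4045769828) (nat_lit 237) (nat_lit 5) (nat_lit 244) (nat_lit 5) (nat_lit 238) (nat_lit 5) (nat_lit 448) (nat_lit 406) (nat_lit 346))) (XT.nd (nat_lit 78) (nat_lit 456) (nat_lit 0) (XT.lf (nat_lit 0) (nat_lit 4106506812) (nat_lit 380) (nat_lit 2220583839) (nat_lit 456) (nat_lit 4095245563) (nat_lit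 232) (nat_lit 5) (nat_lit 237) (nat_lit 5) (nat_lit 238) (nat_lit 5) (nat_lit 449) (nat_lit 406) (nat_lit 345)) (XT.lf (nat_lit 0) (nat_lit 496102523) (nat_lit 456) (nat_lit 8703480538) (nat_lit 532) (nat_lit 1385154860) (nat_lit 226) (nat_lit 5) (nat_lit 232) (nat_lit 5) (nat_lit 233) (nat_lit 5) (nat_lit 450) (nat_lit 406) (nat_lit 344))))) (XT.nd (nat_lit 312) (nat_lit 1140) (nat_lit 0) (XT.nd (nat_lit 156) (nat_lit 380) (nat_lit 0) (XT.nd (nat_lit 78) (nat_lit 380) (nat_lit 0) (XT.lf (nat_lit 0) (nat_lit 1427437485) (nat_lit 532) (nat_lit 3194801181) (nat_lit 76) (nat_lit 6127909575) (nat_lit 225) (nat_lit 5) (nat_lit 232) (nat_lit 5) (nat_lit 226) (nat_lit 5) (nat_lit 451) (nat_lit 406) (nat_lit 343)) (XT.lf (nat_lit 0) (nat_lit 3919660663) (nat_lit 380) (nat_lit 377929309) (nat_lit 456) (nat_lit 6622490034) (nat_lit 220) (nat_lit 5) (nat_lit 225) (nat_lit 5) (nat_lit 226) (nat_lit 5) (nat_lit 452) (nat_lit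 406) (nat_lit 342))) (XT.nd (nat_lit 78) (nat_lit 0) (nat_lit 0) (XT.lf (nat_lit 0) (nat_lit 133354524) (nat_lit 380) (nat_lit 7156571631) (nat_lit 456) (nat_lit 3804102403) (nat_lit 215) (nat_lit 5) (nat_lit 220) (nat_lit 5) (nat_lit 221) (nat_lit 5) (nat_lit 453) (nat_lit 406) (nat_lit 341)) (XT.lf (nat_lit 0) (nat_lit 7571868654) (nat_lit 380) (nat_lit 2838969057) (nat_lit 456) (nat_lit 861194870) (nat_lit 215) (nat_lit 5) (nat_lit 220) (nat_lit 5) (nat_lit 221) (nat_lit 5) (nat_lit 454) (nat_lit 406) (nat_lit 340)))) (XT.nd (nat_lit 156) (nat_lit 684) (nat_lit 0) (XT.nd (nat_lit 78) (nat_lit 0) (nat_lit 0) (XT.lf (nat_lit 0) (nat_lit 2145018865) (nat_lit 456) (nat_lit 7687713141) (nat_lit 76) (nat_lit 1621499140) (nat_lit 209) (nat_lit 5) (nat_lit 215) (nat_lit 5) (nat_lit 210) (nat_lit 5) (nat_lit 455) (nat_lit 406) (nat_lit 339)) (XT.lf (nat_lit 0) (nat_lit 5255484177) (nat_lit 456) (nat_lit 193387314) (nat_lit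 76) (nat_lit 6191828221) (nat_lit 209) (nat_lit 5) (nat_lit 215) (nat_lit 5) (nat_lit 210) (nat_lit 5) (nat_lit 456) (nat_lit 406) (nat_lit 338))) (XT.nd (nat_lit 78) (nat_lit 304) (nat_lit 0) (XT.lf (nat_lit 0) (nat_lit 7627365389) (nat_lit 380) (nat_lit 871752279) (nat_lit 456) (nat_lit 3332450082) (nat_lit 204) (nat_lit 5) (nat_lit 209) (nat_lit 5) (nat_lit 210) (nat_lit 5) (nat_lit 457) (nat_lit 406) (nat_lit 337)) (XT.lf (nat_lit 0) (nat_lit 3645140654) (nat_lit 304) (nat_lit 8235796548) (nat_lit 380) (nat_lit 145999328) (nat_lit 200) (nat_lit 5) (nat_lit 204) (nat_lit 5) (nat_lit 205) (nat_lit 5) (nat_lit 458) (nat_lit 406) (nat_lit 336))))))) (XT.nd (nat_lit 1248) (nat_lit 2432) (nat_lit 0) (XT.nd (nat_lit 624) (nat_lit 1368) (nat_lit 0) (XT.nd (nat_lit 312) (nat_lit 988) (nat_lit 0) (XT.nd (nat_lit 156) (nat_lit 380) (nat_lit 0) (XT.nd (nat_lit 78) (nat_lit 304) (nat_lit 0) (XT.lf (nat_lit 0) (nat_lit 3093469040)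 (nat_lit 380) (nat_lit 497765669) (nat_lit 76) (nat_lit 8635469664) (nat_lit 199) (nat_lit 5) (nat_lit 204) (nat_lit 5) (nat_lit 200) (nat_lit 5) (nat_lit 459) (nat_lit 406) (nat_lit 335)) (XT.lf (nat_lit 0) (nat_lit 6481597399) (nat_lit 380) (nat_lit 4717560989) (nat_lit 76) (nat_lit 1231632111) (nat_lit 195) (nat_lit 5) (nat_lit 200) (nat_lit 5) (nat_lit 196) (nat_lit 5) (nat_lit 460) (nat_lit 406) (nat_lit 334))) (XT.nd (nat_lit 78) (nat_lit 76) (nat_lit 0) (XT.lf (nat_lit 0) (nat_lit 3526336697) (nat_lit 304) (nat_lit 6487983262) (nat_lit 380) (nat_lit 2625391639) (nat_lit 191) (nat_lit 5) (nat_lit 195) (nat_lit 5) (nat_lit 196) (nat_lit 5) (nat_lit 461) (nat_lit 406) (nat_lit 333)) (XT.lf (nat_lit 0) (nat_lit 799245138) (nat_lit 380) (nat_lit 794303785) (nat_lit 76) (nat_lit 11260621225) (nat_lit 190) (nat_lit 5) (nat_lit 195) (nat_lit 5) (nat_lit 191) (nat_lit 5) (nat_lit 462) (nat_lit 406) (nat_lit 332))))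 (XT.nd (nat_lit 156) (nat_lit 380) (nat_lit 0) (XT.nd (nat_lit 78) (nat_lit 304) (nat_lit 0) (XT.lf (nat_lit 0) (nat_lit 4352873008) (nat_lit 380) (nat_lit 5250867177) (nat_lit 76) (nat_lit 3468172684) (nat_lit 186) (nat_lit 5) (nat_lit 191) (nat_lit 5) (nat_lit 187) (nat_lit 5) (nat_lit 463) (nat_lit 406) (nat_lit 331)) (XT.lf (nat_lit 0) (nat_lit 3420185372) (nat_lit 304) (nat_lit 4619489510) (nat_lit 380) (nat_lit 5255716831) (nat_lit 182) (nat_lit 5) (nat_lit 186) (nat_lit 5) (nat_lit 187) (nat_lit 5) (nat_lit 464) (nat_lit 406) (nat_lit 330))) (XT.nd (nat_lit 78) (nat_lit 380) (nat_lit 0) (XT.lf (nat_lit 0) (nat_lit 11865674831) (nat_lit 380) (nat_lit 1116626703) (nat_lit 76) (nat_lit 542416344) (nat_lit 182) (nat_lit 5) (nat_lit 187) (nat_lit 5) (nat_lit 183) (nat_lit 5) (nat_lit 465) (nat_lit 406) (nat_lit 329)) (XT.lf (nat_lit 0) (nat_lit 2099857925) (nat_lit 380) (nat_lit 5809058283) (nat_lit 76) (nat_lit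 5848591186) (nat_lit 177) (nat_lit 5) (nat_lit 182) (nat_lit 5) (nat_lit 178) (nat_lit 5) (nat_lit 466) (nat_lit 406) (nat_lit 328))))) (XT.nd (nat_lit 312) (nat_lit 532) (nat_lit 0) (XT.nd (nat_lit 156) (nat_lit 608) (nat_lit 0) (XT.nd (nat_lit 78) (nat_lit 0) (nat_lit 0) (XT.lf (nat_lit 0) (nat_lit 3314594444) (nat_lit 228) (nat_lit 2637943100) (nat_lit 304) (nat_lit 8043820272) (nat_lit 174) (nat_lit 5) (nat_lit 177) (nat_lit 5) (nat_lit 178) (nat_lit 5) (nat_lit 467) (nat_lit 406) (nat_lit 327)) (XT.lf (nat_lit 0) (nat_lit 9978235393) (nat_lit 304) (nat_lit 1482220229) (nat_lit 76) (nat_lit 2780195685) (nat_lit 174) (nat_lit 5) (nat_lit 178) (nat_lit 5) (nat_lit 175) (nat_lit 5) (nat_lit 468) (nat_lit 406) (nat_lit 326))) (XT.nd (nat_lit 78) (nat_lit 304) (nat_lit 0) (XT.lf (nat_lit 0) (nat_lit 8080965222) (nat_lit 304) (nat_lit 6119736983) (nat_lit 380) (nat_lit 289292125) (nat_lit 170) (nat_lit 5) (nat_lit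 174) (nat_lit 5) (nat_lit 175) (nat_lit 5) (nat_lit 469) (nat_lit 406) (nat_lit 325)) (XT.lf (nat_lit 0) (nat_lit 3196700162) (nat_lit 228) (nat_lit 550279137) (nat_lit 304) (nat_lit 10998197326) (nat_lit 166) (nat_lit 5) (nat_lit 169) (nat_lit 5) (nat_lit 170) (nat_lit 5) (nat_lit 470) (nat_lit 406) (nat_lit 324)))) (XT.nd (nat_lit 156) (nat_lit 304) (nat_lit 0) (XT.nd (nat_lit 78) (nat_lit 228) (nat_lit 0) (XT.lf (nat_lit 0) (nat_lit 7986287879) (nat_lit 304) (nat_lit 1881717622) (nat_lit 76) (nat_lit 5137290667) (nat_lit 166) (nat_lit 5) (nat_lit 170) (nat_lit 5) (nat_lit 167) (nat_lit 5) (nat_lit 471) (nat_lit 406) (nat_lit 323)) (XT.lf (nat_lit 0) (nat_lit 8186364105) (nat_lit 228) (nat_lit 4223902321) (nat_lit 304) (nat_lit 2861228745) (nat_lit 163) (nat_lit 5) (nat_lit 166) (nat_lit 5) (nat_lit 167) (nat_lit 5) (nat_lit 472) (nat_lit 406) (nat_lit 322))) (XT.nd (nat_lit 78) (nat_lit 0) (nat_lit 0) (XT.lf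 (nat_lit 0) (nat_lit 1431275586) (nat_lit 304) (nat_lit 12507763864) (nat_lit 76) (nat_lit 1605099614) (nat_lit 159) (nat_lit 5) (nat_lit 163) (nat_lit 5) (nat_lit 160) (nat_lit 5) (nat_lit 473) (nat_lit 406) (nat_lit 321)) (XT.lf (nat_lit 0) (nat_lit 5882783304) (nat_lit 304) (nat_lit 2330198829) (nat_lit 76) (nat_lit 7608498730) (nat_lit 159) (nat_lit 5) (nat_lit 163) (nat_lit 5) (nat_lit 160) (nat_lit 5) (nat_lit 474) (nat_lit 406) (nat_lit 320)))))) (XT.nd (nat_lit 624) (nat_lit 1064) (nat_lit 0) (XT.nd (nat_lit 312) (nat_lit 608) (nat_lit 0) (XT.nd (nat_lit 156) (nat_lit 304) (nat_lit 0) (XT.nd (nat_lit 78) (nat_lit 228) (nat_lit 0) (XT.lf (nat_lit 0) (nat_lit 8272082504) (nat_lit 228) (nat_lit 2249698223) (nat_lit 304) (nat_lit 5583744385) (nat_lit 156) (nat_lit 5) (nat_lit 159) (nat_lit 5) (nat_lit 160) (nat_lit 5) (nat_lit 475) (nat_lit 406) (nat_lit 319)) (XT.lf (nat_lit 0) (nat_lit 2817935951) (nat_lit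 228) (nat_lit 12544895572) (nat_lit 304) (nat_lit 1033373173) (nat_lit 153) (nat_lit 5) (nat_lit 156) (nat_lit 5) (nat_lit 157) (nat_lit 5) (nat_lit 476) (nat_lit 406) (nat_lit 318))) (XT.nd (nat_lit 78) (nat_lit 228) (nat_lit 0) (XT.lf (nat_lit 0) (nat_lit 3659080313) (nat_lit 304) (nat_lit 2844281570) (nat_lit 76) (nat_lit 10188883748) (nat_lit 152) (nat_lit 5) (nat_lit 156) (nat_lit 5) (nat_lit 153) (nat_lit 5) (nat_lit 477) (nat_lit 406) (nat_lit 317)) (XT.lf (nat_lit 0) (nat_lit 8322827844) (nat_lit 228) (nat_lit 204155079) (nat_lit 304) (nat_lit 8468215039) (nat_lit 149) (nat_lit 5) (nat_lit 152) (nat_lit 5) (nat_lit 153) (nat_lit 5) (nat_lit 478) (nat_lit 406) (nat_lit 316)))) (XT.nd (nat_lit 156) (nat_lit 380) (nat_lit 0) (XT.nd (nat_lit 78) (nat_lit 76) (nat_lit 0) (XT.lf (nat_lit 0) (nat_lit 2524203210) (nat_lit 152) (nat_lit 11106003073) (nat_lit 228) (nat_lit 3674354526) (nat_lit 147) (nat_lit 5) (nat_lit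 149) (nat_lit 5) (nat_lit 150) (nat_lit 5) (nat_lit 479) (nat_lit 406) (nat_lit 315)) (XT.lf (nat_lit 0) (nat_lit 1304818825) (nat_lit 228) (nat_lit 3442481820) (nat_lit 76) (nat_lit 12873555541) (nat_lit 146) (nat_lit 5) (nat_lit 149) (nat_lit 5) (nat_lit 147) (nat_lit 5) (nat_lit 480) (nat_lit 406) (nat_lit 314))) (XT.nd (nat_lit 78) (nat_lit 152) (nat_lit 0) (XT.lf (nat_lit 0) (nat_lit 6434218751) (nat_lit 304) (nat_lit 9640761164) (nat_lit 76) (nat_lit 1868328466) (nat_lit 143) (nat_lit 5) (nat_lit 147) (nat_lit 5) (nat_lit 144) (nat_lit 5) (nat_lit 481) (nat_lit 406) (nat_lit 313)) (XT.lf (nat_lit 0) (nat_lit 2150453528) (nat_lit 152) (nat_lit 9646370685) (nat_lit 228) (nat_lit 6476230629) (nat_lit 141) (nat_lit 5) (nat_lit 143) (nat_lit 5) (nat_lit 144) (nat_lit 5) (nat_lit 482) (nat_lit 406) (nat_lit 312))))) (XT.nd (nat_lit 312) (nat_lit 608) (nat_lit 0) (XT.nd (nat_lit 156) (nat_lit 152) (nat_lit 0) (XT.nd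 (nat_lit 78) (nat_lit 304) (nat_lit 0) (XT.lf (nat_lit 0) (nat_lit 14453159814) (nat_lit 152) (nat_lit 2941343359) (nat_lit 228) (nat_lit 1215965054) (nat_lit 141) (nat_lit 5) (nat_lit 143) (nat_lit 5) (nat_lit 144) (nat_lit 5) (nat_lit 483) (nat_lit 406) (nat_lit 311)) (XT.lf (nat_lit 0) (nat_lit 4215831590) (nat_lit 304) (nat_lit 10745891379) (nat_lit 76) (nat_lit 3992197980) (nat_lit 137) (nat_lit 5) (nat_lit 141) (nat_lit 5) (nat_lit 138) (nat_lit 5) (nat_lit 484) (nat_lit 406) (nat_lit 310))) (XT.nd (nat_lit 78) (nat_lit 0) (nat_lit 0) (XT.lf (nat_lit 0) (nat_lit 1674944038) (nat_lit 152) (nat_lit 8176242887) (nat_lit 228) (nat_lit 9454178174) (nat_lit 135) (nat_lit 5) (nat_lit 137) (nat_lit 5) (nat_lit 138) (nat_lit 5) (nat_lit 485) (nat_lit 406) (nat_lit 309)) (XT.lf (nat_lit 0) (nat_lit 14649776346) (nat_lit 152) (nat_lit 1092047882) (nat_lit 228) (nat_lit 3922942056) (nat_lit 135) (nat_lit 5) (nat_lit 137)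 (nat_lit 5) (nat_lit 138) (nat_lit 5) (nat_lit 486) (nat_lit 406) (nat_lit 308)))) (XT.nd (nat_lit 156) (nat_lit 152) (nat_lit 0) (XT.nd (nat_lit 78) (nat_lit 152) (nat_lit 0) (XT.lf (nat_lit 0) (nat_lit 1855859664) (nat_lit 304) (nat_lit 12011852703) (nat_lit 76) (nat_lit 6163238310) (nat_lit 131) (nat_lit 5) (nat_lit 135) (nat_lit 5) (nat_lit 132) (nat_lit 5) (nat_lit 487) (nat_lit 406) (nat_lit 307)) (XT.lf (nat_lit 0) (nat_lit 1072862733) (nat_lit 152) (nat_lit 6706843977) (nat_lit 228) (nat_lit 12625733127) (nat_lit 129) (nat_lit 5) (nat_lit 131) (nat_lit 5) (nat_lit 132) (nat_lit 5) (nat_lit 488) (nat_lit 406) (nat_lit 306))) (XT.nd (nat_lit 78) (nat_lit 152) (nat_lit 0) (XT.lf (nat_lit 0) (nat_lit 13988565835) (nat_lit 228) (nat_lit 6037242037) (nat_lit 76) (nat_lit 762137210) (nat_lit 129) (nat_lit 5) (nat_lit 132) (nat_lit 5) (nat_lit 130) (nat_lit 5) (nat_lit 489) (nat_lit 406) (nat_lit 305)) (XT.lf (nat_lit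 0) (nat_lit 7703554593) (nat_lit 152) (nat_lit 12799591966) (nat_lit 228) (nat_lit 675195552) (nat_lit 127) (nat_lit 5) (nat_lit 129) (nat_lit 5) (nat_lit 130) (nat_lit 5) (nat_lit 490) (nat_lit 406) (nat_lit 304))))))))
noncomputable def xc110 : XT := (XT.nd (nat_lit 2418) (nat_lit 2204) (nat_lit 0) (XT.nd (nat_lit 1170) (nat_lit 1520) (nat_lit 0) (XT.nd (nat_lit 546) (nat_lit 988) (nat_lit 0) (XT.nd (nat_lit 234) (nat_lit 456) (nat_lit 0) (XT.nd (nat_lit 78) (nat_lit 152) (nat_lit 0) (XT.lf (nat_lit 0) (nat_lit 315753804) (nat_lit 152) (nat_lit 5250699372) (nat_lit 228) (nat_lit 16011064184) (nat_lit 124) (nat_lit 5) (nat_lit 126) (nat_lit 5) (nat_lit 127) (nat_lit 5) (nat_lit 491) (nat_lit 406) (nat_lit 303)) (XT.nd (nat_lit 78) (nat_lit 152) (nat_lit 0) (XT.lf (nat_lit 0) (nat_lit 12122613955) (nat_lit 228) (nat_lit 7258122911) (nat_lit 76) (nat_lit 2603505722) (nat_lit 124) (nat_lit 5) (nat_lit 127) (nat_lit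 5) (nat_lit 125) (nat_lit 5) (nat_lit 492) (nat_lit 406) (nat_lit 302)) (XT.lf (nat_lit 0) (nat_lit 7218115024) (nat_lit 152) (nat_lit 11758472538) (nat_lit 228) (nat_lit 3423548440) (nat_lit 122) (nat_lit 5) (nat_lit 124) (nat_lit 5) (nat_lit 125) (nat_lit 5) (nat_lit 493) (nat_lit 406) (nat_lit 301)))) (XT.nd (nat_lit 156) (nat_lit 228) (nat_lit 0) (XT.nd (nat_lit 78) (nat_lit 152) (nat_lit 0) (XT.lf (nat_lit 0) (nat_lit 3198900418) (nat_lit 228) (nat_lit 616864578) (nat_lit 76) (nat_lit 19010201864) (nat_lit 121) (nat_lit 5) (nat_lit 124) (nat_lit 5) (nat_lit 122) (nat_lit 5) (nat_lit 494) (nat_lit 406) (nat_lit 300)) (XT.lf (nat_lit 0) (nat_lit 10115490056) (nat_lit 228) (nat_lit 8702563541) (nat_lit 76) (nat_lit 4440574079) (nat_lit 119) (nat_lit 5) (nat_lit 122) (nat_lit 5) (nat_lit 120) (nat_lit 5) (nat_lit 495) (nat_lit 406) (nat_lit 299))) (XT.nd (nat_lit 78) (nat_lit 76) (nat_lit 0) (XT.lf (nat_lit 0)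 (nat_lit 6547217113) (nat_lit 152) (nat_lit 10779840426) (nat_lit 228) (nat_lit 6374586611) (nat_lit 117) (nat_lit 5) (nat_lit 119) (nat_lit 5) (nat_lit 120) (nat_lit 5) (nat_lit 496) (nat_lit 406) (nat_lit 298)) (XT.lf (nat_lit 0) (nat_lit 654633547) (nat_lit 228) (nat_lit 1764524632) (nat_lit 76) (nat_lit 21736543115) (nat_lit 116) (nat_lit 5) (nat_lit 119) (nat_lit 5) (nat_lit 117) (nat_lit 5) (nat_lit 497) (nat_lit 406) (nat_lit 297))))) (XT.nd (nat_lit 312) (nat_lit 456) (nat_lit 0) (XT.nd (nat_lit 156) (nat_lit 228) (nat_lit 0) (XT.nd (nat_lit 78) (nat_lit 152) (nat_lit 0) (XT.lf (nat_lit 0) (nat_lit 7946198881) (nat_lit 228) (nat_lit 10411371790) (nat_lit 76) (nat_lit 6258528515) (nat_lit 114) (nat_lit 5) (nat_lit 117) (nat_lit 5) (nat_lit 115) (nat_lit 5) (nat_lit 498) (nat_lit 406) (nat_lit 296)) (XT.lf (nat_lit 0) (nat_lit 5651070212) (nat_lit 152) (nat_lit 9882865397) (nat_lit 228) (nat_lit 9554050883)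 (nat_lit 112) (nat_lit 5) (nat_lit 114) (nat_lit 5) (nat_lit 115) (nat_lit 5) (nat_lit 499) (nat_lit 406) (nat_lit 295))) (XT.nd (nat_lit 78) (nat_lit 228) (nat_lit 0) (XT.lf (nat_lit 0) (nat_lit 22374619309) (nat_lit 152) (nat_lit 1061195948) (nat_lit 228) (nat_lit 2135620041) (nat_lit 112) (nat_lit 5) (nat_lit 114) (nat_lit 5) (nat_lit 115) (nat_lit 5) (nat_lit 500) (nat_lit 406) (nat_lit 294)) (XT.lf (nat_lit 0) (nat_lit 5590302176) (nat_lit 228) (nat_lit 12431646504) (nat_lit 76) (nat_lit 8040080416) (nat_lit 109) (nat_lit 5) (nat_lit 112) (nat_lit 5) (nat_lit 110) (nat_lit 5) (nat_lit 501) (nat_lit 406) (nat_lit 293)))) (XT.nd (nat_lit 156) (nat_lit 304) (nat_lit 0) (XT.nd (nat_lit 78) (nat_lit 0) (nat_lit 0) (XT.lf (nat_lit 0) (nat_lit 4483449844) (nat_lit 152) (nat_lit 9089640238) (nat_lit 228) (nat_lit 12991576115) (nat_lit 107) (nat_lit 5) (nat_lit 109) (nat_lit 5) (nat_lit 110) (nat_lit 5) (nat_lit 502)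 (nat_lit 406) (nat_lit 292)) (XT.lf (nat_lit 0) (nat_lit 21905072153) (nat_lit 228) (nat_lit 4953773645) (nat_lit 76) (nat_lit 220245481) (nat_lit 107) (nat_lit 5) (nat_lit 110) (nat_lit 5) (nat_lit 108) (nat_lit 4) (nat_lit 503) (nat_lit 406) (nat_lit 291))) (XT.nd (nat_lit 78) (nat_lit 152) (nat_lit 0) (XT.lf (nat_lit 0) (nat_lit 3019416988) (nat_lit 152) (nat_lit 14817829556) (nat_lit 76) (nat_lit 9764947354) (nat_lit 105) (nat_lit 5) (nat_lit 107) (nat_lit 5) (nat_lit 106) (nat_lit 5) (nat_lit 504) (nat_lit 406) (nat_lit 290)) (XT.lf (nat_lit 0) (nat_lit 2990604727) (nat_lit 152) (nat_lit 8425750874) (nat_lit 228) (nat_lit 16721246561) (nat_lit 103) (nat_lit 5) (nat_lit 105) (nat_lit 5) (nat_lit 106) (nat_lit 5) (nat_lit 505) (nat_lit 406) (nat_lit 289)))))) (XT.nd (nat_lit 624) (nat_lit 836) (nat_lit 0) (XT.nd (nat_lit 312) (nat_lit 380) (nat_lit 0) (XT.nd (nat_lit 156) (nat_lit 152) (nat_lit 0) (XT.nd (nat_lit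 78) (nat_lit 152) (nat_lit 0) (XT.lf (nat_lit 0) (nat_lit 20210986134) (nat_lit 228) (nat_lit 7094002379) (nat_lit 76) (nat_lit 1379710811) (nat_lit 103) (nat_lit 5) (nat_lit 106) (nat_lit 5) (nat_lit 104) (nat_lit 4) (nat_lit 506) (nat_lit 406) (nat_lit 288)) (XT.lf (nat_lit 0) (nat_lit 200630099) (nat_lit 152) (nat_lit 17632921364) (nat_lit 76) (nat_lit 11409258008) (nat_lit 101) (nat_lit 5) (nat_lit 103) (nat_lit 5) (nat_lit 102) (nat_lit 5) (nat_lit 507) (nat_lit 406) (nat_lit 287))) (XT.nd (nat_lit 78) (nat_lit 0) (nat_lit 0) (XT.lf (nat_lit 0) (nat_lit 1109992625) (nat_lit 152) (nat_lit 7920930075) (nat_lit 228) (nat_lit 20782242459) (nat_lit 99) (nat_lit 5) (nat_lit 101) (nat_lit 5) (nat_lit 102) (nat_lit 5) (nat_lit 508) (nat_lit 406) (nat_lit 286)) (XT.lf (nat_lit 0) (nat_lit 18311015954) (nat_lit 228) (nat_lit 9674316142) (nat_lit 76) (nat_lit 2409752807) (nat_lit 99) (nat_lit 5) (nat_lit 102) (nat_lit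 5) (nat_lit 100) (nat_lit 4) (nat_lit 509) (nat_lit 406) (nat_lit 285)))) (XT.nd (nat_lit 156) (nat_lit 228) (nat_lit 0) (XT.nd (nat_lit 78) (nat_lit 76) (nat_lit 0) (XT.lf (nat_lit 0) (nat_lit 10011356864) (nat_lit 76) (nat_lit 18016375726) (nat_lit 152) (nat_lit 2961983175) (nat_lit 98) (nat_lit 5) (nat_lit 99) (nat_lit 5) (nat_lit 100) (nat_lit 4) (nat_lit 510) (nat_lit 406) (nat_lit 284)) (XT.lf (nat_lit 0) (nat_lit 6390461207) (nat_lit 152) (nat_lit 1207158051) (nat_lit 76) (nat_lit 24000243807) (nat_lit 97) (nat_lit 5) (nat_lit 99) (nat_lit 5) (nat_lit 98) (nat_lit 5) (nat_lit 511) (nat_lit 406) (nat_lit 283))) (XT.nd (nat_lit 78) (nat_lit 76) (nat_lit 0) (XT.lf (nat_lit 0) (nat_lit 16167371150) (nat_lit 228) (nat_lit 12772534127) (nat_lit 76) (nat_lit 3277367083) (nat_lit 95) (nat_lit 5) (nat_lit 98) (nat_lit 5) (nat_lit 96) (nat_lit 4) (nat_lit 512) (nat_lit 406) (nat_lit 282)) (XT.lf (nat_lit 0) (nat_lit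 7935397722) (nat_lit 76) (nat_lit 18450109101) (nat_lit 152) (nat_lit 6465319682) (nat_lit 94) (nat_lit 5) (nat_lit 95) (nat_lit 5) (nat_lit 96) (nat_lit 4) (nat_lit 513) (nat_lit 406) (nat_lit 281))))) (XT.nd (nat_lit 312) (nat_lit 456) (nat_lit 0) (XT.nd (nat_lit 156) (nat_lit 152) (nat_lit 0) (XT.nd (nat_lit 78) (nat_lit 152) (nat_lit 0) (XT.lf (nat_lit 0) (nat_lit 3454699187) (nat_lit 152) (nat_lit 4037316327) (nat_lit 76) (nat_lit 26006958066) (nat_lit 93) (nat_lit 5) (nat_lit 95) (nat_lit 5) (nat_lit 94) (nat_lit 5) (nat_lit 514) (nat_lit 406) (nat_lit 280)) (XT.lf (nat_lit 0) (nat_lit 13735955555) (nat_lit 228) (nat_lit 16479048844) (nat_lit 76) (nat_lit 3943832886) (nat_lit 91) (nat_lit 5) (nat_lit 94) (nat_lit 5) (nat_lit 92) (nat_lit 4) (nat_lit 515) (nat_lit 406) (nat_lit 279))) (XT.nd (nat_lit 78) (nat_lit 76) (nat_lit 0) (XT.lf (nat_lit 0) (nat_lit 5293277896) (nat_lit 76) (nat_lit 19183229550) (nat_lit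 152) (nat_lit 10357463831) (nat_lit 90) (nat_lit 5) (nat_lit 91) (nat_lit 5) (nat_lit 92) (nat_lit 4) (nat_lit 516) (nat_lit 406) (nat_lit 278)) (XT.lf (nat_lit 0) (nat_lit 162419405) (nat_lit 152) (nat_lit 7498874026) (nat_lit 76) (nat_lit 27863482211) (nat_lit 89) (nat_lit 5) (nat_lit 91) (nat_lit 5) (nat_lit 90) (nat_lit 5) (nat_lit 517) (nat_lit 406) (nat_lit 277)))) (XT.nd (nat_lit 156) (nat_lit 228) (nat_lit 0) (XT.nd (nat_lit 78) (nat_lit 76) (nat_lit 0) (XT.lf (nat_lit 0) (nat_lit 10965371902) (nat_lit 228) (nat_lit 20898875167) (nat_lit 76) (nat_lit 4363711272) (nat_lit 87) (nat_lit 5) (nat_lit 90) (nat_lit 5) (nat_lit 88) (nat_lit 4) (nat_lit 518) (nat_lit 406) (nat_lit 276)) (XT.lf (nat_lit 0) (nat_lit 1979127675) (nat_lit 76) (nat_lit 20269761593) (nat_lit 152) (nat_lit 14698653060) (nat_lit 86) (nat_lit 5) (nat_lit 87) (nat_lit 5) (nat_lit 88) (nat_lit 4) (nat_lit 519) (nat_lit 406) (nat_lit 275)))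 (XT.nd (nat_lit 78) (nat_lit 228) (nat_lit 0) (XT.lf (nat_lit 0) (nat_lit 25943634726) (nat_lit 76) (nat_lit 8123600552) (nat_lit 152) (nat_lit 3615588959) (nat_lit 86) (nat_lit 5) (nat_lit 87) (nat_lit 5) (nat_lit 88) (nat_lit 4) (nat_lit 520) (nat_lit 406) (nat_lit 274)) (XT.lf (nat_lit 0) (nat_lit 7795764641) (nat_lit 228) (nat_lit 26154024516) (nat_lit 76) (nat_lit 4483686104) (nat_lit 83) (nat_lit 5) (nat_lit 86) (nat_lit 5) (nat_lit 84) (nat_lit 4) (nat_lit 521) (nat_lit 406) (nat_lit 273))))))) (XT.nd (nat_lit 1248) (nat_lit 1064) (nat_lit 0) (XT.nd (nat_lit 624) (nat_lit 532) (nat_lit 0) (XT.nd (nat_lit 312) (nat_lit 304) (nat_lit 0) (XT.nd (nat_lit 156) (nat_lit 228) (nat_lit 0) (XT.nd (nat_lit 78) (nat_lit 76) (nat_lit 0) (XT.lf (nat_lit 0) (nat_lit 19662539723) (nat_lit 228) (nat_lit 2088937734) (nat_lit 76) (nat_lit 17448521989) (nat_lit 83) (nat_lit 5) (nat_lit 86) (nat_lit 5) (nat_lit 84) (nat_lit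 4) (nat_lit 522) (nat_lit 406) (nat_lit 272)) (XT.lf (nat_lit 0) (nat_lit 23122373312) (nat_lit 76) (nat_lit 8971232942) (nat_lit 152) (nat_lit 7889664541) (nat_lit 82) (nat_lit 5) (nat_lit 83) (nat_lit 5) (nat_lit 84) (nat_lit 4) (nat_lit 523) (nat_lit 406) (nat_lit 271))) (XT.nd (nat_lit 78) (nat_lit 0) (nat_lit 0) (XT.lf (nat_lit 0) (nat_lit 4157475489) (nat_lit 228) (nat_lit 32386256342) (nat_lit 76) (nat_lit 4241222070) (nat_lit 79) (nat_lit 5) (nat_lit 82) (nat_lit 5) (nat_lit 80) (nat_lit 4) (nat_lit 524) (nat_lit 406) (nat_lit 270)) (XT.lf (nat_lit 0) (nat_lit 16654289365) (nat_lit 228) (nat_lit 7039462460) (nat_lit 76) (nat_lit 17907187264) (nat_lit 79) (nat_lit 5) (nat_lit 82) (nat_lit 5) (nat_lit 80) (nat_lit 4) (nat_lit 525) (nat_lit 406) (nat_lit 269)))) (XT.nd (nat_lit 156) (nat_lit 152) (nat_lit 0) (XT.nd (nat_lit 78) (nat_lit 76) (nat_lit 0) (XT.lf (nat_lit 0) (nat_lit 19420515167) (nat_lit 76) (nat_lit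 10278642552) (nat_lit 152) (nat_lit 12737051687) (nat_lit 78) (nat_lit 5) (nat_lit 79) (nat_lit 5) (nat_lit 80) (nat_lit 4) (nat_lit 526) (nat_lit 406) (nat_lit 268)) (XT.lf (nat_lit 0) (nat_lit 3532183769) (nat_lit 76) (nat_lit 39729441248) (nat_lit 76) (nat_lit 31125302) (nat_lit 77) (nat_lit 4) (nat_lit 78) (nat_lit 5) (nat_lit 78) (nat_lit 4) (nat_lit 527) (nat_lit 406) (nat_lit 267))) (XT.nd (nat_lit 78) (nat_lit 76) (nat_lit 0) (XT.lf (nat_lit 0) (nat_lit 13124197060) (nat_lit 152) (nat_lit 13075510098) (nat_lit 76) (nat_lit 17961825687) (nat_lit 76) (nat_lit 5) (nat_lit 78) (nat_lit 5) (nat_lit 77) (nat_lit 4) (nat_lit 528) (nat_lit 406) (nat_lit 266)) (XT.lf (nat_lit 0) (nat_lit 14670609601) (nat_lit 76) (nat_lit 12130863979) (nat_lit 152) (nat_lit 18251058487) (nat_lit 75) (nat_lit 5) (nat_lit 76) (nat_lit 5) (nat_lit 77) (nat_lit 4) (nat_lit 529) (nat_lit 406) (nat_lit 265))))) (XT.nd (nat_lit 312) (nat_lit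 304) (nat_lit 0) (XT.nd (nat_lit 156) (nat_lit 76) (nat_lit 0) (XT.nd (nat_lit 78) (nat_lit 152) (nat_lit 0) (XT.lf (nat_lit 0) (nat_lit 41032017734) (nat_lit 152) (nat_lit 2498624024) (nat_lit 0) (nat_lit 2435331092) (nat_lit 75) (nat_lit 5) (nat_lit 77) (nat_lit 4) (nat_lit 75) (nat_lit 4) (nat_lit 530) (nat_lit 406) (nat_lit 264)) (XT.lf (nat_lit 0) (nat_lit 8977932259) (nat_lit 152) (nat_lit 20388644559) (nat_lit 76) (nat_lit 17526707803) (nat_lit 73) (nat_lit 5) (nat_lit 75) (nat_lit 5) (nat_lit 74) (nat_lit 4) (nat_lit 531) (nat_lit 406) (nat_lit 263))) (XT.nd (nat_lit 78) (nat_lit 0) (nat_lit 0) (XT.lf (nat_lit 0) (nat_lit 8677035542) (nat_lit 76) (nat_lit 14627172917) (nat_lit 152) (nat_lit 24539855818) (nat_lit 72) (nat_lit 5) (nat_lit 73) (nat_lit 5) (nat_lit 74) (nat_lit 4) (nat_lit 532) (nat_lit 406) (nat_lit 262)) (XT.lf (nat_lit 0) (nat_lit 38260855154) (nat_lit 152) (nat_lit 9816691024) (nat_lit 0)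 (nat_lit 739803738) (nat_lit 72) (nat_lit 5) (nat_lit 74) (nat_lit 4) (nat_lit 72) (nat_lit 4) (nat_lit 533) (nat_lit 406) (nat_lit 261)))) (XT.nd (nat_lit 156) (nat_lit 76) (nat_lit 0) (XT.nd (nat_lit 78) (nat_lit 76) (nat_lit 0) (XT.lf (nat_lit 0) (nat_lit 4105592692) (nat_lit 152) (nat_lit 29201945047) (nat_lit 76) (nat_lit 16501158768) (nat_lit 70) (nat_lit 5) (nat_lit 72) (nat_lit 5) (nat_lit 71) (nat_lit 4) (nat_lit 534) (nat_lit 406) (nat_lit 260)) (XT.lf (nat_lit 0) (nat_lit 1211404427) (nat_lit 76) (nat_lit 17883425797) (nat_lit 152) (nat_lit 31728833856) (nat_lit 69) (nat_lit 5) (nat_lit 70) (nat_lit 5) (nat_lit 71) (nat_lit 4) (nat_lit 535) (nat_lit 406) (nat_lit 259))) (XT.nd (nat_lit 78) (nat_lit 76) (nat_lit 0) (XT.lf (nat_lit 0) (nat_lit 33111948096) (nat_lit 76) (nat_lit 1704515250) (nat_lit 152) (nat_lit 17044135832) (nat_lit 69) (nat_lit 5) (nat_lit 70) (nat_lit 5) (nat_lit 71) (nat_lit 4) (nat_lit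 536) (nat_lit 406) (nat_lit 258)) (XT.lf (nat_lit 0) (nat_lit 13129905707) (nat_lit 76) (nat_lit 38137936436) (nat_lit 76) (nat_lit 1653057333) (nat_lit 68) (nat_lit 4) (nat_lit 69) (nat_lit 5) (nat_lit 69) (nat_lit 4) (nat_lit 537) (nat_lit 406) (nat_lit 257)))))) (XT.nd (nat_lit 624) (nat_lit 456) (nat_lit 0) (XT.nd (nat_lit 312) (nat_lit 304) (nat_lit 0) (XT.nd (nat_lit 156) (nat_lit 152) (nat_lit 0) (XT.nd (nat_lit 78) (nat_lit 76) (nat_lit 0) (XT.lf (nat_lit 0) (nat_lit 14118830176) (nat_lit 152) (nat_lit 7836805865) (nat_lit 76) (nat_lit 32047392939) (nat_lit 67) (nat_lit 5) (nat_lit 69) (nat_lit 5) (nat_lit 68) (nat_lit 4) (nat_lit 538) (nat_lit 406) (nat_lit 256)) (XT.lf (nat_lit 0) (nat_lit 25535228571) (nat_lit 76) (nat_lit 5029317560) (nat_lit 152) (nat_lit 24545568377) (nat_lit 66) (nat_lit 5) (nat_lit 67) (nat_lit 5) (nat_lit 68) (nat_lit 4) (nat_lit 539) (nat_lit 406) (nat_lit 255))) (XT.nd (nat_lit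 78) (nat_lit 76) (nat_lit 0) (XT.lf (nat_lit 0) (nat_lit 3751500429) (nat_lit 76) (nat_lit 43975808319) (nat_lit 76) (nat_lit 8516393643) (nat_lit 65) (nat_lit 4) (nat_lit 66) (nat_lit 5) (nat_lit 66) (nat_lit 4) (nat_lit 540) (nat_lit 406) (nat_lit 254)) (XT.lf (nat_lit 0) (nat_lit 8177529936) (nat_lit 152) (nat_lit 18870714306) (nat_lit 76) (nat_lit 30350552753) (nat_lit 64) (nat_lit 5) (nat_lit 66) (nat_lit 5) (nat_lit 65) (nat_lit 4) (nat_lit 541) (nat_lit 406) (nat_lit 253)))) (XT.nd (nat_lit 156) (nat_lit 228) (nat_lit 0) (XT.nd (nat_lit 78) (nat_lit 0) (nat_lit 0) (XT.lf (nat_lit 0) (nat_lit 15964566801) (nat_lit 76) (nat_lit 9378788827) (nat_lit 152) (nat_lit 33238391563) (nat_lit 63) (nat_lit 5) (nat_lit 64) (nat_lit 5) (nat_lit 65) (nat_lit 4) (nat_lit 542) (nat_lit 406) (nat_lit 252)) (XT.lf (nat_lit 0) (nat_lit 43290197852) (nat_lit 152) (nat_lit 7671478622) (nat_lit 0) (nat_lit 8830528205) (nat_lit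 63) (nat_lit 5) (nat_lit 65) (nat_lit 4) (nat_lit 63) (nat_lit 4) (nat_lit 543) (nat_lit 406) (nat_lit 251))) (XT.nd (nat_lit 78) (nat_lit 76) (nat_lit 0) (XT.lf (nat_lit 0) (nat_lit 1084192913) (nat_lit 152) (nat_lit 32269140359) (nat_lit 76) (nat_lit 27674567437) (nat_lit 61) (nat_lit 5) (nat_lit 63) (nat_lit 5) (nat_lit 62) (nat_lit 4) (nat_lit 544) (nat_lit 406) (nat_lit 250)) (XT.lf (nat_lit 0) (nat_lit 4033951302) (nat_lit 76) (nat_lit 14938503477) (nat_lit 152) (nat_lit 43320126785) (nat_lit 60) (nat_lit 5) (nat_lit 61) (nat_lit 5) (nat_lit 62) (nat_lit 4) (nat_lit 545) (nat_lit 406) (nat_lit 249))))) (XT.nd (nat_lit 312) (nat_lit 228) (nat_lit 0) (XT.nd (nat_lit 156) (nat_lit 152) (nat_lit 0) (XT.nd (nat_lit 78) (nat_lit 76) (nat_lit 0) (XT.lf (nat_lit 0) (nat_lit 37754323913) (nat_lit 152) (nat_lit 21561203788) (nat_lit 0) (nat_lit 4268966398) (nat_lit 60) (nat_lit 5) (nat_lit 62) (nat_lit 4) (nat_lit 60)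 (nat_lit 4) (nat_lit 546) (nat_lit 406) (nat_lit 248)) (XT.lf (nat_lit 0) (nat_lit 16388212414) (nat_lit 76) (nat_lit 41006343255) (nat_lit 76) (nat_lit 7511761177) (nat_lit 59) (nat_lit 4) (nat_lit 60) (nat_lit 5) (nat_lit 60) (nat_lit 4) (nat_lit 547) (nat_lit 406) (nat_lit 247))) (XT.nd (nat_lit 78) (nat_lit 76) (nat_lit 0) (XT.lf (nat_lit 0) (nat_lit 11343953737) (nat_lit 152) (nat_lit 10475311877) (nat_lit 76) (nat_lit 44438973192) (nat_lit 58) (nat_lit 5) (nat_lit 60) (nat_lit 5) (nat_lit 59) (nat_lit 4) (nat_lit 548) (nat_lit 406) (nat_lit 246)) (XT.lf (nat_lit 0) (nat_lit 29183649697) (nat_lit 76) (nat_lit 1701021581) (nat_lit 152) (nat_lit 36755706656) (nat_lit 57) (nat_lit 5) (nat_lit 58) (nat_lit 5) (nat_lit 59) (nat_lit 4) (nat_lit 549) (nat_lit 406) (nat_lit 245)))) (XT.nd (nat_lit 156) (nat_lit 76) (nat_lit 0) (XT.nd (nat_lit 78) (nat_lit 76) (nat_lit 0) (XT.lf (nat_lit 0) (nat_lit 1001737750) (nat_lit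 76) (nat_lit 50298957705) (nat_lit 76) (nat_lit 17754613258) (nat_lit 56) (nat_lit 4) (nat_lit 57) (nat_lit 5) (nat_lit 57) (nat_lit 4) (nat_lit 550) (nat_lit 406) (nat_lit 244)) (XT.lf (nat_lit 0) (nat_lit 2179884354) (nat_lit 152) (nat_lit 28127136396) (nat_lit 76) (nat_lit 40193178307) (nat_lit 55) (nat_lit 5) (nat_lit 57) (nat_lit 5) (nat_lit 56) (nat_lit 4) (nat_lit 551) (nat_lit 406) (nat_lit 243))) (XT.nd (nat_lit 51168) (nat_lit 0) (nat_lit 29868) (XT.lf (nat_lit 0) (nat_lit 13056436503) (nat_lit 76) (nat_lit 9414727814) (nat_lit 152) (nat_lit 49508530247) (nat_lit 54) (nat_lit 5) (nat_lit 55) (nat_lit 5) (nat_lit 56) (nat_lit 4) (nat_lit 552) (nat_lit 406) (nat_lit 242)) (XT.lf (nat_lit 0) (nat_lit 3035957259) (nat_lit 532) (nat_lit 144390874) (nat_lit 532) (nat_lit 144390874) (nat_lit 447) (nat_lit 3) (nat_lit 454) (nat_lit 3) (nat_lit 454) (nat_lit 5) (nat_lit 407) (nat_lit 407) (nat_lit 386))))))))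
noncomputable def xc111 : XT := (XT.nd (nat_lit 2418) (nat_lit 8892) (nat_lit 0) (XT.nd (nat_lit 1170) (nat_lit 8208) (nat_lit 0) (XT.nd (nat_lit 546) (nat_lit 2280) (nat_lit 0) (XT.nd (nat_lit 234) (nat_lit 1216) (nat_lit 0) (XT.nd (nat_lit 78) (nat_lit 0) (nat_lit 0) (XT.lf (nat_lit 0) (nat_lit 1731061025) (nat_lit 532) (nat_lit 3611807382) (nat_lit 608) (nat_lit 1337187975) (nat_lit 440) (nat_lit 5) (nat_lit 447) (nat_lit 3) (nat_lit 448) (nat_lit 5) (nat_lit 408) (nat_lit 407) (nat_lit 385)) (XT.nd (nat_lit 78) (nat_lit 0) (nat_lit 0) (XT.lf (nat_lit 0) (nat_lit 4011010628) (nat_lit 532) (nat_lit 233280509) (nat_lit 608) (nat_lit 2469685310) (nat_lit 440) (nat_lit 5) (nat_lit 447) (nat_lit 3) (nat_lit 448) (nat_lit 5) (nat_lit 409) (nat_lit 407) (nat_lit 384)) (XT.lf (nat_lit 76) (nat_lit 3263707320) (nat_lit 0) (nat_lit 3040354052) (nat_lit 608) (nat_lit 446517627) (nat_lit 441) (nat_lit 5) (nat_lit 440) (nat_lit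 5) (nat_lit 448) (nat_lit 5) (nat_lit 410) (nat_lit 407) (nat_lit 383)))) (XT.nd (nat_lit 156) (nat_lit 608) (nat_lit 0) (XT.nd (nat_lit 78) (nat_lit 0) (nat_lit 0) (XT.lf (nat_lit 76) (nat_lit 16598811) (nat_lit 0) (nat_lit 1741492249) (nat_lit 684) (nat_lit 5032139533) (nat_lit 433) (nat_lit 5) (nat_lit 432) (nat_lit 5) (nat_lit 441) (nat_lit 5) (nat_lit 411) (nat_lit 407) (nat_lit 382)) (XT.lf (nat_lit 76) (nat_lit 3644780098) (nat_lit 0) (nat_lit 326851321) (nat_lit 684) (nat_lit 2860760107) (nat_lit 433) (nat_lit 5) (nat_lit 432) (nat_lit 5) (nat_lit 441) (nat_lit 5) (nat_lit 412) (nat_lit 407) (nat_lit 381))) (XT.nd (nat_lit 78) (nat_lit 684) (nat_lit 0) (XT.lf (nat_lit 76) (nat_lit 455255688) (nat_lit 0) (nat_lit 5730929126) (nat_lit 684) (nat_lit 691599568) (nat_lit 434) (nat_lit 5) (nat_lit 433) (nat_lit 5) (nat_lit 442) (nat_lit 5) (nat_lit 413) (nat_lit 407) (nat_lit 380)) (XT.lf (nat_lit 0) (nat_lit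 1468742827) (nat_lit 684) (nat_lit 2719068227) (nat_lit 760) (nat_lit 2737601819) (nat_lit 424) (nat_lit 5) (nat_lit 433) (nat_lit 5) (nat_lit 434) (nat_lit 5) (nat_lit 414) (nat_lit 407) (nat_lit 379))))) (XT.nd (nat_lit 312) (nat_lit 1596) (nat_lit 0) (XT.nd (nat_lit 156) (nat_lit 684) (nat_lit 0) (XT.nd (nat_lit 78) (nat_lit 0) (nat_lit 0) (XT.lf (nat_lit 76) (nat_lit 1060940646) (nat_lit 0) (nat_lit 2552035263) (nat_lit 760) (nat_lit 3363304306) (nat_lit 425) (nat_lit 5) (nat_lit 424) (nat_lit 5) (nat_lit 434) (nat_lit 5) (nat_lit 415) (nat_lit 407) (nat_lit 378)) (XT.lf (nat_lit 76) (nat_lit 4962151972) (nat_lit 0) (nat_lit 811412004) (nat_lit 760) (nat_lit 1256553470) (nat_lit 425) (nat_lit 5) (nat_lit 424) (nat_lit 5) (nat_lit 434) (nat_lit 5) (nat_lit 416) (nat_lit 407) (nat_lit 377))) (XT.nd (nat_lit 78) (nat_lit 0) (nat_lit 0) (XT.lf (nat_lit 0) (nat_lit 849583111) (nat_lit 760) (nat_lit 5222324063) (nat_lit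 836) (nat_lit 1014783444) (nat_lit 415) (nat_lit 5) (nat_lit 425) (nat_lit 5) (nat_lit 426) (nat_lit 5) (nat_lit 417) (nat_lit 407) (nat_lit 376)) (XT.lf (nat_lit 0) (nat_lit 2950744201) (nat_lit 760) (nat_lit 1257911755) (nat_lit 836) (nat_lit 2937223227) (nat_lit 415) (nat_lit 5) (nat_lit 425) (nat_lit 5) (nat_lit 426) (nat_lit 5) (nat_lit 418) (nat_lit 407) (nat_lit 375)))) (XT.nd (nat_lit 156) (nat_lit 1596) (nat_lit 0) (XT.nd (nat_lit 78) (nat_lit 0) (nat_lit 0) (XT.lf (nat_lit 76) (nat_lit 2832198944) (nat_lit 0) (nat_lit 2240036840) (nat_lit 836) (nat_lit 2135892935) (nat_lit 416) (nat_lit 5) (nat_lit 415) (nat_lit 5) (nat_lit 426) (nat_lit 5) (nat_lit 419) (nat_lit 407) (nat_lit 374)) (XT.lf (nat_lit 76) (nat_lit 7022774038) (nat_lit 0) (nat_lit 178946478) (nat_lit 836) (nat_lit 72198833) (nat_lit 416) (nat_lit 5) (nat_lit 415) (nat_lit 5) (nat_lit 426) (nat_lit 5) (nat_lit 420) (nat_lit 407) (nat_lit 373)))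 (XT.nd (nat_lit 78) (nat_lit 836) (nat_lit 0) (XT.lf (nat_lit 0) (nat_lit 2004285736) (nat_lit 836) (nat_lit 3353508506) (nat_lit 76) (nat_lit 1983572658) (nat_lit 405) (nat_lit 5) (nat_lit 416) (nat_lit 5) (nat_lit 406) (nat_lit 5) (nat_lit 421) (nat_lit 407) (nat_lit 372)) (XT.lf (nat_lit 0) (nat_lit 914107954) (nat_lit 836) (nat_lit 3175270570) (nat_lit 912) (nat_lit 3323008680) (nat_lit 394) (nat_lit 5) (nat_lit 405) (nat_lit 5) (nat_lit 406) (nat_lit 5) (nat_lit 422) (nat_lit 407) (nat_lit 371)))))) (XT.nd (nat_lit 624) (nat_lit 3952) (nat_lit 0) (XT.nd (nat_lit 312) (nat_lit 2280) (nat_lit 0) (XT.nd (nat_lit 156) (nat_lit 988) (nat_lit 0) (XT.nd (nat_lit 78) (nat_lit 988) (nat_lit 0) (XT.lf (nat_lit 0) (nat_lit 5329346638) (nat_lit 836) (nat_lit 877617313) (nat_lit 912) (nat_lit 1279479578) (nat_lit 394) (nat_lit 5) (nat_lit 405) (nat_lit 5) (nat_lit 406) (nat_lit 5) (nat_lit 423) (nat_lit 407) (nat_lit 370))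 (XT.lf (nat_lit 0) (nat_lit 783443558) (nat_lit 988) (nat_lit 5276100763) (nat_lit 76) (nat_lit 1503716796) (nat_lit 381) (nat_lit 5) (nat_lit 394) (nat_lit 5) (nat_lit 382) (nat_lit 5) (nat_lit 424) (nat_lit 407) (nat_lit 369))) (XT.nd (nat_lit 78) (nat_lit 988) (nat_lit 0) (XT.lf (nat_lit 0) (nat_lit 2852028332) (nat_lit 988) (nat_lit 804794515) (nat_lit 76) (nat_lit 3986098938) (nat_lit 381) (nat_lit 5) (nat_lit 394) (nat_lit 5) (nat_lit 382) (nat_lit 5) (nat_lit 425) (nat_lit 407) (nat_lit 368)) (XT.lf (nat_lit 0) (nat_lit 3826330603) (nat_lit 988) (nat_lit 1133706335) (nat_lit 1064) (nat_lit 2765617550) (nat_lit 368) (nat_lit 5) (nat_lit 381) (nat_lit 5) (nat_lit 382) (nat_lit 5) (nat_lit 426) (nat_lit 407) (nat_lit 367)))) (XT.nd (nat_lit 156) (nat_lit 1140) (nat_lit 0) (XT.nd (nat_lit 78) (nat_lit 76) (nat_lit 0) (XT.lf (nat_lit 0) (nat_lit 752434478) (nat_lit 1064) (nat_lit 6350317203) (nat_lit 1140) (nat_lit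 708976629) (nat_lit 354) (nat_lit 5) (nat_lit 368) (nat_lit 5) (nat_lit 369) (nat_lit 5) (nat_lit 427) (nat_lit 407) (nat_lit 366)) (XT.lf (nat_lit 0) (nat_lit 1375440189) (nat_lit 1140) (nat_lit 2351685357) (nat_lit 76) (nat_lit 4173047952) (nat_lit 353) (nat_lit 5) (nat_lit 368) (nat_lit 5) (nat_lit 354) (nat_lit 5) (nat_lit 428) (nat_lit 407) (nat_lit 365))) (XT.nd (nat_lit 78) (nat_lit 0) (nat_lit 0) (XT.lf (nat_lit 0) (nat_lit 2489192436) (nat_lit 1140) (nat_lit 987135406) (nat_lit 1216) (nat_lit 4515690817) (nat_lit 338) (nat_lit 5) (nat_lit 353) (nat_lit 5) (nat_lit 354) (nat_lit 5) (nat_lit 429) (nat_lit 407) (nat_lit 364)) (XT.lf (nat_lit 0) (nat_lit 5627330400) (nat_lit 1216) (nat_lit 630998630) (nat_lit 76) (nat_lit 1828680264) (nat_lit 338) (nat_lit 5) (nat_lit 354) (nat_lit 5) (nat_lit 339) (nat_lit 5) (nat_lit 430) (nat_lit 407) (nat_lit 363))))) (XT.nd (nat_lit 312) (nat_lit 1216) (nat_lit 0) (XT.nd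 (nat_lit 156) (nat_lit 608) (nat_lit 0) (XT.nd (nat_lit 78) (nat_lit 912) (nat_lit 0) (XT.lf (nat_lit 0) (nat_lit 4414101607) (nat_lit 1216) (nat_lit 3428020529) (nat_lit 1292) (nat_lit 342752424) (nat_lit 322) (nat_lit 5) (nat_lit 338) (nat_lit 5) (nat_lit 339) (nat_lit 5) (nat_lit 431) (nat_lit 407) (nat_lit 362)) (XT.lf (nat_lit 0) (nat_lit 1295755965) (nat_lit 836) (nat_lit 472568302) (nat_lit 912) (nat_lit 6517829033) (nat_lit 310) (nat_lit 5) (nat_lit 321) (nat_lit 5) (nat_lit 322) (nat_lit 5) (nat_lit 432) (nat_lit 407) (nat_lit 361))) (XT.nd (nat_lit 78) (nat_lit 608) (nat_lit 0) (XT.lf (nat_lit 0) (nat_lit 3947700871) (nat_lit 912) (nat_lit 1877119693) (nat_lit 76) (nat_lit 2565194788) (nat_lit 310) (nat_lit 5) (nat_lit 322) (nat_lit 5) (nat_lit 311) (nat_lit 5) (nat_lit 433) (nat_lit 407) (nat_lit 360)) (XT.lf (nat_lit 0) (nat_lit 3401862267) (nat_lit 608) (nat_lit 2778153746) (nat_lit 684) (nat_lit 2317352924)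 (nat_lit 302) (nat_lit 5) (nat_lit 310) (nat_lit 5) (nat_lit 311) (nat_lit 5) (nat_lit 434) (nat_lit 407) (nat_lit 359)))) (XT.nd (nat_lit 156) (nat_lit 532) (nat_lit 0) (XT.nd (nat_lit 78) (nat_lit 76) (nat_lit 0) (XT.lf (nat_lit 0) (nat_lit 220595276) (nat_lit 608) (nat_lit 8234586264) (nat_lit 684) (nat_lit 153487476) (nat_lit 294) (nat_lit 5) (nat_lit 302) (nat_lit 5) (nat_lit 303) (nat_lit 5) (nat_lit 435) (nat_lit 407) (nat_lit 358)) (XT.lf (nat_lit 0) (nat_lit 2065892448) (nat_lit 684) (nat_lit 3019947513) (nat_lit 76) (nat_lit 3635939001) (nat_lit 293) (nat_lit 5) (nat_lit 302) (nat_lit 5) (nat_lit 294) (nat_lit 5) (nat_lit 436) (nat_lit 407) (nat_lit 357))) (XT.nd (nat_lit 78) (nat_lit 0) (nat_lit 0) (XT.lf (nat_lit 0) (nat_lit 2507258260) (nat_lit 532) (nat_lit 1818645283) (nat_lit 608) (nat_lit 4513021151) (nat_lit 286) (nat_lit 5) (nat_lit 293) (nat_lit 5) (nat_lit 294) (nat_lit 5) (nat_lit 437) (nat_lit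 407) (nat_lit 356)) (XT.lf (nat_lit 0) (nat_lit 6653283357) (nat_lit 608) (nat_lit 761895437) (nat_lit 76) (nat_lit 1544421010) (nat_lit 286) (nat_lit 5) (nat_lit 294) (nat_lit 5) (nat_lit 287) (nat_lit 5) (nat_lit 438) (nat_lit 407) (nat_lit 355))))))) (XT.nd (nat_lit 1248) (nat_lit 3496) (nat_lit 0) (XT.nd (nat_lit 624) (nat_lit 2204) (nat_lit 0) (XT.nd (nat_lit 312) (nat_lit 1444) (nat_lit 0) (XT.nd (nat_lit 156) (nat_lit 532) (nat_lit 0) (XT.nd (nat_lit 78) (nat_lit 608) (nat_lit 0) (XT.lf (nat_lit 0) (nat_lit 5005864941) (nat_lit 608) (nat_lit 4065992409) (nat_lit 684) (nat_lit 11398630) (nat_lit 278) (nat_lit 5) (nat_lit 286) (nat_lit 5) (nat_lit 287) (nat_lit 5) (nat_lit 439) (nat_lit 407) (nat_lit 354)) (XT.lf (nat_lit 0) (nat_lit 1713446020) (nat_lit 532) (nat_lit 572907518) (nat_lit 608) (nat_lit 6924195117) (nat_lit 270) (nat_lit 5) (nat_lit 277) (nat_lit 5) (nat_lit 278) (nat_lit 5) (nat_lit 440) (nat_lit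 407) (nat_lit 353))) (XT.nd (nat_lit 78) (nat_lit 532) (nat_lit 0) (XT.lf (nat_lit 0) (nat_lit 4679891626) (nat_lit 608) (nat_lit 1658394353) (nat_lit 76) (nat_lit 3002560100) (nat_lit 270) (nat_lit 5) (nat_lit 278) (nat_lit 5) (nat_lit 271) (nat_lit 5) (nat_lit 441) (nat_lit 407) (nat_lit 352)) (XT.lf (nat_lit 0) (nat_lit 4386900468) (nat_lit 532) (nat_lit 2763869813) (nat_lit 608) (nat_lit 2324117887) (nat_lit 263) (nat_lit 5) (nat_lit 270) (nat_lit 5) (nat_lit 271) (nat_lit 5) (nat_lit 442) (nat_lit 407) (nat_lit 351)))) (XT.nd (nat_lit 156) (nat_lit 912) (nat_lit 0) (XT.nd (nat_lit 78) (nat_lit 0) (nat_lit 0) (XT.lf (nat_lit 0) (nat_lit 74856277) (nat_lit 532) (nat_lit 8617537634) (nat_lit 76) (nat_lit 920725937) (nat_lit 256) (nat_lit 5) (nat_lit 263) (nat_lit 5) (nat_lit 257) (nat_lit 5) (nat_lit 443) (nat_lit 407) (nat_lit 350)) (XT.lf (nat_lit 0) (nat_lit 2537077293) (nat_lit 532) (nat_lit 2488440694) (nat_lit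 76) (nat_lit 4728152082) (nat_lit 256) (nat_lit 5) (nat_lit 263) (nat_lit 5) (nat_lit 257) (nat_lit 5) (nat_lit 444) (nat_lit 407) (nat_lit 349))) (XT.nd (nat_lit 78) (nat_lit 456) (nat_lit 0) (XT.lf (nat_lit 0) (nat_lit 3851573883) (nat_lit 456) (nat_lit 1218554201) (nat_lit 532) (nat_lit 4828401393) (nat_lit 250) (nat_lit 5) (nat_lit 256) (nat_lit 5) (nat_lit 257) (nat_lit 5) (nat_lit 445) (nat_lit 407) (nat_lit 348)) (XT.lf (nat_lit 0) (nat_lit 317033070) (nat_lit 456) (nat_lit 7377109860) (nat_lit 532) (nat_lit 2353144093) (nat_lit 244) (nat_lit 5) (nat_lit 250) (nat_lit 5) (nat_lit 251) (nat_lit 5) (nat_lit 446) (nat_lit 407) (nat_lit 347))))) (XT.nd (nat_lit 312) (nat_lit 1292) (nat_lit 0) (XT.nd (nat_lit 156) (nat_lit 380) (nat_lit 0) (XT.nd (nat_lit 78) (nat_lit 456) (nat_lit 0) (XT.lf (nat_lit 0) (nat_lit 227138945) (nat_lit 532) (nat_lit 3266380883) (nat_lit 76) (nat_lit 6705894286) (nat_lit 243) (nat_lit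 5) (nat_lit 250) (nat_lit 5) (nat_lit 244) (nat_lit 5) (nat_lit 447) (nat_lit 407) (nat_lit 346)) (XT.lf (nat_lit 0) (nat_lit 2837426277) (nat_lit 532) (nat_lit 6974324259) (nat_lit 76) (nat_lit 543660177) (nat_lit 237) (nat_lit 5) (nat_lit 244) (nat_lit 5) (nat_lit 238) (nat_lit 5) (nat_lit 448) (nat_lit 407) (nat_lit 345))) (XT.nd (nat_lit 78) (nat_lit 380) (nat_lit 0) (XT.lf (nat_lit 0) (nat_lit 5556488978) (nat_lit 532) (nat_lit 303256384) (nat_lit 76) (nat_lit 4655429206) (nat_lit 237) (nat_lit 5) (nat_lit 244) (nat_lit 5) (nat_lit 238) (nat_lit 5) (nat_lit 449) (nat_lit 407) (nat_lit 344)) (XT.lf (nat_lit 0) (nat_lit 6650952583) (nat_lit 380) (nat_lit 1733761115) (nat_lit 456) (nat_lit 2294191259) (nat_lit 232) (nat_lit 5) (nat_lit 237) (nat_lit 5) (nat_lit 238) (nat_lit 5) (nat_lit 450) (nat_lit 407) (nat_lit 343)))) (XT.nd (nat_lit 156) (nat_lit 760) (nat_lit 0) (XT.nd (nat_lit 78) (nat_lit 0) (nat_lit 0)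 (XT.lf (nat_lit 0) (nat_lit 461536043) (nat_lit 532) (nat_lit 7892694857) (nat_lit 76) (nat_lit 2492585244) (nat_lit 225) (nat_lit 5) (nat_lit 232) (nat_lit 5) (nat_lit 226) (nat_lit 5) (nat_lit 451) (nat_lit 407) (nat_lit 342)) (XT.lf (nat_lit 0) (nat_lit 3276479356) (nat_lit 532) (nat_lit 878135315) (nat_lit 76) (nat_lit 6863790108) (nat_lit 225) (nat_lit 5) (nat_lit 232) (nat_lit 5) (nat_lit 226) (nat_lit 5) (nat_lit 452) (nat_lit 407) (nat_lit 341))) (XT.nd (nat_lit 78) (nat_lit 380) (nat_lit 0) (XT.lf (nat_lit 0) (nat_lit 6205235044) (nat_lit 456) (nat_lit 4770361088) (nat_lit 76) (nat_lit 218665192) (nat_lit 220) (nat_lit 5) (nat_lit 226) (nat_lit 5) (nat_lit 221) (nat_lit 5) (nat_lit 453) (nat_lit 407) (nat_lit 340)) (XT.lf (nat_lit 0) (nat_lit 2549798542) (nat_lit 380) (nat_lit 6712558237) (nat_lit 456) (nat_lit 2111822825) (nat_lit 215) (nat_lit 5) (nat_lit 220) (nat_lit 5) (nat_lit 221) (nat_lit 5) (nat_lit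 454) (nat_lit 407) (nat_lit 339)))))) (XT.nd (nat_lit 624) (nat_lit 1672) (nat_lit 0) (XT.nd (nat_lit 312) (nat_lit 988) (nat_lit 0) (XT.nd (nat_lit 156) (nat_lit 380) (nat_lit 0) (XT.nd (nat_lit 78) (nat_lit 380) (nat_lit 0) (XT.lf (nat_lit 0) (nat_lit 849844688) (nat_lit 456) (nat_lit 1426186876) (nat_lit 76) (nat_lit 9282776302) (nat_lit 214) (nat_lit 5) (nat_lit 220) (nat_lit 5) (nat_lit 215) (nat_lit 5) (nat_lit 455) (nat_lit 407) (nat_lit 338)) (XT.lf (nat_lit 0) (nat_lit 3907825665) (nat_lit 456) (nat_lit 5520726322) (nat_lit 76) (nat_lit 2318299488) (nat_lit 209) (nat_lit 5) (nat_lit 215) (nat_lit 5) (nat_lit 210) (nat_lit 5) (nat_lit 456) (nat_lit 407) (nat_lit 337))) (XT.nd (nat_lit 78) (nat_lit 0) (nat_lit 0) (XT.lf (nat_lit 0) (nat_lit 2170958967) (nat_lit 380) (nat_lit 4912044955) (nat_lit 456) (nat_lit 4856769748) (nat_lit 204) (nat_lit 5) (nat_lit 209) (nat_lit 5) (nat_lit 210) (nat_lit 5) (nat_lit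 457) (nat_lit 407) (nat_lit 336)) (XT.lf (nat_lit 0) (nat_lit 10161149604) (nat_lit 380) (nat_lit 216056208) (nat_lit 456) (nat_lit 1760565651) (nat_lit 204) (nat_lit 5) (nat_lit 209) (nat_lit 5) (nat_lit 210) (nat_lit 5) (nat_lit 458) (nat_lit 407) (nat_lit 335)))) (XT.nd (nat_lit 156) (nat_lit 304) (nat_lit 0) (XT.nd (nat_lit 78) (nat_lit 304) (nat_lit 0) (XT.lf (nat_lit 0) (nat_lit 1473033128) (nat_lit 380) (nat_lit 6275365579) (nat_lit 76) (nat_lit 4590727929) (nat_lit 199) (nat_lit 5) (nat_lit 204) (nat_lit 5) (nat_lit 200) (nat_lit 5) (nat_lit 459) (nat_lit 407) (nat_lit 334)) (XT.lf (nat_lit 0) (nat_lit 1810433949) (nat_lit 304) (nat_lit 2966521767) (nat_lit 380) (nat_lit 7768783662) (nat_lit 195) (nat_lit 5) (nat_lit 199) (nat_lit 5) (nat_lit 200) (nat_lit 5) (nat_lit 460) (nat_lit 407) (nat_lit 333))) (XT.nd (nat_lit 78) (nat_lit 304) (nat_lit 0) (XT.lf (nat_lit 0) (nat_lit 8232161425) (nat_lit 380) (nat_lit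 2554075495) (nat_lit 76) (nat_lit 1970749492) (nat_lit 195) (nat_lit 5) (nat_lit 200) (nat_lit 5) (nat_lit 196) (nat_lit 5) (nat_lit 461) (nat_lit 407) (nat_lit 332)) (XT.lf (nat_lit 0) (nat_lit 5914540961) (nat_lit 304) (nat_lit 5932940892) (nat_lit 380) (nat_lit 1125396097) (nat_lit 191) (nat_lit 5) (nat_lit 195) (nat_lit 5) (nat_lit 196) (nat_lit 5) (nat_lit 462) (nat_lit 407) (nat_lit 331))))) (XT.nd (nat_lit 312) (nat_lit 684) (nat_lit 0) (XT.nd (nat_lit 156) (nat_lit 608) (nat_lit 0) (XT.nd (nat_lit 78) (nat_lit 0) (nat_lit 0) (XT.lf (nat_lit 0) (nat_lit 1456168779) (nat_lit 304) (nat_lit 883915425) (nat_lit 380) (nat_lit 10854164642) (nat_lit 186) (nat_lit 5) (nat_lit 190) (nat_lit 5) (nat_lit 191) (nat_lit 5) (nat_lit 463) (nat_lit 407) (nat_lit 330)) (XT.lf (nat_lit 0) (nat_lit 5971073774) (nat_lit 380) (nat_lit 3147217685) (nat_lit 76) (nat_lit 4301110982) (nat_lit 186) (nat_lit 5) (nat_lit 191) (nat_lit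 5) (nat_lit 187) (nat_lit 5) (nat_lit 464) (nat_lit 407) (nat_lit 329))) (XT.nd (nat_lit 78) (nat_lit 304) (nat_lit 0) (XT.lf (nat_lit 0) (nat_lit 5761798053) (nat_lit 304) (nat_lit 3984875778) (nat_lit 380) (nat_lit 3903567143) (nat_lit 182) (nat_lit 5) (nat_lit 186) (nat_lit 5) (nat_lit 187) (nat_lit 5) (nat_lit 465) (nat_lit 407) (nat_lit 328)) (XT.lf (nat_lit 0) (nat_lit 1080262218) (nat_lit 304) (nat_lit 12582098221) (nat_lit 380) (nat_lit 224840399) (nat_lit 178) (nat_lit 5) (nat_lit 182) (nat_lit 5) (nat_lit 183) (nat_lit 5) (nat_lit 466) (nat_lit 407) (nat_lit 327)))) (XT.nd (nat_lit 156) (nat_lit 380) (nat_lit 0) (XT.nd (nat_lit 78) (nat_lit 228) (nat_lit 0) (XT.lf (nat_lit 0) (nat_lit 3586546521) (nat_lit 380) (nat_lit 3767312732) (nat_lit 76) (nat_lit 6773627591) (nat_lit 177) (nat_lit 5) (nat_lit 182) (nat_lit 5) (nat_lit 178) (nat_lit 5) (nat_lit 467) (nat_lit 407) (nat_lit 326)) (XT.lf (nat_lit 0)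 (nat_lit 5608323917) (nat_lit 228) (nat_lit 1926108704) (nat_lit 304) (nat_lit 6839682396) (nat_lit 174) (nat_lit 5) (nat_lit 177) (nat_lit 5) (nat_lit 178) (nat_lit 5) (nat_lit 468) (nat_lit 407) (nat_lit 325))) (XT.nd (nat_lit 78) (nat_lit 76) (nat_lit 0) (XT.lf (nat_lit 0) (nat_lit 649899767) (nat_lit 304) (nat_lit 11003757361) (nat_lit 380) (nat_lit 2972898501) (nat_lit 170) (nat_lit 5) (nat_lit 174) (nat_lit 5) (nat_lit 175) (nat_lit 5) (nat_lit 469) (nat_lit 407) (nat_lit 324)) (XT.lf (nat_lit 0) (nat_lit 1071772936) (nat_lit 380) (nat_lit 4428569784) (nat_lit 76) (nat_lit 9383488404) (nat_lit 169) (nat_lit 5) (nat_lit 174) (nat_lit 5) (nat_lit 170) (nat_lit 5) (nat_lit 470) (nat_lit 407) (nat_lit 323))))))))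
noncomputable def xc112 : XT := (XT.nd (nat_lit 2418) (nat_lit 2964) (nat_lit 0) (XT.nd (nat_lit 1170) (nat_lit 1900) (nat_lit 0) (XT.nd (nat_lit 546) (nat_lit 1140) (nat_lit 0) (XT.nd (nat_lit 234) (nat_lit 836) (nat_lit 0) (XT.nd (nat_lit 78) (nat_lit 228) (nat_lit 0) (XT.lf (nat_lit 0) (nat_lit 5206523202) (nat_lit 304) (nat_lit 9708239843) (nat_lit 76) (nat_lit 232324665) (nat_lit 166) (nat_lit 5) (nat_lit 170) (nat_lit 5) (nat_lit 167) (nat_lit 5) (nat_lit 471) (nat_lit 407) (nat_lit 322)) (XT.nd (nat_lit 78) (nat_lit 0) (nat_lit 0) (XT.lf (nat_lit 0) (nat_lit 183115357) (nat_lit 228) (nat_lit 9357708590) (nat_lit 304) (nat_lit 5875153383) (nat_lit 163) (nat_lit 5) (nat_lit 166) (nat_lit 5) (nat_lit 167) (nat_lit 5) (nat_lit 472) (nat_lit 407) (nat_lit 321)) (XT.lf (nat_lit 0) (nat_lit 10528904421) (nat_lit 228) (nat_lit 3548766202) (nat_lit 304) (nat_lit 1613088071) (nat_lit 163) (nat_lit 5) (nat_lit 166)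 (nat_lit 5) (nat_lit 167) (nat_lit 5) (nat_lit 473) (nat_lit 407) (nat_lit 320)))) (XT.nd (nat_lit 156) (nat_lit 532) (nat_lit 0) (XT.nd (nat_lit 78) (nat_lit 0) (nat_lit 0) (XT.lf (nat_lit 0) (nat_lit 2772079457) (nat_lit 304) (nat_lit 10749881024) (nat_lit 76) (nat_lit 2449539973) (nat_lit 159) (nat_lit 5) (nat_lit 163) (nat_lit 5) (nat_lit 160) (nat_lit 5) (nat_lit 474) (nat_lit 407) (nat_lit 319)) (XT.lf (nat_lit 0) (nat_lit 7319330497) (nat_lit 304) (nat_lit 329118622) (nat_lit 76) (nat_lit 8609848227) (nat_lit 159) (nat_lit 5) (nat_lit 163) (nat_lit 5) (nat_lit 160) (nat_lit 5) (nat_lit 475) (nat_lit 407) (nat_lit 318))) (XT.nd (nat_lit 78) (nat_lit 304) (nat_lit 0) (XT.lf (nat_lit 0) (nat_lit 10570927364) (nat_lit 228) (nat_lit 1509582007) (nat_lit 304) (nat_lit 4470863963) (nat_lit 156) (nat_lit 5) (nat_lit 159) (nat_lit 5) (nat_lit 160) (nat_lit 5) (nat_lit 476) (nat_lit 407) (nat_lit 317)) (XT.lf (nat_lit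 0) (nat_lit 202846049) (nat_lit 304) (nat_lit 11890712531) (nat_lit 76) (nat_lit 4757421857) (nat_lit 152) (nat_lit 5) (nat_lit 156) (nat_lit 5) (nat_lit 153) (nat_lit 5) (nat_lit 477) (nat_lit 407) (nat_lit 316))))) (XT.nd (nat_lit 312) (nat_lit 684) (nat_lit 0) (XT.nd (nat_lit 156) (nat_lit 228) (nat_lit 0) (XT.nd (nat_lit 78) (nat_lit 228) (nat_lit 0) (XT.lf (nat_lit 0) (nat_lit 4978998975) (nat_lit 304) (nat_lit 905655785) (nat_lit 76) (nat_lit 11272030723) (nat_lit 152) (nat_lit 5) (nat_lit 156) (nat_lit 5) (nat_lit 153) (nat_lit 5) (nat_lit 478) (nat_lit 407) (nat_lit 315)) (XT.lf (nat_lit 0) (nat_lit 9982720806) (nat_lit 304) (nat_lit 6898346675) (nat_lit 76) (nat_lit 587966112) (nat_lit 149) (nat_lit 5) (nat_lit 153) (nat_lit 5) (nat_lit 150) (nat_lit 5) (nat_lit 479) (nat_lit 407) (nat_lit 314))) (XT.nd (nat_lit 78) (nat_lit 76) (nat_lit 0) (XT.lf (nat_lit 0) (nat_lit 4612179248) (nat_lit 152) (nat_lit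 10613217688) (nat_lit 228) (nat_lit 2562690361) (nat_lit 147) (nat_lit 5) (nat_lit 149) (nat_lit 5) (nat_lit 150) (nat_lit 5) (nat_lit 480) (nat_lit 407) (nat_lit 313)) (XT.lf (nat_lit 0) (nat_lit 2507119925) (nat_lit 228) (nat_lit 1568945908) (nat_lit 76) (nat_lit 14038500792) (nat_lit 146) (nat_lit 5) (nat_lit 149) (nat_lit 5) (nat_lit 147) (nat_lit 5) (nat_lit 481) (nat_lit 407) (nat_lit 312)))) (XT.nd (nat_lit 156) (nat_lit 304) (nat_lit 0) (XT.nd (nat_lit 78) (nat_lit 152) (nat_lit 0) (XT.lf (nat_lit 0) (nat_lit 7783119346) (nat_lit 304) (nat_lit 7945871179) (nat_lit 76) (nat_lit 2717920936) (nat_lit 143) (nat_lit 5) (nat_lit 147) (nat_lit 5) (nat_lit 144) (nat_lit 5) (nat_lit 482) (nat_lit 407) (nat_lit 311)) (XT.lf (nat_lit 0) (nat_lit 4179627868) (nat_lit 152) (nat_lit 9112194391) (nat_lit 228) (nat_lit 5495172058) (nat_lit 141) (nat_lit 5) (nat_lit 143) (nat_lit 5) (nat_lit 144) (nat_lit 5) (nat_lit 483)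 (nat_lit 407) (nat_lit 310))) (XT.nd (nat_lit 78) (nat_lit 304) (nat_lit 0) (XT.lf (nat_lit 0) (nat_lit 16794192215) (nat_lit 152) (nat_lit 2230003646) (nat_lit 228) (nat_lit 111331880) (nat_lit 141) (nat_lit 5) (nat_lit 143) (nat_lit 5) (nat_lit 144) (nat_lit 5) (nat_lit 484) (nat_lit 407) (nat_lit 309)) (XT.lf (nat_lit 0) (nat_lit 5454681046) (nat_lit 304) (nat_lit 9132056912) (nat_lit 76) (nat_lit 4902411657) (nat_lit 137) (nat_lit 5) (nat_lit 141) (nat_lit 5) (nat_lit 138) (nat_lit 5) (nat_lit 485) (nat_lit 407) (nat_lit 308)))))) (XT.nd (nat_lit 624) (nat_lit 912) (nat_lit 0) (XT.nd (nat_lit 312) (nat_lit 380) (nat_lit 0) (XT.nd (nat_lit 156) (nat_lit 456) (nat_lit 0) (XT.nd (nat_lit 78) (nat_lit 0) (nat_lit 0) (XT.lf (nat_lit 0) (nat_lit 3642421104) (nat_lit 152) (nat_lit 7602706255) (nat_lit 228) (nat_lit 8606429337) (nat_lit 135) (nat_lit 5) (nat_lit 137) (nat_lit 5) (nat_lit 138) (nat_lit 5) (nat_lit 486)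 (nat_lit 407) (nat_lit 307)) (XT.lf (nat_lit 0) (nat_lit 16950656767) (nat_lit 152) (nat_lit 329834640) (nat_lit 228) (nat_lit 2942208781) (nat_lit 135) (nat_lit 5) (nat_lit 137) (nat_lit 5) (nat_lit 138) (nat_lit 5) (nat_lit 487) (nat_lit 407) (nat_lit 306))) (XT.nd (nat_lit 78) (nat_lit 152) (nat_lit 0) (XT.lf (nat_lit 0) (nat_lit 2982773955) (nat_lit 304) (nat_lit 10483606145) (nat_lit 76) (nat_lit 7133346193) (nat_lit 131) (nat_lit 5) (nat_lit 135) (nat_lit 5) (nat_lit 132) (nat_lit 5) (nat_lit 488) (nat_lit 407) (nat_lit 305)) (XT.lf (nat_lit 0) (nat_lit 2975135047) (nat_lit 152) (nat_lit 6095976658) (nat_lit 228) (nat_lit 11914735622) (nat_lit 129) (nat_lit 5) (nat_lit 131) (nat_lit 5) (nat_lit 132) (nat_lit 5) (nat_lit 489) (nat_lit 407) (nat_lit 304)))) (XT.nd (nat_lit 156) (nat_lit 152) (nat_lit 0) (XT.nd (nat_lit 78) (nat_lit 228) (nat_lit 0) (XT.lf (nat_lit 0) (nat_lit 15442999444) (nat_lit 228) (nat_lit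 4379489397) (nat_lit 76) (nat_lit 1558036448) (nat_lit 129) (nat_lit 5) (nat_lit 132) (nat_lit 5) (nat_lit 130) (nat_lit 5) (nat_lit 490) (nat_lit 407) (nat_lit 303)) (XT.lf (nat_lit 0) (nat_lit 350394232) (nat_lit 228) (nat_lit 12030945987) (nat_lit 76) (nat_lit 9401570468) (nat_lit 126) (nat_lit 5) (nat_lit 129) (nat_lit 5) (nat_lit 127) (nat_lit 5) (nat_lit 491) (nat_lit 407) (nat_lit 302))) (XT.nd (nat_lit 78) (nat_lit 0) (nat_lit 0) (XT.lf (nat_lit 0) (nat_lit 2148573529) (nat_lit 152) (nat_lit 4604609000) (nat_lit 228) (nat_lit 15441054693) (nat_lit 124) (nat_lit 5) (nat_lit 126) (nat_lit 5) (nat_lit 127) (nat_lit 5) (nat_lit 492) (nat_lit 407) (nat_lit 301)) (XT.lf (nat_lit 0) (nat_lit 13483826900) (nat_lit 228) (nat_lit 5683412263) (nat_lit 76) (nat_lit 3446591477) (nat_lit 124) (nat_lit 5) (nat_lit 127) (nat_lit 5) (nat_lit 125) (nat_lit 5) (nat_lit 493) (nat_lit 407) (nat_lit 300))))) (XT.nd (nat_lit 312)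 (nat_lit 380) (nat_lit 0) (XT.nd (nat_lit 156) (nat_lit 152) (nat_lit 0) (XT.nd (nat_lit 78) (nat_lit 228) (nat_lit 0) (XT.lf (nat_lit 0) (nat_lit 9209539729) (nat_lit 152) (nat_lit 11321886827) (nat_lit 228) (nat_lit 2511134479) (nat_lit 122) (nat_lit 5) (nat_lit 124) (nat_lit 5) (nat_lit 125) (nat_lit 5) (nat_lit 494) (nat_lit 407) (nat_lit 299)) (XT.lf (nat_lit 0) (nat_lit 1129091586) (nat_lit 152) (nat_lit 3142951459) (nat_lit 228) (nat_lit 19209375481) (nat_lit 119) (nat_lit 5) (nat_lit 121) (nat_lit 5) (nat_lit 122) (nat_lit 5) (nat_lit 495) (nat_lit 407) (nat_lit 298))) (XT.nd (nat_lit 78) (nat_lit 152) (nat_lit 0) (XT.lf (nat_lit 0) (nat_lit 11381123972) (nat_lit 228) (nat_lit 7217046388) (nat_lit 76) (nat_lit 5329339350) (nat_lit 119) (nat_lit 5) (nat_lit 122) (nat_lit 5) (nat_lit 120) (nat_lit 5) (nat_lit 496) (nat_lit 407) (nat_lit 297)) (XT.lf (nat_lit 0) (nat_lit 8473104214) (nat_lit 152) (nat_lit 10324534649)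 (nat_lit 228) (nat_lit 5586520145) (nat_lit 117) (nat_lit 5) (nat_lit 119) (nat_lit 5) (nat_lit 120) (nat_lit 5) (nat_lit 497) (nat_lit 407) (nat_lit 296)))) (XT.nd (nat_lit 156) (nat_lit 152) (nat_lit 0) (XT.nd (nat_lit 78) (nat_lit 152) (nat_lit 0) (XT.lf (nat_lit 0) (nat_lit 1606500043) (nat_lit 228) (nat_lit 119798833) (nat_lit 76) (nat_lit 23126095907) (nat_lit 116) (nat_lit 5) (nat_lit 119) (nat_lit 5) (nat_lit 117) (nat_lit 5) (nat_lit 498) (nat_lit 407) (nat_lit 295)) (XT.lf (nat_lit 0) (nat_lit 9113122556) (nat_lit 228) (nat_lit 9022351212) (nat_lit 76) (nat_lit 7191241850) (nat_lit 114) (nat_lit 5) (nat_lit 117) (nat_lit 5) (nat_lit 115) (nat_lit 5) (nat_lit 499) (nat_lit 407) (nat_lit 294))) (XT.nd (nat_lit 78) (nat_lit 0) (nat_lit 0) (XT.lf (nat_lit 0) (nat_lit 7505284033) (nat_lit 152) (nat_lit 9412356757) (nat_lit 228) (nat_lit 8895444574) (nat_lit 112) (nat_lit 5) (nat_lit 114) (nat_lit 5) (nat_lit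 115) (nat_lit 5) (nat_lit 500) (nat_lit 407) (nat_lit 293)) (XT.lf (nat_lit 0) (nat_lit 24681471203) (nat_lit 152) (nat_lit 348376873) (nat_lit 228) (nat_lit 1281991715) (nat_lit 112) (nat_lit 5) (nat_lit 114) (nat_lit 5) (nat_lit 115) (nat_lit 5) (nat_lit 501) (nat_lit 407) (nat_lit 292))))))) (XT.nd (nat_lit 1170) (nat_lit 1368) (nat_lit 0) (XT.nd (nat_lit 546) (nat_lit 760) (nat_lit 0) (XT.nd (nat_lit 234) (nat_lit 456) (nat_lit 0) (XT.nd (nat_lit 78) (nat_lit 152) (nat_lit 0) (XT.lf (nat_lit 0) (nat_lit 6654522273) (nat_lit 228) (nat_lit 11147777909) (nat_lit 76) (nat_lit 9014685205) (nat_lit 109) (nat_lit 5) (nat_lit 112) (nat_lit 5) (nat_lit 110) (nat_lit 5) (nat_lit 502) (nat_lit 407) (nat_lit 291)) (XT.nd (nat_lit 78) (nat_lit 0) (nat_lit 0) (XT.lf (nat_lit 0) (nat_lit 6258528017) (nat_lit 152) (nat_lit 8607924036) (nat_lit 228) (nat_lit 12468560071) (nat_lit 107) (nat_lit 5) (nat_lit 109) (nat_lit 5) (nat_lit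 110) (nat_lit 5) (nat_lit 503) (nat_lit 407) (nat_lit 290)) (XT.lf (nat_lit 0) (nat_lit 23429623419) (nat_lit 228) (nat_lit 3490817019) (nat_lit 76) (nat_lit 944992886) (nat_lit 107) (nat_lit 5) (nat_lit 110) (nat_lit 5) (nat_lit 108) (nat_lit 4) (nat_lit 504) (nat_lit 407) (nat_lit 289)))) (XT.nd (nat_lit 156) (nat_lit 152) (nat_lit 0) (XT.nd (nat_lit 78) (nat_lit 152) (nat_lit 0) (XT.lf (nat_lit 0) (nat_lit 3975972215) (nat_lit 152) (nat_lit 13649351537) (nat_lit 76) (nat_lit 10778948562) (nat_lit 105) (nat_lit 5) (nat_lit 107) (nat_lit 5) (nat_lit 106) (nat_lit 5) (nat_lit 505) (nat_lit 407) (nat_lit 288)) (XT.lf (nat_lit 0) (nat_lit 4677521923) (nat_lit 152) (nat_lit 7937427811) (nat_lit 228) (nat_lit 16341089409) (nat_lit 103) (nat_lit 5) (nat_lit 105) (nat_lit 5) (nat_lit 106) (nat_lit 5) (nat_lit 506) (nat_lit 407) (nat_lit 287))) (XT.nd (nat_lit 78) (nat_lit 152) (nat_lit 0) (XT.lf (nat_lit 0) (nat_lit 21655400504)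 (nat_lit 228) (nat_lit 5738117330) (nat_lit 76) (nat_lit 2126572179) (nat_lit 103) (nat_lit 5) (nat_lit 106) (nat_lit 5) (nat_lit 104) (nat_lit 4) (nat_lit 507) (nat_lit 407) (nat_lit 286)) (XT.lf (nat_lit 0) (nat_lit 1043466464) (nat_lit 152) (nat_lit 16591921735) (nat_lit 76) (nat_lit 12459593730) (nat_lit 101) (nat_lit 5) (nat_lit 103) (nat_lit 5) (nat_lit 102) (nat_lit 5) (nat_lit 508) (nat_lit 407) (nat_lit 285))))) (XT.nd (nat_lit 312) (nat_lit 304) (nat_lit 0) (XT.nd (nat_lit 156) (nat_lit 304) (nat_lit 0) (XT.nd (nat_lit 78) (nat_lit 0) (nat_lit 0) (XT.lf (nat_lit 0) (nat_lit 2697887641) (nat_lit 152) (nat_lit 7431350597) (nat_lit 228) (nat_lit 20553493149) (nat_lit 99) (nat_lit 5) (nat_lit 101) (nat_lit 5) (nat_lit 102) (nat_lit 5) (nat_lit 509) (nat_lit 407) (nat_lit 284)) (XT.lf (nat_lit 0) (nat_lit 19670422375) (nat_lit 228) (nat_lit 8437911062) (nat_lit 76) (nat_lit 3174294853) (nat_lit 99) (nat_lit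 5) (nat_lit 102) (nat_lit 5) (nat_lit 100) (nat_lit 4) (nat_lit 510) (nat_lit 407) (nat_lit 283))) (XT.nd (nat_lit 78) (nat_lit 228) (nat_lit 0) (XT.lf (nat_lit 0) (nat_lit 11823365130) (nat_lit 76) (nat_lit 17846212008) (nat_lit 152) (nat_lit 2225793039) (nat_lit 98) (nat_lit 5) (nat_lit 99) (nat_lit 5) (nat_lit 100) (nat_lit 4) (nat_lit 511) (nat_lit 407) (nat_lit 282)) (XT.lf (nat_lit 0) (nat_lit 244677214) (nat_lit 152) (nat_lit 7125238107) (nat_lit 228) (nat_lit 25152245127) (nat_lit 95) (nat_lit 5) (nat_lit 97) (nat_lit 5) (nat_lit 98) (nat_lit 5) (nat_lit 512) (nat_lit 407) (nat_lit 281)))) (XT.nd (nat_lit 156) (nat_lit 228) (nat_lit 0) (XT.nd (nat_lit 78) (nat_lit 76) (nat_lit 0) (XT.lf (nat_lit 0) (nat_lit 17435676465) (nat_lit 228) (nat_lit 11670324450) (nat_lit 76) (nat_lit 4054284974) (nat_lit 95) (nat_lit 5) (nat_lit 98) (nat_lit 5) (nat_lit 96) (nat_lit 4) (nat_lit 513) (nat_lit 407) (nat_lit 280))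 (XT.lf (nat_lit 0) (nat_lit 9644282751) (nat_lit 76) (nat_lit 18307397807) (nat_lit 152) (nat_lit 5861426548) (nat_lit 94) (nat_lit 5) (nat_lit 95) (nat_lit 5) (nat_lit 96) (nat_lit 4) (nat_lit 514) (nat_lit 407) (nat_lit 279))) (XT.nd (nat_lit 78) (nat_lit 152) (nat_lit 0) (XT.lf (nat_lit 0) (nat_lit 4317838943) (nat_lit 152) (nat_lit 2715331116) (nat_lit 76) (nat_lit 27447982168) (nat_lit 93) (nat_lit 5) (nat_lit 95) (nat_lit 5) (nat_lit 94) (nat_lit 5) (nat_lit 515) (nat_lit 407) (nat_lit 278)) (XT.lf (nat_lit 0) (nat_lit 14905663527) (nat_lit 228) (nat_lit 15528440698) (nat_lit 76) (nat_lit 4726763865) (nat_lit 91) (nat_lit 5) (nat_lit 94) (nat_lit 5) (nat_lit 92) (nat_lit 4) (nat_lit 516) (nat_lit 407) (nat_lit 277)))))) (XT.nd (nat_lit 624) (nat_lit 684) (nat_lit 0) (XT.nd (nat_lit 312) (nat_lit 304) (nat_lit 0) (XT.nd (nat_lit 156) (nat_lit 228) (nat_lit 0) (XT.nd (nat_lit 78) (nat_lit 76) (nat_lit 0) (XT.lf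 (nat_lit 0) (nat_lit 6882889377) (nat_lit 76) (nat_lit 19077229576) (nat_lit 152) (nat_lit 9896386698) (nat_lit 90) (nat_lit 5) (nat_lit 91) (nat_lit 5) (nat_lit 92) (nat_lit 4) (nat_lit 517) (nat_lit 407) (nat_lit 276)) (XT.lf (nat_lit 0) (nat_lit 901991433) (nat_lit 152) (nat_lit 6320074340) (nat_lit 76) (nat_lit 29346407183) (nat_lit 89) (nat_lit 5) (nat_lit 91) (nat_lit 5) (nat_lit 90) (nat_lit 5) (nat_lit 518) (nat_lit 407) (nat_lit 275))) (XT.nd (nat_lit 78) (nat_lit 76) (nat_lit 0) (XT.lf (nat_lit 0) (nat_lit 12027371500) (nat_lit 228) (nat_lit 20120409681) (nat_lit 76) (nat_lit 5145019928) (nat_lit 87) (nat_lit 5) (nat_lit 90) (nat_lit 5) (nat_lit 88) (nat_lit 4) (nat_lit 519) (nat_lit 407) (nat_lit 274)) (XT.lf (nat_lit 0) (nat_lit 3430154504) (nat_lit 76) (nat_lit 20211266669) (nat_lit 152) (nat_lit 14392790781) (nat_lit 86) (nat_lit 5) (nat_lit 87) (nat_lit 5) (nat_lit 88) (nat_lit 4) (nat_lit 520) (nat_lit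 407) (nat_lit 273)))) (XT.nd (nat_lit 156) (nat_lit 76) (nat_lit 0) (XT.nd (nat_lit 78) (nat_lit 228) (nat_lit 0) (XT.lf (nat_lit 0) (nat_lit 28073063183) (nat_lit 76) (nat_lit 7720135976) (nat_lit 152) (nat_lit 2998986850) (nat_lit 86) (nat_lit 5) (nat_lit 87) (nat_lit 5) (nat_lit 88) (nat_lit 4) (nat_lit 521) (nat_lit 407) (nat_lit 272)) (XT.lf (nat_lit 0) (nat_lit 8739082854) (nat_lit 228) (nat_lit 25571892623) (nat_lit 76) (nat_lit 5254216393) (nat_lit 83) (nat_lit 5) (nat_lit 86) (nat_lit 5) (nat_lit 84) (nat_lit 4) (nat_lit 522) (nat_lit 407) (nat_lit 271))) (XT.nd (nat_lit 78) (nat_lit 76) (nat_lit 0) (XT.lf (nat_lit 0) (nat_lit 20941197734) (nat_lit 228) (nat_lit 824661567) (nat_lit 76) (nat_lit 18589472510) (nat_lit 83) (nat_lit 5) (nat_lit 86) (nat_lit 5) (nat_lit 84) (nat_lit 4) (nat_lit 523) (nat_lit 407) (nat_lit 270)) (XT.lf (nat_lit 0) (nat_lit 25129979553) (nat_lit 76) (nat_lit 8607785449) (nat_lit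 152) (nat_lit 7424559357) (nat_lit 82) (nat_lit 5) (nat_lit 83) (nat_lit 5) (nat_lit 84) (nat_lit 4) (nat_lit 524) (nat_lit 407) (nat_lit 269))))) (XT.nd (nat_lit 312) (nat_lit 228) (nat_lit 0) (XT.nd (nat_lit 156) (nat_lit 228) (nat_lit 0) (XT.nd (nat_lit 78) (nat_lit 0) (nat_lit 0) (XT.lf (nat_lit 0) (nat_lit 4968989111) (nat_lit 228) (nat_lit 32028895491) (nat_lit 76) (nat_lit 4990010424) (nat_lit 79) (nat_lit 5) (nat_lit 82) (nat_lit 5) (nat_lit 80) (nat_lit 4) (nat_lit 525) (nat_lit 407) (nat_lit 268)) (XT.lf (nat_lit 0) (nat_lit 17820703830) (nat_lit 228) (nat_lit 5960405031) (nat_lit 76) (nat_lit 19047851127) (nat_lit 79) (nat_lit 5) (nat_lit 82) (nat_lit 5) (nat_lit 80) (nat_lit 4) (nat_lit 526) (nat_lit 407) (nat_lit 267))) (XT.nd (nat_lit 78) (nat_lit 152) (nat_lit 0) (XT.lf (nat_lit 0) (nat_lit 21280722500) (nat_lit 76) (nat_lit 9969055784) (nat_lit 152) (nat_lit 12439724437) (nat_lit 78) (nat_lit 5)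 (nat_lit 79) (nat_lit 5) (nat_lit 80) (nat_lit 4) (nat_lit 527) (nat_lit 407) (nat_lit 266)) (XT.lf (nat_lit 0) (nat_lit 633582033) (nat_lit 152) (nat_lit 39661053329) (nat_lit 76) (nat_lit 4276952859) (nat_lit 76) (nat_lit 5) (nat_lit 78) (nat_lit 5) (nat_lit 77) (nat_lit 4) (nat_lit 528) (nat_lit 407) (nat_lit 265)))) (XT.nd (nat_lit 156) (nat_lit 152) (nat_lit 0) (XT.nd (nat_lit 78) (nat_lit 76) (nat_lit 0) (XT.lf (nat_lit 0) (nat_lit 14163569096) (nat_lit 152) (nat_lit 12213385065) (nat_lit 76) (nat_lit 19090051999) (nat_lit 76) (nat_lit 5) (nat_lit 78) (nat_lit 5) (nat_lit 77) (nat_lit 4) (nat_lit 529) (nat_lit 407) (nat_lit 264)) (XT.lf (nat_lit 0) (nat_lit 16352820280) (nat_lit 76) (nat_lit 11891478156) (nat_lit 152) (nat_lit 18140642981) (nat_lit 75) (nat_lit 5) (nat_lit 76) (nat_lit 5) (nat_lit 77) (nat_lit 4) (nat_lit 530) (nat_lit 407) (nat_lit 263))) (XT.nd (nat_lit 78) (nat_lit 152) (nat_lit 0) (XT.lf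 (nat_lit 0) (nat_lit 42888784141) (nat_lit 152) (nat_lit 1354689928) (nat_lit 0) (nat_lit 3082700692) (nat_lit 75) (nat_lit 5) (nat_lit 77) (nat_lit 4) (nat_lit 75) (nat_lit 4) (nat_lit 531) (nat_lit 407) (nat_lit 262)) (XT.lf (nat_lit 0) (nat_lit 9872584068) (nat_lit 152) (nat_lit 19780913116) (nat_lit 76) (nat_lit 18627823640) (nat_lit 73) (nat_lit 5) (nat_lit 75) (nat_lit 5) (nat_lit 74) (nat_lit 4) (nat_lit 532) (nat_lit 407) (nat_lit 261))))))))
noncomputable def xc113 : XT := (XT.nd (nat_lit 53586) (nat_lit 0) (nat_lit 13452) (XT.nd (nat_lit 1170) (nat_lit 380) (nat_lit 0) (XT.nd (nat_lit 546) (nat_lit 532) (nat_lit 0) (XT.nd (nat_lit 234) (nat_lit 228) (nat_lit 0) (XT.nd (nat_lit 78) (nat_lit 152) (nat_lit 0) (XT.lf (nat_lit 0) (nat_lit 10144782577) (nat_lit 76) (nat_lit 14477259566) (nat_lit 152) (nat_lit 24638780004) (nat_lit 72) (nat_lit 5) (nat_lit 73) (nat_lit 5) (nat_lit 74) (nat_lit 4) (nat_lit 533)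 (nat_lit 407) (nat_lit 260)) (XT.nd (nat_lit 78) (nat_lit 152) (nat_lit 0) (XT.lf (nat_lit 0) (nat_lit 40014862021) (nat_lit 152) (nat_lit 8926394854) (nat_lit 0) (nat_lit 1322425349) (nat_lit 72) (nat_lit 5) (nat_lit 74) (nat_lit 4) (nat_lit 72) (nat_lit 4) (nat_lit 534) (nat_lit 407) (nat_lit 259)) (XT.lf (nat_lit 0) (nat_lit 4834504520) (nat_lit 152) (nat_lit 28892764064) (nat_lit 76) (nat_lit 17557513902) (nat_lit 70) (nat_lit 5) (nat_lit 72) (nat_lit 5) (nat_lit 71) (nat_lit 4) (nat_lit 535) (nat_lit 407) (nat_lit 258)))) (XT.nd (nat_lit 156) (nat_lit 152) (nat_lit 0) (XT.nd (nat_lit 78) (nat_lit 0) (nat_lit 0) (XT.lf (nat_lit 0) (nat_lit 2421365902) (nat_lit 76) (nat_lit 17845691793) (nat_lit 152) (nat_lit 32063332312) (nat_lit 69) (nat_lit 5) (nat_lit 70) (nat_lit 5) (nat_lit 71) (nat_lit 4) (nat_lit 536) (nat_lit 407) (nat_lit 257)) (XT.lf (nat_lit 0) (nat_lit 35244742793) (nat_lit 76) (nat_lit 1198139272)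 (nat_lit 152) (nat_lit 16956074897) (nat_lit 69) (nat_lit 5) (nat_lit 70) (nat_lit 5) (nat_lit 71) (nat_lit 4) (nat_lit 537) (nat_lit 407) (nat_lit 256))) (XT.nd (nat_lit 78) (nat_lit 76) (nat_lit 0) (XT.lf (nat_lit 0) (nat_lit 14664050601) (nat_lit 76) (nat_lit 38722966167) (nat_lit 76) (nat_lit 1104073137) (nat_lit 68) (nat_lit 4) (nat_lit 69) (nat_lit 5) (nat_lit 69) (nat_lit 4) (nat_lit 538) (nat_lit 407) (nat_lit 255)) (XT.lf (nat_lit 0) (nat_lit 15112196581) (nat_lit 152) (nat_lit 6953531011) (nat_lit 76) (nat_lit 33540295974) (nat_lit 67) (nat_lit 5) (nat_lit 69) (nat_lit 5) (nat_lit 68) (nat_lit 4) (nat_lit 539) (nat_lit 407) (nat_lit 254))))) (XT.nd (nat_lit 312) (nat_lit 228) (nat_lit 0) (XT.nd (nat_lit 156) (nat_lit 152) (nat_lit 0) (XT.nd (nat_lit 78) (nat_lit 76) (nat_lit 0) (XT.lf (nat_lit 0) (nat_lit 27408699958) (nat_lit 76) (nat_lit 4636633042) (nat_lit 152) (nat_lit 24701167255) (nat_lit 66) (nat_lit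 5) (nat_lit 67) (nat_lit 5) (nat_lit 68) (nat_lit 4) (nat_lit 540) (nat_lit 407) (nat_lit 253)) (XT.lf (nat_lit 0) (nat_lit 4972180951) (nat_lit 76) (nat_lit 44750099676) (nat_lit 76) (nat_lit 8191836147) (nat_lit 65) (nat_lit 4) (nat_lit 66) (nat_lit 5) (nat_lit 66) (nat_lit 4) (nat_lit 541) (nat_lit 407) (nat_lit 252))) (XT.nd (nat_lit 78) (nat_lit 76) (nat_lit 0) (XT.lf (nat_lit 0) (nat_lit 8975021322) (nat_lit 152) (nat_lit 18349984853) (nat_lit 76) (nat_lit 31779187776) (nat_lit 64) (nat_lit 5) (nat_lit 66) (nat_lit 5) (nat_lit 65) (nat_lit 4) (nat_lit 542) (nat_lit 407) (nat_lit 251)) (XT.lf (nat_lit 0) (nat_lit 17519699287) (nat_lit 76) (nat_lit 9130385058) (nat_lit 152) (nat_lit 33672720489) (nat_lit 63) (nat_lit 5) (nat_lit 64) (nat_lit 5) (nat_lit 65) (nat_lit 4) (nat_lit 543) (nat_lit 407) (nat_lit 250)))) (XT.nd (nat_lit 156) (nat_lit 76) (nat_lit 0) (XT.nd (nat_lit 78) (nat_lit 152) (nat_lit 0) (XT.lf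 (nat_lit 0) (nat_lit 45124360581) (nat_lit 152) (nat_lit 6845799868) (nat_lit 0) (nat_lit 9599744792) (nat_lit 63) (nat_lit 5) (nat_lit 65) (nat_lit 4) (nat_lit 63) (nat_lit 4) (nat_lit 544) (nat_lit 407) (nat_lit 249)) (XT.lf (nat_lit 0) (nat_lit 1651877805) (nat_lit 152) (nat_lit 32181090181) (nat_lit 76) (nat_lit 29009713204) (nat_lit 61) (nat_lit 5) (nat_lit 63) (nat_lit 5) (nat_lit 62) (nat_lit 4) (nat_lit 545) (nat_lit 407) (nat_lit 248))) (XT.nd (nat_lit 78) (nat_lit 0) (nat_lit 0) (XT.lf (nat_lit 0) (nat_lit 5200740069) (nat_lit 76) (nat_lit 14870512884) (nat_lit 152) (nat_lit 44074215607) (nat_lit 60) (nat_lit 5) (nat_lit 61) (nat_lit 5) (nat_lit 62) (nat_lit 4) (nat_lit 546) (nat_lit 407) (nat_lit 247)) (XT.lf (nat_lit 0) (nat_lit 39405969201) (nat_lit 152) (nat_lit 21182118376) (nat_lit 0) (nat_lit 4888369211) (nat_lit 60) (nat_lit 5) (nat_lit 62) (nat_lit 4) (nat_lit 60) (nat_lit 4) (nat_lit 547) (nat_lit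 407) (nat_lit 246)))))) (XT.nd (nat_lit 51792) (nat_lit 0) (nat_lit 27284) (XT.nd (nat_lit 312) (nat_lit 76) (nat_lit 0) (XT.nd (nat_lit 156) (nat_lit 152) (nat_lit 0) (XT.nd (nat_lit 78) (nat_lit 76) (nat_lit 0) (XT.lf (nat_lit 0) (nat_lit 17895722258) (nat_lit 76) (nat_lit 41734333795) (nat_lit 76) (nat_lit 7208038770) (nat_lit 59) (nat_lit 4) (nat_lit 60) (nat_lit 5) (nat_lit 60) (nat_lit 4) (nat_lit 548) (nat_lit 407) (nat_lit 245)) (XT.lf (nat_lit 0) (nat_lit 12187914173) (nat_lit 152) (nat_lit 9793271034) (nat_lit 76) (nat_lit 46249689984) (nat_lit 58) (nat_lit 5) (nat_lit 60) (nat_lit 5) (nat_lit 59) (nat_lit 4) (nat_lit 549) (nat_lit 407) (nat_lit 244))) (XT.nd (nat_lit 78) (nat_lit 76) (nat_lit 0) (XT.lf (nat_lit 0) (nat_lit 31045691738) (nat_lit 76) (nat_lit 1263975477) (nat_lit 152) (nat_lit 37344966902) (nat_lit 57) (nat_lit 5) (nat_lit 58) (nat_lit 5) (nat_lit 59) (nat_lit 4) (nat_lit 550) (nat_lit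 407) (nat_lit 243)) (XT.lf (nat_lit 0) (nat_lit 2018813385) (nat_lit 76) (nat_lit 51318883518) (nat_lit 76) (nat_lit 17774330217) (nat_lit 56) (nat_lit 4) (nat_lit 57) (nat_lit 5) (nat_lit 57) (nat_lit 4) (nat_lit 551) (nat_lit 407) (nat_lit 242)))) (XT.nd (nat_lit 51324) (nat_lit 0) (nat_lit 28652) (XT.nd (nat_lit 51246) (nat_lit 0) (nat_lit 29260) (XT.lf (nat_lit 0) (nat_lit 2733545441) (nat_lit 152) (nat_lit 28002956467) (nat_lit 76) (nat_lit 41864053829) (nat_lit 55) (nat_lit 5) (nat_lit 57) (nat_lit 5) (nat_lit 56) (nat_lit 4) (nat_lit 552) (nat_lit 407) (nat_lit 241)) (XT.lf (nat_lit 0) (nat_lit 990903984) (nat_lit 0) (nat_lit 990903984) (nat_lit 532) (nat_lit 1374399630) (nat_lit 440) (nat_lit 5) (nat_lit 440) (nat_lit 3) (nat_lit 447) (nat_lit 3) (nat_lit 408) (nat_lit 408) (nat_lit 384))) (XT.nd (nat_lit 78) (nat_lit 608) (nat_lit 0) (XT.lf (nat_lit 0) (nat_lit 5384240497) (nat_lit 0) (nat_lit 805321304)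 (nat_lit 532) (nat_lit 558396511) (nat_lit 440) (nat_lit 5) (nat_lit 440) (nat_lit 3) (nat_lit 447) (nat_lit 3) (nat_lit 409) (nat_lit 408) (nat_lit 383)) (XT.lf (nat_lit 0) (nat_lit 1603898009) (nat_lit 608) (nat_lit 4706154937) (nat_lit 684) (nat_lit 475851563) (nat_lit 432) (nat_lit 5) (nat_lit 440) (nat_lit 5) (nat_lit 441) (nat_lit 5) (nat_lit 410) (nat_lit 408) (nat_lit 382))))) (XT.nd (nat_lit 312) (nat_lit 684) (nat_lit 0) (XT.nd (nat_lit 156) (nat_lit 684) (nat_lit 0) (XT.nd (nat_lit 78) (nat_lit 0) (nat_lit 0) (XT.lf (nat_lit 0) (nat_lit 3758774869) (nat_lit 608) (nat_lit 1230176222) (nat_lit 684) (nat_lit 1837709496) (nat_lit 432) (nat_lit 5) (nat_lit 440) (nat_lit 5) (nat_lit 441) (nat_lit 5) (nat_lit 411) (nat_lit 408) (nat_lit 381)) (XT.lf (nat_lit 76) (nat_lit 2350870743) (nat_lit 0) (nat_lit 3569497162) (nat_lit 684) (nat_lit 950014646) (nat_lit 433) (nat_lit 5) (nat_lit 432) (nat_lit 5) (nat_lit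 441) (nat_lit 5) (nat_lit 412) (nat_lit 408) (nat_lit 380))) (XT.nd (nat_lit 78) (nat_lit 0) (nat_lit 0) (XT.lf (nat_lit 0) (nat_lit 1140513844) (nat_lit 684) (nat_lit 908665039) (nat_lit 760) (nat_lit 4867892671) (nat_lit 423) (nat_lit 5) (nat_lit 432) (nat_lit 5) (nat_lit 433) (nat_lit 5) (nat_lit 413) (nat_lit 408) (nat_lit 379)) (XT.lf (nat_lit 76) (nat_lit 2811073498) (nat_lit 0) (nat_lit 413529404) (nat_lit 760) (nat_lit 3741782821) (nat_lit 424) (nat_lit 5) (nat_lit 423) (nat_lit 5) (nat_lit 433) (nat_lit 5) (nat_lit 414) (nat_lit 408) (nat_lit 378)))) (XT.nd (nat_lit 156) (nat_lit 0) (nat_lit 0) (XT.nd (nat_lit 78) (nat_lit 760) (nat_lit 0) (XT.lf (nat_lit 0) (nat_lit 5317732194) (nat_lit 684) (nat_lit 415184053) (nat_lit 760) (nat_lit 1285872252) (nat_lit 424) (nat_lit 5) (nat_lit 433) (nat_lit 5) (nat_lit 434) (nat_lit 5) (nat_lit 415) (nat_lit 408) (nat_lit 377)) (XT.lf (nat_lit 0) (nat_lit 357232826)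 (nat_lit 760) (nat_lit 3622496367) (nat_lit 836) (nat_lit 3093998082) (nat_lit 414) (nat_lit 5) (nat_lit 424) (nat_lit 5) (nat_lit 425) (nat_lit 5) (nat_lit 416) (nat_lit 408) (nat_lit 376))) (XT.nd (nat_lit 78) (nat_lit 0) (nat_lit 0) (XT.lf (nat_lit 76) (nat_lit 253404179) (nat_lit 0) (nat_lit 2124539215) (nat_lit 836) (nat_lit 4753823998) (nat_lit 415) (nat_lit 5) (nat_lit 414) (nat_lit 5) (nat_lit 425) (nat_lit 5) (nat_lit 417) (nat_lit 408) (nat_lit 375)) (XT.lf (nat_lit 76) (nat_lit 4273678661) (nat_lit 0) (nat_lit 152016866) (nat_lit 836) (nat_lit 2766864760) (nat_lit 415) (nat_lit 5) (nat_lit 414) (nat_lit 5) (nat_lit 425) (nat_lit 5) (nat_lit 418) (nat_lit 408) (nat_lit 374))))))) (XT.nd (nat_lit 1248) (nat_lit 5320) (nat_lit 0) (XT.nd (nat_lit 624) (nat_lit 5016) (nat_lit 0) (XT.nd (nat_lit 312) (nat_lit 2736) (nat_lit 0) (XT.nd (nat_lit 156) (nat_lit 0) (nat_lit 0) (XT.nd (nat_lit 78) (nat_lit 836) (nat_lit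 0) (XT.lf (nat_lit 76) (nat_lit 1116005298) (nat_lit 0) (nat_lit 5379778899) (nat_lit 836) (nat_lit 760569713) (nat_lit 416) (nat_lit 5) (nat_lit 415) (nat_lit 5) (nat_lit 426) (nat_lit 5) (nat_lit 419) (nat_lit 408) (nat_lit 373)) (XT.lf (nat_lit 0) (nat_lit 1244678953) (nat_lit 836) (nat_lit 2051718086) (nat_lit 912) (nat_lit 4026364099) (nat_lit 404) (nat_lit 5) (nat_lit 415) (nat_lit 5) (nat_lit 416) (nat_lit 5) (nat_lit 420) (nat_lit 408) (nat_lit 372))) (XT.nd (nat_lit 78) (nat_lit 0) (nat_lit 76) (XT.lf (nat_lit 76) (nat_lit 2147377190) (nat_lit 0) (nat_lit 1102991178) (nat_lit 912) (nat_lit 4141902919) (nat_lit 405) (nat_lit 5) (nat_lit 404) (nat_lit 5) (nat_lit 416) (nat_lit 5) (nat_lit 421) (nat_lit 408) (nat_lit 371)) (XT.lf (nat_lit 0) (nat_lit 5284814647) (nat_lit 836) (nat_lit 1008251867) (nat_lit 76) (nat_lit 1171746249) (nat_lit 405) (nat_lit 5) (nat_lit 416) (nat_lit 5) (nat_lit 406) (nat_lit 5)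 (nat_lit 422) (nat_lit 408) (nat_lit 370)))) (XT.nd (nat_lit 156) (nat_lit 988) (nat_lit 0) (XT.nd (nat_lit 78) (nat_lit 988) (nat_lit 0) (XT.lf (nat_lit 0) (nat_lit 3363414048) (nat_lit 836) (nat_lit 3998528722) (nat_lit 912) (nat_lit 178141764) (nat_lit 394) (nat_lit 5) (nat_lit 405) (nat_lit 5) (nat_lit 406) (nat_lit 5) (nat_lit 423) (nat_lit 408) (nat_lit 369)) (XT.lf (nat_lit 0) (nat_lit 207894180) (nat_lit 912) (nat_lit 1590543114) (nat_lit 988) (nat_lit 5820094442) (nat_lit 381) (nat_lit 5) (nat_lit 393) (nat_lit 5) (nat_lit 394) (nat_lit 5) (nat_lit 424) (nat_lit 408) (nat_lit 368))) (XT.nd (nat_lit 78) (nat_lit 988) (nat_lit 0) (XT.lf (nat_lit 0) (nat_lit 3822464449) (nat_lit 988) (nat_lit 2948172976) (nat_lit 76) (nat_lit 928893286) (nat_lit 381) (nat_lit 5) (nat_lit 394) (nat_lit 5) (nat_lit 382) (nat_lit 5) (nat_lit 425) (nat_lit 408) (nat_lit 367)) (XT.lf (nat_lit 0) (nat_lit 1616400345) (nat_lit 988)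 (nat_lit 4264413640) (nat_lit 1064) (nat_lit 1902940735) (nat_lit 368) (nat_lit 5) (nat_lit 381) (nat_lit 5) (nat_lit 382) (nat_lit 5) (nat_lit 426) (nat_lit 408) (nat_lit 366))))) (XT.nd (nat_lit 312) (nat_lit 2736) (nat_lit 0) (XT.nd (nat_lit 156) (nat_lit 1140) (nat_lit 0) (XT.nd (nat_lit 78) (nat_lit 1064) (nat_lit 0) (XT.lf (nat_lit 0) (nat_lit 100910625) (nat_lit 1064) (nat_lit 1541045625) (nat_lit 76) (nat_lit 6229323123) (nat_lit 367) (nat_lit 5) (nat_lit 381) (nat_lit 5) (nat_lit 368) (nat_lit 5) (nat_lit 427) (nat_lit 408) (nat_lit 365)) (XT.lf (nat_lit 0) (nat_lit 2112993469) (nat_lit 1140) (nat_lit 4751112026) (nat_lit 76) (nat_lit 1097170993) (nat_lit 353) (nat_lit 5) (nat_lit 368) (nat_lit 5) (nat_lit 354) (nat_lit 5) (nat_lit 428) (nat_lit 408) (nat_lit 364))) (XT.nd (nat_lit 78) (nat_lit 0) (nat_lit 0) (XT.lf (nat_lit 0) (nat_lit 17861212) (nat_lit 1140) (nat_lit 4145605788) (nat_lit 1216) (nat_lit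 3891168437) (nat_lit 338) (nat_lit 5) (nat_lit 353) (nat_lit 5) (nat_lit 354) (nat_lit 5) (nat_lit 429) (nat_lit 408) (nat_lit 363)) (XT.lf (nat_lit 0) (nat_lit 4979697699) (nat_lit 1140) (nat_lit 1290736500) (nat_lit 1216) (nat_lit 1880514256) (nat_lit 338) (nat_lit 5) (nat_lit 353) (nat_lit 5) (nat_lit 354) (nat_lit 5) (nat_lit 430) (nat_lit 408) (nat_lit 362)))) (XT.nd (nat_lit 156) (nat_lit 1444) (nat_lit 0) (XT.nd (nat_lit 78) (nat_lit 0) (nat_lit 0) (XT.lf (nat_lit 0) (nat_lit 168433548) (nat_lit 1292) (nat_lit 6440420942) (nat_lit 76) (nat_lit 1641793263) (nat_lit 321) (nat_lit 5) (nat_lit 338) (nat_lit 5) (nat_lit 322) (nat_lit 5) (nat_lit 431) (nat_lit 408) (nat_lit 361)) (XT.lf (nat_lit 0) (nat_lit 2235310915) (nat_lit 1292) (nat_lit 1426291985) (nat_lit 76) (nat_lit 4691351291) (nat_lit 321) (nat_lit 5) (nat_lit 338) (nat_lit 5) (nat_lit 322) (nat_lit 5) (nat_lit 432) (nat_lit 408) (nat_lit 360))) (XT.nd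 (nat_lit 78) (nat_lit 608) (nat_lit 0) (XT.lf (nat_lit 0) (nat_lit 3764778324) (nat_lit 836) (nat_lit 586224618) (nat_lit 912) (nat_lit 4107725015) (nat_lit 310) (nat_lit 5) (nat_lit 321) (nat_lit 5) (nat_lit 322) (nat_lit 5) (nat_lit 433) (nat_lit 408) (nat_lit 359)) (XT.lf (nat_lit 0) (nat_lit 510623911) (nat_lit 608) (nat_lit 6015438446) (nat_lit 684) (nat_lit 2041737996) (nat_lit 302) (nat_lit 5) (nat_lit 310) (nat_lit 5) (nat_lit 311) (nat_lit 5) (nat_lit 434) (nat_lit 408) (nat_lit 358)))))) (XT.nd (nat_lit 624) (nat_lit 2356) (nat_lit 0) (XT.nd (nat_lit 312) (nat_lit 1748) (nat_lit 0) (XT.nd (nat_lit 156) (nat_lit 532) (nat_lit 0) (XT.nd (nat_lit 78) (nat_lit 608) (nat_lit 0) (XT.lf (nat_lit 0) (nat_lit 90328583) (nat_lit 684) (nat_lit 2766713341) (nat_lit 76) (nat_lit 5822906837) (nat_lit 301) (nat_lit 5) (nat_lit 310) (nat_lit 5) (nat_lit 302) (nat_lit 5) (nat_lit 435) (nat_lit 408) (nat_lit 357)) (XT.lf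 (nat_lit 0) (nat_lit 2228720331) (nat_lit 684) (nat_lit 6132476152) (nat_lit 76) (nat_lit 434158798) (nat_lit 293) (nat_lit 5) (nat_lit 302) (nat_lit 5) (nat_lit 294) (nat_lit 5) (nat_lit 436) (nat_lit 408) (nat_lit 356))) (XT.nd (nat_lit 78) (nat_lit 532) (nat_lit 0) (XT.lf (nat_lit 0) (nat_lit 4442167751) (nat_lit 684) (nat_lit 677807955) (nat_lit 76) (nat_lit 3793923230) (nat_lit 293) (nat_lit 5) (nat_lit 302) (nat_lit 5) (nat_lit 294) (nat_lit 5) (nat_lit 437) (nat_lit 408) (nat_lit 355)) (XT.lf (nat_lit 0) (nat_lit 4991363619) (nat_lit 532) (nat_lit 1734364508) (nat_lit 608) (nat_lit 2310161486) (nat_lit 286) (nat_lit 5) (nat_lit 293) (nat_lit 5) (nat_lit 294) (nat_lit 5) (nat_lit 438) (nat_lit 408) (nat_lit 354)))) (XT.nd (nat_lit 156) (nat_lit 1064) (nat_lit 0) (XT.nd (nat_lit 78) (nat_lit 76) (nat_lit 0) (XT.lf (nat_lit 0) (nat_lit 1651113290) (nat_lit 608) (nat_lit 7422865413) (nat_lit 684) (nat_lit 87677746)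 (nat_lit 278) (nat_lit 5) (nat_lit 286) (nat_lit 5) (nat_lit 287) (nat_lit 5) (nat_lit 439) (nat_lit 408) (nat_lit 353)) (XT.lf (nat_lit 0) (nat_lit 2173880987) (nat_lit 684) (nat_lit 1775932263) (nat_lit 76) (nat_lit 5340289229) (nat_lit 277) (nat_lit 5) (nat_lit 286) (nat_lit 5) (nat_lit 278) (nat_lit 5) (nat_lit 440) (nat_lit 408) (nat_lit 352))) (XT.nd (nat_lit 78) (nat_lit 532) (nat_lit 0) (XT.lf (nat_lit 0) (nat_lit 4164755603) (nat_lit 532) (nat_lit 334998176) (nat_lit 608) (nat_lit 4922676957) (nat_lit 270) (nat_lit 5) (nat_lit 277) (nat_lit 5) (nat_lit 278) (nat_lit 5) (nat_lit 441) (nat_lit 408) (nat_lit 351)) (XT.lf (nat_lit 0) (nat_lit 695610632) (nat_lit 532) (nat_lit 6216084551) (nat_lit 608) (nat_lit 2646546609) (nat_lit 263) (nat_lit 5) (nat_lit 270) (nat_lit 5) (nat_lit 271) (nat_lit 5) (nat_lit 442) (nat_lit 408) (nat_lit 350))))) (XT.nd (nat_lit 312) (nat_lit 1368) (nat_lit 0) (XT.nd (nat_lit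 156) (nat_lit 456) (nat_lit 0) (XT.nd (nat_lit 78) (nat_lit 532) (nat_lit 0) (XT.lf (nat_lit 0) (nat_lit 6885257265) (nat_lit 532) (nat_lit 2526786941) (nat_lit 608) (nat_lit 285603166) (nat_lit 263) (nat_lit 5) (nat_lit 270) (nat_lit 5) (nat_lit 271) (nat_lit 5) (nat_lit 443) (nat_lit 408) (nat_lit 349)) (XT.lf (nat_lit 0) (nat_lit 2110322271) (nat_lit 532) (nat_lit 6434133540) (nat_lit 76) (nat_lit 1295980980) (nat_lit 256) (nat_lit 5) (nat_lit 263) (nat_lit 5) (nat_lit 257) (nat_lit 5) (nat_lit 444) (nat_lit 408) (nat_lit 348))) (XT.nd (nat_lit 78) (nat_lit 456) (nat_lit 0) (XT.lf (nat_lit 0) (nat_lit 4587189908) (nat_lit 532) (nat_lit 192287873) (nat_lit 76) (nat_lit 5207504668) (nat_lit 256) (nat_lit 5) (nat_lit 263) (nat_lit 5) (nat_lit 257) (nat_lit 5) (nat_lit 445) (nat_lit 408) (nat_lit 347)) (XT.lf (nat_lit 0) (nat_lit 6314683945) (nat_lit 456) (nat_lit 846619334) (nat_lit 532) (nat_lit 2975934493) (nat_lit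 250) (nat_lit 5) (nat_lit 256) (nat_lit 5) (nat_lit 257) (nat_lit 5) (nat_lit 446) (nat_lit 408) (nat_lit 346)))) (XT.nd (nat_lit 156) (nat_lit 836) (nat_lit 0) (XT.nd (nat_lit 78) (nat_lit 76) (nat_lit 0) (XT.lf (nat_lit 0) (nat_lit 2704879947) (nat_lit 456) (nat_lit 7129355138) (nat_lit 532) (nat_lit 457119262) (nat_lit 244) (nat_lit 5) (nat_lit 250) (nat_lit 5) (nat_lit 251) (nat_lit 5) (nat_lit 447) (nat_lit 408) (nat_lit 345)) (XT.lf (nat_lit 0) (nat_lit 2106034017) (nat_lit 532) (nat_lit 1017981217) (nat_lit 76) (nat_lit 7325149830) (nat_lit 243) (nat_lit 5) (nat_lit 250) (nat_lit 5) (nat_lit 244) (nat_lit 5) (nat_lit 448) (nat_lit 408) (nat_lit 344))) (XT.nd (nat_lit 78) (nat_lit 380) (nat_lit 0) (XT.lf (nat_lit 0) (nat_lit 4767084850) (nat_lit 532) (nat_lit 4809550740) (nat_lit 76) (nat_lit 1034034335) (nat_lit 237) (nat_lit 5) (nat_lit 244) (nat_lit 5) (nat_lit 238) (nat_lit 5) (nat_lit 449) (nat_lit 408)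 (nat_lit 343)) (XT.lf (nat_lit 0) (nat_lit 2032158170) (nat_lit 380) (nat_lit 5501371266) (nat_lit 456) (nat_lit 3242724913) (nat_lit 232) (nat_lit 5) (nat_lit 237) (nat_lit 5) (nat_lit 238) (nat_lit 5) (nat_lit 450) (nat_lit 408) (nat_lit 342))))))))
noncomputable def xc114 : XT := (XT.nd (nat_lit 2418) (nat_lit 3952) (nat_lit 0) (XT.nd (nat_lit 1170) (nat_lit 2964) (nat_lit 0) (XT.nd (nat_lit 546) (nat_lit 1748) (nat_lit 0) (XT.nd (nat_lit 234) (nat_lit 836) (nat_lit 0) (XT.nd (nat_lit 78) (nat_lit 912) (nat_lit 0) (XT.lf (nat_lit 0) (nat_lit 9132742038) (nat_lit 380) (nat_lit 1264103443) (nat_lit 456) (nat_lit 549545725) (nat_lit 232) (nat_lit 5) (nat_lit 237) (nat_lit 5) (nat_lit 238) (nat_lit 5) (nat_lit 451) (nat_lit 408) (nat_lit 341)) (XT.nd (nat_lit 78) (nat_lit 380) (nat_lit 0) (XT.lf (nat_lit 0) (nat_lit 2228992558) (nat_lit 532) (nat_lit 5787233080) (nat_lit 76) (nat_lit 3103327118) (nat_lit 225) (nat_lit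 5) (nat_lit 232) (nat_lit 5) (nat_lit 226) (nat_lit 5) (nat_lit 452) (nat_lit 408) (nat_lit 340)) (XT.lf (nat_lit 0) (nat_lit 1396799171) (nat_lit 380) (nat_lit 3693935855) (nat_lit 456) (nat_lit 6206685233) (nat_lit 220) (nat_lit 5) (nat_lit 225) (nat_lit 5) (nat_lit 226) (nat_lit 5) (nat_lit 453) (nat_lit 408) (nat_lit 339)))) (XT.nd (nat_lit 156) (nat_lit 456) (nat_lit 0) (XT.nd (nat_lit 78) (nat_lit 380) (nat_lit 0) (XT.lf (nat_lit 0) (nat_lit 8071530890) (nat_lit 456) (nat_lit 2616998209) (nat_lit 76) (nat_lit 791099761) (nat_lit 220) (nat_lit 5) (nat_lit 226) (nat_lit 5) (nat_lit 221) (nat_lit 5) (nat_lit 454) (nat_lit 408) (nat_lit 338)) (XT.lf (nat_lit 0) (nat_lit 4900251761) (nat_lit 380) (nat_lit 6293037122) (nat_lit 456) (nat_lit 472469761) (nat_lit 215) (nat_lit 5) (nat_lit 220) (nat_lit 5) (nat_lit 221) (nat_lit 5) (nat_lit 455) (nat_lit 408) (nat_lit 337))) (XT.nd (nat_lit 78) (nat_lit 0) (nat_lit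 0) (XT.lf (nat_lit 0) (nat_lit 786410244) (nat_lit 380) (nat_lit 1717345344) (nat_lit 456) (nat_lit 9352912670) (nat_lit 209) (nat_lit 5) (nat_lit 214) (nat_lit 5) (nat_lit 215) (nat_lit 5) (nat_lit 456) (nat_lit 408) (nat_lit 336)) (XT.lf (nat_lit 0) (nat_lit 5626018332) (nat_lit 456) (nat_lit 3426362993) (nat_lit 76) (nat_lit 2998797077) (nat_lit 209) (nat_lit 5) (nat_lit 215) (nat_lit 5) (nat_lit 210) (nat_lit 5) (nat_lit 457) (nat_lit 408) (nat_lit 335))))) (XT.nd (nat_lit 312) (nat_lit 684) (nat_lit 0) (XT.nd (nat_lit 156) (nat_lit 380) (nat_lit 0) (XT.nd (nat_lit 78) (nat_lit 304) (nat_lit 0) (XT.lf (nat_lit 0) (nat_lit 4473916138) (nat_lit 380) (nat_lit 4397417333) (nat_lit 456) (nat_lit 3379309798) (nat_lit 204) (nat_lit 5) (nat_lit 209) (nat_lit 5) (nat_lit 210) (nat_lit 5) (nat_lit 458) (nat_lit 408) (nat_lit 334)) (XT.lf (nat_lit 0) (nat_lit 182189922) (nat_lit 304) (nat_lit 12042063511) (nat_lit 380)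 (nat_lit 231532214) (nat_lit 200) (nat_lit 5) (nat_lit 204) (nat_lit 5) (nat_lit 205) (nat_lit 5) (nat_lit 459) (nat_lit 408) (nat_lit 333))) (XT.nd (nat_lit 78) (nat_lit 304) (nat_lit 0) (XT.lf (nat_lit 0) (nat_lit 3044680051) (nat_lit 380) (nat_lit 4242457127) (nat_lit 76) (nat_lit 5376295261) (nat_lit 199) (nat_lit 5) (nat_lit 204) (nat_lit 5) (nat_lit 200) (nat_lit 5) (nat_lit 460) (nat_lit 408) (nat_lit 332)) (XT.lf (nat_lit 0) (nat_lit 4064140216) (nat_lit 304) (nat_lit 2360233006) (nat_lit 380) (nat_lit 6452572045) (nat_lit 195) (nat_lit 5) (nat_lit 199) (nat_lit 5) (nat_lit 200) (nat_lit 5) (nat_lit 461) (nat_lit 408) (nat_lit 331)))) (XT.nd (nat_lit 156) (nat_lit 304) (nat_lit 0) (XT.nd (nat_lit 78) (nat_lit 380) (nat_lit 0) (XT.lf (nat_lit 0) (nat_lit 9945914941) (nat_lit 380) (nat_lit 458002574) (nat_lit 76) (nat_lit 2691733055) (nat_lit 195) (nat_lit 5) (nat_lit 200) (nat_lit 5) (nat_lit 196) (nat_lit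 5) (nat_lit 462) (nat_lit 408) (nat_lit 330)) (XT.lf (nat_lit 0) (nat_lit 322552751) (nat_lit 380) (nat_lit 5078472155) (nat_lit 76) (nat_lit 7917561540) (nat_lit 190) (nat_lit 5) (nat_lit 195) (nat_lit 5) (nat_lit 191) (nat_lit 5) (nat_lit 463) (nat_lit 408) (nat_lit 329))) (XT.nd (nat_lit 78) (nat_lit 0) (nat_lit 0) (XT.lf (nat_lit 0) (nat_lit 3658949070) (nat_lit 304) (nat_lit 188685781) (nat_lit 380) (nat_lit 9699282786) (nat_lit 186) (nat_lit 5) (nat_lit 190) (nat_lit 5) (nat_lit 191) (nat_lit 5) (nat_lit 464) (nat_lit 408) (nat_lit 328)) (XT.lf (nat_lit 0) (nat_lit 7552425401) (nat_lit 380) (nat_lit 1110259433) (nat_lit 76) (nat_lit 5117195982) (nat_lit 186) (nat_lit 5) (nat_lit 191) (nat_lit 5) (nat_lit 187) (nat_lit 5) (nat_lit 465) (nat_lit 408) (nat_lit 327)))))) (XT.nd (nat_lit 624) (nat_lit 1216) (nat_lit 0) (XT.nd (nat_lit 312) (nat_lit 836) (nat_lit 0) (XT.nd (nat_lit 156) (nat_lit 228) (nat_lit 0)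 (XT.nd (nat_lit 78) (nat_lit 380) (nat_lit 0) (XT.lf (nat_lit 0) (nat_lit 8045130946) (nat_lit 304) (nat_lit 3375608387) (nat_lit 380) (nat_lit 2597522877) (nat_lit 182) (nat_lit 5) (nat_lit 186) (nat_lit 5) (nat_lit 187) (nat_lit 5) (nat_lit 466) (nat_lit 408) (nat_lit 326)) (XT.lf (nat_lit 0) (nat_lit 1155159534) (nat_lit 380) (nat_lit 11037447530) (nat_lit 76) (nat_lit 2069775835) (nat_lit 177) (nat_lit 5) (nat_lit 182) (nat_lit 5) (nat_lit 178) (nat_lit 5) (nat_lit 467) (nat_lit 408) (nat_lit 325))) (XT.nd (nat_lit 78) (nat_lit 228) (nat_lit 0) (XT.lf (nat_lit 0) (nat_lit 5036109981) (nat_lit 380) (nat_lit 1791523273) (nat_lit 76) (nat_lit 7683386207) (nat_lit 177) (nat_lit 5) (nat_lit 182) (nat_lit 5) (nat_lit 178) (nat_lit 5) (nat_lit 468) (nat_lit 408) (nat_lit 324)) (XT.lf (nat_lit 0) (nat_lit 7844903957) (nat_lit 228) (nat_lit 1238324344) (nat_lit 304) (nat_lit 5682395269) (nat_lit 174) (nat_lit 5) (nat_lit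 177) (nat_lit 5) (nat_lit 178) (nat_lit 5) (nat_lit 469) (nat_lit 408) (nat_lit 323)))) (XT.nd (nat_lit 156) (nat_lit 456) (nat_lit 0) (XT.nd (nat_lit 78) (nat_lit 76) (nat_lit 0) (XT.lf (nat_lit 0) (nat_lit 2749678282) (nat_lit 304) (nat_lit 10564779240) (nat_lit 380) (nat_lit 1711527972) (nat_lit 170) (nat_lit 5) (nat_lit 174) (nat_lit 5) (nat_lit 175) (nat_lit 5) (nat_lit 470) (nat_lit 408) (nat_lit 322)) (XT.lf (nat_lit 0) (nat_lit 2389560341) (nat_lit 380) (nat_lit 2516120139) (nat_lit 76) (nat_lit 10386067252) (nat_lit 169) (nat_lit 5) (nat_lit 174) (nat_lit 5) (nat_lit 170) (nat_lit 5) (nat_lit 471) (nat_lit 408) (nat_lit 321))) (XT.nd (nat_lit 78) (nat_lit 228) (nat_lit 0) (XT.lf (nat_lit 0) (nat_lit 6637657943) (nat_lit 304) (nat_lit 7943456680) (nat_lit 76) (nat_lit 982109100) (nat_lit 166) (nat_lit 5) (nat_lit 170) (nat_lit 5) (nat_lit 167) (nat_lit 5) (nat_lit 472) (nat_lit 408) (nat_lit 320)) (XT.lf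 (nat_lit 0) (nat_lit 2224482015) (nat_lit 228) (nat_lit 8859941607) (nat_lit 304) (nat_lit 4756284163) (nat_lit 163) (nat_lit 5) (nat_lit 166) (nat_lit 5) (nat_lit 167) (nat_lit 5) (nat_lit 473) (nat_lit 408) (nat_lit 319))))) (XT.nd (nat_lit 312) (nat_lit 684) (nat_lit 0) (XT.nd (nat_lit 156) (nat_lit 228) (nat_lit 0) (XT.nd (nat_lit 78) (nat_lit 304) (nat_lit 0) (XT.lf (nat_lit 0) (nat_lit 12821347473) (nat_lit 228) (nat_lit 2899405653) (nat_lit 304) (nat_lit 404078944) (nat_lit 163) (nat_lit 5) (nat_lit 166) (nat_lit 5) (nat_lit 167) (nat_lit 5) (nat_lit 474) (nat_lit 408) (nat_lit 318)) (XT.lf (nat_lit 0) (nat_lit 4078604650) (nat_lit 304) (nat_lit 9061711269) (nat_lit 76) (nat_lit 3273603390) (nat_lit 159) (nat_lit 5) (nat_lit 163) (nat_lit 5) (nat_lit 160) (nat_lit 5) (nat_lit 475) (nat_lit 408) (nat_lit 317))) (XT.nd (nat_lit 78) (nat_lit 0) (nat_lit 0) (XT.lf (nat_lit 0) (nat_lit 1645214981) (nat_lit 228)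 (nat_lit 7097241126) (nat_lit 304) (nat_lit 7967459251) (nat_lit 156) (nat_lit 5) (nat_lit 159) (nat_lit 5) (nat_lit 160) (nat_lit 5) (nat_lit 476) (nat_lit 408) (nat_lit 316)) (XT.lf (nat_lit 0) (nat_lit 12821020012) (nat_lit 228) (nat_lit 793622260) (nat_lit 304) (nat_lit 3398096910) (nat_lit 156) (nat_lit 5) (nat_lit 159) (nat_lit 5) (nat_lit 160) (nat_lit 5) (nat_lit 477) (nat_lit 408) (nat_lit 315)))) (XT.nd (nat_lit 156) (nat_lit 152) (nat_lit 0) (XT.nd (nat_lit 78) (nat_lit 228) (nat_lit 0) (XT.lf (nat_lit 0) (nat_lit 1383830705) (nat_lit 304) (nat_lit 10282429798) (nat_lit 76) (nat_lit 5654979913) (nat_lit 152) (nat_lit 5) (nat_lit 156) (nat_lit 5) (nat_lit 153) (nat_lit 5) (nat_lit 478) (nat_lit 408) (nat_lit 314)) (XT.lf (nat_lit 0) (nat_lit 994348848) (nat_lit 228) (nat_lit 5284257293) (nat_lit 304) (nat_lit 11358250989) (nat_lit 149) (nat_lit 5) (nat_lit 152) (nat_lit 5) (nat_lit 153) (nat_lit 5) (nat_lit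 479) (nat_lit 408) (nat_lit 313))) (XT.nd (nat_lit 78) (nat_lit 152) (nat_lit 0) (XT.lf (nat_lit 0) (nat_lit 11415155330) (nat_lit 304) (nat_lit 5189778922) (nat_lit 76) (nat_lit 1354160595) (nat_lit 149) (nat_lit 5) (nat_lit 153) (nat_lit 5) (nat_lit 150) (nat_lit 5) (nat_lit 480) (nat_lit 408) (nat_lit 312)) (XT.lf (nat_lit 0) (nat_lit 6647283189) (nat_lit 152) (nat_lit 10153062538) (nat_lit 228) (nat_lit 1487818032) (nat_lit 147) (nat_lit 5) (nat_lit 149) (nat_lit 5) (nat_lit 150) (nat_lit 5) (nat_lit 481) (nat_lit 408) (nat_lit 311))))))) (XT.nd (nat_lit 1248) (nat_lit 1824) (nat_lit 0) (XT.nd (nat_lit 624) (nat_lit 912) (nat_lit 0) (XT.nd (nat_lit 312) (nat_lit 684) (nat_lit 0) (XT.nd (nat_lit 156) (nat_lit 228) (nat_lit 0) (XT.nd (nat_lit 78) (nat_lit 0) (nat_lit 0) (XT.lf (nat_lit 0) (nat_lit 252241213) (nat_lit 228) (nat_lit 3428903598) (nat_lit 304) (nat_lit 14943875104) (nat_lit 143) (nat_lit 5) (nat_lit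 146) (nat_lit 5) (nat_lit 147) (nat_lit 5) (nat_lit 482) (nat_lit 408) (nat_lit 310)) (XT.lf (nat_lit 0) (nat_lit 9106135061) (nat_lit 304) (nat_lit 6314030686) (nat_lit 76) (nat_lit 3547448587) (nat_lit 143) (nat_lit 5) (nat_lit 147) (nat_lit 5) (nat_lit 144) (nat_lit 5) (nat_lit 483) (nat_lit 408) (nat_lit 309))) (XT.nd (nat_lit 78) (nat_lit 76) (nat_lit 0) (XT.lf (nat_lit 0) (nat_lit 6156897875) (nat_lit 152) (nat_lit 8609268947) (nat_lit 228) (nat_lit 4552151369) (nat_lit 141) (nat_lit 5) (nat_lit 143) (nat_lit 5) (nat_lit 144) (nat_lit 5) (nat_lit 484) (nat_lit 408) (nat_lit 308)) (XT.lf (nat_lit 0) (nat_lit 942184466) (nat_lit 228) (nat_lit 591524223) (nat_lit 76) (nat_lit 18144262183) (nat_lit 140) (nat_lit 5) (nat_lit 143) (nat_lit 5) (nat_lit 141) (nat_lit 5) (nat_lit 485) (nat_lit 408) (nat_lit 307)))) (XT.nd (nat_lit 156) (nat_lit 304) (nat_lit 0) (XT.nd (nat_lit 78) (nat_lit 152) (nat_lit 0) (XT.lf (nat_lit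 0) (nat_lit 6666841139) (nat_lit 304) (nat_lit 7580953856) (nat_lit 76) (nat_lit 5794556810) (nat_lit 137) (nat_lit 5) (nat_lit 141) (nat_lit 5) (nat_lit 138) (nat_lit 5) (nat_lit 486) (nat_lit 408) (nat_lit 306)) (XT.lf (nat_lit 0) (nat_lit 5558865710) (nat_lit 152) (nat_lit 7058967367) (nat_lit 228) (nat_lit 7798193541) (nat_lit 135) (nat_lit 5) (nat_lit 137) (nat_lit 5) (nat_lit 138) (nat_lit 5) (nat_lit 487) (nat_lit 408) (nat_lit 305))) (XT.nd (nat_lit 78) (nat_lit 304) (nat_lit 0) (XT.lf (nat_lit 0) (nat_lit 18808039590) (nat_lit 228) (nat_lit 1589434622) (nat_lit 76) (nat_lit 401617229) (nat_lit 135) (nat_lit 5) (nat_lit 138) (nat_lit 5) (nat_lit 136) (nat_lit 5) (nat_lit 488) (nat_lit 408) (nat_lit 304)) (XT.lf (nat_lit 0) (nat_lit 4082002202) (nat_lit 304) (nat_lit 9017925679) (nat_lit 76) (nat_lit 8087483004) (nat_lit 131) (nat_lit 5) (nat_lit 135) (nat_lit 5) (nat_lit 132) (nat_lit 5) (nat_lit 489) (nat_lit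 408) (nat_lit 303))))) (XT.nd (nat_lit 312) (nat_lit 380) (nat_lit 0) (XT.nd (nat_lit 156) (nat_lit 380) (nat_lit 0) (XT.nd (nat_lit 78) (nat_lit 0) (nat_lit 0) (XT.lf (nat_lit 0) (nat_lit 4827124919) (nat_lit 152) (nat_lit 5513399612) (nat_lit 228) (nat_lit 11244965419) (nat_lit 129) (nat_lit 5) (nat_lit 131) (nat_lit 5) (nat_lit 132) (nat_lit 5) (nat_lit 490) (nat_lit 408) (nat_lit 302)) (XT.lf (nat_lit 0) (nat_lit 16881665650) (nat_lit 228) (nat_lit 2777562833) (nat_lit 76) (nat_lit 2333437285) (nat_lit 129) (nat_lit 5) (nat_lit 132) (nat_lit 5) (nat_lit 130) (nat_lit 5) (nat_lit 491) (nat_lit 408) (nat_lit 301))) (XT.nd (nat_lit 78) (nat_lit 152) (nat_lit 0) (XT.lf (nat_lit 0) (nat_lit 1333924147) (nat_lit 228) (nat_lit 10656178209) (nat_lit 76) (nat_lit 10417091918) (nat_lit 126) (nat_lit 5) (nat_lit 129) (nat_lit 5) (nat_lit 127) (nat_lit 5) (nat_lit 492) (nat_lit 408) (nat_lit 300)) (XT.lf (nat_lit 0) (nat_lit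 3931710263) (nat_lit 152) (nat_lit 3985266496) (nat_lit 228) (nat_lit 14914238811) (nat_lit 124) (nat_lit 5) (nat_lit 126) (nat_lit 5) (nat_lit 127) (nat_lit 5) (nat_lit 493) (nat_lit 408) (nat_lit 299)))) (XT.nd (nat_lit 156) (nat_lit 228) (nat_lit 0) (XT.nd (nat_lit 78) (nat_lit 152) (nat_lit 0) (XT.lf (nat_lit 0) (nat_lit 14828613671) (nat_lit 228) (nat_lit 4164354506) (nat_lit 76) (nat_lit 4271056790) (nat_lit 124) (nat_lit 5) (nat_lit 127) (nat_lit 5) (nat_lit 125) (nat_lit 5) (nat_lit 494) (nat_lit 408) (nat_lit 298)) (XT.lf (nat_lit 0) (nat_lit 11158821730) (nat_lit 152) (nat_lit 10917514883) (nat_lit 228) (nat_lit 1629620163) (nat_lit 122) (nat_lit 5) (nat_lit 124) (nat_lit 5) (nat_lit 125) (nat_lit 5) (nat_lit 495) (nat_lit 408) (nat_lit 297))) (XT.nd (nat_lit 78) (nat_lit 0) (nat_lit 0) (XT.lf (nat_lit 0) (nat_lit 2838058331) (nat_lit 152) (nat_lit 2489099288) (nat_lit 228) (nat_lit 18830883487) (nat_lit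 119) (nat_lit 5) (nat_lit 121) (nat_lit 5) (nat_lit 122) (nat_lit 5) (nat_lit 496) (nat_lit 408) (nat_lit 296)) (XT.lf (nat_lit 0) (nat_lit 12629494458) (nat_lit 228) (nat_lit 5787225364) (nat_lit 76) (nat_lit 6201396030) (nat_lit 119) (nat_lit 5) (nat_lit 122) (nat_lit 5) (nat_lit 120) (nat_lit 5) (nat_lit 497) (nat_lit 408) (nat_lit 295)))))) (XT.nd (nat_lit 624) (nat_lit 912) (nat_lit 0) (XT.nd (nat_lit 312) (nat_lit 380) (nat_lit 0) (XT.nd (nat_lit 156) (nat_lit 152) (nat_lit 0) (XT.nd (nat_lit 78) (nat_lit 228) (nat_lit 0) (XT.lf (nat_lit 0) (nat_lit 10357489242) (nat_lit 152) (nat_lit 9900270321) (nat_lit 228) (nat_lit 4831027744) (nat_lit 117) (nat_lit 5) (nat_lit 119) (nat_lit 5) (nat_lit 120) (nat_lit 5) (nat_lit 498) (nat_lit 408) (nat_lit 294)) (XT.lf (nat_lit 0) (nat_lit 1506207557) (nat_lit 152) (nat_lit 1041679894) (nat_lit 228) (nat_lit 23023273295) (nat_lit 114) (nat_lit 5) (nat_lit 116) (nat_lit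 5) (nat_lit 117) (nat_lit 5) (nat_lit 499) (nat_lit 408) (nat_lit 293))) (XT.nd (nat_lit 78) (nat_lit 152) (nat_lit 0) (XT.lf (nat_lit 0) (nat_lit 10261752079) (nat_lit 228) (nat_lit 7689325140) (nat_lit 76) (nat_lit 8109172977) (nat_lit 114) (nat_lit 5) (nat_lit 117) (nat_lit 5) (nat_lit 115) (nat_lit 5) (nat_lit 500) (nat_lit 408) (nat_lit 292)) (XT.lf (nat_lit 0) (nat_lit 9318416647) (nat_lit 152) (nat_lit 8971761485) (nat_lit 228) (nat_lit 8271340020) (nat_lit 112) (nat_lit 5) (nat_lit 114) (nat_lit 5) (nat_lit 115) (nat_lit 5) (nat_lit 501) (nat_lit 408) (nat_lit 291)))) (XT.nd (nat_lit 156) (nat_lit 152) (nat_lit 0) (XT.nd (nat_lit 78) (nat_lit 228) (nat_lit 0) (XT.lf (nat_lit 0) (nat_lit 26623855126) (nat_lit 228) (nat_lit 115651464) (nat_lit 76) (nat_lit 336385796) (nat_lit 112) (nat_lit 5) (nat_lit 115) (nat_lit 5) (nat_lit 113) (nat_lit 4) (nat_lit 502) (nat_lit 408) (nat_lit 290)) (XT.lf (nat_lit 0) (nat_lit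 7699205573) (nat_lit 228) (nat_lit 9920501386) (nat_lit 76) (nat_lit 9976427840) (nat_lit 109) (nat_lit 5) (nat_lit 112) (nat_lit 5) (nat_lit 110) (nat_lit 5) (nat_lit 503) (nat_lit 408) (nat_lit 289))) (XT.nd (nat_lit 78) (nat_lit 0) (nat_lit 0) (XT.lf (nat_lit 0) (nat_lit 7992682836) (nat_lit 152) (nat_lit 8155062305) (nat_lit 228) (nat_lit 11982249894) (nat_lit 107) (nat_lit 5) (nat_lit 109) (nat_lit 5) (nat_lit 110) (nat_lit 5) (nat_lit 504) (nat_lit 408) (nat_lit 288)) (XT.lf (nat_lit 0) (nat_lit 24950118966) (nat_lit 228) (nat_lit 2076482395) (nat_lit 76) (nat_lit 1650258537) (nat_lit 107) (nat_lit 5) (nat_lit 110) (nat_lit 5) (nat_lit 108) (nat_lit 4) (nat_lit 505) (nat_lit 408) (nat_lit 287))))) (XT.nd (nat_lit 312) (nat_lit 456) (nat_lit 0) (XT.nd (nat_lit 156) (nat_lit 152) (nat_lit 0) (XT.nd (nat_lit 78) (nat_lit 152) (nat_lit 0) (XT.lf (nat_lit 0) (nat_lit 4911513721) (nat_lit 152) (nat_lit 12538412716)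 (nat_lit 76) (nat_lit 11781978427) (nat_lit 105) (nat_lit 5) (nat_lit 107) (nat_lit 5) (nat_lit 106) (nat_lit 5) (nat_lit 506) (nat_lit 408) (nat_lit 286)) (XT.lf (nat_lit 0) (nat_lit 6323360876) (nat_lit 152) (nat_lit 7476996974) (nat_lit 228) (nat_lit 16000146156) (nat_lit 103) (nat_lit 5) (nat_lit 105) (nat_lit 5) (nat_lit 106) (nat_lit 5) (nat_lit 507) (nat_lit 408) (nat_lit 285))) (XT.nd (nat_lit 78) (nat_lit 152) (nat_lit 0) (XT.lf (nat_lit 0) (nat_lit 23095037809) (nat_lit 228) (nat_lit 4431605821) (nat_lit 76) (nat_lit 2855342521) (nat_lit 103) (nat_lit 5) (nat_lit 106) (nat_lit 5) (nat_lit 104) (nat_lit 4) (nat_lit 508) (nat_lit 408) (nat_lit 284)) (XT.lf (nat_lit 0) (nat_lit 1863551173) (nat_lit 152) (nat_lit 15609815809) (nat_lit 76) (nat_lit 13500794099) (nat_lit 101) (nat_lit 5) (nat_lit 103) (nat_lit 5) (nat_lit 102) (nat_lit 5) (nat_lit 509) (nat_lit 408) (nat_lit 283)))) (XT.nd (nat_lit 156) (nat_lit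 304) (nat_lit 0) (XT.nd (nat_lit 78) (nat_lit 0) (nat_lit 0) (XT.lf (nat_lit 0) (nat_lit 4244179383) (nat_lit 152) (nat_lit 6968828413) (nat_lit 228) (nat_lit 20366802078) (nat_lit 99) (nat_lit 5) (nat_lit 101) (nat_lit 5) (nat_lit 102) (nat_lit 5) (nat_lit 510) (nat_lit 408) (nat_lit 282)) (XT.lf (nat_lit 0) (nat_lit 21024109315) (nat_lit 228) (nat_lit 7252048898) (nat_lit 76) (nat_lit 3922035209) (nat_lit 99) (nat_lit 5) (nat_lit 102) (nat_lit 5) (nat_lit 100) (nat_lit 4) (nat_lit 511) (nat_lit 408) (nat_lit 281))) (XT.nd (nat_lit 78) (nat_lit 228) (nat_lit 0) (XT.lf (nat_lit 0) (nat_lit 13602957741) (nat_lit 76) (nat_lit 17711737883) (nat_lit 152) (nat_lit 1514878424) (nat_lit 98) (nat_lit 5) (nat_lit 99) (nat_lit 5) (nat_lit 100) (nat_lit 4) (nat_lit 512) (nat_lit 408) (nat_lit 280)) (XT.lf (nat_lit 0) (nat_lit 1677972441) (nat_lit 152) (nat_lit 6667051282) (nat_lit 228) (nat_lit 25130175272) (nat_lit 95) (nat_lit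 5) (nat_lit 97) (nat_lit 5) (nat_lit 98) (nat_lit 5) (nat_lit 513) (nat_lit 408) (nat_lit 279))))))))
noncomputable def xc115 : XT := (XT.nd (nat_lit 2418) (nat_lit 532) (nat_lit 0) (XT.nd (nat_lit 1170) (nat_lit 1140) (nat_lit 0) (XT.nd (nat_lit 546) (nat_lit 684) (nat_lit 0) (XT.nd (nat_lit 234) (nat_lit 456) (nat_lit 0) (XT.nd (nat_lit 78) (nat_lit 152) (nat_lit 0) (XT.lf (nat_lit 0) (nat_lit 18697067224) (nat_lit 228) (nat_lit 10620315697) (nat_lit 76) (nat_lit 4815556166) (nat_lit 95) (nat_lit 5) (nat_lit 98) (nat_lit 5) (nat_lit 96) (nat_lit 4) (nat_lit 514) (nat_lit 408) (nat_lit 278)) (XT.nd (nat_lit 78) (nat_lit 76) (nat_lit 0) (XT.lf (nat_lit 0) (nat_lit 11320003067) (nat_lit 76) (nat_lit 18200370739) (nat_lit 152) (nat_lit 5285216631) (nat_lit 94) (nat_lit 5) (nat_lit 95) (nat_lit 5) (nat_lit 96) (nat_lit 4) (nat_lit 515) (nat_lit 408) (nat_lit 277)) (XT.lf (nat_lit 0) (nat_lit 5163274554) (nat_lit 152)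 (nat_lit 1436526462) (nat_lit 76) (nat_lit 28894303488) (nat_lit 93) (nat_lit 5) (nat_lit 95) (nat_lit 5) (nat_lit 94) (nat_lit 5) (nat_lit 516) (nat_lit 408) (nat_lit 276)))) (XT.nd (nat_lit 156) (nat_lit 228) (nat_lit 0) (XT.nd (nat_lit 78) (nat_lit 76) (nat_lit 0) (XT.lf (nat_lit 0) (nat_lit 16066971716) (nat_lit 228) (nat_lit 14632262049) (nat_lit 76) (nat_lit 5495031097) (nat_lit 91) (nat_lit 5) (nat_lit 94) (nat_lit 5) (nat_lit 92) (nat_lit 4) (nat_lit 517) (nat_lit 408) (nat_lit 275)) (XT.lf (nat_lit 0) (nat_lit 8438054674) (nat_lit 76) (nat_lit 19007170310) (nat_lit 152) (nat_lit 9465781789) (nat_lit 90) (nat_lit 5) (nat_lit 91) (nat_lit 5) (nat_lit 92) (nat_lit 4) (nat_lit 518) (nat_lit 408) (nat_lit 274))) (XT.nd (nat_lit 78) (nat_lit 152) (nat_lit 0) (XT.lf (nat_lit 0) (nat_lit 1621575868) (nat_lit 152) (nat_lit 5186492568) (nat_lit 76) (nat_lit 30836678280) (nat_lit 89) (nat_lit 5) (nat_lit 91) (nat_lit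 5) (nat_lit 90) (nat_lit 5) (nat_lit 519) (nat_lit 408) (nat_lit 273)) (XT.lf (nat_lit 0) (nat_lit 13079151681) (nat_lit 228) (nat_lit 19399267762) (nat_lit 76) (nat_lit 5912432377) (nat_lit 87) (nat_lit 5) (nat_lit 90) (nat_lit 5) (nat_lit 88) (nat_lit 4) (nat_lit 520) (nat_lit 408) (nat_lit 272))))) (XT.nd (nat_lit 312) (nat_lit 304) (nat_lit 0) (XT.nd (nat_lit 156) (nat_lit 304) (nat_lit 0) (XT.nd (nat_lit 78) (nat_lit 0) (nat_lit 0) (XT.lf (nat_lit 0) (nat_lit 4844825562) (nat_lit 76) (nat_lit 20189281763) (nat_lit 152) (nat_lit 14120623264) (nat_lit 86) (nat_lit 5) (nat_lit 87) (nat_lit 5) (nat_lit 88) (nat_lit 4) (nat_lit 521) (nat_lit 408) (nat_lit 271)) (XT.lf (nat_lit 0) (nat_lit 30188814712) (nat_lit 76) (nat_lit 7341717816) (nat_lit 152) (nat_lit 2405508649) (nat_lit 86) (nat_lit 5) (nat_lit 87) (nat_lit 5) (nat_lit 88) (nat_lit 4) (nat_lit 522) (nat_lit 408) (nat_lit 270))) (XT.nd (nat_lit 78) (nat_lit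 76) (nat_lit 0) (XT.lf (nat_lit 0) (nat_lit 9669975553) (nat_lit 228) (nat_lit 25050753966) (nat_lit 76) (nat_lit 6011352458) (nat_lit 83) (nat_lit 5) (nat_lit 86) (nat_lit 5) (nat_lit 84) (nat_lit 4) (nat_lit 523) (nat_lit 408) (nat_lit 269)) (XT.lf (nat_lit 0) (nat_lit 409358920) (nat_lit 76) (nat_lit 21813252678) (nat_lit 152) (nat_lit 19323780902) (nat_lit 82) (nat_lit 5) (nat_lit 83) (nat_lit 5) (nat_lit 84) (nat_lit 4) (nat_lit 524) (nat_lit 408) (nat_lit 268)))) (XT.nd (nat_lit 156) (nat_lit 76) (nat_lit 0) (XT.nd (nat_lit 78) (nat_lit 228) (nat_lit 0) (XT.lf (nat_lit 0) (nat_lit 27122388734) (nat_lit 76) (nat_lit 8269747468) (nat_lit 152) (nat_lit 6985786928) (nat_lit 82) (nat_lit 5) (nat_lit 83) (nat_lit 5) (nat_lit 84) (nat_lit 4) (nat_lit 525) (nat_lit 408) (nat_lit 267)) (XT.lf (nat_lit 0) (nat_lit 5765423623) (nat_lit 228) (nat_lit 31737100897) (nat_lit 76) (nat_lit 5725582818) (nat_lit 79) (nat_lit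 5) (nat_lit 82) (nat_lit 5) (nat_lit 80) (nat_lit 4) (nat_lit 526) (nat_lit 408) (nat_lit 266))) (XT.nd (nat_lit 78) (nat_lit 76) (nat_lit 0) (XT.lf (nat_lit 0) (nat_lit 18983834497) (nat_lit 228) (nat_lit 4923041009) (nat_lit 76) (nat_lit 20188094507) (nat_lit 79) (nat_lit 5) (nat_lit 82) (nat_lit 5) (nat_lit 80) (nat_lit 4) (nat_lit 527) (nat_lit 408) (nat_lit 265)) (XT.lf (nat_lit 0) (nat_lit 23123397052) (nat_lit 76) (nat_lit 9685654044) (nat_lit 152) (nat_lit 12172479935) (nat_lit 78) (nat_lit 5) (nat_lit 79) (nat_lit 5) (nat_lit 80) (nat_lit 4) (nat_lit 528) (nat_lit 408) (nat_lit 264)))))) (XT.nd (nat_lit 624) (nat_lit 532) (nat_lit 0) (XT.nd (nat_lit 312) (nat_lit 380) (nat_lit 0) (XT.nd (nat_lit 156) (nat_lit 76) (nat_lit 0) (XT.nd (nat_lit 78) (nat_lit 0) (nat_lit 0) (XT.lf (nat_lit 0) (nat_lit 1279430391) (nat_lit 152) (nat_lit 39633030234) (nat_lit 76) (nat_lit 4977466824) (nat_lit 76) (nat_lit 5) (nat_lit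 78) (nat_lit 5) (nat_lit 77) (nat_lit 4) (nat_lit 529) (nat_lit 408) (nat_lit 263)) (XT.lf (nat_lit 0) (nat_lit 15197059564) (nat_lit 152) (nat_lit 11397403418) (nat_lit 76) (nat_lit 20218292762) (nat_lit 76) (nat_lit 5) (nat_lit 78) (nat_lit 5) (nat_lit 77) (nat_lit 4) (nat_lit 530) (nat_lit 408) (nat_lit 262))) (XT.nd (nat_lit 78) (nat_lit 0) (nat_lit 0) (XT.lf (nat_lit 0) (nat_lit 18014196096) (nat_lit 76) (nat_lit 11679543321) (nat_lit 152) (nat_lit 18064683875) (nat_lit 75) (nat_lit 5) (nat_lit 76) (nat_lit 5) (nat_lit 77) (nat_lit 4) (nat_lit 531) (nat_lit 408) (nat_lit 261)) (XT.lf (nat_lit 0) (nat_lit 44765329722) (nat_lit 152) (nat_lit 246407243) (nat_lit 0) (nat_lit 3716523656) (nat_lit 75) (nat_lit 5) (nat_lit 77) (nat_lit 4) (nat_lit 75) (nat_lit 4) (nat_lit 532) (nat_lit 408) (nat_lit 260)))) (XT.nd (nat_lit 156) (nat_lit 152) (nat_lit 0) (XT.nd (nat_lit 78) (nat_lit 76) (nat_lit 0) (XT.lf (nat_lit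 0) (nat_lit 10758179858) (nat_lit 152) (nat_lit 19224947749) (nat_lit 76) (nat_lit 19728947540) (nat_lit 73) (nat_lit 5) (nat_lit 75) (nat_lit 5) (nat_lit 74) (nat_lit 4) (nat_lit 533) (nat_lit 408) (nat_lit 259)) (XT.lf (nat_lit 0) (nat_lit 11587250259) (nat_lit 76) (nat_lit 14356644241) (nat_lit 152) (nat_lit 24777253906) (nat_lit 72) (nat_lit 5) (nat_lit 73) (nat_lit 5) (nat_lit 74) (nat_lit 4) (nat_lit 534) (nat_lit 408) (nat_lit 258))) (XT.nd (nat_lit 78) (nat_lit 152) (nat_lit 0) (XT.lf (nat_lit 0) (nat_lit 41786691813) (nat_lit 152) (nat_lit 8077401987) (nat_lit 0) (nat_lit 1890354778) (nat_lit 72) (nat_lit 5) (nat_lit 74) (nat_lit 4) (nat_lit 72) (nat_lit 4) (nat_lit 535) (nat_lit 408) (nat_lit 257)) (XT.lf (nat_lit 0) (nat_lit 5550511516) (nat_lit 152) (nat_lit 28642345237) (nat_lit 76) (nat_lit 18613337605) (nat_lit 70) (nat_lit 5) (nat_lit 72) (nat_lit 5) (nat_lit 71) (nat_lit 4) (nat_lit 536) (nat_lit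 408) (nat_lit 256))))) (XT.nd (nat_lit 312) (nat_lit 304) (nat_lit 0) (XT.nd (nat_lit 156) (nat_lit 152) (nat_lit 0) (XT.nd (nat_lit 78) (nat_lit 0) (nat_lit 0) (XT.lf (nat_lit 0) (nat_lit 3600255669) (nat_lit 76) (nat_lit 17839789308) (nat_lit 152) (nat_lit 32443305087) (nat_lit 69) (nat_lit 5) (nat_lit 70) (nat_lit 5) (nat_lit 71) (nat_lit 4) (nat_lit 537) (nat_lit 408) (nat_lit 255)) (XT.lf (nat_lit 0) (nat_lit 37376113028) (nat_lit 76) (nat_lit 708575453) (nat_lit 152) (nat_lit 16899779285) (nat_lit 69) (nat_lit 5) (nat_lit 70) (nat_lit 5) (nat_lit 71) (nat_lit 4) (nat_lit 538) (nat_lit 408) (nat_lit 254))) (XT.nd (nat_lit 78) (nat_lit 76) (nat_lit 0) (XT.lf (nat_lit 0) (nat_lit 16178764958) (nat_lit 76) (nat_lit 39357641897) (nat_lit 76) (nat_lit 572980120) (nat_lit 68) (nat_lit 4) (nat_lit 69) (nat_lit 5) (nat_lit 69) (nat_lit 4) (nat_lit 539) (nat_lit 408) (nat_lit 253)) (XT.lf (nat_lit 0) (nat_lit 16102655041)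 (nat_lit 152) (nat_lit 6107957443) (nat_lit 76) (nat_lit 35047476902) (nat_lit 67) (nat_lit 5) (nat_lit 69) (nat_lit 5) (nat_lit 68) (nat_lit 4) (nat_lit 540) (nat_lit 408) (nat_lit 252)))) (XT.nd (nat_lit 156) (nat_lit 152) (nat_lit 0) (XT.nd (nat_lit 78) (nat_lit 76) (nat_lit 0) (XT.lf (nat_lit 0) (nat_lit 29274805362) (nat_lit 76) (nat_lit 4263370789) (nat_lit 152) (nat_lit 24894772568) (nat_lit 66) (nat_lit 5) (nat_lit 67) (nat_lit 5) (nat_lit 68) (nat_lit 4) (nat_lit 541) (nat_lit 408) (nat_lit 251)) (XT.lf (nat_lit 0) (nat_lit 6165870377) (nat_lit 76) (nat_lit 45578904020) (nat_lit 76) (nat_lit 7890839130) (nat_lit 65) (nat_lit 4) (nat_lit 66) (nat_lit 5) (nat_lit 66) (nat_lit 4) (nat_lit 542) (nat_lit 408) (nat_lit 250))) (XT.nd (nat_lit 78) (nat_lit 76) (nat_lit 0) (XT.lf (nat_lit 0) (nat_lit 9764740893) (nat_lit 152) (nat_lit 17876023203) (nat_lit 76) (nat_lit 33220939731) (nat_lit 64) (nat_lit 5) (nat_lit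 66) (nat_lit 5) (nat_lit 65) (nat_lit 4) (nat_lit 543) (nat_lit 408) (nat_lit 249)) (XT.lf (nat_lit 0) (nat_lit 19059707724) (nat_lit 76) (nat_lit 8904939994) (nat_lit 152) (nat_lit 34152387616) (nat_lit 63) (nat_lit 5) (nat_lit 64) (nat_lit 5) (nat_lit 65) (nat_lit 4) (nat_lit 544) (nat_lit 408) (nat_lit 248))))))) (XT.nd (nat_lit 52494) (nat_lit 0) (nat_lit 20140) (XT.nd (nat_lit 51870) (nat_lit 0) (nat_lit 27132) (XT.nd (nat_lit 312) (nat_lit 304) (nat_lit 0) (XT.nd (nat_lit 156) (nat_lit 76) (nat_lit 0) (XT.nd (nat_lit 78) (nat_lit 152) (nat_lit 0) (XT.lf (nat_lit 0) (nat_lit 46982810780) (nat_lit 152) (nat_lit 6055959318) (nat_lit 0) (nat_lit 10363088952) (nat_lit 63) (nat_lit 5) (nat_lit 65) (nat_lit 4) (nat_lit 63) (nat_lit 4) (nat_lit 545) (nat_lit 408) (nat_lit 247)) (XT.lf (nat_lit 0) (nat_lit 2205872922) (nat_lit 152) (nat_lit 32151024359) (nat_lit 76) (nat_lit 30355929515) (nat_lit 61) (nat_lit 5) (nat_lit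 63) (nat_lit 5) (nat_lit 62) (nat_lit 4) (nat_lit 546) (nat_lit 408) (nat_lit 246))) (XT.nd (nat_lit 78) (nat_lit 0) (nat_lit 0) (XT.lf (nat_lit 0) (nat_lit 6342501010) (nat_lit 76) (nat_lit 14830111447) (nat_lit 152) (nat_lit 44882241886) (nat_lit 60) (nat_lit 5) (nat_lit 61) (nat_lit 5) (nat_lit 62) (nat_lit 4) (nat_lit 547) (nat_lit 408) (nat_lit 245)) (XT.lf (nat_lit 0) (nat_lit 41077370231) (nat_lit 152) (nat_lit 20850552495) (nat_lit 0) (nat_lit 5498149538) (nat_lit 60) (nat_lit 5) (nat_lit 62) (nat_lit 4) (nat_lit 60) (nat_lit 4) (nat_lit 548) (nat_lit 408) (nat_lit 244)))) (XT.nd (nat_lit 156) (nat_lit 152) (nat_lit 0) (XT.nd (nat_lit 78) (nat_lit 76) (nat_lit 0) (XT.lf (nat_lit 0) (nat_lit 19390142678) (nat_lit 76) (nat_lit 42512992371) (nat_lit 76) (nat_lit 6925575774) (nat_lit 59) (nat_lit 4) (nat_lit 60) (nat_lit 5) (nat_lit 60) (nat_lit 4) (nat_lit 549) (nat_lit 408) (nat_lit 243)) (XT.lf (nat_lit 0)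 (nat_lit 13028282321) (nat_lit 152) (nat_lit 9147960673) (nat_lit 76) (nat_lit 48087315094) (nat_lit 58) (nat_lit 5) (nat_lit 60) (nat_lit 5) (nat_lit 59) (nat_lit 4) (nat_lit 550) (nat_lit 408) (nat_lit 242))) (XT.nd (nat_lit 78) (nat_lit 76) (nat_lit 0) (XT.lf (nat_lit 0) (nat_lit 32906964036) (nat_lit 76) (nat_lit 841835592) (nat_lit 152) (nat_lit 37981376845) (nat_lit 57) (nat_lit 5) (nat_lit 58) (nat_lit 5) (nat_lit 59) (nat_lit 4) (nat_lit 551) (nat_lit 408) (nat_lit 241)) (XT.lf (nat_lit 0) (nat_lit 3009742102) (nat_lit 76) (nat_lit 52397480169) (nat_lit 76) (nat_lit 17824082475) (nat_lit 56) (nat_lit 4) (nat_lit 57) (nat_lit 5) (nat_lit 57) (nat_lit 4) (nat_lit 552) (nat_lit 408) (nat_lit 240))))) (XT.nd (nat_lit 312) (nat_lit 760) (nat_lit 0) (XT.nd (nat_lit 156) (nat_lit 608) (nat_lit 0) (XT.nd (nat_lit 78) (nat_lit 0) (nat_lit 0) (XT.lf (nat_lit 0) (nat_lit 779046722) (nat_lit 684) (nat_lit 1306550527)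 (nat_lit 684) (nat_lit 1306550527) (nat_lit 431) (nat_lit 3) (nat_lit 440) (nat_lit 3) (nat_lit 440) (nat_lit 5) (nat_lit 409) (nat_lit 409) (nat_lit 382)) (XT.lf (nat_lit 76) (nat_lit 783378639) (nat_lit 0) (nat_lit 2868098853) (nat_lit 684) (nat_lit 3172346343) (nat_lit 432) (nat_lit 5) (nat_lit 431) (nat_lit 3) (nat_lit 440) (nat_lit 5) (nat_lit 410) (nat_lit 409) (nat_lit 381))) (XT.nd (nat_lit 78) (nat_lit 608) (nat_lit 0) (XT.lf (nat_lit 76) (nat_lit 4293037168) (nat_lit 0) (nat_lit 1460113737) (nat_lit 684) (nat_lit 1113027722) (nat_lit 432) (nat_lit 5) (nat_lit 431) (nat_lit 3) (nat_lit 440) (nat_lit 5) (nat_lit 411) (nat_lit 409) (nat_lit 380)) (XT.lf (nat_lit 0) (nat_lit 918792123) (nat_lit 684) (nat_lit 5947383517) (nat_lit 760) (nat_lit 45430930) (nat_lit 423) (nat_lit 5) (nat_lit 432) (nat_lit 5) (nat_lit 433) (nat_lit 5) (nat_lit 412) (nat_lit 409) (nat_lit 379)))) (XT.nd (nat_lit 156) (nat_lit 760)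 (nat_lit 0) (XT.nd (nat_lit 78) (nat_lit 0) (nat_lit 0) (XT.lf (nat_lit 0) (nat_lit 2952810637) (nat_lit 684) (nat_lit 2367778090) (nat_lit 760) (nat_lit 1638574425) (nat_lit 423) (nat_lit 5) (nat_lit 432) (nat_lit 5) (nat_lit 433) (nat_lit 5) (nat_lit 413) (nat_lit 409) (nat_lit 378)) (XT.lf (nat_lit 76) (nat_lit 1301028773) (nat_lit 0) (nat_lit 3684489653) (nat_lit 760) (nat_lit 2024502652) (nat_lit 424) (nat_lit 5) (nat_lit 423) (nat_lit 5) (nat_lit 433) (nat_lit 5) (nat_lit 414) (nat_lit 409) (nat_lit 377))) (XT.nd (nat_lit 78) (nat_lit 760) (nat_lit 0) (XT.lf (nat_lit 76) (nat_lit 5085289690) (nat_lit 0) (nat_lit 1944755088) (nat_lit 760) (nat_lit 33839415) (nat_lit 424) (nat_lit 5) (nat_lit 423) (nat_lit 5) (nat_lit 433) (nat_lit 5) (nat_lit 415) (nat_lit 409) (nat_lit 376)) (XT.lf (nat_lit 76) (nat_lit 1836853742) (nat_lit 0) (nat_lit 86345876) (nat_lit 836) (nat_lit 5197206186) (nat_lit 414) (nat_lit 5)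 (nat_lit 413) (nat_lit 5) (nat_lit 424) (nat_lit 5) (nat_lit 416) (nat_lit 409) (nat_lit 375)))))) (XT.nd (nat_lit 624) (nat_lit 5472) (nat_lit 0) (XT.nd (nat_lit 312) (nat_lit 760) (nat_lit 0) (XT.nd (nat_lit 156) (nat_lit 836) (nat_lit 0) (XT.nd (nat_lit 78) (nat_lit 0) (nat_lit 0) (XT.lf (nat_lit 0) (nat_lit 3906301377) (nat_lit 760) (nat_lit 1434061873) (nat_lit 836) (nat_lit 1839212995) (nat_lit 414) (nat_lit 5) (nat_lit 424) (nat_lit 5) (nat_lit 425) (nat_lit 5) (nat_lit 417) (nat_lit 409) (nat_lit 374)) (XT.lf (nat_lit 76) (nat_lit 2535595009) (nat_lit 0) (nat_lit 3370844207) (nat_lit 836) (nat_lit 1335360353) (nat_lit 415) (nat_lit 5) (nat_lit 414) (nat_lit 5) (nat_lit 425) (nat_lit 5) (nat_lit 418) (nat_lit 409) (nat_lit 373))) (XT.nd (nat_lit 78) (nat_lit 0) (nat_lit 76) (XT.lf (nat_lit 0) (nat_lit 595632673) (nat_lit 836) (nat_lit 703055039) (nat_lit 912) (nat_lit 6008580173) (nat_lit 403) (nat_lit 5)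 (nat_lit 414) (nat_lit 5) (nat_lit 415) (nat_lit 5) (nat_lit 419) (nat_lit 409) (nat_lit 372)) (XT.lf (nat_lit 0) (nat_lit 2534540032) (nat_lit 836) (nat_lit 3953589719) (nat_lit 912) (nat_lit 886872856) (nat_lit 404) (nat_lit 5) (nat_lit 415) (nat_lit 5) (nat_lit 416) (nat_lit 5) (nat_lit 420) (nat_lit 409) (nat_lit 371)))) (XT.nd (nat_lit 156) (nat_lit 836) (nat_lit 0) (XT.nd (nat_lit 78) (nat_lit 0) (nat_lit 0) (XT.lf (nat_lit 76) (nat_lit 184940150) (nat_lit 0) (nat_lit 4305303666) (nat_lit 912) (nat_lit 2955770287) (nat_lit 405) (nat_lit 5) (nat_lit 404) (nat_lit 5) (nat_lit 416) (nat_lit 5) (nat_lit 421) (nat_lit 409) (nat_lit 370)) (XT.lf (nat_lit 76) (nat_lit 4483903349) (nat_lit 0) (nat_lit 1998872016) (nat_lit 912) (nat_lit 1037039382) (nat_lit 405) (nat_lit 5) (nat_lit 404) (nat_lit 5) (nat_lit 416) (nat_lit 5) (nat_lit 422) (nat_lit 409) (nat_lit 369))) (XT.nd (nat_lit 78) (nat_lit 0) (nat_lit 0) (XT.lf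 (nat_lit 0) (nat_lit 876722152) (nat_lit 912) (nat_lit 6313566141) (nat_lit 76) (nat_lit 406599652) (nat_lit 393) (nat_lit 5) (nat_lit 405) (nat_lit 5) (nat_lit 394) (nat_lit 5) (nat_lit 423) (nat_lit 409) (nat_lit 368)) (XT.lf (nat_lit 0) (nat_lit 2818722204) (nat_lit 912) (nat_lit 1957508666) (nat_lit 76) (nat_lit 2899987569) (nat_lit 393) (nat_lit 5) (nat_lit 405) (nat_lit 5) (nat_lit 394) (nat_lit 5) (nat_lit 424) (nat_lit 409) (nat_lit 367))))) (XT.nd (nat_lit 312) (nat_lit 2432) (nat_lit 0) (XT.nd (nat_lit 156) (nat_lit 2128) (nat_lit 0) (XT.nd (nat_lit 78) (nat_lit 0) (nat_lit 0) (XT.lf (nat_lit 0) (nat_lit 2533861532) (nat_lit 912) (nat_lit 2252116628) (nat_lit 988) (nat_lit 2972943924) (nat_lit 381) (nat_lit 5) (nat_lit 393) (nat_lit 5) (nat_lit 394) (nat_lit 5) (nat_lit 425) (nat_lit 409) (nat_lit 366)) (XT.lf (nat_lit 0) (nat_lit 6779552922) (nat_lit 988) (nat_lit 693126026) (nat_lit 76) (nat_lit 372411876)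 (nat_lit 381) (nat_lit 5) (nat_lit 394) (nat_lit 5) (nat_lit 382) (nat_lit 5) (nat_lit 426) (nat_lit 409) (nat_lit 365))) (XT.nd (nat_lit 78) (nat_lit 1064) (nat_lit 0) (XT.lf (nat_lit 0) (nat_lit 887840139) (nat_lit 1064) (nat_lit 3956955733) (nat_lit 76) (nat_lit 3088603497) (nat_lit 367) (nat_lit 5) (nat_lit 381) (nat_lit 5) (nat_lit 368) (nat_lit 5) (nat_lit 427) (nat_lit 409) (nat_lit 364)) (XT.lf (nat_lit 0) (nat_lit 734411571) (nat_lit 1064) (nat_lit 2104374211) (nat_lit 1140) (nat_lit 5186446180) (nat_lit 353) (nat_lit 5) (nat_lit 367) (nat_lit 5) (nat_lit 368) (nat_lit 5) (nat_lit 428) (nat_lit 409) (nat_lit 363)))) (XT.nd (nat_lit 156) (nat_lit 1292) (nat_lit 0) (XT.nd (nat_lit 78) (nat_lit 1140) (nat_lit 0) (XT.lf (nat_lit 0) (nat_lit 4842977364) (nat_lit 1140) (nat_lit 2524957432) (nat_lit 76) (nat_lit 752045897) (nat_lit 353) (nat_lit 5) (nat_lit 368) (nat_lit 5) (nat_lit 354) (nat_lit 5) (nat_lit 429)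 (nat_lit 409) (nat_lit 362)) (XT.lf (nat_lit 0) (nat_lit 2363862572) (nat_lit 1140) (nat_lit 4535980788) (nat_lit 1216) (nat_lit 1317954670) (nat_lit 338) (nat_lit 5) (nat_lit 353) (nat_lit 5) (nat_lit 354) (nat_lit 5) (nat_lit 430) (nat_lit 409) (nat_lit 361))) (XT.nd (nat_lit 78) (nat_lit 1216) (nat_lit 0) (XT.lf (nat_lit 0) (nat_lit 661505849) (nat_lit 1216) (nat_lit 919531888) (nat_lit 76) (nat_lit 6738053863) (nat_lit 337) (nat_lit 5) (nat_lit 353) (nat_lit 5) (nat_lit 338) (nat_lit 5) (nat_lit 431) (nat_lit 409) (nat_lit 360)) (XT.lf (nat_lit 0) (nat_lit 2679755416) (nat_lit 1292) (nat_lit 4250904864) (nat_lit 76) (nat_lit 1492197767) (nat_lit 321) (nat_lit 5) (nat_lit 338) (nat_lit 5) (nat_lit 322) (nat_lit 5) (nat_lit 432) (nat_lit 409) (nat_lit 359))))))))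
noncomputable def xc116 : XT := (XT.nd (nat_lit 2418) (nat_lit 5092) (nat_lit 0) (XT.nd (nat_lit 1170) (nat_lit 4484) (nat_lit 0) (XT.nd (nat_lit 546) (nat_lit 2736) (nat_lit 0) (XT.nd (nat_lit 234) (nat_lit 1140) (nat_lit 0) (XT.nd (nat_lit 78) (nat_lit 684) (nat_lit 0) (XT.lf (nat_lit 0) (nat_lit 861050289) (nat_lit 836) (nat_lit 3882867635) (nat_lit 912) (nat_lit 3786260915) (nat_lit 310) (nat_lit 5) (nat_lit 321) (nat_lit 5) (nat_lit 322) (nat_lit 5) (nat_lit 433) (nat_lit 409) (nat_lit 358)) (XT.nd (nat_lit 78) (nat_lit 684) (nat_lit 0) (XT.lf (nat_lit 0) (nat_lit 6168370821) (nat_lit 836) (nat_lit 697580107) (nat_lit 912) (nat_lit 1774892208) (nat_lit 310) (nat_lit 5) (nat_lit 321) (nat_lit 5) (nat_lit 322) (nat_lit 5) (nat_lit 434) (nat_lit 409) (nat_lit 357)) (XT.lf (nat_lit 0) (nat_lit 297877452) (nat_lit 684) (nat_lit 5891575109) (nat_lit 76) (nat_lit 2565085768) (nat_lit 301) (nat_lit 5) (nat_lit 310)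 (nat_lit 5) (nat_lit 302) (nat_lit 5) (nat_lit 435) (nat_lit 409) (nat_lit 356)))) (XT.nd (nat_lit 156) (nat_lit 532) (nat_lit 0) (XT.nd (nat_lit 78) (nat_lit 608) (nat_lit 0) (XT.lf (nat_lit 0) (nat_lit 2384136184) (nat_lit 684) (nat_lit 532140567) (nat_lit 76) (nat_lit 5955233101) (nat_lit 301) (nat_lit 5) (nat_lit 310) (nat_lit 5) (nat_lit 302) (nat_lit 5) (nat_lit 436) (nat_lit 409) (nat_lit 355)) (XT.lf (nat_lit 0) (nat_lit 4542473718) (nat_lit 684) (nat_lit 3954568899) (nat_lit 76) (nat_lit 494665172) (nat_lit 293) (nat_lit 5) (nat_lit 302) (nat_lit 5) (nat_lit 294) (nat_lit 5) (nat_lit 437) (nat_lit 409) (nat_lit 354))) (XT.nd (nat_lit 78) (nat_lit 0) (nat_lit 0) (XT.lf (nat_lit 0) (nat_lit 1626689243) (nat_lit 532) (nat_lit 5145828600) (nat_lit 608) (nat_lit 2342787066) (nat_lit 286) (nat_lit 5) (nat_lit 293) (nat_lit 5) (nat_lit 294) (nat_lit 5) (nat_lit 438) (nat_lit 409) (nat_lit 353)) (XT.lf (nat_lit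 0) (nat_lit 7411712135) (nat_lit 532) (nat_lit 1655525302) (nat_lit 608) (nat_lit 175441164) (nat_lit 286) (nat_lit 5) (nat_lit 293) (nat_lit 5) (nat_lit 294) (nat_lit 5) (nat_lit 439) (nat_lit 409) (nat_lit 352))))) (XT.nd (nat_lit 312) (nat_lit 988) (nat_lit 0) (XT.nd (nat_lit 156) (nat_lit 532) (nat_lit 0) (XT.nd (nat_lit 78) (nat_lit 532) (nat_lit 0) (XT.lf (nat_lit 0) (nat_lit 2033194425) (nat_lit 684) (nat_lit 5381915969) (nat_lit 76) (nat_lit 1957679493) (nat_lit 277) (nat_lit 5) (nat_lit 286) (nat_lit 5) (nat_lit 278) (nat_lit 5) (nat_lit 440) (nat_lit 409) (nat_lit 351)) (XT.lf (nat_lit 0) (nat_lit 464390919) (nat_lit 532) (nat_lit 3839112515) (nat_lit 608) (nat_lit 5203282473) (nat_lit 270) (nat_lit 5) (nat_lit 277) (nat_lit 5) (nat_lit 278) (nat_lit 5) (nat_lit 441) (nat_lit 409) (nat_lit 350))) (XT.nd (nat_lit 78) (nat_lit 532) (nat_lit 0) (XT.lf (nat_lit 0) (nat_lit 6551840039) (nat_lit 532) (nat_lit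 104595141) (nat_lit 608) (nat_lit 2987932897) (nat_lit 270) (nat_lit 5) (nat_lit 277) (nat_lit 5) (nat_lit 278) (nat_lit 5) (nat_lit 442) (nat_lit 409) (nat_lit 349)) (XT.lf (nat_lit 0) (nat_lit 3014294274) (nat_lit 532) (nat_lit 6091888479) (nat_lit 608) (nat_lit 679109747) (nat_lit 263) (nat_lit 5) (nat_lit 270) (nat_lit 5) (nat_lit 271) (nat_lit 5) (nat_lit 443) (nat_lit 409) (nat_lit 348)))) (XT.nd (nat_lit 156) (nat_lit 456) (nat_lit 0) (XT.nd (nat_lit 78) (nat_lit 456) (nat_lit 0) (XT.lf (nat_lit 0) (nat_lit 1660008080) (nat_lit 608) (nat_lit 624189925) (nat_lit 76) (nat_lit 7645932738) (nat_lit 262) (nat_lit 5) (nat_lit 270) (nat_lit 5) (nat_lit 263) (nat_lit 5) (nat_lit 444) (nat_lit 409) (nat_lit 347)) (XT.lf (nat_lit 0) (nat_lit 4090137082) (nat_lit 532) (nat_lit 4325404107) (nat_lit 76) (nat_lit 1662538103) (nat_lit 256) (nat_lit 5) (nat_lit 263) (nat_lit 5) (nat_lit 257) (nat_lit 5) (nat_lit 445) (nat_lit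 409) (nat_lit 346))) (XT.nd (nat_lit 78) (nat_lit 0) (nat_lit 0) (XT.lf (nat_lit 0) (nat_lit 2077189005) (nat_lit 456) (nat_lit 4528268415) (nat_lit 532) (nat_lit 3624641697) (nat_lit 250) (nat_lit 5) (nat_lit 256) (nat_lit 5) (nat_lit 257) (nat_lit 5) (nat_lit 446) (nat_lit 409) (nat_lit 345)) (XT.lf (nat_lit 0) (nat_lit 8716927598) (nat_lit 456) (nat_lit 486975504) (nat_lit 532) (nat_lit 1182547864) (nat_lit 250) (nat_lit 5) (nat_lit 256) (nat_lit 5) (nat_lit 257) (nat_lit 5) (nat_lit 447) (nat_lit 409) (nat_lit 344)))))) (XT.nd (nat_lit 624) (nat_lit 2204) (nat_lit 0) (XT.nd (nat_lit 312) (nat_lit 912) (nat_lit 0) (XT.nd (nat_lit 156) (nat_lit 380) (nat_lit 0) (XT.nd (nat_lit 78) (nat_lit 456) (nat_lit 0) (XT.lf (nat_lit 0) (nat_lit 1355909079) (nat_lit 532) (nat_lit 5531493096) (nat_lit 76) (nat_lit 3658234918) (nat_lit 243) (nat_lit 5) (nat_lit 250) (nat_lit 5) (nat_lit 244) (nat_lit 5) (nat_lit 448) (nat_lit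 409) (nat_lit 343)) (XT.lf (nat_lit 0) (nat_lit 1186327513) (nat_lit 456) (nat_lit 2758907030) (nat_lit 532) (nat_lit 6764059804) (nat_lit 237) (nat_lit 5) (nat_lit 243) (nat_lit 5) (nat_lit 244) (nat_lit 5) (nat_lit 449) (nat_lit 409) (nat_lit 342))) (XT.nd (nat_lit 78) (nat_lit 380) (nat_lit 0) (XT.lf (nat_lit 0) (nat_lit 6648749281) (nat_lit 532) (nat_lit 2716111514) (nat_lit 76) (nat_lit 1511906485) (nat_lit 237) (nat_lit 5) (nat_lit 244) (nat_lit 5) (nat_lit 238) (nat_lit 5) (nat_lit 450) (nat_lit 409) (nat_lit 341)) (XT.lf (nat_lit 0) (nat_lit 4308910175) (nat_lit 380) (nat_lit 5159936185) (nat_lit 456) (nat_lit 1579354941) (nat_lit 232) (nat_lit 5) (nat_lit 237) (nat_lit 5) (nat_lit 238) (nat_lit 5) (nat_lit 451) (nat_lit 409) (nat_lit 340)))) (XT.nd (nat_lit 156) (nat_lit 380) (nat_lit 0) (XT.nd (nat_lit 78) (nat_lit 0) (nat_lit 0) (XT.lf (nat_lit 0) (nat_lit 328455319) (nat_lit 456) (nat_lit 795729845)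 (nat_lit 532) (nat_lit 10100328027) (nat_lit 225) (nat_lit 5) (nat_lit 231) (nat_lit 5) (nat_lit 232) (nat_lit 5) (nat_lit 452) (nat_lit 409) (nat_lit 339)) (XT.lf (nat_lit 0) (nat_lit 3948808355) (nat_lit 532) (nat_lit 3753061758) (nat_lit 76) (nat_lit 3701624703) (nat_lit 225) (nat_lit 5) (nat_lit 232) (nat_lit 5) (nat_lit 226) (nat_lit 5) (nat_lit 453) (nat_lit 409) (nat_lit 338))) (XT.nd (nat_lit 78) (nat_lit 0) (nat_lit 0) (XT.lf (nat_lit 0) (nat_lit 3624846477) (nat_lit 380) (nat_lit 3244427108) (nat_lit 456) (nat_lit 4718240281) (nat_lit 220) (nat_lit 5) (nat_lit 225) (nat_lit 5) (nat_lit 226) (nat_lit 5) (nat_lit 454) (nat_lit 409) (nat_lit 337)) (XT.lf (nat_lit 0) (nat_lit 9897368771) (nat_lit 456) (nat_lit 530861430) (nat_lit 76) (nat_lit 1348223848) (nat_lit 220) (nat_lit 5) (nat_lit 226) (nat_lit 5) (nat_lit 221) (nat_lit 5) (nat_lit 455) (nat_lit 409) (nat_lit 336))))) (XT.nd (nat_lit 312) (nat_lit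 988) (nat_lit 0) (XT.nd (nat_lit 156) (nat_lit 380) (nat_lit 0) (XT.nd (nat_lit 78) (nat_lit 380) (nat_lit 0) (XT.lf (nat_lit 0) (nat_lit 1096499022) (nat_lit 456) (nat_lit 4789000937) (nat_lit 76) (nat_lit 6083112501) (nat_lit 214) (nat_lit 5) (nat_lit 220) (nat_lit 5) (nat_lit 215) (nat_lit 5) (nat_lit 456) (nat_lit 409) (nat_lit 335)) (XT.lf (nat_lit 0) (nat_lit 2963474284) (nat_lit 380) (nat_lit 1163906793) (nat_lit 456) (nat_lit 8038483418) (nat_lit 209) (nat_lit 5) (nat_lit 214) (nat_lit 5) (nat_lit 215) (nat_lit 5) (nat_lit 457) (nat_lit 409) (nat_lit 334))) (XT.nd (nat_lit 78) (nat_lit 380) (nat_lit 0) (XT.lf (nat_lit 0) (nat_lit 7303855247) (nat_lit 456) (nat_lit 1398901156) (nat_lit 76) (nat_lit 3664638644) (nat_lit 209) (nat_lit 5) (nat_lit 215) (nat_lit 5) (nat_lit 210) (nat_lit 5) (nat_lit 458) (nat_lit 409) (nat_lit 333)) (XT.lf (nat_lit 0) (nat_lit 6717501519) (nat_lit 380) (nat_lit 3905351758) (nat_lit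 456) (nat_lit 1950702249) (nat_lit 204) (nat_lit 5) (nat_lit 209) (nat_lit 5) (nat_lit 210) (nat_lit 5) (nat_lit 459) (nat_lit 409) (nat_lit 332)))) (XT.nd (nat_lit 156) (nat_lit 608) (nat_lit 0) (XT.nd (nat_lit 78) (nat_lit 0) (nat_lit 0) (XT.lf (nat_lit 0) (nat_lit 1249142308) (nat_lit 380) (nat_lit 10483036034) (nat_lit 76) (nat_lit 1052817611) (nat_lit 199) (nat_lit 5) (nat_lit 204) (nat_lit 5) (nat_lit 200) (nat_lit 5) (nat_lit 460) (nat_lit 409) (nat_lit 331)) (XT.lf (nat_lit 0) (nat_lit 4575794163) (nat_lit 380) (nat_lit 2276065633) (nat_lit 76) (nat_lit 6148240632) (nat_lit 199) (nat_lit 5) (nat_lit 204) (nat_lit 5) (nat_lit 200) (nat_lit 5) (nat_lit 461) (nat_lit 409) (nat_lit 330))) (XT.nd (nat_lit 78) (nat_lit 304) (nat_lit 0) (XT.lf (nat_lit 0) (nat_lit 6259203501) (nat_lit 304) (nat_lit 1775667752) (nat_lit 380) (nat_lit 5185808809) (nat_lit 195) (nat_lit 5) (nat_lit 199) (nat_lit 5) (nat_lit 200) (nat_lit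 5) (nat_lit 462) (nat_lit 409) (nat_lit 329)) (XT.lf (nat_lit 0) (nat_lit 1607601028) (nat_lit 304) (nat_lit 10034733609) (nat_lit 380) (nat_lit 1804204807) (nat_lit 191) (nat_lit 5) (nat_lit 195) (nat_lit 5) (nat_lit 196) (nat_lit 5) (nat_lit 463) (nat_lit 409) (nat_lit 328))))))) (XT.nd (nat_lit 1170) (nat_lit 2432) (nat_lit 0) (XT.nd (nat_lit 546) (nat_lit 1368) (nat_lit 0) (XT.nd (nat_lit 234) (nat_lit 608) (nat_lit 0) (XT.nd (nat_lit 78) (nat_lit 608) (nat_lit 0) (XT.lf (nat_lit 0) (nat_lit 1707562904) (nat_lit 380) (nat_lit 3175521947) (nat_lit 76) (nat_lit 8793762066) (nat_lit 190) (nat_lit 5) (nat_lit 195) (nat_lit 5) (nat_lit 191) (nat_lit 5) (nat_lit 464) (nat_lit 409) (nat_lit 327)) (XT.nd (nat_lit 78) (nat_lit 304) (nat_lit 0) (XT.lf (nat_lit 0) (nat_lit 5322573793) (nat_lit 380) (nat_lit 8113443543) (nat_lit 76) (nat_lit 476486499) (nat_lit 186) (nat_lit 5) (nat_lit 191) (nat_lit 5) (nat_lit 187) (nat_lit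 5) (nat_lit 465) (nat_lit 409) (nat_lit 326)) (XT.lf (nat_lit 0) (nat_lit 882682244) (nat_lit 304) (nat_lit 8226527084) (nat_lit 380) (nat_lit 5044126593) (nat_lit 182) (nat_lit 5) (nat_lit 186) (nat_lit 5) (nat_lit 187) (nat_lit 5) (nat_lit 466) (nat_lit 409) (nat_lit 325)))) (XT.nd (nat_lit 156) (nat_lit 228) (nat_lit 0) (XT.nd (nat_lit 78) (nat_lit 380) (nat_lit 0) (XT.lf (nat_lit 0) (nat_lit 10275813700) (nat_lit 304) (nat_lit 2789899859) (nat_lit 380) (nat_lit 1333991989) (nat_lit 182) (nat_lit 5) (nat_lit 186) (nat_lit 5) (nat_lit 187) (nat_lit 5) (nat_lit 467) (nat_lit 409) (nat_lit 324)) (XT.lf (nat_lit 0) (nat_lit 2492694965) (nat_lit 380) (nat_lit 9340601207) (nat_lit 76) (nat_lit 2817839777) (nat_lit 177) (nat_lit 5) (nat_lit 182) (nat_lit 5) (nat_lit 178) (nat_lit 5) (nat_lit 468) (nat_lit 409) (nat_lit 323))) (XT.nd (nat_lit 78) (nat_lit 0) (nat_lit 0) (XT.lf (nat_lit 0) (nat_lit 126094249) (nat_lit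 228) (nat_lit 6327243791) (nat_lit 304) (nat_lit 8454996578) (nat_lit 174) (nat_lit 5) (nat_lit 177) (nat_lit 5) (nat_lit 178) (nat_lit 5) (nat_lit 469) (nat_lit 409) (nat_lit 322)) (XT.lf (nat_lit 0) (nat_lit 10029850777) (nat_lit 228) (nat_lit 572705084) (nat_lit 304) (nat_lit 4568601316) (nat_lit 174) (nat_lit 5) (nat_lit 177) (nat_lit 5) (nat_lit 178) (nat_lit 5) (nat_lit 470) (nat_lit 409) (nat_lit 321))))) (XT.nd (nat_lit 312) (nat_lit 532) (nat_lit 0) (XT.nd (nat_lit 156) (nat_lit 456) (nat_lit 0) (XT.nd (nat_lit 78) (nat_lit 76) (nat_lit 0) (XT.lf (nat_lit 0) (nat_lit 4793033482) (nat_lit 304) (nat_lit 10156780736) (nat_lit 380) (nat_lit 489843851) (nat_lit 170) (nat_lit 5) (nat_lit 174) (nat_lit 5) (nat_lit 175) (nat_lit 5) (nat_lit 471) (nat_lit 409) (nat_lit 320)) (XT.lf (nat_lit 0) (nat_lit 3673080704) (nat_lit 380) (nat_lit 663705978) (nat_lit 76) (nat_lit 11377330858) (nat_lit 169) (nat_lit 5) (nat_lit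 174) (nat_lit 5) (nat_lit 170) (nat_lit 5) (nat_lit 472) (nat_lit 409) (nat_lit 319))) (XT.nd (nat_lit 78) (nat_lit 228) (nat_lit 0) (XT.lf (nat_lit 0) (nat_lit 8038540008) (nat_lit 304) (nat_lit 6243754577) (nat_lit 76) (nat_lit 1711746467) (nat_lit 166) (nat_lit 5) (nat_lit 170) (nat_lit 5) (nat_lit 167) (nat_lit 5) (nat_lit 473) (nat_lit 409) (nat_lit 318)) (XT.lf (nat_lit 0) (nat_lit 4210222223) (nat_lit 228) (nat_lit 8391930597) (nat_lit 304) (nat_lit 3678194271) (nat_lit 163) (nat_lit 5) (nat_lit 166) (nat_lit 5) (nat_lit 167) (nat_lit 5) (nat_lit 474) (nat_lit 409) (nat_lit 317)))) (XT.nd (nat_lit 156) (nat_lit 228) (nat_lit 0) (XT.nd (nat_lit 78) (nat_lit 228) (nat_lit 0) (XT.lf (nat_lit 0) (nat_lit 754014091) (nat_lit 304) (nat_lit 1512323495) (nat_lit 76) (nat_lit 14307472117) (nat_lit 162) (nat_lit 5) (nat_lit 166) (nat_lit 5) (nat_lit 163) (nat_lit 5) (nat_lit 475) (nat_lit 409) (nat_lit 316)) (XT.lf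 (nat_lit 0) (nat_lit 5354099569) (nat_lit 304) (nat_lit 7438316886) (nat_lit 76) (nat_lit 4079302507) (nat_lit 159) (nat_lit 5) (nat_lit 163) (nat_lit 5) (nat_lit 160) (nat_lit 5) (nat_lit 476) (nat_lit 409) (nat_lit 315))) (XT.nd (nat_lit 78) (nat_lit 0) (nat_lit 0) (XT.lf (nat_lit 0) (nat_lit 3571236311) (nat_lit 228) (nat_lit 6571083401) (nat_lit 304) (nat_lit 7034742279) (nat_lit 156) (nat_lit 5) (nat_lit 159) (nat_lit 5) (nat_lit 160) (nat_lit 5) (nat_lit 477) (nat_lit 409) (nat_lit 314)) (XT.lf (nat_lit 0) (nat_lit 15027655351) (nat_lit 228) (nat_lit 99882425) (nat_lit 304) (nat_lit 2362427439) (nat_lit 156) (nat_lit 5) (nat_lit 159) (nat_lit 5) (nat_lit 160) (nat_lit 5) (nat_lit 478) (nat_lit 409) (nat_lit 313)))))) (XT.nd (nat_lit 624) (nat_lit 988) (nat_lit 0) (XT.nd (nat_lit 312) (nat_lit 760) (nat_lit 0) (XT.nd (nat_lit 156) (nat_lit 152) (nat_lit 0) (XT.nd (nat_lit 78) (nat_lit 228) (nat_lit 0) (XT.lf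 (nat_lit 0) (nat_lit 2532800876) (nat_lit 304) (nat_lit 8738697858) (nat_lit 76) (nat_lit 6536134071) (nat_lit 152) (nat_lit 5) (nat_lit 156) (nat_lit 5) (nat_lit 153) (nat_lit 5) (nat_lit 479) (nat_lit 409) (nat_lit 312)) (XT.lf (nat_lit 0) (nat_lit 2858225277) (nat_lit 228) (nat_lit 4701568292) (nat_lit 304) (nat_lit 10573363848) (nat_lit 149) (nat_lit 5) (nat_lit 152) (nat_lit 5) (nat_lit 153) (nat_lit 5) (nat_lit 480) (nat_lit 409) (nat_lit 311))) (XT.nd (nat_lit 78) (nat_lit 152) (nat_lit 0) (XT.lf (nat_lit 0) (nat_lit 12825526759) (nat_lit 304) (nat_lit 3539912715) (nat_lit 76) (nat_lit 2100370765) (nat_lit 149) (nat_lit 5) (nat_lit 153) (nat_lit 5) (nat_lit 150) (nat_lit 5) (nat_lit 481) (nat_lit 409) (nat_lit 310)) (XT.lf (nat_lit 0) (nat_lit 8634559696) (nat_lit 152) (nat_lit 9723794786) (nat_lit 228) (nat_lit 446814869) (nat_lit 147) (nat_lit 5) (nat_lit 149) (nat_lit 5) (nat_lit 150) (nat_lit 5) (nat_lit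 482) (nat_lit 409) (nat_lit 309)))) (XT.nd (nat_lit 156) (nat_lit 456) (nat_lit 0) (XT.nd (nat_lit 78) (nat_lit 0) (nat_lit 0) (XT.lf (nat_lit 0) (nat_lit 2051134071) (nat_lit 228) (nat_lit 2791113919) (nat_lit 304) (nat_lit 14309984199) (nat_lit 143) (nat_lit 5) (nat_lit 146) (nat_lit 5) (nat_lit 147) (nat_lit 5) (nat_lit 483) (nat_lit 409) (nat_lit 308)) (XT.lf (nat_lit 0) (nat_lit 10406298220) (nat_lit 304) (nat_lit 4740593064) (nat_lit 76) (nat_lit 4358924380) (nat_lit 143) (nat_lit 5) (nat_lit 147) (nat_lit 5) (nat_lit 144) (nat_lit 5) (nat_lit 484) (nat_lit 409) (nat_lit 307))) (XT.nd (nat_lit 78) (nat_lit 304) (nat_lit 0) (XT.lf (nat_lit 0) (nat_lit 8087180427) (nat_lit 152) (nat_lit 8135818034) (nat_lit 228) (nat_lit 3644436666) (nat_lit 141) (nat_lit 5) (nat_lit 143) (nat_lit 5) (nat_lit 144) (nat_lit 5) (nat_lit 485) (nat_lit 409) (nat_lit 306)) (XT.lf (nat_lit 0) (nat_lit 1127260926) (nat_lit 228) (nat_lit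 848104214) (nat_lit 304) (nat_lit 18262781183) (nat_lit 137) (nat_lit 5) (nat_lit 140) (nat_lit 5) (nat_lit 141) (nat_lit 5) (nat_lit 486) (nat_lit 409) (nat_lit 305))))) (XT.nd (nat_lit 312) (nat_lit 532) (nat_lit 0) (XT.nd (nat_lit 156) (nat_lit 304) (nat_lit 0) (XT.nd (nat_lit 78) (nat_lit 152) (nat_lit 0) (XT.lf (nat_lit 0) (nat_lit 7855176717) (nat_lit 304) (nat_lit 6088083891) (nat_lit 76) (nat_lit 6670696091) (nat_lit 137) (nat_lit 5) (nat_lit 141) (nat_lit 5) (nat_lit 138) (nat_lit 5) (nat_lit 487) (nat_lit 409) (nat_lit 304)) (XT.lf (nat_lit 0) (nat_lit 7429064589) (nat_lit 152) (nat_lit 6543221942) (nat_lit 228) (nat_lit 7026928041) (nat_lit 135) (nat_lit 5) (nat_lit 137) (nat_lit 5) (nat_lit 138) (nat_lit 5) (nat_lit 488) (nat_lit 409) (nat_lit 303))) (XT.nd (nat_lit 78) (nat_lit 76) (nat_lit 0) (XT.lf (nat_lit 0) (nat_lit 39113980) (nat_lit 228) (nat_lit 20287826062) (nat_lit 304) (nat_lit 1067469519)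 (nat_lit 132) (nat_lit 5) (nat_lit 135) (nat_lit 5) (nat_lit 136) (nat_lit 5) (nat_lit 489) (nat_lit 409) (nat_lit 302)) (XT.lf (nat_lit 0) (nat_lit 5156243801) (nat_lit 304) (nat_lit 7610464910) (nat_lit 76) (nat_lit 9027757061) (nat_lit 131) (nat_lit 5) (nat_lit 135) (nat_lit 5) (nat_lit 132) (nat_lit 5) (nat_lit 490) (nat_lit 409) (nat_lit 301)))) (XT.nd (nat_lit 156) (nat_lit 380) (nat_lit 0) (XT.nd (nat_lit 78) (nat_lit 0) (nat_lit 0) (XT.lf (nat_lit 0) (nat_lit 6633486240) (nat_lit 152) (nat_lit 4957285579) (nat_lit 228) (nat_lit 10614068296) (nat_lit 129) (nat_lit 5) (nat_lit 131) (nat_lit 5) (nat_lit 132) (nat_lit 5) (nat_lit 491) (nat_lit 409) (nat_lit 300)) (XT.lf (nat_lit 0) (nat_lit 18307501256) (nat_lit 228) (nat_lit 1227077628) (nat_lit 76) (nat_lit 3090272098) (nat_lit 129) (nat_lit 5) (nat_lit 132) (nat_lit 5) (nat_lit 130) (nat_lit 5) (nat_lit 492) (nat_lit 409) (nat_lit 299))) (XT.nd (nat_lit 78)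 (nat_lit 152) (nat_lit 0) (XT.lf (nat_lit 0) (nat_lit 2291104740) (nat_lit 228) (nat_lit 9339803459) (nat_lit 76) (nat_lit 11420974584) (nat_lit 126) (nat_lit 5) (nat_lit 129) (nat_lit 5) (nat_lit 127) (nat_lit 5) (nat_lit 493) (nat_lit 409) (nat_lit 298)) (XT.lf (nat_lit 0) (nat_lit 5669681863) (nat_lit 152) (nat_lit 3390826213) (nat_lit 228) (nat_lit 14428451230) (nat_lit 124) (nat_lit 5) (nat_lit 126) (nat_lit 5) (nat_lit 127) (nat_lit 5) (nat_lit 494) (nat_lit 409) (nat_lit 297))))))))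
noncomputable def xc117 : XT := (XT.nd (nat_lit 2418) (nat_lit 1900) (nat_lit 0) (XT.nd (nat_lit 1170) (nat_lit 1596) (nat_lit 0) (XT.nd (nat_lit 546) (nat_lit 836) (nat_lit 0) (XT.nd (nat_lit 234) (nat_lit 380) (nat_lit 0) (XT.nd (nat_lit 78) (nat_lit 380) (nat_lit 0) (XT.lf (nat_lit 0) (nat_lit 16159768588) (nat_lit 228) (nat_lit 2696712680) (nat_lit 76) (nat_lit 5078863834) (nat_lit 124) (nat_lit 5) (nat_lit 127) (nat_lit 5) (nat_lit 125) (nat_lit 5) (nat_lit 495) (nat_lit 409) (nat_lit 296)) (XT.nd (nat_lit 78) (nat_lit 228) (nat_lit 0) (XT.lf (nat_lit 0) (nat_lit 13070545388) (nat_lit 152) (nat_lit 10543722064) (nat_lit 228) (nat_lit 776587428) (nat_lit 122) (nat_lit 5) (nat_lit 124) (nat_lit 5) (nat_lit 125) (nat_lit 5) (nat_lit 496) (nat_lit 409) (nat_lit 295)) (XT.lf (nat_lit 0) (nat_lit 4502136831) (nat_lit 152) (nat_lit 1858577889) (nat_lit 228) (nat_lit 18495844623) (nat_lit 119) (nat_lit 5) (nat_lit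 121) (nat_lit 5) (nat_lit 122) (nat_lit 5) (nat_lit 497) (nat_lit 409) (nat_lit 294)))) (XT.nd (nat_lit 156) (nat_lit 228) (nat_lit 0) (XT.nd (nat_lit 78) (nat_lit 152) (nat_lit 0) (XT.lf (nat_lit 0) (nat_lit 13863254177) (nat_lit 228) (nat_lit 4409015926) (nat_lit 76) (nat_lit 7058732566) (nat_lit 119) (nat_lit 5) (nat_lit 122) (nat_lit 5) (nat_lit 120) (nat_lit 5) (nat_lit 498) (nat_lit 409) (nat_lit 293)) (XT.lf (nat_lit 0) (nat_lit 12204826137) (nat_lit 152) (nat_lit 9505412687) (nat_lit 228) (nat_lit 4105859600) (nat_lit 117) (nat_lit 5) (nat_lit 119) (nat_lit 5) (nat_lit 120) (nat_lit 5) (nat_lit 499) (nat_lit 409) (nat_lit 292))) (XT.nd (nat_lit 78) (nat_lit 0) (nat_lit 0) (XT.lf (nat_lit 0) (nat_lit 3089763200) (nat_lit 152) (nat_lit 377620672) (nat_lit 228) (nat_lit 22845610372) (nat_lit 114) (nat_lit 5) (nat_lit 116) (nat_lit 5) (nat_lit 117) (nat_lit 5) (nat_lit 500) (nat_lit 409) (nat_lit 291)) (XT.lf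 (nat_lit 0) (nat_lit 11394598369) (nat_lit 228) (nat_lit 6408367031) (nat_lit 76) (nat_lit 9014333238) (nat_lit 114) (nat_lit 5) (nat_lit 117) (nat_lit 5) (nat_lit 115) (nat_lit 5) (nat_lit 501) (nat_lit 409) (nat_lit 290))))) (XT.nd (nat_lit 312) (nat_lit 304) (nat_lit 0) (XT.nd (nat_lit 156) (nat_lit 152) (nat_lit 0) (XT.nd (nat_lit 78) (nat_lit 228) (nat_lit 0) (XT.lf (nat_lit 0) (nat_lit 11094787030) (nat_lit 152) (nat_lit 8559449560) (nat_lit 228) (nat_lit 7679657532) (nat_lit 112) (nat_lit 5) (nat_lit 114) (nat_lit 5) (nat_lit 115) (nat_lit 5) (nat_lit 502) (nat_lit 409) (nat_lit 289)) (XT.lf (nat_lit 0) (nat_lit 362742301) (nat_lit 228) (nat_lit 26488985599) (nat_lit 76) (nat_lit 1011989404) (nat_lit 109) (nat_lit 5) (nat_lit 112) (nat_lit 5) (nat_lit 110) (nat_lit 5) (nat_lit 503) (nat_lit 409) (nat_lit 288))) (XT.nd (nat_lit 78) (nat_lit 152) (nat_lit 0) (XT.lf (nat_lit 0) (nat_lit 8726720181) (nat_lit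 228) (nat_lit 8746055102) (nat_lit 76) (nat_lit 10927339187) (nat_lit 109) (nat_lit 5) (nat_lit 112) (nat_lit 5) (nat_lit 110) (nat_lit 5) (nat_lit 504) (nat_lit 409) (nat_lit 287)) (XT.lf (nat_lit 0) (nat_lit 9690092673) (nat_lit 152) (nat_lit 7729434740) (nat_lit 228) (nat_lit 11530738996) (nat_lit 107) (nat_lit 5) (nat_lit 109) (nat_lit 5) (nat_lit 110) (nat_lit 5) (nat_lit 505) (nat_lit 409) (nat_lit 286)))) (XT.nd (nat_lit 156) (nat_lit 152) (nat_lit 0) (XT.nd (nat_lit 78) (nat_lit 152) (nat_lit 0) (XT.lf (nat_lit 0) (nat_lit 26469295402) (nat_lit 228) (nat_lit 706917941) (nat_lit 76) (nat_lit 2337824418) (nat_lit 107) (nat_lit 5) (nat_lit 110) (nat_lit 5) (nat_lit 108) (nat_lit 4) (nat_lit 506) (nat_lit 409) (nat_lit 285)) (XT.lf (nat_lit 0) (nat_lit 5828264676) (nat_lit 152) (nat_lit 11481424022) (nat_lit 76) (nat_lit 12776083843) (nat_lit 105) (nat_lit 5) (nat_lit 107) (nat_lit 5) (nat_lit 106) (nat_lit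 5) (nat_lit 507) (nat_lit 409) (nat_lit 284))) (XT.nd (nat_lit 78) (nat_lit 0) (nat_lit 0) (XT.lf (nat_lit 0) (nat_lit 7932152374) (nat_lit 152) (nat_lit 7042853051) (nat_lit 228) (nat_lit 15696687505) (nat_lit 103) (nat_lit 5) (nat_lit 105) (nat_lit 5) (nat_lit 106) (nat_lit 5) (nat_lit 508) (nat_lit 409) (nat_lit 283)) (XT.lf (nat_lit 0) (nat_lit 24532516421) (nat_lit 228) (nat_lit 3170779813) (nat_lit 76) (nat_lit 3567803793) (nat_lit 103) (nat_lit 5) (nat_lit 106) (nat_lit 5) (nat_lit 104) (nat_lit 4) (nat_lit 509) (nat_lit 409) (nat_lit 282)))))) (XT.nd (nat_lit 624) (nat_lit 836) (nat_lit 0) (XT.nd (nat_lit 312) (nat_lit 380) (nat_lit 0) (XT.nd (nat_lit 156) (nat_lit 76) (nat_lit 0) (XT.nd (nat_lit 78) (nat_lit 152) (nat_lit 0) (XT.lf (nat_lit 0) (nat_lit 2662959185) (nat_lit 152) (nat_lit 14683196928) (nat_lit 76) (nat_lit 14534918267) (nat_lit 101) (nat_lit 5) (nat_lit 103) (nat_lit 5) (nat_lit 102) (nat_lit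 5) (nat_lit 510) (nat_lit 409) (nat_lit 281)) (XT.lf (nat_lit 0) (nat_lit 5752742498) (nat_lit 152) (nat_lit 6531778927) (nat_lit 228) (nat_lit 20220622743) (nat_lit 99) (nat_lit 5) (nat_lit 101) (nat_lit 5) (nat_lit 102) (nat_lit 5) (nat_lit 511) (nat_lit 409) (nat_lit 280))) (XT.nd (nat_lit 78) (nat_lit 76) (nat_lit 0) (XT.lf (nat_lit 0) (nat_lit 22374574576) (nat_lit 228) (nat_lit 6113215326) (nat_lit 76) (nat_lit 4654750945) (nat_lit 99) (nat_lit 5) (nat_lit 102) (nat_lit 5) (nat_lit 100) (nat_lit 4) (nat_lit 512) (nat_lit 409) (nat_lit 279)) (XT.lf (nat_lit 0) (nat_lit 15354143521) (nat_lit 76) (nat_lit 17611682266) (nat_lit 152) (nat_lit 827278865) (nat_lit 98) (nat_lit 5) (nat_lit 99) (nat_lit 5) (nat_lit 100) (nat_lit 4) (nat_lit 513) (nat_lit 409) (nat_lit 278)))) (XT.nd (nat_lit 156) (nat_lit 152) (nat_lit 0) (XT.nd (nat_lit 78) (nat_lit 0) (nat_lit 0) (XT.lf (nat_lit 0) (nat_lit 3072410879) (nat_lit 152)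 (nat_lit 6233691185) (nat_lit 228) (nat_lit 25152025475) (nat_lit 95) (nat_lit 5) (nat_lit 97) (nat_lit 5) (nat_lit 98) (nat_lit 5) (nat_lit 514) (nat_lit 409) (nat_lit 277)) (XT.lf (nat_lit 0) (nat_lit 19953917090) (nat_lit 228) (nat_lit 9619179211) (nat_lit 76) (nat_lit 5562947388) (nat_lit 95) (nat_lit 5) (nat_lit 98) (nat_lit 5) (nat_lit 96) (nat_lit 4) (nat_lit 515) (nat_lit 409) (nat_lit 276))) (XT.nd (nat_lit 78) (nat_lit 76) (nat_lit 0) (XT.lf (nat_lit 0) (nat_lit 12966410430) (nat_lit 76) (nat_lit 18127804236) (nat_lit 152) (nat_lit 4734891319) (nat_lit 94) (nat_lit 5) (nat_lit 95) (nat_lit 5) (nat_lit 96) (nat_lit 4) (nat_lit 516) (nat_lit 409) (nat_lit 275)) (XT.lf (nat_lit 0) (nat_lit 5992977620) (nat_lit 152) (nat_lit 197442420) (nat_lit 76) (nat_lit 30348258482) (nat_lit 93) (nat_lit 5) (nat_lit 95) (nat_lit 5) (nat_lit 94) (nat_lit 5) (nat_lit 517) (nat_lit 409) (nat_lit 274))))) (XT.nd (nat_lit 312)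 (nat_lit 380) (nat_lit 0) (XT.nd (nat_lit 156) (nat_lit 228) (nat_lit 0) (XT.nd (nat_lit 78) (nat_lit 76) (nat_lit 0) (XT.lf (nat_lit 0) (nat_lit 17222124692) (nat_lit 228) (nat_lit 13787384242) (nat_lit 76) (nat_lit 6250384732) (nat_lit 91) (nat_lit 5) (nat_lit 94) (nat_lit 5) (nat_lit 92) (nat_lit 4) (nat_lit 518) (nat_lit 409) (nat_lit 273)) (XT.lf (nat_lit 0) (nat_lit 9962455261) (nat_lit 76) (nat_lit 18971884285) (nat_lit 152) (nat_lit 9064020009) (nat_lit 90) (nat_lit 5) (nat_lit 91) (nat_lit 5) (nat_lit 92) (nat_lit 4) (nat_lit 519) (nat_lit 409) (nat_lit 272))) (XT.nd (nat_lit 78) (nat_lit 152) (nat_lit 0) (XT.lf (nat_lit 0) (nat_lit 2322994086) (nat_lit 152) (nat_lit 4094859518) (nat_lit 76) (nat_lit 32336647967) (nat_lit 89) (nat_lit 5) (nat_lit 91) (nat_lit 5) (nat_lit 90) (nat_lit 5) (nat_lit 520) (nat_lit 409) (nat_lit 271)) (XT.lf (nat_lit 0) (nat_lit 14122821392) (nat_lit 228) (nat_lit 18732537897)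 (nat_lit 76) (nat_lit 6667674942) (nat_lit 87) (nat_lit 5) (nat_lit 90) (nat_lit 5) (nat_lit 88) (nat_lit 4) (nat_lit 521) (nat_lit 409) (nat_lit 270)))) (XT.nd (nat_lit 156) (nat_lit 304) (nat_lit 0) (XT.nd (nat_lit 78) (nat_lit 0) (nat_lit 0) (XT.lf (nat_lit 0) (nat_lit 6226635992) (nat_lit 76) (nat_lit 20202705615) (nat_lit 152) (nat_lit 13880700402) (nat_lit 86) (nat_lit 5) (nat_lit 87) (nat_lit 5) (nat_lit 88) (nat_lit 4) (nat_lit 522) (nat_lit 409) (nat_lit 269)) (XT.lf (nat_lit 0) (nat_lit 32294931255) (nat_lit 76) (nat_lit 6986964883) (nat_lit 152) (nat_lit 1833458802) (nat_lit 86) (nat_lit 5) (nat_lit 87) (nat_lit 5) (nat_lit 88) (nat_lit 4) (nat_lit 523) (nat_lit 409) (nat_lit 268))) (XT.nd (nat_lit 78) (nat_lit 76) (nat_lit 0) (XT.lf (nat_lit 0) (nat_lit 10590407756) (nat_lit 228) (nat_lit 24587934577) (nat_lit 76) (nat_lit 6756788303) (nat_lit 83) (nat_lit 5) (nat_lit 86) (nat_lit 5) (nat_lit 84) (nat_lit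 4) (nat_lit 524) (nat_lit 409) (nat_lit 267)) (XT.lf (nat_lit 0) (nat_lit 1624076382) (nat_lit 76) (nat_lit 21888745847) (nat_lit 152) (nat_lit 19261252378) (nat_lit 82) (nat_lit 5) (nat_lit 83) (nat_lit 5) (nat_lit 84) (nat_lit 4) (nat_lit 525) (nat_lit 409) (nat_lit 266))))))) (XT.nd (nat_lit 1248) (nat_lit 760) (nat_lit 0) (XT.nd (nat_lit 624) (nat_lit 532) (nat_lit 0) (XT.nd (nat_lit 312) (nat_lit 304) (nat_lit 0) (XT.nd (nat_lit 156) (nat_lit 76) (nat_lit 0) (XT.nd (nat_lit 78) (nat_lit 228) (nat_lit 0) (XT.lf (nat_lit 0) (nat_lit 29103474662) (nat_lit 76) (nat_lit 7955796774) (nat_lit 152) (nat_lit 6571824661) (nat_lit 82) (nat_lit 5) (nat_lit 83) (nat_lit 5) (nat_lit 84) (nat_lit 4) (nat_lit 526) (nat_lit 409) (nat_lit 265)) (XT.lf (nat_lit 0) (nat_lit 6548589780) (nat_lit 228) (nat_lit 31508460357) (nat_lit 76) (nat_lit 6449590931) (nat_lit 79) (nat_lit 5) (nat_lit 82) (nat_lit 5) (nat_lit 80) (nat_lit 4)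 (nat_lit 527) (nat_lit 409) (nat_lit 264))) (XT.nd (nat_lit 78) (nat_lit 76) (nat_lit 0) (XT.lf (nat_lit 0) (nat_lit 20145780064) (nat_lit 228) (nat_lit 3924369553) (nat_lit 76) (nat_lit 21329893292) (nat_lit 79) (nat_lit 5) (nat_lit 82) (nat_lit 5) (nat_lit 80) (nat_lit 4) (nat_lit 528) (nat_lit 409) (nat_lit 263)) (XT.lf (nat_lit 0) (nat_lit 24952222800) (nat_lit 76) (nat_lit 9427186609) (nat_lit 152) (nat_lit 11933981759) (nat_lit 78) (nat_lit 5) (nat_lit 79) (nat_lit 5) (nat_lit 80) (nat_lit 4) (nat_lit 529) (nat_lit 409) (nat_lit 262)))) (XT.nd (nat_lit 156) (nat_lit 152) (nat_lit 0) (XT.nd (nat_lit 78) (nat_lit 0) (nat_lit 0) (XT.lf (nat_lit 0) (nat_lit 1908670968) (nat_lit 152) (nat_lit 39674076288) (nat_lit 76) (nat_lit 5666149279) (nat_lit 76) (nat_lit 5) (nat_lit 78) (nat_lit 5) (nat_lit 77) (nat_lit 4) (nat_lit 530) (nat_lit 409) (nat_lit 261)) (XT.lf (nat_lit 0) (nat_lit 16226619569) (nat_lit 152) (nat_lit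 10624815954) (nat_lit 76) (nat_lit 21348490525) (nat_lit 76) (nat_lit 5) (nat_lit 78) (nat_lit 5) (nat_lit 77) (nat_lit 4) (nat_lit 531) (nat_lit 409) (nat_lit 260))) (XT.nd (nat_lit 78) (nat_lit 76) (nat_lit 0) (XT.lf (nat_lit 0) (nat_lit 19658204981) (nat_lit 76) (nat_lit 11493894951) (nat_lit 152) (nat_lit 18022046772) (nat_lit 75) (nat_lit 5) (nat_lit 76) (nat_lit 5) (nat_lit 77) (nat_lit 4) (nat_lit 532) (nat_lit 409) (nat_lit 259)) (XT.lf (nat_lit 0) (nat_lit 845673148) (nat_lit 76) (nat_lit 45826766006) (nat_lit 76) (nat_lit 3500742046) (nat_lit 74) (nat_lit 4) (nat_lit 75) (nat_lit 5) (nat_lit 75) (nat_lit 4) (nat_lit 533) (nat_lit 409) (nat_lit 258))))) (XT.nd (nat_lit 312) (nat_lit 228) (nat_lit 0) (XT.nd (nat_lit 156) (nat_lit 152) (nat_lit 0) (XT.nd (nat_lit 78) (nat_lit 76) (nat_lit 0) (XT.lf (nat_lit 0) (nat_lit 11636508503) (nat_lit 152) (nat_lit 18718283267) (nat_lit 76) (nat_lit 20831975539) (nat_lit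 73) (nat_lit 5) (nat_lit 75) (nat_lit 5) (nat_lit 74) (nat_lit 4) (nat_lit 534) (nat_lit 409) (nat_lit 257)) (XT.lf (nat_lit 0) (nat_lit 13007658986) (nat_lit 76) (nat_lit 14264265887) (nat_lit 152) (nat_lit 24954364059) (nat_lit 72) (nat_lit 5) (nat_lit 73) (nat_lit 5) (nat_lit 74) (nat_lit 4) (nat_lit 535) (nat_lit 409) (nat_lit 256))) (XT.nd (nat_lit 78) (nat_lit 152) (nat_lit 0) (XT.lf (nat_lit 0) (nat_lit 43578876723) (nat_lit 152) (nat_lit 7267047345) (nat_lit 0) (nat_lit 2444997996) (nat_lit 72) (nat_lit 5) (nat_lit 74) (nat_lit 4) (nat_lit 72) (nat_lit 4) (nat_lit 536) (nat_lit 409) (nat_lit 255)) (XT.lf (nat_lit 0) (nat_lit 6255222602) (nat_lit 152) (nat_lit 28448545796) (nat_lit 76) (nat_lit 19670463613) (nat_lit 70) (nat_lit 5) (nat_lit 72) (nat_lit 5) (nat_lit 71) (nat_lit 4) (nat_lit 537) (nat_lit 409) (nat_lit 254)))) (XT.nd (nat_lit 156) (nat_lit 152) (nat_lit 0) (XT.nd (nat_lit 78) (nat_lit 0) (nat_lit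 0) (XT.lf (nat_lit 0) (nat_lit 4751008924) (nat_lit 76) (nat_lit 17864781048) (nat_lit 152) (nat_lit 32868082046) (nat_lit 69) (nat_lit 5) (nat_lit 70) (nat_lit 5) (nat_lit 71) (nat_lit 4) (nat_lit 538) (nat_lit 409) (nat_lit 253)) (XT.lf (nat_lit 0) (nat_lit 39509770773) (nat_lit 76) (nat_lit 234491027) (nat_lit 152) (nat_lit 16874226845) (nat_lit 69) (nat_lit 5) (nat_lit 70) (nat_lit 5) (nat_lit 71) (nat_lit 4) (nat_lit 539) (nat_lit 409) (nat_lit 252))) (XT.nd (nat_lit 78) (nat_lit 76) (nat_lit 0) (XT.lf (nat_lit 0) (nat_lit 17677223240) (nat_lit 76) (nat_lit 40041610616) (nat_lit 76) (nat_lit 58342575) (nat_lit 68) (nat_lit 4) (nat_lit 69) (nat_lit 5) (nat_lit 69) (nat_lit 4) (nat_lit 540) (nat_lit 409) (nat_lit 251)) (XT.lf (nat_lit 0) (nat_lit 17091995944) (nat_lit 152) (nat_lit 5297530884) (nat_lit 76) (nat_lit 36571115413) (nat_lit 67) (nat_lit 5) (nat_lit 69) (nat_lit 5) (nat_lit 68) (nat_lit 4) (nat_lit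 541) (nat_lit 409) (nat_lit 250)))))) (XT.nd (nat_lit 624) (nat_lit 228) (nat_lit 0) (XT.nd (nat_lit 312) (nat_lit 228) (nat_lit 0) (XT.nd (nat_lit 156) (nat_lit 152) (nat_lit 0) (XT.nd (nat_lit 78) (nat_lit 76) (nat_lit 0) (XT.lf (nat_lit 0) (nat_lit 31136972989) (nat_lit 76) (nat_lit 3908322299) (nat_lit 152) (nat_lit 25125610746) (nat_lit 66) (nat_lit 5) (nat_lit 67) (nat_lit 5) (nat_lit 68) (nat_lit 4) (nat_lit 542) (nat_lit 409) (nat_lit 249)) (XT.lf (nat_lit 0) (nat_lit 7335410535) (nat_lit 76) (nat_lit 46462060898) (nat_lit 76) (nat_lit 7612198010) (nat_lit 65) (nat_lit 4) (nat_lit 66) (nat_lit 5) (nat_lit 66) (nat_lit 4) (nat_lit 543) (nat_lit 409) (nat_lit 248))) (XT.nd (nat_lit 78) (nat_lit 76) (nat_lit 0) (XT.lf (nat_lit 0) (nat_lit 10548275004) (nat_lit 152) (nat_lit 17446650967) (nat_lit 76) (nat_lit 34677909447) (nat_lit 64) (nat_lit 5) (nat_lit 66) (nat_lit 5) (nat_lit 65) (nat_lit 4) (nat_lit 544)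 (nat_lit 409) (nat_lit 247)) (XT.lf (nat_lit 0) (nat_lit 20587684702) (nat_lit 76) (nat_lit 8701396690) (nat_lit 152) (nat_lit 34676898458) (nat_lit 63) (nat_lit 5) (nat_lit 64) (nat_lit 5) (nat_lit 65) (nat_lit 4) (nat_lit 545) (nat_lit 409) (nat_lit 246)))) (XT.nd (nat_lit 156) (nat_lit 76) (nat_lit 0) (XT.nd (nat_lit 78) (nat_lit 152) (nat_lit 0) (XT.lf (nat_lit 0) (nat_lit 48868041529) (nat_lit 152) (nat_lit 5299552937) (nat_lit 0) (nat_lit 11122046297) (nat_lit 63) (nat_lit 5) (nat_lit 65) (nat_lit 4) (nat_lit 63) (nat_lit 4) (nat_lit 546) (nat_lit 409) (nat_lit 245)) (XT.lf (nat_lit 0) (nat_lit 2747531043) (nat_lit 152) (nat_lit 32177202250) (nat_lit 76) (nat_lit 31715212280) (nat_lit 61) (nat_lit 5) (nat_lit 63) (nat_lit 5) (nat_lit 62) (nat_lit 4) (nat_lit 547) (nat_lit 409) (nat_lit 244))) (XT.nd (nat_lit 78) (nat_lit 0) (nat_lit 0) (XT.lf (nat_lit 0) (nat_lit 7461929342) (nat_lit 76) (nat_lit 14816426022)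 (nat_lit 152) (nat_lit 45744026147) (nat_lit 60) (nat_lit 5) (nat_lit 61) (nat_lit 5) (nat_lit 62) (nat_lit 4) (nat_lit 548) (nat_lit 409) (nat_lit 243)) (XT.lf (nat_lit 0) (nat_lit 42770829950) (nat_lit 152) (nat_lit 20564551082) (nat_lit 0) (nat_lit 6099637761) (nat_lit 60) (nat_lit 5) (nat_lit 62) (nat_lit 4) (nat_lit 60) (nat_lit 4) (nat_lit 549) (nat_lit 409) (nat_lit 242))))) (XT.nd (nat_lit 51636) (nat_lit 0) (nat_lit 27740) (XT.nd (nat_lit 156) (nat_lit 76) (nat_lit 0) (XT.nd (nat_lit 78) (nat_lit 76) (nat_lit 0) (XT.lf (nat_lit 0) (nat_lit 20874428495) (nat_lit 76) (nat_lit 43342184162) (nat_lit 76) (nat_lit 6663266548) (nat_lit 59) (nat_lit 4) (nat_lit 60) (nat_lit 5) (nat_lit 60) (nat_lit 4) (nat_lit 550) (nat_lit 409) (nat_lit 241)) (XT.lf (nat_lit 0) (nat_lit 13866610028) (nat_lit 152) (nat_lit 8537199670) (nat_lit 76) (nat_lit 49954229400) (nat_lit 58) (nat_lit 5) (nat_lit 60) (nat_lit 5) (nat_lit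 59) (nat_lit 4) (nat_lit 551) (nat_lit 409) (nat_lit 240))) (XT.nd (nat_lit 51402) (nat_lit 0) (nat_lit 28424) (XT.lf (nat_lit 0) (nat_lit 34770694351) (nat_lit 76) (nat_lit 433440788) (nat_lit 152) (nat_lit 38664659169) (nat_lit 57) (nat_lit 5) (nat_lit 58) (nat_lit 5) (nat_lit 59) (nat_lit 4) (nat_lit 552) (nat_lit 409) (nat_lit 239)) (XT.lf (nat_lit 0) (nat_lit 2845074614) (nat_lit 684) (nat_lit 293711716) (nat_lit 684) (nat_lit 293711716) (nat_lit 431) (nat_lit 3) (nat_lit 440) (nat_lit 3) (nat_lit 440) (nat_lit 5) (nat_lit 410) (nat_lit 410) (nat_lit 380)))) (XT.nd (nat_lit 156) (nat_lit 0) (nat_lit 0) (XT.nd (nat_lit 78) (nat_lit 0) (nat_lit 0) (XT.lf (nat_lit 0) (nat_lit 822319720) (nat_lit 684) (nat_lit 4026426377) (nat_lit 760) (nat_lit 2059698972) (nat_lit 422) (nat_lit 5) (nat_lit 431) (nat_lit 3) (nat_lit 432) (nat_lit 5) (nat_lit 411) (nat_lit 410) (nat_lit 379)) (XT.lf (nat_lit 0) (nat_lit 2784763300)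 (nat_lit 684) (nat_lit 538516787) (nat_lit 760) (nat_lit 3631704052) (nat_lit 422) (nat_lit 5) (nat_lit 431) (nat_lit 3) (nat_lit 432) (nat_lit 5) (nat_lit 412) (nat_lit 410) (nat_lit 378))) (XT.nd (nat_lit 78) (nat_lit 0) (nat_lit 76) (XT.lf (nat_lit 76) (nat_lit 3073825044) (nat_lit 0) (nat_lit 1687030494) (nat_lit 760) (nat_lit 2243425292) (nat_lit 423) (nat_lit 5) (nat_lit 422) (nat_lit 5) (nat_lit 432) (nat_lit 5) (nat_lit 413) (nat_lit 410) (nat_lit 377)) (XT.lf (nat_lit 0) (nat_lit 6729048240) (nat_lit 684) (nat_lit 291659971) (nat_lit 760) (nat_lit 36368249) (nat_lit 423) (nat_lit 5) (nat_lit 432) (nat_lit 5) (nat_lit 433) (nat_lit 5) (nat_lit 414) (nat_lit 410) (nat_lit 376))))))))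
noncomputable def xc118 : XT := (XT.nd (nat_lit 2418) (nat_lit 7372) (nat_lit 0) (XT.nd (nat_lit 1170) (nat_lit 7372) (nat_lit 0) (XT.nd (nat_lit 546) (nat_lit 3800) (nat_lit 0) (XT.nd (nat_lit 234) (nat_lit 760) (nat_lit 0) (XT.nd (nat_lit 78) (nat_lit 0) (nat_lit 0) (XT.lf (nat_lit 0) (nat_lit 1592007222) (nat_lit 760) (nat_lit 3661523301) (nat_lit 836) (nat_lit 1858077220) (nat_lit 413) (nat_lit 5) (nat_lit 423) (nat_lit 5) (nat_lit 424) (nat_lit 5) (nat_lit 415) (nat_lit 410) (nat_lit 375)) (XT.nd (nat_lit 78) (nat_lit 0) (nat_lit 0) (XT.lf (nat_lit 76) (nat_lit 98968492) (nat_lit 0) (nat_lit 3398443787) (nat_lit 836) (nat_lit 3672238587) (nat_lit 414) (nat_lit 5) (nat_lit 413) (nat_lit 5) (nat_lit 424) (nat_lit 5) (nat_lit 416) (nat_lit 410) (nat_lit 374)) (XT.lf (nat_lit 76) (nat_lit 4005685925) (nat_lit 0) (nat_lit 1423329468) (nat_lit 836) (nat_lit 1801352873) (nat_lit 414) (nat_lit 5) (nat_lit 413) (nat_lit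 5) (nat_lit 424) (nat_lit 5) (nat_lit 417) (nat_lit 410) (nat_lit 373)))) (XT.nd (nat_lit 156) (nat_lit 0) (nat_lit 0) (XT.nd (nat_lit 78) (nat_lit 0) (nat_lit 0) (XT.lf (nat_lit 0) (nat_lit 69584012) (nat_lit 836) (nat_lit 6593328186) (nat_lit 912) (nat_lit 631571281) (nat_lit 403) (nat_lit 5) (nat_lit 414) (nat_lit 5) (nat_lit 415) (nat_lit 5) (nat_lit 418) (nat_lit 410) (nat_lit 372)) (XT.lf (nat_lit 0) (nat_lit 1942575669) (nat_lit 836) (nat_lit 2624462186) (nat_lit 912) (nat_lit 2793488993) (nat_lit 403) (nat_lit 5) (nat_lit 414) (nat_lit 5) (nat_lit 415) (nat_lit 5) (nat_lit 419) (nat_lit 410) (nat_lit 371))) (XT.nd (nat_lit 78) (nat_lit 0) (nat_lit 0) (XT.lf (nat_lit 76) (nat_lit 1449484696) (nat_lit 0) (nat_lit 2373248750) (nat_lit 912) (nat_lit 3607292389) (nat_lit 404) (nat_lit 5) (nat_lit 403) (nat_lit 5) (nat_lit 415) (nat_lit 5) (nat_lit 420) (nat_lit 410) (nat_lit 370)) (XT.lf (nat_lit 76) (nat_lit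 5657593532) (nat_lit 0) (nat_lit 66678742) (nat_lit 912) (nat_lit 1778391730) (nat_lit 404) (nat_lit 5) (nat_lit 403) (nat_lit 5) (nat_lit 415) (nat_lit 5) (nat_lit 421) (nat_lit 410) (nat_lit 369))))) (XT.nd (nat_lit 312) (nat_lit 2128) (nat_lit 0) (XT.nd (nat_lit 156) (nat_lit 836) (nat_lit 0) (XT.nd (nat_lit 78) (nat_lit 0) (nat_lit 0) (XT.lf (nat_lit 0) (nat_lit 88856747) (nat_lit 912) (nat_lit 5182370014) (nat_lit 988) (nat_lit 2306661360) (nat_lit 392) (nat_lit 5) (nat_lit 404) (nat_lit 5) (nat_lit 405) (nat_lit 5) (nat_lit 422) (nat_lit 410) (nat_lit 368)) (XT.lf (nat_lit 0) (nat_lit 1937054150) (nat_lit 912) (nat_lit 915486941) (nat_lit 988) (nat_lit 4803482580) (nat_lit 392) (nat_lit 5) (nat_lit 404) (nat_lit 5) (nat_lit 405) (nat_lit 5) (nat_lit 423) (nat_lit 410) (nat_lit 367))) (XT.nd (nat_lit 78) (nat_lit 836) (nat_lit 0) (XT.lf (nat_lit 76) (nat_lit 3505703850) (nat_lit 0) (nat_lit 311604375) (nat_lit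 988) (nat_lit 3919899853) (nat_lit 393) (nat_lit 5) (nat_lit 392) (nat_lit 5) (nat_lit 405) (nat_lit 5) (nat_lit 424) (nat_lit 410) (nat_lit 366)) (XT.lf (nat_lit 0) (nat_lit 195804625) (nat_lit 912) (nat_lit 5535855689) (nat_lit 988) (nat_lit 2089840013) (nat_lit 381) (nat_lit 5) (nat_lit 393) (nat_lit 5) (nat_lit 394) (nat_lit 5) (nat_lit 425) (nat_lit 410) (nat_lit 365)))) (XT.nd (nat_lit 156) (nat_lit 1064) (nat_lit 0) (XT.nd (nat_lit 78) (nat_lit 1064) (nat_lit 0) (XT.lf (nat_lit 0) (nat_lit 4796445882) (nat_lit 912) (nat_lit 2898299430) (nat_lit 988) (nat_lit 213839894) (nat_lit 381) (nat_lit 5) (nat_lit 393) (nat_lit 5) (nat_lit 394) (nat_lit 5) (nat_lit 426) (nat_lit 410) (nat_lit 364)) (XT.lf (nat_lit 0) (nat_lit 1506815325) (nat_lit 988) (nat_lit 139154238) (nat_lit 1064) (nat_lit 6352988405) (nat_lit 367) (nat_lit 5) (nat_lit 380) (nat_lit 5) (nat_lit 381) (nat_lit 5) (nat_lit 427) (nat_lit 410) (nat_lit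 363))) (XT.nd (nat_lit 78) (nat_lit 1064) (nat_lit 0) (XT.lf (nat_lit 0) (nat_lit 3562813426) (nat_lit 1064) (nat_lit 1835511443) (nat_lit 76) (nat_lit 2693490070) (nat_lit 367) (nat_lit 5) (nat_lit 381) (nat_lit 5) (nat_lit 368) (nat_lit 5) (nat_lit 428) (nat_lit 410) (nat_lit 362)) (XT.lf (nat_lit 0) (nat_lit 2974634597) (nat_lit 1064) (nat_lit 2541839387) (nat_lit 1140) (nat_lit 2671606899) (nat_lit 353) (nat_lit 5) (nat_lit 367) (nat_lit 5) (nat_lit 368) (nat_lit 5) (nat_lit 429) (nat_lit 410) (nat_lit 361)))))) (XT.nd (nat_lit 624) (nat_lit 2812) (nat_lit 0) (XT.nd (nat_lit 312) (nat_lit 2128) (nat_lit 0) (XT.nd (nat_lit 156) (nat_lit 1216) (nat_lit 0) (XT.nd (nat_lit 78) (nat_lit 1216) (nat_lit 0) (XT.lf (nat_lit 0) (nat_lit 7501787365) (nat_lit 1140) (nat_lit 367990578) (nat_lit 76) (nat_lit 418268102) (nat_lit 353) (nat_lit 5) (nat_lit 368) (nat_lit 5) (nat_lit 354) (nat_lit 5) (nat_lit 430) (nat_lit 410)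 (nat_lit 360)) (XT.lf (nat_lit 0) (nat_lit 1155053612) (nat_lit 1216) (nat_lit 3756079770) (nat_lit 76) (nat_lit 3478887268) (nat_lit 337) (nat_lit 5) (nat_lit 353) (nat_lit 5) (nat_lit 338) (nat_lit 5) (nat_lit 431) (nat_lit 410) (nat_lit 359))) (XT.nd (nat_lit 78) (nat_lit 0) (nat_lit 0) (XT.lf (nat_lit 0) (nat_lit 1272296322) (nat_lit 1216) (nat_lit 1834932694) (nat_lit 1292) (nat_lit 5388541446) (nat_lit 321) (nat_lit 5) (nat_lit 337) (nat_lit 5) (nat_lit 338) (nat_lit 5) (nat_lit 432) (nat_lit 410) (nat_lit 358)) (XT.lf (nat_lit 0) (nat_lit 5122546855) (nat_lit 1292) (nat_lit 2132481678) (nat_lit 76) (nat_lit 1349529169) (nat_lit 321) (nat_lit 5) (nat_lit 338) (nat_lit 5) (nat_lit 322) (nat_lit 5) (nat_lit 433) (nat_lit 410) (nat_lit 357)))) (XT.nd (nat_lit 156) (nat_lit 1216) (nat_lit 0) (XT.nd (nat_lit 78) (nat_lit 76) (nat_lit 0) (XT.lf (nat_lit 0) (nat_lit 3110813008) (nat_lit 836) (nat_lit 4090391286)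 (nat_lit 912) (nat_lit 1515320046) (nat_lit 310) (nat_lit 5) (nat_lit 321) (nat_lit 5) (nat_lit 322) (nat_lit 5) (nat_lit 434) (nat_lit 410) (nat_lit 356)) (XT.lf (nat_lit 0) (nat_lit 477435526) (nat_lit 912) (nat_lit 324636862) (nat_lit 76) (nat_lit 8030321771) (nat_lit 309) (nat_lit 5) (nat_lit 321) (nat_lit 5) (nat_lit 310) (nat_lit 5) (nat_lit 435) (nat_lit 410) (nat_lit 355))) (XT.nd (nat_lit 78) (nat_lit 608) (nat_lit 0) (XT.lf (nat_lit 0) (nat_lit 2531180517) (nat_lit 684) (nat_lit 3818250349) (nat_lit 76) (nat_lit 2600911215) (nat_lit 301) (nat_lit 5) (nat_lit 310) (nat_lit 5) (nat_lit 302) (nat_lit 5) (nat_lit 436) (nat_lit 410) (nat_lit 354)) (XT.lf (nat_lit 0) (nat_lit 1668999339) (nat_lit 608) (nat_lit 2962283734) (nat_lit 684) (nat_lit 4441004948) (nat_lit 293) (nat_lit 5) (nat_lit 301) (nat_lit 5) (nat_lit 302) (nat_lit 5) (nat_lit 437) (nat_lit 410) (nat_lit 353))))) (XT.nd (nat_lit 312) (nat_lit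 1596) (nat_lit 0) (XT.nd (nat_lit 156) (nat_lit 684) (nat_lit 0) (XT.nd (nat_lit 78) (nat_lit 532) (nat_lit 0) (XT.lf (nat_lit 0) (nat_lit 6796658927) (nat_lit 684) (nat_lit 1846906091) (nat_lit 76) (nat_lit 554261099) (nat_lit 293) (nat_lit 5) (nat_lit 302) (nat_lit 5) (nat_lit 294) (nat_lit 5) (nat_lit 438) (nat_lit 410) (nat_lit 352)) (XT.lf (nat_lit 0) (nat_lit 3879963326) (nat_lit 532) (nat_lit 5173145068) (nat_lit 608) (nat_lit 273240419) (nat_lit 286) (nat_lit 5) (nat_lit 293) (nat_lit 5) (nat_lit 294) (nat_lit 5) (nat_lit 439) (nat_lit 410) (nat_lit 351))) (XT.nd (nat_lit 78) (nat_lit 0) (nat_lit 0) (XT.lf (nat_lit 0) (nat_lit 302639686) (nat_lit 608) (nat_lit 1560056764) (nat_lit 684) (nat_lit 7596030915) (nat_lit 277) (nat_lit 5) (nat_lit 285) (nat_lit 5) (nat_lit 286) (nat_lit 5) (nat_lit 440) (nat_lit 410) (nat_lit 350)) (XT.lf (nat_lit 0) (nat_lit 4094133955) (nat_lit 684) (nat_lit 3325374213) (nat_lit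 76) (nat_lit 2174382186) (nat_lit 277) (nat_lit 5) (nat_lit 286) (nat_lit 5) (nat_lit 278) (nat_lit 5) (nat_lit 441) (nat_lit 410) (nat_lit 349)))) (XT.nd (nat_lit 156) (nat_lit 1064) (nat_lit 0) (XT.nd (nat_lit 78) (nat_lit 0) (nat_lit 0) (XT.lf (nat_lit 0) (nat_lit 2674576791) (nat_lit 532) (nat_lit 3720836394) (nat_lit 608) (nat_lit 3337609715) (nat_lit 270) (nat_lit 5) (nat_lit 277) (nat_lit 5) (nat_lit 278) (nat_lit 5) (nat_lit 442) (nat_lit 410) (nat_lit 348)) (XT.lf (nat_lit 0) (nat_lit 8762906920) (nat_lit 608) (nat_lit 996912294) (nat_lit 76) (nat_lit 116596501) (nat_lit 270) (nat_lit 5) (nat_lit 278) (nat_lit 5) (nat_lit 271) (nat_lit 5) (nat_lit 443) (nat_lit 410) (nat_lit 347))) (XT.nd (nat_lit 78) (nat_lit 456) (nat_lit 0) (XT.lf (nat_lit 0) (nat_lit 1205854744) (nat_lit 608) (nat_lit 4763769236) (nat_lit 76) (nat_lit 4052602912) (nat_lit 262) (nat_lit 5) (nat_lit 270) (nat_lit 5) (nat_lit 263) (nat_lit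 5) (nat_lit 444) (nat_lit 410) (nat_lit 346)) (XT.lf (nat_lit 0) (nat_lit 1526319908) (nat_lit 456) (nat_lit 2034750966) (nat_lit 532) (nat_lit 6611352663) (nat_lit 256) (nat_lit 5) (nat_lit 262) (nat_lit 5) (nat_lit 263) (nat_lit 5) (nat_lit 445) (nat_lit 410) (nat_lit 345))))))) (XT.nd (nat_lit 1248) (nat_lit 3040) (nat_lit 0) (XT.nd (nat_lit 624) (nat_lit 1976) (nat_lit 0) (XT.nd (nat_lit 312) (nat_lit 1368) (nat_lit 0) (XT.nd (nat_lit 156) (nat_lit 532) (nat_lit 0) (XT.nd (nat_lit 78) (nat_lit 456) (nat_lit 0) (XT.lf (nat_lit 0) (nat_lit 6019331101) (nat_lit 532) (nat_lit 2285542856) (nat_lit 76) (nat_lit 2021281899) (nat_lit 256) (nat_lit 5) (nat_lit 263) (nat_lit 5) (nat_lit 257) (nat_lit 5) (nat_lit 446) (nat_lit 410) (nat_lit 344)) (XT.lf (nat_lit 0) (nat_lit 4287857233) (nat_lit 456) (nat_lit 4290288885) (nat_lit 532) (nat_lit 1905551177) (nat_lit 250) (nat_lit 5) (nat_lit 256) (nat_lit 5) (nat_lit 257)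 (nat_lit 5) (nat_lit 447) (nat_lit 410) (nat_lit 343))) (XT.nd (nat_lit 78) (nat_lit 0) (nat_lit 0) (XT.lf (nat_lit 0) (nat_lit 420783268) (nat_lit 456) (nat_lit 128968627) (nat_lit 532) (nat_lit 10096258526) (nat_lit 243) (nat_lit 5) (nat_lit 249) (nat_lit 5) (nat_lit 250) (nat_lit 5) (nat_lit 448) (nat_lit 410) (nat_lit 342)) (XT.lf (nat_lit 0) (nat_lit 3109805576) (nat_lit 532) (nat_lit 3550157651) (nat_lit 76) (nat_lit 4150583215) (nat_lit 243) (nat_lit 5) (nat_lit 250) (nat_lit 5) (nat_lit 244) (nat_lit 5) (nat_lit 449) (nat_lit 410) (nat_lit 341)))) (XT.nd (nat_lit 156) (nat_lit 912) (nat_lit 0) (XT.nd (nat_lit 78) (nat_lit 0) (nat_lit 0) (XT.lf (nat_lit 0) (nat_lit 3348145810) (nat_lit 456) (nat_lit 2399204015) (nat_lit 532) (nat_lit 5232649259) (nat_lit 237) (nat_lit 5) (nat_lit 243) (nat_lit 5) (nat_lit 244) (nat_lit 5) (nat_lit 450) (nat_lit 410) (nat_lit 340)) (XT.lf (nat_lit 0) (nat_lit 8487057913) (nat_lit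 532) (nat_lit 688323723) (nat_lit 76) (nat_lit 1978463717) (nat_lit 237) (nat_lit 5) (nat_lit 244) (nat_lit 5) (nat_lit 238) (nat_lit 5) (nat_lit 451) (nat_lit 410) (nat_lit 339))) (XT.nd (nat_lit 78) (nat_lit 456) (nat_lit 0) (XT.lf (nat_lit 0) (nat_lit 32206544) (nat_lit 456) (nat_lit 4804800091) (nat_lit 76) (nat_lit 6494237720) (nat_lit 231) (nat_lit 5) (nat_lit 237) (nat_lit 5) (nat_lit 232) (nat_lit 5) (nat_lit 452) (nat_lit 410) (nat_lit 338)) (XT.lf (nat_lit 0) (nat_lit 2438547133) (nat_lit 456) (nat_lit 319356888) (nat_lit 532) (nat_lit 8755290261) (nat_lit 225) (nat_lit 5) (nat_lit 231) (nat_lit 5) (nat_lit 232) (nat_lit 5) (nat_lit 453) (nat_lit 410) (nat_lit 337))))) (XT.nd (nat_lit 312) (nat_lit 1140) (nat_lit 0) (XT.nd (nat_lit 156) (nat_lit 456) (nat_lit 0) (XT.nd (nat_lit 78) (nat_lit 380) (nat_lit 0) (XT.lf (nat_lit 0) (nat_lit 5625332763) (nat_lit 532) (nat_lit 1784601378) (nat_lit 76) (nat_lit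 4288870798) (nat_lit 225) (nat_lit 5) (nat_lit 232) (nat_lit 5) (nat_lit 226) (nat_lit 5) (nat_lit 454) (nat_lit 410) (nat_lit 336)) (XT.lf (nat_lit 0) (nat_lit 5794241632) (nat_lit 380) (nat_lit 2813598152) (nat_lit 456) (nat_lit 3281273482) (nat_lit 220) (nat_lit 5) (nat_lit 225) (nat_lit 5) (nat_lit 226) (nat_lit 5) (nat_lit 455) (nat_lit 410) (nat_lit 335))) (XT.nd (nat_lit 78) (nat_lit 76) (nat_lit 0) (XT.lf (nat_lit 0) (nat_lit 1523325441) (nat_lit 380) (nat_lit 10178389086) (nat_lit 456) (nat_lit 382760522) (nat_lit 215) (nat_lit 5) (nat_lit 220) (nat_lit 5) (nat_lit 221) (nat_lit 5) (nat_lit 456) (nat_lit 410) (nat_lit 334)) (XT.lf (nat_lit 0) (nat_lit 2612706938) (nat_lit 456) (nat_lit 2882719759) (nat_lit 76) (nat_lit 6787697732) (nat_lit 214) (nat_lit 5) (nat_lit 220) (nat_lit 5) (nat_lit 215) (nat_lit 5) (nat_lit 457) (nat_lit 410) (nat_lit 333)))) (XT.nd (nat_lit 156) (nat_lit 380) (nat_lit 0) (XT.nd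 (nat_lit 78) (nat_lit 380) (nat_lit 0) (XT.lf (nat_lit 0) (nat_lit 5082232158) (nat_lit 380) (nat_lit 628592201) (nat_lit 456) (nat_lit 6776181767) (nat_lit 209) (nat_lit 5) (nat_lit 214) (nat_lit 5) (nat_lit 215) (nat_lit 5) (nat_lit 458) (nat_lit 410) (nat_lit 332)) (XT.lf (nat_lit 0) (nat_lit 578385703) (nat_lit 380) (nat_lit 8372575354) (nat_lit 456) (nat_lit 3744571818) (nat_lit 204) (nat_lit 5) (nat_lit 209) (nat_lit 5) (nat_lit 210) (nat_lit 5) (nat_lit 459) (nat_lit 410) (nat_lit 331))) (XT.nd (nat_lit 78) (nat_lit 380) (nat_lit 0) (XT.lf (nat_lit 0) (nat_lit 8907308115) (nat_lit 380) (nat_lit 3434343684) (nat_lit 456) (nat_lit 567063977) (nat_lit 204) (nat_lit 5) (nat_lit 209) (nat_lit 5) (nat_lit 210) (nat_lit 5) (nat_lit 460) (nat_lit 410) (nat_lit 330)) (XT.lf (nat_lit 0) (nat_lit 2684455131) (nat_lit 380) (nat_lit 8764842448) (nat_lit 76) (nat_lit 1677272540) (nat_lit 199) (nat_lit 5) (nat_lit 204)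 (nat_lit 5) (nat_lit 200) (nat_lit 5) (nat_lit 461) (nat_lit 410) (nat_lit 329)))))) (XT.nd (nat_lit 624) (nat_lit 1368) (nat_lit 0) (XT.nd (nat_lit 312) (nat_lit 988) (nat_lit 0) (XT.nd (nat_lit 156) (nat_lit 380) (nat_lit 0) (XT.nd (nat_lit 78) (nat_lit 304) (nat_lit 0) (XT.lf (nat_lit 0) (nat_lit 6070192797) (nat_lit 380) (nat_lit 370867341) (nat_lit 76) (nat_lit 6908290181) (nat_lit 199) (nat_lit 5) (nat_lit 204) (nat_lit 5) (nat_lit 200) (nat_lit 5) (nat_lit 462) (nat_lit 410) (nat_lit 328)) (XT.lf (nat_lit 0) (nat_lit 8401112021) (nat_lit 304) (nat_lit 1211186589) (nat_lit 380) (nat_lit 3964872190) (nat_lit 195) (nat_lit 5) (nat_lit 199) (nat_lit 5) (nat_lit 200) (nat_lit 5) (nat_lit 463) (nat_lit 410) (nat_lit 327))) (XT.nd (nat_lit 78) (nat_lit 76) (nat_lit 0) (XT.lf (nat_lit 0) (nat_lit 3624659566) (nat_lit 304) (nat_lit 9689093452) (nat_lit 380) (nat_lit 496481044) (nat_lit 191) (nat_lit 5) (nat_lit 195)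 (nat_lit 5) (nat_lit 196) (nat_lit 5) (nat_lit 464) (nat_lit 410) (nat_lit 326)) (XT.lf (nat_lit 0) (nat_lit 3055173588) (nat_lit 380) (nat_lit 1333466112) (nat_lit 76) (nat_lit 9659586125) (nat_lit 190) (nat_lit 5) (nat_lit 195) (nat_lit 5) (nat_lit 191) (nat_lit 5) (nat_lit 465) (nat_lit 410) (nat_lit 325)))) (XT.nd (nat_lit 156) (nat_lit 380) (nat_lit 0) (XT.nd (nat_lit 78) (nat_lit 304) (nat_lit 0) (XT.lf (nat_lit 0) (nat_lit 6765480408) (nat_lit 380) (nat_lit 6406336994) (nat_lit 76) (nat_lit 1119530700) (nat_lit 186) (nat_lit 5) (nat_lit 191) (nat_lit 5) (nat_lit 187) (nat_lit 5) (nat_lit 466) (nat_lit 410) (nat_lit 324)) (XT.lf (nat_lit 0) (nat_lit 2840549921) (nat_lit 304) (nat_lit 7806355150) (nat_lit 380) (nat_lit 3893065367) (nat_lit 182) (nat_lit 5) (nat_lit 186) (nat_lit 5) (nat_lit 187) (nat_lit 5) (nat_lit 467) (nat_lit 410) (nat_lit 323))) (XT.nd (nat_lit 78) (nat_lit 380) (nat_lit 0) (XT.lf (nat_lit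 0) (nat_lit 12459221325) (nat_lit 304) (nat_lit 2226055353) (nat_lit 380) (nat_lit 109560270) (nat_lit 182) (nat_lit 5) (nat_lit 186) (nat_lit 5) (nat_lit 187) (nat_lit 5) (nat_lit 468) (nat_lit 410) (nat_lit 322)) (XT.lf (nat_lit 0) (nat_lit 3795565780) (nat_lit 380) (nat_lit 7709263255) (nat_lit 76) (nat_lit 3548968116) (nat_lit 177) (nat_lit 5) (nat_lit 182) (nat_lit 5) (nat_lit 178) (nat_lit 5) (nat_lit 469) (nat_lit 410) (nat_lit 321))))) (XT.nd (nat_lit 312) (nat_lit 532) (nat_lit 0) (XT.nd (nat_lit 156) (nat_lit 608) (nat_lit 0) (XT.nd (nat_lit 78) (nat_lit 0) (nat_lit 0) (XT.lf (nat_lit 0) (nat_lit 2022692321) (nat_lit 228) (nat_lit 5834761114) (nat_lit 304) (nat_lit 7461786464) (nat_lit 174) (nat_lit 5) (nat_lit 177) (nat_lit 5) (nat_lit 178) (nat_lit 5) (nat_lit 470) (nat_lit 410) (nat_lit 320)) (XT.lf (nat_lit 0) (nat_lit 12096587373) (nat_lit 304) (nat_lit 3423272026) (nat_lit 76) (nat_lit 71125403)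 (nat_lit 174) (nat_lit 5) (nat_lit 178) (nat_lit 5) (nat_lit 175) (nat_lit 5) (nat_lit 471) (nat_lit 410) (nat_lit 319))) (XT.nd (nat_lit 78) (nat_lit 228) (nat_lit 0) (XT.lf (nat_lit 0) (nat_lit 681843639) (nat_lit 380) (nat_lit 9089427983) (nat_lit 76) (nat_lit 6096398751) (nat_lit 169) (nat_lit 5) (nat_lit 174) (nat_lit 5) (nat_lit 170) (nat_lit 5) (nat_lit 472) (nat_lit 410) (nat_lit 318)) (XT.lf (nat_lit 0) (nat_lit 1156172478) (nat_lit 228) (nat_lit 3780483834) (nat_lit 304) (nat_lit 11214257226) (nat_lit 166) (nat_lit 5) (nat_lit 169) (nat_lit 5) (nat_lit 170) (nat_lit 5) (nat_lit 473) (nat_lit 410) (nat_lit 317)))) (XT.nd (nat_lit 156) (nat_lit 304) (nat_lit 0) (XT.nd (nat_lit 78) (nat_lit 228) (nat_lit 0) (XT.lf (nat_lit 0) (nat_lit 9412463036) (nat_lit 304) (nat_lit 4604310871) (nat_lit 76) (nat_lit 2423080097) (nat_lit 166) (nat_lit 5) (nat_lit 170) (nat_lit 5) (nat_lit 167) (nat_lit 5) (nat_lit 474)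 (nat_lit 410) (nat_lit 316)) (XT.lf (nat_lit 0) (nat_lit 6145375856) (nat_lit 228) (nat_lit 7952002911) (nat_lit 304) (nat_lit 2637839358) (nat_lit 163) (nat_lit 5) (nat_lit 166) (nat_lit 5) (nat_lit 167) (nat_lit 5) (nat_lit 475) (nat_lit 410) (nat_lit 315))) (XT.nd (nat_lit 78) (nat_lit 0) (nat_lit 0) (XT.lf (nat_lit 0) (nat_lit 224676589) (nat_lit 228) (nat_lit 1649502532) (nat_lit 304) (nat_lit 15163895406) (nat_lit 159) (nat_lit 5) (nat_lit 162) (nat_lit 5) (nat_lit 163) (nat_lit 5) (nat_lit 476) (nat_lit 410) (nat_lit 314)) (XT.lf (nat_lit 0) (nat_lit 6601664567) (nat_lit 304) (nat_lit 5875015529) (nat_lit 76) (nat_lit 4868559719) (nat_lit 159) (nat_lit 5) (nat_lit 163) (nat_lit 5) (nat_lit 160) (nat_lit 5) (nat_lit 477) (nat_lit 410) (nat_lit 313))))))))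
noncomputable def xc119 : XT := (XT.nd (nat_lit 2418) (nat_lit 2736) (nat_lit 0) (XT.nd (nat_lit 1170) (nat_lit 1824) (nat_lit 0) (XT.nd (nat_lit 546) (nat_lit 1064) (nat_lit 0) (XT.nd (nat_lit 234) (nat_lit 684) (nat_lit 0) (XT.nd (nat_lit 78) (nat_lit 304) (nat_lit 0) (XT.lf (nat_lit 0) (nat_lit 5447310040) (nat_lit 228) (nat_lit 6071566871) (nat_lit 304) (nat_lit 6141306511) (nat_lit 156) (nat_lit 5) (nat_lit 159) (nat_lit 5) (nat_lit 160) (nat_lit 5) (nat_lit 478) (nat_lit 410) (nat_lit 312)) (XT.nd (nat_lit 78) (nat_lit 304) (nat_lit 0) (XT.lf (nat_lit 0) (nat_lit 16627932473) (nat_lit 304) (nat_lit 793024738) (nat_lit 76) (nat_lit 562288737) (nat_lit 156) (nat_lit 5) (nat_lit 160) (nat_lit 5) (nat_lit 157) (nat_lit 5) (nat_lit 479) (nat_lit 410) (nat_lit 311)) (XT.lf (nat_lit 0) (nat_lit 3652667691) (nat_lit 304) (nat_lit 7254978094) (nat_lit 76) (nat_lit 7402879569) (nat_lit 152) (nat_lit 5) (nat_lit 156)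 (nat_lit 5) (nat_lit 153) (nat_lit 5) (nat_lit 480) (nat_lit 410) (nat_lit 310)))) (XT.nd (nat_lit 156) (nat_lit 456) (nat_lit 0) (XT.nd (nat_lit 78) (nat_lit 0) (nat_lit 0) (XT.lf (nat_lit 0) (nat_lit 4672736258) (nat_lit 228) (nat_lit 4143947492) (nat_lit 304) (nat_lit 9829546127) (nat_lit 149) (nat_lit 5) (nat_lit 152) (nat_lit 5) (nat_lit 153) (nat_lit 5) (nat_lit 481) (nat_lit 410) (nat_lit 309)) (XT.lf (nat_lit 0) (nat_lit 14216906540) (nat_lit 304) (nat_lit 1944197027) (nat_lit 76) (nat_lit 2828463753) (nat_lit 149) (nat_lit 5) (nat_lit 153) (nat_lit 5) (nat_lit 150) (nat_lit 5) (nat_lit 482) (nat_lit 410) (nat_lit 308))) (XT.nd (nat_lit 78) (nat_lit 228) (nat_lit 0) (XT.lf (nat_lit 0) (nat_lit 552110266) (nat_lit 228) (nat_lit 8766090048) (nat_lit 76) (nat_lit 10021138636) (nat_lit 146) (nat_lit 5) (nat_lit 149) (nat_lit 5) (nat_lit 147) (nat_lit 5) (nat_lit 483) (nat_lit 410) (nat_lit 307)) (XT.lf (nat_lit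 0) (nat_lit 3801164296) (nat_lit 228) (nat_lit 2176707279) (nat_lit 304) (nat_lit 13719199686) (nat_lit 143) (nat_lit 5) (nat_lit 146) (nat_lit 5) (nat_lit 147) (nat_lit 5) (nat_lit 484) (nat_lit 410) (nat_lit 306))))) (XT.nd (nat_lit 312) (nat_lit 608) (nat_lit 0) (XT.nd (nat_lit 156) (nat_lit 304) (nat_lit 0) (XT.nd (nat_lit 78) (nat_lit 152) (nat_lit 0) (XT.lf (nat_lit 0) (nat_lit 11686513472) (nat_lit 304) (nat_lit 3221147605) (nat_lit 76) (nat_lit 5154271559) (nat_lit 143) (nat_lit 5) (nat_lit 147) (nat_lit 5) (nat_lit 144) (nat_lit 5) (nat_lit 485) (nat_lit 410) (nat_lit 305)) (XT.lf (nat_lit 0) (nat_lit 9975168274) (nat_lit 152) (nat_lit 7690167831) (nat_lit 228) (nat_lit 2769436422) (nat_lit 141) (nat_lit 5) (nat_lit 143) (nat_lit 5) (nat_lit 144) (nat_lit 5) (nat_lit 486) (nat_lit 410) (nat_lit 304))) (XT.nd (nat_lit 78) (nat_lit 0) (nat_lit 0) (XT.lf (nat_lit 0) (nat_lit 2809355258) (nat_lit 228) (nat_lit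 178130083) (nat_lit 304) (nat_lit 17829204303) (nat_lit 137) (nat_lit 5) (nat_lit 140) (nat_lit 5) (nat_lit 141) (nat_lit 5) (nat_lit 487) (nat_lit 410) (nat_lit 303)) (XT.lf (nat_lit 0) (nat_lit 9022428157) (nat_lit 304) (nat_lit 4649180003) (nat_lit 76) (nat_lit 7532804510) (nat_lit 137) (nat_lit 5) (nat_lit 141) (nat_lit 5) (nat_lit 138) (nat_lit 5) (nat_lit 488) (nat_lit 410) (nat_lit 302)))) (XT.nd (nat_lit 156) (nat_lit 228) (nat_lit 0) (XT.nd (nat_lit 78) (nat_lit 228) (nat_lit 0) (XT.lf (nat_lit 0) (nat_lit 9257585418) (nat_lit 152) (nat_lit 6053766459) (nat_lit 228) (nat_lit 6290227816) (nat_lit 135) (nat_lit 5) (nat_lit 137) (nat_lit 5) (nat_lit 138) (nat_lit 5) (nat_lit 489) (nat_lit 410) (nat_lit 301)) (XT.lf (nat_lit 0) (nat_lit 1651008008) (nat_lit 228) (nat_lit 20200726980) (nat_lit 304) (nat_lit 157043263) (nat_lit 132) (nat_lit 5) (nat_lit 135) (nat_lit 5) (nat_lit 136) (nat_lit 5) (nat_lit 490)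 (nat_lit 410) (nat_lit 300))) (XT.nd (nat_lit 78) (nat_lit 152) (nat_lit 0) (XT.lf (nat_lit 0) (nat_lit 6208076494) (nat_lit 304) (nat_lit 6257104299) (nat_lit 76) (nat_lit 9956191401) (nat_lit 131) (nat_lit 5) (nat_lit 135) (nat_lit 5) (nat_lit 132) (nat_lit 5) (nat_lit 491) (nat_lit 410) (nat_lit 299)) (XT.lf (nat_lit 0) (nat_lit 8398658772) (nat_lit 152) (nat_lit 4425906097) (nat_lit 228) (nat_lit 10019825546) (nat_lit 129) (nat_lit 5) (nat_lit 131) (nat_lit 5) (nat_lit 132) (nat_lit 5) (nat_lit 492) (nat_lit 410) (nat_lit 298)))))) (XT.nd (nat_lit 624) (nat_lit 912) (nat_lit 0) (XT.nd (nat_lit 312) (nat_lit 532) (nat_lit 0) (XT.nd (nat_lit 156) (nat_lit 152) (nat_lit 0) (XT.nd (nat_lit 78) (nat_lit 76) (nat_lit 0) (XT.lf (nat_lit 0) (nat_lit 281630255) (nat_lit 152) (nat_lit 19444412381) (nat_lit 228) (nat_lit 3551461952) (nat_lit 127) (nat_lit 5) (nat_lit 129) (nat_lit 5) (nat_lit 130) (nat_lit 5) (nat_lit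 493) (nat_lit 410) (nat_lit 297)) (XT.lf (nat_lit 0) (nat_lit 3224351851) (nat_lit 228) (nat_lit 8077854008) (nat_lit 76) (nat_lit 12415286270) (nat_lit 126) (nat_lit 5) (nat_lit 129) (nat_lit 5) (nat_lit 127) (nat_lit 5) (nat_lit 494) (nat_lit 410) (nat_lit 296))) (XT.nd (nat_lit 78) (nat_lit 0) (nat_lit 0) (XT.lf (nat_lit 0) (nat_lit 7366796819) (nat_lit 152) (nat_lit 2819539143) (nat_lit 228) (nat_lit 13981660366) (nat_lit 124) (nat_lit 5) (nat_lit 126) (nat_lit 5) (nat_lit 127) (nat_lit 5) (nat_lit 495) (nat_lit 410) (nat_lit 295)) (XT.lf (nat_lit 0) (nat_lit 17479981107) (nat_lit 228) (nat_lit 1276461774) (nat_lit 76) (nat_lit 5871888944) (nat_lit 124) (nat_lit 5) (nat_lit 127) (nat_lit 5) (nat_lit 125) (nat_lit 5) (nat_lit 496) (nat_lit 410) (nat_lit 294)))) (XT.nd (nat_lit 156) (nat_lit 152) (nat_lit 0) (XT.nd (nat_lit 78) (nat_lit 152) (nat_lit 0) (XT.lf (nat_lit 0) (nat_lit 49281515) (nat_lit 228) (nat_lit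 10149194836) (nat_lit 76) (nat_lit 14899317696) (nat_lit 121) (nat_lit 5) (nat_lit 124) (nat_lit 5) (nat_lit 122) (nat_lit 5) (nat_lit 497) (nat_lit 410) (nat_lit 293)) (XT.lf (nat_lit 0) (nat_lit 6125500256) (nat_lit 152) (nat_lit 1249621891) (nat_lit 228) (nat_lit 18202416287) (nat_lit 119) (nat_lit 5) (nat_lit 121) (nat_lit 5) (nat_lit 122) (nat_lit 5) (nat_lit 498) (nat_lit 410) (nat_lit 292))) (XT.nd (nat_lit 78) (nat_lit 152) (nat_lit 0) (XT.lf (nat_lit 0) (nat_lit 15084953372) (nat_lit 228) (nat_lit 3078541376) (nat_lit 76) (nat_lit 7903254139) (nat_lit 119) (nat_lit 5) (nat_lit 122) (nat_lit 5) (nat_lit 120) (nat_lit 5) (nat_lit 499) (nat_lit 410) (nat_lit 291)) (XT.lf (nat_lit 0) (nat_lit 14019375311) (nat_lit 152) (nat_lit 9138425248) (nat_lit 228) (nat_lit 3408883651) (nat_lit 117) (nat_lit 5) (nat_lit 119) (nat_lit 5) (nat_lit 120) (nat_lit 5) (nat_lit 500) (nat_lit 410) (nat_lit 290))))) (XT.nd (nat_lit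 312) (nat_lit 304) (nat_lit 0) (XT.nd (nat_lit 156) (nat_lit 380) (nat_lit 0) (XT.nd (nat_lit 78) (nat_lit 0) (nat_lit 0) (XT.lf (nat_lit 0) (nat_lit 4368631355) (nat_lit 228) (nat_lit 22448579583) (nat_lit 76) (nat_lit 261247373) (nat_lit 114) (nat_lit 5) (nat_lit 117) (nat_lit 5) (nat_lit 115) (nat_lit 5) (nat_lit 501) (nat_lit 410) (nat_lit 289)) (XT.lf (nat_lit 0) (nat_lit 12514072033) (nat_lit 228) (nat_lit 5175754377) (nat_lit 76) (nat_lit 9908653395) (nat_lit 114) (nat_lit 5) (nat_lit 117) (nat_lit 5) (nat_lit 115) (nat_lit 5) (nat_lit 502) (nat_lit 410) (nat_lit 288))) (XT.nd (nat_lit 78) (nat_lit 228) (nat_lit 0) (XT.lf (nat_lit 0) (nat_lit 12838525054) (nat_lit 152) (nat_lit 8173887143) (nat_lit 228) (nat_lit 7118433827) (nat_lit 112) (nat_lit 5) (nat_lit 114) (nat_lit 5) (nat_lit 115) (nat_lit 5) (nat_lit 503) (nat_lit 410) (nat_lit 287)) (XT.lf (nat_lit 0) (nat_lit 1146962862) (nat_lit 228) (nat_lit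 25854469414) (nat_lit 76) (nat_lit 1674988418) (nat_lit 109) (nat_lit 5) (nat_lit 112) (nat_lit 5) (nat_lit 110) (nat_lit 5) (nat_lit 504) (nat_lit 410) (nat_lit 286)))) (XT.nd (nat_lit 156) (nat_lit 152) (nat_lit 0) (XT.nd (nat_lit 78) (nat_lit 152) (nat_lit 0) (XT.lf (nat_lit 0) (nat_lit 9739335662) (nat_lit 228) (nat_lit 7620877772) (nat_lit 76) (nat_lit 11869372306) (nat_lit 109) (nat_lit 5) (nat_lit 112) (nat_lit 5) (nat_lit 110) (nat_lit 5) (nat_lit 505) (nat_lit 410) (nat_lit 285)) (XT.lf (nat_lit 0) (nat_lit 11354750917) (nat_lit 152) (nat_lit 7329515129) (nat_lit 228) (nat_lit 11112236248) (nat_lit 107) (nat_lit 5) (nat_lit 109) (nat_lit 5) (nat_lit 110) (nat_lit 5) (nat_lit 506) (nat_lit 410) (nat_lit 284))) (XT.nd (nat_lit 78) (nat_lit 76) (nat_lit 0) (XT.lf (nat_lit 0) (nat_lit 633908728) (nat_lit 76) (nat_lit 27361992146) (nat_lit 152) (nat_lit 2381574919) (nat_lit 106) (nat_lit 5) (nat_lit 107) (nat_lit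 5) (nat_lit 108) (nat_lit 4) (nat_lit 507) (nat_lit 410) (nat_lit 283)) (XT.lf (nat_lit 0) (nat_lit 6728351133) (nat_lit 152) (nat_lit 10474993828) (nat_lit 76) (nat_lit 13763236717) (nat_lit 105) (nat_lit 5) (nat_lit 107) (nat_lit 5) (nat_lit 106) (nat_lit 5) (nat_lit 508) (nat_lit 410) (nat_lit 282))))))) (XT.nd (nat_lit 1248) (nat_lit 1292) (nat_lit 0) (XT.nd (nat_lit 624) (nat_lit 684) (nat_lit 0) (XT.nd (nat_lit 312) (nat_lit 304) (nat_lit 0) (XT.nd (nat_lit 156) (nat_lit 304) (nat_lit 0) (XT.nd (nat_lit 78) (nat_lit 0) (nat_lit 0) (XT.lf (nat_lit 0) (nat_lit 9507746008) (nat_lit 152) (nat_lit 6633482754) (nat_lit 228) (nat_lit 15429099077) (nat_lit 103) (nat_lit 5) (nat_lit 105) (nat_lit 5) (nat_lit 106) (nat_lit 5) (nat_lit 509) (nat_lit 410) (nat_lit 281)) (XT.lf (nat_lit 0) (nat_lit 25970374727) (nat_lit 228) (nat_lit 1952137366) (nat_lit 76) (nat_lit 4265657962) (nat_lit 103) (nat_lit 5) (nat_lit 106)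 (nat_lit 5) (nat_lit 104) (nat_lit 4) (nat_lit 510) (nat_lit 410) (nat_lit 280))) (XT.nd (nat_lit 78) (nat_lit 152) (nat_lit 0) (XT.lf (nat_lit 0) (nat_lit 3443669410) (nat_lit 152) (nat_lit 13808853214) (nat_lit 76) (nat_lit 15563953228) (nat_lit 101) (nat_lit 5) (nat_lit 103) (nat_lit 5) (nat_lit 102) (nat_lit 5) (nat_lit 511) (nat_lit 410) (nat_lit 279)) (XT.lf (nat_lit 0) (nat_lit 7227273810) (nat_lit 152) (nat_lit 6118707562) (nat_lit 228) (nat_lit 20113523453) (nat_lit 99) (nat_lit 5) (nat_lit 101) (nat_lit 5) (nat_lit 102) (nat_lit 5) (nat_lit 512) (nat_lit 410) (nat_lit 278)))) (XT.nd (nat_lit 156) (nat_lit 228) (nat_lit 0) (XT.nd (nat_lit 78) (nat_lit 76) (nat_lit 0) (XT.lf (nat_lit 0) (nat_lit 23724237662) (nat_lit 228) (nat_lit 5018079372) (nat_lit 76) (nat_lit 5374141499) (nat_lit 99) (nat_lit 5) (nat_lit 102) (nat_lit 5) (nat_lit 100) (nat_lit 4) (nat_lit 513) (nat_lit 410) (nat_lit 277)) (XT.lf (nat_lit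 0) (nat_lit 17080765609) (nat_lit 76) (nat_lit 17544870368) (nat_lit 152) (nat_lit 161131155) (nat_lit 98) (nat_lit 5) (nat_lit 99) (nat_lit 5) (nat_lit 100) (nat_lit 4) (nat_lit 514) (nat_lit 410) (nat_lit 276))) (XT.nd (nat_lit 78) (nat_lit 0) (nat_lit 0) (XT.lf (nat_lit 0) (nat_lit 4431525675) (nat_lit 152) (nat_lit 5823688408) (nat_lit 228) (nat_lit 25216554139) (nat_lit 95) (nat_lit 5) (nat_lit 97) (nat_lit 5) (nat_lit 98) (nat_lit 5) (nat_lit 515) (nat_lit 410) (nat_lit 275)) (XT.lf (nat_lit 0) (nat_lit 21208522772) (nat_lit 228) (nat_lit 8663767447) (nat_lit 76) (nat_lit 6298150013) (nat_lit 95) (nat_lit 5) (nat_lit 98) (nat_lit 5) (nat_lit 96) (nat_lit 4) (nat_lit 516) (nat_lit 410) (nat_lit 274))))) (XT.nd (nat_lit 312) (nat_lit 304) (nat_lit 0) (XT.nd (nat_lit 156) (nat_lit 76) (nat_lit 0) (XT.nd (nat_lit 78) (nat_lit 228) (nat_lit 0) (XT.lf (nat_lit 0) (nat_lit 14587193931) (nat_lit 76) (nat_lit 18088569624)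 (nat_lit 152) (nat_lit 4208748963) (nat_lit 94) (nat_lit 5) (nat_lit 95) (nat_lit 5) (nat_lit 96) (nat_lit 4) (nat_lit 517) (nat_lit 410) (nat_lit 273)) (XT.lf (nat_lit 0) (nat_lit 1025217460) (nat_lit 152) (nat_lit 5793472777) (nat_lit 228) (nat_lit 30796766254) (nat_lit 91) (nat_lit 5) (nat_lit 93) (nat_lit 5) (nat_lit 94) (nat_lit 5) (nat_lit 518) (nat_lit 410) (nat_lit 272))) (XT.nd (nat_lit 78) (nat_lit 76) (nat_lit 0) (XT.lf (nat_lit 0) (nat_lit 18373291047) (nat_lit 228) (nat_lit 12990858094) (nat_lit 76) (nat_lit 6994501704) (nat_lit 91) (nat_lit 5) (nat_lit 94) (nat_lit 5) (nat_lit 92) (nat_lit 4) (nat_lit 519) (nat_lit 410) (nat_lit 271)) (XT.lf (nat_lit 0) (nat_lit 11459612401) (nat_lit 76) (nat_lit 18970297921) (nat_lit 152) (nat_lit 8689569382) (nat_lit 90) (nat_lit 5) (nat_lit 91) (nat_lit 5) (nat_lit 92) (nat_lit 4) (nat_lit 520) (nat_lit 410) (nat_lit 270)))) (XT.nd (nat_lit 156) (nat_lit 76) (nat_lit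 0) (XT.nd (nat_lit 78) (nat_lit 152) (nat_lit 0) (XT.lf (nat_lit 0) (nat_lit 3007983127) (nat_lit 152) (nat_lit 3042073456) (nat_lit 76) (nat_lit 33848616893) (nat_lit 89) (nat_lit 5) (nat_lit 91) (nat_lit 5) (nat_lit 90) (nat_lit 5) (nat_lit 521) (nat_lit 410) (nat_lit 269)) (XT.lf (nat_lit 0) (nat_lit 15160414187) (nat_lit 228) (nat_lit 18117487078) (nat_lit 76) (nat_lit 7412402705) (nat_lit 87) (nat_lit 5) (nat_lit 90) (nat_lit 5) (nat_lit 88) (nat_lit 4) (nat_lit 522) (nat_lit 410) (nat_lit 268))) (XT.nd (nat_lit 78) (nat_lit 0) (nat_lit 0) (XT.lf (nat_lit 0) (nat_lit 7578922549) (nat_lit 76) (nat_lit 20250530019) (nat_lit 152) (nat_lit 13671669855) (nat_lit 86) (nat_lit 5) (nat_lit 87) (nat_lit 5) (nat_lit 88) (nat_lit 4) (nat_lit 523) (nat_lit 410) (nat_lit 267)) (XT.lf (nat_lit 0) (nat_lit 34395320432) (nat_lit 76) (nat_lit 6654576971) (nat_lit 152) (nat_lit 1281228043) (nat_lit 86) (nat_lit 5) (nat_lit 87)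 (nat_lit 5) (nat_lit 88) (nat_lit 4) (nat_lit 524) (nat_lit 410) (nat_lit 266)))))) (XT.nd (nat_lit 624) (nat_lit 532) (nat_lit 0) (XT.nd (nat_lit 312) (nat_lit 228) (nat_lit 0) (XT.nd (nat_lit 156) (nat_lit 228) (nat_lit 0) (XT.nd (nat_lit 78) (nat_lit 76) (nat_lit 0) (XT.lf (nat_lit 0) (nat_lit 11502269236) (nat_lit 228) (nat_lit 24180938806) (nat_lit 76) (nat_lit 7492148443) (nat_lit 83) (nat_lit 5) (nat_lit 86) (nat_lit 5) (nat_lit 84) (nat_lit 4) (nat_lit 525) (nat_lit 410) (nat_lit 265)) (XT.lf (nat_lit 0) (nat_lit 2806210582) (nat_lit 76) (nat_lit 21999735292) (nat_lit 152) (nat_lit 19233715314) (nat_lit 82) (nat_lit 5) (nat_lit 83) (nat_lit 5) (nat_lit 84) (nat_lit 4) (nat_lit 526) (nat_lit 410) (nat_lit 264))) (XT.nd (nat_lit 78) (nat_lit 228) (nat_lit 0) (XT.lf (nat_lit 0) (nat_lit 31076978813) (nat_lit 76) (nat_lit 7664691134) (nat_lit 152) (nat_lit 6181237036) (nat_lit 82) (nat_lit 5) (nat_lit 83) (nat_lit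 5) (nat_lit 84) (nat_lit 4) (nat_lit 527) (nat_lit 410) (nat_lit 263)) (XT.lf (nat_lit 0) (nat_lit 7320222748) (nat_lit 228) (nat_lit 31340740687) (nat_lit 76) (nat_lit 7163618415) (nat_lit 79) (nat_lit 5) (nat_lit 82) (nat_lit 5) (nat_lit 80) (nat_lit 4) (nat_lit 528) (nat_lit 410) (nat_lit 262)))) (XT.nd (nat_lit 156) (nat_lit 152) (nat_lit 0) (XT.nd (nat_lit 78) (nat_lit 76) (nat_lit 0) (XT.lf (nat_lit 0) (nat_lit 21308576063) (nat_lit 228) (nat_lit 2961543861) (nat_lit 76) (nat_lit 22475168495) (nat_lit 79) (nat_lit 5) (nat_lit 82) (nat_lit 5) (nat_lit 80) (nat_lit 4) (nat_lit 529) (nat_lit 410) (nat_lit 261)) (XT.lf (nat_lit 0) (nat_lit 26770752568) (nat_lit 76) (nat_lit 9192482123) (nat_lit 152) (nat_lit 11722981912) (nat_lit 78) (nat_lit 5) (nat_lit 79) (nat_lit 5) (nat_lit 80) (nat_lit 4) (nat_lit 530) (nat_lit 410) (nat_lit 260))) (XT.nd (nat_lit 78) (nat_lit 0) (nat_lit 0) (XT.lf (nat_lit 0) (nat_lit 2522871115)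 (nat_lit 152) (nat_lit 39782250454) (nat_lit 76) (nat_lit 6344530825) (nat_lit 76) (nat_lit 5) (nat_lit 78) (nat_lit 5) (nat_lit 77) (nat_lit 4) (nat_lit 531) (nat_lit 410) (nat_lit 259)) (XT.lf (nat_lit 0) (nat_lit 17254136621) (nat_lit 152) (nat_lit 9893028275) (nat_lit 76) (nat_lit 22482534627) (nat_lit 76) (nat_lit 5) (nat_lit 78) (nat_lit 5) (nat_lit 77) (nat_lit 4) (nat_lit 532) (nat_lit 410) (nat_lit 258))))) (XT.nd (nat_lit 312) (nat_lit 228) (nat_lit 0) (XT.nd (nat_lit 156) (nat_lit 152) (nat_lit 0) (XT.nd (nat_lit 78) (nat_lit 76) (nat_lit 0) (XT.lf (nat_lit 0) (nat_lit 21288183953) (nat_lit 76) (nat_lit 11333447713) (nat_lit 152) (nat_lit 18011687703) (nat_lit 75) (nat_lit 5) (nat_lit 76) (nat_lit 5) (nat_lit 77) (nat_lit 4) (nat_lit 533) (nat_lit 410) (nat_lit 257)) (XT.lf (nat_lit 0) (nat_lit 1912162880) (nat_lit 76) (nat_lit 46694559894) (nat_lit 76) (nat_lit 3055627953) (nat_lit 74) (nat_lit 4) (nat_lit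 75) (nat_lit 5) (nat_lit 75) (nat_lit 4) (nat_lit 534) (nat_lit 410) (nat_lit 256))) (XT.nd (nat_lit 78) (nat_lit 76) (nat_lit 0) (XT.lf (nat_lit 0) (nat_lit 12509294255) (nat_lit 152) (nat_lit 18258611184) (nat_lit 76) (nat_lit 21938751727) (nat_lit 73) (nat_lit 5) (nat_lit 75) (nat_lit 5) (nat_lit 74) (nat_lit 4) (nat_lit 535) (nat_lit 410) (nat_lit 255)) (XT.lf (nat_lit 0) (nat_lit 14409097370) (nat_lit 76) (nat_lit 14199142981) (nat_lit 152) (nat_lit 25169290142) (nat_lit 72) (nat_lit 5) (nat_lit 73) (nat_lit 5) (nat_lit 74) (nat_lit 4) (nat_lit 536) (nat_lit 410) (nat_lit 254)))) (XT.nd (nat_lit 156) (nat_lit 76) (nat_lit 0) (XT.nd (nat_lit 78) (nat_lit 152) (nat_lit 0) (XT.lf (nat_lit 0) (nat_lit 45393910246) (nat_lit 152) (nat_lit 6492810013) (nat_lit 0) (nat_lit 2987697144) (nat_lit 72) (nat_lit 5) (nat_lit 74) (nat_lit 4) (nat_lit 72) (nat_lit 4) (nat_lit 537) (nat_lit 410) (nat_lit 253)) (XT.lf (nat_lit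 0) (nat_lit 6950180383) (nat_lit 152) (nat_lit 28309382886) (nat_lit 76) (nat_lit 20730674495) (nat_lit 70) (nat_lit 5) (nat_lit 72) (nat_lit 5) (nat_lit 71) (nat_lit 4) (nat_lit 538) (nat_lit 410) (nat_lit 252))) (XT.nd (nat_lit 78) (nat_lit 0) (nat_lit 0) (XT.lf (nat_lit 0) (nat_lit 5876426914) (nat_lit 76) (nat_lit 17919810218) (nat_lit 152) (nat_lit 33337089733) (nat_lit 69) (nat_lit 5) (nat_lit 70) (nat_lit 5) (nat_lit 71) (nat_lit 4) (nat_lit 539) (nat_lit 410) (nat_lit 251)) (XT.lf (nat_lit 0) (nat_lit 41426109032) (nat_lit 152) (nat_lit 16655263353) (nat_lit 0) (nat_lit 220983290) (nat_lit 69) (nat_lit 5) (nat_lit 71) (nat_lit 4) (nat_lit 69) (nat_lit 4) (nat_lit 540) (nat_lit 410) (nat_lit 250))))))))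
noncomputable def xc120 : XT := (XT.nd (nat_lit 53820) (nat_lit 0) (nat_lit 11096) (XT.nd (nat_lit 52572) (nat_lit 0) (nat_lit 22420) (XT.nd (nat_lit 546) (nat_lit 380) (nat_lit 0) (XT.nd (nat_lit 234) (nat_lit 228) (nat_lit 0) (XT.nd (nat_lit 78) (nat_lit 76) (nat_lit 0) (XT.lf (nat_lit 0) (nat_lit 432595554) (nat_lit 152) (nat_lit 40337650563) (nat_lit 76) (nat_lit 18725515532) (nat_lit 67) (nat_lit 5) (nat_lit 69) (nat_lit 5) (nat_lit 68) (nat_lit 4) (nat_lit 541) (nat_lit 410) (nat_lit 249)) (XT.nd (nat_lit 78) (nat_lit 76) (nat_lit 0) (XT.lf (nat_lit 0) (nat_lit 18081955608) (nat_lit 152) (nat_lit 4519831979) (nat_lit 76) (nat_lit 38113356052) (nat_lit 67) (nat_lit 5) (nat_lit 69) (nat_lit 5) (nat_lit 68) (nat_lit 4) (nat_lit 542) (nat_lit 410) (nat_lit 248)) (XT.lf (nat_lit 0) (nat_lit 32998524413) (nat_lit 76) (nat_lit 3570345639) (nat_lit 152) (nat_lit 25392994866) (nat_lit 66) (nat_lit 5) (nat_lit 67) (nat_lit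 5) (nat_lit 68) (nat_lit 4) (nat_lit 543) (nat_lit 410) (nat_lit 247)))) (XT.nd (nat_lit 156) (nat_lit 76) (nat_lit 0) (XT.nd (nat_lit 78) (nat_lit 76) (nat_lit 0) (XT.lf (nat_lit 0) (nat_lit 8483518894) (nat_lit 76) (nat_lit 47399508132) (nat_lit 76) (nat_lit 7354781790) (nat_lit 65) (nat_lit 4) (nat_lit 66) (nat_lit 5) (nat_lit 66) (nat_lit 4) (nat_lit 544) (nat_lit 410) (nat_lit 246)) (XT.lf (nat_lit 0) (nat_lit 11327153158) (nat_lit 152) (nat_lit 17059829992) (nat_lit 76) (nat_lit 36152162767) (nat_lit 64) (nat_lit 5) (nat_lit 66) (nat_lit 5) (nat_lit 65) (nat_lit 4) (nat_lit 545) (nat_lit 410) (nat_lit 245))) (XT.nd (nat_lit 78) (nat_lit 0) (nat_lit 0) (XT.lf (nat_lit 0) (nat_lit 22106612017) (nat_lit 76) (nat_lit 8518766706) (nat_lit 152) (nat_lit 35245850160) (nat_lit 63) (nat_lit 5) (nat_lit 64) (nat_lit 5) (nat_lit 65) (nat_lit 4) (nat_lit 546) (nat_lit 410) (nat_lit 244)) (XT.lf (nat_lit 0) (nat_lit 50782519409)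 (nat_lit 152) (nat_lit 4574304291) (nat_lit 0) (nat_lit 11878051617) (nat_lit 63) (nat_lit 5) (nat_lit 65) (nat_lit 4) (nat_lit 63) (nat_lit 4) (nat_lit 547) (nat_lit 410) (nat_lit 243))))) (XT.nd (nat_lit 312) (nat_lit 76) (nat_lit 0) (XT.nd (nat_lit 156) (nat_lit 76) (nat_lit 0) (XT.nd (nat_lit 78) (nat_lit 76) (nat_lit 0) (XT.lf (nat_lit 0) (nat_lit 3278144299) (nat_lit 152) (nat_lit 32258030769) (nat_lit 76) (nat_lit 33089521771) (nat_lit 61) (nat_lit 5) (nat_lit 63) (nat_lit 5) (nat_lit 62) (nat_lit 4) (nat_lit 548) (nat_lit 410) (nat_lit 242)) (XT.lf (nat_lit 0) (nat_lit 8561603324) (nat_lit 76) (nat_lit 14828654907) (nat_lit 152) (nat_lit 46659486723) (nat_lit 60) (nat_lit 5) (nat_lit 61) (nat_lit 5) (nat_lit 62) (nat_lit 4) (nat_lit 549) (nat_lit 410) (nat_lit 241))) (XT.nd (nat_lit 78) (nat_lit 76) (nat_lit 0) (XT.lf (nat_lit 0) (nat_lit 44488622217) (nat_lit 152) (nat_lit 20322294488) (nat_lit 0) (nat_lit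 6694111235) (nat_lit 60) (nat_lit 5) (nat_lit 62) (nat_lit 4) (nat_lit 60) (nat_lit 4) (nat_lit 550) (nat_lit 410) (nat_lit 240)) (XT.lf (nat_lit 0) (nat_lit 22351431014) (nat_lit 76) (nat_lit 44221865296) (nat_lit 76) (nat_lit 6420072358) (nat_lit 59) (nat_lit 4) (nat_lit 60) (nat_lit 5) (nat_lit 60) (nat_lit 4) (nat_lit 551) (nat_lit 410) (nat_lit 239)))) (XT.nd (nat_lit 51558) (nat_lit 0) (nat_lit 27664) (XT.nd (nat_lit 51480) (nat_lit 0) (nat_lit 27664) (XT.lf (nat_lit 0) (nat_lit 14704400427) (nat_lit 152) (nat_lit 7958929929) (nat_lit 76) (nat_lit 51852794876) (nat_lit 58) (nat_lit 5) (nat_lit 60) (nat_lit 5) (nat_lit 59) (nat_lit 4) (nat_lit 552) (nat_lit 410) (nat_lit 238)) (XT.lf (nat_lit 0) (nat_lit 682365037) (nat_lit 0) (nat_lit 682365037) (nat_lit 684) (nat_lit 2112055251) (nat_lit 422) (nat_lit 5) (nat_lit 422) (nat_lit 3) (nat_lit 431) (nat_lit 3) (nat_lit 411) (nat_lit 411) (nat_lit 378))) (XT.nd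 (nat_lit 78) (nat_lit 0) (nat_lit 0) (XT.lf (nat_lit 0) (nat_lit 4641951544) (nat_lit 684) (nat_lit 2107608644) (nat_lit 760) (nat_lit 252050417) (nat_lit 422) (nat_lit 5) (nat_lit 431) (nat_lit 3) (nat_lit 432) (nat_lit 5) (nat_lit 412) (nat_lit 411) (nat_lit 377)) (XT.lf (nat_lit 76) (nat_lit 1453902985) (nat_lit 0) (nat_lit 5112808372) (nat_lit 760) (nat_lit 485738164) (nat_lit 423) (nat_lit 5) (nat_lit 422) (nat_lit 5) (nat_lit 432) (nat_lit 5) (nat_lit 413) (nat_lit 411) (nat_lit 376)))))) (XT.nd (nat_lit 624) (nat_lit 3724) (nat_lit 0) (XT.nd (nat_lit 312) (nat_lit 760) (nat_lit 0) (XT.nd (nat_lit 156) (nat_lit 0) (nat_lit 76) (XT.nd (nat_lit 78) (nat_lit 0) (nat_lit 0) (XT.lf (nat_lit 0) (nat_lit 1366151213) (nat_lit 760) (nat_lit 1992868317) (nat_lit 836) (nat_lit 3746883757) (nat_lit 412) (nat_lit 5) (nat_lit 422) (nat_lit 5) (nat_lit 423) (nat_lit 5) (nat_lit 414) (nat_lit 411) (nat_lit 375)) (XT.lf (nat_lit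 76) (nat_lit 1710656997) (nat_lit 0) (nat_lit 1500148360) (nat_lit 836) (nat_lit 3951606086) (nat_lit 413) (nat_lit 5) (nat_lit 412) (nat_lit 5) (nat_lit 423) (nat_lit 5) (nat_lit 415) (nat_lit 411) (nat_lit 374))) (XT.nd (nat_lit 78) (nat_lit 0) (nat_lit 0) (XT.lf (nat_lit 0) (nat_lit 5067568792) (nat_lit 760) (nat_lit 1698888849) (nat_lit 836) (nat_lit 455458176) (nat_lit 413) (nat_lit 5) (nat_lit 423) (nat_lit 5) (nat_lit 424) (nat_lit 5) (nat_lit 416) (nat_lit 411) (nat_lit 373)) (XT.lf (nat_lit 76) (nat_lit 2154099266) (nat_lit 0) (nat_lit 4795924494) (nat_lit 836) (nat_lit 334085843) (nat_lit 414) (nat_lit 5) (nat_lit 413) (nat_lit 5) (nat_lit 424) (nat_lit 5) (nat_lit 417) (nat_lit 411) (nat_lit 372)))) (XT.nd (nat_lit 156) (nat_lit 0) (nat_lit 76) (XT.nd (nat_lit 78) (nat_lit 0) (nat_lit 0) (XT.lf (nat_lit 0) (nat_lit 1463366084) (nat_lit 836) (nat_lit 1245679725) (nat_lit 912) (nat_lit 4640103308) (nat_lit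 402) (nat_lit 5) (nat_lit 413) (nat_lit 5) (nat_lit 414) (nat_lit 5) (nat_lit 418) (nat_lit 411) (nat_lit 371)) (XT.lf (nat_lit 76) (nat_lit 2766491255) (nat_lit 0) (nat_lit 505336338) (nat_lit 912) (nat_lit 4145302576) (nat_lit 403) (nat_lit 5) (nat_lit 402) (nat_lit 5) (nat_lit 414) (nat_lit 5) (nat_lit 419) (nat_lit 411) (nat_lit 370))) (XT.nd (nat_lit 78) (nat_lit 0) (nat_lit 0) (XT.lf (nat_lit 0) (nat_lit 5103084452) (nat_lit 836) (nat_lit 620335158) (nat_lit 912) (nat_lit 1764678298) (nat_lit 403) (nat_lit 5) (nat_lit 414) (nat_lit 5) (nat_lit 415) (nat_lit 5) (nat_lit 420) (nat_lit 411) (nat_lit 369)) (XT.lf (nat_lit 76) (nat_lit 3555409925) (nat_lit 0) (nat_lit 3413706221) (nat_lit 912) (nat_lit 592686821) (nat_lit 404) (nat_lit 5) (nat_lit 403) (nat_lit 5) (nat_lit 415) (nat_lit 5) (nat_lit 421) (nat_lit 411) (nat_lit 368))))) (XT.nd (nat_lit 312) (nat_lit 2888) (nat_lit 0) (XT.nd (nat_lit 156) (nat_lit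 0) (nat_lit 76) (XT.nd (nat_lit 78) (nat_lit 0) (nat_lit 76) (XT.lf (nat_lit 76) (nat_lit 182440301) (nat_lit 0) (nat_lit 996019476) (nat_lit 988) (nat_lit 6460415891) (nat_lit 392) (nat_lit 5) (nat_lit 391) (nat_lit 5) (nat_lit 404) (nat_lit 5) (nat_lit 422) (nat_lit 411) (nat_lit 367)) (XT.lf (nat_lit 0) (nat_lit 2988960556) (nat_lit 912) (nat_lit 3200720646) (nat_lit 988) (nat_lit 1528462447) (nat_lit 392) (nat_lit 5) (nat_lit 404) (nat_lit 5) (nat_lit 405) (nat_lit 5) (nat_lit 423) (nat_lit 411) (nat_lit 366))) (XT.nd (nat_lit 78) (nat_lit 0) (nat_lit 0) (XT.lf (nat_lit 76) (nat_lit 1154450172) (nat_lit 0) (nat_lit 3664859589) (nat_lit 988) (nat_lit 2981516929) (nat_lit 393) (nat_lit 5) (nat_lit 392) (nat_lit 5) (nat_lit 405) (nat_lit 5) (nat_lit 424) (nat_lit 411) (nat_lit 365)) (XT.lf (nat_lit 76) (nat_lit 5665407303) (nat_lit 0) (nat_lit 1017282897) (nat_lit 988) (nat_lit 1203959334) (nat_lit 393) (nat_lit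 5) (nat_lit 392) (nat_lit 5) (nat_lit 405) (nat_lit 5) (nat_lit 425) (nat_lit 411) (nat_lit 364)))) (XT.nd (nat_lit 156) (nat_lit 2052) (nat_lit 0) (XT.nd (nat_lit 78) (nat_lit 0) (nat_lit 0) (XT.lf (nat_lit 0) (nat_lit 600839282) (nat_lit 988) (nat_lit 5656791093) (nat_lit 76) (nat_lit 1717654226) (nat_lit 380) (nat_lit 5) (nat_lit 393) (nat_lit 5) (nat_lit 381) (nat_lit 5) (nat_lit 426) (nat_lit 411) (nat_lit 363)) (XT.lf (nat_lit 0) (nat_lit 2416441695) (nat_lit 988) (nat_lit 1089809584) (nat_lit 76) (nat_lit 4560546768) (nat_lit 380) (nat_lit 5) (nat_lit 393) (nat_lit 5) (nat_lit 381) (nat_lit 5) (nat_lit 427) (nat_lit 411) (nat_lit 362))) (XT.nd (nat_lit 78) (nat_lit 1064) (nat_lit 0) (XT.lf (nat_lit 0) (nat_lit 3644875139) (nat_lit 988) (nat_lit 626318324) (nat_lit 1064) (nat_lit 3890325600) (nat_lit 367) (nat_lit 5) (nat_lit 380) (nat_lit 5) (nat_lit 381) (nat_lit 5) (nat_lit 428) (nat_lit 411) (nat_lit 361))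 (XT.lf (nat_lit 0) (nat_lit 225380211) (nat_lit 1064) (nat_lit 5942796753) (nat_lit 1140) (nat_lit 2091309602) (nat_lit 353) (nat_lit 5) (nat_lit 367) (nat_lit 5) (nat_lit 368) (nat_lit 5) (nat_lit 429) (nat_lit 411) (nat_lit 360))))))) (XT.nd (nat_lit 1170) (nat_lit 4408) (nat_lit 0) (XT.nd (nat_lit 546) (nat_lit 2964) (nat_lit 0) (XT.nd (nat_lit 234) (nat_lit 2736) (nat_lit 0) (XT.nd (nat_lit 78) (nat_lit 1216) (nat_lit 0) (XT.lf (nat_lit 0) (nat_lit 5154731093) (nat_lit 1064) (nat_lit 2970940219) (nat_lit 1140) (nat_lit 234616199) (nat_lit 353) (nat_lit 5) (nat_lit 367) (nat_lit 5) (nat_lit 368) (nat_lit 5) (nat_lit 430) (nat_lit 411) (nat_lit 359)) (XT.nd (nat_lit 78) (nat_lit 0) (nat_lit 0) (XT.lf (nat_lit 0) (nat_lit 1615851705) (nat_lit 1216) (nat_lit 6720964035) (nat_lit 76) (nat_lit 127690829) (nat_lit 337) (nat_lit 5) (nat_lit 353) (nat_lit 5) (nat_lit 338) (nat_lit 5) (nat_lit 431) (nat_lit 411) (nat_lit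 358)) (XT.lf (nat_lit 0) (nat_lit 3533052697) (nat_lit 1216) (nat_lit 1738095091) (nat_lit 76) (nat_lit 3300158933) (nat_lit 337) (nat_lit 5) (nat_lit 353) (nat_lit 5) (nat_lit 338) (nat_lit 5) (nat_lit 432) (nat_lit 411) (nat_lit 357)))) (XT.nd (nat_lit 156) (nat_lit 1520) (nat_lit 0) (XT.nd (nat_lit 78) (nat_lit 0) (nat_lit 0) (XT.lf (nat_lit 0) (nat_lit 3420243390) (nat_lit 1216) (nat_lit 2075577613) (nat_lit 1292) (nat_lit 3185850520) (nat_lit 321) (nat_lit 5) (nat_lit 337) (nat_lit 5) (nat_lit 338) (nat_lit 5) (nat_lit 433) (nat_lit 411) (nat_lit 356)) (XT.lf (nat_lit 0) (nat_lit 7503010684) (nat_lit 1292) (nat_lit 79432534) (nat_lit 76) (nat_lit 1213340022) (nat_lit 321) (nat_lit 5) (nat_lit 338) (nat_lit 5) (nat_lit 322) (nat_lit 5) (nat_lit 434) (nat_lit 411) (nat_lit 355))) (XT.nd (nat_lit 78) (nat_lit 608) (nat_lit 0) (XT.lf (nat_lit 0) (nat_lit 673464090) (nat_lit 912) (nat_lit 3618649958) (nat_lit 76)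 (nat_lit 4620141103) (nat_lit 309) (nat_lit 5) (nat_lit 321) (nat_lit 5) (nat_lit 310) (nat_lit 5) (nat_lit 435) (nat_lit 411) (nat_lit 354)) (XT.lf (nat_lit 0) (nat_lit 1778216198) (nat_lit 608) (nat_lit 870235021) (nat_lit 684) (nat_lit 6384115542) (nat_lit 301) (nat_lit 5) (nat_lit 309) (nat_lit 5) (nat_lit 310) (nat_lit 5) (nat_lit 436) (nat_lit 411) (nat_lit 353))))) (XT.nd (nat_lit 312) (nat_lit 1748) (nat_lit 0) (XT.nd (nat_lit 156) (nat_lit 608) (nat_lit 0) (XT.nd (nat_lit 78) (nat_lit 608) (nat_lit 0) (XT.lf (nat_lit 0) (nat_lit 4703794923) (nat_lit 684) (nat_lit 1811889184) (nat_lit 76) (nat_lit 2640172290) (nat_lit 301) (nat_lit 5) (nat_lit 310) (nat_lit 5) (nat_lit 302) (nat_lit 5) (nat_lit 437) (nat_lit 411) (nat_lit 352)) (XT.lf (nat_lit 0) (nat_lit 3819184772) (nat_lit 608) (nat_lit 3006835058) (nat_lit 684) (nat_lit 2456670091) (nat_lit 293) (nat_lit 5) (nat_lit 301) (nat_lit 5) (nat_lit 302) (nat_lit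 5) (nat_lit 438) (nat_lit 411) (nat_lit 351))) (XT.nd (nat_lit 78) (nat_lit 76) (nat_lit 0) (XT.lf (nat_lit 0) (nat_lit 200092404) (nat_lit 532) (nat_lit 8798723943) (nat_lit 608) (nat_lit 414906734) (nat_lit 286) (nat_lit 5) (nat_lit 293) (nat_lit 5) (nat_lit 294) (nat_lit 5) (nat_lit 439) (nat_lit 411) (nat_lit 350)) (XT.lf (nat_lit 0) (nat_lit 1701690635) (nat_lit 608) (nat_lit 3489700328) (nat_lit 76) (nat_lit 4355415465) (nat_lit 285) (nat_lit 5) (nat_lit 293) (nat_lit 5) (nat_lit 286) (nat_lit 5) (nat_lit 440) (nat_lit 411) (nat_lit 349)))) (XT.nd (nat_lit 156) (nat_lit 1140) (nat_lit 0) (XT.nd (nat_lit 78) (nat_lit 0) (nat_lit 0) (XT.lf (nat_lit 0) (nat_lit 2408331708) (nat_lit 608) (nat_lit 1450434907) (nat_lit 684) (nat_lit 5825434449) (nat_lit 277) (nat_lit 5) (nat_lit 285) (nat_lit 5) (nat_lit 286) (nat_lit 5) (nat_lit 441) (nat_lit 411) (nat_lit 348)) (XT.lf (nat_lit 0) (nat_lit 6102096721) (nat_lit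 684) (nat_lit 1334458434) (nat_lit 76) (nat_lit 2388517704) (nat_lit 277) (nat_lit 5) (nat_lit 286) (nat_lit 5) (nat_lit 278) (nat_lit 5) (nat_lit 442) (nat_lit 411) (nat_lit 347))) (XT.nd (nat_lit 78) (nat_lit 608) (nat_lit 0) (XT.lf (nat_lit 0) (nat_lit 4824994267) (nat_lit 532) (nat_lit 3612412946) (nat_lit 608) (nat_lit 1532024713) (nat_lit 270) (nat_lit 5) (nat_lit 277) (nat_lit 5) (nat_lit 278) (nat_lit 5) (nat_lit 443) (nat_lit 411) (nat_lit 346)) (XT.lf (nat_lit 0) (nat_lit 701890464) (nat_lit 608) (nat_lit 9069689537) (nat_lit 76) (nat_lit 346592957) (nat_lit 262) (nat_lit 5) (nat_lit 270) (nat_lit 5) (nat_lit 263) (nat_lit 5) (nat_lit 444) (nat_lit 411) (nat_lit 345)))))) (XT.nd (nat_lit 624) (nat_lit 2128) (nat_lit 0) (XT.nd (nat_lit 312) (nat_lit 1368) (nat_lit 0) (XT.nd (nat_lit 156) (nat_lit 456) (nat_lit 0) (XT.nd (nat_lit 78) (nat_lit 456) (nat_lit 0) (XT.lf (nat_lit 0) (nat_lit 3025128087) (nat_lit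 608) (nat_lit 2829544902) (nat_lit 76) (nat_lit 4414656661) (nat_lit 262) (nat_lit 5) (nat_lit 270) (nat_lit 5) (nat_lit 263) (nat_lit 5) (nat_lit 445) (nat_lit 411) (nat_lit 344)) (XT.lf (nat_lit 0) (nat_lit 3628882824) (nat_lit 456) (nat_lit 1789953956) (nat_lit 532) (nat_lit 5006162404) (nat_lit 256) (nat_lit 5) (nat_lit 262) (nat_lit 5) (nat_lit 263) (nat_lit 5) (nat_lit 446) (nat_lit 411) (nat_lit 343))) (XT.nd (nat_lit 78) (nat_lit 456) (nat_lit 0) (XT.lf (nat_lit 0) (nat_lit 7902701031) (nat_lit 532) (nat_lit 309031024) (nat_lit 76) (nat_lit 2373057743) (nat_lit 256) (nat_lit 5) (nat_lit 263) (nat_lit 5) (nat_lit 257) (nat_lit 5) (nat_lit 447) (nat_lit 411) (nat_lit 342)) (XT.lf (nat_lit 0) (nat_lit 6441521282) (nat_lit 456) (nat_lit 4066629202) (nat_lit 532) (nat_lit 239812848) (nat_lit 250) (nat_lit 5) (nat_lit 256) (nat_lit 5) (nat_lit 257) (nat_lit 5) (nat_lit 448) (nat_lit 411) (nat_lit 341)))) (XT.nd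 (nat_lit 156) (nat_lit 836) (nat_lit 0) (XT.nd (nat_lit 78) (nat_lit 0) (nat_lit 0) (XT.lf (nat_lit 0) (nat_lit 2228287170) (nat_lit 532) (nat_lit 8445968955) (nat_lit 76) (nat_lit 241211979) (nat_lit 243) (nat_lit 5) (nat_lit 250) (nat_lit 5) (nat_lit 244) (nat_lit 5) (nat_lit 449) (nat_lit 411) (nat_lit 340)) (XT.lf (nat_lit 0) (nat_lit 4817973176) (nat_lit 532) (nat_lit 1632644812) (nat_lit 76) (nat_lit 4635739084) (nat_lit 243) (nat_lit 5) (nat_lit 250) (nat_lit 5) (nat_lit 244) (nat_lit 5) (nat_lit 450) (nat_lit 411) (nat_lit 339))) (XT.nd (nat_lit 78) (nat_lit 380) (nat_lit 0) (XT.lf (nat_lit 0) (nat_lit 5452764442) (nat_lit 456) (nat_lit 2054109510) (nat_lit 532) (nat_lit 3754854170) (nat_lit 237) (nat_lit 5) (nat_lit 243) (nat_lit 5) (nat_lit 244) (nat_lit 5) (nat_lit 451) (nat_lit 411) (nat_lit 338)) (XT.lf (nat_lit 0) (nat_lit 1304675833) (nat_lit 380) (nat_lit 8994304840) (nat_lit 456) (nat_lit 1142704570)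 (nat_lit 232) (nat_lit 5) (nat_lit 237) (nat_lit 5) (nat_lit 238) (nat_lit 5) (nat_lit 452) (nat_lit 411) (nat_lit 337))))) (XT.nd (nat_lit 312) (nat_lit 1216) (nat_lit 0) (XT.nd (nat_lit 156) (nat_lit 380) (nat_lit 0) (XT.nd (nat_lit 78) (nat_lit 456) (nat_lit 0) (XT.lf (nat_lit 0) (nat_lit 1566963545) (nat_lit 456) (nat_lit 2949667449) (nat_lit 76) (nat_lit 7108484050) (nat_lit 231) (nat_lit 5) (nat_lit 237) (nat_lit 5) (nat_lit 232) (nat_lit 5) (nat_lit 453) (nat_lit 411) (nat_lit 336)) (XT.lf (nat_lit 0) (nat_lit 4350158957) (nat_lit 532) (nat_lit 7323285553) (nat_lit 76) (nat_lit 139808689) (nat_lit 225) (nat_lit 5) (nat_lit 232) (nat_lit 5) (nat_lit 226) (nat_lit 5) (nat_lit 454) (nat_lit 411) (nat_lit 335))) (XT.nd (nat_lit 78) (nat_lit 0) (nat_lit 0) (XT.lf (nat_lit 0) (nat_lit 125908837) (nat_lit 380) (nat_lit 7138015352) (nat_lit 456) (nat_lit 4741700075) (nat_lit 220) (nat_lit 5) (nat_lit 225) (nat_lit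 5) (nat_lit 226) (nat_lit 5) (nat_lit 455) (nat_lit 411) (nat_lit 334)) (XT.lf (nat_lit 0) (nat_lit 7910428915) (nat_lit 380) (nat_lit 2400162972) (nat_lit 456) (nat_lit 1891810841) (nat_lit 220) (nat_lit 5) (nat_lit 225) (nat_lit 5) (nat_lit 226) (nat_lit 5) (nat_lit 456) (nat_lit 411) (nat_lit 333)))) (XT.nd (nat_lit 156) (nat_lit 760) (nat_lit 0) (XT.nd (nat_lit 78) (nat_lit 0) (nat_lit 0) (XT.lf (nat_lit 0) (nat_lit 1053559424) (nat_lit 456) (nat_lit 8883950499) (nat_lit 76) (nat_lit 2466364131) (nat_lit 214) (nat_lit 5) (nat_lit 220) (nat_lit 5) (nat_lit 215) (nat_lit 5) (nat_lit 457) (nat_lit 411) (nat_lit 332)) (XT.lf (nat_lit 0) (nat_lit 4089252859) (nat_lit 456) (nat_lit 1036925731) (nat_lit 76) (nat_lit 7483450311) (nat_lit 214) (nat_lit 5) (nat_lit 220) (nat_lit 5) (nat_lit 215) (nat_lit 5) (nat_lit 458) (nat_lit 411) (nat_lit 331))) (XT.nd (nat_lit 78) (nat_lit 380) (nat_lit 0) (XT.lf (nat_lit 0) (nat_lit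 7148030865) (nat_lit 380) (nat_lit 109951810) (nat_lit 456) (nat_lit 5562315600) (nat_lit 209) (nat_lit 5) (nat_lit 214) (nat_lit 5) (nat_lit 215) (nat_lit 5) (nat_lit 459) (nat_lit 411) (nat_lit 330)) (XT.lf (nat_lit 0) (nat_lit 2526107712) (nat_lit 380) (nat_lit 8052715114) (nat_lit 456) (nat_lit 2456754274) (nat_lit 204) (nat_lit 5) (nat_lit 209) (nat_lit 5) (nat_lit 210) (nat_lit 5) (nat_lit 460) (nat_lit 411) (nat_lit 329))))))))
noncomputable def xc121 : XT := (XT.nd (nat_lit 2418) (nat_lit 3344) (nat_lit 0) (XT.nd (nat_lit 1170) (nat_lit 2660) (nat_lit 0) (XT.nd (nat_lit 546) (nat_lit 1520) (nat_lit 0) (XT.nd (nat_lit 234) (nat_lit 684) (nat_lit 0) (XT.nd (nat_lit 78) (nat_lit 608) (nat_lit 0) (XT.lf (nat_lit 0) (nat_lit 760168748) (nat_lit 456) (nat_lit 2215123692) (nat_lit 76) (nat_lit 10280828452) (nat_lit 203) (nat_lit 5) (nat_lit 209) (nat_lit 5) (nat_lit 204) (nat_lit 5) (nat_lit 461) (nat_lit 411)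 (nat_lit 328)) (XT.nd (nat_lit 78) (nat_lit 304) (nat_lit 0) (XT.lf (nat_lit 0) (nat_lit 4082585687) (nat_lit 380) (nat_lit 7111787468) (nat_lit 76) (nat_lit 2286427930) (nat_lit 199) (nat_lit 5) (nat_lit 204) (nat_lit 5) (nat_lit 200) (nat_lit 5) (nat_lit 462) (nat_lit 411) (nat_lit 327)) (XT.lf (nat_lit 0) (nat_lit 1507620157) (nat_lit 304) (nat_lit 6038390884) (nat_lit 380) (nat_lit 6164971299) (nat_lit 195) (nat_lit 5) (nat_lit 199) (nat_lit 5) (nat_lit 200) (nat_lit 5) (nat_lit 463) (nat_lit 411) (nat_lit 326)))) (XT.nd (nat_lit 156) (nat_lit 304) (nat_lit 0) (XT.nd (nat_lit 78) (nat_lit 380) (nat_lit 0) (XT.lf (nat_lit 0) (nat_lit 10495102601) (nat_lit 304) (nat_lit 665232436) (nat_lit 380) (nat_lit 2786324827) (nat_lit 195) (nat_lit 5) (nat_lit 199) (nat_lit 5) (nat_lit 200) (nat_lit 5) (nat_lit 464) (nat_lit 411) (nat_lit 325)) (XT.lf (nat_lit 0) (nat_lit 757228347) (nat_lit 380) (nat_lit 8605331424) (nat_lit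 76) (nat_lit 4824336065) (nat_lit 190) (nat_lit 5) (nat_lit 195) (nat_lit 5) (nat_lit 191) (nat_lit 5) (nat_lit 465) (nat_lit 411) (nat_lit 324))) (XT.nd (nat_lit 78) (nat_lit 0) (nat_lit 0) (XT.lf (nat_lit 0) (nat_lit 461649665) (nat_lit 304) (nat_lit 3911582853) (nat_lit 380) (nat_lit 10059614993) (nat_lit 186) (nat_lit 5) (nat_lit 190) (nat_lit 5) (nat_lit 191) (nat_lit 5) (nat_lit 466) (nat_lit 411) (nat_lit 323)) (XT.lf (nat_lit 0) (nat_lit 8178011604) (nat_lit 380) (nat_lit 4759984494) (nat_lit 76) (nat_lit 1745773427) (nat_lit 186) (nat_lit 5) (nat_lit 191) (nat_lit 5) (nat_lit 187) (nat_lit 5) (nat_lit 467) (nat_lit 411) (nat_lit 322))))) (XT.nd (nat_lit 312) (nat_lit 608) (nat_lit 0) (XT.nd (nat_lit 156) (nat_lit 532) (nat_lit 0) (XT.nd (nat_lit 78) (nat_lit 76) (nat_lit 0) (XT.lf (nat_lit 0) (nat_lit 4746284102) (nat_lit 304) (nat_lit 7411864734) (nat_lit 380) (nat_lit 2782234532) (nat_lit 182) (nat_lit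 5) (nat_lit 186) (nat_lit 5) (nat_lit 187) (nat_lit 5) (nat_lit 468) (nat_lit 411) (nat_lit 321)) (XT.lf (nat_lit 0) (nat_lit 1057964152) (nat_lit 380) (nat_lit 613819527) (nat_lit 76) (nat_lit 13531843345) (nat_lit 181) (nat_lit 5) (nat_lit 186) (nat_lit 5) (nat_lit 182) (nat_lit 5) (nat_lit 469) (nat_lit 411) (nat_lit 320))) (XT.nd (nat_lit 78) (nat_lit 228) (nat_lit 0) (XT.lf (nat_lit 0) (nat_lit 5067025332) (nat_lit 380) (nat_lit 6138716298) (nat_lit 76) (nat_lit 4264913213) (nat_lit 177) (nat_lit 5) (nat_lit 182) (nat_lit 5) (nat_lit 178) (nat_lit 5) (nat_lit 470) (nat_lit 411) (nat_lit 319)) (XT.lf (nat_lit 0) (nat_lit 3867532996) (nat_lit 228) (nat_lit 5366670768) (nat_lit 304) (nat_lit 6510354913) (nat_lit 174) (nat_lit 5) (nat_lit 177) (nat_lit 5) (nat_lit 178) (nat_lit 5) (nat_lit 471) (nat_lit 411) (nat_lit 318)))) (XT.nd (nat_lit 156) (nat_lit 228) (nat_lit 0) (XT.nd (nat_lit 78) (nat_lit 380) (nat_lit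 0) (XT.lf (nat_lit 0) (nat_lit 13573280058) (nat_lit 304) (nat_lit 1766517628) (nat_lit 76) (nat_lit 685475994) (nat_lit 174) (nat_lit 5) (nat_lit 178) (nat_lit 5) (nat_lit 175) (nat_lit 5) (nat_lit 472) (nat_lit 411) (nat_lit 317)) (XT.lf (nat_lit 0) (nat_lit 1811298317) (nat_lit 380) (nat_lit 7597811263) (nat_lit 76) (nat_lit 6901295650) (nat_lit 169) (nat_lit 5) (nat_lit 174) (nat_lit 5) (nat_lit 170) (nat_lit 5) (nat_lit 473) (nat_lit 411) (nat_lit 316))) (XT.nd (nat_lit 78) (nat_lit 0) (nat_lit 0) (XT.lf (nat_lit 0) (nat_lit 2937860157) (nat_lit 228) (nat_lit 3240387517) (nat_lit 304) (nat_lit 10424363982) (nat_lit 166) (nat_lit 5) (nat_lit 169) (nat_lit 5) (nat_lit 170) (nat_lit 5) (nat_lit 474) (nat_lit 411) (nat_lit 315)) (XT.lf (nat_lit 0) (nat_lit 10762578305) (nat_lit 304) (nat_lit 3020547142) (nat_lit 76) (nat_lit 3117868114) (nat_lit 166) (nat_lit 5) (nat_lit 170) (nat_lit 5) (nat_lit 167) (nat_lit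 5) (nat_lit 475) (nat_lit 411) (nat_lit 314)))))) (XT.nd (nat_lit 624) (nat_lit 1368) (nat_lit 0) (XT.nd (nat_lit 312) (nat_lit 532) (nat_lit 0) (XT.nd (nat_lit 156) (nat_lit 228) (nat_lit 0) (XT.nd (nat_lit 78) (nat_lit 304) (nat_lit 0) (XT.lf (nat_lit 0) (nat_lit 8034748883) (nat_lit 228) (nat_lit 7538582978) (nat_lit 304) (nat_lit 1632328727) (nat_lit 163) (nat_lit 5) (nat_lit 166) (nat_lit 5) (nat_lit 167) (nat_lit 5) (nat_lit 476) (nat_lit 411) (nat_lit 313)) (XT.lf (nat_lit 0) (nat_lit 1940692915) (nat_lit 228) (nat_lit 1038647492) (nat_lit 304) (nat_lit 14538386476) (nat_lit 159) (nat_lit 5) (nat_lit 162) (nat_lit 5) (nat_lit 163) (nat_lit 5) (nat_lit 477) (nat_lit 411) (nat_lit 312))) (XT.nd (nat_lit 78) (nat_lit 228) (nat_lit 0) (XT.lf (nat_lit 0) (nat_lit 7824261597) (nat_lit 304) (nat_lit 4367364719) (nat_lit 76) (nat_lit 5643213114) (nat_lit 159) (nat_lit 5) (nat_lit 163) (nat_lit 5) (nat_lit 160) (nat_lit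 5) (nat_lit 478) (nat_lit 411) (nat_lit 311)) (XT.lf (nat_lit 0) (nat_lit 7278121781) (nat_lit 228) (nat_lit 5597055349) (nat_lit 304) (nat_lit 5284469227) (nat_lit 156) (nat_lit 5) (nat_lit 159) (nat_lit 5) (nat_lit 160) (nat_lit 5) (nat_lit 479) (nat_lit 411) (nat_lit 310)))) (XT.nd (nat_lit 156) (nat_lit 228) (nat_lit 0) (XT.nd (nat_lit 78) (nat_lit 76) (nat_lit 0) (XT.lf (nat_lit 0) (nat_lit 841768517) (nat_lit 228) (nat_lit 17280516937) (nat_lit 304) (nat_lit 370572471) (nat_lit 153) (nat_lit 5) (nat_lit 156) (nat_lit 5) (nat_lit 157) (nat_lit 5) (nat_lit 480) (nat_lit 411) (nat_lit 309)) (XT.lf (nat_lit 0) (nat_lit 4746207367) (nat_lit 304) (nat_lit 5826967431) (nat_lit 76) (nat_lit 8257128721) (nat_lit 152) (nat_lit 5) (nat_lit 156) (nat_lit 5) (nat_lit 153) (nat_lit 5) (nat_lit 481) (nat_lit 411) (nat_lit 308))) (XT.nd (nat_lit 78) (nat_lit 0) (nat_lit 0) (XT.lf (nat_lit 0) (nat_lit 6442444429) (nat_lit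 228) (nat_lit 3609704462) (nat_lit 304) (nat_lit 9124320685) (nat_lit 149) (nat_lit 5) (nat_lit 152) (nat_lit 5) (nat_lit 153) (nat_lit 5) (nat_lit 482) (nat_lit 411) (nat_lit 307)) (XT.lf (nat_lit 0) (nat_lit 15592243953) (nat_lit 304) (nat_lit 398306641) (nat_lit 76) (nat_lit 3540221112) (nat_lit 149) (nat_lit 5) (nat_lit 153) (nat_lit 5) (nat_lit 150) (nat_lit 5) (nat_lit 483) (nat_lit 411) (nat_lit 306))))) (XT.nd (nat_lit 312) (nat_lit 760) (nat_lit 0) (XT.nd (nat_lit 156) (nat_lit 152) (nat_lit 0) (XT.nd (nat_lit 78) (nat_lit 228) (nat_lit 0) (XT.lf (nat_lit 0) (nat_lit 1514426279) (nat_lit 228) (nat_lit 7421745021) (nat_lit 76) (nat_lit 10954958528) (nat_lit 146) (nat_lit 5) (nat_lit 149) (nat_lit 5) (nat_lit 147) (nat_lit 5) (nat_lit 484) (nat_lit 411) (nat_lit 305)) (XT.lf (nat_lit 0) (nat_lit 5506768838) (nat_lit 228) (nat_lit 1583944535) (nat_lit 304) (nat_lit 13169248633) (nat_lit 143) (nat_lit 5) (nat_lit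 146) (nat_lit 5) (nat_lit 147) (nat_lit 5) (nat_lit 485) (nat_lit 411) (nat_lit 304))) (XT.nd (nat_lit 78) (nat_lit 152) (nat_lit 0) (XT.lf (nat_lit 0) (nat_lit 12949566511) (nat_lit 304) (nat_lit 1751505051) (nat_lit 76) (nat_lit 5935329574) (nat_lit 143) (nat_lit 5) (nat_lit 147) (nat_lit 5) (nat_lit 144) (nat_lit 5) (nat_lit 486) (nat_lit 411) (nat_lit 303)) (XT.lf (nat_lit 0) (nat_lit 11825344649) (nat_lit 152) (nat_lit 7270741144) (nat_lit 228) (nat_lit 1924690932) (nat_lit 141) (nat_lit 5) (nat_lit 143) (nat_lit 5) (nat_lit 144) (nat_lit 5) (nat_lit 487) (nat_lit 411) (nat_lit 302)))) (XT.nd (nat_lit 156) (nat_lit 456) (nat_lit 0) (XT.nd (nat_lit 78) (nat_lit 0) (nat_lit 0) (XT.lf (nat_lit 0) (nat_lit 3979808508) (nat_lit 304) (nat_lit 16971473856) (nat_lit 76) (nat_lit 462812597) (nat_lit 137) (nat_lit 5) (nat_lit 141) (nat_lit 5) (nat_lit 138) (nat_lit 5) (nat_lit 488) (nat_lit 411) (nat_lit 301)) (XT.lf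 (nat_lit 0) (nat_lit 10171219711) (nat_lit 304) (nat_lit 3260192396) (nat_lit 76) (nat_lit 8382775388) (nat_lit 137) (nat_lit 5) (nat_lit 141) (nat_lit 5) (nat_lit 138) (nat_lit 5) (nat_lit 489) (nat_lit 411) (nat_lit 300))) (XT.nd (nat_lit 78) (nat_lit 304) (nat_lit 0) (XT.lf (nat_lit 0) (nat_lit 11048791056) (nat_lit 152) (nat_lit 5588992290) (nat_lit 228) (nat_lit 5585817424) (nat_lit 135) (nat_lit 5) (nat_lit 137) (nat_lit 5) (nat_lit 138) (nat_lit 5) (nat_lit 490) (nat_lit 411) (nat_lit 299)) (XT.lf (nat_lit 0) (nat_lit 712416784) (nat_lit 304) (nat_lit 19431342099) (nat_lit 76) (nat_lit 2499186108) (nat_lit 131) (nat_lit 5) (nat_lit 135) (nat_lit 5) (nat_lit 132) (nat_lit 5) (nat_lit 491) (nat_lit 411) (nat_lit 298))))))) (XT.nd (nat_lit 1248) (nat_lit 1520) (nat_lit 0) (XT.nd (nat_lit 624) (nat_lit 912) (nat_lit 0) (XT.nd (nat_lit 312) (nat_lit 532) (nat_lit 0) (XT.nd (nat_lit 156) (nat_lit 228) (nat_lit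 0) (XT.nd (nat_lit 78) (nat_lit 152) (nat_lit 0) (XT.lf (nat_lit 0) (nat_lit 7239964353) (nat_lit 304) (nat_lit 4953937459) (nat_lit 76) (nat_lit 10874729747) (nat_lit 131) (nat_lit 5) (nat_lit 135) (nat_lit 5) (nat_lit 132) (nat_lit 5) (nat_lit 492) (nat_lit 411) (nat_lit 297)) (XT.lf (nat_lit 0) (nat_lit 10126882034) (nat_lit 152) (nat_lit 3917625640) (nat_lit 228) (nat_lit 9460146207) (nat_lit 129) (nat_lit 5) (nat_lit 131) (nat_lit 5) (nat_lit 132) (nat_lit 5) (nat_lit 493) (nat_lit 411) (nat_lit 296))) (XT.nd (nat_lit 78) (nat_lit 76) (nat_lit 0) (XT.lf (nat_lit 0) (nat_lit 1770590145) (nat_lit 152) (nat_lit 19378327577) (nat_lit 228) (nat_lit 2801967470) (nat_lit 127) (nat_lit 5) (nat_lit 129) (nat_lit 5) (nat_lit 130) (nat_lit 5) (nat_lit 494) (nat_lit 411) (nat_lit 295)) (XT.lf (nat_lit 0) (nat_lit 4135969736) (nat_lit 228) (nat_lit 6866571423) (nat_lit 76) (nat_lit 13402018067) (nat_lit 126) (nat_lit 5)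 (nat_lit 129) (nat_lit 5) (nat_lit 127) (nat_lit 5) (nat_lit 495) (nat_lit 411) (nat_lit 294)))) (XT.nd (nat_lit 156) (nat_lit 228) (nat_lit 0) (XT.nd (nat_lit 78) (nat_lit 152) (nat_lit 0) (XT.lf (nat_lit 0) (nat_lit 9027167770) (nat_lit 152) (nat_lit 2269747094) (nat_lit 228) (nat_lit 13571960963) (nat_lit 124) (nat_lit 5) (nat_lit 126) (nat_lit 5) (nat_lit 127) (nat_lit 5) (nat_lit 496) (nat_lit 411) (nat_lit 293)) (XT.lf (nat_lit 0) (nat_lit 102219038) (nat_lit 152) (nat_lit 18690607060) (nat_lit 228) (nat_lit 6550691902) (nat_lit 122) (nat_lit 5) (nat_lit 124) (nat_lit 5) (nat_lit 125) (nat_lit 5) (nat_lit 497) (nat_lit 411) (nat_lit 292))) (XT.nd (nat_lit 78) (nat_lit 152) (nat_lit 0) (XT.lf (nat_lit 0) (nat_lit 836468253) (nat_lit 228) (nat_lit 9036916078) (nat_lit 76) (nat_lit 15953762472) (nat_lit 121) (nat_lit 5) (nat_lit 124) (nat_lit 5) (nat_lit 122) (nat_lit 5) (nat_lit 498) (nat_lit 411) (nat_lit 291))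 (XT.lf (nat_lit 0) (nat_lit 7712130115) (nat_lit 152) (nat_lit 660554478) (nat_lit 228) (nat_lit 17948881202) (nat_lit 119) (nat_lit 5) (nat_lit 121) (nat_lit 5) (nat_lit 122) (nat_lit 5) (nat_lit 499) (nat_lit 411) (nat_lit 290))))) (XT.nd (nat_lit 312) (nat_lit 532) (nat_lit 0) (XT.nd (nat_lit 156) (nat_lit 228) (nat_lit 0) (XT.nd (nat_lit 78) (nat_lit 152) (nat_lit 0) (XT.lf (nat_lit 0) (nat_lit 16297047236) (nat_lit 228) (nat_lit 1792120138) (nat_lit 76) (nat_lit 8736788370) (nat_lit 119) (nat_lit 5) (nat_lit 122) (nat_lit 5) (nat_lit 120) (nat_lit 5) (nat_lit 500) (nat_lit 411) (nat_lit 289)) (XT.lf (nat_lit 0) (nat_lit 15805216623) (nat_lit 152) (nat_lit 8797864253) (nat_lit 228) (nat_lit 2738078490) (nat_lit 117) (nat_lit 5) (nat_lit 119) (nat_lit 5) (nat_lit 120) (nat_lit 5) (nat_lit 501) (nat_lit 411) (nat_lit 288))) (XT.nd (nat_lit 78) (nat_lit 0) (nat_lit 0) (XT.lf (nat_lit 0) (nat_lit 5254676425) (nat_lit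 228) (nat_lit 21738674189) (nat_lit 76) (nat_lit 874803397) (nat_lit 114) (nat_lit 5) (nat_lit 117) (nat_lit 5) (nat_lit 115) (nat_lit 5) (nat_lit 502) (nat_lit 411) (nat_lit 287)) (XT.lf (nat_lit 0) (nat_lit 13622490436) (nat_lit 228) (nat_lit 3987956347) (nat_lit 76) (nat_lit 10793989310) (nat_lit 114) (nat_lit 5) (nat_lit 117) (nat_lit 5) (nat_lit 115) (nat_lit 5) (nat_lit 503) (nat_lit 411) (nat_lit 286)))) (XT.nd (nat_lit 156) (nat_lit 152) (nat_lit 0) (XT.nd (nat_lit 78) (nat_lit 228) (nat_lit 0) (XT.lf (nat_lit 0) (nat_lit 14553584108) (nat_lit 152) (nat_lit 7813631135) (nat_lit 228) (nat_lit 6585815260) (nat_lit 112) (nat_lit 5) (nat_lit 114) (nat_lit 5) (nat_lit 115) (nat_lit 5) (nat_lit 504) (nat_lit 411) (nat_lit 285)) (XT.lf (nat_lit 0) (nat_lit 1910317258) (nat_lit 228) (nat_lit 25282958853) (nat_lit 76) (nat_lit 2321561317) (nat_lit 109) (nat_lit 5) (nat_lit 112) (nat_lit 5) (nat_lit 110) (nat_lit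 5) (nat_lit 505) (nat_lit 411) (nat_lit 284))) (XT.nd (nat_lit 78) (nat_lit 152) (nat_lit 0) (XT.lf (nat_lit 0) (nat_lit 10739229820) (nat_lit 228) (nat_lit 6541596684) (nat_lit 76) (nat_lit 12804408083) (nat_lit 109) (nat_lit 5) (nat_lit 112) (nat_lit 5) (nat_lit 110) (nat_lit 5) (nat_lit 506) (nat_lit 411) (nat_lit 283)) (XT.lf (nat_lit 0) (nat_lit 12990478244) (nat_lit 152) (nat_lit 6953865986) (nat_lit 228) (nat_lit 10725059536) (nat_lit 107) (nat_lit 5) (nat_lit 109) (nat_lit 5) (nat_lit 110) (nat_lit 5) (nat_lit 507) (nat_lit 411) (nat_lit 282)))))) (XT.nd (nat_lit 624) (nat_lit 760) (nat_lit 0) (XT.nd (nat_lit 312) (nat_lit 456) (nat_lit 0) (XT.nd (nat_lit 156) (nat_lit 152) (nat_lit 0) (XT.nd (nat_lit 78) (nat_lit 76) (nat_lit 0) (XT.lf (nat_lit 0) (nat_lit 1950433138) (nat_lit 76) (nat_lit 27582550055) (nat_lit 152) (nat_lit 1734893831) (nat_lit 106) (nat_lit 5) (nat_lit 107) (nat_lit 5) (nat_lit 108) (nat_lit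 4) (nat_lit 508) (nat_lit 411) (nat_lit 281)) (XT.lf (nat_lit 0) (nat_lit 7613808527) (nat_lit 152) (nat_lit 9515916360) (nat_lit 76) (nat_lit 14745339547) (nat_lit 105) (nat_lit 5) (nat_lit 107) (nat_lit 5) (nat_lit 106) (nat_lit 5) (nat_lit 509) (nat_lit 411) (nat_lit 280))) (XT.nd (nat_lit 78) (nat_lit 0) (nat_lit 0) (XT.lf (nat_lit 0) (nat_lit 11053822071) (nat_lit 152) (nat_lit 6247459535) (nat_lit 228) (nat_lit 15195875290) (nat_lit 103) (nat_lit 5) (nat_lit 105) (nat_lit 5) (nat_lit 106) (nat_lit 5) (nat_lit 510) (nat_lit 411) (nat_lit 279)) (XT.lf (nat_lit 0) (nat_lit 27411077838) (nat_lit 228) (nat_lit 772351179) (nat_lit 76) (nat_lit 4950532268) (nat_lit 103) (nat_lit 5) (nat_lit 106) (nat_lit 5) (nat_lit 104) (nat_lit 4) (nat_lit 511) (nat_lit 411) (nat_lit 278)))) (XT.nd (nat_lit 156) (nat_lit 152) (nat_lit 0) (XT.nd (nat_lit 78) (nat_lit 152) (nat_lit 0) (XT.lf (nat_lit 0) (nat_lit 4207570924) (nat_lit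 152) (nat_lit 12983756362) (nat_lit 76) (nat_lit 16589819334) (nat_lit 101) (nat_lit 5) (nat_lit 103) (nat_lit 5) (nat_lit 102) (nat_lit 5) (nat_lit 512) (nat_lit 411) (nat_lit 277)) (XT.lf (nat_lit 0) (nat_lit 8671303861) (nat_lit 152) (nat_lit 5728204568) (nat_lit 228) (nat_lit 20044181516) (nat_lit 99) (nat_lit 5) (nat_lit 101) (nat_lit 5) (nat_lit 102) (nat_lit 5) (nat_lit 513) (nat_lit 411) (nat_lit 276))) (XT.nd (nat_lit 78) (nat_lit 152) (nat_lit 0) (XT.lf (nat_lit 0) (nat_lit 25075446221) (nat_lit 228) (nat_lit 3963482330) (nat_lit 76) (nat_lit 6081833861) (nat_lit 99) (nat_lit 5) (nat_lit 102) (nat_lit 5) (nat_lit 100) (nat_lit 4) (nat_lit 514) (nat_lit 411) (nat_lit 275)) (XT.lf (nat_lit 0) (nat_lit 475866040) (nat_lit 152) (nat_lit 17029547514) (nat_lit 76) (nat_lit 18305841554) (nat_lit 97) (nat_lit 5) (nat_lit 99) (nat_lit 5) (nat_lit 98) (nat_lit 5) (nat_lit 515) (nat_lit 411) (nat_lit 274))))) (XT.nd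 (nat_lit 312) (nat_lit 304) (nat_lit 0) (XT.nd (nat_lit 156) (nat_lit 304) (nat_lit 0) (XT.nd (nat_lit 78) (nat_lit 0) (nat_lit 0) (XT.lf (nat_lit 0) (nat_lit 5758686233) (nat_lit 152) (nat_lit 5435656565) (nat_lit 228) (nat_lit 25322629328) (nat_lit 95) (nat_lit 5) (nat_lit 97) (nat_lit 5) (nat_lit 98) (nat_lit 5) (nat_lit 516) (nat_lit 411) (nat_lit 273)) (XT.lf (nat_lit 0) (nat_lit 22463110221) (nat_lit 228) (nat_lit 7751103282) (nat_lit 76) (nat_lit 7022785156) (nat_lit 95) (nat_lit 5) (nat_lit 98) (nat_lit 5) (nat_lit 96) (nat_lit 4) (nat_lit 517) (nat_lit 411) (nat_lit 272))) (XT.nd (nat_lit 78) (nat_lit 228) (nat_lit 0) (XT.lf (nat_lit 0) (nat_lit 16185891083) (nat_lit 76) (nat_lit 18081628505) (nat_lit 152) (nat_lit 3705179124) (nat_lit 94) (nat_lit 5) (nat_lit 95) (nat_lit 5) (nat_lit 96) (nat_lit 4) (nat_lit 518) (nat_lit 411) (nat_lit 271)) (XT.lf (nat_lit 0) (nat_lit 2217846478) (nat_lit 152) (nat_lit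 5416128446) (nat_lit 228) (nat_lit 31091619124) (nat_lit 91) (nat_lit 5) (nat_lit 93) (nat_lit 5) (nat_lit 94) (nat_lit 5) (nat_lit 519) (nat_lit 411) (nat_lit 270)))) (XT.nd (nat_lit 156) (nat_lit 228) (nat_lit 0) (XT.nd (nat_lit 78) (nat_lit 76) (nat_lit 0) (XT.lf (nat_lit 0) (nat_lit 19522569348) (nat_lit 228) (nat_lit 12239903589) (nat_lit 76) (nat_lit 7728990757) (nat_lit 91) (nat_lit 5) (nat_lit 94) (nat_lit 5) (nat_lit 92) (nat_lit 4) (nat_lit 520) (nat_lit 411) (nat_lit 269)) (XT.lf (nat_lit 0) (nat_lit 12932897882) (nat_lit 76) (nat_lit 19001426943) (nat_lit 152) (nat_lit 8340989590) (nat_lit 90) (nat_lit 5) (nat_lit 91) (nat_lit 5) (nat_lit 92) (nat_lit 4) (nat_lit 521) (nat_lit 411) (nat_lit 268))) (XT.nd (nat_lit 78) (nat_lit 152) (nat_lit 0) (XT.lf (nat_lit 0) (nat_lit 3678201148) (nat_lit 152) (nat_lit 2025189890) (nat_lit 76) (nat_lit 35374839362) (nat_lit 89) (nat_lit 5) (nat_lit 91) (nat_lit 5)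 (nat_lit 90) (nat_lit 5) (nat_lit 522) (nat_lit 411) (nat_lit 267)) (XT.lf (nat_lit 0) (nat_lit 16193893927) (nat_lit 228) (nat_lit 17551550896) (nat_lit 76) (nat_lit 8148204435) (nat_lit 87) (nat_lit 5) (nat_lit 90) (nat_lit 5) (nat_lit 88) (nat_lit 4) (nat_lit 523) (nat_lit 411) (nat_lit 266))))))))
noncomputable def xc122 : XT := (XT.nd (nat_lit 53898) (nat_lit 0) (nat_lit 15428) (XT.nd (nat_lit 1170) (nat_lit 988) (nat_lit 0) (XT.nd (nat_lit 546) (nat_lit 532) (nat_lit 0) (XT.nd (nat_lit 234) (nat_lit 304) (nat_lit 0) (XT.nd (nat_lit 78) (nat_lit 228) (nat_lit 0) (XT.lf (nat_lit 0) (nat_lit 8904873953) (nat_lit 76) (nat_lit 20331835378) (nat_lit 152) (nat_lit 13492271869) (nat_lit 86) (nat_lit 5) (nat_lit 87) (nat_lit 5) (nat_lit 88) (nat_lit 4) (nat_lit 524) (nat_lit 411) (nat_lit 265)) (XT.nd (nat_lit 78) (nat_lit 228) (nat_lit 0) (XT.lf (nat_lit 0) (nat_lit 36493766188) (nat_lit 76) (nat_lit 6343330259) (nat_lit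 152) (nat_lit 747288106) (nat_lit 86) (nat_lit 5) (nat_lit 87) (nat_lit 5) (nat_lit 88) (nat_lit 4) (nat_lit 525) (nat_lit 411) (nat_lit 264)) (XT.lf (nat_lit 0) (nat_lit 12407379964) (nat_lit 228) (nat_lit 23827439825) (nat_lit 76) (nat_lit 8218992726) (nat_lit 83) (nat_lit 5) (nat_lit 86) (nat_lit 5) (nat_lit 84) (nat_lit 4) (nat_lit 526) (nat_lit 411) (nat_lit 263)))) (XT.nd (nat_lit 156) (nat_lit 228) (nat_lit 0) (XT.nd (nat_lit 78) (nat_lit 0) (nat_lit 0) (XT.lf (nat_lit 0) (nat_lit 3958746328) (nat_lit 76) (nat_lit 22145378279) (nat_lit 152) (nat_lit 19240103118) (nat_lit 82) (nat_lit 5) (nat_lit 83) (nat_lit 5) (nat_lit 84) (nat_lit 4) (nat_lit 527) (nat_lit 411) (nat_lit 262)) (XT.lf (nat_lit 0) (nat_lit 33046520632) (nat_lit 76) (nat_lit 7395263837) (nat_lit 152) (nat_lit 5812670598) (nat_lit 82) (nat_lit 5) (nat_lit 83) (nat_lit 5) (nat_lit 84) (nat_lit 4) (nat_lit 528) (nat_lit 411) (nat_lit 261))) (XT.nd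 (nat_lit 78) (nat_lit 0) (nat_lit 0) (XT.lf (nat_lit 0) (nat_lit 8081987291) (nat_lit 228) (nat_lit 31231878657) (nat_lit 76) (nat_lit 7869185613) (nat_lit 79) (nat_lit 5) (nat_lit 82) (nat_lit 5) (nat_lit 80) (nat_lit 4) (nat_lit 529) (nat_lit 411) (nat_lit 260)) (XT.lf (nat_lit 0) (nat_lit 22474200200) (nat_lit 228) (nat_lit 2031861779) (nat_lit 76) (nat_lit 23625791167) (nat_lit 79) (nat_lit 5) (nat_lit 82) (nat_lit 5) (nat_lit 80) (nat_lit 4) (nat_lit 530) (nat_lit 411) (nat_lit 259))))) (XT.nd (nat_lit 312) (nat_lit 228) (nat_lit 0) (XT.nd (nat_lit 156) (nat_lit 76) (nat_lit 0) (XT.nd (nat_lit 78) (nat_lit 152) (nat_lit 0) (XT.lf (nat_lit 0) (nat_lit 28582417971) (nat_lit 76) (nat_lit 8980444273) (nat_lit 152) (nat_lit 11538316106) (nat_lit 78) (nat_lit 5) (nat_lit 79) (nat_lit 5) (nat_lit 80) (nat_lit 4) (nat_lit 531) (nat_lit 411) (nat_lit 258)) (XT.lf (nat_lit 0) (nat_lit 3123526631) (nat_lit 152) (nat_lit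 39955783833) (nat_lit 76) (nat_lit 7014079746) (nat_lit 76) (nat_lit 5) (nat_lit 78) (nat_lit 5) (nat_lit 77) (nat_lit 4) (nat_lit 532) (nat_lit 411) (nat_lit 257))) (XT.nd (nat_lit 78) (nat_lit 76) (nat_lit 0) (XT.lf (nat_lit 0) (nat_lit 18281439732) (nat_lit 152) (nat_lit 9199591808) (nat_lit 76) (nat_lit 23622266002) (nat_lit 76) (nat_lit 5) (nat_lit 78) (nat_lit 5) (nat_lit 77) (nat_lit 4) (nat_lit 533) (nat_lit 411) (nat_lit 256)) (XT.lf (nat_lit 0) (nat_lit 22907348675) (nat_lit 76) (nat_lit 11197191284) (nat_lit 152) (nat_lit 18032648691) (nat_lit 75) (nat_lit 5) (nat_lit 76) (nat_lit 5) (nat_lit 77) (nat_lit 4) (nat_lit 534) (nat_lit 411) (nat_lit 255)))) (XT.nd (nat_lit 156) (nat_lit 76) (nat_lit 0) (XT.nd (nat_lit 78) (nat_lit 76) (nat_lit 0) (XT.lf (nat_lit 0) (nat_lit 2950882782) (nat_lit 76) (nat_lit 47617491996) (nat_lit 76) (nat_lit 2628740515) (nat_lit 74) (nat_lit 4) (nat_lit 75) (nat_lit 5) (nat_lit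 75) (nat_lit 4) (nat_lit 535) (nat_lit 411) (nat_lit 254)) (XT.lf (nat_lit 0) (nat_lit 13378201603) (nat_lit 152) (nat_lit 17843771177) (nat_lit 76) (nat_lit 23051072939) (nat_lit 73) (nat_lit 5) (nat_lit 75) (nat_lit 5) (nat_lit 74) (nat_lit 4) (nat_lit 536) (nat_lit 411) (nat_lit 253))) (XT.nd (nat_lit 78) (nat_lit 0) (nat_lit 0) (XT.lf (nat_lit 0) (nat_lit 15794531394) (nat_lit 76) (nat_lit 14160369525) (nat_lit 152) (nat_lit 25421300849) (nat_lit 72) (nat_lit 5) (nat_lit 73) (nat_lit 5) (nat_lit 74) (nat_lit 4) (nat_lit 537) (nat_lit 411) (nat_lit 252)) (XT.lf (nat_lit 0) (nat_lit 47234252600) (nat_lit 152) (nat_lit 5752304698) (nat_lit 0) (nat_lit 3519734701) (nat_lit 72) (nat_lit 5) (nat_lit 74) (nat_lit 4) (nat_lit 72) (nat_lit 4) (nat_lit 538) (nat_lit 411) (nat_lit 251)))))) (XT.nd (nat_lit 624) (nat_lit 380) (nat_lit 0) (XT.nd (nat_lit 312) (nat_lit 228) (nat_lit 0) (XT.nd (nat_lit 156) (nat_lit 152) (nat_lit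 0) (XT.nd (nat_lit 78) (nat_lit 76) (nat_lit 0) (XT.lf (nat_lit 0) (nat_lit 7636865739) (nat_lit 152) (nat_lit 28223025496) (nat_lit 76) (nat_lit 21795706215) (nat_lit 70) (nat_lit 5) (nat_lit 72) (nat_lit 5) (nat_lit 71) (nat_lit 4) (nat_lit 539) (nat_lit 411) (nat_lit 250)) (XT.lf (nat_lit 0) (nat_lit 6979185667) (nat_lit 76) (nat_lit 18004096709) (nat_lit 152) (nat_lit 33849847561) (nat_lit 69) (nat_lit 5) (nat_lit 70) (nat_lit 5) (nat_lit 71) (nat_lit 4) (nat_lit 540) (nat_lit 411) (nat_lit 249))) (XT.nd (nat_lit 78) (nat_lit 152) (nat_lit 0) (XT.lf (nat_lit 0) (nat_lit 43132499684) (nat_lit 152) (nat_lit 16245887072) (nat_lit 0) (nat_lit 659129437) (nat_lit 69) (nat_lit 5) (nat_lit 71) (nat_lit 4) (nat_lit 69) (nat_lit 4) (nat_lit 541) (nat_lit 411) (nat_lit 248)) (XT.lf (nat_lit 0) (nat_lit 908874183) (nat_lit 152) (nat_lit 40638435584) (nat_lit 76) (nat_lit 19719423888) (nat_lit 67) (nat_lit 5) (nat_lit 69)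 (nat_lit 5) (nat_lit 68) (nat_lit 4) (nat_lit 542) (nat_lit 411) (nat_lit 247)))) (XT.nd (nat_lit 156) (nat_lit 152) (nat_lit 0) (XT.nd (nat_lit 78) (nat_lit 76) (nat_lit 0) (XT.lf (nat_lit 0) (nat_lit 19074220842) (nat_lit 152) (nat_lit 3772568205) (nat_lit 76) (nat_lit 39676312938) (nat_lit 67) (nat_lit 5) (nat_lit 69) (nat_lit 5) (nat_lit 68) (nat_lit 4) (nat_lit 543) (nat_lit 411) (nat_lit 246)) (XT.lf (nat_lit 0) (nat_lit 34862683402) (nat_lit 76) (nat_lit 3248361532) (nat_lit 152) (nat_lit 25696320953) (nat_lit 66) (nat_lit 5) (nat_lit 67) (nat_lit 5) (nat_lit 68) (nat_lit 4) (nat_lit 544) (nat_lit 411) (nat_lit 245))) (XT.nd (nat_lit 78) (nat_lit 76) (nat_lit 0) (XT.lf (nat_lit 0) (nat_lit 9612796865) (nat_lit 76) (nat_lit 48391278847) (nat_lit 76) (nat_lit 7117528966) (nat_lit 65) (nat_lit 4) (nat_lit 66) (nat_lit 5) (nat_lit 66) (nat_lit 4) (nat_lit 545) (nat_lit 411) (nat_lit 244)) (XT.lf (nat_lit 0) (nat_lit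 12102852289) (nat_lit 152) (nat_lit 16713654769) (nat_lit 76) (nat_lit 37645735131) (nat_lit 64) (nat_lit 5) (nat_lit 66) (nat_lit 5) (nat_lit 65) (nat_lit 4) (nat_lit 546) (nat_lit 411) (nat_lit 243))))) (XT.nd (nat_lit 312) (nat_lit 76) (nat_lit 0) (XT.nd (nat_lit 156) (nat_lit 228) (nat_lit 0) (XT.nd (nat_lit 78) (nat_lit 0) (nat_lit 0) (XT.lf (nat_lit 0) (nat_lit 23619369028) (nat_lit 76) (nat_lit 8356126402) (nat_lit 152) (nat_lit 35858928133) (nat_lit 63) (nat_lit 5) (nat_lit 64) (nat_lit 5) (nat_lit 65) (nat_lit 4) (nat_lit 547) (nat_lit 411) (nat_lit 242)) (XT.lf (nat_lit 0) (nat_lit 52728689528) (nat_lit 152) (nat_lit 3878056905) (nat_lit 0) (nat_lit 12632492827) (nat_lit 63) (nat_lit 5) (nat_lit 65) (nat_lit 4) (nat_lit 63) (nat_lit 4) (nat_lit 548) (nat_lit 411) (nat_lit 241))) (XT.nd (nat_lit 78) (nat_lit 76) (nat_lit 0) (XT.lf (nat_lit 0) (nat_lit 3798948167) (nat_lit 152) (nat_lit 32392057347) (nat_lit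 76) (nat_lit 34480787049) (nat_lit 61) (nat_lit 5) (nat_lit 63) (nat_lit 5) (nat_lit 62) (nat_lit 4) (nat_lit 549) (nat_lit 411) (nat_lit 240)) (XT.lf (nat_lit 0) (nat_lit 9643992099) (nat_lit 76) (nat_lit 14866064373) (nat_lit 152) (nat_lit 47628636761) (nat_lit 60) (nat_lit 5) (nat_lit 61) (nat_lit 5) (nat_lit 62) (nat_lit 4) (nat_lit 550) (nat_lit 411) (nat_lit 239)))) (XT.nd (nat_lit 51636) (nat_lit 0) (nat_lit 26752) (XT.nd (nat_lit 78) (nat_lit 76) (nat_lit 0) (XT.lf (nat_lit 0) (nat_lit 46232996568) (nat_lit 152) (nat_lit 20122091397) (nat_lit 0) (nat_lit 7282798028) (nat_lit 60) (nat_lit 5) (nat_lit 62) (nat_lit 4) (nat_lit 60) (nat_lit 4) (nat_lit 551) (nat_lit 411) (nat_lit 238)) (XT.lf (nat_lit 0) (nat_lit 23823905949) (nat_lit 76) (nat_lit 45152080128) (nat_lit 76) (nat_lit 6195017647) (nat_lit 59) (nat_lit 4) (nat_lit 60) (nat_lit 5) (nat_lit 60) (nat_lit 4) (nat_lit 552) (nat_lit 411) (nat_lit 237)))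 (XT.nd (nat_lit 78) (nat_lit 836) (nat_lit 0) (XT.lf (nat_lit 0) (nat_lit 1628391831) (nat_lit 0) (nat_lit 1628391831) (nat_lit 684) (nat_lit 268655878) (nat_lit 422) (nat_lit 5) (nat_lit 422) (nat_lit 3) (nat_lit 431) (nat_lit 3) (nat_lit 412) (nat_lit 412) (nat_lit 376)) (XT.lf (nat_lit 0) (nat_lit 1244608055) (nat_lit 836) (nat_lit 275240937) (nat_lit 836) (nat_lit 5583463247) (nat_lit 411) (nat_lit 3) (nat_lit 422) (nat_lit 3) (nat_lit 422) (nat_lit 5) (nat_lit 413) (nat_lit 412) (nat_lit 375))))))) (XT.nd (nat_lit 1248) (nat_lit 7980) (nat_lit 0) (XT.nd (nat_lit 624) (nat_lit 1824) (nat_lit 0) (XT.nd (nat_lit 312) (nat_lit 760) (nat_lit 0) (XT.nd (nat_lit 156) (nat_lit 836) (nat_lit 0) (XT.nd (nat_lit 78) (nat_lit 0) (nat_lit 0) (XT.lf (nat_lit 0) (nat_lit 3035460932) (nat_lit 760) (nat_lit 3787626643) (nat_lit 836) (nat_lit 335087156) (nat_lit 412) (nat_lit 5) (nat_lit 422) (nat_lit 5) (nat_lit 423) (nat_lit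 5) (nat_lit 414) (nat_lit 412) (nat_lit 374)) (XT.lf (nat_lit 0) (nat_lit 4830444862) (nat_lit 760) (nat_lit 136084464) (nat_lit 836) (nat_lit 2249645668) (nat_lit 412) (nat_lit 5) (nat_lit 422) (nat_lit 5) (nat_lit 423) (nat_lit 5) (nat_lit 415) (nat_lit 412) (nat_lit 373))) (XT.nd (nat_lit 78) (nat_lit 836) (nat_lit 0) (XT.lf (nat_lit 76) (nat_lit 3659756709) (nat_lit 0) (nat_lit 2989216511) (nat_lit 836) (nat_lit 627855140) (nat_lit 413) (nat_lit 5) (nat_lit 412) (nat_lit 5) (nat_lit 423) (nat_lit 5) (nat_lit 416) (nat_lit 412) (nat_lit 372)) (XT.lf (nat_lit 76) (nat_lit 187690628) (nat_lit 0) (nat_lit 910614393) (nat_lit 912) (nat_lit 6242500080) (nat_lit 402) (nat_lit 5) (nat_lit 401) (nat_lit 5) (nat_lit 413) (nat_lit 5) (nat_lit 417) (nat_lit 412) (nat_lit 371)))) (XT.nd (nat_lit 156) (nat_lit 836) (nat_lit 0) (XT.nd (nat_lit 78) (nat_lit 0) (nat_lit 0) (XT.lf (nat_lit 0) (nat_lit 2849552138) (nat_lit 836)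 (nat_lit 3282634023) (nat_lit 912) (nat_lit 1274754457) (nat_lit 402) (nat_lit 5) (nat_lit 413) (nat_lit 5) (nat_lit 414) (nat_lit 5) (nat_lit 418) (nat_lit 412) (nat_lit 370)) (XT.lf (nat_lit 76) (nat_lit 669795584) (nat_lit 0) (nat_lit 3938032068) (nat_lit 912) (nat_lit 2868601323) (nat_lit 403) (nat_lit 5) (nat_lit 402) (nat_lit 5) (nat_lit 414) (nat_lit 5) (nat_lit 419) (nat_lit 412) (nat_lit 369))) (XT.nd (nat_lit 78) (nat_lit 836) (nat_lit 0) (XT.lf (nat_lit 76) (nat_lit 4770244162) (nat_lit 0) (nat_lit 1622203799) (nat_lit 912) (nat_lit 1156349525) (nat_lit 403) (nat_lit 5) (nat_lit 402) (nat_lit 5) (nat_lit 414) (nat_lit 5) (nat_lit 420) (nat_lit 412) (nat_lit 368)) (XT.lf (nat_lit 0) (nat_lit 557751978) (nat_lit 912) (nat_lit 6279219249) (nat_lit 988) (nat_lit 787323944) (nat_lit 391) (nat_lit 5) (nat_lit 403) (nat_lit 5) (nat_lit 404) (nat_lit 5) (nat_lit 421) (nat_lit 412) (nat_lit 367))))) (XT.nd (nat_lit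 312) (nat_lit 1824) (nat_lit 0) (XT.nd (nat_lit 156) (nat_lit 0) (nat_lit 76) (XT.nd (nat_lit 78) (nat_lit 0) (nat_lit 0) (XT.lf (nat_lit 0) (nat_lit 2287566953) (nat_lit 912) (nat_lit 2119071033) (nat_lit 988) (nat_lit 3295453485) (nat_lit 391) (nat_lit 5) (nat_lit 403) (nat_lit 5) (nat_lit 404) (nat_lit 5) (nat_lit 422) (nat_lit 412) (nat_lit 366)) (XT.lf (nat_lit 76) (nat_lit 2169935148) (nat_lit 0) (nat_lit 1864990983) (nat_lit 988) (nat_lit 3748329058) (nat_lit 392) (nat_lit 5) (nat_lit 391) (nat_lit 5) (nat_lit 404) (nat_lit 5) (nat_lit 423) (nat_lit 412) (nat_lit 365))) (XT.nd (nat_lit 78) (nat_lit 0) (nat_lit 0) (XT.lf (nat_lit 0) (nat_lit 5809742680) (nat_lit 912) (nat_lit 1282301254) (nat_lit 988) (nat_lit 775561722) (nat_lit 392) (nat_lit 5) (nat_lit 404) (nat_lit 5) (nat_lit 405) (nat_lit 5) (nat_lit 424) (nat_lit 412) (nat_lit 364)) (XT.lf (nat_lit 76) (nat_lit 3183775267) (nat_lit 0) (nat_lit 4450854300)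 (nat_lit 988) (nat_lit 319955141) (nat_lit 393) (nat_lit 5) (nat_lit 392) (nat_lit 5) (nat_lit 405) (nat_lit 5) (nat_lit 425) (nat_lit 412) (nat_lit 363)))) (XT.nd (nat_lit 156) (nat_lit 912) (nat_lit 0) (XT.nd (nat_lit 78) (nat_lit 0) (nat_lit 76) (XT.lf (nat_lit 0) (nat_lit 1402882639) (nat_lit 988) (nat_lit 287110558) (nat_lit 1064) (nat_lit 6354914295) (nat_lit 379) (nat_lit 5) (nat_lit 392) (nat_lit 5) (nat_lit 393) (nat_lit 5) (nat_lit 426) (nat_lit 412) (nat_lit 362)) (XT.lf (nat_lit 0) (nat_lit 3174591467) (nat_lit 988) (nat_lit 3774478618) (nat_lit 76) (nat_lit 1188668944) (nat_lit 380) (nat_lit 5) (nat_lit 393) (nat_lit 5) (nat_lit 381) (nat_lit 5) (nat_lit 427) (nat_lit 412) (nat_lit 361))) (XT.nd (nat_lit 78) (nat_lit 0) (nat_lit 0) (XT.lf (nat_lit 0) (nat_lit 887054502) (nat_lit 988) (nat_lit 4091695710) (nat_lit 1064) (nat_lit 3255228872) (nat_lit 367) (nat_lit 5) (nat_lit 380) (nat_lit 5) (nat_lit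 381) (nat_lit 5) (nat_lit 428) (nat_lit 412) (nat_lit 360)) (XT.lf (nat_lit 0) (nat_lit 5726938289) (nat_lit 988) (nat_lit 1100371761) (nat_lit 1064) (nat_lit 1506090457) (nat_lit 367) (nat_lit 5) (nat_lit 380) (nat_lit 5) (nat_lit 381) (nat_lit 5) (nat_lit 429) (nat_lit 412) (nat_lit 359)))))) (XT.nd (nat_lit 624) (nat_lit 2964) (nat_lit 0) (XT.nd (nat_lit 312) (nat_lit 1520) (nat_lit 0) (XT.nd (nat_lit 156) (nat_lit 2356) (nat_lit 0) (XT.nd (nat_lit 78) (nat_lit 0) (nat_lit 0) (XT.lf (nat_lit 0) (nat_lit 284120730) (nat_lit 1140) (nat_lit 6176659454) (nat_lit 76) (nat_lit 1975110521) (nat_lit 352) (nat_lit 5) (nat_lit 367) (nat_lit 5) (nat_lit 353) (nat_lit 5) (nat_lit 430) (nat_lit 412) (nat_lit 358)) (XT.lf (nat_lit 0) (nat_lit 2089406858) (nat_lit 1140) (nat_lit 1282153521) (nat_lit 76) (nat_lit 5169700943) (nat_lit 352) (nat_lit 5) (nat_lit 367) (nat_lit 5) (nat_lit 353) (nat_lit 5) (nat_lit 431) (nat_lit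 412) (nat_lit 357))) (XT.nd (nat_lit 78) (nat_lit 1216) (nat_lit 0) (XT.lf (nat_lit 0) (nat_lit 3794646649) (nat_lit 1140) (nat_lit 146180420) (nat_lit 1216) (nat_lit 4709208904) (nat_lit 337) (nat_lit 5) (nat_lit 352) (nat_lit 5) (nat_lit 353) (nat_lit 5) (nat_lit 432) (nat_lit 412) (nat_lit 356)) (XT.lf (nat_lit 0) (nat_lit 222461139) (nat_lit 1216) (nat_lit 5627551317) (nat_lit 1292) (nat_lit 2911996850) (nat_lit 321) (nat_lit 5) (nat_lit 337) (nat_lit 5) (nat_lit 338) (nat_lit 5) (nat_lit 433) (nat_lit 412) (nat_lit 355)))) (XT.nd (nat_lit 156) (nat_lit 608) (nat_lit 0) (XT.nd (nat_lit 78) (nat_lit 912) (nat_lit 0) (XT.lf (nat_lit 0) (nat_lit 5511518973) (nat_lit 1216) (nat_lit 2312787855) (nat_lit 1292) (nat_lit 1052802067) (nat_lit 321) (nat_lit 5) (nat_lit 337) (nat_lit 5) (nat_lit 338) (nat_lit 5) (nat_lit 434) (nat_lit 412) (nat_lit 354)) (XT.lf (nat_lit 0) (nat_lit 833216986) (nat_lit 912) (nat_lit 7052424166)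 (nat_lit 76) (nat_lit 1110137454) (nat_lit 309) (nat_lit 5) (nat_lit 321) (nat_lit 5) (nat_lit 310) (nat_lit 5) (nat_lit 435) (nat_lit 412) (nat_lit 353))) (XT.nd (nat_lit 78) (nat_lit 608) (nat_lit 0) (XT.lf (nat_lit 0) (nat_lit 2770948912) (nat_lit 912) (nat_lit 1709837841) (nat_lit 76) (nat_lit 4636422049) (nat_lit 309) (nat_lit 5) (nat_lit 321) (nat_lit 5) (nat_lit 310) (nat_lit 5) (nat_lit 436) (nat_lit 412) (nat_lit 352)) (XT.lf (nat_lit 0) (nat_lit 3829156146) (nat_lit 608) (nat_lit 934728272) (nat_lit 684) (nat_lit 4478487164) (nat_lit 301) (nat_lit 5) (nat_lit 309) (nat_lit 5) (nat_lit 310) (nat_lit 5) (nat_lit 437) (nat_lit 412) (nat_lit 351))))) (XT.nd (nat_lit 312) (nat_lit 1748) (nat_lit 0) (XT.nd (nat_lit 156) (nat_lit 608) (nat_lit 0) (XT.nd (nat_lit 78) (nat_lit 0) (nat_lit 0) (XT.lf (nat_lit 0) (nat_lit 135559229) (nat_lit 608) (nat_lit 6686973659) (nat_lit 684) (nat_lit 2548580387) (nat_lit 293)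 (nat_lit 5) (nat_lit 301) (nat_lit 5) (nat_lit 302) (nat_lit 5) (nat_lit 438) (nat_lit 412) (nat_lit 350)) (XT.lf (nat_lit 0) (nat_lit 5913320550) (nat_lit 608) (nat_lit 3055266910) (nat_lit 684) (nat_lit 534362082) (nat_lit 293) (nat_lit 5) (nat_lit 301) (nat_lit 5) (nat_lit 302) (nat_lit 5) (nat_lit 439) (nat_lit 412) (nat_lit 349))) (XT.nd (nat_lit 78) (nat_lit 0) (nat_lit 0) (XT.lf (nat_lit 0) (nat_lit 1501020623) (nat_lit 608) (nat_lit 7430231247) (nat_lit 76) (nat_lit 707322637) (nat_lit 285) (nat_lit 5) (nat_lit 293) (nat_lit 5) (nat_lit 286) (nat_lit 5) (nat_lit 440) (nat_lit 412) (nat_lit 348)) (XT.lf (nat_lit 0) (nat_lit 3616853340) (nat_lit 608) (nat_lit 1598565742) (nat_lit 76) (nat_lit 4561788135) (nat_lit 285) (nat_lit 5) (nat_lit 293) (nat_lit 5) (nat_lit 286) (nat_lit 5) (nat_lit 441) (nat_lit 412) (nat_lit 347)))) (XT.nd (nat_lit 156) (nat_lit 608) (nat_lit 0) (XT.nd (nat_lit 78) (nat_lit 532) (nat_lit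 0) (XT.lf (nat_lit 0) (nat_lit 4456840337) (nat_lit 608) (nat_lit 1346503746) (nat_lit 684) (nat_lit 4116440867) (nat_lit 277) (nat_lit 5) (nat_lit 285) (nat_lit 5) (nat_lit 286) (nat_lit 5) (nat_lit 442) (nat_lit 412) (nat_lit 346)) (XT.lf (nat_lit 0) (nat_lit 608036384) (nat_lit 532) (nat_lit 7459892127) (nat_lit 608) (nat_lit 1998338019) (nat_lit 270) (nat_lit 5) (nat_lit 277) (nat_lit 5) (nat_lit 278) (nat_lit 5) (nat_lit 443) (nat_lit 412) (nat_lit 345))) (XT.nd (nat_lit 78) (nat_lit 532) (nat_lit 0) (XT.lf (nat_lit 0) (nat_lit 214071653) (nat_lit 608) (nat_lit 3297135123) (nat_lit 76) (nat_lit 6704854099) (nat_lit 269) (nat_lit 5) (nat_lit 277) (nat_lit 5) (nat_lit 270) (nat_lit 5) (nat_lit 444) (nat_lit 412) (nat_lit 344)) (XT.lf (nat_lit 0) (nat_lit 2454109994) (nat_lit 608) (nat_lit 7325141960) (nat_lit 76) (nat_lit 590462261) (nat_lit 262) (nat_lit 5) (nat_lit 270) (nat_lit 5) (nat_lit 263) (nat_lit 5)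 (nat_lit 445) (nat_lit 412) (nat_lit 343))))))))
noncomputable def xc123 : XT := (XT.nd (nat_lit 2418) (nat_lit 4484) (nat_lit 0) (XT.nd (nat_lit 1170) (nat_lit 3268) (nat_lit 0) (XT.nd (nat_lit 546) (nat_lit 2128) (nat_lit 0) (XT.nd (nat_lit 234) (nat_lit 988) (nat_lit 0) (XT.nd (nat_lit 78) (nat_lit 912) (nat_lit 0) (XT.lf (nat_lit 0) (nat_lit 4796622527) (nat_lit 608) (nat_lit 956530023) (nat_lit 76) (nat_lit 4773767735) (nat_lit 262) (nat_lit 5) (nat_lit 270) (nat_lit 5) (nat_lit 263) (nat_lit 5) (nat_lit 446) (nat_lit 412) (nat_lit 342)) (XT.nd (nat_lit 78) (nat_lit 456) (nat_lit 0) (XT.lf (nat_lit 0) (nat_lit 5676455424) (nat_lit 456) (nat_lit 1555369477) (nat_lit 532) (nat_lit 3456346485) (nat_lit 256) (nat_lit 5) (nat_lit 262) (nat_lit 5) (nat_lit 263) (nat_lit 5) (nat_lit 447) (nat_lit 412) (nat_lit 341)) (XT.lf (nat_lit 0) (nat_lit 1641410136) (nat_lit 456) (nat_lit 8119193048) (nat_lit 532) (nat_lit 1093042486)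 (nat_lit 250) (nat_lit 5) (nat_lit 256) (nat_lit 5) (nat_lit 257) (nat_lit 5) (nat_lit 448) (nat_lit 412) (nat_lit 340)))) (XT.nd (nat_lit 156) (nat_lit 456) (nat_lit 0) (XT.nd (nat_lit 78) (nat_lit 456) (nat_lit 0) (XT.lf (nat_lit 0) (nat_lit 1350125694) (nat_lit 532) (nat_lit 2492727796) (nat_lit 76) (nat_lit 7179791026) (nat_lit 249) (nat_lit 5) (nat_lit 256) (nat_lit 5) (nat_lit 250) (nat_lit 5) (nat_lit 449) (nat_lit 412) (nat_lit 339)) (XT.lf (nat_lit 0) (nat_lit 3862974069) (nat_lit 532) (nat_lit 6734282424) (nat_lit 76) (nat_lit 598582680) (nat_lit 243) (nat_lit 5) (nat_lit 250) (nat_lit 5) (nat_lit 244) (nat_lit 5) (nat_lit 450) (nat_lit 412) (nat_lit 338))) (XT.nd (nat_lit 78) (nat_lit 0) (nat_lit 0) (XT.lf (nat_lit 0) (nat_lit 230708475) (nat_lit 456) (nat_lit 6256194698) (nat_lit 532) (nat_lit 4886256746) (nat_lit 237) (nat_lit 5) (nat_lit 243) (nat_lit 5) (nat_lit 244) (nat_lit 5) (nat_lit 451) (nat_lit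 412) (nat_lit 337)) (XT.lf (nat_lit 0) (nat_lit 7505473833) (nat_lit 456) (nat_lit 1722603730) (nat_lit 532) (nat_lit 2326567976) (nat_lit 237) (nat_lit 5) (nat_lit 243) (nat_lit 5) (nat_lit 244) (nat_lit 5) (nat_lit 452) (nat_lit 412) (nat_lit 336))))) (XT.nd (nat_lit 312) (nat_lit 836) (nat_lit 0) (XT.nd (nat_lit 156) (nat_lit 836) (nat_lit 0) (XT.nd (nat_lit 78) (nat_lit 0) (nat_lit 0) (XT.lf (nat_lit 0) (nat_lit 335098808) (nat_lit 456) (nat_lit 8488760500) (nat_lit 76) (nat_lit 2916691014) (nat_lit 231) (nat_lit 5) (nat_lit 237) (nat_lit 5) (nat_lit 232) (nat_lit 5) (nat_lit 453) (nat_lit 412) (nat_lit 335)) (XT.lf (nat_lit 0) (nat_lit 3059717389) (nat_lit 456) (nat_lit 1153647486) (nat_lit 76) (nat_lit 7717081392) (nat_lit 231) (nat_lit 5) (nat_lit 237) (nat_lit 5) (nat_lit 232) (nat_lit 5) (nat_lit 454) (nat_lit 412) (nat_lit 334))) (XT.nd (nat_lit 78) (nat_lit 380) (nat_lit 0) (XT.lf (nat_lit 0) (nat_lit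 5906509483) (nat_lit 532) (nat_lit 5638526525) (nat_lit 76) (nat_lit 579790986) (nat_lit 225) (nat_lit 5) (nat_lit 232) (nat_lit 5) (nat_lit 226) (nat_lit 5) (nat_lit 455) (nat_lit 412) (nat_lit 333)) (XT.lf (nat_lit 0) (nat_lit 2015472543) (nat_lit 380) (nat_lit 6868812974) (nat_lit 456) (nat_lit 3439387149) (nat_lit 220) (nat_lit 5) (nat_lit 225) (nat_lit 5) (nat_lit 226) (nat_lit 5) (nat_lit 456) (nat_lit 412) (nat_lit 332)))) (XT.nd (nat_lit 156) (nat_lit 380) (nat_lit 0) (XT.nd (nat_lit 78) (nat_lit 456) (nat_lit 0) (XT.lf (nat_lit 0) (nat_lit 9978602405) (nat_lit 380) (nat_lit 2002902969) (nat_lit 456) (nat_lit 546075917) (nat_lit 220) (nat_lit 5) (nat_lit 225) (nat_lit 5) (nat_lit 226) (nat_lit 5) (nat_lit 457) (nat_lit 412) (nat_lit 331)) (XT.lf (nat_lit 0) (nat_lit 2442607676) (nat_lit 456) (nat_lit 7274473265) (nat_lit 76) (nat_lit 3018143063) (nat_lit 214) (nat_lit 5) (nat_lit 220) (nat_lit 5) (nat_lit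 215) (nat_lit 5) (nat_lit 458) (nat_lit 412) (nat_lit 330))) (XT.nd (nat_lit 78) (nat_lit 0) (nat_lit 0) (XT.lf (nat_lit 0) (nat_lit 768314168) (nat_lit 380) (nat_lit 4768906121) (nat_lit 456) (nat_lit 7410897009) (nat_lit 209) (nat_lit 5) (nat_lit 214) (nat_lit 5) (nat_lit 215) (nat_lit 5) (nat_lit 459) (nat_lit 412) (nat_lit 329)) (XT.lf (nat_lit 0) (nat_lit 8776358800) (nat_lit 456) (nat_lit 4003772085) (nat_lit 76) (nat_lit 385716681) (nat_lit 209) (nat_lit 5) (nat_lit 215) (nat_lit 5) (nat_lit 210) (nat_lit 5) (nat_lit 460) (nat_lit 412) (nat_lit 328)))))) (XT.nd (nat_lit 624) (nat_lit 1520) (nat_lit 0) (XT.nd (nat_lit 312) (nat_lit 684) (nat_lit 0) (XT.nd (nat_lit 156) (nat_lit 608) (nat_lit 0) (XT.nd (nat_lit 78) (nat_lit 76) (nat_lit 0) (XT.lf (nat_lit 0) (nat_lit 4421450221) (nat_lit 380) (nat_lit 7756038954) (nat_lit 456) (nat_lit 1210676811) (nat_lit 204) (nat_lit 5) (nat_lit 209) (nat_lit 5) (nat_lit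 210) (nat_lit 5) (nat_lit 461) (nat_lit 412) (nat_lit 327)) (XT.lf (nat_lit 0) (nat_lit 2039310148) (nat_lit 456) (nat_lit 489974325) (nat_lit 76) (nat_lit 11086792840) (nat_lit 203) (nat_lit 5) (nat_lit 209) (nat_lit 5) (nat_lit 204) (nat_lit 5) (nat_lit 462) (nat_lit 412) (nat_lit 326))) (XT.nd (nat_lit 78) (nat_lit 304) (nat_lit 0) (XT.lf (nat_lit 0) (nat_lit 5447024707) (nat_lit 380) (nat_lit 5519127092) (nat_lit 76) (nat_lit 2881778440) (nat_lit 199) (nat_lit 5) (nat_lit 204) (nat_lit 5) (nat_lit 200) (nat_lit 5) (nat_lit 463) (nat_lit 412) (nat_lit 325)) (XT.lf (nat_lit 0) (nat_lit 3341156742) (nat_lit 304) (nat_lit 5654212755) (nat_lit 380) (nat_lit 5090217983) (nat_lit 195) (nat_lit 5) (nat_lit 199) (nat_lit 5) (nat_lit 200) (nat_lit 5) (nat_lit 464) (nat_lit 412) (nat_lit 324)))) (XT.nd (nat_lit 156) (nat_lit 304) (nat_lit 0) (XT.nd (nat_lit 78) (nat_lit 380) (nat_lit 0) (XT.lf (nat_lit 0) (nat_lit 12546177019)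 (nat_lit 304) (nat_lit 136325472) (nat_lit 380) (nat_lit 1646902480) (nat_lit 195) (nat_lit 5) (nat_lit 199) (nat_lit 5) (nat_lit 200) (nat_lit 5) (nat_lit 465) (nat_lit 412) (nat_lit 323)) (XT.lf (nat_lit 0) (nat_lit 1966320017) (nat_lit 380) (nat_lit 7090567760) (nat_lit 76) (nat_lit 5519991673) (nat_lit 190) (nat_lit 5) (nat_lit 195) (nat_lit 5) (nat_lit 191) (nat_lit 5) (nat_lit 466) (nat_lit 412) (nat_lit 322))) (XT.nd (nat_lit 78) (nat_lit 0) (nat_lit 0) (XT.lf (nat_lit 0) (nat_lit 2231041158) (nat_lit 304) (nat_lit 3442083893) (nat_lit 380) (nat_lit 9157615936) (nat_lit 186) (nat_lit 5) (nat_lit 190) (nat_lit 5) (nat_lit 191) (nat_lit 5) (nat_lit 467) (nat_lit 412) (nat_lit 321)) (XT.lf (nat_lit 0) (nat_lit 9563484654) (nat_lit 380) (nat_lit 3169781285) (nat_lit 76) (nat_lit 2356782512) (nat_lit 186) (nat_lit 5) (nat_lit 191) (nat_lit 5) (nat_lit 187) (nat_lit 5) (nat_lit 468) (nat_lit 412) (nat_lit 320)))))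 (XT.nd (nat_lit 312) (nat_lit 608) (nat_lit 0) (XT.nd (nat_lit 156) (nat_lit 228) (nat_lit 0) (XT.nd (nat_lit 78) (nat_lit 380) (nat_lit 0) (XT.lf (nat_lit 0) (nat_lit 6604685145) (nat_lit 304) (nat_lit 7041628472) (nat_lit 380) (nat_lit 1708549343) (nat_lit 182) (nat_lit 5) (nat_lit 186) (nat_lit 5) (nat_lit 187) (nat_lit 5) (nat_lit 469) (nat_lit 412) (nat_lit 319)) (XT.lf (nat_lit 0) (nat_lit 1076759056) (nat_lit 304) (nat_lit 1124820717) (nat_lit 380) (nat_lit 13424772143) (nat_lit 177) (nat_lit 5) (nat_lit 181) (nat_lit 5) (nat_lit 182) (nat_lit 5) (nat_lit 470) (nat_lit 412) (nat_lit 318))) (XT.nd (nat_lit 78) (nat_lit 228) (nat_lit 0) (XT.lf (nat_lit 0) (nat_lit 6310178121) (nat_lit 380) (nat_lit 4624485049) (nat_lit 76) (nat_lit 4967350244) (nat_lit 177) (nat_lit 5) (nat_lit 182) (nat_lit 5) (nat_lit 178) (nat_lit 5) (nat_lit 471) (nat_lit 412) (nat_lit 317)) (XT.lf (nat_lit 0) (nat_lit 5665300814) (nat_lit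 228) (nat_lit 4921456187) (nat_lit 304) (nat_lit 5597846590) (nat_lit 174) (nat_lit 5) (nat_lit 177) (nat_lit 5) (nat_lit 178) (nat_lit 5) (nat_lit 472) (nat_lit 412) (nat_lit 316)))) (XT.nd (nat_lit 156) (nat_lit 228) (nat_lit 0) (XT.nd (nat_lit 78) (nat_lit 380) (nat_lit 0) (XT.lf (nat_lit 0) (nat_lit 15030337130) (nat_lit 304) (nat_lit 161060373) (nat_lit 76) (nat_lit 1283113354) (nat_lit 174) (nat_lit 5) (nat_lit 178) (nat_lit 5) (nat_lit 175) (nat_lit 5) (nat_lit 473) (nat_lit 412) (nat_lit 315)) (XT.lf (nat_lit 0) (nat_lit 2910975535) (nat_lit 380) (nat_lit 6162724054) (nat_lit 76) (nat_lit 7694633827) (nat_lit 169) (nat_lit 5) (nat_lit 174) (nat_lit 5) (nat_lit 170) (nat_lit 5) (nat_lit 474) (nat_lit 412) (nat_lit 314))) (XT.nd (nat_lit 78) (nat_lit 0) (nat_lit 0) (XT.lf (nat_lit 0) (nat_lit 4672713377) (nat_lit 228) (nat_lit 2721602506) (nat_lit 304) (nat_lit 9675429371) (nat_lit 166) (nat_lit 5) (nat_lit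 169) (nat_lit 5) (nat_lit 170) (nat_lit 5) (nat_lit 475) (nat_lit 412) (nat_lit 313)) (XT.lf (nat_lit 0) (nat_lit 12091904308) (nat_lit 304) (nat_lit 1488114206) (nat_lit 76) (nat_lit 3797788938) (nat_lit 166) (nat_lit 5) (nat_lit 170) (nat_lit 5) (nat_lit 167) (nat_lit 5) (nat_lit 476) (nat_lit 412) (nat_lit 312))))))) (XT.nd (nat_lit 1248) (nat_lit 1824) (nat_lit 0) (XT.nd (nat_lit 624) (nat_lit 1216) (nat_lit 0) (XT.nd (nat_lit 312) (nat_lit 684) (nat_lit 0) (XT.nd (nat_lit 156) (nat_lit 228) (nat_lit 0) (XT.nd (nat_lit 78) (nat_lit 304) (nat_lit 0) (XT.lf (nat_lit 0) (nat_lit 9882928451) (nat_lit 228) (nat_lit 7150186766) (nat_lit 304) (nat_lit 658915884) (nat_lit 163) (nat_lit 5) (nat_lit 166) (nat_lit 5) (nat_lit 167) (nat_lit 5) (nat_lit 477) (nat_lit 412) (nat_lit 311)) (XT.lf (nat_lit 0) (nat_lit 3610070294) (nat_lit 228) (nat_lit 447373025) (nat_lit 304) (nat_lit 13956133139) (nat_lit 159) (nat_lit 5)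 (nat_lit 162) (nat_lit 5) (nat_lit 163) (nat_lit 5) (nat_lit 478) (nat_lit 412) (nat_lit 310))) (XT.nd (nat_lit 78) (nat_lit 228) (nat_lit 0) (XT.lf (nat_lit 0) (nat_lit 9024723344) (nat_lit 304) (nat_lit 2911147207) (nat_lit 76) (nat_lit 6405022094) (nat_lit 159) (nat_lit 5) (nat_lit 163) (nat_lit 5) (nat_lit 160) (nat_lit 5) (nat_lit 479) (nat_lit 412) (nat_lit 309)) (XT.lf (nat_lit 0) (nat_lit 9068142727) (nat_lit 228) (nat_lit 5146003367) (nat_lit 304) (nat_lit 4461688874) (nat_lit 156) (nat_lit 5) (nat_lit 159) (nat_lit 5) (nat_lit 160) (nat_lit 5) (nat_lit 480) (nat_lit 412) (nat_lit 308)))) (XT.nd (nat_lit 156) (nat_lit 380) (nat_lit 0) (XT.nd (nat_lit 78) (nat_lit 0) (nat_lit 0) (XT.lf (nat_lit 0) (nat_lit 581059120) (nat_lit 304) (nat_lit 16579224896) (nat_lit 76) (nat_lit 1858792440) (nat_lit 152) (nat_lit 5) (nat_lit 156) (nat_lit 5) (nat_lit 153) (nat_lit 5) (nat_lit 481) (nat_lit 412) (nat_lit 307))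 (XT.lf (nat_lit 0) (nat_lit 5816069925) (nat_lit 304) (nat_lit 4450584065) (nat_lit 76) (nat_lit 9100716618) (nat_lit 152) (nat_lit 5) (nat_lit 156) (nat_lit 5) (nat_lit 153) (nat_lit 5) (nat_lit 482) (nat_lit 412) (nat_lit 306))) (XT.nd (nat_lit 78) (nat_lit 152) (nat_lit 0) (XT.lf (nat_lit 0) (nat_lit 8171702383) (nat_lit 228) (nat_lit 3097238262) (nat_lit 304) (nat_lit 8455348990) (nat_lit 149) (nat_lit 5) (nat_lit 152) (nat_lit 5) (nat_lit 153) (nat_lit 5) (nat_lit 483) (nat_lit 412) (nat_lit 305)) (XT.lf (nat_lit 0) (nat_lit 1123801288) (nat_lit 152) (nat_lit 15841376130) (nat_lit 228) (nat_lit 3124345746) (nat_lit 147) (nat_lit 5) (nat_lit 149) (nat_lit 5) (nat_lit 150) (nat_lit 5) (nat_lit 484) (nat_lit 412) (nat_lit 304))))) (XT.nd (nat_lit 312) (nat_lit 760) (nat_lit 0) (XT.nd (nat_lit 156) (nat_lit 152) (nat_lit 0) (XT.nd (nat_lit 78) (nat_lit 228) (nat_lit 0) (XT.lf (nat_lit 0) (nat_lit 2451321699) (nat_lit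 228) (nat_lit 6129336831) (nat_lit 76) (nat_lit 11880445566) (nat_lit 146) (nat_lit 5) (nat_lit 149) (nat_lit 5) (nat_lit 147) (nat_lit 5) (nat_lit 485) (nat_lit 412) (nat_lit 303)) (XT.lf (nat_lit 0) (nat_lit 7172178910) (nat_lit 228) (nat_lit 1011174472) (nat_lit 304) (nat_lit 12657994635) (nat_lit 143) (nat_lit 5) (nat_lit 146) (nat_lit 5) (nat_lit 147) (nat_lit 5) (nat_lit 486) (nat_lit 412) (nat_lit 302))) (XT.nd (nat_lit 78) (nat_lit 152) (nat_lit 0) (XT.lf (nat_lit 0) (nat_lit 14198132341) (nat_lit 304) (nat_lit 327683926) (nat_lit 76) (nat_lit 6703859692) (nat_lit 143) (nat_lit 5) (nat_lit 147) (nat_lit 5) (nat_lit 144) (nat_lit 5) (nat_lit 487) (nat_lit 412) (nat_lit 301)) (XT.lf (nat_lit 0) (nat_lit 13641997085) (nat_lit 152) (nat_lit 6876051877) (nat_lit 228) (nat_lit 1107864233) (nat_lit 141) (nat_lit 5) (nat_lit 143) (nat_lit 5) (nat_lit 144) (nat_lit 5) (nat_lit 488) (nat_lit 412) (nat_lit 300))))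 (XT.nd (nat_lit 156) (nat_lit 456) (nat_lit 0) (XT.nd (nat_lit 78) (nat_lit 0) (nat_lit 0) (XT.lf (nat_lit 0) (nat_lit 4951745199) (nat_lit 304) (nat_lit 15996673404) (nat_lit 76) (nat_lit 1082509347) (nat_lit 137) (nat_lit 5) (nat_lit 141) (nat_lit 5) (nat_lit 138) (nat_lit 5) (nat_lit 489) (nat_lit 412) (nat_lit 299)) (XT.lf (nat_lit 0) (nat_lit 11304067406) (nat_lit 304) (nat_lit 1917275190) (nat_lit 76) (nat_lit 9222426001) (nat_lit 137) (nat_lit 5) (nat_lit 141) (nat_lit 5) (nat_lit 138) (nat_lit 5) (nat_lit 490) (nat_lit 412) (nat_lit 298))) (XT.nd (nat_lit 78) (nat_lit 304) (nat_lit 0) (XT.lf (nat_lit 0) (nat_lit 12806853031) (nat_lit 152) (nat_lit 5147380164) (nat_lit 228) (nat_lit 4911543302) (nat_lit 135) (nat_lit 5) (nat_lit 137) (nat_lit 5) (nat_lit 138) (nat_lit 5) (nat_lit 491) (nat_lit 412) (nat_lit 297)) (XT.lf (nat_lit 0) (nat_lit 1554804399) (nat_lit 304) (nat_lit 18566826082) (nat_lit 76) (nat_lit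 3175960336) (nat_lit 131) (nat_lit 5) (nat_lit 135) (nat_lit 5) (nat_lit 132) (nat_lit 5) (nat_lit 492) (nat_lit 412) (nat_lit 296)))))) (XT.nd (nat_lit 624) (nat_lit 912) (nat_lit 0) (XT.nd (nat_lit 312) (nat_lit 532) (nat_lit 0) (XT.nd (nat_lit 156) (nat_lit 228) (nat_lit 0) (XT.nd (nat_lit 78) (nat_lit 152) (nat_lit 0) (XT.lf (nat_lit 0) (nat_lit 8254265334) (nat_lit 304) (nat_lit 3697258223) (nat_lit 76) (nat_lit 11785242168) (nat_lit 131) (nat_lit 5) (nat_lit 135) (nat_lit 5) (nat_lit 132) (nat_lit 5) (nat_lit 493) (nat_lit 412) (nat_lit 295)) (XT.lf (nat_lit 0) (nat_lit 11822208429) (nat_lit 152) (nat_lit 3430896101) (nat_lit 228) (nat_lit 8933059740) (nat_lit 129) (nat_lit 5) (nat_lit 131) (nat_lit 5) (nat_lit 132) (nat_lit 5) (nat_lit 494) (nat_lit 412) (nat_lit 294))) (XT.nd (nat_lit 78) (nat_lit 76) (nat_lit 0) (XT.lf (nat_lit 0) (nat_lit 3219231445) (nat_lit 152) (nat_lit 19347539432) (nat_lit 228) (nat_lit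 2079128255) (nat_lit 127) (nat_lit 5) (nat_lit 129) (nat_lit 5) (nat_lit 130) (nat_lit 5) (nat_lit 495) (nat_lit 412) (nat_lit 293)) (XT.lf (nat_lit 0) (nat_lit 5028158292) (nat_lit 228) (nat_lit 5702393991) (nat_lit 76) (nat_lit 14383090023) (nat_lit 126) (nat_lit 5) (nat_lit 129) (nat_lit 5) (nat_lit 127) (nat_lit 5) (nat_lit 496) (nat_lit 412) (nat_lit 292)))) (XT.nd (nat_lit 156) (nat_lit 228) (nat_lit 0) (XT.nd (nat_lit 78) (nat_lit 152) (nat_lit 0) (XT.lf (nat_lit 0) (nat_lit 10654724293) (nat_lit 152) (nat_lit 1739877190) (nat_lit 228) (nat_lit 13197567135) (nat_lit 124) (nat_lit 5) (nat_lit 126) (nat_lit 5) (nat_lit 127) (nat_lit 5) (nat_lit 497) (nat_lit 412) (nat_lit 291)) (XT.lf (nat_lit 0) (nat_lit 1465584301) (nat_lit 152) (nat_lit 18646361975) (nat_lit 228) (nat_lit 5969207388) (nat_lit 122) (nat_lit 5) (nat_lit 124) (nat_lit 5) (nat_lit 125) (nat_lit 5) (nat_lit 498) (nat_lit 412) (nat_lit 290)))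 (XT.nd (nat_lit 78) (nat_lit 152) (nat_lit 0) (XT.lf (nat_lit 0) (nat_lit 1602167724) (nat_lit 228) (nat_lit 7972596468) (nat_lit 76) (nat_lit 17004969601) (nat_lit 121) (nat_lit 5) (nat_lit 124) (nat_lit 5) (nat_lit 122) (nat_lit 5) (nat_lit 499) (nat_lit 412) (nat_lit 289)) (XT.lf (nat_lit 0) (nat_lit 9265828688) (nat_lit 152) (nat_lit 89781923) (nat_lit 228) (nat_lit 17733640811) (nat_lit 119) (nat_lit 5) (nat_lit 121) (nat_lit 5) (nat_lit 122) (nat_lit 5) (nat_lit 500) (nat_lit 412) (nat_lit 288))))) (XT.nd (nat_lit 312) (nat_lit 532) (nat_lit 0) (XT.nd (nat_lit 156) (nat_lit 228) (nat_lit 0) (XT.nd (nat_lit 78) (nat_lit 152) (nat_lit 0) (XT.lf (nat_lit 0) (nat_lit 17501902911) (nat_lit 228) (nat_lit 546253731) (nat_lit 76) (nat_lit 9561090726) (nat_lit 119) (nat_lit 5) (nat_lit 122) (nat_lit 5) (nat_lit 120) (nat_lit 5) (nat_lit 501) (nat_lit 412) (nat_lit 287)) (XT.lf (nat_lit 0) (nat_lit 17566261662) (nat_lit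 152) (nat_lit 8482373512) (nat_lit 228) (nat_lit 2091526649) (nat_lit 117) (nat_lit 5) (nat_lit 119) (nat_lit 5) (nat_lit 120) (nat_lit 5) (nat_lit 502) (nat_lit 412) (nat_lit 286))) (XT.nd (nat_lit 78) (nat_lit 0) (nat_lit 0) (XT.lf (nat_lit 0) (nat_lit 6123963554) (nat_lit 228) (nat_lit 21086882315) (nat_lit 76) (nat_lit 1471995376) (nat_lit 114) (nat_lit 5) (nat_lit 117) (nat_lit 5) (nat_lit 115) (nat_lit 5) (nat_lit 503) (nat_lit 412) (nat_lit 285)) (XT.lf (nat_lit 0) (nat_lit 14722084408) (nat_lit 228) (nat_lit 2841622125) (nat_lit 76) (nat_lit 11672127316) (nat_lit 114) (nat_lit 5) (nat_lit 117) (nat_lit 5) (nat_lit 115) (nat_lit 5) (nat_lit 504) (nat_lit 412) (nat_lit 284)))) (XT.nd (nat_lit 156) (nat_lit 152) (nat_lit 0) (XT.nd (nat_lit 78) (nat_lit 228) (nat_lit 0) (XT.lf (nat_lit 0) (nat_lit 16243753044) (nat_lit 152) (nat_lit 7477324053) (nat_lit 228) (nat_lit 6080051438) (nat_lit 112) (nat_lit 5) (nat_lit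 114) (nat_lit 5) (nat_lit 115) (nat_lit 5) (nat_lit 505) (nat_lit 412) (nat_lit 283)) (XT.lf (nat_lit 0) (nat_lit 2654727832) (nat_lit 228) (nat_lit 24771634588) (nat_lit 76) (nat_lit 2953300009) (nat_lit 109) (nat_lit 5) (nat_lit 112) (nat_lit 5) (nat_lit 110) (nat_lit 5) (nat_lit 506) (nat_lit 412) (nat_lit 282))) (XT.nd (nat_lit 78) (nat_lit 152) (nat_lit 0) (XT.lf (nat_lit 0) (nat_lit 11728495119) (nat_lit 228) (nat_lit 5505016400) (nat_lit 76) (nat_lit 13734260570) (nat_lit 109) (nat_lit 5) (nat_lit 112) (nat_lit 5) (nat_lit 110) (nat_lit 5) (nat_lit 507) (nat_lit 412) (nat_lit 281)) (XT.lf (nat_lit 0) (nat_lit 14600934226) (nat_lit 152) (nat_lit 6601133492) (nat_lit 228) (nat_lit 10367629684) (nat_lit 107) (nat_lit 5) (nat_lit 109) (nat_lit 5) (nat_lit 110) (nat_lit 5) (nat_lit 508) (nat_lit 412) (nat_lit 280))))))))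
noncomputable def xc124 : XT := (XT.nd (nat_lit 2418) (nat_lit 912) (nat_lit 0) (XT.nd (nat_lit 1170) (nat_lit 1292) (nat_lit 0) (XT.nd (nat_lit 546) (nat_lit 760) (nat_lit 0) (XT.nd (nat_lit 234) (nat_lit 304) (nat_lit 0) (XT.nd (nat_lit 78) (nat_lit 228) (nat_lit 0) (XT.lf (nat_lit 0) (nat_lit 3231971062) (nat_lit 76) (nat_lit 27844184484) (nat_lit 152) (nat_lit 1110035815) (nat_lit 106) (nat_lit 5) (nat_lit 107) (nat_lit 5) (nat_lit 108) (nat_lit 4) (nat_lit 509) (nat_lit 412) (nat_lit 279)) (XT.nd (nat_lit 78) (nat_lit 152) (nat_lit 0) (XT.lf (nat_lit 0) (nat_lit 8486587812) (nat_lit 152) (nat_lit 8601160762) (nat_lit 76) (nat_lit 15724230726) (nat_lit 105) (nat_lit 5) (nat_lit 107) (nat_lit 5) (nat_lit 106) (nat_lit 5) (nat_lit 510) (nat_lit 412) (nat_lit 278)) (XT.lf (nat_lit 0) (nat_lit 12573902830) (nat_lit 152) (nat_lit 5883438603) (nat_lit 228) (nat_lit 14995613590) (nat_lit 103) (nat_lit 5) (nat_lit 105)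 (nat_lit 5) (nat_lit 106) (nat_lit 5) (nat_lit 511) (nat_lit 412) (nat_lit 277)))) (XT.nd (nat_lit 156) (nat_lit 152) (nat_lit 0) (XT.nd (nat_lit 78) (nat_lit 76) (nat_lit 0) (XT.lf (nat_lit 0) (nat_lit 379140619) (nat_lit 76) (nat_lit 28481527874) (nat_lit 152) (nat_lit 5248488115) (nat_lit 102) (nat_lit 5) (nat_lit 103) (nat_lit 5) (nat_lit 104) (nat_lit 4) (nat_lit 512) (nat_lit 412) (nat_lit 276)) (XT.lf (nat_lit 0) (nat_lit 4956468832) (nat_lit 152) (nat_lit 12205051078) (nat_lit 76) (nat_lit 17614375550) (nat_lit 101) (nat_lit 5) (nat_lit 103) (nat_lit 5) (nat_lit 102) (nat_lit 5) (nat_lit 513) (nat_lit 412) (nat_lit 275))) (XT.nd (nat_lit 78) (nat_lit 0) (nat_lit 0) (XT.lf (nat_lit 0) (nat_lit 10088207834) (nat_lit 152) (nat_lit 5358940118) (nat_lit 228) (nat_lit 20011377787) (nat_lit 99) (nat_lit 5) (nat_lit 101) (nat_lit 5) (nat_lit 102) (nat_lit 5) (nat_lit 514) (nat_lit 412) (nat_lit 274)) (XT.lf (nat_lit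 0) (nat_lit 26430482186) (nat_lit 228) (nat_lit 2946427310) (nat_lit 76) (nat_lit 6779387488) (nat_lit 99) (nat_lit 5) (nat_lit 102) (nat_lit 5) (nat_lit 100) (nat_lit 4) (nat_lit 515) (nat_lit 412) (nat_lit 273))))) (XT.nd (nat_lit 312) (nat_lit 380) (nat_lit 0) (XT.nd (nat_lit 156) (nat_lit 76) (nat_lit 0) (XT.nd (nat_lit 78) (nat_lit 152) (nat_lit 0) (XT.lf (nat_lit 0) (nat_lit 1092076749) (nat_lit 152) (nat_lit 16403626797) (nat_lit 76) (nat_lit 19371826344) (nat_lit 97) (nat_lit 5) (nat_lit 99) (nat_lit 5) (nat_lit 98) (nat_lit 5) (nat_lit 516) (nat_lit 412) (nat_lit 272)) (XT.lf (nat_lit 0) (nat_lit 7057108794) (nat_lit 152) (nat_lit 5068287488) (nat_lit 228) (nat_lit 25469223623) (nat_lit 95) (nat_lit 5) (nat_lit 97) (nat_lit 5) (nat_lit 98) (nat_lit 5) (nat_lit 517) (nat_lit 412) (nat_lit 271))) (XT.nd (nat_lit 78) (nat_lit 76) (nat_lit 0) (XT.lf (nat_lit 0) (nat_lit 23719840520) (nat_lit 228) (nat_lit 6878369918)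 (nat_lit 76) (nat_lit 7738408519) (nat_lit 95) (nat_lit 5) (nat_lit 98) (nat_lit 5) (nat_lit 96) (nat_lit 4) (nat_lit 518) (nat_lit 412) (nat_lit 270)) (XT.lf (nat_lit 0) (nat_lit 17765898332) (nat_lit 76) (nat_lit 18106028338) (nat_lit 152) (nat_lit 3222657141) (nat_lit 94) (nat_lit 5) (nat_lit 95) (nat_lit 5) (nat_lit 96) (nat_lit 4) (nat_lit 519) (nat_lit 412) (nat_lit 269)))) (XT.nd (nat_lit 156) (nat_lit 152) (nat_lit 0) (XT.nd (nat_lit 78) (nat_lit 0) (nat_lit 0) (XT.lf (nat_lit 0) (nat_lit 3379558133) (nat_lit 152) (nat_lit 5059101964) (nat_lit 228) (nat_lit 31431427630) (nat_lit 91) (nat_lit 5) (nat_lit 93) (nat_lit 5) (nat_lit 94) (nat_lit 5) (nat_lit 520) (nat_lit 412) (nat_lit 268)) (XT.lf (nat_lit 0) (nat_lit 20671993784) (nat_lit 228) (nat_lit 11531900161) (nat_lit 76) (nat_lit 8455397196) (nat_lit 91) (nat_lit 5) (nat_lit 94) (nat_lit 5) (nat_lit 92) (nat_lit 4) (nat_lit 521) (nat_lit 412) (nat_lit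 267))) (XT.nd (nat_lit 78) (nat_lit 76) (nat_lit 0) (XT.lf (nat_lit 0) (nat_lit 14385544172) (nat_lit 76) (nat_lit 19064372084) (nat_lit 152) (nat_lit 8016926815) (nat_lit 90) (nat_lit 5) (nat_lit 91) (nat_lit 5) (nat_lit 92) (nat_lit 4) (nat_lit 522) (nat_lit 412) (nat_lit 266)) (XT.lf (nat_lit 0) (nat_lit 4335232569) (nat_lit 152) (nat_lit 1041411917) (nat_lit 76) (nat_lit 36917528563) (nat_lit 89) (nat_lit 5) (nat_lit 91) (nat_lit 5) (nat_lit 90) (nat_lit 5) (nat_lit 523) (nat_lit 412) (nat_lit 265)))))) (XT.nd (nat_lit 624) (nat_lit 532) (nat_lit 0) (XT.nd (nat_lit 312) (nat_lit 304) (nat_lit 0) (XT.nd (nat_lit 156) (nat_lit 228) (nat_lit 0) (XT.nd (nat_lit 78) (nat_lit 76) (nat_lit 0) (XT.lf (nat_lit 0) (nat_lit 17225160188) (nat_lit 228) (nat_lit 17032324217) (nat_lit 76) (nat_lit 8876607254) (nat_lit 87) (nat_lit 5) (nat_lit 90) (nat_lit 5) (nat_lit 88) (nat_lit 4) (nat_lit 524) (nat_lit 412) (nat_lit 264))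 (XT.lf (nat_lit 0) (nat_lit 10207540699) (nat_lit 76) (nat_lit 20445786535) (nat_lit 152) (nat_lit 13341334415) (nat_lit 86) (nat_lit 5) (nat_lit 87) (nat_lit 5) (nat_lit 88) (nat_lit 4) (nat_lit 525) (nat_lit 412) (nat_lit 263))) (XT.nd (nat_lit 78) (nat_lit 228) (nat_lit 0) (XT.lf (nat_lit 0) (nat_lit 38593938909) (nat_lit 76) (nat_lit 6052072978) (nat_lit 152) (nat_lit 230186740) (nat_lit 86) (nat_lit 5) (nat_lit 87) (nat_lit 5) (nat_lit 88) (nat_lit 4) (nat_lit 526) (nat_lit 412) (nat_lit 262)) (XT.lf (nat_lit 0) (nat_lit 13307495274) (nat_lit 228) (nat_lit 23525270706) (nat_lit 76) (nat_lit 8938820901) (nat_lit 83) (nat_lit 5) (nat_lit 86) (nat_lit 5) (nat_lit 84) (nat_lit 4) (nat_lit 527) (nat_lit 412) (nat_lit 261)))) (XT.nd (nat_lit 156) (nat_lit 228) (nat_lit 0) (XT.nd (nat_lit 78) (nat_lit 0) (nat_lit 0) (XT.lf (nat_lit 0) (nat_lit 5084530519) (nat_lit 76) (nat_lit 22324916296) (nat_lit 152) (nat_lit 19279438688)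 (nat_lit 82) (nat_lit 5) (nat_lit 83) (nat_lit 5) (nat_lit 84) (nat_lit 4) (nat_lit 528) (nat_lit 412) (nat_lit 260)) (XT.lf (nat_lit 0) (nat_lit 35015607320) (nat_lit 76) (nat_lit 7146419489) (nat_lit 152) (nat_lit 5464849238) (nat_lit 82) (nat_lit 5) (nat_lit 83) (nat_lit 5) (nat_lit 84) (nat_lit 4) (nat_lit 529) (nat_lit 412) (nat_lit 259))) (XT.nd (nat_lit 78) (nat_lit 0) (nat_lit 0) (XT.lf (nat_lit 0) (nat_lit 8835482692) (nat_lit 228) (nat_lit 31179972493) (nat_lit 76) (nat_lit 8567754013) (nat_lit 79) (nat_lit 5) (nat_lit 82) (nat_lit 5) (nat_lit 80) (nat_lit 4) (nat_lit 530) (nat_lit 412) (nat_lit 258)) (XT.lf (nat_lit 0) (nat_lit 23644577450) (nat_lit 228) (nat_lit 1132756930) (nat_lit 76) (nat_lit 24783587068) (nat_lit 79) (nat_lit 5) (nat_lit 82) (nat_lit 5) (nat_lit 80) (nat_lit 4) (nat_lit 531) (nat_lit 412) (nat_lit 257))))) (XT.nd (nat_lit 312) (nat_lit 228) (nat_lit 0) (XT.nd (nat_lit 156) (nat_lit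 76) (nat_lit 0) (XT.nd (nat_lit 78) (nat_lit 152) (nat_lit 0) (XT.lf (nat_lit 0) (nat_lit 30390538852) (nat_lit 76) (nat_lit 8790047710) (nat_lit 152) (nat_lit 11378899312) (nat_lit 78) (nat_lit 5) (nat_lit 79) (nat_lit 5) (nat_lit 80) (nat_lit 4) (nat_lit 532) (nat_lit 412) (nat_lit 256)) (XT.lf (nat_lit 0) (nat_lit 3712066423) (nat_lit 152) (nat_lit 40193071606) (nat_lit 76) (nat_lit 7676206349) (nat_lit 76) (nat_lit 5) (nat_lit 78) (nat_lit 5) (nat_lit 77) (nat_lit 4) (nat_lit 533) (nat_lit 412) (nat_lit 255))) (XT.nd (nat_lit 78) (nat_lit 76) (nat_lit 0) (XT.lf (nat_lit 0) (nat_lit 19310304275) (nat_lit 152) (nat_lit 8542195347) (nat_lit 76) (nat_lit 24769481759) (nat_lit 76) (nat_lit 5) (nat_lit 78) (nat_lit 5) (nat_lit 77) (nat_lit 4) (nat_lit 534) (nat_lit 412) (nat_lit 254)) (XT.lf (nat_lit 0) (nat_lit 24518802526) (nat_lit 76) (nat_lit 11084186426) (nat_lit 152) (nat_lit 18084053599) (nat_lit 75) (nat_lit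 5) (nat_lit 76) (nat_lit 5) (nat_lit 77) (nat_lit 4) (nat_lit 535) (nat_lit 412) (nat_lit 253)))) (XT.nd (nat_lit 156) (nat_lit 76) (nat_lit 0) (XT.nd (nat_lit 78) (nat_lit 76) (nat_lit 0) (XT.lf (nat_lit 0) (nat_lit 3964430490) (nat_lit 76) (nat_lit 48595545745) (nat_lit 76) (nat_lit 2218813705) (nat_lit 74) (nat_lit 4) (nat_lit 75) (nat_lit 5) (nat_lit 75) (nat_lit 4) (nat_lit 536) (nat_lit 412) (nat_lit 252)) (XT.lf (nat_lit 0) (nat_lit 14244839875) (nat_lit 152) (nat_lit 17471743053) (nat_lit 76) (nat_lit 24170693222) (nat_lit 73) (nat_lit 5) (nat_lit 75) (nat_lit 5) (nat_lit 74) (nat_lit 4) (nat_lit 537) (nat_lit 412) (nat_lit 251))) (XT.nd (nat_lit 78) (nat_lit 0) (nat_lit 0) (XT.lf (nat_lit 0) (nat_lit 17166813093) (nat_lit 76) (nat_lit 14147111288) (nat_lit 152) (nat_lit 25709750037) (nat_lit 72) (nat_lit 5) (nat_lit 73) (nat_lit 5) (nat_lit 74) (nat_lit 4) (nat_lit 538) (nat_lit 412) (nat_lit 250)) (XT.lf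 (nat_lit 0) (nat_lit 49102335930) (nat_lit 152) (nat_lit 5043273675) (nat_lit 0) (nat_lit 4042337434) (nat_lit 72) (nat_lit 5) (nat_lit 74) (nat_lit 4) (nat_lit 72) (nat_lit 4) (nat_lit 539) (nat_lit 412) (nat_lit 249))))))) (XT.nd (nat_lit 52728) (nat_lit 0) (nat_lit 23256) (XT.nd (nat_lit 546) (nat_lit 380) (nat_lit 0) (XT.nd (nat_lit 234) (nat_lit 304) (nat_lit 0) (XT.nd (nat_lit 78) (nat_lit 76) (nat_lit 0) (XT.lf (nat_lit 0) (nat_lit 8316702171) (nat_lit 152) (nat_lit 28187786884) (nat_lit 76) (nat_lit 22867252474) (nat_lit 70) (nat_lit 5) (nat_lit 72) (nat_lit 5) (nat_lit 71) (nat_lit 4) (nat_lit 540) (nat_lit 412) (nat_lit 248)) (XT.nd (nat_lit 78) (nat_lit 0) (nat_lit 0) (XT.lf (nat_lit 0) (nat_lit 8061844248) (nat_lit 76) (nat_lit 18116933518) (nat_lit 152) (nat_lit 34405964287) (nat_lit 69) (nat_lit 5) (nat_lit 70) (nat_lit 5) (nat_lit 71) (nat_lit 4) (nat_lit 541) (nat_lit 412) (nat_lit 247)) (XT.lf (nat_lit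 0) (nat_lit 44863469096) (nat_lit 152) (nat_lit 15876411783) (nat_lit 0) (nat_lit 1085649147) (nat_lit 69) (nat_lit 5) (nat_lit 71) (nat_lit 4) (nat_lit 69) (nat_lit 4) (nat_lit 542) (nat_lit 412) (nat_lit 246)))) (XT.nd (nat_lit 156) (nat_lit 152) (nat_lit 0) (XT.nd (nat_lit 78) (nat_lit 0) (nat_lit 0) (XT.lf (nat_lit 0) (nat_lit 1372845812) (nat_lit 152) (nat_lit 41000444250) (nat_lit 76) (nat_lit 20718342725) (nat_lit 67) (nat_lit 5) (nat_lit 69) (nat_lit 5) (nat_lit 68) (nat_lit 4) (nat_lit 543) (nat_lit 412) (nat_lit 245)) (XT.lf (nat_lit 0) (nat_lit 20070433295) (nat_lit 152) (nat_lit 3053566220) (nat_lit 76) (nat_lit 41262074287) (nat_lit 67) (nat_lit 5) (nat_lit 69) (nat_lit 5) (nat_lit 68) (nat_lit 4) (nat_lit 544) (nat_lit 412) (nat_lit 244))) (XT.nd (nat_lit 78) (nat_lit 76) (nat_lit 0) (XT.lf (nat_lit 0) (nat_lit 36732584317) (nat_lit 76) (nat_lit 2941349680) (nat_lit 152) (nat_lit 26035064517) (nat_lit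 66) (nat_lit 5) (nat_lit 67) (nat_lit 5) (nat_lit 68) (nat_lit 4) (nat_lit 545) (nat_lit 412) (nat_lit 243)) (XT.lf (nat_lit 0) (nat_lit 10725737660) (nat_lit 76) (nat_lit 49437498758) (nat_lit 76) (nat_lit 6899443678) (nat_lit 65) (nat_lit 4) (nat_lit 66) (nat_lit 5) (nat_lit 66) (nat_lit 4) (nat_lit 546) (nat_lit 412) (nat_lit 242))))) (XT.nd (nat_lit 312) (nat_lit 76) (nat_lit 0) (XT.nd (nat_lit 156) (nat_lit 152) (nat_lit 0) (XT.nd (nat_lit 78) (nat_lit 76) (nat_lit 0) (XT.lf (nat_lit 0) (nat_lit 12876800837) (nat_lit 152) (nat_lit 16406345284) (nat_lit 76) (nat_lit 39160635964) (nat_lit 64) (nat_lit 5) (nat_lit 66) (nat_lit 5) (nat_lit 65) (nat_lit 4) (nat_lit 547) (nat_lit 412) (nat_lit 241)) (XT.lf (nat_lit 0) (nat_lit 25128740609) (nat_lit 76) (nat_lit 8212613471) (nat_lit 152) (nat_lit 36515902941) (nat_lit 63) (nat_lit 5) (nat_lit 64) (nat_lit 5) (nat_lit 65) (nat_lit 4) (nat_lit 548) (nat_lit 412) (nat_lit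 240))) (XT.nd (nat_lit 78) (nat_lit 152) (nat_lit 0) (XT.lf (nat_lit 0) (nat_lit 54708980355) (nat_lit 152) (nat_lit 3208767059) (nat_lit 0) (nat_lit 13386714724) (nat_lit 63) (nat_lit 5) (nat_lit 65) (nat_lit 4) (nat_lit 63) (nat_lit 4) (nat_lit 549) (nat_lit 412) (nat_lit 239)) (XT.lf (nat_lit 0) (nat_lit 4311125245) (nat_lit 152) (nat_lit 32577963337) (nat_lit 76) (nat_lit 35890910184) (nat_lit 61) (nat_lit 5) (nat_lit 63) (nat_lit 5) (nat_lit 62) (nat_lit 4) (nat_lit 550) (nat_lit 412) (nat_lit 238)))) (XT.nd (nat_lit 51714) (nat_lit 0) (nat_lit 26676) (XT.nd (nat_lit 78) (nat_lit 0) (nat_lit 0) (XT.lf (nat_lit 0) (nat_lit 10711463125) (nat_lit 76) (nat_lit 14927985431) (nat_lit 152) (nat_lit 48651581486) (nat_lit 60) (nat_lit 5) (nat_lit 61) (nat_lit 5) (nat_lit 62) (nat_lit 4) (nat_lit 551) (nat_lit 412) (nat_lit 237)) (XT.lf (nat_lit 0) (nat_lit 48006182793) (nat_lit 152) (nat_lit 19962372175) (nat_lit 0)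 (nat_lit 7866880476) (nat_lit 60) (nat_lit 5) (nat_lit 62) (nat_lit 4) (nat_lit 60) (nat_lit 4) (nat_lit 552) (nat_lit 412) (nat_lit 236))) (XT.nd (nat_lit 78) (nat_lit 0) (nat_lit 0) (XT.lf (nat_lit 0) (nat_lit 1490917411) (nat_lit 836) (nat_lit 1043695983) (nat_lit 836) (nat_lit 1043695983) (nat_lit 411) (nat_lit 3) (nat_lit 422) (nat_lit 3) (nat_lit 422) (nat_lit 5) (nat_lit 413) (nat_lit 413) (nat_lit 374)) (XT.lf (nat_lit 76) (nat_lit 1508269921) (nat_lit 0) (nat_lit 3209986923) (nat_lit 836) (nat_lit 2494859327) (nat_lit 412) (nat_lit 5) (nat_lit 411) (nat_lit 3) (nat_lit 422) (nat_lit 5) (nat_lit 414) (nat_lit 413) (nat_lit 373)))))) (XT.nd (nat_lit 624) (nat_lit 1824) (nat_lit 0) (XT.nd (nat_lit 312) (nat_lit 836) (nat_lit 0) (XT.nd (nat_lit 156) (nat_lit 0) (nat_lit 0) (XT.nd (nat_lit 78) (nat_lit 760) (nat_lit 0) (XT.lf (nat_lit 76) (nat_lit 5220208268) (nat_lit 0) (nat_lit 1241855042) (nat_lit 836) (nat_lit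 810590391) (nat_lit 412) (nat_lit 5) (nat_lit 411) (nat_lit 3) (nat_lit 422) (nat_lit 5) (nat_lit 415) (nat_lit 413) (nat_lit 372)) (XT.lf (nat_lit 0) (nat_lit 866083775) (nat_lit 836) (nat_lit 5644114687) (nat_lit 912) (nat_lit 824718737) (nat_lit 401) (nat_lit 5) (nat_lit 412) (nat_lit 5) (nat_lit 413) (nat_lit 5) (nat_lit 416) (nat_lit 413) (nat_lit 371))) (XT.nd (nat_lit 78) (nat_lit 0) (nat_lit 0) (XT.lf (nat_lit 0) (nat_lit 2547309821) (nat_lit 836) (nat_lit 1867028887) (nat_lit 912) (nat_lit 2985356421) (nat_lit 401) (nat_lit 5) (nat_lit 412) (nat_lit 5) (nat_lit 413) (nat_lit 5) (nat_lit 417) (nat_lit 413) (nat_lit 370)) (XT.lf (nat_lit 76) (nat_lit 2027499693) (nat_lit 0) (nat_lit 2210105481) (nat_lit 912) (nat_lit 3230055751) (nat_lit 402) (nat_lit 5) (nat_lit 401) (nat_lit 5) (nat_lit 413) (nat_lit 5) (nat_lit 418) (nat_lit 413) (nat_lit 369)))) (XT.nd (nat_lit 156) (nat_lit 0) (nat_lit 0) (XT.nd (nat_lit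 78) (nat_lit 912) (nat_lit 0) (XT.lf (nat_lit 0) (nat_lit 5939040741) (nat_lit 836) (nat_lit 1497835785) (nat_lit 912) (nat_lit 101979629) (nat_lit 402) (nat_lit 5) (nat_lit 413) (nat_lit 5) (nat_lit 414) (nat_lit 5) (nat_lit 419) (nat_lit 413) (nat_lit 368)) (XT.lf (nat_lit 0) (nat_lit 66647358) (nat_lit 912) (nat_lit 5058471471) (nat_lit 988) (nat_lit 2487382842) (nat_lit 390) (nat_lit 5) (nat_lit 402) (nat_lit 5) (nat_lit 403) (nat_lit 5) (nat_lit 420) (nat_lit 413) (nat_lit 367))) (XT.nd (nat_lit 78) (nat_lit 0) (nat_lit 0) (XT.lf (nat_lit 0) (nat_lit 1709532221) (nat_lit 912) (nat_lit 982539629) (nat_lit 988) (nat_lit 4997055135) (nat_lit 390) (nat_lit 5) (nat_lit 402) (nat_lit 5) (nat_lit 403) (nat_lit 5) (nat_lit 421) (nat_lit 413) (nat_lit 366)) (XT.lf (nat_lit 76) (nat_lit 3243225477) (nat_lit 0) (nat_lit 134613201) (nat_lit 988) (nat_lit 4390931352) (nat_lit 391) (nat_lit 5) (nat_lit 390) (nat_lit 5) (nat_lit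 403) (nat_lit 5) (nat_lit 422) (nat_lit 413) (nat_lit 365))))) (XT.nd (nat_lit 312) (nat_lit 988) (nat_lit 0) (XT.nd (nat_lit 156) (nat_lit 912) (nat_lit 0) (XT.nd (nat_lit 78) (nat_lit 0) (nat_lit 0) (XT.lf (nat_lit 0) (nat_lit 5076640715) (nat_lit 912) (nat_lit 295900196) (nat_lit 988) (nat_lit 2478850997) (nat_lit 391) (nat_lit 5) (nat_lit 403) (nat_lit 5) (nat_lit 404) (nat_lit 5) (nat_lit 423) (nat_lit 413) (nat_lit 364)) (XT.lf (nat_lit 76) (nat_lit 4103278691) (nat_lit 0) (nat_lit 2711864384) (nat_lit 988) (nat_lit 1121690128) (nat_lit 392) (nat_lit 5) (nat_lit 391) (nat_lit 5) (nat_lit 404) (nat_lit 5) (nat_lit 424) (nat_lit 413) (nat_lit 363))) (XT.nd (nat_lit 78) (nat_lit 0) (nat_lit 0) (XT.lf (nat_lit 0) (nat_lit 527447572) (nat_lit 988) (nat_lit 7441726861) (nat_lit 1064) (nat_lit 56763807) (nat_lit 379) (nat_lit 5) (nat_lit 392) (nat_lit 5) (nat_lit 393) (nat_lit 5) (nat_lit 425) (nat_lit 413) (nat_lit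 362)) (XT.lf (nat_lit 0) (nat_lit 2219364717) (nat_lit 988) (nat_lit 2979844929) (nat_lit 1064) (nat_lit 2917700709) (nat_lit 379) (nat_lit 5) (nat_lit 392) (nat_lit 5) (nat_lit 393) (nat_lit 5) (nat_lit 426) (nat_lit 413) (nat_lit 361)))) (XT.nd (nat_lit 156) (nat_lit 988) (nat_lit 0) (XT.nd (nat_lit 78) (nat_lit 0) (nat_lit 76) (XT.lf (nat_lit 76) (nat_lit 1610380965) (nat_lit 0) (nat_lit 2318502811) (nat_lit 1064) (nat_lit 4282725055) (nat_lit 380) (nat_lit 5) (nat_lit 379) (nat_lit 5) (nat_lit 393) (nat_lit 5) (nat_lit 427) (nat_lit 413) (nat_lit 360)) (XT.lf (nat_lit 0) (nat_lit 5678847032) (nat_lit 988) (nat_lit 1953490894) (nat_lit 76) (nat_lit 677138035) (nat_lit 380) (nat_lit 5) (nat_lit 393) (nat_lit 5) (nat_lit 381) (nat_lit 5) (nat_lit 428) (nat_lit 413) (nat_lit 359))) (XT.nd (nat_lit 78) (nat_lit 76) (nat_lit 0) (XT.lf (nat_lit 0) (nat_lit 2828925258) (nat_lit 988) (nat_lit 4656450355) (nat_lit 1064)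 (nat_lit 924783882) (nat_lit 367) (nat_lit 5) (nat_lit 380) (nat_lit 5) (nat_lit 381) (nat_lit 5) (nat_lit 429) (nat_lit 413) (nat_lit 358)) (XT.lf (nat_lit 0) (nat_lit 790377214) (nat_lit 1064) (nat_lit 764154317) (nat_lit 76) (nat_lit 6959862837) (nat_lit 366) (nat_lit 5) (nat_lit 380) (nat_lit 5) (nat_lit 367) (nat_lit 5) (nat_lit 430) (nat_lit 413) (nat_lit 357))))))))
noncomputable def xc125 : XT := (XT.nd (nat_lit 2418) (nat_lit 5928) (nat_lit 0) (XT.nd (nat_lit 1170) (nat_lit 4560) (nat_lit 0) (XT.nd (nat_lit 546) (nat_lit 2432) (nat_lit 0) (XT.nd (nat_lit 234) (nat_lit 2736) (nat_lit 0) (XT.nd (nat_lit 78) (nat_lit 1140) (nat_lit 0) (XT.lf (nat_lit 0) (nat_lit 2551232692) (nat_lit 1140) (nat_lit 4403467338) (nat_lit 76) (nat_lit 1666398948) (nat_lit 352) (nat_lit 5) (nat_lit 367) (nat_lit 5) (nat_lit 353) (nat_lit 5) (nat_lit 431) (nat_lit 413) (nat_lit 356)) (XT.nd (nat_lit 78) (nat_lit 0) (nat_lit 0) (XT.lf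 (nat_lit 0) (nat_lit 592389981) (nat_lit 1140) (nat_lit 3758197710) (nat_lit 1216) (nat_lit 4380848939) (nat_lit 337) (nat_lit 5) (nat_lit 352) (nat_lit 5) (nat_lit 353) (nat_lit 5) (nat_lit 432) (nat_lit 413) (nat_lit 355)) (XT.lf (nat_lit 0) (nat_lit 5791292844) (nat_lit 1140) (nat_lit 414793858) (nat_lit 1216) (nat_lit 2638934867) (nat_lit 337) (nat_lit 5) (nat_lit 352) (nat_lit 5) (nat_lit 353) (nat_lit 5) (nat_lit 433) (nat_lit 413) (nat_lit 354)))) (XT.nd (nat_lit 156) (nat_lit 1444) (nat_lit 0) (XT.nd (nat_lit 78) (nat_lit 76) (nat_lit 0) (XT.lf (nat_lit 0) (nat_lit 2159880877) (nat_lit 1216) (nat_lit 5966225346) (nat_lit 1292) (nat_lit 835644164) (nat_lit 321) (nat_lit 5) (nat_lit 337) (nat_lit 5) (nat_lit 338) (nat_lit 5) (nat_lit 434) (nat_lit 413) (nat_lit 353)) (XT.lf (nat_lit 0) (nat_lit 996473922) (nat_lit 1292) (nat_lit 1540535611) (nat_lit 76) (nat_lit 6544838773) (nat_lit 320) (nat_lit 5) (nat_lit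 337) (nat_lit 5) (nat_lit 321) (nat_lit 5) (nat_lit 435) (nat_lit 413) (nat_lit 352))) (XT.nd (nat_lit 78) (nat_lit 608) (nat_lit 0) (XT.lf (nat_lit 0) (nat_lit 2874991068) (nat_lit 912) (nat_lit 5305383672) (nat_lit 76) (nat_lit 1024681105) (nat_lit 309) (nat_lit 5) (nat_lit 321) (nat_lit 5) (nat_lit 310) (nat_lit 5) (nat_lit 436) (nat_lit 413) (nat_lit 351)) (XT.lf (nat_lit 0) (nat_lit 143228152) (nat_lit 608) (nat_lit 4670262501) (nat_lit 684) (nat_lit 4518361925) (nat_lit 301) (nat_lit 5) (nat_lit 309) (nat_lit 5) (nat_lit 310) (nat_lit 5) (nat_lit 437) (nat_lit 413) (nat_lit 350))))) (XT.nd (nat_lit 312) (nat_lit 1216) (nat_lit 0) (XT.nd (nat_lit 156) (nat_lit 608) (nat_lit 0) (XT.nd (nat_lit 78) (nat_lit 608) (nat_lit 0) (XT.lf (nat_lit 0) (nat_lit 5826954256) (nat_lit 608) (nat_lit 998952796) (nat_lit 684) (nat_lit 2636075029) (nat_lit 301) (nat_lit 5) (nat_lit 309) (nat_lit 5) (nat_lit 310) (nat_lit 5) (nat_lit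 438) (nat_lit 413) (nat_lit 349)) (XT.lf (nat_lit 0) (nat_lit 2061529147) (nat_lit 608) (nat_lit 6847026364) (nat_lit 684) (nat_lit 687165846) (nat_lit 293) (nat_lit 5) (nat_lit 301) (nat_lit 5) (nat_lit 302) (nat_lit 5) (nat_lit 439) (nat_lit 413) (nat_lit 348))) (XT.nd (nat_lit 78) (nat_lit 532) (nat_lit 0) (XT.lf (nat_lit 0) (nat_lit 1305062825) (nat_lit 684) (nat_lit 1789308268) (nat_lit 76) (nat_lit 6638404144) (nat_lit 292) (nat_lit 5) (nat_lit 301) (nat_lit 5) (nat_lit 293) (nat_lit 5) (nat_lit 440) (nat_lit 413) (nat_lit 347)) (XT.lf (nat_lit 0) (nat_lit 3355868704) (nat_lit 608) (nat_lit 5715443432) (nat_lit 76) (nat_lit 802047371) (nat_lit 285) (nat_lit 5) (nat_lit 293) (nat_lit 5) (nat_lit 286) (nat_lit 5) (nat_lit 441) (nat_lit 413) (nat_lit 346)))) (XT.nd (nat_lit 156) (nat_lit 608) (nat_lit 0) (XT.nd (nat_lit 78) (nat_lit 0) (nat_lit 0) (XT.lf (nat_lit 0) (nat_lit 239405999) (nat_lit 608) (nat_lit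 5245358590) (nat_lit 684) (nat_lit 4532901227) (nat_lit 277) (nat_lit 5) (nat_lit 285) (nat_lit 5) (nat_lit 286) (nat_lit 5) (nat_lit 442) (nat_lit 413) (nat_lit 345)) (XT.lf (nat_lit 0) (nat_lit 6453358892) (nat_lit 608) (nat_lit 1247918551) (nat_lit 684) (nat_lit 2464312813) (nat_lit 277) (nat_lit 5) (nat_lit 285) (nat_lit 5) (nat_lit 286) (nat_lit 5) (nat_lit 443) (nat_lit 413) (nat_lit 344))) (XT.nd (nat_lit 78) (nat_lit 76) (nat_lit 0) (XT.lf (nat_lit 0) (nat_lit 2520785593) (nat_lit 532) (nat_lit 7482313305) (nat_lit 608) (nat_lit 314290534) (nat_lit 270) (nat_lit 5) (nat_lit 277) (nat_lit 5) (nat_lit 278) (nat_lit 5) (nat_lit 444) (nat_lit 413) (nat_lit 343)) (XT.lf (nat_lit 0) (nat_lit 1880654919) (nat_lit 608) (nat_lit 1523613411) (nat_lit 76) (nat_lit 7068402503) (nat_lit 269) (nat_lit 5) (nat_lit 277) (nat_lit 5) (nat_lit 270) (nat_lit 5) (nat_lit 445) (nat_lit 413) (nat_lit 342)))))) (XT.nd (nat_lit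 624) (nat_lit 2128) (nat_lit 0) (XT.nd (nat_lit 312) (nat_lit 912) (nat_lit 0) (XT.nd (nat_lit 156) (nat_lit 532) (nat_lit 0) (XT.nd (nat_lit 78) (nat_lit 456) (nat_lit 0) (XT.lf (nat_lit 0) (nat_lit 4159520282) (nat_lit 608) (nat_lit 5644021242) (nat_lit 76) (nat_lit 828245425) (nat_lit 262) (nat_lit 5) (nat_lit 270) (nat_lit 5) (nat_lit 263) (nat_lit 5) (nat_lit 446) (nat_lit 413) (nat_lit 341)) (XT.lf (nat_lit 0) (nat_lit 877405095) (nat_lit 456) (nat_lit 5655809474) (nat_lit 532) (nat_lit 4261669337) (nat_lit 256) (nat_lit 5) (nat_lit 262) (nat_lit 5) (nat_lit 263) (nat_lit 5) (nat_lit 447) (nat_lit 413) (nat_lit 340))) (XT.nd (nat_lit 78) (nat_lit 532) (nat_lit 0) (XT.lf (nat_lit 0) (nat_lit 7674165541) (nat_lit 456) (nat_lit 1330296092) (nat_lit 532) (nat_lit 1957623089) (nat_lit 256) (nat_lit 5) (nat_lit 262) (nat_lit 5) (nat_lit 263) (nat_lit 5) (nat_lit 448) (nat_lit 413) (nat_lit 339)) (XT.lf (nat_lit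 0) (nat_lit 442070191) (nat_lit 532) (nat_lit 7593767649) (nat_lit 76) (nat_lit 3097305995) (nat_lit 249) (nat_lit 5) (nat_lit 256) (nat_lit 5) (nat_lit 250) (nat_lit 5) (nat_lit 449) (nat_lit 413) (nat_lit 338)))) (XT.nd (nat_lit 156) (nat_lit 456) (nat_lit 0) (XT.nd (nat_lit 78) (nat_lit 456) (nat_lit 0) (XT.lf (nat_lit 0) (nat_lit 2891537117) (nat_lit 532) (nat_lit 738371039) (nat_lit 76) (nat_lit 7678332326) (nat_lit 249) (nat_lit 5) (nat_lit 256) (nat_lit 5) (nat_lit 250) (nat_lit 5) (nat_lit 450) (nat_lit 413) (nat_lit 337)) (XT.lf (nat_lit 0) (nat_lit 5456701244) (nat_lit 532) (nat_lit 5084048101) (nat_lit 76) (nat_lit 946575359) (nat_lit 243) (nat_lit 5) (nat_lit 250) (nat_lit 5) (nat_lit 244) (nat_lit 5) (nat_lit 451) (nat_lit 413) (nat_lit 336))) (XT.nd (nat_lit 78) (nat_lit 0) (nat_lit 0) (XT.lf (nat_lit 0) (nat_lit 2071733086) (nat_lit 456) (nat_lit 6062201835) (nat_lit 532) (nat_lit 3536794139) (nat_lit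 237) (nat_lit 5) (nat_lit 243) (nat_lit 5) (nat_lit 244) (nat_lit 5) (nat_lit 452) (nat_lit 413) (nat_lit 335)) (XT.lf (nat_lit 0) (nat_lit 9511320918) (nat_lit 456) (nat_lit 1403719993) (nat_lit 532) (nat_lit 943888986) (nat_lit 237) (nat_lit 5) (nat_lit 243) (nat_lit 5) (nat_lit 244) (nat_lit 5) (nat_lit 453) (nat_lit 413) (nat_lit 334))))) (XT.nd (nat_lit 312) (nat_lit 836) (nat_lit 0) (XT.nd (nat_lit 156) (nat_lit 380) (nat_lit 0) (XT.nd (nat_lit 78) (nat_lit 456) (nat_lit 0) (XT.lf (nat_lit 0) (nat_lit 1748787634) (nat_lit 456) (nat_lit 6913801969) (nat_lit 76) (nat_lit 3388019725) (nat_lit 231) (nat_lit 5) (nat_lit 237) (nat_lit 5) (nat_lit 232) (nat_lit 5) (nat_lit 454) (nat_lit 413) (nat_lit 333)) (XT.lf (nat_lit 0) (nat_lit 599778328) (nat_lit 456) (nat_lit 3920249282) (nat_lit 532) (nat_lit 7727229467) (nat_lit 225) (nat_lit 5) (nat_lit 231) (nat_lit 5) (nat_lit 232) (nat_lit 5) (nat_lit 455) (nat_lit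 413) (nat_lit 332))) (XT.nd (nat_lit 78) (nat_lit 380) (nat_lit 0) (XT.lf (nat_lit 0) (nat_lit 7427701146) (nat_lit 532) (nat_lit 4012548384) (nat_lit 76) (nat_lit 1007956736) (nat_lit 225) (nat_lit 5) (nat_lit 232) (nat_lit 5) (nat_lit 226) (nat_lit 5) (nat_lit 456) (nat_lit 413) (nat_lit 331)) (XT.lf (nat_lit 0) (nat_lit 3853471304) (nat_lit 380) (nat_lit 6619280380) (nat_lit 456) (nat_lit 2180928715) (nat_lit 220) (nat_lit 5) (nat_lit 225) (nat_lit 5) (nat_lit 226) (nat_lit 5) (nat_lit 457) (nat_lit 413) (nat_lit 330)))) (XT.nd (nat_lit 156) (nat_lit 380) (nat_lit 0) (XT.nd (nat_lit 78) (nat_lit 380) (nat_lit 0) (XT.lf (nat_lit 0) (nat_lit 744701416) (nat_lit 456) (nat_lit 868441450) (nat_lit 76) (nat_lit 11251500769) (nat_lit 219) (nat_lit 5) (nat_lit 225) (nat_lit 5) (nat_lit 220) (nat_lit 5) (nat_lit 458) (nat_lit 413) (nat_lit 329)) (XT.lf (nat_lit 0) (nat_lit 3795404683) (nat_lit 456) (nat_lit 5724401545)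 (nat_lit 76) (nat_lit 3559048376) (nat_lit 214) (nat_lit 5) (nat_lit 220) (nat_lit 5) (nat_lit 215) (nat_lit 5) (nat_lit 459) (nat_lit 413) (nat_lit 328))) (XT.nd (nat_lit 78) (nat_lit 0) (nat_lit 0) (XT.lf (nat_lit 0) (nat_lit 2542333179) (nat_lit 380) (nat_lit 4420086349) (nat_lit 456) (nat_lit 6336329435) (nat_lit 209) (nat_lit 5) (nat_lit 214) (nat_lit 5) (nat_lit 215) (nat_lit 5) (nat_lit 460) (nat_lit 413) (nat_lit 327)) (XT.lf (nat_lit 0) (nat_lit 10266650484) (nat_lit 456) (nat_lit 2391794838) (nat_lit 76) (nat_lit 865529414) (nat_lit 209) (nat_lit 5) (nat_lit 215) (nat_lit 5) (nat_lit 210) (nat_lit 5) (nat_lit 461) (nat_lit 413) (nat_lit 326))))))) (XT.nd (nat_lit 1248) (nat_lit 2660) (nat_lit 0) (XT.nd (nat_lit 624) (nat_lit 1520) (nat_lit 0) (XT.nd (nat_lit 312) (nat_lit 684) (nat_lit 0) (XT.nd (nat_lit 156) (nat_lit 304) (nat_lit 0) (XT.nd (nat_lit 78) (nat_lit 380) (nat_lit 0) (XT.lf (nat_lit 0) (nat_lit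 6269202859) (nat_lit 380) (nat_lit 7481360700) (nat_lit 456) (nat_lit 2977801) (nat_lit 204) (nat_lit 5) (nat_lit 209) (nat_lit 5) (nat_lit 210) (nat_lit 5) (nat_lit 462) (nat_lit 413) (nat_lit 325)) (XT.lf (nat_lit 0) (nat_lit 1207649773) (nat_lit 304) (nat_lit 2088665840) (nat_lit 380) (nat_lit 10692334249) (nat_lit 199) (nat_lit 5) (nat_lit 203) (nat_lit 5) (nat_lit 204) (nat_lit 5) (nat_lit 463) (nat_lit 413) (nat_lit 324))) (XT.nd (nat_lit 78) (nat_lit 304) (nat_lit 0) (XT.lf (nat_lit 0) (nat_lit 6781103230) (nat_lit 380) (nat_lit 3982359497) (nat_lit 76) (nat_lit 3464751420) (nat_lit 199) (nat_lit 5) (nat_lit 204) (nat_lit 5) (nat_lit 200) (nat_lit 5) (nat_lit 464) (nat_lit 413) (nat_lit 323)) (XT.lf (nat_lit 0) (nat_lit 5127043231) (nat_lit 304) (nat_lit 5290961530) (nat_lit 380) (nat_lit 4055534142) (nat_lit 195) (nat_lit 5) (nat_lit 199) (nat_lit 5) (nat_lit 200) (nat_lit 5) (nat_lit 465) (nat_lit 413)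 (nat_lit 322)))) (XT.nd (nat_lit 156) (nat_lit 304) (nat_lit 0) (XT.nd (nat_lit 78) (nat_lit 380) (nat_lit 0) (XT.lf (nat_lit 0) (nat_lit 14185799192) (nat_lit 380) (nat_lit 170185089) (nat_lit 76) (nat_lit 369586174) (nat_lit 195) (nat_lit 5) (nat_lit 200) (nat_lit 5) (nat_lit 196) (nat_lit 5) (nat_lit 466) (nat_lit 413) (nat_lit 321)) (XT.lf (nat_lit 0) (nat_lit 3143581668) (nat_lit 380) (nat_lit 5632134255) (nat_lit 76) (nat_lit 6204891570) (nat_lit 190) (nat_lit 5) (nat_lit 195) (nat_lit 5) (nat_lit 191) (nat_lit 5) (nat_lit 467) (nat_lit 413) (nat_lit 320))) (XT.nd (nat_lit 78) (nat_lit 0) (nat_lit 0) (XT.lf (nat_lit 0) (nat_lit 3952739102) (nat_lit 304) (nat_lit 2992187351) (nat_lit 380) (nat_lit 8297659235) (nat_lit 186) (nat_lit 5) (nat_lit 190) (nat_lit 5) (nat_lit 191) (nat_lit 5) (nat_lit 468) (nat_lit 413) (nat_lit 319)) (XT.lf (nat_lit 0) (nat_lit 10925073615) (nat_lit 380) (nat_lit 1631353428) (nat_lit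 76) (nat_lit 2954053883) (nat_lit 186) (nat_lit 5) (nat_lit 191) (nat_lit 5) (nat_lit 187) (nat_lit 5) (nat_lit 469) (nat_lit 413) (nat_lit 318))))) (XT.nd (nat_lit 312) (nat_lit 608) (nat_lit 0) (XT.nd (nat_lit 156) (nat_lit 228) (nat_lit 0) (XT.nd (nat_lit 78) (nat_lit 380) (nat_lit 0) (XT.lf (nat_lit 0) (nat_lit 8420332081) (nat_lit 304) (nat_lit 6694302338) (nat_lit 380) (nat_lit 669078870) (nat_lit 182) (nat_lit 5) (nat_lit 186) (nat_lit 5) (nat_lit 187) (nat_lit 5) (nat_lit 470) (nat_lit 413) (nat_lit 317)) (XT.lf (nat_lit 0) (nat_lit 2731812199) (nat_lit 304) (nat_lit 589707955) (nat_lit 380) (nat_lit 12741979498) (nat_lit 177) (nat_lit 5) (nat_lit 181) (nat_lit 5) (nat_lit 182) (nat_lit 5) (nat_lit 471) (nat_lit 413) (nat_lit 316))) (XT.nd (nat_lit 78) (nat_lit 228) (nat_lit 0) (XT.lf (nat_lit 0) (nat_lit 7527989477) (nat_lit 380) (nat_lit 3162321554) (nat_lit 76) (nat_lit 5657882331) (nat_lit 177) (nat_lit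 5) (nat_lit 182) (nat_lit 5) (nat_lit 178) (nat_lit 5) (nat_lit 472) (nat_lit 413) (nat_lit 315)) (XT.lf (nat_lit 0) (nat_lit 7420462806) (nat_lit 228) (nat_lit 4497684373) (nat_lit 304) (nat_lit 4721556359) (nat_lit 174) (nat_lit 5) (nat_lit 177) (nat_lit 5) (nat_lit 178) (nat_lit 5) (nat_lit 473) (nat_lit 413) (nat_lit 314)))) (XT.nd (nat_lit 156) (nat_lit 228) (nat_lit 0) (XT.nd (nat_lit 78) (nat_lit 76) (nat_lit 0) (XT.lf (nat_lit 0) (nat_lit 1425168801) (nat_lit 304) (nat_lit 15059370524) (nat_lit 380) (nat_lit 454084271) (nat_lit 170) (nat_lit 5) (nat_lit 174) (nat_lit 5) (nat_lit 175) (nat_lit 5) (nat_lit 474) (nat_lit 413) (nat_lit 313)) (XT.lf (nat_lit 0) (nat_lit 3983636376) (nat_lit 380) (nat_lit 4780048468) (nat_lit 76) (nat_lit 8478116171) (nat_lit 169) (nat_lit 5) (nat_lit 174) (nat_lit 5) (nat_lit 170) (nat_lit 5) (nat_lit 475) (nat_lit 413) (nat_lit 312))) (XT.nd (nat_lit 78) (nat_lit 0) (nat_lit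 0) (XT.lf (nat_lit 0) (nat_lit 6365083876) (nat_lit 228) (nat_lit 2222614671) (nat_lit 304) (nat_lit 8964970666) (nat_lit 166) (nat_lit 5) (nat_lit 169) (nat_lit 5) (nat_lit 170) (nat_lit 5) (nat_lit 476) (nat_lit 413) (nat_lit 311)) (XT.lf (nat_lit 0) (nat_lit 13403335822) (nat_lit 304) (nat_lit 2877954) (nat_lit 76) (nat_lit 4464446501) (nat_lit 166) (nat_lit 5) (nat_lit 170) (nat_lit 5) (nat_lit 167) (nat_lit 5) (nat_lit 477) (nat_lit 413) (nat_lit 310)))))) (XT.nd (nat_lit 624) (nat_lit 1216) (nat_lit 0) (XT.nd (nat_lit 312) (nat_lit 684) (nat_lit 0) (XT.nd (nat_lit 156) (nat_lit 228) (nat_lit 0) (XT.nd (nat_lit 78) (nat_lit 228) (nat_lit 0) (XT.lf (nat_lit 0) (nat_lit 279448814) (nat_lit 304) (nat_lit 6503145866) (nat_lit 76) (nat_lit 11412026463) (nat_lit 162) (nat_lit 5) (nat_lit 166) (nat_lit 5) (nat_lit 163) (nat_lit 5) (nat_lit 478) (nat_lit 413) (nat_lit 309)) (XT.lf (nat_lit 0) (nat_lit 5112342911) (nat_lit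 304) (nat_lit 13290173706) (nat_lit 76) (nat_lit 123452476) (nat_lit 159) (nat_lit 5) (nat_lit 163) (nat_lit 5) (nat_lit 160) (nat_lit 5) (nat_lit 479) (nat_lit 413) (nat_lit 308))) (XT.nd (nat_lit 78) (nat_lit 228) (nat_lit 0) (XT.lf (nat_lit 0) (nat_lit 10205761866) (nat_lit 304) (nat_lit 1502357149) (nat_lit 76) (nat_lit 7155672698) (nat_lit 159) (nat_lit 5) (nat_lit 163) (nat_lit 5) (nat_lit 160) (nat_lit 5) (nat_lit 480) (nat_lit 413) (nat_lit 307)) (XT.lf (nat_lit 0) (nat_lit 10821643595) (nat_lit 228) (nat_lit 4716950871) (nat_lit 304) (nat_lit 3670556573) (nat_lit 156) (nat_lit 5) (nat_lit 159) (nat_lit 5) (nat_lit 160) (nat_lit 5) (nat_lit 481) (nat_lit 413) (nat_lit 306)))) (XT.nd (nat_lit 156) (nat_lit 380) (nat_lit 0) (XT.nd (nat_lit 78) (nat_lit 0) (nat_lit 0) (XT.lf (nat_lit 0) (nat_lit 1498953357) (nat_lit 304) (nat_lit 15570589614) (nat_lit 76) (nat_lit 2493074695) (nat_lit 152) (nat_lit 5) (nat_lit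 156) (nat_lit 5) (nat_lit 153) (nat_lit 5) (nat_lit 482) (nat_lit 413) (nat_lit 305)) (XT.lf (nat_lit 0) (nat_lit 6864787424) (nat_lit 304) (nat_lit 3121953987) (nat_lit 76) (nat_lit 9935406545) (nat_lit 152) (nat_lit 5) (nat_lit 156) (nat_lit 5) (nat_lit 153) (nat_lit 5) (nat_lit 483) (nat_lit 413) (nat_lit 304))) (XT.nd (nat_lit 78) (nat_lit 152) (nat_lit 0) (XT.lf (nat_lit 0) (nat_lit 9864666274) (nat_lit 228) (nat_lit 2605032086) (nat_lit 304) (nat_lit 7820423056) (nat_lit 149) (nat_lit 5) (nat_lit 152) (nat_lit 5) (nat_lit 153) (nat_lit 5) (nat_lit 484) (nat_lit 413) (nat_lit 303)) (XT.lf (nat_lit 0) (nat_lit 2611207499) (nat_lit 152) (nat_lit 15719922379) (nat_lit 228) (nat_lit 2335353317) (nat_lit 147) (nat_lit 5) (nat_lit 149) (nat_lit 5) (nat_lit 150) (nat_lit 5) (nat_lit 485) (nat_lit 413) (nat_lit 302))))) (XT.nd (nat_lit 312) (nat_lit 760) (nat_lit 0) (XT.nd (nat_lit 156) (nat_lit 152) (nat_lit 0) (XT.nd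 (nat_lit 78) (nat_lit 228) (nat_lit 0) (XT.lf (nat_lit 0) (nat_lit 3365150379) (nat_lit 228) (nat_lit 4885127067) (nat_lit 76) (nat_lit 12799436255) (nat_lit 146) (nat_lit 5) (nat_lit 149) (nat_lit 5) (nat_lit 147) (nat_lit 5) (nat_lit 486) (nat_lit 413) (nat_lit 301)) (XT.lf (nat_lit 0) (nat_lit 8801433265) (nat_lit 228) (nat_lit 456828398) (nat_lit 304) (nat_lit 12183430150) (nat_lit 143) (nat_lit 5) (nat_lit 146) (nat_lit 5) (nat_lit 147) (nat_lit 5) (nat_lit 487) (nat_lit 413) (nat_lit 300))) (XT.nd (nat_lit 78) (nat_lit 0) (nat_lit 0) (XT.lf (nat_lit 0) (nat_lit 1075081072) (nat_lit 152) (nat_lit 14370036367) (nat_lit 228) (nat_lit 6396803572) (nat_lit 141) (nat_lit 5) (nat_lit 143) (nat_lit 5) (nat_lit 144) (nat_lit 5) (nat_lit 488) (nat_lit 413) (nat_lit 299)) (XT.lf (nat_lit 0) (nat_lit 15429230508) (nat_lit 152) (nat_lit 6504699819) (nat_lit 228) (nat_lit 316736481) (nat_lit 141) (nat_lit 5) (nat_lit 143)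 (nat_lit 5) (nat_lit 144) (nat_lit 5) (nat_lit 489) (nat_lit 413) (nat_lit 298)))) (XT.nd (nat_lit 156) (nat_lit 456) (nat_lit 0) (XT.nd (nat_lit 78) (nat_lit 0) (nat_lit 0) (XT.lf (nat_lit 0) (nat_lit 5903900568) (nat_lit 304) (nat_lit 15077813434) (nat_lit 76) (nat_lit 1686020891) (nat_lit 137) (nat_lit 5) (nat_lit 141) (nat_lit 5) (nat_lit 138) (nat_lit 5) (nat_lit 490) (nat_lit 413) (nat_lit 297)) (XT.lf (nat_lit 0) (nat_lit 12423386528) (nat_lit 304) (nat_lit 616773860) (nat_lit 76) (nat_lit 10053502920) (nat_lit 137) (nat_lit 5) (nat_lit 141) (nat_lit 5) (nat_lit 138) (nat_lit 5) (nat_lit 491) (nat_lit 413) (nat_lit 296))) (XT.nd (nat_lit 78) (nat_lit 304) (nat_lit 0) (XT.lf (nat_lit 0) (nat_lit 14535764290) (nat_lit 152) (nat_lit 4727494947) (nat_lit 228) (nat_lit 4265366513) (nat_lit 135) (nat_lit 5) (nat_lit 137) (nat_lit 5) (nat_lit 138) (nat_lit 5) (nat_lit 492) (nat_lit 413) (nat_lit 295)) (XT.lf (nat_lit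 0) (nat_lit 2375334016) (nat_lit 304) (nat_lit 17759464496) (nat_lit 76) (nat_lit 3838492087) (nat_lit 131) (nat_lit 5) (nat_lit 135) (nat_lit 5) (nat_lit 132) (nat_lit 5) (nat_lit 493) (nat_lit 413) (nat_lit 294))))))))
noncomputable def xc126 : XT := (XT.nd (nat_lit 2418) (nat_lit 2204) (nat_lit 0) (XT.nd (nat_lit 1170) (nat_lit 1520) (nat_lit 0) (XT.nd (nat_lit 546) (nat_lit 912) (nat_lit 0) (XT.nd (nat_lit 234) (nat_lit 456) (nat_lit 0) (XT.nd (nat_lit 78) (nat_lit 304) (nat_lit 0) (XT.lf (nat_lit 0) (nat_lit 9253238425) (nat_lit 304) (nat_lit 2483548428) (nat_lit 76) (nat_lit 12689530444) (nat_lit 131) (nat_lit 5) (nat_lit 135) (nat_lit 5) (nat_lit 132) (nat_lit 5) (nat_lit 494) (nat_lit 413) (nat_lit 293)) (XT.nd (nat_lit 78) (nat_lit 152) (nat_lit 0) (XT.lf (nat_lit 0) (nat_lit 13488515680) (nat_lit 152) (nat_lit 2964251575) (nat_lit 228) (nat_lit 8436709132) (nat_lit 129) (nat_lit 5) (nat_lit 131) (nat_lit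 5) (nat_lit 132) (nat_lit 5) (nat_lit 495) (nat_lit 413) (nat_lit 292)) (XT.lf (nat_lit 0) (nat_lit 4631223220) (nat_lit 152) (nat_lit 19350966867) (nat_lit 228) (nat_lit 1380923124) (nat_lit 127) (nat_lit 5) (nat_lit 129) (nat_lit 5) (nat_lit 130) (nat_lit 5) (nat_lit 496) (nat_lit 413) (nat_lit 291)))) (XT.nd (nat_lit 156) (nat_lit 228) (nat_lit 0) (XT.nd (nat_lit 78) (nat_lit 152) (nat_lit 0) (XT.lf (nat_lit 0) (nat_lit 5903019879) (nat_lit 228) (nat_lit 4581944863) (nat_lit 76) (nat_lit 15360356514) (nat_lit 126) (nat_lit 5) (nat_lit 129) (nat_lit 5) (nat_lit 127) (nat_lit 5) (nat_lit 497) (nat_lit 413) (nat_lit 290)) (XT.lf (nat_lit 0) (nat_lit 12253225000) (nat_lit 152) (nat_lit 1228436671) (nat_lit 228) (nat_lit 12856805812) (nat_lit 124) (nat_lit 5) (nat_lit 126) (nat_lit 5) (nat_lit 127) (nat_lit 5) (nat_lit 498) (nat_lit 413) (nat_lit 289))) (XT.nd (nat_lit 78) (nat_lit 76) (nat_lit 0) (XT.lf (nat_lit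 0) (nat_lit 2791763811) (nat_lit 152) (nat_lit 18635516905) (nat_lit 228) (nat_lit 5414939024) (nat_lit 122) (nat_lit 5) (nat_lit 124) (nat_lit 5) (nat_lit 125) (nat_lit 5) (nat_lit 499) (nat_lit 413) (nat_lit 288)) (XT.lf (nat_lit 0) (nat_lit 2348324398) (nat_lit 228) (nat_lit 6953006248) (nat_lit 76) (nat_lit 18054843692) (nat_lit 121) (nat_lit 5) (nat_lit 124) (nat_lit 5) (nat_lit 122) (nat_lit 5) (nat_lit 500) (nat_lit 413) (nat_lit 287))))) (XT.nd (nat_lit 312) (nat_lit 380) (nat_lit 0) (XT.nd (nat_lit 156) (nat_lit 228) (nat_lit 0) (XT.nd (nat_lit 78) (nat_lit 152) (nat_lit 0) (XT.lf (nat_lit 0) (nat_lit 10330481513) (nat_lit 228) (nat_lit 17095459777) (nat_lit 76) (nat_lit 455153132) (nat_lit 119) (nat_lit 5) (nat_lit 122) (nat_lit 5) (nat_lit 120) (nat_lit 5) (nat_lit 501) (nat_lit 413) (nat_lit 286)) (XT.lf (nat_lit 0) (nat_lit 675567340) (nat_lit 152) (nat_lit 18032732753) (nat_lit 228) (nat_lit 9708776274)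 (nat_lit 117) (nat_lit 5) (nat_lit 119) (nat_lit 5) (nat_lit 120) (nat_lit 5) (nat_lit 502) (nat_lit 413) (nat_lit 285))) (XT.nd (nat_lit 78) (nat_lit 228) (nat_lit 0) (XT.lf (nat_lit 0) (nat_lit 19306265386) (nat_lit 152) (nat_lit 8190679511) (nat_lit 228) (nat_lit 1467408282) (nat_lit 117) (nat_lit 5) (nat_lit 119) (nat_lit 5) (nat_lit 120) (nat_lit 5) (nat_lit 503) (nat_lit 413) (nat_lit 284)) (XT.lf (nat_lit 0) (nat_lit 6978477858) (nat_lit 228) (nat_lit 20490388871) (nat_lit 76) (nat_lit 2054328370) (nat_lit 114) (nat_lit 5) (nat_lit 117) (nat_lit 5) (nat_lit 115) (nat_lit 5) (nat_lit 504) (nat_lit 413) (nat_lit 283)))) (XT.nd (nat_lit 156) (nat_lit 228) (nat_lit 0) (XT.nd (nat_lit 78) (nat_lit 152) (nat_lit 0) (XT.lf (nat_lit 0) (nat_lit 15815004607) (nat_lit 228) (nat_lit 1733569902) (nat_lit 76) (nat_lit 12544789323) (nat_lit 114) (nat_lit 5) (nat_lit 117) (nat_lit 5) (nat_lit 115) (nat_lit 5) (nat_lit 505)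 (nat_lit 413) (nat_lit 282)) (XT.lf (nat_lit 0) (nat_lit 17912667495) (nat_lit 152) (nat_lit 7163689193) (nat_lit 228) (nat_lit 5599489195) (nat_lit 112) (nat_lit 5) (nat_lit 114) (nat_lit 5) (nat_lit 115) (nat_lit 5) (nat_lit 506) (nat_lit 413) (nat_lit 281))) (XT.nd (nat_lit 78) (nat_lit 0) (nat_lit 0) (XT.lf (nat_lit 0) (nat_lit 3382028311) (nat_lit 228) (nat_lit 24317863058) (nat_lit 76) (nat_lit 3571724489) (nat_lit 109) (nat_lit 5) (nat_lit 112) (nat_lit 5) (nat_lit 110) (nat_lit 5) (nat_lit 507) (nat_lit 413) (nat_lit 280)) (XT.lf (nat_lit 0) (nat_lit 12709144773) (nat_lit 228) (nat_lit 4508108088) (nat_lit 76) (nat_lit 14660682058) (nat_lit 109) (nat_lit 5) (nat_lit 112) (nat_lit 5) (nat_lit 110) (nat_lit 5) (nat_lit 508) (nat_lit 413) (nat_lit 279)))))) (XT.nd (nat_lit 624) (nat_lit 760) (nat_lit 0) (XT.nd (nat_lit 312) (nat_lit 304) (nat_lit 0) (XT.nd (nat_lit 156) (nat_lit 228) (nat_lit 0) (XT.nd (nat_lit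 78) (nat_lit 76) (nat_lit 0) (XT.lf (nat_lit 0) (nat_lit 16189628323) (nat_lit 152) (nat_lit 6270042721) (nat_lit 228) (nat_lit 10038464741) (nat_lit 107) (nat_lit 5) (nat_lit 109) (nat_lit 5) (nat_lit 110) (nat_lit 5) (nat_lit 509) (nat_lit 413) (nat_lit 278)) (XT.lf (nat_lit 0) (nat_lit 4481748489) (nat_lit 76) (nat_lit 28146149595) (nat_lit 152) (nat_lit 505289164) (nat_lit 106) (nat_lit 5) (nat_lit 107) (nat_lit 5) (nat_lit 108) (nat_lit 4) (nat_lit 510) (nat_lit 413) (nat_lit 277))) (XT.nd (nat_lit 78) (nat_lit 152) (nat_lit 0) (XT.lf (nat_lit 0) (nat_lit 9348561287) (nat_lit 152) (nat_lit 7727860786) (nat_lit 76) (nat_lit 16701689565) (nat_lit 105) (nat_lit 5) (nat_lit 107) (nat_lit 5) (nat_lit 106) (nat_lit 5) (nat_lit 511) (nat_lit 413) (nat_lit 276)) (XT.lf (nat_lit 0) (nat_lit 14071363196) (nat_lit 152) (nat_lit 5540152226) (nat_lit 228) (nat_lit 14827009043) (nat_lit 103) (nat_lit 5) (nat_lit 105) (nat_lit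 5) (nat_lit 106) (nat_lit 5) (nat_lit 512) (nat_lit 413) (nat_lit 275)))) (XT.nd (nat_lit 156) (nat_lit 152) (nat_lit 0) (XT.nd (nat_lit 78) (nat_lit 76) (nat_lit 0) (XT.lf (nat_lit 0) (nat_lit 1512670342) (nat_lit 76) (nat_lit 28812420857) (nat_lit 152) (nat_lit 4789376593) (nat_lit 102) (nat_lit 5) (nat_lit 103) (nat_lit 5) (nat_lit 104) (nat_lit 4) (nat_lit 513) (nat_lit 413) (nat_lit 274)) (XT.lf (nat_lit 0) (nat_lit 5692089828) (nat_lit 152) (nat_lit 11470045127) (nat_lit 76) (nat_lit 18639424438) (nat_lit 101) (nat_lit 5) (nat_lit 103) (nat_lit 5) (nat_lit 102) (nat_lit 5) (nat_lit 514) (nat_lit 413) (nat_lit 273))) (XT.nd (nat_lit 78) (nat_lit 0) (nat_lit 0) (XT.lf (nat_lit 0) (nat_lit 11481215891) (nat_lit 152) (nat_lit 5009659696) (nat_lit 228) (nat_lit 20013991555) (nat_lit 99) (nat_lit 5) (nat_lit 101) (nat_lit 5) (nat_lit 102) (nat_lit 5) (nat_lit 515) (nat_lit 413) (nat_lit 272)) (XT.lf (nat_lit 0)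 (nat_lit 27791567619) (nat_lit 228) (nat_lit 1964069361) (nat_lit 76) (nat_lit 7468298957) (nat_lit 99) (nat_lit 5) (nat_lit 102) (nat_lit 5) (nat_lit 100) (nat_lit 4) (nat_lit 516) (nat_lit 413) (nat_lit 271))))) (XT.nd (nat_lit 312) (nat_lit 380) (nat_lit 0) (XT.nd (nat_lit 156) (nat_lit 76) (nat_lit 0) (XT.nd (nat_lit 78) (nat_lit 152) (nat_lit 0) (XT.lf (nat_lit 0) (nat_lit 1692220264) (nat_lit 152) (nat_lit 15824185840) (nat_lit 76) (nat_lit 20440123696) (nat_lit 97) (nat_lit 5) (nat_lit 99) (nat_lit 5) (nat_lit 98) (nat_lit 5) (nat_lit 517) (nat_lit 413) (nat_lit 270)) (XT.lf (nat_lit 0) (nat_lit 8329866430) (nat_lit 152) (nat_lit 4720346695) (nat_lit 228) (nat_lit 25655409311) (nat_lit 95) (nat_lit 5) (nat_lit 97) (nat_lit 5) (nat_lit 98) (nat_lit 5) (nat_lit 518) (nat_lit 413) (nat_lit 269))) (XT.nd (nat_lit 78) (nat_lit 76) (nat_lit 0) (XT.lf (nat_lit 0) (nat_lit 24980815501) (nat_lit 228) (nat_lit 6042901370)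 (nat_lit 76) (nat_lit 8446514972) (nat_lit 95) (nat_lit 5) (nat_lit 98) (nat_lit 5) (nat_lit 96) (nat_lit 4) (nat_lit 519) (nat_lit 413) (nat_lit 268)) (XT.lf (nat_lit 0) (nat_lit 19330481009) (nat_lit 76) (nat_lit 18160898299) (nat_lit 152) (nat_lit 2759739007) (nat_lit 94) (nat_lit 5) (nat_lit 95) (nat_lit 5) (nat_lit 96) (nat_lit 4) (nat_lit 520) (nat_lit 413) (nat_lit 267)))) (XT.nd (nat_lit 156) (nat_lit 152) (nat_lit 0) (XT.nd (nat_lit 78) (nat_lit 0) (nat_lit 0) (XT.lf (nat_lit 0) (nat_lit 4513253539) (nat_lit 152) (nat_lit 4721186706) (nat_lit 228) (nat_lit 31815467577) (nat_lit 91) (nat_lit 5) (nat_lit 93) (nat_lit 5) (nat_lit 94) (nat_lit 5) (nat_lit 521) (nat_lit 413) (nat_lit 266)) (XT.lf (nat_lit 0) (nat_lit 21823539548) (nat_lit 228) (nat_lit 10864377539) (nat_lit 76) (nat_lit 9175207398) (nat_lit 91) (nat_lit 5) (nat_lit 94) (nat_lit 5) (nat_lit 92) (nat_lit 4) (nat_lit 522) (nat_lit 413) (nat_lit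 265))) (XT.nd (nat_lit 78) (nat_lit 76) (nat_lit 0) (XT.lf (nat_lit 0) (nat_lit 15820654049) (nat_lit 76) (nat_lit 19158315060) (nat_lit 152) (nat_lit 7716108893) (nat_lit 90) (nat_lit 5) (nat_lit 91) (nat_lit 5) (nat_lit 92) (nat_lit 4) (nat_lit 523) (nat_lit 413) (nat_lit 264)) (XT.lf (nat_lit 0) (nat_lit 4980592956) (nat_lit 152) (nat_lit 88081110) (nat_lit 76) (nat_lit 38478861585) (nat_lit 89) (nat_lit 5) (nat_lit 91) (nat_lit 5) (nat_lit 90) (nat_lit 5) (nat_lit 524) (nat_lit 413) (nat_lit 263))))))) (XT.nd (nat_lit 1248) (nat_lit 912) (nat_lit 0) (XT.nd (nat_lit 624) (nat_lit 532) (nat_lit 0) (XT.nd (nat_lit 312) (nat_lit 304) (nat_lit 0) (XT.nd (nat_lit 156) (nat_lit 228) (nat_lit 0) (XT.nd (nat_lit 78) (nat_lit 76) (nat_lit 0) (XT.lf (nat_lit 0) (nat_lit 18256053408) (nat_lit 228) (nat_lit 16557552397) (nat_lit 76) (nat_lit 9599081065) (nat_lit 87) (nat_lit 5) (nat_lit 90) (nat_lit 5) (nat_lit 88) (nat_lit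 4) (nat_lit 525) (nat_lit 413) (nat_lit 262)) (XT.lf (nat_lit 0) (nat_lit 11489844333) (nat_lit 76) (nat_lit 20591628879) (nat_lit 152) (nat_lit 13217768613) (nat_lit 86) (nat_lit 5) (nat_lit 87) (nat_lit 5) (nat_lit 88) (nat_lit 4) (nat_lit 526) (nat_lit 413) (nat_lit 261))) (XT.nd (nat_lit 78) (nat_lit 152) (nat_lit 0) (XT.lf (nat_lit 0) (nat_lit 266159907) (nat_lit 152) (nat_lit 5510873731) (nat_lit 76) (nat_lit 40430557449) (nat_lit 85) (nat_lit 5) (nat_lit 87) (nat_lit 5) (nat_lit 86) (nat_lit 5) (nat_lit 527) (nat_lit 413) (nat_lit 260)) (XT.lf (nat_lit 0) (nat_lit 14204310773) (nat_lit 228) (nat_lit 23272416032) (nat_lit 76) (nat_lit 9653076954) (nat_lit 83) (nat_lit 5) (nat_lit 86) (nat_lit 5) (nat_lit 84) (nat_lit 4) (nat_lit 528) (nat_lit 413) (nat_lit 259)))) (XT.nd (nat_lit 156) (nat_lit 228) (nat_lit 0) (XT.nd (nat_lit 78) (nat_lit 0) (nat_lit 0) (XT.lf (nat_lit 0) (nat_lit 6186281064) (nat_lit 76)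 (nat_lit 22537671297) (nat_lit 152) (nat_lit 19350830122) (nat_lit 82) (nat_lit 5) (nat_lit 83) (nat_lit 5) (nat_lit 84) (nat_lit 4) (nat_lit 529) (nat_lit 413) (nat_lit 258)) (XT.lf (nat_lit 0) (nat_lit 36987643141) (nat_lit 76) (nat_lit 6917130046) (nat_lit 152) (nat_lit 5136569737) (nat_lit 82) (nat_lit 5) (nat_lit 83) (nat_lit 5) (nat_lit 84) (nat_lit 4) (nat_lit 530) (nat_lit 413) (nat_lit 257))) (XT.nd (nat_lit 78) (nat_lit 0) (nat_lit 0) (XT.lf (nat_lit 0) (nat_lit 9582247410) (nat_lit 228) (nat_lit 31183273899) (nat_lit 76) (nat_lit 9260730485) (nat_lit 79) (nat_lit 5) (nat_lit 82) (nat_lit 5) (nat_lit 80) (nat_lit 4) (nat_lit 531) (nat_lit 413) (nat_lit 256)) (XT.lf (nat_lit 0) (nat_lit 24821584907) (nat_lit 228) (nat_lit 261790348) (nat_lit 76) (nat_lit 25950341138) (nat_lit 79) (nat_lit 5) (nat_lit 82) (nat_lit 5) (nat_lit 80) (nat_lit 4) (nat_lit 532) (nat_lit 413) (nat_lit 255))))) (XT.nd (nat_lit 312)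 (nat_lit 228) (nat_lit 0) (XT.nd (nat_lit 156) (nat_lit 76) (nat_lit 0) (XT.nd (nat_lit 78) (nat_lit 152) (nat_lit 0) (XT.lf (nat_lit 0) (nat_lit 32198332256) (nat_lit 76) (nat_lit 8620334219) (nat_lit 152) (nat_lit 11243721586) (nat_lit 78) (nat_lit 5) (nat_lit 79) (nat_lit 5) (nat_lit 80) (nat_lit 4) (nat_lit 533) (nat_lit 413) (nat_lit 254)) (XT.lf (nat_lit 0) (nat_lit 4289856913) (nat_lit 152) (nat_lit 40492665486) (nat_lit 76) (nat_lit 8332267080) (nat_lit 76) (nat_lit 5) (nat_lit 78) (nat_lit 5) (nat_lit 77) (nat_lit 4) (nat_lit 534) (nat_lit 413) (nat_lit 253))) (XT.nd (nat_lit 78) (nat_lit 76) (nat_lit 0) (XT.lf (nat_lit 0) (nat_lit 20342456605) (nat_lit 152) (nat_lit 7918657064) (nat_lit 76) (nat_lit 25925939552) (nat_lit 76) (nat_lit 5) (nat_lit 78) (nat_lit 5) (nat_lit 77) (nat_lit 4) (nat_lit 535) (nat_lit 413) (nat_lit 252)) (XT.lf (nat_lit 0) (nat_lit 26125545214) (nat_lit 76) (nat_lit 10993561301)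 (nat_lit 152) (nat_lit 18165104236) (nat_lit 75) (nat_lit 5) (nat_lit 76) (nat_lit 5) (nat_lit 77) (nat_lit 4) (nat_lit 536) (nat_lit 413) (nat_lit 251)))) (XT.nd (nat_lit 156) (nat_lit 76) (nat_lit 0) (XT.nd (nat_lit 78) (nat_lit 76) (nat_lit 0) (XT.lf (nat_lit 0) (nat_lit 4955284626) (nat_lit 76) (nat_lit 49628799985) (nat_lit 76) (nat_lit 1824647581) (nat_lit 74) (nat_lit 4) (nat_lit 75) (nat_lit 5) (nat_lit 75) (nat_lit 4) (nat_lit 537) (nat_lit 413) (nat_lit 250)) (XT.lf (nat_lit 0) (nat_lit 15110767618) (nat_lit 152) (nat_lit 17140639186) (nat_lit 76) (nat_lit 25299328106) (nat_lit 73) (nat_lit 5) (nat_lit 75) (nat_lit 5) (nat_lit 74) (nat_lit 4) (nat_lit 538) (nat_lit 413) (nat_lit 249))) (XT.nd (nat_lit 78) (nat_lit 0) (nat_lit 0) (XT.lf (nat_lit 0) (nat_lit 18528688781) (nat_lit 76) (nat_lit 14158602275) (nat_lit 152) (nat_lit 26034073138) (nat_lit 72) (nat_lit 5) (nat_lit 73) (nat_lit 5) (nat_lit 74) (nat_lit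 4) (nat_lit 539) (nat_lit 413) (nat_lit 248)) (XT.lf (nat_lit 0) (nat_lit 51000569314) (nat_lit 152) (nat_lit 4363579176) (nat_lit 0) (nat_lit 4556680130) (nat_lit 72) (nat_lit 5) (nat_lit 74) (nat_lit 4) (nat_lit 72) (nat_lit 4) (nat_lit 540) (nat_lit 413) (nat_lit 247)))))) (XT.nd (nat_lit 624) (nat_lit 304) (nat_lit 0) (XT.nd (nat_lit 312) (nat_lit 228) (nat_lit 0) (XT.nd (nat_lit 156) (nat_lit 152) (nat_lit 0) (XT.nd (nat_lit 78) (nat_lit 76) (nat_lit 0) (XT.lf (nat_lit 0) (nat_lit 8991059923) (nat_lit 152) (nat_lit 28202117468) (nat_lit 76) (nat_lit 23946968863) (nat_lit 70) (nat_lit 5) (nat_lit 72) (nat_lit 5) (nat_lit 71) (nat_lit 4) (nat_lit 541) (nat_lit 413) (nat_lit 246)) (XT.lf (nat_lit 0) (nat_lit 9126852568) (nat_lit 76) (nat_lit 18257683401) (nat_lit 152) (nat_lit 35005134732) (nat_lit 69) (nat_lit 5) (nat_lit 70) (nat_lit 5) (nat_lit 71) (nat_lit 4) (nat_lit 542) (nat_lit 413) (nat_lit 245))) (XT.nd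 (nat_lit 78) (nat_lit 152) (nat_lit 0) (XT.lf (nat_lit 0) (nat_lit 46621282322) (nat_lit 152) (nat_lit 15545039040) (nat_lit 0) (nat_lit 1501615573) (nat_lit 69) (nat_lit 5) (nat_lit 71) (nat_lit 4) (nat_lit 69) (nat_lit 4) (nat_lit 543) (nat_lit 413) (nat_lit 244)) (XT.lf (nat_lit 0) (nat_lit 1825667913) (nat_lit 152) (nat_lit 41422516770) (nat_lit 76) (nat_lit 21723846368) (nat_lit 67) (nat_lit 5) (nat_lit 69) (nat_lit 5) (nat_lit 68) (nat_lit 4) (nat_lit 544) (nat_lit 413) (nat_lit 243)))) (XT.nd (nat_lit 156) (nat_lit 152) (nat_lit 0) (XT.nd (nat_lit 78) (nat_lit 76) (nat_lit 0) (XT.lf (nat_lit 0) (nat_lit 21072193602) (nat_lit 152) (nat_lit 2360764657) (nat_lit 76) (nat_lit 42872706769) (nat_lit 67) (nat_lit 5) (nat_lit 69) (nat_lit 5) (nat_lit 68) (nat_lit 4) (nat_lit 545) (nat_lit 413) (nat_lit 242)) (XT.lf (nat_lit 0) (nat_lit 38611280116) (nat_lit 76) (nat_lit 2648345286) (nat_lit 152) (nat_lit 26408777341)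 (nat_lit 66) (nat_lit 5) (nat_lit 67) (nat_lit 5) (nat_lit 68) (nat_lit 4) (nat_lit 546) (nat_lit 413) (nat_lit 241))) (XT.nd (nat_lit 78) (nat_lit 76) (nat_lit 0) (XT.lf (nat_lit 0) (nat_lit 11824733741) (nat_lit 76) (nat_lit 50538383684) (nat_lit 76) (nat_lit 6699592076) (nat_lit 65) (nat_lit 4) (nat_lit 66) (nat_lit 5) (nat_lit 66) (nat_lit 4) (nat_lit 547) (nat_lit 413) (nat_lit 240)) (XT.lf (nat_lit 0) (nat_lit 13650382627) (nat_lit 152) (nat_lit 16136240300) (nat_lit 76) (nat_lit 40698852892) (nat_lit 64) (nat_lit 5) (nat_lit 66) (nat_lit 5) (nat_lit 65) (nat_lit 4) (nat_lit 548) (nat_lit 413) (nat_lit 239))))) (XT.nd (nat_lit 51948) (nat_lit 0) (nat_lit 25840) (XT.nd (nat_lit 156) (nat_lit 228) (nat_lit 0) (XT.nd (nat_lit 78) (nat_lit 0) (nat_lit 0) (XT.lf (nat_lit 0) (nat_lit 26637424685) (nat_lit 76) (nat_lit 8087423656) (nat_lit 152) (nat_lit 37216627427) (nat_lit 63) (nat_lit 5) (nat_lit 64) (nat_lit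 5) (nat_lit 65) (nat_lit 4) (nat_lit 549) (nat_lit 413) (nat_lit 238)) (XT.lf (nat_lit 0) (nat_lit 56725808387) (nat_lit 152) (nat_lit 2564496982) (nat_lit 0) (nat_lit 14142022559) (nat_lit 63) (nat_lit 5) (nat_lit 65) (nat_lit 4) (nat_lit 63) (nat_lit 4) (nat_lit 550) (nat_lit 413) (nat_lit 237))) (XT.nd (nat_lit 78) (nat_lit 76) (nat_lit 0) (XT.lf (nat_lit 0) (nat_lit 4815808831) (nat_lit 152) (nat_lit 32814557840) (nat_lit 76) (nat_lit 37321770323) (nat_lit 61) (nat_lit 5) (nat_lit 63) (nat_lit 5) (nat_lit 62) (nat_lit 4) (nat_lit 551) (nat_lit 413) (nat_lit 236)) (XT.lf (nat_lit 0) (nat_lit 11766289215) (nat_lit 76) (nat_lit 15013810786) (nat_lit 152) (nat_lit 49728515698) (nat_lit 60) (nat_lit 5) (nat_lit 61) (nat_lit 5) (nat_lit 62) (nat_lit 4) (nat_lit 552) (nat_lit 413) (nat_lit 235)))) (XT.nd (nat_lit 156) (nat_lit 0) (nat_lit 0) (XT.nd (nat_lit 78) (nat_lit 836) (nat_lit 0) (XT.lf (nat_lit 0) (nat_lit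 3196718785) (nat_lit 836) (nat_lit 219503800) (nat_lit 836) (nat_lit 219503800) (nat_lit 411) (nat_lit 3) (nat_lit 422) (nat_lit 3) (nat_lit 422) (nat_lit 5) (nat_lit 414) (nat_lit 414) (nat_lit 372)) (XT.lf (nat_lit 0) (nat_lit 754397463) (nat_lit 836) (nat_lit 4091711687) (nat_lit 912) (nat_lit 2485734175) (nat_lit 400) (nat_lit 5) (nat_lit 411) (nat_lit 3) (nat_lit 412) (nat_lit 5) (nat_lit 415) (nat_lit 414) (nat_lit 371))) (XT.nd (nat_lit 78) (nat_lit 0) (nat_lit 0) (XT.lf (nat_lit 0) (nat_lit 2359984319) (nat_lit 836) (nat_lit 397664631) (nat_lit 912) (nat_lit 4637883987) (nat_lit 400) (nat_lit 5) (nat_lit 411) (nat_lit 3) (nat_lit 412) (nat_lit 5) (nat_lit 416) (nat_lit 414) (nat_lit 370)) (XT.lf (nat_lit 76) (nat_lit 3441684671) (nat_lit 0) (nat_lit 544333844) (nat_lit 912) (nat_lit 3475949834) (nat_lit 401) (nat_lit 5) (nat_lit 400) (nat_lit 5) (nat_lit 412) (nat_lit 5) (nat_lit 417) (nat_lit 414) (nat_lit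 369))))))))
noncomputable def xc127 : XT := (XT.nd (nat_lit 2418) (nat_lit 7372) (nat_lit 0) (XT.nd (nat_lit 1170) (nat_lit 7296) (nat_lit 0) (XT.nd (nat_lit 546) (nat_lit 2812) (nat_lit 0) (XT.nd (nat_lit 234) (nat_lit 0) (nat_lit 76) (XT.nd (nat_lit 78) (nat_lit 912) (nat_lit 0) (XT.lf (nat_lit 0) (nat_lit 5622486162) (nat_lit 836) (nat_lit 177033035) (nat_lit 912) (nat_lit 1732031453) (nat_lit 401) (nat_lit 5) (nat_lit 412) (nat_lit 5) (nat_lit 413) (nat_lit 5) (nat_lit 418) (nat_lit 414) (nat_lit 368)) (XT.nd (nat_lit 78) (nat_lit 912) (nat_lit 0) (XT.lf (nat_lit 76) (nat_lit 3817213688) (nat_lit 0) (nat_lit 3475553386) (nat_lit 912) (nat_lit 310915072) (nat_lit 402) (nat_lit 5) (nat_lit 401) (nat_lit 5) (nat_lit 413) (nat_lit 5) (nat_lit 419) (nat_lit 414) (nat_lit 367)) (XT.lf (nat_lit 76) (nat_lit 214117743) (nat_lit 0) (nat_lit 1042302123) (nat_lit 988) (nat_lit 6422756941) (nat_lit 390) (nat_lit 5) (nat_lit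 389) (nat_lit 5) (nat_lit 402) (nat_lit 5) (nat_lit 420) (nat_lit 414) (nat_lit 366)))) (XT.nd (nat_lit 156) (nat_lit 0) (nat_lit 0) (XT.nd (nat_lit 78) (nat_lit 0) (nat_lit 0) (XT.lf (nat_lit 0) (nat_lit 2862171781) (nat_lit 912) (nat_lit 3396709800) (nat_lit 988) (nat_lit 1498036019) (nat_lit 390) (nat_lit 5) (nat_lit 402) (nat_lit 5) (nat_lit 403) (nat_lit 5) (nat_lit 421) (nat_lit 414) (nat_lit 365)) (XT.lf (nat_lit 76) (nat_lit 763579330) (nat_lit 0) (nat_lit 3716739046) (nat_lit 988) (nat_lit 3357748509) (nat_lit 391) (nat_lit 5) (nat_lit 390) (nat_lit 5) (nat_lit 403) (nat_lit 5) (nat_lit 422) (nat_lit 414) (nat_lit 364))) (XT.nd (nat_lit 78) (nat_lit 0) (nat_lit 76) (XT.lf (nat_lit 76) (nat_lit 5083955492) (nat_lit 0) (nat_lit 1045142532) (nat_lit 988) (nat_lit 1793092814) (nat_lit 391) (nat_lit 5) (nat_lit 390) (nat_lit 5) (nat_lit 403) (nat_lit 5) (nat_lit 423) (nat_lit 414) (nat_lit 363)) (XT.lf (nat_lit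 76) (nat_lit 1502987704) (nat_lit 0) (nat_lit 6304681851) (nat_lit 988) (nat_lit 201761865) (nat_lit 392) (nat_lit 5) (nat_lit 391) (nat_lit 5) (nat_lit 404) (nat_lit 5) (nat_lit 424) (nat_lit 414) (nat_lit 362))))) (XT.nd (nat_lit 312) (nat_lit 1976) (nat_lit 0) (XT.nd (nat_lit 156) (nat_lit 0) (nat_lit 76) (XT.nd (nat_lit 78) (nat_lit 0) (nat_lit 0) (XT.lf (nat_lit 0) (nat_lit 1398676658) (nat_lit 988) (nat_lit 2125941182) (nat_lit 1064) (nat_lit 4574577055) (nat_lit 378) (nat_lit 5) (nat_lit 391) (nat_lit 5) (nat_lit 392) (nat_lit 5) (nat_lit 425) (nat_lit 414) (nat_lit 361)) (XT.lf (nat_lit 76) (nat_lit 2396082300) (nat_lit 0) (nat_lit 621598575) (nat_lit 1064) (nat_lit 5174674769) (nat_lit 379) (nat_lit 5) (nat_lit 378) (nat_lit 5) (nat_lit 392) (nat_lit 5) (nat_lit 426) (nat_lit 414) (nat_lit 360))) (XT.nd (nat_lit 78) (nat_lit 0) (nat_lit 0) (XT.lf (nat_lit 0) (nat_lit 4682484193) (nat_lit 988) (nat_lit 1249162114)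 (nat_lit 1064) (nat_lit 2356750497) (nat_lit 379) (nat_lit 5) (nat_lit 392) (nat_lit 5) (nat_lit 393) (nat_lit 5) (nat_lit 427) (nat_lit 414) (nat_lit 359)) (XT.lf (nat_lit 76) (nat_lit 3460926653) (nat_lit 0) (nat_lit 2929884256) (nat_lit 1064) (nat_lit 1996703295) (nat_lit 380) (nat_lit 5) (nat_lit 379) (nat_lit 5) (nat_lit 393) (nat_lit 5) (nat_lit 428) (nat_lit 414) (nat_lit 358)))) (XT.nd (nat_lit 156) (nat_lit 1064) (nat_lit 0) (XT.nd (nat_lit 78) (nat_lit 1064) (nat_lit 0) (XT.lf (nat_lit 0) (nat_lit 8119942786) (nat_lit 988) (nat_lit 188905798) (nat_lit 76) (nat_lit 181672199) (nat_lit 380) (nat_lit 5) (nat_lit 393) (nat_lit 5) (nat_lit 381) (nat_lit 5) (nat_lit 429) (nat_lit 414) (nat_lit 357)) (XT.lf (nat_lit 0) (nat_lit 1310117568) (nat_lit 1064) (nat_lit 3889427629) (nat_lit 76) (nat_lit 3395761242) (nat_lit 366) (nat_lit 5) (nat_lit 380) (nat_lit 5) (nat_lit 367) (nat_lit 5) (nat_lit 430) (nat_lit 414)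 (nat_lit 356))) (XT.nd (nat_lit 78) (nat_lit 0) (nat_lit 0) (XT.lf (nat_lit 0) (nat_lit 1029205888) (nat_lit 1064) (nat_lit 1973472822) (nat_lit 1140) (nat_lit 5701382213) (nat_lit 352) (nat_lit 5) (nat_lit 366) (nat_lit 5) (nat_lit 367) (nat_lit 5) (nat_lit 431) (nat_lit 414) (nat_lit 355)) (XT.lf (nat_lit 0) (nat_lit 4756705802) (nat_lit 1140) (nat_lit 2689504906) (nat_lit 76) (nat_lit 1369548717) (nat_lit 352) (nat_lit 5) (nat_lit 367) (nat_lit 5) (nat_lit 353) (nat_lit 5) (nat_lit 432) (nat_lit 414) (nat_lit 354)))))) (XT.nd (nat_lit 624) (nat_lit 2736) (nat_lit 0) (XT.nd (nat_lit 312) (nat_lit 1292) (nat_lit 0) (XT.nd (nat_lit 156) (nat_lit 2128) (nat_lit 0) (XT.nd (nat_lit 78) (nat_lit 0) (nat_lit 0) (XT.lf (nat_lit 0) (nat_lit 2438129443) (nat_lit 1140) (nat_lit 4127475705) (nat_lit 1216) (nat_lit 2365138191) (nat_lit 337) (nat_lit 5) (nat_lit 352) (nat_lit 5) (nat_lit 353) (nat_lit 5) (nat_lit 433) (nat_lit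 414) (nat_lit 353)) (XT.lf (nat_lit 0) (nat_lit 7739757612) (nat_lit 1140) (nat_lit 676297929) (nat_lit 1216) (nat_lit 633504645) (nat_lit 337) (nat_lit 5) (nat_lit 352) (nat_lit 5) (nat_lit 353) (nat_lit 5) (nat_lit 434) (nat_lit 414) (nat_lit 352))) (XT.nd (nat_lit 78) (nat_lit 836) (nat_lit 0) (XT.lf (nat_lit 0) (nat_lit 1155790647) (nat_lit 1292) (nat_lit 5137847788) (nat_lit 76) (nat_lit 2877128626) (nat_lit 320) (nat_lit 5) (nat_lit 337) (nat_lit 5) (nat_lit 321) (nat_lit 5) (nat_lit 435) (nat_lit 414) (nat_lit 351)) (XT.lf (nat_lit 0) (nat_lit 223239579) (nat_lit 836) (nat_lit 2746739055) (nat_lit 912) (nat_lit 6325926717) (nat_lit 309) (nat_lit 5) (nat_lit 320) (nat_lit 5) (nat_lit 321) (nat_lit 5) (nat_lit 436) (nat_lit 414) (nat_lit 350)))) (XT.nd (nat_lit 156) (nat_lit 684) (nat_lit 0) (XT.nd (nat_lit 78) (nat_lit 608) (nat_lit 0) (XT.lf (nat_lit 0) (nat_lit 4862247089) (nat_lit 912) (nat_lit 3618364375)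 (nat_lit 76) (nat_lit 943478402) (nat_lit 309) (nat_lit 5) (nat_lit 321) (nat_lit 5) (nat_lit 310) (nat_lit 5) (nat_lit 437) (nat_lit 414) (nat_lit 349)) (XT.lf (nat_lit 0) (nat_lit 1975605992) (nat_lit 608) (nat_lit 4845499187) (nat_lit 684) (nat_lit 2734721764) (nat_lit 301) (nat_lit 5) (nat_lit 309) (nat_lit 5) (nat_lit 310) (nat_lit 5) (nat_lit 438) (nat_lit 414) (nat_lit 348))) (XT.nd (nat_lit 78) (nat_lit 684) (nat_lit 0) (XT.lf (nat_lit 0) (nat_lit 7776598802) (nat_lit 608) (nat_lit 1063027021) (nat_lit 684) (nat_lit 851865029) (nat_lit 301) (nat_lit 5) (nat_lit 309) (nat_lit 5) (nat_lit 310) (nat_lit 5) (nat_lit 439) (nat_lit 414) (nat_lit 347)) (XT.lf (nat_lit 0) (nat_lit 1097016572) (nat_lit 684) (nat_lit 5906114470) (nat_lit 76) (nat_lit 2826858770) (nat_lit 292) (nat_lit 5) (nat_lit 301) (nat_lit 5) (nat_lit 293) (nat_lit 5) (nat_lit 440) (nat_lit 414) (nat_lit 346))))) (XT.nd (nat_lit 312) (nat_lit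 1596) (nat_lit 0) (XT.nd (nat_lit 156) (nat_lit 608) (nat_lit 0) (XT.nd (nat_lit 78) (nat_lit 532) (nat_lit 0) (XT.lf (nat_lit 0) (nat_lit 3083036110) (nat_lit 684) (nat_lit 49492483) (nat_lit 76) (nat_lit 6839989811) (nat_lit 292) (nat_lit 5) (nat_lit 301) (nat_lit 5) (nat_lit 293) (nat_lit 5) (nat_lit 441) (nat_lit 414) (nat_lit 345)) (XT.lf (nat_lit 0) (nat_lit 5162471302) (nat_lit 608) (nat_lit 4060443588) (nat_lit 76) (nat_lit 895394356) (nat_lit 285) (nat_lit 5) (nat_lit 293) (nat_lit 5) (nat_lit 286) (nat_lit 5) (nat_lit 442) (nat_lit 414) (nat_lit 344))) (XT.nd (nat_lit 78) (nat_lit 0) (nat_lit 0) (XT.lf (nat_lit 0) (nat_lit 2055144825) (nat_lit 608) (nat_lit 5267787010) (nat_lit 684) (nat_lit 2944984109) (nat_lit 277) (nat_lit 5) (nat_lit 285) (nat_lit 5) (nat_lit 286) (nat_lit 5) (nat_lit 443) (nat_lit 414) (nat_lit 343)) (XT.lf (nat_lit 0) (nat_lit 8402839897) (nat_lit 608) (nat_lit 1154353838) (nat_lit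 684) (nat_lit 864548843) (nat_lit 277) (nat_lit 5) (nat_lit 285) (nat_lit 5) (nat_lit 286) (nat_lit 5) (nat_lit 444) (nat_lit 414) (nat_lit 342)))) (XT.nd (nat_lit 156) (nat_lit 456) (nat_lit 0) (XT.nd (nat_lit 78) (nat_lit 532) (nat_lit 0) (XT.lf (nat_lit 0) (nat_lit 1294404587) (nat_lit 608) (nat_lit 6209491365) (nat_lit 76) (nat_lit 3074689227) (nat_lit 269) (nat_lit 5) (nat_lit 277) (nat_lit 5) (nat_lit 270) (nat_lit 5) (nat_lit 445) (nat_lit 414) (nat_lit 341)) (XT.lf (nat_lit 0) (nat_lit 199521869) (nat_lit 532) (nat_lit 3304331700) (nat_lit 608) (nat_lit 7235930832) (nat_lit 262) (nat_lit 5) (nat_lit 269) (nat_lit 5) (nat_lit 270) (nat_lit 5) (nat_lit 446) (nat_lit 414) (nat_lit 340))) (XT.nd (nat_lit 78) (nat_lit 456) (nat_lit 0) (XT.lf (nat_lit 0) (nat_lit 5822421631) (nat_lit 608) (nat_lit 4021584903) (nat_lit 76) (nat_lit 1060529206) (nat_lit 262) (nat_lit 5) (nat_lit 270) (nat_lit 5) (nat_lit 263) (nat_lit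 5) (nat_lit 447) (nat_lit 414) (nat_lit 339)) (XT.lf (nat_lit 0) (nat_lit 2677917980) (nat_lit 456) (nat_lit 5561663886) (nat_lit 532) (nat_lit 2833777872) (nat_lit 256) (nat_lit 5) (nat_lit 262) (nat_lit 5) (nat_lit 263) (nat_lit 5) (nat_lit 448) (nat_lit 414) (nat_lit 338))))))) (XT.nd (nat_lit 1248) (nat_lit 3040) (nat_lit 0) (XT.nd (nat_lit 624) (nat_lit 1976) (nat_lit 0) (XT.nd (nat_lit 312) (nat_lit 1368) (nat_lit 0) (XT.nd (nat_lit 156) (nat_lit 456) (nat_lit 0) (XT.nd (nat_lit 78) (nat_lit 532) (nat_lit 0) (XT.lf (nat_lit 0) (nat_lit 9626905781) (nat_lit 456) (nat_lit 1114069176) (nat_lit 532) (nat_lit 505923098) (nat_lit 256) (nat_lit 5) (nat_lit 262) (nat_lit 5) (nat_lit 263) (nat_lit 5) (nat_lit 449) (nat_lit 414) (nat_lit 337)) (XT.lf (nat_lit 0) (nat_lit 1912524192) (nat_lit 532) (nat_lit 6045717969) (nat_lit 76) (nat_lit 3465125727) (nat_lit 249) (nat_lit 5) (nat_lit 256) (nat_lit 5) (nat_lit 250)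 (nat_lit 5) (nat_lit 450) (nat_lit 414) (nat_lit 336))) (XT.nd (nat_lit 78) (nat_lit 0) (nat_lit 0) (XT.lf (nat_lit 0) (nat_lit 982794238) (nat_lit 456) (nat_lit 3419685624) (nat_lit 532) (nat_lit 7202229017) (nat_lit 243) (nat_lit 5) (nat_lit 249) (nat_lit 5) (nat_lit 250) (nat_lit 5) (nat_lit 451) (nat_lit 414) (nat_lit 335)) (XT.lf (nat_lit 0) (nat_lit 7013406290) (nat_lit 532) (nat_lit 3490634211) (nat_lit 76) (nat_lit 1286062448) (nat_lit 243) (nat_lit 5) (nat_lit 250) (nat_lit 5) (nat_lit 244) (nat_lit 5) (nat_lit 452) (nat_lit 414) (nat_lit 334)))) (XT.nd (nat_lit 156) (nat_lit 836) (nat_lit 0) (XT.nd (nat_lit 78) (nat_lit 76) (nat_lit 0) (XT.lf (nat_lit 0) (nat_lit 3862703399) (nat_lit 456) (nat_lit 5884299105) (nat_lit 532) (nat_lit 2232727061) (nat_lit 237) (nat_lit 5) (nat_lit 243) (nat_lit 5) (nat_lit 244) (nat_lit 5) (nat_lit 453) (nat_lit 414) (nat_lit 333)) (XT.lf (nat_lit 0) (nat_lit 389147508) (nat_lit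 532) (nat_lit 703464375) (nat_lit 76) (nat_lit 11082047799) (nat_lit 236) (nat_lit 5) (nat_lit 243) (nat_lit 5) (nat_lit 237) (nat_lit 5) (nat_lit 454) (nat_lit 414) (nat_lit 332))) (XT.nd (nat_lit 78) (nat_lit 456) (nat_lit 0) (XT.lf (nat_lit 0) (nat_lit 3124312684) (nat_lit 456) (nat_lit 5396622432) (nat_lit 76) (nat_lit 3851455002) (nat_lit 231) (nat_lit 5) (nat_lit 237) (nat_lit 5) (nat_lit 232) (nat_lit 5) (nat_lit 455) (nat_lit 414) (nat_lit 331)) (XT.lf (nat_lit 0) (nat_lit 2325457494) (nat_lit 456) (nat_lit 3631111917) (nat_lit 532) (nat_lit 6619032831) (nat_lit 225) (nat_lit 5) (nat_lit 231) (nat_lit 5) (nat_lit 232) (nat_lit 5) (nat_lit 456) (nat_lit 414) (nat_lit 330))))) (XT.nd (nat_lit 312) (nat_lit 1140) (nat_lit 0) (XT.nd (nat_lit 156) (nat_lit 456) (nat_lit 0) (XT.nd (nat_lit 78) (nat_lit 380) (nat_lit 0) (XT.lf (nat_lit 0) (nat_lit 8917377668) (nat_lit 532) (nat_lit 2440838930) (nat_lit 76) (nat_lit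 1425387464) (nat_lit 225) (nat_lit 5) (nat_lit 232) (nat_lit 5) (nat_lit 226) (nat_lit 5) (nat_lit 457) (nat_lit 414) (nat_lit 329)) (XT.lf (nat_lit 0) (nat_lit 5644572271) (nat_lit 380) (nat_lit 6388414940) (nat_lit 456) (nat_lit 962880237) (nat_lit 220) (nat_lit 5) (nat_lit 225) (nat_lit 5) (nat_lit 226) (nat_lit 5) (nat_lit 458) (nat_lit 414) (nat_lit 328))) (XT.nd (nat_lit 78) (nat_lit 0) (nat_lit 0) (XT.lf (nat_lit 0) (nat_lit 771613360) (nat_lit 380) (nat_lit 1224624078) (nat_lit 456) (nat_lit 11217430281) (nat_lit 214) (nat_lit 5) (nat_lit 219) (nat_lit 5) (nat_lit 220) (nat_lit 5) (nat_lit 459) (nat_lit 414) (nat_lit 327)) (XT.lf (nat_lit 0) (nat_lit 5115335987) (nat_lit 456) (nat_lit 4229335667) (nat_lit 76) (nat_lit 4090328283) (nat_lit 214) (nat_lit 5) (nat_lit 220) (nat_lit 5) (nat_lit 215) (nat_lit 5) (nat_lit 460) (nat_lit 414) (nat_lit 326)))) (XT.nd (nat_lit 156) (nat_lit 760) (nat_lit 0) (XT.nd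 (nat_lit 78) (nat_lit 0) (nat_lit 0) (XT.lf (nat_lit 0) (nat_lit 4269059943) (nat_lit 380) (nat_lit 4089038308) (nat_lit 456) (nat_lit 5303971882) (nat_lit 209) (nat_lit 5) (nat_lit 214) (nat_lit 5) (nat_lit 215) (nat_lit 5) (nat_lit 461) (nat_lit 414) (nat_lit 325)) (XT.lf (nat_lit 0) (nat_lit 11731216047) (nat_lit 456) (nat_lit 830887349) (nat_lit 76) (nat_lit 1332857567) (nat_lit 209) (nat_lit 5) (nat_lit 215) (nat_lit 5) (nat_lit 210) (nat_lit 5) (nat_lit 462) (nat_lit 414) (nat_lit 324))) (XT.nd (nat_lit 78) (nat_lit 304) (nat_lit 0) (XT.lf (nat_lit 0) (nat_lit 1146718436) (nat_lit 456) (nat_lit 6069268559) (nat_lit 76) (nat_lit 6915635751) (nat_lit 203) (nat_lit 5) (nat_lit 209) (nat_lit 5) (nat_lit 204) (nat_lit 5) (nat_lit 463) (nat_lit 414) (nat_lit 323)) (XT.lf (nat_lit 0) (nat_lit 2867375658) (nat_lit 304) (nat_lit 1659674028) (nat_lit 380) (nat_lit 9847271357) (nat_lit 199) (nat_lit 5) (nat_lit 203)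 (nat_lit 5) (nat_lit 204) (nat_lit 5) (nat_lit 464) (nat_lit 414) (nat_lit 322)))))) (XT.nd (nat_lit 624) (nat_lit 1368) (nat_lit 0) (XT.nd (nat_lit 312) (nat_lit 988) (nat_lit 0) (XT.nd (nat_lit 156) (nat_lit 380) (nat_lit 0) (XT.nd (nat_lit 78) (nat_lit 304) (nat_lit 0) (XT.lf (nat_lit 0) (nat_lit 8088002989) (nat_lit 380) (nat_lit 2497210234) (nat_lit 76) (nat_lit 4036711332) (nat_lit 199) (nat_lit 5) (nat_lit 204) (nat_lit 5) (nat_lit 200) (nat_lit 5) (nat_lit 465) (nat_lit 414) (nat_lit 321)) (XT.lf (nat_lit 0) (nat_lit 6869743006) (nat_lit 304) (nat_lit 4947402122) (nat_lit 380) (nat_lit 3057970851) (nat_lit 195) (nat_lit 5) (nat_lit 199) (nat_lit 5) (nat_lit 200) (nat_lit 5) (nat_lit 466) (nat_lit 414) (nat_lit 320))) (XT.nd (nat_lit 78) (nat_lit 0) (nat_lit 0) (XT.lf (nat_lit 0) (nat_lit 538849935) (nat_lit 380) (nat_lit 13718330861) (nat_lit 76) (nat_lit 877768839) (nat_lit 190) (nat_lit 5) (nat_lit 195)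 (nat_lit 5) (nat_lit 191) (nat_lit 5) (nat_lit 467) (nat_lit 414) (nat_lit 319)) (XT.lf (nat_lit 0) (nat_lit 4291967779) (nat_lit 380) (nat_lit 4225878622) (nat_lit 76) (nat_lit 6880528511) (nat_lit 190) (nat_lit 5) (nat_lit 195) (nat_lit 5) (nat_lit 191) (nat_lit 5) (nat_lit 468) (nat_lit 414) (nat_lit 318)))) (XT.nd (nat_lit 156) (nat_lit 684) (nat_lit 0) (XT.nd (nat_lit 78) (nat_lit 0) (nat_lit 0) (XT.lf (nat_lit 0) (nat_lit 5631097606) (nat_lit 304) (nat_lit 2560547505) (nat_lit 380) (nat_lit 7477039403) (nat_lit 186) (nat_lit 5) (nat_lit 190) (nat_lit 5) (nat_lit 191) (nat_lit 5) (nat_lit 469) (nat_lit 414) (nat_lit 317)) (XT.lf (nat_lit 0) (nat_lit 12265818963) (nat_lit 380) (nat_lit 140543539) (nat_lit 76) (nat_lit 3539016245) (nat_lit 186) (nat_lit 5) (nat_lit 191) (nat_lit 5) (nat_lit 187) (nat_lit 5) (nat_lit 470) (nat_lit 414) (nat_lit 316))) (XT.nd (nat_lit 78) (nat_lit 304) (nat_lit 0) (XT.lf (nat_lit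 0) (nat_lit 332349128) (nat_lit 380) (nat_lit 6032915708) (nat_lit 76) (nat_lit 9861891739) (nat_lit 181) (nat_lit 5) (nat_lit 186) (nat_lit 5) (nat_lit 182) (nat_lit 5) (nat_lit 471) (nat_lit 414) (nat_lit 315)) (XT.lf (nat_lit 0) (nat_lit 4343364426) (nat_lit 304) (nat_lit 71196551) (nat_lit 380) (nat_lit 12101017270) (nat_lit 177) (nat_lit 5) (nat_lit 181) (nat_lit 5) (nat_lit 182) (nat_lit 5) (nat_lit 472) (nat_lit 414) (nat_lit 314))))) (XT.nd (nat_lit 312) (nat_lit 760) (nat_lit 0) (XT.nd (nat_lit 156) (nat_lit 380) (nat_lit 0) (XT.nd (nat_lit 78) (nat_lit 228) (nat_lit 0) (XT.lf (nat_lit 0) (nat_lit 8723294721) (nat_lit 380) (nat_lit 1748191252) (nat_lit 76) (nat_lit 6338045400) (nat_lit 177) (nat_lit 5) (nat_lit 182) (nat_lit 5) (nat_lit 178) (nat_lit 5) (nat_lit 473) (nat_lit 414) (nat_lit 313)) (XT.lf (nat_lit 0) (nat_lit 9137282522) (nat_lit 228) (nat_lit 4094000991) (nat_lit 304) (nat_lit 3878920243)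 (nat_lit 174) (nat_lit 5) (nat_lit 177) (nat_lit 5) (nat_lit 178) (nat_lit 5) (nat_lit 474) (nat_lit 414) (nat_lit 312))) (XT.nd (nat_lit 78) (nat_lit 0) (nat_lit 0) (XT.lf (nat_lit 0) (nat_lit 498052442) (nat_lit 380) (nat_lit 14452462257) (nat_lit 76) (nat_lit 2467681702) (nat_lit 169) (nat_lit 5) (nat_lit 174) (nat_lit 5) (nat_lit 170) (nat_lit 5) (nat_lit 475) (nat_lit 414) (nat_lit 311)) (XT.lf (nat_lit 0) (nat_lit 5031914980) (nat_lit 380) (nat_lit 3445876817) (nat_lit 76) (nat_lit 9253378998) (nat_lit 169) (nat_lit 5) (nat_lit 174) (nat_lit 5) (nat_lit 170) (nat_lit 5) (nat_lit 476) (nat_lit 414) (nat_lit 310)))) (XT.nd (nat_lit 156) (nat_lit 304) (nat_lit 0) (XT.nd (nat_lit 78) (nat_lit 228) (nat_lit 0) (XT.lf (nat_lit 0) (nat_lit 8019123487) (nat_lit 228) (nat_lit 1741988078) (nat_lit 304) (nat_lit 8290643713) (nat_lit 166) (nat_lit 5) (nat_lit 169) (nat_lit 5) (nat_lit 170) (nat_lit 5) (nat_lit 477) (nat_lit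 414) (nat_lit 309)) (XT.lf (nat_lit 0) (nat_lit 1467734825) (nat_lit 228) (nat_lit 13246026431) (nat_lit 304) (nat_lit 3665749118) (nat_lit 163) (nat_lit 5) (nat_lit 166) (nat_lit 5) (nat_lit 167) (nat_lit 5) (nat_lit 478) (nat_lit 414) (nat_lit 308))) (XT.nd (nat_lit 78) (nat_lit 228) (nat_lit 0) (XT.lf (nat_lit 0) (nat_lit 1178480425) (nat_lit 304) (nat_lit 5252575292) (nat_lit 76) (nat_lit 12282665809) (nat_lit 162) (nat_lit 5) (nat_lit 166) (nat_lit 5) (nat_lit 163) (nat_lit 5) (nat_lit 479) (nat_lit 414) (nat_lit 307)) (XT.lf (nat_lit 0) (nat_lit 6149496520) (nat_lit 304) (nat_lit 12236330885) (nat_lit 76) (nat_lit 669389003) (nat_lit 159) (nat_lit 5) (nat_lit 163) (nat_lit 5) (nat_lit 160) (nat_lit 5) (nat_lit 480) (nat_lit 414) (nat_lit 306))))))))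
noncomputable def xc128 : XT := (XT.nd (nat_lit 2418) (nat_lit 2660) (nat_lit 0) (XT.nd (nat_lit 1170) (nat_lit 1976) (nat_lit 0) (XT.nd (nat_lit 546) (nat_lit 1140) (nat_lit 0) (XT.nd (nat_lit 234) (nat_lit 456) (nat_lit 0) (XT.nd (nat_lit 78) (nat_lit 532) (nat_lit 0) (XT.lf (nat_lit 0) (nat_lit 11369976783) (nat_lit 304) (nat_lit 137187056) (nat_lit 76) (nat_lit 7896782638) (nat_lit 159) (nat_lit 5) (nat_lit 163) (nat_lit 5) (nat_lit 160) (nat_lit 5) (nat_lit 481) (nat_lit 414) (nat_lit 305)) (XT.nd (nat_lit 78) (nat_lit 304) (nat_lit 0) (XT.lf (nat_lit 0) (nat_lit 12542707821) (nat_lit 228) (nat_lit 4308518218) (nat_lit 304) (nat_lit 2908788109) (nat_lit 156) (nat_lit 5) (nat_lit 159) (nat_lit 5) (nat_lit 160) (nat_lit 5) (nat_lit 482) (nat_lit 414) (nat_lit 304)) (XT.lf (nat_lit 0) (nat_lit 2392694191) (nat_lit 304) (nat_lit 14618146526) (nat_lit 76) (nat_lit 3113176089) (nat_lit 152) (nat_lit 5) (nat_lit 156)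 (nat_lit 5) (nat_lit 153) (nat_lit 5) (nat_lit 483) (nat_lit 414) (nat_lit 303)))) (XT.nd (nat_lit 156) (nat_lit 228) (nat_lit 0) (XT.nd (nat_lit 78) (nat_lit 228) (nat_lit 0) (XT.lf (nat_lit 0) (nat_lit 7894781759) (nat_lit 304) (nat_lit 1837398260) (nat_lit 76) (nat_lit 10762895104) (nat_lit 152) (nat_lit 5) (nat_lit 156) (nat_lit 5) (nat_lit 153) (nat_lit 5) (nat_lit 484) (nat_lit 414) (nat_lit 302)) (XT.lf (nat_lit 0) (nat_lit 11525308704) (nat_lit 228) (nat_lit 2131648198) (nat_lit 304) (nat_lit 7217457839) (nat_lit 149) (nat_lit 5) (nat_lit 152) (nat_lit 5) (nat_lit 153) (nat_lit 5) (nat_lit 485) (nat_lit 414) (nat_lit 301))) (XT.nd (nat_lit 78) (nat_lit 76) (nat_lit 0) (XT.lf (nat_lit 0) (nat_lit 4059788019) (nat_lit 152) (nat_lit 15629077752) (nat_lit 228) (nat_lit 1573363015) (nat_lit 147) (nat_lit 5) (nat_lit 149) (nat_lit 5) (nat_lit 150) (nat_lit 5) (nat_lit 486) (nat_lit 414) (nat_lit 300)) (XT.lf (nat_lit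 0) (nat_lit 4258157892) (nat_lit 228) (nat_lit 3685569211) (nat_lit 76) (nat_lit 13713702425) (nat_lit 146) (nat_lit 5) (nat_lit 149) (nat_lit 5) (nat_lit 147) (nat_lit 5) (nat_lit 487) (nat_lit 414) (nat_lit 299))))) (XT.nd (nat_lit 312) (nat_lit 456) (nat_lit 0) (XT.nd (nat_lit 156) (nat_lit 304) (nat_lit 0) (XT.nd (nat_lit 78) (nat_lit 152) (nat_lit 0) (XT.lf (nat_lit 0) (nat_lit 10318580431) (nat_lit 304) (nat_lit 11663858968) (nat_lit 76) (nat_lit 79012454) (nat_lit 143) (nat_lit 5) (nat_lit 147) (nat_lit 5) (nat_lit 144) (nat_lit 5) (nat_lit 488) (nat_lit 414) (nat_lit 298)) (XT.lf (nat_lit 0) (nat_lit 2445171863) (nat_lit 152) (nat_lit 14240328123) (nat_lit 228) (nat_lit 5788354593) (nat_lit 141) (nat_lit 5) (nat_lit 143) (nat_lit 5) (nat_lit 144) (nat_lit 5) (nat_lit 489) (nat_lit 414) (nat_lit 297))) (XT.nd (nat_lit 78) (nat_lit 228) (nat_lit 0) (XT.lf (nat_lit 0) (nat_lit 442006459) (nat_lit 228) (nat_lit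 5708895873) (nat_lit 76) (nat_lit 16744509758) (nat_lit 140) (nat_lit 5) (nat_lit 143) (nat_lit 5) (nat_lit 141) (nat_lit 5) (nat_lit 490) (nat_lit 414) (nat_lit 296)) (XT.lf (nat_lit 0) (nat_lit 6838490497) (nat_lit 304) (nat_lit 14211682220) (nat_lit 76) (nat_lit 2274857964) (nat_lit 137) (nat_lit 5) (nat_lit 141) (nat_lit 5) (nat_lit 138) (nat_lit 5) (nat_lit 491) (nat_lit 414) (nat_lit 295)))) (XT.nd (nat_lit 156) (nat_lit 304) (nat_lit 0) (XT.nd (nat_lit 78) (nat_lit 0) (nat_lit 0) (XT.lf (nat_lit 0) (nat_lit 657619147) (nat_lit 152) (nat_lit 12880201008) (nat_lit 228) (nat_lit 10226389372) (nat_lit 135) (nat_lit 5) (nat_lit 137) (nat_lit 5) (nat_lit 138) (nat_lit 5) (nat_lit 492) (nat_lit 414) (nat_lit 294)) (XT.lf (nat_lit 0) (nat_lit 16239351280) (nat_lit 152) (nat_lit 4327980723) (nat_lit 228) (nat_lit 3645355891) (nat_lit 135) (nat_lit 5) (nat_lit 137) (nat_lit 5) (nat_lit 138) (nat_lit 5) (nat_lit 493)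 (nat_lit 414) (nat_lit 293))) (XT.nd (nat_lit 78) (nat_lit 0) (nat_lit 0) (XT.lf (nat_lit 0) (nat_lit 3176055329) (nat_lit 304) (nat_lit 17006202274) (nat_lit 76) (nat_lit 4488337151) (nat_lit 131) (nat_lit 5) (nat_lit 135) (nat_lit 5) (nat_lit 132) (nat_lit 5) (nat_lit 494) (nat_lit 414) (nat_lit 292)) (XT.lf (nat_lit 0) (nat_lit 10239050425) (nat_lit 304) (nat_lit 1309466378) (nat_lit 76) (nat_lit 13589333154) (nat_lit 131) (nat_lit 5) (nat_lit 135) (nat_lit 5) (nat_lit 132) (nat_lit 5) (nat_lit 495) (nat_lit 414) (nat_lit 291)))))) (XT.nd (nat_lit 624) (nat_lit 912) (nat_lit 0) (XT.nd (nat_lit 312) (nat_lit 532) (nat_lit 0) (XT.nd (nat_lit 156) (nat_lit 228) (nat_lit 0) (XT.nd (nat_lit 78) (nat_lit 152) (nat_lit 0) (XT.lf (nat_lit 0) (nat_lit 15129518589) (nat_lit 152) (nat_lit 2516303441) (nat_lit 228) (nat_lit 7969344386) (nat_lit 129) (nat_lit 5) (nat_lit 131) (nat_lit 5) (nat_lit 132) (nat_lit 5) (nat_lit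 496) (nat_lit 414) (nat_lit 290)) (XT.lf (nat_lit 0) (nat_lit 6010064556) (nat_lit 152) (nat_lit 19387619213) (nat_lit 228) (nat_lit 705432184) (nat_lit 127) (nat_lit 5) (nat_lit 129) (nat_lit 5) (nat_lit 130) (nat_lit 5) (nat_lit 497) (nat_lit 414) (nat_lit 289))) (XT.nd (nat_lit 78) (nat_lit 152) (nat_lit 0) (XT.lf (nat_lit 0) (nat_lit 6762565785) (nat_lit 228) (nat_lit 3502020846) (nat_lit 76) (nat_lit 16335611351) (nat_lit 126) (nat_lit 5) (nat_lit 129) (nat_lit 5) (nat_lit 127) (nat_lit 5) (nat_lit 498) (nat_lit 414) (nat_lit 288)) (XT.lf (nat_lit 0) (nat_lit 13826268992) (nat_lit 152) (nat_lit 734007997) (nat_lit 228) (nat_lit 12548110573) (nat_lit 124) (nat_lit 5) (nat_lit 126) (nat_lit 5) (nat_lit 127) (nat_lit 5) (nat_lit 499) (nat_lit 414) (nat_lit 287)))) (XT.nd (nat_lit 156) (nat_lit 304) (nat_lit 0) (XT.nd (nat_lit 78) (nat_lit 76) (nat_lit 0) (XT.lf (nat_lit 0) (nat_lit 4084124494) (nat_lit 152) (nat_lit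 18657080358) (nat_lit 228) (nat_lit 4886139589) (nat_lit 122) (nat_lit 5) (nat_lit 124) (nat_lit 5) (nat_lit 125) (nat_lit 5) (nat_lit 500) (nat_lit 414) (nat_lit 286)) (XT.lf (nat_lit 0) (nat_lit 3076792456) (nat_lit 228) (nat_lit 5975086761) (nat_lit 76) (nat_lit 19105231582) (nat_lit 121) (nat_lit 5) (nat_lit 124) (nat_lit 5) (nat_lit 122) (nat_lit 5) (nat_lit 501) (nat_lit 414) (nat_lit 285))) (XT.nd (nat_lit 78) (nat_lit 152) (nat_lit 0) (XT.lf (nat_lit 0) (nat_lit 11295586375) (nat_lit 228) (nat_lit 16418978005) (nat_lit 76) (nat_lit 983299182) (nat_lit 119) (nat_lit 5) (nat_lit 122) (nat_lit 5) (nat_lit 120) (nat_lit 5) (nat_lit 502) (nat_lit 414) (nat_lit 284)) (XT.lf (nat_lit 0) (nat_lit 1873519675) (nat_lit 152) (nat_lit 18043457253) (nat_lit 228) (nat_lit 9333181147) (nat_lit 117) (nat_lit 5) (nat_lit 119) (nat_lit 5) (nat_lit 120) (nat_lit 5) (nat_lit 503) (nat_lit 414) (nat_lit 283))))) (XT.nd (nat_lit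 312) (nat_lit 532) (nat_lit 0) (XT.nd (nat_lit 156) (nat_lit 152) (nat_lit 0) (XT.nd (nat_lit 78) (nat_lit 228) (nat_lit 0) (XT.lf (nat_lit 0) (nat_lit 21028837148) (nat_lit 152) (nat_lit 7921586806) (nat_lit 228) (nat_lit 863995176) (nat_lit 117) (nat_lit 5) (nat_lit 119) (nat_lit 5) (nat_lit 120) (nat_lit 5) (nat_lit 504) (nat_lit 414) (nat_lit 282)) (XT.lf (nat_lit 0) (nat_lit 7820121191) (nat_lit 228) (nat_lit 19946555986) (nat_lit 76) (nat_lit 2623238014) (nat_lit 114) (nat_lit 5) (nat_lit 117) (nat_lit 5) (nat_lit 115) (nat_lit 5) (nat_lit 505) (nat_lit 414) (nat_lit 281))) (XT.nd (nat_lit 78) (nat_lit 152) (nat_lit 0) (XT.lf (nat_lit 0) (nat_lit 16903327559) (nat_lit 228) (nat_lit 660776464) (nat_lit 76) (nat_lit 13413637657) (nat_lit 114) (nat_lit 5) (nat_lit 117) (nat_lit 5) (nat_lit 115) (nat_lit 5) (nat_lit 506) (nat_lit 414) (nat_lit 280)) (XT.lf (nat_lit 0) (nat_lit 19563820598) (nat_lit 152) (nat_lit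 6871526080) (nat_lit 228) (nat_lit 5142566918) (nat_lit 112) (nat_lit 5) (nat_lit 114) (nat_lit 5) (nat_lit 115) (nat_lit 5) (nat_lit 507) (nat_lit 414) (nat_lit 279)))) (XT.nd (nat_lit 156) (nat_lit 304) (nat_lit 0) (XT.nd (nat_lit 78) (nat_lit 0) (nat_lit 0) (XT.lf (nat_lit 0) (nat_lit 4093969549) (nat_lit 228) (nat_lit 23919186519) (nat_lit 76) (nat_lit 4178287555) (nat_lit 109) (nat_lit 5) (nat_lit 112) (nat_lit 5) (nat_lit 110) (nat_lit 5) (nat_lit 508) (nat_lit 414) (nat_lit 278)) (XT.lf (nat_lit 0) (nat_lit 13683118523) (nat_lit 228) (nat_lit 3547999456) (nat_lit 76) (nat_lit 15585367889) (nat_lit 109) (nat_lit 5) (nat_lit 112) (nat_lit 5) (nat_lit 110) (nat_lit 5) (nat_lit 509) (nat_lit 414) (nat_lit 277))) (XT.nd (nat_lit 78) (nat_lit 152) (nat_lit 0) (XT.lf (nat_lit 0) (nat_lit 17759930303) (nat_lit 152) (nat_lit 5959393154) (nat_lit 228) (nat_lit 9736174594) (nat_lit 107) (nat_lit 5) (nat_lit 109) (nat_lit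 5) (nat_lit 110) (nat_lit 5) (nat_lit 510) (nat_lit 414) (nat_lit 276)) (XT.lf (nat_lit 0) (nat_lit 79393254) (nat_lit 152) (nat_lit 28407595760) (nat_lit 76) (nat_lit 5622647783) (nat_lit 105) (nat_lit 5) (nat_lit 107) (nat_lit 5) (nat_lit 106) (nat_lit 5) (nat_lit 511) (nat_lit 414) (nat_lit 275))))))) (XT.nd (nat_lit 1170) (nat_lit 1292) (nat_lit 0) (XT.nd (nat_lit 546) (nat_lit 760) (nat_lit 0) (XT.nd (nat_lit 234) (nat_lit 380) (nat_lit 0) (XT.nd (nat_lit 78) (nat_lit 228) (nat_lit 0) (XT.lf (nat_lit 0) (nat_lit 10201528108) (nat_lit 152) (nat_lit 6893305057) (nat_lit 76) (nat_lit 17679441090) (nat_lit 105) (nat_lit 5) (nat_lit 107) (nat_lit 5) (nat_lit 106) (nat_lit 5) (nat_lit 512) (nat_lit 414) (nat_lit 274)) (XT.nd (nat_lit 78) (nat_lit 76) (nat_lit 0) (XT.lf (nat_lit 0) (nat_lit 15549440826) (nat_lit 152) (nat_lit 5216405303) (nat_lit 228) (nat_lit 14688849236) (nat_lit 103) (nat_lit 5) (nat_lit 105) (nat_lit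 5) (nat_lit 106) (nat_lit 5) (nat_lit 513) (nat_lit 414) (nat_lit 273)) (XT.lf (nat_lit 0) (nat_lit 2615789641) (nat_lit 76) (nat_lit 29183294705) (nat_lit 152) (nat_lit 4351885146) (nat_lit 102) (nat_lit 5) (nat_lit 103) (nat_lit 5) (nat_lit 104) (nat_lit 4) (nat_lit 514) (nat_lit 414) (nat_lit 272)))) (XT.nd (nat_lit 156) (nat_lit 152) (nat_lit 0) (XT.nd (nat_lit 78) (nat_lit 152) (nat_lit 0) (XT.lf (nat_lit 0) (nat_lit 6416087447) (nat_lit 152) (nat_lit 10776199942) (nat_lit 76) (nat_lit 19666716911) (nat_lit 101) (nat_lit 5) (nat_lit 103) (nat_lit 5) (nat_lit 102) (nat_lit 5) (nat_lit 515) (nat_lit 414) (nat_lit 271)) (XT.lf (nat_lit 0) (nat_lit 12853422960) (nat_lit 152) (nat_lit 4679179740) (nat_lit 228) (nat_lit 20050995743) (nat_lit 99) (nat_lit 5) (nat_lit 101) (nat_lit 5) (nat_lit 102) (nat_lit 5) (nat_lit 516) (nat_lit 414) (nat_lit 270))) (XT.nd (nat_lit 78) (nat_lit 152) (nat_lit 0) (XT.lf (nat_lit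 0) (nat_lit 29160870276) (nat_lit 228) (nat_lit 1013706148) (nat_lit 76) (nat_lit 8150006371) (nat_lit 99) (nat_lit 5) (nat_lit 102) (nat_lit 5) (nat_lit 100) (nat_lit 4) (nat_lit 517) (nat_lit 414) (nat_lit 269)) (XT.lf (nat_lit 0) (nat_lit 2277798082) (nat_lit 152) (nat_lit 15288872993) (nat_lit 76) (nat_lit 21512505993) (nat_lit 97) (nat_lit 5) (nat_lit 99) (nat_lit 5) (nat_lit 98) (nat_lit 5) (nat_lit 518) (nat_lit 414) (nat_lit 268))))) (XT.nd (nat_lit 312) (nat_lit 304) (nat_lit 0) (XT.nd (nat_lit 156) (nat_lit 304) (nat_lit 0) (XT.nd (nat_lit 78) (nat_lit 0) (nat_lit 0) (XT.lf (nat_lit 0) (nat_lit 9579898507) (nat_lit 152) (nat_lit 4390669116) (nat_lit 228) (nat_lit 25880353878) (nat_lit 95) (nat_lit 5) (nat_lit 97) (nat_lit 5) (nat_lit 98) (nat_lit 5) (nat_lit 519) (nat_lit 414) (nat_lit 267)) (XT.lf (nat_lit 0) (nat_lit 26248083085) (nat_lit 228) (nat_lit 5242173476) (nat_lit 76) (nat_lit 9148542901) (nat_lit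 95) (nat_lit 5) (nat_lit 98) (nat_lit 5) (nat_lit 96) (nat_lit 4) (nat_lit 520) (nat_lit 414) (nat_lit 266))) (XT.nd (nat_lit 78) (nat_lit 228) (nat_lit 0) (XT.lf (nat_lit 0) (nat_lit 20882782778) (nat_lit 76) (nat_lit 18245445401) (nat_lit 152) (nat_lit 2315056535) (nat_lit 94) (nat_lit 5) (nat_lit 95) (nat_lit 5) (nat_lit 96) (nat_lit 4) (nat_lit 521) (nat_lit 414) (nat_lit 265)) (XT.lf (nat_lit 0) (nat_lit 5621701068) (nat_lit 152) (nat_lit 4401244103) (nat_lit 228) (nat_lit 32243112035) (nat_lit 91) (nat_lit 5) (nat_lit 93) (nat_lit 5) (nat_lit 94) (nat_lit 5) (nat_lit 522) (nat_lit 414) (nat_lit 264)))) (XT.nd (nat_lit 156) (nat_lit 228) (nat_lit 0) (XT.nd (nat_lit 78) (nat_lit 76) (nat_lit 0) (XT.lf (nat_lit 0) (nat_lit 22979127958) (nat_lit 228) (nat_lit 10235007116) (nat_lit 76) (nat_lit 9889853086) (nat_lit 91) (nat_lit 5) (nat_lit 94) (nat_lit 5) (nat_lit 92) (nat_lit 4) (nat_lit 523) (nat_lit 414) (nat_lit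 263)) (XT.lf (nat_lit 0) (nat_lit 17241209717) (nat_lit 76) (nat_lit 19282514802) (nat_lit 152) (nat_lit 7437340745) (nat_lit 90) (nat_lit 5) (nat_lit 91) (nat_lit 5) (nat_lit 92) (nat_lit 4) (nat_lit 524) (nat_lit 414) (nat_lit 262))) (XT.nd (nat_lit 78) (nat_lit 0) (nat_lit 0) (XT.lf (nat_lit 0) (nat_lit 853995623) (nat_lit 152) (nat_lit 4769947135) (nat_lit 228) (nat_lit 39215197714) (nat_lit 87) (nat_lit 5) (nat_lit 89) (nat_lit 5) (nat_lit 90) (nat_lit 5) (nat_lit 525) (nat_lit 414) (nat_lit 261)) (XT.lf (nat_lit 0) (nat_lit 19288359776) (nat_lit 228) (nat_lit 16125123021) (nat_lit 76) (nat_lit 10317042745) (nat_lit 87) (nat_lit 5) (nat_lit 90) (nat_lit 5) (nat_lit 88) (nat_lit 4) (nat_lit 526) (nat_lit 414) (nat_lit 260)))))) (XT.nd (nat_lit 624) (nat_lit 608) (nat_lit 0) (XT.nd (nat_lit 312) (nat_lit 304) (nat_lit 0) (XT.nd (nat_lit 156) (nat_lit 228) (nat_lit 0) (XT.nd (nat_lit 78) (nat_lit 76) (nat_lit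 0) (XT.lf (nat_lit 0) (nat_lit 12754586239) (nat_lit 76) (nat_lit 20768684701) (nat_lit 152) (nat_lit 13120564435) (nat_lit 86) (nat_lit 5) (nat_lit 87) (nat_lit 5) (nat_lit 88) (nat_lit 4) (nat_lit 527) (nat_lit 414) (nat_lit 259)) (XT.lf (nat_lit 0) (nat_lit 744147272) (nat_lit 152) (nat_lit 4773593945) (nat_lit 76) (nat_lit 42061974604) (nat_lit 85) (nat_lit 5) (nat_lit 87) (nat_lit 5) (nat_lit 86) (nat_lit 5) (nat_lit 528) (nat_lit 414) (nat_lit 258))) (XT.nd (nat_lit 78) (nat_lit 76) (nat_lit 0) (XT.lf (nat_lit 0) (nat_lit 15099466999) (nat_lit 228) (nat_lit 23067004015) (nat_lit 76) (nat_lit 10363153215) (nat_lit 83) (nat_lit 5) (nat_lit 86) (nat_lit 5) (nat_lit 84) (nat_lit 4) (nat_lit 529) (nat_lit 414) (nat_lit 257)) (XT.lf (nat_lit 0) (nat_lit 7266595323) (nat_lit 76) (nat_lit 22783042185) (nat_lit 152) (nat_lit 19453466698) (nat_lit 82) (nat_lit 5) (nat_lit 83) (nat_lit 5) (nat_lit 84) (nat_lit 4) (nat_lit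 530) (nat_lit 414) (nat_lit 256)))) (XT.nd (nat_lit 156) (nat_lit 76) (nat_lit 0) (XT.nd (nat_lit 78) (nat_lit 228) (nat_lit 0) (XT.lf (nat_lit 0) (nat_lit 38965938287) (nat_lit 76) (nat_lit 6706431083) (nat_lit 152) (nat_lit 4826697579) (nat_lit 82) (nat_lit 5) (nat_lit 83) (nat_lit 5) (nat_lit 84) (nat_lit 4) (nat_lit 531) (nat_lit 414) (nat_lit 255)) (XT.lf (nat_lit 0) (nat_lit 10323763505) (nat_lit 228) (nat_lit 31240180573) (nat_lit 76) (nat_lit 9949471290) (nat_lit 79) (nat_lit 5) (nat_lit 82) (nat_lit 5) (nat_lit 80) (nat_lit 4) (nat_lit 532) (nat_lit 414) (nat_lit 254))) (XT.nd (nat_lit 78) (nat_lit 0) (nat_lit 0) (XT.lf (nat_lit 0) (nat_lit 594967396) (nat_lit 76) (nat_lit 25417808202) (nat_lit 152) (nat_lit 26538553545) (nat_lit 78) (nat_lit 5) (nat_lit 79) (nat_lit 5) (nat_lit 80) (nat_lit 4) (nat_lit 533) (nat_lit 414) (nat_lit 253)) (XT.lf (nat_lit 0) (nat_lit 34008920963) (nat_lit 76) (nat_lit 8470409112)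 (nat_lit 152) (nat_lit 11131844144) (nat_lit 78) (nat_lit 5) (nat_lit 79) (nat_lit 5) (nat_lit 80) (nat_lit 4) (nat_lit 534) (nat_lit 414) (nat_lit 252))))) (XT.nd (nat_lit 312) (nat_lit 304) (nat_lit 0) (XT.nd (nat_lit 156) (nat_lit 152) (nat_lit 0) (XT.nd (nat_lit 78) (nat_lit 0) (nat_lit 0) (XT.lf (nat_lit 0) (nat_lit 4858206213) (nat_lit 152) (nat_lit 40853266671) (nat_lit 76) (nat_lit 8983568433) (nat_lit 76) (nat_lit 5) (nat_lit 78) (nat_lit 5) (nat_lit 77) (nat_lit 4) (nat_lit 535) (nat_lit 414) (nat_lit 251)) (XT.lf (nat_lit 0) (nat_lit 21379578452) (nat_lit 152) (nat_lit 7326916989) (nat_lit 76) (nat_lit 27093361759) (nat_lit 76) (nat_lit 5) (nat_lit 78) (nat_lit 5) (nat_lit 77) (nat_lit 4) (nat_lit 536) (nat_lit 414) (nat_lit 250))) (XT.nd (nat_lit 78) (nat_lit 76) (nat_lit 0) (XT.lf (nat_lit 0) (nat_lit 27730480967) (nat_lit 76) (nat_lit 10924508005) (nat_lit 152) (nat_lit 18275076714) (nat_lit 75) (nat_lit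 5) (nat_lit 76) (nat_lit 5) (nat_lit 77) (nat_lit 4) (nat_lit 537) (nat_lit 414) (nat_lit 249)) (XT.lf (nat_lit 0) (nat_lit 5925812541) (nat_lit 76) (nat_lit 50717426326) (nat_lit 76) (nat_lit 1445104290) (nat_lit 74) (nat_lit 4) (nat_lit 75) (nat_lit 5) (nat_lit 75) (nat_lit 4) (nat_lit 538) (nat_lit 414) (nat_lit 248)))) (XT.nd (nat_lit 156) (nat_lit 152) (nat_lit 0) (XT.nd (nat_lit 78) (nat_lit 76) (nat_lit 0) (XT.lf (nat_lit 0) (nat_lit 15977496761) (nat_lit 152) (nat_lit 16848697404) (nat_lit 76) (nat_lit 26438658677) (nat_lit 73) (nat_lit 5) (nat_lit 75) (nat_lit 5) (nat_lit 74) (nat_lit 4) (nat_lit 539) (nat_lit 414) (nat_lit 247)) (XT.lf (nat_lit 0) (nat_lit 19882806862) (nat_lit 76) (nat_lit 14194141423) (nat_lit 152) (nat_lit 26393783804) (nat_lit 72) (nat_lit 5) (nat_lit 73) (nat_lit 5) (nat_lit 74) (nat_lit 4) (nat_lit 540) (nat_lit 414) (nat_lit 246))) (XT.nd (nat_lit 78) (nat_lit 152) (nat_lit 0) (XT.lf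 (nat_lit 0) (nat_lit 52931343586) (nat_lit 152) (nat_lit 3711196224) (nat_lit 0) (nat_lit 5063889132) (nat_lit 72) (nat_lit 5) (nat_lit 74) (nat_lit 4) (nat_lit 72) (nat_lit 4) (nat_lit 541) (nat_lit 414) (nat_lit 245)) (XT.lf (nat_lit 0) (nat_lit 9661259896) (nat_lit 152) (nat_lit 28264598163) (nat_lit 76) (nat_lit 25036476821) (nat_lit 70) (nat_lit 5) (nat_lit 72) (nat_lit 5) (nat_lit 71) (nat_lit 4) (nat_lit 542) (nat_lit 414) (nat_lit 244))))))))
noncomputable def xc129 : XT := (XT.nd (nat_lit 54132) (nat_lit 0) (nat_lit 10184) (XT.nd (nat_lit 52884) (nat_lit 0) (nat_lit 19684) (XT.nd (nat_lit 546) (nat_lit 228) (nat_lit 0) (XT.nd (nat_lit 234) (nat_lit 228) (nat_lit 0) (XT.nd (nat_lit 78) (nat_lit 152) (nat_lit 0) (XT.lf (nat_lit 0) (nat_lit 10176558790) (nat_lit 76) (nat_lit 18425775744) (nat_lit 152) (nat_lit 35647136748) (nat_lit 69) (nat_lit 5) (nat_lit 70) (nat_lit 5) (nat_lit 71) (nat_lit 4) (nat_lit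 543) (nat_lit 414) (nat_lit 243)) (XT.nd (nat_lit 78) (nat_lit 152) (nat_lit 0) (XT.lf (nat_lit 0) (nat_lit 48408184675) (nat_lit 152) (nat_lit 15250088395) (nat_lit 0) (nat_lit 1908052440) (nat_lit 69) (nat_lit 5) (nat_lit 71) (nat_lit 4) (nat_lit 69) (nat_lit 4) (nat_lit 544) (nat_lit 414) (nat_lit 242)) (XT.lf (nat_lit 0) (nat_lit 2268445045) (nat_lit 152) (nat_lit 41903630574) (nat_lit 76) (nat_lit 22737474626) (nat_lit 67) (nat_lit 5) (nat_lit 69) (nat_lit 5) (nat_lit 68) (nat_lit 4) (nat_lit 545) (nat_lit 414) (nat_lit 241)))) (XT.nd (nat_lit 156) (nat_lit 152) (nat_lit 0) (XT.nd (nat_lit 78) (nat_lit 76) (nat_lit 0) (XT.lf (nat_lit 0) (nat_lit 22081065327) (nat_lit 152) (nat_lit 1692207306) (nat_lit 76) (nat_lit 44510259688) (nat_lit 67) (nat_lit 5) (nat_lit 69) (nat_lit 5) (nat_lit 68) (nat_lit 4) (nat_lit 546) (nat_lit 414) (nat_lit 240)) (XT.lf (nat_lit 0) (nat_lit 40501749984) (nat_lit 76) (nat_lit 2368435776)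 (nat_lit 152) (nat_lit 26817084481) (nat_lit 66) (nat_lit 5) (nat_lit 67) (nat_lit 5) (nat_lit 68) (nat_lit 4) (nat_lit 547) (nat_lit 414) (nat_lit 239))) (XT.nd (nat_lit 78) (nat_lit 76) (nat_lit 0) (XT.lf (nat_lit 0) (nat_lit 12912083869) (nat_lit 76) (nat_lit 51694237300) (nat_lit 76) (nat_lit 6517098915) (nat_lit 65) (nat_lit 4) (nat_lit 66) (nat_lit 5) (nat_lit 66) (nat_lit 4) (nat_lit 548) (nat_lit 414) (nat_lit 238)) (XT.lf (nat_lit 0) (nat_lit 14424940542) (nat_lit 152) (nat_lit 15901791039) (nat_lit 76) (nat_lit 42262355805) (nat_lit 64) (nat_lit 5) (nat_lit 66) (nat_lit 5) (nat_lit 65) (nat_lit 4) (nat_lit 549) (nat_lit 414) (nat_lit 237))))) (XT.nd (nat_lit 52026) (nat_lit 0) (nat_lit 24928) (XT.nd (nat_lit 156) (nat_lit 152) (nat_lit 0) (XT.nd (nat_lit 78) (nat_lit 0) (nat_lit 0) (XT.lf (nat_lit 0) (nat_lit 28148039421) (nat_lit 76) (nat_lit 7979807682) (nat_lit 152) (nat_lit 37961034061) (nat_lit 63)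 (nat_lit 5) (nat_lit 64) (nat_lit 5) (nat_lit 65) (nat_lit 4) (nat_lit 550) (nat_lit 414) (nat_lit 236)) (XT.lf (nat_lit 0) (nat_lit 58781582659) (nat_lit 152) (nat_lit 1943408432) (nat_lit 0) (nat_lit 14899685435) (nat_lit 63) (nat_lit 5) (nat_lit 65) (nat_lit 4) (nat_lit 63) (nat_lit 4) (nat_lit 551) (nat_lit 414) (nat_lit 235))) (XT.nd (nat_lit 51792) (nat_lit 0) (nat_lit 25764) (XT.lf (nat_lit 0) (nat_lit 5314086309) (nat_lit 152) (nat_lit 33100771937) (nat_lit 76) (nat_lit 38775227593) (nat_lit 61) (nat_lit 5) (nat_lit 63) (nat_lit 5) (nat_lit 62) (nat_lit 4) (nat_lit 552) (nat_lit 414) (nat_lit 234)) (XT.lf (nat_lit 0) (nat_lit 574615510) (nat_lit 0) (nat_lit 574615510) (nat_lit 836) (nat_lit 2547828431) (nat_lit 400) (nat_lit 5) (nat_lit 400) (nat_lit 3) (nat_lit 411) (nat_lit 3) (nat_lit 415) (nat_lit 415) (nat_lit 370)))) (XT.nd (nat_lit 156) (nat_lit 836) (nat_lit 0) (XT.nd (nat_lit 78) (nat_lit 0) (nat_lit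 0) (XT.lf (nat_lit 0) (nat_lit 3863049153) (nat_lit 836) (nat_lit 2555891661) (nat_lit 912) (nat_lit 1040099419) (nat_lit 400) (nat_lit 5) (nat_lit 411) (nat_lit 3) (nat_lit 412) (nat_lit 5) (nat_lit 416) (nat_lit 415) (nat_lit 369)) (XT.lf (nat_lit 76) (nat_lit 1224564568) (nat_lit 0) (nat_lit 4214126239) (nat_lit 912) (nat_lit 2088298288) (nat_lit 401) (nat_lit 5) (nat_lit 400) (nat_lit 5) (nat_lit 412) (nat_lit 5) (nat_lit 417) (nat_lit 415) (nat_lit 368))) (XT.nd (nat_lit 78) (nat_lit 836) (nat_lit 0) (XT.lf (nat_lit 76) (nat_lit 5139411787) (nat_lit 0) (nat_lit 1890383974) (nat_lit 912) (nat_lit 568138144) (nat_lit 401) (nat_lit 5) (nat_lit 400) (nat_lit 5) (nat_lit 412) (nat_lit 5) (nat_lit 418) (nat_lit 415) (nat_lit 367)) (XT.lf (nat_lit 0) (nat_lit 941285293) (nat_lit 912) (nat_lit 6188773857) (nat_lit 988) (nat_lit 541769554) (nat_lit 389) (nat_lit 5) (nat_lit 401) (nat_lit 5) (nat_lit 402) (nat_lit 5)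 (nat_lit 419) (nat_lit 415) (nat_lit 366)))))) (XT.nd (nat_lit 624) (nat_lit 4332) (nat_lit 0) (XT.nd (nat_lit 312) (nat_lit 912) (nat_lit 0) (XT.nd (nat_lit 156) (nat_lit 0) (nat_lit 76) (XT.nd (nat_lit 78) (nat_lit 0) (nat_lit 0) (XT.lf (nat_lit 0) (nat_lit 2473440345) (nat_lit 912) (nat_lit 2211711672) (nat_lit 988) (nat_lit 3062956559) (nat_lit 389) (nat_lit 5) (nat_lit 401) (nat_lit 5) (nat_lit 402) (nat_lit 5) (nat_lit 420) (nat_lit 415) (nat_lit 365)) (XT.lf (nat_lit 76) (nat_lit 1889291470) (nat_lit 0) (nat_lit 2127108434) (nat_lit 988) (nat_lit 3811334681) (nat_lit 390) (nat_lit 5) (nat_lit 389) (nat_lit 5) (nat_lit 402) (nat_lit 5) (nat_lit 421) (nat_lit 415) (nat_lit 364))) (XT.nd (nat_lit 78) (nat_lit 0) (nat_lit 0) (XT.lf (nat_lit 0) (nat_lit 5581202173) (nat_lit 912) (nat_lit 1789198506) (nat_lit 988) (nat_lit 540084924) (nat_lit 390) (nat_lit 5) (nat_lit 402) (nat_lit 5) (nat_lit 403) (nat_lit 5)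 (nat_lit 422) (nat_lit 415) (nat_lit 363)) (XT.lf (nat_lit 76) (nat_lit 2479140351) (nat_lit 0) (nat_lit 4708329504) (nat_lit 988) (nat_lit 808416422) (nat_lit 391) (nat_lit 5) (nat_lit 390) (nat_lit 5) (nat_lit 403) (nat_lit 5) (nat_lit 423) (nat_lit 415) (nat_lit 362)))) (XT.nd (nat_lit 156) (nat_lit 0) (nat_lit 76) (XT.nd (nat_lit 78) (nat_lit 0) (nat_lit 76) (XT.lf (nat_lit 0) (nat_lit 711825867) (nat_lit 988) (nat_lit 1211937542) (nat_lit 1064) (nat_lit 6160813294) (nat_lit 377) (nat_lit 5) (nat_lit 390) (nat_lit 5) (nat_lit 391) (nat_lit 5) (nat_lit 424) (nat_lit 415) (nat_lit 361)) (XT.lf (nat_lit 0) (nat_lit 2253980909) (nat_lit 988) (nat_lit 4940887810) (nat_lit 1064) (nat_lit 981044914) (nat_lit 378) (nat_lit 5) (nat_lit 391) (nat_lit 5) (nat_lit 392) (nat_lit 5) (nat_lit 425) (nat_lit 415) (nat_lit 360))) (XT.nd (nat_lit 78) (nat_lit 0) (nat_lit 0) (XT.lf (nat_lit 0) (nat_lit 3826792703) (nat_lit 988)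 (nat_lit 482193616) (nat_lit 1064) (nat_lit 3961475046) (nat_lit 378) (nat_lit 5) (nat_lit 391) (nat_lit 5) (nat_lit 392) (nat_lit 5) (nat_lit 426) (nat_lit 415) (nat_lit 359)) (XT.lf (nat_lit 76) (nat_lit 4158750122) (nat_lit 0) (nat_lit 1282370106) (nat_lit 1064) (nat_lit 2926897745) (nat_lit 379) (nat_lit 5) (nat_lit 378) (nat_lit 5) (nat_lit 392) (nat_lit 5) (nat_lit 427) (nat_lit 415) (nat_lit 358))))) (XT.nd (nat_lit 312) (nat_lit 3420) (nat_lit 0) (XT.nd (nat_lit 156) (nat_lit 0) (nat_lit 0) (XT.nd (nat_lit 78) (nat_lit 1064) (nat_lit 0) (XT.lf (nat_lit 76) (nat_lit 437498423) (nat_lit 0) (nat_lit 6648633217) (nat_lit 1064) (nat_lit 1382904334) (nat_lit 380) (nat_lit 5) (nat_lit 379) (nat_lit 5) (nat_lit 393) (nat_lit 5) (nat_lit 428) (nat_lit 415) (nat_lit 357)) (XT.lf (nat_lit 0) (nat_lit 215017468) (nat_lit 1064) (nat_lit 3311315371) (nat_lit 1140) (nat_lit 5046344370) (nat_lit 365) (nat_lit 5) (nat_lit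 379) (nat_lit 5) (nat_lit 380) (nat_lit 5) (nat_lit 429) (nat_lit 415) (nat_lit 356))) (XT.nd (nat_lit 78) (nat_lit 0) (nat_lit 76) (XT.lf (nat_lit 76) (nat_lit 1533395611) (nat_lit 0) (nat_lit 271739788) (nat_lit 1140) (nat_lit 6874722033) (nat_lit 366) (nat_lit 5) (nat_lit 365) (nat_lit 5) (nat_lit 380) (nat_lit 5) (nat_lit 430) (nat_lit 415) (nat_lit 355)) (XT.lf (nat_lit 0) (nat_lit 3464660729) (nat_lit 1064) (nat_lit 2262225680) (nat_lit 76) (nat_lit 3062717596) (nat_lit 366) (nat_lit 5) (nat_lit 380) (nat_lit 5) (nat_lit 367) (nat_lit 5) (nat_lit 431) (nat_lit 415) (nat_lit 354)))) (XT.nd (nat_lit 156) (nat_lit 2432) (nat_lit 0) (XT.nd (nat_lit 78) (nat_lit 0) (nat_lit 0) (XT.lf (nat_lit 0) (nat_lit 2786869932) (nat_lit 1064) (nat_lit 2376118792) (nat_lit 1140) (nat_lit 3739985740) (nat_lit 352) (nat_lit 5) (nat_lit 366) (nat_lit 5) (nat_lit 367) (nat_lit 5) (nat_lit 432) (nat_lit 415) (nat_lit 353)) (XT.lf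 (nat_lit 0) (nat_lit 6906133463) (nat_lit 1140) (nat_lit 1030095366) (nat_lit 76) (nat_lit 1083703141) (nat_lit 352) (nat_lit 5) (nat_lit 367) (nat_lit 5) (nat_lit 353) (nat_lit 5) (nat_lit 433) (nat_lit 415) (nat_lit 352))) (XT.nd (nat_lit 78) (nat_lit 1292) (nat_lit 0) (XT.lf (nat_lit 0) (nat_lit 4234308261) (nat_lit 1140) (nat_lit 4493106049) (nat_lit 1216) (nat_lit 412210522) (nat_lit 337) (nat_lit 5) (nat_lit 352) (nat_lit 5) (nat_lit 353) (nat_lit 5) (nat_lit 434) (nat_lit 415) (nat_lit 351)) (XT.lf (nat_lit 0) (nat_lit 375791187) (nat_lit 1216) (nat_lit 914635043) (nat_lit 1292) (nat_lit 7972812745) (nat_lit 320) (nat_lit 5) (nat_lit 336) (nat_lit 5) (nat_lit 337) (nat_lit 5) (nat_lit 435) (nat_lit 415) (nat_lit 350))))))) (XT.nd (nat_lit 1248) (nat_lit 4104) (nat_lit 0) (XT.nd (nat_lit 624) (nat_lit 2736) (nat_lit 0) (XT.nd (nat_lit 312) (nat_lit 1216) (nat_lit 0) (XT.nd (nat_lit 156) (nat_lit 608) (nat_lit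 0) (XT.nd (nat_lit 78) (nat_lit 836) (nat_lit 0) (XT.lf (nat_lit 0) (nat_lit 3075381434) (nat_lit 1292) (nat_lit 3538939483) (nat_lit 76) (nat_lit 2774934179) (nat_lit 320) (nat_lit 5) (nat_lit 337) (nat_lit 5) (nat_lit 321) (nat_lit 5) (nat_lit 436) (nat_lit 415) (nat_lit 349)) (XT.lf (nat_lit 0) (nat_lit 1965793803) (nat_lit 836) (nat_lit 2939986880) (nat_lit 912) (nat_lit 4613515829) (nat_lit 309) (nat_lit 5) (nat_lit 320) (nat_lit 5) (nat_lit 321) (nat_lit 5) (nat_lit 437) (nat_lit 415) (nat_lit 348))) (XT.nd (nat_lit 78) (nat_lit 608) (nat_lit 0) (XT.lf (nat_lit 0) (nat_lit 6799995253) (nat_lit 912) (nat_lit 1986712829) (nat_lit 76) (nat_lit 866265613) (nat_lit 309) (nat_lit 5) (nat_lit 321) (nat_lit 5) (nat_lit 310) (nat_lit 5) (nat_lit 438) (nat_lit 415) (nat_lit 347)) (XT.lf (nat_lit 0) (nat_lit 3758015840) (nat_lit 608) (nat_lit 5023976436) (nat_lit 684) (nat_lit 1007741814) (nat_lit 301) (nat_lit 5) (nat_lit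 309) (nat_lit 5) (nat_lit 310) (nat_lit 5) (nat_lit 439) (nat_lit 415) (nat_lit 346)))) (XT.nd (nat_lit 156) (nat_lit 532) (nat_lit 0) (XT.nd (nat_lit 78) (nat_lit 608) (nat_lit 0) (XT.lf (nat_lit 0) (nat_lit 861759960) (nat_lit 684) (nat_lit 256603624) (nat_lit 76) (nat_lit 8812387796) (nat_lit 300) (nat_lit 5) (nat_lit 309) (nat_lit 5) (nat_lit 301) (nat_lit 5) (nat_lit 440) (nat_lit 415) (nat_lit 345)) (XT.lf (nat_lit 0) (nat_lit 2818103185) (nat_lit 684) (nat_lit 4342040590) (nat_lit 76) (nat_lit 2914027196) (nat_lit 292) (nat_lit 5) (nat_lit 301) (nat_lit 5) (nat_lit 293) (nat_lit 5) (nat_lit 441) (nat_lit 415) (nat_lit 344))) (XT.nd (nat_lit 78) (nat_lit 0) (nat_lit 0) (XT.lf (nat_lit 0) (nat_lit 1672194357) (nat_lit 532) (nat_lit 3158412928) (nat_lit 608) (nat_lit 5391363151) (nat_lit 285) (nat_lit 5) (nat_lit 292) (nat_lit 5) (nat_lit 293) (nat_lit 5) (nat_lit 442) (nat_lit 415) (nat_lit 343)) (XT.lf (nat_lit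 0) (nat_lit 6925344815) (nat_lit 608) (nat_lit 2460640204) (nat_lit 76) (nat_lit 987564476) (nat_lit 285) (nat_lit 5) (nat_lit 293) (nat_lit 5) (nat_lit 286) (nat_lit 5) (nat_lit 443) (nat_lit 415) (nat_lit 342))))) (XT.nd (nat_lit 312) (nat_lit 988) (nat_lit 0) (XT.nd (nat_lit 156) (nat_lit 1064) (nat_lit 0) (XT.nd (nat_lit 78) (nat_lit 76) (nat_lit 0) (XT.lf (nat_lit 0) (nat_lit 3821537266) (nat_lit 608) (nat_lit 5298633951) (nat_lit 684) (nat_lit 1408388627) (nat_lit 277) (nat_lit 5) (nat_lit 285) (nat_lit 5) (nat_lit 286) (nat_lit 5) (nat_lit 444) (nat_lit 415) (nat_lit 341)) (XT.lf (nat_lit 0) (nat_lit 673722796) (nat_lit 684) (nat_lit 384976174) (nat_lit 76) (nat_lit 9629484549) (nat_lit 276) (nat_lit 5) (nat_lit 285) (nat_lit 5) (nat_lit 277) (nat_lit 5) (nat_lit 445) (nat_lit 415) (nat_lit 340))) (XT.nd (nat_lit 78) (nat_lit 532) (nat_lit 0) (XT.lf (nat_lit 0) (nat_lit 2852519323) (nat_lit 608) (nat_lit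 4682232132) (nat_lit 76) (nat_lit 3315551454) (nat_lit 269) (nat_lit 5) (nat_lit 277) (nat_lit 5) (nat_lit 270) (nat_lit 5) (nat_lit 446) (nat_lit 415) (nat_lit 339)) (XT.lf (nat_lit 0) (nat_lit 1902252049) (nat_lit 532) (nat_lit 3198058923) (nat_lit 608) (nat_lit 5916867147) (nat_lit 262) (nat_lit 5) (nat_lit 269) (nat_lit 5) (nat_lit 270) (nat_lit 5) (nat_lit 447) (nat_lit 415) (nat_lit 338)))) (XT.nd (nat_lit 156) (nat_lit 532) (nat_lit 0) (XT.nd (nat_lit 78) (nat_lit 456) (nat_lit 0) (XT.lf (nat_lit 0) (nat_lit 7446915884) (nat_lit 608) (nat_lit 2453329654) (nat_lit 76) (nat_lit 1287873801) (nat_lit 262) (nat_lit 5) (nat_lit 270) (nat_lit 5) (nat_lit 263) (nat_lit 5) (nat_lit 448) (nat_lit 415) (nat_lit 337)) (XT.lf (nat_lit 0) (nat_lit 4430600445) (nat_lit 456) (nat_lit 5479838269) (nat_lit 532) (nat_lit 1452355593) (nat_lit 256) (nat_lit 5) (nat_lit 262) (nat_lit 5) (nat_lit 263) (nat_lit 5) (nat_lit 449)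 (nat_lit 415) (nat_lit 336))) (XT.nd (nat_lit 78) (nat_lit 456) (nat_lit 0) (XT.lf (nat_lit 0) (nat_lit 885009679) (nat_lit 532) (nat_lit 12112153) (nat_lit 76) (nat_lit 10645402263) (nat_lit 255) (nat_lit 5) (nat_lit 262) (nat_lit 5) (nat_lit 256) (nat_lit 5) (nat_lit 450) (nat_lit 415) (nat_lit 335)) (XT.lf (nat_lit 0) (nat_lit 3343443037) (nat_lit 532) (nat_lit 4553168583) (nat_lit 76) (nat_lit 3828199635) (nat_lit 249) (nat_lit 5) (nat_lit 256) (nat_lit 5) (nat_lit 250) (nat_lit 5) (nat_lit 451) (nat_lit 415) (nat_lit 334)))))) (XT.nd (nat_lit 624) (nat_lit 1824) (nat_lit 0) (XT.nd (nat_lit 312) (nat_lit 912) (nat_lit 0) (XT.nd (nat_lit 156) (nat_lit 912) (nat_lit 0) (XT.nd (nat_lit 78) (nat_lit 0) (nat_lit 0) (XT.lf (nat_lit 0) (nat_lit 2669788001) (nat_lit 456) (nat_lit 3214236265) (nat_lit 532) (nat_lit 6028291899) (nat_lit 243) (nat_lit 5) (nat_lit 249) (nat_lit 5) (nat_lit 250) (nat_lit 5) (nat_lit 452)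 (nat_lit 415) (nat_lit 333)) (XT.lf (nat_lit 0) (nat_lit 8536848359) (nat_lit 532) (nat_lit 1949641734) (nat_lit 76) (nat_lit 1617876321) (nat_lit 243) (nat_lit 5) (nat_lit 250) (nat_lit 5) (nat_lit 244) (nat_lit 5) (nat_lit 453) (nat_lit 415) (nat_lit 332))) (XT.nd (nat_lit 78) (nat_lit 456) (nat_lit 0) (XT.lf (nat_lit 0) (nat_lit 5608161578) (nat_lit 456) (nat_lit 5721711493) (nat_lit 532) (nat_lit 970487549) (nat_lit 237) (nat_lit 5) (nat_lit 243) (nat_lit 5) (nat_lit 244) (nat_lit 5) (nat_lit 454) (nat_lit 415) (nat_lit 331)) (XT.lf (nat_lit 0) (nat_lit 900340997) (nat_lit 380) (nat_lit 774459281) (nat_lit 456) (nat_lit 10826835526) (nat_lit 231) (nat_lit 5) (nat_lit 236) (nat_lit 5) (nat_lit 237) (nat_lit 5) (nat_lit 455) (nat_lit 415) (nat_lit 330)))) (XT.nd (nat_lit 156) (nat_lit 456) (nat_lit 0) (XT.nd (nat_lit 78) (nat_lit 456) (nat_lit 0) (XT.lf (nat_lit 0) (nat_lit 4465154348) (nat_lit 456) (nat_lit 3932926236)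 (nat_lit 76) (nat_lit 4308024841) (nat_lit 231) (nat_lit 5) (nat_lit 237) (nat_lit 5) (nat_lit 232) (nat_lit 5) (nat_lit 456) (nat_lit 415) (nat_lit 329)) (XT.lf (nat_lit 0) (nat_lit 4004878882) (nat_lit 456) (nat_lit 3356649249) (nat_lit 532) (nat_lit 5554512554) (nat_lit 225) (nat_lit 5) (nat_lit 231) (nat_lit 5) (nat_lit 232) (nat_lit 5) (nat_lit 457) (nat_lit 415) (nat_lit 328))) (XT.nd (nat_lit 78) (nat_lit 456) (nat_lit 0) (XT.lf (nat_lit 0) (nat_lit 10379022372) (nat_lit 532) (nat_lit 919110845) (nat_lit 76) (nat_lit 1833114707) (nat_lit 225) (nat_lit 5) (nat_lit 232) (nat_lit 5) (nat_lit 226) (nat_lit 5) (nat_lit 458) (nat_lit 415) (nat_lit 327)) (XT.lf (nat_lit 0) (nat_lit 213778294) (nat_lit 456) (nat_lit 5959338333) (nat_lit 76) (nat_lit 7177288859) (nat_lit 219) (nat_lit 5) (nat_lit 225) (nat_lit 5) (nat_lit 220) (nat_lit 5) (nat_lit 459) (nat_lit 415) (nat_lit 326))))) (XT.nd (nat_lit 312) (nat_lit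 684) (nat_lit 0) (XT.nd (nat_lit 156) (nat_lit 760) (nat_lit 0) (XT.nd (nat_lit 78) (nat_lit 0) (nat_lit 0) (XT.lf (nat_lit 0) (nat_lit 2382008677) (nat_lit 380) (nat_lit 841016192) (nat_lit 456) (nat_lit 10352008757) (nat_lit 214) (nat_lit 5) (nat_lit 219) (nat_lit 5) (nat_lit 220) (nat_lit 5) (nat_lit 460) (nat_lit 415) (nat_lit 325)) (XT.lf (nat_lit 0) (nat_lit 6405631927) (nat_lit 456) (nat_lit 2785098833) (nat_lit 76) (nat_lit 4613178066) (nat_lit 214) (nat_lit 5) (nat_lit 220) (nat_lit 5) (nat_lit 215) (nat_lit 5) (nat_lit 461) (nat_lit 415) (nat_lit 324))) (XT.nd (nat_lit 78) (nat_lit 380) (nat_lit 0) (XT.lf (nat_lit 0) (nat_lit 5952845539) (nat_lit 380) (nat_lit 3774674268) (nat_lit 456) (nat_lit 4310817087) (nat_lit 209) (nat_lit 5) (nat_lit 214) (nat_lit 5) (nat_lit 215) (nat_lit 5) (nat_lit 462) (nat_lit 415) (nat_lit 323)) (XT.lf (nat_lit 0) (nat_lit 696721470) (nat_lit 380) (nat_lit 12483302797) (nat_lit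 456) (nat_lit 1098845407) (nat_lit 204) (nat_lit 5) (nat_lit 209) (nat_lit 5) (nat_lit 210) (nat_lit 5) (nat_lit 463) (nat_lit 415) (nat_lit 322)))) (XT.nd (nat_lit 156) (nat_lit 304) (nat_lit 0) (XT.nd (nat_lit 78) (nat_lit 304) (nat_lit 0) (XT.lf (nat_lit 0) (nat_lit 2264846750) (nat_lit 456) (nat_lit 4705894063) (nat_lit 76) (nat_lit 7552286796) (nat_lit 203) (nat_lit 5) (nat_lit 209) (nat_lit 5) (nat_lit 204) (nat_lit 5) (nat_lit 464) (nat_lit 415) (nat_lit 321)) (XT.lf (nat_lit 0) (nat_lit 4483697984) (nat_lit 304) (nat_lit 1246035285) (nat_lit 380) (nat_lit 9043780158) (nat_lit 199) (nat_lit 5) (nat_lit 203) (nat_lit 5) (nat_lit 204) (nat_lit 5) (nat_lit 465) (nat_lit 415) (nat_lit 320))) (XT.nd (nat_lit 78) (nat_lit 304) (nat_lit 0) (XT.lf (nat_lit 0) (nat_lit 9370766241) (nat_lit 380) (nat_lit 1059618249) (nat_lit 76) (nat_lit 4598963929) (nat_lit 199) (nat_lit 5) (nat_lit 204) (nat_lit 5) (nat_lit 200)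 (nat_lit 5) (nat_lit 466) (nat_lit 415) (nat_lit 319)) (XT.lf (nat_lit 0) (nat_lit 8573515076) (nat_lit 304) (nat_lit 4622369332) (nat_lit 380) (nat_lit 2094729003) (nat_lit 195) (nat_lit 5) (nat_lit 199) (nat_lit 5) (nat_lit 200) (nat_lit 5) (nat_lit 467) (nat_lit 415) (nat_lit 318))))))))
noncomputable def xc130 : XT := (XT.nd (nat_lit 2418) (nat_lit 3192) (nat_lit 0) (XT.nd (nat_lit 1170) (nat_lit 2204) (nat_lit 0) (XT.nd (nat_lit 546) (nat_lit 1596) (nat_lit 0) (XT.nd (nat_lit 234) (nat_lit 684) (nat_lit 0) (XT.nd (nat_lit 78) (nat_lit 304) (nat_lit 0) (XT.lf (nat_lit 0) (nat_lit 1578392773) (nat_lit 380) (nat_lit 12600541310) (nat_lit 76) (nat_lit 1379335102) (nat_lit 190) (nat_lit 5) (nat_lit 195) (nat_lit 5) (nat_lit 191) (nat_lit 5) (nat_lit 468) (nat_lit 415) (nat_lit 317)) (XT.nd (nat_lit 78) (nat_lit 304) (nat_lit 0) (XT.lf (nat_lit 0) (nat_lit 5414297046) (nat_lit 380) (nat_lit 2867859372) (nat_lit 76)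 (nat_lit 7548335821) (nat_lit 190) (nat_lit 5) (nat_lit 195) (nat_lit 5) (nat_lit 191) (nat_lit 5) (nat_lit 469) (nat_lit 415) (nat_lit 316)) (XT.lf (nat_lit 0) (nat_lit 7270269323) (nat_lit 304) (nat_lit 2145889271) (nat_lit 380) (nat_lit 6693197500) (nat_lit 186) (nat_lit 5) (nat_lit 190) (nat_lit 5) (nat_lit 191) (nat_lit 5) (nat_lit 470) (nat_lit 415) (nat_lit 315)))) (XT.nd (nat_lit 156) (nat_lit 304) (nat_lit 0) (XT.nd (nat_lit 78) (nat_lit 76) (nat_lit 0) (XT.lf (nat_lit 0) (nat_lit 1332606623) (nat_lit 304) (nat_lit 12268839927) (nat_lit 380) (nat_lit 2793238694) (nat_lit 182) (nat_lit 5) (nat_lit 186) (nat_lit 5) (nat_lit 187) (nat_lit 5) (nat_lit 471) (nat_lit 415) (nat_lit 314)) (XT.lf (nat_lit 0) (nat_lit 1292505804) (nat_lit 380) (nat_lit 4757835317) (nat_lit 76) (nat_lit 10635100742) (nat_lit 181) (nat_lit 5) (nat_lit 186) (nat_lit 5) (nat_lit 182) (nat_lit 5) (nat_lit 472) (nat_lit 415) (nat_lit 313)))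 (XT.nd (nat_lit 78) (nat_lit 0) (nat_lit 0) (XT.lf (nat_lit 0) (nat_lit 5487521589) (nat_lit 380) (nat_lit 11071626825) (nat_lit 76) (nat_lit 423658337) (nat_lit 177) (nat_lit 5) (nat_lit 182) (nat_lit 5) (nat_lit 178) (nat_lit 5) (nat_lit 473) (nat_lit 415) (nat_lit 312)) (XT.lf (nat_lit 0) (nat_lit 9898807833) (nat_lit 380) (nat_lit 378259810) (nat_lit 76) (nat_lit 7009312787) (nat_lit 177) (nat_lit 5) (nat_lit 182) (nat_lit 5) (nat_lit 178) (nat_lit 5) (nat_lit 474) (nat_lit 415) (nat_lit 311))))) (XT.nd (nat_lit 312) (nat_lit 760) (nat_lit 0) (XT.nd (nat_lit 156) (nat_lit 228) (nat_lit 0) (XT.nd (nat_lit 78) (nat_lit 380) (nat_lit 0) (XT.lf (nat_lit 0) (nat_lit 10819833303) (nat_lit 228) (nat_lit 3709125750) (nat_lit 304) (nat_lit 3067506904) (nat_lit 174) (nat_lit 5) (nat_lit 177) (nat_lit 5) (nat_lit 178) (nat_lit 5) (nat_lit 475) (nat_lit 415) (nat_lit 310)) (XT.lf (nat_lit 0) (nat_lit 1414711988) (nat_lit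 380) (nat_lit 13451499129) (nat_lit 76) (nat_lit 3047459087) (nat_lit 169) (nat_lit 5) (nat_lit 174) (nat_lit 5) (nat_lit 170) (nat_lit 5) (nat_lit 476) (nat_lit 415) (nat_lit 309))) (XT.nd (nat_lit 78) (nat_lit 228) (nat_lit 0) (XT.lf (nat_lit 0) (nat_lit 6058326772) (nat_lit 380) (nat_lit 2156498757) (nat_lit 76) (nat_lit 10021996808) (nat_lit 169) (nat_lit 5) (nat_lit 174) (nat_lit 5) (nat_lit 170) (nat_lit 5) (nat_lit 477) (nat_lit 415) (nat_lit 308)) (XT.lf (nat_lit 0) (nat_lit 9638797102) (nat_lit 228) (nat_lit 1278360235) (nat_lit 304) (nat_lit 7650234857) (nat_lit 166) (nat_lit 5) (nat_lit 169) (nat_lit 5) (nat_lit 170) (nat_lit 5) (nat_lit 478) (nat_lit 415) (nat_lit 307)))) (XT.nd (nat_lit 156) (nat_lit 456) (nat_lit 0) (XT.nd (nat_lit 78) (nat_lit 76) (nat_lit 0) (XT.lf (nat_lit 0) (nat_lit 2898097451) (nat_lit 228) (nat_lit 13113287803) (nat_lit 304) (nat_lit 2893805290) (nat_lit 163) (nat_lit 5) (nat_lit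 166) (nat_lit 5) (nat_lit 167) (nat_lit 5) (nat_lit 479) (nat_lit 415) (nat_lit 306)) (XT.lf (nat_lit 0) (nat_lit 2053356137) (nat_lit 304) (nat_lit 4047474683) (nat_lit 76) (nat_lit 13149098986) (nat_lit 162) (nat_lit 5) (nat_lit 166) (nat_lit 5) (nat_lit 163) (nat_lit 5) (nat_lit 480) (nat_lit 415) (nat_lit 305))) (XT.nd (nat_lit 78) (nat_lit 228) (nat_lit 0) (XT.lf (nat_lit 0) (nat_lit 7167031960) (nat_lit 304) (nat_lit 11234254978) (nat_lit 76) (nat_lit 1200577235) (nat_lit 159) (nat_lit 5) (nat_lit 163) (nat_lit 5) (nat_lit 160) (nat_lit 5) (nat_lit 481) (nat_lit 415) (nat_lit 304)) (XT.lf (nat_lit 0) (nat_lit 1211627771) (nat_lit 228) (nat_lit 11319882159) (nat_lit 304) (nat_lit 7429925217) (nat_lit 156) (nat_lit 5) (nat_lit 159) (nat_lit 5) (nat_lit 160) (nat_lit 5) (nat_lit 482) (nat_lit 415) (nat_lit 303)))))) (XT.nd (nat_lit 624) (nat_lit 1064) (nat_lit 0) (XT.nd (nat_lit 312) (nat_lit 608) (nat_lit 0)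 (XT.nd (nat_lit 156) (nat_lit 228) (nat_lit 0) (XT.nd (nat_lit 78) (nat_lit 304) (nat_lit 0) (XT.lf (nat_lit 0) (nat_lit 14235244045) (nat_lit 228) (nat_lit 3919401458) (nat_lit 304) (nat_lit 2174216366) (nat_lit 156) (nat_lit 5) (nat_lit 159) (nat_lit 5) (nat_lit 160) (nat_lit 5) (nat_lit 483) (nat_lit 415) (nat_lit 302)) (XT.lf (nat_lit 0) (nat_lit 3264524253) (nat_lit 304) (nat_lit 13718618740) (nat_lit 76) (nat_lit 3720577549) (nat_lit 152) (nat_lit 5) (nat_lit 156) (nat_lit 5) (nat_lit 153) (nat_lit 5) (nat_lit 484) (nat_lit 415) (nat_lit 301))) (XT.nd (nat_lit 78) (nat_lit 228) (nat_lit 0) (XT.lf (nat_lit 0) (nat_lit 8908372042) (nat_lit 304) (nat_lit 593421002) (nat_lit 76) (nat_lit 11584817080) (nat_lit 152) (nat_lit 5) (nat_lit 156) (nat_lit 5) (nat_lit 153) (nat_lit 5) (nat_lit 485) (nat_lit 415) (nat_lit 300)) (XT.lf (nat_lit 0) (nat_lit 13157430903) (nat_lit 228) (nat_lit 1675723149) (nat_lit 304) (nat_lit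 6644484064) (nat_lit 149) (nat_lit 5) (nat_lit 152) (nat_lit 5) (nat_lit 153) (nat_lit 5) (nat_lit 486) (nat_lit 415) (nat_lit 299)))) (XT.nd (nat_lit 156) (nat_lit 380) (nat_lit 0) (XT.nd (nat_lit 78) (nat_lit 76) (nat_lit 0) (XT.lf (nat_lit 0) (nat_lit 5473168326) (nat_lit 152) (nat_lit 15567794275) (nat_lit 228) (nat_lit 836276129) (nat_lit 147) (nat_lit 5) (nat_lit 149) (nat_lit 5) (nat_lit 150) (nat_lit 5) (nat_lit 487) (nat_lit 415) (nat_lit 298)) (XT.lf (nat_lit 0) (nat_lit 5132488548) (nat_lit 228) (nat_lit 2527296936) (nat_lit 76) (nat_lit 14624956163) (nat_lit 146) (nat_lit 5) (nat_lit 149) (nat_lit 5) (nat_lit 147) (nat_lit 5) (nat_lit 488) (nat_lit 415) (nat_lit 297))) (XT.nd (nat_lit 78) (nat_lit 152) (nat_lit 0) (XT.lf (nat_lit 0) (nat_lit 11370049402) (nat_lit 304) (nat_lit 10740248219) (nat_lit 76) (nat_lit 590727637) (nat_lit 143) (nat_lit 5) (nat_lit 147) (nat_lit 5) (nat_lit 144) (nat_lit 5) (nat_lit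 489) (nat_lit 415) (nat_lit 296)) (XT.lf (nat_lit 0) (nat_lit 3779567984) (nat_lit 152) (nat_lit 14138921382) (nat_lit 228) (nat_lit 5207595686) (nat_lit 141) (nat_lit 5) (nat_lit 143) (nat_lit 5) (nat_lit 144) (nat_lit 5) (nat_lit 490) (nat_lit 415) (nat_lit 295))))) (XT.nd (nat_lit 312) (nat_lit 608) (nat_lit 0) (XT.nd (nat_lit 156) (nat_lit 152) (nat_lit 0) (XT.nd (nat_lit 78) (nat_lit 228) (nat_lit 0) (XT.lf (nat_lit 0) (nat_lit 1173410631) (nat_lit 228) (nat_lit 4641546940) (nat_lit 76) (nat_lit 17745760843) (nat_lit 140) (nat_lit 5) (nat_lit 143) (nat_lit 5) (nat_lit 141) (nat_lit 5) (nat_lit 491) (nat_lit 415) (nat_lit 294)) (XT.lf (nat_lit 0) (nat_lit 7757636081) (nat_lit 304) (nat_lit 13395252390) (nat_lit 76) (nat_lit 2850462027) (nat_lit 137) (nat_lit 5) (nat_lit 141) (nat_lit 5) (nat_lit 138) (nat_lit 5) (nat_lit 492) (nat_lit 415) (nat_lit 293))) (XT.nd (nat_lit 78) (nat_lit 0) (nat_lit 0) (XT.lf (nat_lit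 0) (nat_lit 1907943897) (nat_lit 152) (nat_lit 12741035124) (nat_lit 228) (nat_lit 9806995017) (nat_lit 135) (nat_lit 5) (nat_lit 137) (nat_lit 5) (nat_lit 138) (nat_lit 5) (nat_lit 493) (nat_lit 415) (nat_lit 292)) (XT.lf (nat_lit 0) (nat_lit 17921285387) (nat_lit 152) (nat_lit 3947556150) (nat_lit 228) (nat_lit 3049681582) (nat_lit 135) (nat_lit 5) (nat_lit 137) (nat_lit 5) (nat_lit 138) (nat_lit 5) (nat_lit 494) (nat_lit 415) (nat_lit 291)))) (XT.nd (nat_lit 156) (nat_lit 304) (nat_lit 0) (XT.nd (nat_lit 78) (nat_lit 0) (nat_lit 0) (XT.lf (nat_lit 0) (nat_lit 3958924219) (nat_lit 304) (nat_lit 16304166495) (nat_lit 76) (nat_lit 5126984156) (nat_lit 131) (nat_lit 5) (nat_lit 135) (nat_lit 5) (nat_lit 132) (nat_lit 5) (nat_lit 495) (nat_lit 415) (nat_lit 290)) (XT.lf (nat_lit 0) (nat_lit 11213782355) (nat_lit 304) (nat_lit 171835955) (nat_lit 76) (nat_lit 14486330518) (nat_lit 131) (nat_lit 5) (nat_lit 135) (nat_lit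 5) (nat_lit 132) (nat_lit 5) (nat_lit 496) (nat_lit 415) (nat_lit 289))) (XT.nd (nat_lit 78) (nat_lit 152) (nat_lit 0) (XT.lf (nat_lit 0) (nat_lit 16748780185) (nat_lit 152) (nat_lit 2085735724) (nat_lit 228) (nat_lit 7529316394) (nat_lit 129) (nat_lit 5) (nat_lit 131) (nat_lit 5) (nat_lit 132) (nat_lit 5) (nat_lit 497) (nat_lit 415) (nat_lit 288)) (XT.lf (nat_lit 0) (nat_lit 7359095534) (nat_lit 152) (nat_lit 19456591874) (nat_lit 228) (nat_lit 50830578) (nat_lit 127) (nat_lit 5) (nat_lit 129) (nat_lit 5) (nat_lit 130) (nat_lit 5) (nat_lit 498) (nat_lit 415) (nat_lit 287))))))) (XT.nd (nat_lit 1170) (nat_lit 1520) (nat_lit 0) (XT.nd (nat_lit 546) (nat_lit 912) (nat_lit 0) (XT.nd (nat_lit 234) (nat_lit 380) (nat_lit 0) (XT.nd (nat_lit 78) (nat_lit 304) (nat_lit 0) (XT.lf (nat_lit 0) (nat_lit 7608722342) (nat_lit 228) (nat_lit 2459581837) (nat_lit 76) (nat_lit 17310592635) (nat_lit 126) (nat_lit 5) (nat_lit 129)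 (nat_lit 5) (nat_lit 127) (nat_lit 5) (nat_lit 499) (nat_lit 415) (nat_lit 286)) (XT.nd (nat_lit 78) (nat_lit 152) (nat_lit 0) (XT.lf (nat_lit 0) (nat_lit 15377306700) (nat_lit 152) (nat_lit 255244210) (nat_lit 228) (nat_lit 12270015845) (nat_lit 124) (nat_lit 5) (nat_lit 126) (nat_lit 5) (nat_lit 127) (nat_lit 5) (nat_lit 500) (nat_lit 415) (nat_lit 285)) (XT.lf (nat_lit 0) (nat_lit 5345876967) (nat_lit 152) (nat_lit 18710145532) (nat_lit 228) (nat_lit 4381156611) (nat_lit 122) (nat_lit 5) (nat_lit 124) (nat_lit 5) (nat_lit 125) (nat_lit 5) (nat_lit 501) (nat_lit 415) (nat_lit 284)))) (XT.nd (nat_lit 156) (nat_lit 152) (nat_lit 0) (XT.nd (nat_lit 78) (nat_lit 152) (nat_lit 0) (XT.lf (nat_lit 0) (nat_lit 3789341612) (nat_lit 228) (nat_lit 5035940198) (nat_lit 76) (nat_lit 20157927204) (nat_lit 121) (nat_lit 5) (nat_lit 124) (nat_lit 5) (nat_lit 122) (nat_lit 5) (nat_lit 502) (nat_lit 415) (nat_lit 283)) (XT.lf (nat_lit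 0) (nat_lit 12252033772) (nat_lit 228) (nat_lit 15790475081) (nat_lit 76) (nat_lit 1497755699) (nat_lit 119) (nat_lit 5) (nat_lit 122) (nat_lit 5) (nat_lit 120) (nat_lit 5) (nat_lit 503) (nat_lit 415) (nat_lit 282))) (XT.nd (nat_lit 78) (nat_lit 0) (nat_lit 0) (XT.lf (nat_lit 0) (nat_lit 3039806625) (nat_lit 152) (nat_lit 18084942437) (nat_lit 228) (nat_lit 8984598568) (nat_lit 117) (nat_lit 5) (nat_lit 119) (nat_lit 5) (nat_lit 120) (nat_lit 5) (nat_lit 504) (nat_lit 415) (nat_lit 281)) (XT.lf (nat_lit 0) (nat_lit 22737451155) (nat_lit 152) (nat_lit 7673973698) (nat_lit 228) (nat_lit 279645115) (nat_lit 117) (nat_lit 5) (nat_lit 119) (nat_lit 5) (nat_lit 120) (nat_lit 5) (nat_lit 505) (nat_lit 415) (nat_lit 280))))) (XT.nd (nat_lit 312) (nat_lit 304) (nat_lit 0) (XT.nd (nat_lit 156) (nat_lit 228) (nat_lit 0) (XT.nd (nat_lit 78) (nat_lit 152) (nat_lit 0) (XT.lf (nat_lit 0) (nat_lit 8650717849) (nat_lit 228) (nat_lit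 19452913311) (nat_lit 76) (nat_lit 3180095013) (nat_lit 114) (nat_lit 5) (nat_lit 117) (nat_lit 5) (nat_lit 115) (nat_lit 5) (nat_lit 506) (nat_lit 415) (nat_lit 279)) (XT.lf (nat_lit 0) (nat_lit 387188058) (nat_lit 152) (nat_lit 17605595218) (nat_lit 228) (nat_lit 13896813489) (nat_lit 112) (nat_lit 5) (nat_lit 114) (nat_lit 5) (nat_lit 115) (nat_lit 5) (nat_lit 507) (nat_lit 415) (nat_lit 278))) (XT.nd (nat_lit 78) (nat_lit 228) (nat_lit 0) (XT.lf (nat_lit 0) (nat_lit 21200573164) (nat_lit 152) (nat_lit 6599706184) (nat_lit 228) (nat_lit 4707809189) (nat_lit 112) (nat_lit 5) (nat_lit 114) (nat_lit 5) (nat_lit 115) (nat_lit 5) (nat_lit 508) (nat_lit 415) (nat_lit 277)) (XT.lf (nat_lit 0) (nat_lit 4792224953) (nat_lit 228) (nat_lit 23573313692) (nat_lit 76) (nat_lit 4774379258) (nat_lit 109) (nat_lit 5) (nat_lit 112) (nat_lit 5) (nat_lit 110) (nat_lit 5) (nat_lit 509) (nat_lit 415) (nat_lit 276)))) (XT.nd (nat_lit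 156) (nat_lit 152) (nat_lit 0) (XT.nd (nat_lit 78) (nat_lit 152) (nat_lit 0) (XT.lf (nat_lit 0) (nat_lit 14652288114) (nat_lit 228) (nat_lit 2621965243) (nat_lit 76) (nat_lit 16509961040) (nat_lit 109) (nat_lit 5) (nat_lit 112) (nat_lit 5) (nat_lit 110) (nat_lit 5) (nat_lit 510) (nat_lit 415) (nat_lit 275)) (XT.lf (nat_lit 0) (nat_lit 19315080113) (nat_lit 152) (nat_lit 5668054439) (nat_lit 228) (nat_lit 9459455903) (nat_lit 107) (nat_lit 5) (nat_lit 109) (nat_lit 5) (nat_lit 110) (nat_lit 5) (nat_lit 511) (nat_lit 415) (nat_lit 274))) (XT.nd (nat_lit 78) (nat_lit 0) (nat_lit 0) (XT.lf (nat_lit 0) (nat_lit 637609986) (nat_lit 152) (nat_lit 28224492028) (nat_lit 76) (nat_lit 6254143563) (nat_lit 105) (nat_lit 5) (nat_lit 107) (nat_lit 5) (nat_lit 106) (nat_lit 5) (nat_lit 512) (nat_lit 415) (nat_lit 273)) (XT.lf (nat_lit 0) (nat_lit 11047219518) (nat_lit 152) (nat_lit 6094927893) (nat_lit 76) (nat_lit 18659160581)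 (nat_lit 105) (nat_lit 5) (nat_lit 107) (nat_lit 5) (nat_lit 106) (nat_lit 5) (nat_lit 513) (nat_lit 415) (nat_lit 272)))))) (XT.nd (nat_lit 624) (nat_lit 760) (nat_lit 0) (XT.nd (nat_lit 312) (nat_lit 304) (nat_lit 0) (XT.nd (nat_lit 156) (nat_lit 228) (nat_lit 0) (XT.nd (nat_lit 78) (nat_lit 76) (nat_lit 0) (XT.lf (nat_lit 0) (nat_lit 17011245697) (nat_lit 152) (nat_lit 4911071192) (nat_lit 228) (nat_lit 14580009503) (nat_lit 103) (nat_lit 5) (nat_lit 105) (nat_lit 5) (nat_lit 106) (nat_lit 5) (nat_lit 514) (nat_lit 415) (nat_lit 271)) (XT.lf (nat_lit 0) (nat_lit 3691283963) (nat_lit 76) (nat_lit 29593623616) (nat_lit 152) (nat_lit 3934630648) (nat_lit 102) (nat_lit 5) (nat_lit 103) (nat_lit 5) (nat_lit 104) (nat_lit 4) (nat_lit 515) (nat_lit 415) (nat_lit 270))) (XT.nd (nat_lit 78) (nat_lit 152) (nat_lit 0) (XT.lf (nat_lit 0) (nat_lit 7130047047) (nat_lit 152) (nat_lit 10121121778) (nat_lit 76) (nat_lit 20697956743)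 (nat_lit 101) (nat_lit 5) (nat_lit 103) (nat_lit 5) (nat_lit 102) (nat_lit 5) (nat_lit 516) (nat_lit 415) (nat_lit 269)) (XT.lf (nat_lit 0) (nat_lit 14207798005) (nat_lit 152) (nat_lit 4366383535) (nat_lit 228) (nat_lit 20121452416) (nat_lit 99) (nat_lit 5) (nat_lit 101) (nat_lit 5) (nat_lit 102) (nat_lit 5) (nat_lit 517) (nat_lit 415) (nat_lit 268)))) (XT.nd (nat_lit 156) (nat_lit 152) (nat_lit 0) (XT.nd (nat_lit 78) (nat_lit 152) (nat_lit 0) (XT.lf (nat_lit 0) (nat_lit 30540508930) (nat_lit 228) (nat_lit 92769143) (nat_lit 76) (nat_lit 8825893540) (nat_lit 99) (nat_lit 5) (nat_lit 102) (nat_lit 5) (nat_lit 100) (nat_lit 4) (nat_lit 518) (nat_lit 415) (nat_lit 267)) (XT.lf (nat_lit 0) (nat_lit 2850242883) (nat_lit 152) (nat_lit 14795481099) (nat_lit 76) (nat_lit 22590701029) (nat_lit 97) (nat_lit 5) (nat_lit 99) (nat_lit 5) (nat_lit 98) (nat_lit 5) (nat_lit 519) (nat_lit 415) (nat_lit 266))) (XT.nd (nat_lit 78)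 (nat_lit 0) (nat_lit 0) (XT.lf (nat_lit 0) (nat_lit 10810019644) (nat_lit 152) (nat_lit 4078155067) (nat_lit 228) (nat_lit 26143315808) (nat_lit 95) (nat_lit 5) (nat_lit 97) (nat_lit 5) (nat_lit 98) (nat_lit 5) (nat_lit 520) (nat_lit 415) (nat_lit 265)) (XT.lf (nat_lit 0) (nat_lit 27523642383) (nat_lit 228) (nat_lit 4473795419) (nat_lit 76) (nat_lit 9845878328) (nat_lit 95) (nat_lit 5) (nat_lit 98) (nat_lit 5) (nat_lit 96) (nat_lit 4) (nat_lit 521) (nat_lit 415) (nat_lit 264))))) (XT.nd (nat_lit 312) (nat_lit 380) (nat_lit 0) (XT.nd (nat_lit 156) (nat_lit 76) (nat_lit 0) (XT.nd (nat_lit 78) (nat_lit 228) (nat_lit 0) (XT.lf (nat_lit 0) (nat_lit 22425834589) (nat_lit 76) (nat_lit 18358950862) (nat_lit 152) (nat_lit 1887312791) (nat_lit 94) (nat_lit 5) (nat_lit 95) (nat_lit 5) (nat_lit 96) (nat_lit 4) (nat_lit 522) (nat_lit 415) (nat_lit 263)) (XT.lf (nat_lit 0) (nat_lit 6707544976) (nat_lit 152) (nat_lit 4098199699)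 (nat_lit 228) (nat_lit 32713827424) (nat_lit 91) (nat_lit 5) (nat_lit 93) (nat_lit 5) (nat_lit 94) (nat_lit 5) (nat_lit 523) (nat_lit 415) (nat_lit 262))) (XT.nd (nat_lit 78) (nat_lit 76) (nat_lit 0) (XT.lf (nat_lit 0) (nat_lit 24140631332) (nat_lit 228) (nat_lit 9641593808) (nat_lit 76) (nat_lit 10600715393) (nat_lit 91) (nat_lit 5) (nat_lit 94) (nat_lit 5) (nat_lit 92) (nat_lit 4) (nat_lit 524) (nat_lit 415) (nat_lit 261)) (XT.lf (nat_lit 0) (nat_lit 18650081456) (nat_lit 76) (nat_lit 19436303933) (nat_lit 152) (nat_lit 7179500071) (nat_lit 90) (nat_lit 5) (nat_lit 91) (nat_lit 5) (nat_lit 92) (nat_lit 4) (nat_lit 525) (nat_lit 415) (nat_lit 260)))) (XT.nd (nat_lit 156) (nat_lit 152) (nat_lit 0) (XT.nd (nat_lit 78) (nat_lit 0) (nat_lit 0) (XT.lf (nat_lit 0) (nat_lit 1771805843) (nat_lit 152) (nat_lit 4487271882) (nat_lit 228) (nat_lit 39911241362) (nat_lit 87) (nat_lit 5) (nat_lit 89) (nat_lit 5) (nat_lit 90)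 (nat_lit 5) (nat_lit 526) (nat_lit 415) (nat_lit 259)) (XT.lf (nat_lit 0) (nat_lit 20323815891) (nat_lit 228) (nat_lit 15733058115) (nat_lit 76) (nat_lit 11031860133) (nat_lit 87) (nat_lit 5) (nat_lit 90) (nat_lit 5) (nat_lit 88) (nat_lit 4) (nat_lit 527) (nat_lit 415) (nat_lit 258))) (XT.nd (nat_lit 78) (nat_lit 76) (nat_lit 0) (XT.lf (nat_lit 0) (nat_lit 14004455966) (nat_lit 76) (nat_lit 20976349781) (nat_lit 152) (nat_lit 13048786669) (nat_lit 86) (nat_lit 5) (nat_lit 87) (nat_lit 5) (nat_lit 88) (nat_lit 4) (nat_lit 528) (nat_lit 415) (nat_lit 257)) (XT.lf (nat_lit 0) (nat_lit 1209494188) (nat_lit 152) (nat_lit 4066009043) (nat_lit 76) (nat_lit 43718310636) (nat_lit 85) (nat_lit 5) (nat_lit 87) (nat_lit 5) (nat_lit 86) (nat_lit 5) (nat_lit 529) (nat_lit 415) (nat_lit 256))))))))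
noncomputable def xc131 : XT := (XT.nd (nat_lit 54210) (nat_lit 0) (nat_lit 13148) (XT.nd (nat_lit 1170) (nat_lit 456) (nat_lit 0) (XT.nd (nat_lit 546) (nat_lit 532) (nat_lit 0) (XT.nd (nat_lit 234) (nat_lit 456) (nat_lit 0) (XT.nd (nat_lit 78) (nat_lit 76) (nat_lit 0) (XT.lf (nat_lit 0) (nat_lit 15994553848) (nat_lit 228) (nat_lit 22907299084) (nat_lit 76) (nat_lit 11070394265) (nat_lit 83) (nat_lit 5) (nat_lit 86) (nat_lit 5) (nat_lit 84) (nat_lit 4) (nat_lit 530) (nat_lit 415) (nat_lit 255)) (XT.nd (nat_lit 78) (nat_lit 0) (nat_lit 0) (XT.lf (nat_lit 0) (nat_lit 8327958087) (nat_lit 76) (nat_lit 23060501544) (nat_lit 152) (nat_lit 19586615116) (nat_lit 82) (nat_lit 5) (nat_lit 83) (nat_lit 5) (nat_lit 84) (nat_lit 4) (nat_lit 531) (nat_lit 415) (nat_lit 254)) (XT.lf (nat_lit 0) (nat_lit 40953717314) (nat_lit 76) (nat_lit 6513418281) (nat_lit 152) (nat_lit 4534162989) (nat_lit 82) (nat_lit 5) (nat_lit 83) (nat_lit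 5) (nat_lit 84) (nat_lit 4) (nat_lit 532) (nat_lit 415) (nat_lit 253)))) (XT.nd (nat_lit 156) (nat_lit 152) (nat_lit 0) (XT.nd (nat_lit 78) (nat_lit 76) (nat_lit 0) (XT.lf (nat_lit 0) (nat_lit 11061460832) (nat_lit 228) (nat_lit 31349229195) (nat_lit 76) (nat_lit 10635285894) (nat_lit 79) (nat_lit 5) (nat_lit 82) (nat_lit 5) (nat_lit 80) (nat_lit 4) (nat_lit 533) (nat_lit 415) (nat_lit 252)) (XT.lf (nat_lit 0) (nat_lit 1432854029) (nat_lit 76) (nat_lit 25783706397) (nat_lit 152) (nat_lit 26898604240) (nat_lit 78) (nat_lit 5) (nat_lit 79) (nat_lit 5) (nat_lit 80) (nat_lit 4) (nat_lit 534) (nat_lit 415) (nat_lit 251))) (XT.nd (nat_lit 78) (nat_lit 152) (nat_lit 0) (XT.lf (nat_lit 0) (nat_lit 35825341612) (nat_lit 76) (nat_lit 8339437841) (nat_lit 152) (nat_lit 11042395670) (nat_lit 78) (nat_lit 5) (nat_lit 79) (nat_lit 5) (nat_lit 80) (nat_lit 4) (nat_lit 535) (nat_lit 415) (nat_lit 250)) (XT.lf (nat_lit 0) (nat_lit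 5418368078) (nat_lit 152) (nat_lit 41273719247) (nat_lit 76) (nat_lit 9631370651) (nat_lit 76) (nat_lit 5) (nat_lit 78) (nat_lit 5) (nat_lit 77) (nat_lit 4) (nat_lit 536) (nat_lit 415) (nat_lit 249))))) (XT.nd (nat_lit 312) (nat_lit 304) (nat_lit 0) (XT.nd (nat_lit 156) (nat_lit 152) (nat_lit 0) (XT.nd (nat_lit 78) (nat_lit 76) (nat_lit 0) (XT.lf (nat_lit 0) (nat_lit 22423311124) (nat_lit 152) (nat_lit 6765029913) (nat_lit 76) (nat_lit 28273439470) (nat_lit 76) (nat_lit 5) (nat_lit 78) (nat_lit 5) (nat_lit 77) (nat_lit 4) (nat_lit 537) (nat_lit 415) (nat_lit 248)) (XT.lf (nat_lit 0) (nat_lit 29336426310) (nat_lit 76) (nat_lit 10876279313) (nat_lit 152) (nat_lit 18413318035) (nat_lit 75) (nat_lit 5) (nat_lit 76) (nat_lit 5) (nat_lit 77) (nat_lit 4) (nat_lit 538) (nat_lit 415) (nat_lit 247))) (XT.nd (nat_lit 78) (nat_lit 76) (nat_lit 0) (XT.lf (nat_lit 0) (nat_lit 6878277629) (nat_lit 76) (nat_lit 51861686735) (nat_lit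 76) (nat_lit 1079104306) (nat_lit 74) (nat_lit 4) (nat_lit 75) (nat_lit 5) (nat_lit 75) (nat_lit 4) (nat_lit 539) (nat_lit 415) (nat_lit 246)) (XT.lf (nat_lit 0) (nat_lit 16846496577) (nat_lit 152) (nat_lit 16594274307) (nat_lit 76) (nat_lit 27590335477) (nat_lit 73) (nat_lit 5) (nat_lit 75) (nat_lit 5) (nat_lit 74) (nat_lit 4) (nat_lit 540) (nat_lit 415) (nat_lit 245)))) (XT.nd (nat_lit 156) (nat_lit 228) (nat_lit 0) (XT.nd (nat_lit 78) (nat_lit 0) (nat_lit 0) (XT.lf (nat_lit 0) (nat_lit 21231725245) (nat_lit 76) (nat_lit 14253089504) (nat_lit 152) (nat_lit 26788470795) (nat_lit 72) (nat_lit 5) (nat_lit 73) (nat_lit 5) (nat_lit 74) (nat_lit 4) (nat_lit 541) (nat_lit 415) (nat_lit 244)) (XT.lf (nat_lit 0) (nat_lit 54897035984) (nat_lit 152) (nat_lit 3084205852) (nat_lit 0) (nat_lit 5565045696) (nat_lit 72) (nat_lit 5) (nat_lit 74) (nat_lit 4) (nat_lit 72) (nat_lit 4) (nat_lit 542) (nat_lit 415) (nat_lit 243))) (XT.nd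 (nat_lit 78) (nat_lit 76) (nat_lit 0) (XT.lf (nat_lit 0) (nat_lit 10328577357) (nat_lit 152) (nat_lit 28373934139) (nat_lit 76) (nat_lit 26137367424) (nat_lit 70) (nat_lit 5) (nat_lit 72) (nat_lit 5) (nat_lit 71) (nat_lit 4) (nat_lit 543) (nat_lit 415) (nat_lit 242)) (XT.lf (nat_lit 0) (nat_lit 11213216326) (nat_lit 76) (nat_lit 18620703641) (nat_lit 152) (nat_lit 36331828420) (nat_lit 69) (nat_lit 5) (nat_lit 70) (nat_lit 5) (nat_lit 71) (nat_lit 4) (nat_lit 544) (nat_lit 415) (nat_lit 241)))))) (XT.nd (nat_lit 52416) (nat_lit 0) (nat_lit 23788) (XT.nd (nat_lit 312) (nat_lit 228) (nat_lit 0) (XT.nd (nat_lit 156) (nat_lit 76) (nat_lit 0) (XT.nd (nat_lit 78) (nat_lit 152) (nat_lit 0) (XT.lf (nat_lit 0) (nat_lit 50226406163) (nat_lit 152) (nat_lit 14989991070) (nat_lit 0) (nat_lit 2305937239) (nat_lit 69) (nat_lit 5) (nat_lit 71) (nat_lit 4) (nat_lit 69) (nat_lit 4) (nat_lit 545) (nat_lit 415) (nat_lit 240)) (XT.lf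 (nat_lit 0) (nat_lit 2702232296) (nat_lit 152) (nat_lit 42442894550) (nat_lit 76) (nat_lit 23760736453) (nat_lit 67) (nat_lit 5) (nat_lit 69) (nat_lit 5) (nat_lit 68) (nat_lit 4) (nat_lit 546) (nat_lit 415) (nat_lit 239))) (XT.nd (nat_lit 78) (nat_lit 76) (nat_lit 0) (XT.lf (nat_lit 0) (nat_lit 23098578743) (nat_lit 152) (nat_lit 1046036689) (nat_lit 76) (nat_lit 46176769020) (nat_lit 67) (nat_lit 5) (nat_lit 69) (nat_lit 5) (nat_lit 68) (nat_lit 4) (nat_lit 547) (nat_lit 415) (nat_lit 238)) (XT.lf (nat_lit 0) (nat_lit 42406906606) (nat_lit 76) (nat_lit 2100757708) (nat_lit 152) (nat_lit 27259681490) (nat_lit 66) (nat_lit 5) (nat_lit 67) (nat_lit 5) (nat_lit 68) (nat_lit 4) (nat_lit 548) (nat_lit 415) (nat_lit 237)))) (XT.nd (nat_lit 156) (nat_lit 76) (nat_lit 0) (XT.nd (nat_lit 78) (nat_lit 76) (nat_lit 0) (XT.lf (nat_lit 0) (nat_lit 13989999799) (nat_lit 76) (nat_lit 52905449098) (nat_lit 76) (nat_lit 6351144333)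 (nat_lit 65) (nat_lit 4) (nat_lit 66) (nat_lit 5) (nat_lit 66) (nat_lit 4) (nat_lit 549) (nat_lit 415) (nat_lit 236)) (XT.lf (nat_lit 0) (nat_lit 15201780036) (nat_lit 152) (nat_lit 15701555232) (nat_lit 76) (nat_lit 43853100762) (nat_lit 64) (nat_lit 5) (nat_lit 66) (nat_lit 5) (nat_lit 65) (nat_lit 4) (nat_lit 550) (nat_lit 415) (nat_lit 235))) (XT.nd (nat_lit 78) (nat_lit 0) (nat_lit 0) (XT.lf (nat_lit 0) (nat_lit 29663130048) (nat_lit 76) (nat_lit 7889068362) (nat_lit 152) (nat_lit 38749132509) (nat_lit 63) (nat_lit 5) (nat_lit 64) (nat_lit 5) (nat_lit 65) (nat_lit 4) (nat_lit 551) (nat_lit 415) (nat_lit 234)) (XT.lf (nat_lit 0) (nat_lit 60878709109) (nat_lit 152) (nat_lit 1343756628) (nat_lit 0) (nat_lit 15660939547) (nat_lit 63) (nat_lit 5) (nat_lit 65) (nat_lit 4) (nat_lit 63) (nat_lit 4) (nat_lit 552) (nat_lit 415) (nat_lit 233))))) (XT.nd (nat_lit 312) (nat_lit 912) (nat_lit 0) (XT.nd (nat_lit 156) (nat_lit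 912) (nat_lit 0) (XT.nd (nat_lit 78) (nat_lit 0) (nat_lit 0) (XT.lf (nat_lit 0) (nat_lit 1344505372) (nat_lit 0) (nat_lit 1344505372) (nat_lit 836) (nat_lit 1073715096) (nat_lit 400) (nat_lit 5) (nat_lit 400) (nat_lit 3) (nat_lit 411) (nat_lit 3) (nat_lit 416) (nat_lit 416) (nat_lit 368)) (XT.lf (nat_lit 0) (nat_lit 6522520106) (nat_lit 0) (nat_lit 368835601) (nat_lit 836) (nat_lit 703915687) (nat_lit 400) (nat_lit 5) (nat_lit 400) (nat_lit 3) (nat_lit 411) (nat_lit 3) (nat_lit 417) (nat_lit 416) (nat_lit 367))) (XT.nd (nat_lit 78) (nat_lit 0) (nat_lit 0) (XT.lf (nat_lit 0) (nat_lit 758320108) (nat_lit 912) (nat_lit 4865562775) (nat_lit 988) (nat_lit 2043359362) (nat_lit 388) (nat_lit 5) (nat_lit 400) (nat_lit 5) (nat_lit 401) (nat_lit 5) (nat_lit 418) (nat_lit 416) (nat_lit 366)) (XT.lf (nat_lit 0) (nat_lit 2210017907) (nat_lit 912) (nat_lit 968149478) (nat_lit 988) (nat_lit 4564206484) (nat_lit 388) (nat_lit 5)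 (nat_lit 400) (nat_lit 5) (nat_lit 401) (nat_lit 5) (nat_lit 419) (nat_lit 416) (nat_lit 365)))) (XT.nd (nat_lit 156) (nat_lit 912) (nat_lit 0) (XT.nd (nat_lit 78) (nat_lit 0) (nat_lit 76) (XT.lf (nat_lit 76) (nat_lit 3076405158) (nat_lit 0) (nat_lit 605182470) (nat_lit 988) (nat_lit 4138885119) (nat_lit 389) (nat_lit 5) (nat_lit 388) (nat_lit 5) (nat_lit 401) (nat_lit 5) (nat_lit 420) (nat_lit 416) (nat_lit 364)) (XT.lf (nat_lit 0) (nat_lit 5175067238) (nat_lit 912) (nat_lit 689532084) (nat_lit 988) (nat_lit 2036985235) (nat_lit 389) (nat_lit 5) (nat_lit 401) (nat_lit 5) (nat_lit 402) (nat_lit 5) (nat_lit 421) (nat_lit 416) (nat_lit 363))) (XT.nd (nat_lit 78) (nat_lit 988) (nat_lit 0) (XT.lf (nat_lit 76) (nat_lit 3518927320) (nat_lit 0) (nat_lit 3183981586) (nat_lit 988) (nat_lit 1282536849) (nat_lit 390) (nat_lit 5) (nat_lit 389) (nat_lit 5) (nat_lit 402) (nat_lit 5) (nat_lit 422) (nat_lit 416) (nat_lit 362))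 (XT.lf (nat_lit 0) (nat_lit 158224940) (nat_lit 988) (nat_lit 236954438) (nat_lit 1064) (nat_lit 7677863242) (nat_lit 376) (nat_lit 5) (nat_lit 389) (nat_lit 5) (nat_lit 390) (nat_lit 5) (nat_lit 423) (nat_lit 416) (nat_lit 361))))))) (XT.nd (nat_lit 1248) (nat_lit 5548) (nat_lit 0) (XT.nd (nat_lit 624) (nat_lit 4256) (nat_lit 0) (XT.nd (nat_lit 312) (nat_lit 912) (nat_lit 0) (XT.nd (nat_lit 156) (nat_lit 0) (nat_lit 76) (XT.nd (nat_lit 78) (nat_lit 0) (nat_lit 0) (XT.lf (nat_lit 0) (nat_lit 1632775645) (nat_lit 988) (nat_lit 4029883530) (nat_lit 1064) (nat_lit 2499739482) (nat_lit 377) (nat_lit 5) (nat_lit 390) (nat_lit 5) (nat_lit 391) (nat_lit 5) (nat_lit 424) (nat_lit 416) (nat_lit 360)) (XT.lf (nat_lit 76) (nat_lit 355100267) (nat_lit 0) (nat_lit 2759354196) (nat_lit 1064) (nat_lit 5141096621) (nat_lit 378) (nat_lit 5) (nat_lit 377) (nat_lit 5) (nat_lit 391) (nat_lit 5) (nat_lit 425) (nat_lit 416) (nat_lit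 359))) (XT.nd (nat_lit 78) (nat_lit 0) (nat_lit 0) (XT.lf (nat_lit 0) (nat_lit 4638256399) (nat_lit 988) (nat_lit 3431322404) (nat_lit 1064) (nat_lit 281991483) (nat_lit 378) (nat_lit 5) (nat_lit 391) (nat_lit 5) (nat_lit 392) (nat_lit 5) (nat_lit 426) (nat_lit 416) (nat_lit 358)) (XT.lf (nat_lit 76) (nat_lit 1134995255) (nat_lit 0) (nat_lit 5066692141) (nat_lit 1064) (nat_lit 2248967536) (nat_lit 379) (nat_lit 5) (nat_lit 378) (nat_lit 5) (nat_lit 392) (nat_lit 5) (nat_lit 427) (nat_lit 416) (nat_lit 357)))) (XT.nd (nat_lit 156) (nat_lit 0) (nat_lit 0) (XT.nd (nat_lit 78) (nat_lit 988) (nat_lit 0) (XT.lf (nat_lit 76) (nat_lit 5877239982) (nat_lit 0) (nat_lit 1926104264) (nat_lit 1064) (nat_lit 749630432) (nat_lit 379) (nat_lit 5) (nat_lit 378) (nat_lit 5) (nat_lit 392) (nat_lit 5) (nat_lit 428) (nat_lit 416) (nat_lit 356)) (XT.lf (nat_lit 0) (nat_lit 769898790) (nat_lit 1064) (nat_lit 6566266830) (nat_lit 1140)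 (nat_lit 1322249768) (nat_lit 365) (nat_lit 5) (nat_lit 379) (nat_lit 5) (nat_lit 380) (nat_lit 5) (nat_lit 429) (nat_lit 416) (nat_lit 355))) (XT.nd (nat_lit 78) (nat_lit 0) (nat_lit 0) (XT.lf (nat_lit 0) (nat_lit 2324861435) (nat_lit 1064) (nat_lit 1767426942) (nat_lit 1140) (nat_lit 4674362905) (nat_lit 365) (nat_lit 5) (nat_lit 379) (nat_lit 5) (nat_lit 380) (nat_lit 5) (nat_lit 430) (nat_lit 416) (nat_lit 354)) (XT.lf (nat_lit 76) (nat_lit 3206515291) (nat_lit 0) (nat_lit 710544578) (nat_lit 1140) (nat_lit 4961358777) (nat_lit 366) (nat_lit 5) (nat_lit 365) (nat_lit 5) (nat_lit 380) (nat_lit 5) (nat_lit 431) (nat_lit 416) (nat_lit 353))))) (XT.nd (nat_lit 312) (nat_lit 2052) (nat_lit 0) (XT.nd (nat_lit 156) (nat_lit 1216) (nat_lit 0) (XT.nd (nat_lit 78) (nat_lit 1064) (nat_lit 0) (XT.lf (nat_lit 0) (nat_lit 5562416776) (nat_lit 1064) (nat_lit 686313793) (nat_lit 76) (nat_lit 2744648626) (nat_lit 366) (nat_lit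 5) (nat_lit 380) (nat_lit 5) (nat_lit 367) (nat_lit 5) (nat_lit 432) (nat_lit 416) (nat_lit 352)) (XT.lf (nat_lit 0) (nat_lit 4498139211) (nat_lit 1064) (nat_lit 2771129178) (nat_lit 1140) (nat_lit 1842158033) (nat_lit 352) (nat_lit 5) (nat_lit 366) (nat_lit 5) (nat_lit 367) (nat_lit 5) (nat_lit 433) (nat_lit 416) (nat_lit 351))) (XT.nd (nat_lit 78) (nat_lit 76) (nat_lit 0) (XT.lf (nat_lit 0) (nat_lit 590735277) (nat_lit 1140) (nat_lit 8419792874) (nat_lit 1216) (nat_lit 222992664) (nat_lit 337) (nat_lit 5) (nat_lit 352) (nat_lit 5) (nat_lit 353) (nat_lit 5) (nat_lit 434) (nat_lit 416) (nat_lit 350)) (XT.lf (nat_lit 0) (nat_lit 1454184752) (nat_lit 1216) (nat_lit 3386955479) (nat_lit 76) (nat_lit 4516594022) (nat_lit 336) (nat_lit 5) (nat_lit 352) (nat_lit 5) (nat_lit 337) (nat_lit 5) (nat_lit 435) (nat_lit 416) (nat_lit 349)))) (XT.nd (nat_lit 156) (nat_lit 836) (nat_lit 0) (XT.nd (nat_lit 78) (nat_lit 0) (nat_lit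 0) (XT.lf (nat_lit 0) (nat_lit 2032215600) (nat_lit 1216) (nat_lit 1128734279) (nat_lit 1292) (nat_lit 6325147021) (nat_lit 320) (nat_lit 5) (nat_lit 336) (nat_lit 5) (nat_lit 337) (nat_lit 5) (nat_lit 436) (nat_lit 416) (nat_lit 348)) (XT.lf (nat_lit 0) (nat_lit 4944357994) (nat_lit 1292) (nat_lit 1992695810) (nat_lit 76) (nat_lit 2680495047) (nat_lit 320) (nat_lit 5) (nat_lit 337) (nat_lit 5) (nat_lit 321) (nat_lit 5) (nat_lit 437) (nat_lit 416) (nat_lit 347))) (XT.nd (nat_lit 78) (nat_lit 0) (nat_lit 0) (XT.lf (nat_lit 0) (nat_lit 3660979358) (nat_lit 836) (nat_lit 3132669147) (nat_lit 912) (nat_lit 2958926027) (nat_lit 309) (nat_lit 5) (nat_lit 320) (nat_lit 5) (nat_lit 321) (nat_lit 5) (nat_lit 438) (nat_lit 416) (nat_lit 346)) (XT.lf (nat_lit 0) (nat_lit 8693014577) (nat_lit 912) (nat_lit 406006478) (nat_lit 76) (nat_lit 792793555) (nat_lit 309) (nat_lit 5) (nat_lit 321) (nat_lit 5) (nat_lit 310) (nat_lit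 5) (nat_lit 439) (nat_lit 416) (nat_lit 345)))))) (XT.nd (nat_lit 624) (nat_lit 2508) (nat_lit 0) (XT.nd (nat_lit 312) (nat_lit 1216) (nat_lit 0) (XT.nd (nat_lit 156) (nat_lit 532) (nat_lit 0) (XT.nd (nat_lit 78) (nat_lit 608) (nat_lit 0) (XT.lf (nat_lit 0) (nat_lit 654182774) (nat_lit 684) (nat_lit 4545118485) (nat_lit 76) (nat_lit 4834193865) (nat_lit 300) (nat_lit 5) (nat_lit 309) (nat_lit 5) (nat_lit 301) (nat_lit 5) (nat_lit 440) (nat_lit 416) (nat_lit 344)) (XT.lf (nat_lit 0) (nat_lit 1371761093) (nat_lit 608) (nat_lit 1152243921) (nat_lit 684) (nat_lit 7655506022) (nat_lit 292) (nat_lit 5) (nat_lit 300) (nat_lit 5) (nat_lit 301) (nat_lit 5) (nat_lit 441) (nat_lit 416) (nat_lit 343))) (XT.nd (nat_lit 78) (nat_lit 532) (nat_lit 0) (XT.lf (nat_lit 0) (nat_lit 4493914182) (nat_lit 684) (nat_lit 2830999788) (nat_lit 76) (nat_lit 3003675049) (nat_lit 292) (nat_lit 5) (nat_lit 301) (nat_lit 5) (nat_lit 293) (nat_lit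 5) (nat_lit 442) (nat_lit 416) (nat_lit 342)) (XT.lf (nat_lit 0) (nat_lit 3347571012) (nat_lit 532) (nat_lit 3188497304) (nat_lit 608) (nat_lit 3945677913) (nat_lit 285) (nat_lit 5) (nat_lit 292) (nat_lit 5) (nat_lit 293) (nat_lit 5) (nat_lit 443) (nat_lit 416) (nat_lit 341)))) (XT.nd (nat_lit 156) (nat_lit 532) (nat_lit 0) (XT.nd (nat_lit 78) (nat_lit 684) (nat_lit 0) (XT.lf (nat_lit 0) (nat_lit 8648798792) (nat_lit 608) (nat_lit 911670561) (nat_lit 76) (nat_lit 1078750736) (nat_lit 285) (nat_lit 5) (nat_lit 293) (nat_lit 5) (nat_lit 286) (nat_lit 5) (nat_lit 444) (nat_lit 416) (nat_lit 340)) (XT.lf (nat_lit 0) (nat_lit 79445113) (nat_lit 684) (nat_lit 5257459982) (nat_lit 76) (nat_lit 5462815186) (nat_lit 276) (nat_lit 5) (nat_lit 285) (nat_lit 5) (nat_lit 277) (nat_lit 5) (nat_lit 445) (nat_lit 416) (nat_lit 339))) (XT.nd (nat_lit 78) (nat_lit 0) (nat_lit 0) (XT.lf (nat_lit 0) (nat_lit 1216364396) (nat_lit 532)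 (nat_lit 947299593) (nat_lit 608) (nat_lit 8801013590) (nat_lit 269) (nat_lit 5) (nat_lit 276) (nat_lit 5) (nat_lit 277) (nat_lit 5) (nat_lit 446) (nat_lit 416) (nat_lit 338)) (XT.lf (nat_lit 0) (nat_lit 4370164465) (nat_lit 608) (nat_lit 3207519556) (nat_lit 76) (nat_lit 3555108063) (nat_lit 269) (nat_lit 5) (nat_lit 277) (nat_lit 5) (nat_lit 270) (nat_lit 5) (nat_lit 447) (nat_lit 416) (nat_lit 337))))) (XT.nd (nat_lit 312) (nat_lit 988) (nat_lit 0) (XT.nd (nat_lit 156) (nat_lit 988) (nat_lit 0) (XT.nd (nat_lit 78) (nat_lit 0) (nat_lit 0) (XT.lf (nat_lit 0) (nat_lit 3558664057) (nat_lit 532) (nat_lit 3100388920) (nat_lit 608) (nat_lit 4646412365) (nat_lit 262) (nat_lit 5) (nat_lit 269) (nat_lit 5) (nat_lit 270) (nat_lit 5) (nat_lit 448) (nat_lit 416) (nat_lit 336)) (XT.lf (nat_lit 0) (nat_lit 9036919273) (nat_lit 608) (nat_lit 934976676) (nat_lit 76) (nat_lit 1510814586) (nat_lit 262) (nat_lit 5) (nat_lit 270)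 (nat_lit 5) (nat_lit 263) (nat_lit 5) (nat_lit 449) (nat_lit 416) (nat_lit 335))) (XT.nd (nat_lit 78) (nat_lit 532) (nat_lit 0) (XT.lf (nat_lit 0) (nat_lit 6139863944) (nat_lit 456) (nat_lit 5409832877) (nat_lit 532) (nat_lit 113670048) (nat_lit 256) (nat_lit 5) (nat_lit 262) (nat_lit 5) (nat_lit 263) (nat_lit 5) (nat_lit 450) (nat_lit 416) (nat_lit 334)) (XT.lf (nat_lit 0) (nat_lit 1574926544) (nat_lit 456) (nat_lit 667581723) (nat_lit 532) (nat_lit 9606313221) (nat_lit 249) (nat_lit 5) (nat_lit 255) (nat_lit 5) (nat_lit 256) (nat_lit 5) (nat_lit 451) (nat_lit 416) (nat_lit 333)))) (XT.nd (nat_lit 156) (nat_lit 532) (nat_lit 0) (XT.nd (nat_lit 78) (nat_lit 456) (nat_lit 0) (XT.lf (nat_lit 0) (nat_lit 4738442453) (nat_lit 532) (nat_lit 3111932624) (nat_lit 76) (nat_lit 4187291204) (nat_lit 249) (nat_lit 5) (nat_lit 256) (nat_lit 5) (nat_lit 250) (nat_lit 5) (nat_lit 452) (nat_lit 416) (nat_lit 332)) (XT.lf (nat_lit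 0) (nat_lit 4312243725) (nat_lit 456) (nat_lit 3020306177) (nat_lit 532) (nat_lit 4898928582) (nat_lit 243) (nat_lit 5) (nat_lit 249) (nat_lit 5) (nat_lit 250) (nat_lit 5) (nat_lit 453) (nat_lit 416) (nat_lit 331))) (XT.nd (nat_lit 78) (nat_lit 532) (nat_lit 0) (XT.lf (nat_lit 0) (nat_lit 10030619829) (nat_lit 532) (nat_lit 456890055) (nat_lit 76) (nat_lit 1942811894) (nat_lit 243) (nat_lit 5) (nat_lit 250) (nat_lit 5) (nat_lit 244) (nat_lit 5) (nat_lit 454) (nat_lit 416) (nat_lit 330)) (XT.lf (nat_lit 0) (nat_lit 248373290) (nat_lit 532) (nat_lit 5322831558) (nat_lit 76) (nat_lit 7061557738) (nat_lit 236) (nat_lit 5) (nat_lit 243) (nat_lit 5) (nat_lit 237) (nat_lit 5) (nat_lit 455) (nat_lit 416) (nat_lit 329))))))))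
noncomputable def xc132 : XT := (XT.nd (nat_lit 2418) (nat_lit 3648) (nat_lit 0) (XT.nd (nat_lit 1170) (nat_lit 3116) (nat_lit 0) (XT.nd (nat_lit 546) (nat_lit 1824) (nat_lit 0) (XT.nd (nat_lit 234) (nat_lit 836) (nat_lit 0) (XT.nd (nat_lit 78) (nat_lit 456) (nat_lit 0) (XT.lf (nat_lit 0) (nat_lit 2472576633) (nat_lit 380) (nat_lit 460010264) (nat_lit 456) (nat_lit 9907829929) (nat_lit 231) (nat_lit 5) (nat_lit 236) (nat_lit 5) (nat_lit 237) (nat_lit 5) (nat_lit 456) (nat_lit 416) (nat_lit 328)) (XT.nd (nat_lit 78) (nat_lit 456) (nat_lit 0) (XT.lf (nat_lit 0) (nat_lit 5774631914) (nat_lit 456) (nat_lit 2518634950) (nat_lit 76) (nat_lit 4758715478) (nat_lit 231) (nat_lit 5) (nat_lit 237) (nat_lit 5) (nat_lit 232) (nat_lit 5) (nat_lit 457) (nat_lit 416) (nat_lit 327)) (XT.lf (nat_lit 0) (nat_lit 5642281978) (nat_lit 456) (nat_lit 3095961201) (nat_lit 532) (nat_lit 4530563275) (nat_lit 225) (nat_lit 5) (nat_lit 231)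 (nat_lit 5) (nat_lit 232) (nat_lit 5) (nat_lit 458) (nat_lit 416) (nat_lit 326)))) (XT.nd (nat_lit 156) (nat_lit 380) (nat_lit 0) (XT.nd (nat_lit 78) (nat_lit 76) (nat_lit 0) (XT.lf (nat_lit 0) (nat_lit 567791905) (nat_lit 380) (nat_lit 11253634909) (nat_lit 456) (nat_lit 1669789307) (nat_lit 220) (nat_lit 5) (nat_lit 225) (nat_lit 5) (nat_lit 226) (nat_lit 5) (nat_lit 459) (nat_lit 416) (nat_lit 325)) (XT.lf (nat_lit 0) (nat_lit 1338291370) (nat_lit 456) (nat_lit 4627172841) (nat_lit 76) (nat_lit 7751874414) (nat_lit 219) (nat_lit 5) (nat_lit 225) (nat_lit 5) (nat_lit 220) (nat_lit 5) (nat_lit 460) (nat_lit 416) (nat_lit 324))) (XT.nd (nat_lit 78) (nat_lit 0) (nat_lit 0) (XT.lf (nat_lit 0) (nat_lit 3949601387) (nat_lit 380) (nat_lit 470029684) (nat_lit 456) (nat_lit 9529621115) (nat_lit 214) (nat_lit 5) (nat_lit 219) (nat_lit 5) (nat_lit 220) (nat_lit 5) (nat_lit 461) (nat_lit 416) (nat_lit 323)) (XT.lf (nat_lit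 0) (nat_lit 7669377716) (nat_lit 456) (nat_lit 1387723430) (nat_lit 76) (nat_lit 5128743673) (nat_lit 214) (nat_lit 5) (nat_lit 220) (nat_lit 5) (nat_lit 215) (nat_lit 5) (nat_lit 462) (nat_lit 416) (nat_lit 322))))) (XT.nd (nat_lit 312) (nat_lit 684) (nat_lit 0) (XT.nd (nat_lit 156) (nat_lit 380) (nat_lit 0) (XT.nd (nat_lit 78) (nat_lit 380) (nat_lit 0) (XT.lf (nat_lit 0) (nat_lit 7597840367) (nat_lit 380) (nat_lit 3475966914) (nat_lit 456) (nat_lit 3354012886) (nat_lit 209) (nat_lit 5) (nat_lit 214) (nat_lit 5) (nat_lit 215) (nat_lit 5) (nat_lit 463) (nat_lit 416) (nat_lit 321)) (XT.lf (nat_lit 0) (nat_lit 2197091317) (nat_lit 380) (nat_lit 12420149185) (nat_lit 456) (nat_lit 58708780) (nat_lit 204) (nat_lit 5) (nat_lit 209) (nat_lit 5) (nat_lit 210) (nat_lit 5) (nat_lit 464) (nat_lit 416) (nat_lit 320))) (XT.nd (nat_lit 78) (nat_lit 304) (nat_lit 0) (XT.lf (nat_lit 0) (nat_lit 3354308564) (nat_lit 456) (nat_lit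 3390333631) (nat_lit 76) (nat_lit 8183400572) (nat_lit 203) (nat_lit 5) (nat_lit 209) (nat_lit 5) (nat_lit 204) (nat_lit 5) (nat_lit 465) (nat_lit 416) (nat_lit 319)) (XT.lf (nat_lit 0) (nat_lit 6060664440) (nat_lit 304) (nat_lit 846590099) (nat_lit 380) (nat_lit 8279266114) (nat_lit 199) (nat_lit 5) (nat_lit 203) (nat_lit 5) (nat_lit 204) (nat_lit 5) (nat_lit 466) (nat_lit 416) (nat_lit 318)))) (XT.nd (nat_lit 156) (nat_lit 380) (nat_lit 0) (XT.nd (nat_lit 78) (nat_lit 0) (nat_lit 0) (XT.lf (nat_lit 0) (nat_lit 340930106) (nat_lit 304) (nat_lit 10294652188) (nat_lit 380) (nat_lit 4815107340) (nat_lit 195) (nat_lit 5) (nat_lit 199) (nat_lit 5) (nat_lit 200) (nat_lit 5) (nat_lit 467) (nat_lit 416) (nat_lit 317)) (XT.lf (nat_lit 0) (nat_lit 10242427362) (nat_lit 304) (nat_lit 4314763804) (nat_lit 380) (nat_lit 1163150123) (nat_lit 195) (nat_lit 5) (nat_lit 199) (nat_lit 5) (nat_lit 200) (nat_lit 5) (nat_lit 468) (nat_lit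 416) (nat_lit 316))) (XT.nd (nat_lit 78) (nat_lit 0) (nat_lit 0) (XT.lf (nat_lit 0) (nat_lit 2590375851) (nat_lit 380) (nat_lit 11537008415) (nat_lit 76) (nat_lit 1868668024) (nat_lit 190) (nat_lit 5) (nat_lit 195) (nat_lit 5) (nat_lit 191) (nat_lit 5) (nat_lit 469) (nat_lit 416) (nat_lit 315)) (XT.lf (nat_lit 0) (nat_lit 6513261195) (nat_lit 380) (nat_lit 1554332887) (nat_lit 76) (nat_lit 8209691594) (nat_lit 190) (nat_lit 5) (nat_lit 195) (nat_lit 5) (nat_lit 191) (nat_lit 5) (nat_lit 470) (nat_lit 416) (nat_lit 314)))))) (XT.nd (nat_lit 624) (nat_lit 1520) (nat_lit 0) (XT.nd (nat_lit 312) (nat_lit 608) (nat_lit 0) (XT.nd (nat_lit 156) (nat_lit 380) (nat_lit 0) (XT.nd (nat_lit 78) (nat_lit 304) (nat_lit 0) (XT.lf (nat_lit 0) (nat_lit 8874218470) (nat_lit 304) (nat_lit 1747003946) (nat_lit 380) (nat_lit 5943712451) (nat_lit 186) (nat_lit 5) (nat_lit 190) (nat_lit 5) (nat_lit 191) (nat_lit 5) (nat_lit 471) (nat_lit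 416) (nat_lit 313)) (XT.lf (nat_lit 0) (nat_lit 2767860036) (nat_lit 304) (nat_lit 12155073434) (nat_lit 380) (nat_lit 1936165204) (nat_lit 182) (nat_lit 5) (nat_lit 186) (nat_lit 5) (nat_lit 187) (nat_lit 5) (nat_lit 472) (nat_lit 416) (nat_lit 312))) (XT.nd (nat_lit 78) (nat_lit 304) (nat_lit 0) (XT.lf (nat_lit 0) (nat_lit 2226922605) (nat_lit 380) (nat_lit 3528086767) (nat_lit 76) (nat_lit 11404104042) (nat_lit 181) (nat_lit 5) (nat_lit 186) (nat_lit 5) (nat_lit 182) (nat_lit 5) (nat_lit 473) (nat_lit 416) (nat_lit 311)) (XT.lf (nat_lit 0) (nat_lit 6539345558) (nat_lit 380) (nat_lit 10022826912) (nat_lit 76) (nat_lit 903480732) (nat_lit 177) (nat_lit 5) (nat_lit 182) (nat_lit 5) (nat_lit 178) (nat_lit 5) (nat_lit 474) (nat_lit 416) (nat_lit 310)))) (XT.nd (nat_lit 156) (nat_lit 380) (nat_lit 0) (XT.nd (nat_lit 78) (nat_lit 0) (nat_lit 0) (XT.lf (nat_lit 0) (nat_lit 970048444) (nat_lit 228) (nat_lit 10096405916)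 (nat_lit 304) (nat_lit 6712375847) (nat_lit 174) (nat_lit 5) (nat_lit 177) (nat_lit 5) (nat_lit 178) (nat_lit 5) (nat_lit 475) (nat_lit 416) (nat_lit 309)) (XT.lf (nat_lit 0) (nat_lit 12472010831) (nat_lit 228) (nat_lit 3341848037) (nat_lit 304) (nat_lit 2285009586) (nat_lit 174) (nat_lit 5) (nat_lit 177) (nat_lit 5) (nat_lit 178) (nat_lit 5) (nat_lit 476) (nat_lit 416) (nat_lit 308))) (XT.nd (nat_lit 78) (nat_lit 0) (nat_lit 0) (XT.lf (nat_lit 0) (nat_lit 2307109020) (nat_lit 380) (nat_lit 12502855400) (nat_lit 76) (nat_lit 3615597850) (nat_lit 169) (nat_lit 5) (nat_lit 174) (nat_lit 5) (nat_lit 170) (nat_lit 5) (nat_lit 477) (nat_lit 416) (nat_lit 307)) (XT.lf (nat_lit 0) (nat_lit 7065276257) (nat_lit 380) (nat_lit 908389153) (nat_lit 76) (nat_lit 10785486800) (nat_lit 169) (nat_lit 5) (nat_lit 174) (nat_lit 5) (nat_lit 170) (nat_lit 5) (nat_lit 478) (nat_lit 416) (nat_lit 306))))) (XT.nd (nat_lit 312) (nat_lit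 760) (nat_lit 0) (XT.nd (nat_lit 156) (nat_lit 304) (nat_lit 0) (XT.nd (nat_lit 78) (nat_lit 228) (nat_lit 0) (XT.lf (nat_lit 0) (nat_lit 11227894948) (nat_lit 228) (nat_lit 830437608) (nat_lit 304) (nat_lit 7041653329) (nat_lit 166) (nat_lit 5) (nat_lit 169) (nat_lit 5) (nat_lit 170) (nat_lit 5) (nat_lit 479) (nat_lit 416) (nat_lit 305)) (XT.lf (nat_lit 0) (nat_lit 4291789910) (nat_lit 228) (nat_lit 13006998040) (nat_lit 304) (nat_lit 2149328750) (nat_lit 163) (nat_lit 5) (nat_lit 166) (nat_lit 5) (nat_lit 167) (nat_lit 5) (nat_lit 480) (nat_lit 416) (nat_lit 304))) (XT.nd (nat_lit 78) (nat_lit 228) (nat_lit 0) (XT.lf (nat_lit 0) (nat_lit 2906286164) (nat_lit 304) (nat_lit 2884444340) (nat_lit 76) (nat_lit 14012940607) (nat_lit 162) (nat_lit 5) (nat_lit 166) (nat_lit 5) (nat_lit 163) (nat_lit 5) (nat_lit 481) (nat_lit 416) (nat_lit 303)) (XT.lf (nat_lit 0) (nat_lit 8167272954) (nat_lit 304) (nat_lit 10280712514)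 (nat_lit 76) (nat_lit 1718361507) (nat_lit 159) (nat_lit 5) (nat_lit 163) (nat_lit 5) (nat_lit 160) (nat_lit 5) (nat_lit 482) (nat_lit 416) (nat_lit 302)))) (XT.nd (nat_lit 156) (nat_lit 532) (nat_lit 0) (XT.nd (nat_lit 78) (nat_lit 0) (nat_lit 0) (XT.lf (nat_lit 0) (nat_lit 2525894069) (nat_lit 228) (nat_lit 11156204540) (nat_lit 304) (nat_lit 6854924540) (nat_lit 156) (nat_lit 5) (nat_lit 159) (nat_lit 5) (nat_lit 160) (nat_lit 5) (nat_lit 483) (nat_lit 416) (nat_lit 301)) (XT.lf (nat_lit 0) (nat_lit 15902997935) (nat_lit 228) (nat_lit 3548367887) (nat_lit 304) (nat_lit 1464784184) (nat_lit 156) (nat_lit 5) (nat_lit 159) (nat_lit 5) (nat_lit 160) (nat_lit 5) (nat_lit 484) (nat_lit 416) (nat_lit 300))) (XT.nd (nat_lit 78) (nat_lit 228) (nat_lit 0) (XT.lf (nat_lit 0) (nat_lit 4116583117) (nat_lit 304) (nat_lit 12868915939) (nat_lit 76) (nat_lit 4316694996) (nat_lit 152) (nat_lit 5) (nat_lit 156) (nat_lit 5) (nat_lit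 153) (nat_lit 5) (nat_lit 485) (nat_lit 416) (nat_lit 299)) (XT.lf (nat_lit 0) (nat_lit 625507874) (nat_lit 228) (nat_lit 9288286478) (nat_lit 304) (nat_lit 11783254949) (nat_lit 149) (nat_lit 5) (nat_lit 152) (nat_lit 5) (nat_lit 153) (nat_lit 5) (nat_lit 486) (nat_lit 416) (nat_lit 298))))))) (XT.nd (nat_lit 1170) (nat_lit 1748) (nat_lit 0) (XT.nd (nat_lit 546) (nat_lit 988) (nat_lit 0) (XT.nd (nat_lit 234) (nat_lit 684) (nat_lit 0) (XT.nd (nat_lit 78) (nat_lit 228) (nat_lit 0) (XT.lf (nat_lit 0) (nat_lit 14764674273) (nat_lit 228) (nat_lit 1235963272) (nat_lit 304) (nat_lit 6099641462) (nat_lit 149) (nat_lit 5) (nat_lit 152) (nat_lit 5) (nat_lit 153) (nat_lit 5) (nat_lit 487) (nat_lit 416) (nat_lit 297)) (XT.nd (nat_lit 78) (nat_lit 76) (nat_lit 0) (XT.lf (nat_lit 0) (nat_lit 6854807684) (nat_lit 152) (nat_lit 15535105406) (nat_lit 228) (nat_lit 122097964) (nat_lit 147) (nat_lit 5) (nat_lit 149) (nat_lit 5) (nat_lit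 150) (nat_lit 5) (nat_lit 488) (nat_lit 416) (nat_lit 296)) (XT.lf (nat_lit 0) (nat_lit 5990192037) (nat_lit 228) (nat_lit 1407113062) (nat_lit 76) (nat_lit 15534854498) (nat_lit 146) (nat_lit 5) (nat_lit 149) (nat_lit 5) (nat_lit 147) (nat_lit 5) (nat_lit 489) (nat_lit 416) (nat_lit 295)))) (XT.nd (nat_lit 156) (nat_lit 304) (nat_lit 0) (XT.nd (nat_lit 78) (nat_lit 152) (nat_lit 0) (XT.lf (nat_lit 0) (nat_lit 12410473683) (nat_lit 304) (nat_lit 9862034778) (nat_lit 76) (nat_lit 1088555798) (nat_lit 143) (nat_lit 5) (nat_lit 147) (nat_lit 5) (nat_lit 144) (nat_lit 5) (nat_lit 490) (nat_lit 416) (nat_lit 294)) (XT.lf (nat_lit 0) (nat_lit 5081607078) (nat_lit 152) (nat_lit 14064817194) (nat_lit 228) (nat_lit 4652720206) (nat_lit 141) (nat_lit 5) (nat_lit 143) (nat_lit 5) (nat_lit 144) (nat_lit 5) (nat_lit 491) (nat_lit 416) (nat_lit 293))) (XT.nd (nat_lit 78) (nat_lit 228) (nat_lit 0) (XT.lf (nat_lit 0) (nat_lit 1885532526)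 (nat_lit 228) (nat_lit 3613279153) (nat_lit 76) (nat_lit 18748409654) (nat_lit 140) (nat_lit 5) (nat_lit 143) (nat_lit 5) (nat_lit 141) (nat_lit 5) (nat_lit 492) (nat_lit 416) (nat_lit 292)) (XT.lf (nat_lit 0) (nat_lit 8663370035) (nat_lit 304) (nat_lit 12625670338) (nat_lit 76) (nat_lit 3414209768) (nat_lit 137) (nat_lit 5) (nat_lit 141) (nat_lit 5) (nat_lit 138) (nat_lit 5) (nat_lit 493) (nat_lit 416) (nat_lit 291))))) (XT.nd (nat_lit 312) (nat_lit 380) (nat_lit 0) (XT.nd (nat_lit 156) (nat_lit 456) (nat_lit 0) (XT.nd (nat_lit 78) (nat_lit 0) (nat_lit 0) (XT.lf (nat_lit 0) (nat_lit 3125137136) (nat_lit 152) (nat_lit 12627864241) (nat_lit 228) (nat_lit 9416704881) (nat_lit 135) (nat_lit 5) (nat_lit 137) (nat_lit 5) (nat_lit 138) (nat_lit 5) (nat_lit 494) (nat_lit 416) (nat_lit 290)) (XT.lf (nat_lit 0) (nat_lit 19585093775) (nat_lit 152) (nat_lit 3585010080) (nat_lit 228) (nat_lit 2476608936) (nat_lit 135) (nat_lit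 5) (nat_lit 137) (nat_lit 5) (nat_lit 138) (nat_lit 5) (nat_lit 495) (nat_lit 416) (nat_lit 289))) (XT.nd (nat_lit 78) (nat_lit 152) (nat_lit 0) (XT.lf (nat_lit 0) (nat_lit 4725808855) (nat_lit 304) (nat_lit 15650656136) (nat_lit 76) (nat_lit 5755859088) (nat_lit 131) (nat_lit 5) (nat_lit 135) (nat_lit 5) (nat_lit 132) (nat_lit 5) (nat_lit 496) (nat_lit 416) (nat_lit 288)) (XT.lf (nat_lit 0) (nat_lit 950919543) (nat_lit 152) (nat_lit 11237656821) (nat_lit 228) (nat_lit 14440370262) (nat_lit 129) (nat_lit 5) (nat_lit 131) (nat_lit 5) (nat_lit 132) (nat_lit 5) (nat_lit 497) (nat_lit 416) (nat_lit 287)))) (XT.nd (nat_lit 156) (nat_lit 152) (nat_lit 0) (XT.nd (nat_lit 78) (nat_lit 228) (nat_lit 0) (XT.lf (nat_lit 0) (nat_lit 18349722276) (nat_lit 152) (nat_lit 1671300708) (nat_lit 228) (nat_lit 7115071159) (nat_lit 129) (nat_lit 5) (nat_lit 131) (nat_lit 5) (nat_lit 132) (nat_lit 5) (nat_lit 498) (nat_lit 416) (nat_lit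 286)) (XT.lf (nat_lit 0) (nat_lit 573209432) (nat_lit 228) (nat_lit 18978064538) (nat_lit 76) (nat_lit 8102509889) (nat_lit 126) (nat_lit 5) (nat_lit 129) (nat_lit 5) (nat_lit 127) (nat_lit 5) (nat_lit 499) (nat_lit 416) (nat_lit 285))) (XT.nd (nat_lit 78) (nat_lit 152) (nat_lit 0) (XT.lf (nat_lit 0) (nat_lit 8443336716) (nat_lit 228) (nat_lit 1451740831) (nat_lit 76) (nat_lit 18286987371) (nat_lit 126) (nat_lit 5) (nat_lit 129) (nat_lit 5) (nat_lit 127) (nat_lit 5) (nat_lit 500) (nat_lit 416) (nat_lit 284)) (XT.lf (nat_lit 0) (nat_lit 16702525061) (nat_lit 228) (nat_lit 11814026335) (nat_lit 76) (nat_lit 205054452) (nat_lit 124) (nat_lit 5) (nat_lit 127) (nat_lit 5) (nat_lit 125) (nat_lit 5) (nat_lit 501) (nat_lit 416) (nat_lit 283)))))) (XT.nd (nat_lit 624) (nat_lit 836) (nat_lit 0) (XT.nd (nat_lit 312) (nat_lit 380) (nat_lit 0) (XT.nd (nat_lit 156) (nat_lit 304) (nat_lit 0) (XT.nd (nat_lit 78) (nat_lit 76) (nat_lit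 0) (XT.lf (nat_lit 0) (nat_lit 6580085624) (nat_lit 152) (nat_lit 18793886285) (nat_lit 228) (nat_lit 3898426764) (nat_lit 122) (nat_lit 5) (nat_lit 124) (nat_lit 5) (nat_lit 125) (nat_lit 5) (nat_lit 502) (nat_lit 416) (nat_lit 282)) (XT.lf (nat_lit 0) (nat_lit 4487662620) (nat_lit 228) (nat_lit 4132819925) (nat_lit 76) (nat_lit 21214676212) (nat_lit 121) (nat_lit 5) (nat_lit 124) (nat_lit 5) (nat_lit 122) (nat_lit 5) (nat_lit 503) (nat_lit 416) (nat_lit 281))) (XT.nd (nat_lit 78) (nat_lit 152) (nat_lit 0) (XT.lf (nat_lit 0) (nat_lit 13201722984) (nat_lit 228) (nat_lit 15207471203) (nat_lit 76) (nat_lit 1999807365) (nat_lit 119) (nat_lit 5) (nat_lit 122) (nat_lit 5) (nat_lit 120) (nat_lit 5) (nat_lit 504) (nat_lit 416) (nat_lit 280)) (XT.lf (nat_lit 0) (nat_lit 4177358972) (nat_lit 152) (nat_lit 18156363805) (nat_lit 228) (nat_lit 8661641461) (nat_lit 117) (nat_lit 5) (nat_lit 119) (nat_lit 5) (nat_lit 120) (nat_lit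 5) (nat_lit 505) (nat_lit 416) (nat_lit 279)))) (XT.nd (nat_lit 156) (nat_lit 152) (nat_lit 0) (XT.nd (nat_lit 78) (nat_lit 152) (nat_lit 0) (XT.lf (nat_lit 0) (nat_lit 281599083) (nat_lit 228) (nat_lit 7162345464) (nat_lit 76) (nat_lit 24151013705) (nat_lit 116) (nat_lit 5) (nat_lit 119) (nat_lit 5) (nat_lit 117) (nat_lit 5) (nat_lit 506) (nat_lit 416) (nat_lit 278)) (XT.lf (nat_lit 0) (nat_lit 9472019969) (nat_lit 228) (nat_lit 19007148882) (nat_lit 76) (nat_lit 3726209390) (nat_lit 114) (nat_lit 5) (nat_lit 117) (nat_lit 5) (nat_lit 115) (nat_lit 5) (nat_lit 507) (nat_lit 416) (nat_lit 277))) (XT.nd (nat_lit 78) (nat_lit 0) (nat_lit 0) (XT.lf (nat_lit 0) (nat_lit 1418063843) (nat_lit 152) (nat_lit 17669718726) (nat_lit 228) (nat_lit 13741839508) (nat_lit 112) (nat_lit 5) (nat_lit 114) (nat_lit 5) (nat_lit 115) (nat_lit 5) (nat_lit 508) (nat_lit 416) (nat_lit 276)) (XT.lf (nat_lit 0) (nat_lit 22826163313) (nat_lit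 152) (nat_lit 6347168876) (nat_lit 228) (nat_lit 4293821731) (nat_lit 112) (nat_lit 5) (nat_lit 114) (nat_lit 5) (nat_lit 115) (nat_lit 5) (nat_lit 509) (nat_lit 416) (nat_lit 275))))) (XT.nd (nat_lit 312) (nat_lit 304) (nat_lit 0) (XT.nd (nat_lit 156) (nat_lit 304) (nat_lit 0) (XT.nd (nat_lit 78) (nat_lit 0) (nat_lit 0) (XT.lf (nat_lit 0) (nat_lit 5478395620) (nat_lit 228) (nat_lit 23278110971) (nat_lit 76) (nat_lit 5361331135) (nat_lit 109) (nat_lit 5) (nat_lit 112) (nat_lit 5) (nat_lit 110) (nat_lit 5) (nat_lit 510) (nat_lit 416) (nat_lit 274)) (XT.lf (nat_lit 0) (nat_lit 15618462504) (nat_lit 228) (nat_lit 1727418247) (nat_lit 76) (nat_lit 17436056472) (nat_lit 109) (nat_lit 5) (nat_lit 112) (nat_lit 5) (nat_lit 110) (nat_lit 5) (nat_lit 511) (nat_lit 416) (nat_lit 273))) (XT.nd (nat_lit 78) (nat_lit 152) (nat_lit 0) (XT.lf (nat_lit 0) (nat_lit 20858197235) (nat_lit 152) (nat_lit 5394962404) (nat_lit 228) (nat_lit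 9207087323) (nat_lit 107) (nat_lit 5) (nat_lit 109) (nat_lit 5) (nat_lit 110) (nat_lit 5) (nat_lit 512) (nat_lit 416) (nat_lit 272)) (XT.lf (nat_lit 0) (nat_lit 1180666021) (nat_lit 152) (nat_lit 28095327453) (nat_lit 76) (nat_lit 6878016665) (nat_lit 105) (nat_lit 5) (nat_lit 107) (nat_lit 5) (nat_lit 106) (nat_lit 5) (nat_lit 513) (nat_lit 416) (nat_lit 271)))) (XT.nd (nat_lit 156) (nat_lit 152) (nat_lit 0) (XT.nd (nat_lit 78) (nat_lit 152) (nat_lit 0) (XT.lf (nat_lit 0) (nat_lit 11887303808) (nat_lit 152) (nat_lit 5330300646) (nat_lit 76) (nat_lit 19642477918) (nat_lit 105) (nat_lit 5) (nat_lit 107) (nat_lit 5) (nat_lit 106) (nat_lit 5) (nat_lit 514) (nat_lit 416) (nat_lit 270)) (XT.lf (nat_lit 0) (nat_lit 18459769180) (nat_lit 152) (nat_lit 4623087775) (nat_lit 228) (nat_lit 14499448425) (nat_lit 103) (nat_lit 5) (nat_lit 105) (nat_lit 5) (nat_lit 106) (nat_lit 5) (nat_lit 515) (nat_lit 416) (nat_lit 269)))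 (XT.nd (nat_lit 78) (nat_lit 76) (nat_lit 0) (XT.lf (nat_lit 0) (nat_lit 4741810051) (nat_lit 76) (nat_lit 30042965052) (nat_lit 152) (nat_lit 3536305110) (nat_lit 102) (nat_lit 5) (nat_lit 103) (nat_lit 5) (nat_lit 104) (nat_lit 4) (nat_lit 516) (nat_lit 416) (nat_lit 268)) (XT.lf (nat_lit 0) (nat_lit 7835490523) (nat_lit 152) (nat_lit 9502553375) (nat_lit 76) (nat_lit 21734804886) (nat_lit 101) (nat_lit 5) (nat_lit 103) (nat_lit 5) (nat_lit 102) (nat_lit 5) (nat_lit 517) (nat_lit 416) (nat_lit 267))))))))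
noncomputable def xc133 : XT := (XT.nd (nat_lit 2418) (nat_lit 304) (nat_lit 0) (XT.nd (nat_lit 1170) (nat_lit 1140) (nat_lit 0) (XT.nd (nat_lit 546) (nat_lit 684) (nat_lit 0) (XT.nd (nat_lit 234) (nat_lit 456) (nat_lit 0) (XT.nd (nat_lit 78) (nat_lit 152) (nat_lit 0) (XT.lf (nat_lit 0) (nat_lit 15547192805) (nat_lit 152) (nat_lit 4070217347) (nat_lit 228) (nat_lit 20224508562) (nat_lit 99) (nat_lit 5) (nat_lit 101) (nat_lit 5) (nat_lit 102) (nat_lit 5) (nat_lit 518) (nat_lit 416) (nat_lit 266)) (XT.nd (nat_lit 78) (nat_lit 76) (nat_lit 0) (XT.lf (nat_lit 0) (nat_lit 817129839) (nat_lit 76) (nat_lit 31123283350) (nat_lit 152) (nat_lit 8688018859) (nat_lit 98) (nat_lit 5) (nat_lit 99) (nat_lit 5) (nat_lit 100) (nat_lit 4) (nat_lit 519) (nat_lit 416) (nat_lit 265)) (XT.lf (nat_lit 0) (nat_lit 3410923003) (nat_lit 152) (nat_lit 14341939476) (nat_lit 76) (nat_lit 23676396286) (nat_lit 97) (nat_lit 5) (nat_lit 99) (nat_lit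 5) (nat_lit 98) (nat_lit 5) (nat_lit 520) (nat_lit 416) (nat_lit 264)))) (XT.nd (nat_lit 156) (nat_lit 304) (nat_lit 0) (XT.nd (nat_lit 78) (nat_lit 0) (nat_lit 0) (XT.lf (nat_lit 0) (nat_lit 12022928190) (nat_lit 152) (nat_lit 3781766453) (nat_lit 228) (nat_lit 26443640650) (nat_lit 95) (nat_lit 5) (nat_lit 97) (nat_lit 5) (nat_lit 98) (nat_lit 5) (nat_lit 521) (nat_lit 416) (nat_lit 263)) (XT.lf (nat_lit 0) (nat_lit 28809448559) (nat_lit 228) (nat_lit 3735501730) (nat_lit 76) (nat_lit 10539858825) (nat_lit 95) (nat_lit 5) (nat_lit 98) (nat_lit 5) (nat_lit 96) (nat_lit 4) (nat_lit 522) (nat_lit 416) (nat_lit 262))) (XT.nd (nat_lit 78) (nat_lit 228) (nat_lit 0) (XT.lf (nat_lit 0) (nat_lit 23962563182) (nat_lit 76) (nat_lit 18500766706) (nat_lit 152) (nat_lit 1475277787) (nat_lit 94) (nat_lit 5) (nat_lit 95) (nat_lit 5) (nat_lit 96) (nat_lit 4) (nat_lit 523) (nat_lit 416) (nat_lit 261)) (XT.lf (nat_lit 0) (nat_lit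 7773313578) (nat_lit 152) (nat_lit 3811039434) (nat_lit 228) (nat_lit 33227169882) (nat_lit 91) (nat_lit 5) (nat_lit 93) (nat_lit 5) (nat_lit 94) (nat_lit 5) (nat_lit 524) (nat_lit 416) (nat_lit 260))))) (XT.nd (nat_lit 312) (nat_lit 380) (nat_lit 0) (XT.nd (nat_lit 156) (nat_lit 228) (nat_lit 0) (XT.nd (nat_lit 78) (nat_lit 76) (nat_lit 0) (XT.lf (nat_lit 0) (nat_lit 25309877640) (nat_lit 228) (nat_lit 9082068390) (nat_lit 76) (nat_lit 11309128705) (nat_lit 91) (nat_lit 5) (nat_lit 94) (nat_lit 5) (nat_lit 92) (nat_lit 4) (nat_lit 525) (nat_lit 416) (nat_lit 259)) (XT.lf (nat_lit 0) (nat_lit 20050035825) (nat_lit 76) (nat_lit 19619085470) (nat_lit 152) (nat_lit 6941533300) (nat_lit 90) (nat_lit 5) (nat_lit 91) (nat_lit 5) (nat_lit 92) (nat_lit 4) (nat_lit 526) (nat_lit 416) (nat_lit 258))) (XT.nd (nat_lit 78) (nat_lit 0) (nat_lit 0) (XT.lf (nat_lit 0) (nat_lit 2665934993) (nat_lit 152) (nat_lit 4220557522) (nat_lit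 228) (nat_lit 40655743949) (nat_lit 87) (nat_lit 5) (nat_lit 89) (nat_lit 5) (nat_lit 90) (nat_lit 5) (nat_lit 527) (nat_lit 416) (nat_lit 257)) (XT.lf (nat_lit 0) (nat_lit 21364113195) (nat_lit 228) (nat_lit 15379506833) (nat_lit 76) (nat_lit 11744855815) (nat_lit 87) (nat_lit 5) (nat_lit 90) (nat_lit 5) (nat_lit 88) (nat_lit 4) (nat_lit 528) (nat_lit 416) (nat_lit 256)))) (XT.nd (nat_lit 156) (nat_lit 228) (nat_lit 0) (XT.nd (nat_lit 78) (nat_lit 76) (nat_lit 0) (XT.lf (nat_lit 0) (nat_lit 15242039111) (nat_lit 76) (nat_lit 21214090212) (nat_lit 152) (nat_lit 13001571129) (nat_lit 86) (nat_lit 5) (nat_lit 87) (nat_lit 5) (nat_lit 88) (nat_lit 4) (nat_lit 529) (nat_lit 416) (nat_lit 255)) (XT.lf (nat_lit 0) (nat_lit 1663370208) (nat_lit 152) (nat_lit 3386035577) (nat_lit 76) (nat_lit 45401692168) (nat_lit 85) (nat_lit 5) (nat_lit 87) (nat_lit 5) (nat_lit 86) (nat_lit 5) (nat_lit 530) (nat_lit 416) (nat_lit 254)))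 (XT.nd (nat_lit 78) (nat_lit 76) (nat_lit 0) (XT.lf (nat_lit 0) (nat_lit 16891114792) (nat_lit 228) (nat_lit 22791694932) (nat_lit 76) (nat_lit 11776100639) (nat_lit 83) (nat_lit 5) (nat_lit 86) (nat_lit 5) (nat_lit 84) (nat_lit 4) (nat_lit 531) (nat_lit 416) (nat_lit 253)) (XT.lf (nat_lit 0) (nat_lit 9372749138) (nat_lit 76) (nat_lit 23369592576) (nat_lit 152) (nat_lit 19749615980) (nat_lit 82) (nat_lit 5) (nat_lit 83) (nat_lit 5) (nat_lit 84) (nat_lit 4) (nat_lit 532) (nat_lit 416) (nat_lit 252)))))) (XT.nd (nat_lit 624) (nat_lit 532) (nat_lit 0) (XT.nd (nat_lit 312) (nat_lit 304) (nat_lit 0) (XT.nd (nat_lit 156) (nat_lit 76) (nat_lit 0) (XT.nd (nat_lit 78) (nat_lit 228) (nat_lit 0) (XT.lf (nat_lit 0) (nat_lit 42954127191) (nat_lit 76) (nat_lit 6337244116) (nat_lit 152) (nat_lit 4257957210) (nat_lit 82) (nat_lit 5) (nat_lit 83) (nat_lit 5) (nat_lit 84) (nat_lit 4) (nat_lit 533) (nat_lit 416) (nat_lit 251)) (XT.lf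 (nat_lit 0) (nat_lit 11796721022) (nat_lit 228) (nat_lit 31509088863) (nat_lit 76) (nat_lit 11319440583) (nat_lit 79) (nat_lit 5) (nat_lit 82) (nat_lit 5) (nat_lit 80) (nat_lit 4) (nat_lit 534) (nat_lit 416) (nat_lit 250))) (XT.nd (nat_lit 78) (nat_lit 0) (nat_lit 0) (XT.lf (nat_lit 0) (nat_lit 2248803747) (nat_lit 76) (nat_lit 26183350069) (nat_lit 152) (nat_lit 27294490718) (nat_lit 78) (nat_lit 5) (nat_lit 79) (nat_lit 5) (nat_lit 80) (nat_lit 4) (nat_lit 535) (nat_lit 416) (nat_lit 249)) (XT.lf (nat_lit 0) (nat_lit 37650552440) (nat_lit 76) (nat_lit 8226642802) (nat_lit 152) (nat_lit 10974568853) (nat_lit 78) (nat_lit 5) (nat_lit 79) (nat_lit 5) (nat_lit 80) (nat_lit 4) (nat_lit 536) (nat_lit 416) (nat_lit 248)))) (XT.nd (nat_lit 156) (nat_lit 152) (nat_lit 0) (XT.nd (nat_lit 78) (nat_lit 0) (nat_lit 0) (XT.lf (nat_lit 0) (nat_lit 5971545643) (nat_lit 152) (nat_lit 41753004042) (nat_lit 76) (nat_lit 10276891245)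 (nat_lit 76) (nat_lit 5) (nat_lit 78) (nat_lit 5) (nat_lit 77) (nat_lit 4) (nat_lit 537) (nat_lit 416) (nat_lit 247)) (XT.lf (nat_lit 0) (nat_lit 23475259509) (nat_lit 152) (nat_lit 6231158691) (nat_lit 76) (nat_lit 29467836319) (nat_lit 76) (nat_lit 5) (nat_lit 78) (nat_lit 5) (nat_lit 77) (nat_lit 4) (nat_lit 538) (nat_lit 416) (nat_lit 246))) (XT.nd (nat_lit 78) (nat_lit 76) (nat_lit 0) (XT.lf (nat_lit 0) (nat_lit 30946117472) (nat_lit 76) (nat_lit 10848185628) (nat_lit 152) (nat_lit 18579242904) (nat_lit 75) (nat_lit 5) (nat_lit 76) (nat_lit 5) (nat_lit 77) (nat_lit 4) (nat_lit 539) (nat_lit 416) (nat_lit 245)) (XT.lf (nat_lit 0) (nat_lit 7814846254) (nat_lit 76) (nat_lit 53061931362) (nat_lit 76) (nat_lit 725622865) (nat_lit 74) (nat_lit 4) (nat_lit 75) (nat_lit 5) (nat_lit 75) (nat_lit 4) (nat_lit 540) (nat_lit 416) (nat_lit 244))))) (XT.nd (nat_lit 312) (nat_lit 228) (nat_lit 0) (XT.nd (nat_lit 156) (nat_lit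 152) (nat_lit 0) (XT.nd (nat_lit 78) (nat_lit 76) (nat_lit 0) (XT.lf (nat_lit 0) (nat_lit 17719197452) (nat_lit 152) (nat_lit 16375838967) (nat_lit 76) (nat_lit 28755982237) (nat_lit 73) (nat_lit 5) (nat_lit 75) (nat_lit 5) (nat_lit 74) (nat_lit 4) (nat_lit 541) (nat_lit 416) (nat_lit 243)) (XT.lf (nat_lit 0) (nat_lit 22577918379) (nat_lit 76) (nat_lit 14334866220) (nat_lit 152) (nat_lit 27217795083) (nat_lit 72) (nat_lit 5) (nat_lit 73) (nat_lit 5) (nat_lit 74) (nat_lit 4) (nat_lit 542) (nat_lit 416) (nat_lit 242))) (XT.nd (nat_lit 78) (nat_lit 152) (nat_lit 0) (XT.lf (nat_lit 0) (nat_lit 56900014639) (nat_lit 152) (nat_lit 2480788716) (nat_lit 0) (nat_lit 6061189158) (nat_lit 72) (nat_lit 5) (nat_lit 74) (nat_lit 4) (nat_lit 72) (nat_lit 4) (nat_lit 543) (nat_lit 416) (nat_lit 241)) (XT.lf (nat_lit 0) (nat_lit 10994245464) (nat_lit 152) (nat_lit 28528948969) (nat_lit 76) (nat_lit 27251205006) (nat_lit 70) (nat_lit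 5) (nat_lit 72) (nat_lit 5) (nat_lit 71) (nat_lit 4) (nat_lit 544) (nat_lit 416) (nat_lit 240)))) (XT.nd (nat_lit 156) (nat_lit 152) (nat_lit 0) (XT.nd (nat_lit 78) (nat_lit 0) (nat_lit 0) (XT.lf (nat_lit 0) (nat_lit 12238990489) (nat_lit 76) (nat_lit 18842021164) (nat_lit 152) (nat_lit 37059145485) (nat_lit 69) (nat_lit 5) (nat_lit 70) (nat_lit 5) (nat_lit 71) (nat_lit 4) (nat_lit 545) (nat_lit 416) (nat_lit 239)) (XT.lf (nat_lit 0) (nat_lit 52078165779) (nat_lit 152) (nat_lit 14763283999) (nat_lit 0) (nat_lit 2696204268) (nat_lit 69) (nat_lit 5) (nat_lit 71) (nat_lit 4) (nat_lit 69) (nat_lit 4) (nat_lit 546) (nat_lit 416) (nat_lit 238))) (XT.nd (nat_lit 78) (nat_lit 0) (nat_lit 0) (XT.lf (nat_lit 0) (nat_lit 3128038543) (nat_lit 152) (nat_lit 43039543680) (nat_lit 76) (nat_lit 24795113441) (nat_lit 67) (nat_lit 5) (nat_lit 69) (nat_lit 5) (nat_lit 68) (nat_lit 4) (nat_lit 547) (nat_lit 416) (nat_lit 237)) (XT.lf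 (nat_lit 0) (nat_lit 24126234434) (nat_lit 152) (nat_lit 420487978) (nat_lit 76) (nat_lit 47874261309) (nat_lit 67) (nat_lit 5) (nat_lit 69) (nat_lit 5) (nat_lit 68) (nat_lit 4) (nat_lit 548) (nat_lit 416) (nat_lit 236))))))) (XT.nd (nat_lit 53118) (nat_lit 0) (nat_lit 16872) (XT.nd (nat_lit 52494) (nat_lit 0) (nat_lit 23788) (XT.nd (nat_lit 52182) (nat_lit 0) (nat_lit 24624) (XT.nd (nat_lit 156) (nat_lit 152) (nat_lit 0) (XT.nd (nat_lit 78) (nat_lit 76) (nat_lit 0) (XT.lf (nat_lit 0) (nat_lit 44329603128) (nat_lit 76) (nat_lit 1844493850) (nat_lit 152) (nat_lit 27736331841) (nat_lit 66) (nat_lit 5) (nat_lit 67) (nat_lit 5) (nat_lit 68) (nat_lit 4) (nat_lit 549) (nat_lit 416) (nat_lit 235)) (XT.lf (nat_lit 0) (nat_lit 15060612615) (nat_lit 76) (nat_lit 54172492558) (nat_lit 76) (nat_lit 6200960830) (nat_lit 65) (nat_lit 4) (nat_lit 66) (nat_lit 5) (nat_lit 66) (nat_lit 4) (nat_lit 550) (nat_lit 416) (nat_lit 234)))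 (XT.nd (nat_lit 78) (nat_lit 76) (nat_lit 0) (XT.lf (nat_lit 0) (nat_lit 15982172467) (nat_lit 152) (nat_lit 15534191541) (nat_lit 76) (nat_lit 45473033763) (nat_lit 64) (nat_lit 5) (nat_lit 66) (nat_lit 5) (nat_lit 65) (nat_lit 4) (nat_lit 551) (nat_lit 416) (nat_lit 233)) (XT.lf (nat_lit 0) (nat_lit 31185175372) (nat_lit 76) (nat_lit 7814557879) (nat_lit 152) (nat_lit 39581007394) (nat_lit 63) (nat_lit 5) (nat_lit 64) (nat_lit 5) (nat_lit 65) (nat_lit 4) (nat_lit 552) (nat_lit 416) (nat_lit 232)))) (XT.nd (nat_lit 156) (nat_lit 0) (nat_lit 76) (XT.nd (nat_lit 78) (nat_lit 0) (nat_lit 0) (XT.lf (nat_lit 0) (nat_lit 348674522) (nat_lit 988) (nat_lit 1742091209) (nat_lit 988) (nat_lit 1742091209) (nat_lit 387) (nat_lit 3) (nat_lit 400) (nat_lit 3) (nat_lit 400) (nat_lit 5) (nat_lit 417) (nat_lit 417) (nat_lit 366)) (XT.lf (nat_lit 76) (nat_lit 341802580) (nat_lit 0) (nat_lit 1733161887) (nat_lit 988) (nat_lit 5664645292)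 (nat_lit 388) (nat_lit 5) (nat_lit 387) (nat_lit 3) (nat_lit 400) (nat_lit 5) (nat_lit 418) (nat_lit 417) (nat_lit 365))) (XT.nd (nat_lit 78) (nat_lit 0) (nat_lit 0) (XT.lf (nat_lit 0) (nat_lit 3483769888) (nat_lit 912) (nat_lit 3498419781) (nat_lit 988) (nat_lit 833839933) (nat_lit 388) (nat_lit 5) (nat_lit 400) (nat_lit 5) (nat_lit 401) (nat_lit 5) (nat_lit 419) (nat_lit 417) (nat_lit 364)) (XT.lf (nat_lit 76) (nat_lit 481235388) (nat_lit 0) (nat_lit 4423689739) (nat_lit 988) (nat_lit 2990717190) (nat_lit 389) (nat_lit 5) (nat_lit 388) (nat_lit 5) (nat_lit 401) (nat_lit 5) (nat_lit 420) (nat_lit 417) (nat_lit 363))))) (XT.nd (nat_lit 312) (nat_lit 0) (nat_lit 76) (XT.nd (nat_lit 156) (nat_lit 912) (nat_lit 0) (XT.nd (nat_lit 78) (nat_lit 0) (nat_lit 76) (XT.lf (nat_lit 76) (nat_lit 4623333688) (nat_lit 0) (nat_lit 1730238554) (nat_lit 988) (nat_lit 1624528221) (nat_lit 389) (nat_lit 5) (nat_lit 388) (nat_lit 5)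 (nat_lit 401) (nat_lit 5) (nat_lit 421) (nat_lit 417) (nat_lit 362)) (XT.lf (nat_lit 76) (nat_lit 802790043) (nat_lit 0) (nat_lit 7011844936) (nat_lit 988) (nat_lit 249331374) (nat_lit 390) (nat_lit 5) (nat_lit 389) (nat_lit 5) (nat_lit 402) (nat_lit 5) (nat_lit 422) (nat_lit 417) (nat_lit 361))) (XT.nd (nat_lit 78) (nat_lit 0) (nat_lit 0) (XT.lf (nat_lit 0) (nat_lit 1147559309) (nat_lit 988) (nat_lit 3056407823) (nat_lit 1064) (nat_lit 3948010664) (nat_lit 376) (nat_lit 5) (nat_lit 389) (nat_lit 5) (nat_lit 390) (nat_lit 5) (nat_lit 423) (nat_lit 417) (nat_lit 360)) (XT.lf (nat_lit 76) (nat_lit 1267473574) (nat_lit 0) (nat_lit 1279327034) (nat_lit 1064) (nat_lit 5696793718) (nat_lit 377) (nat_lit 5) (nat_lit 376) (nat_lit 5) (nat_lit 390) (nat_lit 5) (nat_lit 424) (nat_lit 417) (nat_lit 359)))) (XT.nd (nat_lit 156) (nat_lit 0) (nat_lit 0) (XT.nd (nat_lit 78) (nat_lit 0) (nat_lit 0) (XT.lf (nat_lit 0) (nat_lit 3990361224)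 (nat_lit 988) (nat_lit 2600812413) (nat_lit 1064) (nat_lit 1746717837) (nat_lit 377) (nat_lit 5) (nat_lit 390) (nat_lit 5) (nat_lit 391) (nat_lit 5) (nat_lit 425) (nat_lit 417) (nat_lit 358)) (XT.lf (nat_lit 76) (nat_lit 1900525137) (nat_lit 0) (nat_lit 3563477592) (nat_lit 1064) (nat_lit 2971413903) (nat_lit 378) (nat_lit 5) (nat_lit 377) (nat_lit 5) (nat_lit 391) (nat_lit 5) (nat_lit 426) (nat_lit 417) (nat_lit 357))) (XT.nd (nat_lit 78) (nat_lit 0) (nat_lit 76) (XT.lf (nat_lit 76) (nat_lit 6560858076) (nat_lit 0) (nat_lit 404101009) (nat_lit 1064) (nat_lit 1571417538) (nat_lit 378) (nat_lit 5) (nat_lit 377) (nat_lit 5) (nat_lit 391) (nat_lit 5) (nat_lit 427) (nat_lit 417) (nat_lit 356)) (XT.lf (nat_lit 76) (nat_lit 2716353226) (nat_lit 0) (nat_lit 5806326938) (nat_lit 1064) (nat_lit 117335353) (nat_lit 379) (nat_lit 5) (nat_lit 378) (nat_lit 5) (nat_lit 392) (nat_lit 5) (nat_lit 428) (nat_lit 417) (nat_lit 355))))))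 (XT.nd (nat_lit 624) (nat_lit 3876) (nat_lit 0) (XT.nd (nat_lit 312) (nat_lit 2128) (nat_lit 0) (XT.nd (nat_lit 156) (nat_lit 0) (nat_lit 76) (XT.nd (nat_lit 78) (nat_lit 0) (nat_lit 76) (XT.lf (nat_lit 0) (nat_lit 1336334691) (nat_lit 1064) (nat_lit 1204576818) (nat_lit 1140) (nat_lit 6205969016) (nat_lit 364) (nat_lit 5) (nat_lit 378) (nat_lit 5) (nat_lit 379) (nat_lit 5) (nat_lit 429) (nat_lit 417) (nat_lit 354)) (XT.lf (nat_lit 0) (nat_lit 2835125310) (nat_lit 1064) (nat_lit 5167887952) (nat_lit 1140) (nat_lit 853789304) (nat_lit 365) (nat_lit 5) (nat_lit 379) (nat_lit 5) (nat_lit 380) (nat_lit 5) (nat_lit 430) (nat_lit 417) (nat_lit 353))) (XT.nd (nat_lit 78) (nat_lit 0) (nat_lit 0) (XT.lf (nat_lit 0) (nat_lit 4377257333) (nat_lit 1064) (nat_lit 271549864) (nat_lit 1140) (nat_lit 4321265679) (nat_lit 365) (nat_lit 5) (nat_lit 379) (nat_lit 5) (nat_lit 380) (nat_lit 5) (nat_lit 431) (nat_lit 417) (nat_lit 352))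 (XT.lf (nat_lit 76) (nat_lit 4836425343) (nat_lit 0) (nat_lit 1137792291) (nat_lit 1140) (nat_lit 3112268616) (nat_lit 366) (nat_lit 5) (nat_lit 365) (nat_lit 5) (nat_lit 380) (nat_lit 5) (nat_lit 432) (nat_lit 417) (nat_lit 351)))) (XT.nd (nat_lit 156) (nat_lit 1216) (nat_lit 0) (XT.nd (nat_lit 78) (nat_lit 0) (nat_lit 0) (XT.lf (nat_lit 0) (nat_lit 859283548) (nat_lit 1064) (nat_lit 6757628708) (nat_lit 1140) (nat_lit 1589546833) (nat_lit 352) (nat_lit 5) (nat_lit 366) (nat_lit 5) (nat_lit 367) (nat_lit 5) (nat_lit 433) (nat_lit 417) (nat_lit 350)) (XT.lf (nat_lit 0) (nat_lit 6167312043) (nat_lit 1064) (nat_lit 3159406631) (nat_lit 1140) (nat_lit 2779284) (nat_lit 352) (nat_lit 5) (nat_lit 366) (nat_lit 5) (nat_lit 367) (nat_lit 5) (nat_lit 434) (nat_lit 417) (nat_lit 349))) (XT.nd (nat_lit 78) (nat_lit 0) (nat_lit 0) (XT.lf (nat_lit 0) (nat_lit 1590796154) (nat_lit 1216) (nat_lit 7286813396) (nat_lit 76) (nat_lit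 578418309) (nat_lit 336) (nat_lit 5) (nat_lit 352) (nat_lit 5) (nat_lit 337) (nat_lit 5) (nat_lit 435) (nat_lit 417) (nat_lit 348)) (XT.lf (nat_lit 0) (nat_lit 3260913856) (nat_lit 1216) (nat_lit 1922498258) (nat_lit 76) (nat_lit 4402078615) (nat_lit 336) (nat_lit 5) (nat_lit 352) (nat_lit 5) (nat_lit 337) (nat_lit 5) (nat_lit 436) (nat_lit 417) (nat_lit 347))))) (XT.nd (nat_lit 312) (nat_lit 1140) (nat_lit 0) (XT.nd (nat_lit 156) (nat_lit 1520) (nat_lit 0) (XT.nd (nat_lit 78) (nat_lit 0) (nat_lit 0) (XT.lf (nat_lit 0) (nat_lit 3643894366) (nat_lit 1216) (nat_lit 1338541435) (nat_lit 1292) (nat_lit 4736364240) (nat_lit 320) (nat_lit 5) (nat_lit 336) (nat_lit 5) (nat_lit 337) (nat_lit 5) (nat_lit 437) (nat_lit 417) (nat_lit 346)) (XT.lf (nat_lit 0) (nat_lit 6767413134) (nat_lit 1292) (nat_lit 494920027) (nat_lit 76) (nat_lit 2593422710) (nat_lit 320) (nat_lit 5) (nat_lit 337) (nat_lit 5) (nat_lit 321) (nat_lit 5)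 (nat_lit 438) (nat_lit 417) (nat_lit 345))) (XT.nd (nat_lit 78) (nat_lit 684) (nat_lit 0) (XT.lf (nat_lit 0) (nat_lit 5313095232) (nat_lit 836) (nat_lit 3325134149) (nat_lit 912) (nat_lit 1357623796) (nat_lit 309) (nat_lit 5) (nat_lit 320) (nat_lit 5) (nat_lit 321) (nat_lit 5) (nat_lit 439) (nat_lit 417) (nat_lit 344)) (XT.lf (nat_lit 0) (nat_lit 408396245) (nat_lit 684) (nat_lit 8993996727) (nat_lit 76) (nat_lit 737889071) (nat_lit 300) (nat_lit 5) (nat_lit 309) (nat_lit 5) (nat_lit 301) (nat_lit 5) (nat_lit 440) (nat_lit 417) (nat_lit 343)))) (XT.nd (nat_lit 156) (nat_lit 532) (nat_lit 0) (XT.nd (nat_lit 78) (nat_lit 608) (nat_lit 0) (XT.lf (nat_lit 0) (nat_lit 2249736460) (nat_lit 684) (nat_lit 3119049878) (nat_lit 76) (nat_lit 4918366747) (nat_lit 300) (nat_lit 5) (nat_lit 309) (nat_lit 5) (nat_lit 301) (nat_lit 5) (nat_lit 441) (nat_lit 417) (nat_lit 342)) (XT.lf (nat_lit 0) (nat_lit 2960018223) (nat_lit 608)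 (nat_lit 1184606036) (nat_lit 684) (nat_lit 6293858100) (nat_lit 292) (nat_lit 5) (nat_lit 300) (nat_lit 5) (nat_lit 301) (nat_lit 5) (nat_lit 442) (nat_lit 417) (nat_lit 341))) (XT.nd (nat_lit 78) (nat_lit 532) (nat_lit 0) (XT.lf (nat_lit 0) (nat_lit 6128654221) (nat_lit 684) (nat_lit 1368845211) (nat_lit 76) (nat_lit 3095884496) (nat_lit 292) (nat_lit 5) (nat_lit 301) (nat_lit 5) (nat_lit 293) (nat_lit 5) (nat_lit 443) (nat_lit 417) (nat_lit 340)) (XT.lf (nat_lit 0) (nat_lit 4979915217) (nat_lit 532) (nat_lit 3223196420) (nat_lit 608) (nat_lit 2548894954) (nat_lit 285) (nat_lit 5) (nat_lit 292) (nat_lit 5) (nat_lit 293) (nat_lit 5) (nat_lit 444) (nat_lit 417) (nat_lit 339))))))))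
noncomputable def xc134 : XT := (XT.nd (nat_lit 2418) (nat_lit 4636) (nat_lit 0) (XT.nd (nat_lit 1170) (nat_lit 3648) (nat_lit 0) (XT.nd (nat_lit 546) (nat_lit 2280) (nat_lit 0) (XT.nd (nat_lit 234) (nat_lit 1064) (nat_lit 0) (XT.nd (nat_lit 78) (nat_lit 608) (nat_lit 0) (XT.lf (nat_lit 0) (nat_lit 602367819) (nat_lit 608) (nat_lit 9740371881) (nat_lit 684) (nat_lit 572561336) (nat_lit 277) (nat_lit 5) (nat_lit 285) (nat_lit 5) (nat_lit 286) (nat_lit 5) (nat_lit 445) (nat_lit 417) (nat_lit 338)) (XT.nd (nat_lit 78) (nat_lit 532) (nat_lit 0) (XT.lf (nat_lit 0) (nat_lit 1497398439) (nat_lit 684) (nat_lit 3872315620) (nat_lit 76) (nat_lit 5711472906) (nat_lit 276) (nat_lit 5) (nat_lit 285) (nat_lit 5) (nat_lit 277) (nat_lit 5) (nat_lit 446) (nat_lit 417) (nat_lit 337)) (XT.lf (nat_lit 0) (nat_lit 2780597331) (nat_lit 532) (nat_lit 837001947) (nat_lit 608) (nat_lit 7634291727) (nat_lit 269) (nat_lit 5) (nat_lit 276)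 (nat_lit 5) (nat_lit 277) (nat_lit 5) (nat_lit 447) (nat_lit 417) (nat_lit 336)))) (XT.nd (nat_lit 156) (nat_lit 532) (nat_lit 0) (XT.nd (nat_lit 78) (nat_lit 532) (nat_lit 0) (XT.lf (nat_lit 0) (nat_lit 5851132310) (nat_lit 608) (nat_lit 1781283516) (nat_lit 76) (nat_lit 3793809628) (nat_lit 269) (nat_lit 5) (nat_lit 277) (nat_lit 5) (nat_lit 270) (nat_lit 5) (nat_lit 448) (nat_lit 417) (nat_lit 335)) (XT.lf (nat_lit 0) (nat_lit 5172959511) (nat_lit 532) (nat_lit 3010902924) (nat_lit 608) (nat_lit 3420962812) (nat_lit 262) (nat_lit 5) (nat_lit 269) (nat_lit 5) (nat_lit 270) (nat_lit 5) (nat_lit 449) (nat_lit 417) (nat_lit 334))) (XT.nd (nat_lit 78) (nat_lit 76) (nat_lit 0) (XT.lf (nat_lit 0) (nat_lit 548240428) (nat_lit 456) (nat_lit 10053204163) (nat_lit 532) (nat_lit 1186893352) (nat_lit 256) (nat_lit 5) (nat_lit 262) (nat_lit 5) (nat_lit 263) (nat_lit 5) (nat_lit 450) (nat_lit 417) (nat_lit 333)) (XT.lf (nat_lit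 0) (nat_lit 1162689107) (nat_lit 532) (nat_lit 4176752886) (nat_lit 76) (nat_lit 6635486681) (nat_lit 255) (nat_lit 5) (nat_lit 262) (nat_lit 5) (nat_lit 256) (nat_lit 5) (nat_lit 451) (nat_lit 417) (nat_lit 332))))) (XT.nd (nat_lit 312) (nat_lit 912) (nat_lit 0) (XT.nd (nat_lit 156) (nat_lit 912) (nat_lit 0) (XT.nd (nat_lit 78) (nat_lit 0) (nat_lit 0) (XT.lf (nat_lit 0) (nat_lit 3118687065) (nat_lit 456) (nat_lit 445758159) (nat_lit 532) (nat_lit 8602154040) (nat_lit 249) (nat_lit 5) (nat_lit 255) (nat_lit 5) (nat_lit 256) (nat_lit 5) (nat_lit 452) (nat_lit 417) (nat_lit 331)) (XT.lf (nat_lit 0) (nat_lit 6100970997) (nat_lit 532) (nat_lit 1718033541) (nat_lit 76) (nat_lit 4543134825) (nat_lit 249) (nat_lit 5) (nat_lit 256) (nat_lit 5) (nat_lit 250) (nat_lit 5) (nat_lit 453) (nat_lit 417) (nat_lit 330))) (XT.nd (nat_lit 78) (nat_lit 456) (nat_lit 0) (XT.lf (nat_lit 0) (nat_lit 5914287147) (nat_lit 456) (nat_lit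 2837225876) (nat_lit 532) (nat_lit 3810895899) (nat_lit 243) (nat_lit 5) (nat_lit 249) (nat_lit 5) (nat_lit 250) (nat_lit 5) (nat_lit 454) (nat_lit 417) (nat_lit 329)) (XT.lf (nat_lit 0) (nat_lit 1011331314) (nat_lit 456) (nat_lit 10496547571) (nat_lit 532) (nat_lit 1260019305) (nat_lit 237) (nat_lit 5) (nat_lit 243) (nat_lit 5) (nat_lit 244) (nat_lit 5) (nat_lit 455) (nat_lit 417) (nat_lit 328)))) (XT.nd (nat_lit 156) (nat_lit 456) (nat_lit 0) (XT.nd (nat_lit 78) (nat_lit 380) (nat_lit 0) (XT.lf (nat_lit 0) (nat_lit 1413774934) (nat_lit 532) (nat_lit 4011572337) (nat_lit 76) (nat_lit 7551619122) (nat_lit 236) (nat_lit 5) (nat_lit 243) (nat_lit 5) (nat_lit 237) (nat_lit 5) (nat_lit 456) (nat_lit 417) (nat_lit 327)) (XT.lf (nat_lit 0) (nat_lit 4003277079) (nat_lit 380) (nat_lit 155512150) (nat_lit 456) (nat_lit 9032653984) (nat_lit 231) (nat_lit 5) (nat_lit 236) (nat_lit 5) (nat_lit 237) (nat_lit 5) (nat_lit 457)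 (nat_lit 417) (nat_lit 326))) (XT.nd (nat_lit 78) (nat_lit 456) (nat_lit 0) (XT.lf (nat_lit 0) (nat_lit 7055913983) (nat_lit 456) (nat_lit 1149874013) (nat_lit 76) (nat_lit 5204474295) (nat_lit 231) (nat_lit 5) (nat_lit 237) (nat_lit 5) (nat_lit 232) (nat_lit 5) (nat_lit 458) (nat_lit 417) (nat_lit 325)) (XT.lf (nat_lit 0) (nat_lit 7241710423) (nat_lit 456) (nat_lit 2848197634) (nat_lit 532) (nat_lit 3544239947) (nat_lit 225) (nat_lit 5) (nat_lit 231) (nat_lit 5) (nat_lit 232) (nat_lit 5) (nat_lit 459) (nat_lit 417) (nat_lit 324)))))) (XT.nd (nat_lit 624) (nat_lit 1672) (nat_lit 0) (XT.nd (nat_lit 312) (nat_lit 1140) (nat_lit 0) (XT.nd (nat_lit 156) (nat_lit 380) (nat_lit 0) (XT.nd (nat_lit 78) (nat_lit 76) (nat_lit 0) (XT.lf (nat_lit 0) (nat_lit 2030123944) (nat_lit 380) (nat_lit 11220801917) (nat_lit 456) (nat_lit 612745021) (nat_lit 220) (nat_lit 5) (nat_lit 225) (nat_lit 5) (nat_lit 226) (nat_lit 5) (nat_lit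 460) (nat_lit 417) (nat_lit 323)) (XT.lf (nat_lit 0) (nat_lit 2432356340) (nat_lit 456) (nat_lit 3341776845) (nat_lit 76) (nat_lit 8323074146) (nat_lit 219) (nat_lit 5) (nat_lit 225) (nat_lit 5) (nat_lit 220) (nat_lit 5) (nat_lit 461) (nat_lit 417) (nat_lit 322))) (XT.nd (nat_lit 78) (nat_lit 0) (nat_lit 0) (XT.lf (nat_lit 0) (nat_lit 5478337755) (nat_lit 380) (nat_lit 110658057) (nat_lit 456) (nat_lit 8747597688) (nat_lit 214) (nat_lit 5) (nat_lit 219) (nat_lit 5) (nat_lit 220) (nat_lit 5) (nat_lit 462) (nat_lit 417) (nat_lit 321)) (XT.lf (nat_lit 0) (nat_lit 8909522985) (nat_lit 456) (nat_lit 33438113) (nat_lit 76) (nat_lit 5638125132) (nat_lit 214) (nat_lit 5) (nat_lit 220) (nat_lit 5) (nat_lit 215) (nat_lit 5) (nat_lit 463) (nat_lit 417) (nat_lit 320)))) (XT.nd (nat_lit 156) (nat_lit 304) (nat_lit 0) (XT.nd (nat_lit 78) (nat_lit 456) (nat_lit 0) (XT.lf (nat_lit 0) (nat_lit 9208007138) (nat_lit 380) (nat_lit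 3191945816) (nat_lit 456) (nat_lit 2430852790) (nat_lit 209) (nat_lit 5) (nat_lit 214) (nat_lit 5) (nat_lit 215) (nat_lit 5) (nat_lit 464) (nat_lit 417) (nat_lit 319)) (XT.lf (nat_lit 0) (nat_lit 932473450) (nat_lit 456) (nat_lit 11438334416) (nat_lit 76) (nat_lit 2715655128) (nat_lit 203) (nat_lit 5) (nat_lit 209) (nat_lit 5) (nat_lit 204) (nat_lit 5) (nat_lit 465) (nat_lit 417) (nat_lit 318))) (XT.nd (nat_lit 78) (nat_lit 304) (nat_lit 0) (XT.lf (nat_lit 0) (nat_lit 4417815011) (nat_lit 456) (nat_lit 2118929064) (nat_lit 76) (nat_lit 8810225213) (nat_lit 203) (nat_lit 5) (nat_lit 209) (nat_lit 5) (nat_lit 204) (nat_lit 5) (nat_lit 466) (nat_lit 417) (nat_lit 317)) (XT.lf (nat_lit 0) (nat_lit 7602137042) (nat_lit 304) (nat_lit 460237170) (nat_lit 380) (nat_lit 7551277381) (nat_lit 199) (nat_lit 5) (nat_lit 203) (nat_lit 5) (nat_lit 204) (nat_lit 5) (nat_lit 467) (nat_lit 417) (nat_lit 316))))) (XT.nd (nat_lit 312)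 (nat_lit 988) (nat_lit 0) (XT.nd (nat_lit 156) (nat_lit 380) (nat_lit 0) (XT.nd (nat_lit 78) (nat_lit 0) (nat_lit 0) (XT.lf (nat_lit 0) (nat_lit 1721747168) (nat_lit 304) (nat_lit 10170213493) (nat_lit 380) (nat_lit 3994103521) (nat_lit 195) (nat_lit 5) (nat_lit 199) (nat_lit 5) (nat_lit 200) (nat_lit 5) (nat_lit 468) (nat_lit 417) (nat_lit 315)) (XT.lf (nat_lit 0) (nat_lit 11880369269) (nat_lit 304) (nat_lit 4023548214) (nat_lit 380) (nat_lit 260707696) (nat_lit 195) (nat_lit 5) (nat_lit 199) (nat_lit 5) (nat_lit 200) (nat_lit 5) (nat_lit 469) (nat_lit 417) (nat_lit 314))) (XT.nd (nat_lit 78) (nat_lit 0) (nat_lit 0) (XT.lf (nat_lit 0) (nat_lit 3577344639) (nat_lit 380) (nat_lit 10524320351) (nat_lit 76) (nat_lit 2346966606) (nat_lit 190) (nat_lit 5) (nat_lit 195) (nat_lit 5) (nat_lit 191) (nat_lit 5) (nat_lit 470) (nat_lit 417) (nat_lit 313)) (XT.lf (nat_lit 0) (nat_lit 7591433315) (nat_lit 380) (nat_lit 281741207)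 (nat_lit 76) (nat_lit 8865922673) (nat_lit 190) (nat_lit 5) (nat_lit 195) (nat_lit 5) (nat_lit 191) (nat_lit 5) (nat_lit 471) (nat_lit 417) (nat_lit 312)))) (XT.nd (nat_lit 156) (nat_lit 380) (nat_lit 0) (XT.nd (nat_lit 78) (nat_lit 304) (nat_lit 0) (XT.lf (nat_lit 0) (nat_lit 10446733145) (nat_lit 304) (nat_lit 1362745195) (nat_lit 380) (nat_lit 5226292866) (nat_lit 186) (nat_lit 5) (nat_lit 190) (nat_lit 5) (nat_lit 191) (nat_lit 5) (nat_lit 472) (nat_lit 417) (nat_lit 311)) (XT.lf (nat_lit 0) (nat_lit 4166076545) (nat_lit 304) (nat_lit 12065553056) (nat_lit 380) (nat_lit 1107389333) (nat_lit 182) (nat_lit 5) (nat_lit 186) (nat_lit 5) (nat_lit 187) (nat_lit 5) (nat_lit 473) (nat_lit 417) (nat_lit 310))) (XT.nd (nat_lit 78) (nat_lit 304) (nat_lit 0) (XT.lf (nat_lit 0) (nat_lit 3137958417) (nat_lit 380) (nat_lit 2340231934) (nat_lit 76) (nat_lit 12170348455) (nat_lit 181) (nat_lit 5) (nat_lit 186) (nat_lit 5) (nat_lit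 182) (nat_lit 5) (nat_lit 474) (nat_lit 417) (nat_lit 309)) (XT.lf (nat_lit 0) (nat_lit 7571795433) (nat_lit 380) (nat_lit 9021835108) (nat_lit 76) (nat_lit 1370883623) (nat_lit 177) (nat_lit 5) (nat_lit 182) (nat_lit 5) (nat_lit 178) (nat_lit 5) (nat_lit 475) (nat_lit 417) (nat_lit 308))))))) (XT.nd (nat_lit 1248) (nat_lit 2052) (nat_lit 0) (XT.nd (nat_lit 624) (nat_lit 1216) (nat_lit 0) (XT.nd (nat_lit 312) (nat_lit 532) (nat_lit 0) (XT.nd (nat_lit 156) (nat_lit 608) (nat_lit 0) (XT.nd (nat_lit 78) (nat_lit 0) (nat_lit 0) (XT.lf (nat_lit 0) (nat_lit 2288064974) (nat_lit 228) (nat_lit 9934685001) (nat_lit 304) (nat_lit 6064696128) (nat_lit 174) (nat_lit 5) (nat_lit 177) (nat_lit 5) (nat_lit 178) (nat_lit 5) (nat_lit 476) (nat_lit 417) (nat_lit 307)) (XT.lf (nat_lit 0) (nat_lit 14097545016) (nat_lit 228) (nat_lit 2991022806) (nat_lit 304) (nat_lit 1529238519) (nat_lit 174) (nat_lit 5) (nat_lit 177) (nat_lit 5) (nat_lit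 178) (nat_lit 5) (nat_lit 477) (nat_lit 417) (nat_lit 306))) (XT.nd (nat_lit 78) (nat_lit 228) (nat_lit 0) (XT.lf (nat_lit 0) (nat_lit 3177487031) (nat_lit 380) (nat_lit 11603373521) (nat_lit 76) (nat_lit 4173415385) (nat_lit 169) (nat_lit 5) (nat_lit 174) (nat_lit 5) (nat_lit 170) (nat_lit 5) (nat_lit 478) (nat_lit 417) (nat_lit 305)) (XT.lf (nat_lit 0) (nat_lit 307809864) (nat_lit 228) (nat_lit 7750213381) (nat_lit 304) (nat_lit 11240462143) (nat_lit 166) (nat_lit 5) (nat_lit 169) (nat_lit 5) (nat_lit 170) (nat_lit 5) (nat_lit 479) (nat_lit 417) (nat_lit 304)))) (XT.nd (nat_lit 156) (nat_lit 304) (nat_lit 0) (XT.nd (nat_lit 78) (nat_lit 228) (nat_lit 0) (XT.lf (nat_lit 0) (nat_lit 12790044204) (nat_lit 228) (nat_lit 396991387) (nat_lit 304) (nat_lit 6462924068) (nat_lit 166) (nat_lit 5) (nat_lit 169) (nat_lit 5) (nat_lit 170) (nat_lit 5) (nat_lit 480) (nat_lit 417) (nat_lit 303)) (XT.lf (nat_lit 0) (nat_lit 5652280373)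 (nat_lit 228) (nat_lit 12926203742) (nat_lit 304) (nat_lit 1430237401) (nat_lit 163) (nat_lit 5) (nat_lit 166) (nat_lit 5) (nat_lit 167) (nat_lit 5) (nat_lit 481) (nat_lit 417) (nat_lit 302))) (XT.nd (nat_lit 78) (nat_lit 228) (nat_lit 0) (XT.lf (nat_lit 0) (nat_lit 3739378550) (nat_lit 304) (nat_lit 1760256034) (nat_lit 76) (nat_lit 14875753796) (nat_lit 162) (nat_lit 5) (nat_lit 166) (nat_lit 5) (nat_lit 163) (nat_lit 5) (nat_lit 482) (nat_lit 417) (nat_lit 301)) (XT.lf (nat_lit 0) (nat_lit 9152445762) (nat_lit 304) (nat_lit 9372647780) (nat_lit 76) (nat_lit 2224023913) (nat_lit 159) (nat_lit 5) (nat_lit 163) (nat_lit 5) (nat_lit 160) (nat_lit 5) (nat_lit 483) (nat_lit 417) (nat_lit 300))))) (XT.nd (nat_lit 312) (nat_lit 456) (nat_lit 0) (XT.nd (nat_lit 156) (nat_lit 532) (nat_lit 0) (XT.nd (nat_lit 78) (nat_lit 0) (nat_lit 0) (XT.lf (nat_lit 0) (nat_lit 3806230666) (nat_lit 228) (nat_lit 11016506584) (nat_lit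 304) (nat_lit 6308476477) (nat_lit 156) (nat_lit 5) (nat_lit 159) (nat_lit 5) (nat_lit 160) (nat_lit 5) (nat_lit 484) (nat_lit 417) (nat_lit 299)) (XT.lf (nat_lit 0) (nat_lit 17549563382) (nat_lit 228) (nat_lit 3194251844) (nat_lit 304) (nat_lit 778537613) (nat_lit 156) (nat_lit 5) (nat_lit 159) (nat_lit 5) (nat_lit 160) (nat_lit 5) (nat_lit 485) (nat_lit 417) (nat_lit 298))) (XT.nd (nat_lit 78) (nat_lit 228) (nat_lit 0) (XT.lf (nat_lit 0) (nat_lit 4950913993) (nat_lit 304) (nat_lit 12066123615) (nat_lit 76) (nat_lit 4902883677) (nat_lit 152) (nat_lit 5) (nat_lit 156) (nat_lit 5) (nat_lit 153) (nat_lit 5) (nat_lit 486) (nat_lit 417) (nat_lit 297)) (XT.lf (nat_lit 0) (nat_lit 1821477424) (nat_lit 228) (nat_lit 9091176265) (nat_lit 304) (nat_lit 11414250535) (nat_lit 149) (nat_lit 5) (nat_lit 152) (nat_lit 5) (nat_lit 153) (nat_lit 5) (nat_lit 487) (nat_lit 417) (nat_lit 296)))) (XT.nd (nat_lit 156) (nat_lit 228)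 (nat_lit 0) (XT.nd (nat_lit 78) (nat_lit 228) (nat_lit 0) (XT.lf (nat_lit 0) (nat_lit 16350531311) (nat_lit 228) (nat_lit 811140416) (nat_lit 304) (nat_lit 5581172393) (nat_lit 149) (nat_lit 5) (nat_lit 152) (nat_lit 5) (nat_lit 153) (nat_lit 5) (nat_lit 488) (nat_lit 417) (nat_lit 295)) (XT.lf (nat_lit 0) (nat_lit 559925021) (nat_lit 228) (nat_lit 14964542831) (nat_lit 76) (nat_lit 7642430772) (nat_lit 146) (nat_lit 5) (nat_lit 149) (nat_lit 5) (nat_lit 147) (nat_lit 5) (nat_lit 489) (nat_lit 417) (nat_lit 294))) (XT.nd (nat_lit 78) (nat_lit 228) (nat_lit 0) (XT.lf (nat_lit 0) (nat_lit 6833229717) (nat_lit 228) (nat_lit 321979125) (nat_lit 76) (nat_lit 16445003867) (nat_lit 146) (nat_lit 5) (nat_lit 149) (nat_lit 5) (nat_lit 147) (nat_lit 5) (nat_lit 490) (nat_lit 417) (nat_lit 293)) (XT.lf (nat_lit 0) (nat_lit 13441966703) (nat_lit 304) (nat_lit 9026384004) (nat_lit 76) (nat_lit 1573758738) (nat_lit 143) (nat_lit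 5) (nat_lit 147) (nat_lit 5) (nat_lit 144) (nat_lit 5) (nat_lit 491) (nat_lit 417) (nat_lit 292)))))) (XT.nd (nat_lit 624) (nat_lit 988) (nat_lit 0) (XT.nd (nat_lit 312) (nat_lit 456) (nat_lit 0) (XT.nd (nat_lit 156) (nat_lit 380) (nat_lit 0) (XT.nd (nat_lit 78) (nat_lit 76) (nat_lit 0) (XT.lf (nat_lit 0) (nat_lit 6354473855) (nat_lit 152) (nat_lit 14017092721) (nat_lit 228) (nat_lit 4122018703) (nat_lit 141) (nat_lit 5) (nat_lit 143) (nat_lit 5) (nat_lit 144) (nat_lit 5) (nat_lit 492) (nat_lit 417) (nat_lit 291)) (XT.lf (nat_lit 0) (nat_lit 2580160125) (nat_lit 228) (nat_lit 2621183424) (nat_lit 76) (nat_lit 19754142163) (nat_lit 140) (nat_lit 5) (nat_lit 143) (nat_lit 5) (nat_lit 141) (nat_lit 5) (nat_lit 493) (nat_lit 417) (nat_lit 290))) (XT.nd (nat_lit 78) (nat_lit 152) (nat_lit 0) (XT.lf (nat_lit 0) (nat_lit 9557642775) (nat_lit 304) (nat_lit 11900246251) (nat_lit 76) (nat_lit 3967417361) (nat_lit 137) (nat_lit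 5) (nat_lit 141) (nat_lit 5) (nat_lit 138) (nat_lit 5) (nat_lit 494) (nat_lit 417) (nat_lit 289)) (XT.lf (nat_lit 0) (nat_lit 4312260014) (nat_lit 152) (nat_lit 12539736329) (nat_lit 228) (nat_lit 9053999141) (nat_lit 135) (nat_lit 5) (nat_lit 137) (nat_lit 5) (nat_lit 138) (nat_lit 5) (nat_lit 495) (nat_lit 417) (nat_lit 288)))) (XT.nd (nat_lit 156) (nat_lit 152) (nat_lit 0) (XT.nd (nat_lit 78) (nat_lit 304) (nat_lit 0) (XT.lf (nat_lit 0) (nat_lit 21234169660) (nat_lit 152) (nat_lit 3239197432) (nat_lit 228) (nat_lit 1924492750) (nat_lit 135) (nat_lit 5) (nat_lit 137) (nat_lit 5) (nat_lit 138) (nat_lit 5) (nat_lit 496) (nat_lit 417) (nat_lit 287)) (XT.lf (nat_lit 0) (nat_lit 5478495469) (nat_lit 304) (nat_lit 15043132410) (nat_lit 76) (nat_lit 6376329570) (nat_lit 131) (nat_lit 5) (nat_lit 135) (nat_lit 5) (nat_lit 132) (nat_lit 5) (nat_lit 497) (nat_lit 417) (nat_lit 286))) (XT.nd (nat_lit 78) (nat_lit 0) (nat_lit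 0) (XT.lf (nat_lit 0) (nat_lit 2045931291) (nat_lit 152) (nat_lit 11111672847) (nat_lit 228) (nat_lit 14252101052) (nat_lit 129) (nat_lit 5) (nat_lit 131) (nat_lit 5) (nat_lit 132) (nat_lit 5) (nat_lit 498) (nat_lit 417) (nat_lit 285)) (XT.lf (nat_lit 0) (nat_lit 19935635460) (nat_lit 152) (nat_lit 1271814799) (nat_lit 228) (nat_lit 6725144344) (nat_lit 129) (nat_lit 5) (nat_lit 131) (nat_lit 5) (nat_lit 132) (nat_lit 5) (nat_lit 499) (nat_lit 417) (nat_lit 284))))) (XT.nd (nat_lit 312) (nat_lit 456) (nat_lit 0) (XT.nd (nat_lit 156) (nat_lit 304) (nat_lit 0) (XT.nd (nat_lit 78) (nat_lit 0) (nat_lit 0) (XT.lf (nat_lit 0) (nat_lit 1179097661) (nat_lit 228) (nat_lit 18497281755) (nat_lit 76) (nat_lit 8789349221) (nat_lit 126) (nat_lit 5) (nat_lit 129) (nat_lit 5) (nat_lit 127) (nat_lit 5) (nat_lit 500) (nat_lit 417) (nat_lit 283)) (XT.lf (nat_lit 0) (nat_lit 9268182395) (nat_lit 228) (nat_lit 475754493) (nat_lit 76)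 (nat_lit 19266435862) (nat_lit 126) (nat_lit 5) (nat_lit 129) (nat_lit 5) (nat_lit 127) (nat_lit 5) (nat_lit 501) (nat_lit 417) (nat_lit 282))) (XT.nd (nat_lit 78) (nat_lit 152) (nat_lit 0) (XT.lf (nat_lit 0) (nat_lit 17772480814) (nat_lit 228) (nat_lit 11146235463) (nat_lit 76) (nat_lit 647463823) (nat_lit 124) (nat_lit 5) (nat_lit 127) (nat_lit 5) (nat_lit 125) (nat_lit 5) (nat_lit 502) (nat_lit 417) (nat_lit 281)) (XT.lf (nat_lit 0) (nat_lit 7789678171) (nat_lit 152) (nat_lit 18907553366) (nat_lit 228) (nat_lit 3436470579) (nat_lit 122) (nat_lit 5) (nat_lit 124) (nat_lit 5) (nat_lit 125) (nat_lit 5) (nat_lit 503) (nat_lit 417) (nat_lit 280)))) (XT.nd (nat_lit 156) (nat_lit 228) (nat_lit 0) (XT.nd (nat_lit 78) (nat_lit 152) (nat_lit 0) (XT.lf (nat_lit 0) (nat_lit 5173372487) (nat_lit 228) (nat_lit 3263121350) (nat_lit 76) (nat_lit 22277180400) (nat_lit 121) (nat_lit 5) (nat_lit 124) (nat_lit 5) (nat_lit 122) (nat_lit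 5) (nat_lit 504) (nat_lit 417) (nat_lit 279)) (XT.lf (nat_lit 0) (nat_lit 14146486332) (nat_lit 228) (nat_lit 14667637153) (nat_lit 76) (nat_lit 2490680081) (nat_lit 119) (nat_lit 5) (nat_lit 122) (nat_lit 5) (nat_lit 120) (nat_lit 5) (nat_lit 505) (nat_lit 417) (nat_lit 278))) (XT.nd (nat_lit 78) (nat_lit 76) (nat_lit 0) (XT.lf (nat_lit 0) (nat_lit 5288972651) (nat_lit 152) (nat_lit 18256972425) (nat_lit 228) (nat_lit 8363007281) (nat_lit 117) (nat_lit 5) (nat_lit 119) (nat_lit 5) (nat_lit 120) (nat_lit 5) (nat_lit 506) (nat_lit 417) (nat_lit 277)) (XT.lf (nat_lit 0) (nat_lit 821683367) (nat_lit 228) (nat_lit 6409063174) (nat_lit 76) (nat_lit 25296105253) (nat_lit 116) (nat_lit 5) (nat_lit 119) (nat_lit 5) (nat_lit 117) (nat_lit 5) (nat_lit 507) (nat_lit 417) (nat_lit 276))))))))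
noncomputable def xc135 : XT := (XT.nd (nat_lit 2418) (nat_lit 912) (nat_lit 0) (XT.nd (nat_lit 1170) (nat_lit 1444) (nat_lit 0) (XT.nd (nat_lit 546) (nat_lit 760) (nat_lit 0) (XT.nd (nat_lit 234) (nat_lit 532) (nat_lit 0) (XT.nd (nat_lit 78) (nat_lit 152) (nat_lit 0) (XT.lf (nat_lit 0) (nat_lit 10285712649) (nat_lit 228) (nat_lit 18607100527) (nat_lit 76) (nat_lit 4262834512) (nat_lit 114) (nat_lit 5) (nat_lit 117) (nat_lit 5) (nat_lit 115) (nat_lit 5) (nat_lit 508) (nat_lit 417) (nat_lit 275)) (XT.nd (nat_lit 78) (nat_lit 0) (nat_lit 0) (XT.lf (nat_lit 0) (nat_lit 2421356200) (nat_lit 152) (nat_lit 17762403984) (nat_lit 228) (nat_lit 13615044467) (nat_lit 112) (nat_lit 5) (nat_lit 114) (nat_lit 5) (nat_lit 115) (nat_lit 5) (nat_lit 509) (nat_lit 417) (nat_lit 274)) (XT.lf (nat_lit 0) (nat_lit 24443715632) (nat_lit 152) (nat_lit 6112917628) (nat_lit 228) (nat_lit 3899286648) (nat_lit 112) (nat_lit 5) (nat_lit 114)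 (nat_lit 5) (nat_lit 115) (nat_lit 5) (nat_lit 510) (nat_lit 417) (nat_lit 273)))) (XT.nd (nat_lit 156) (nat_lit 304) (nat_lit 0) (XT.nd (nat_lit 78) (nat_lit 0) (nat_lit 0) (XT.lf (nat_lit 0) (nat_lit 6154015203) (nat_lit 228) (nat_lit 23031594151) (nat_lit 76) (nat_lit 5940420196) (nat_lit 109) (nat_lit 5) (nat_lit 112) (nat_lit 5) (nat_lit 110) (nat_lit 5) (nat_lit 511) (nat_lit 417) (nat_lit 272)) (XT.lf (nat_lit 0) (nat_lit 16583392801) (nat_lit 228) (nat_lit 861900844) (nat_lit 76) (nat_lit 18365205279) (nat_lit 109) (nat_lit 5) (nat_lit 112) (nat_lit 5) (nat_lit 110) (nat_lit 5) (nat_lit 512) (nat_lit 417) (nat_lit 271))) (XT.nd (nat_lit 78) (nat_lit 152) (nat_lit 0) (XT.lf (nat_lit 0) (nat_lit 22392289573) (nat_lit 152) (nat_lit 5139115292) (nat_lit 228) (nat_lit 8977925018) (nat_lit 107) (nat_lit 5) (nat_lit 109) (nat_lit 5) (nat_lit 110) (nat_lit 5) (nat_lit 513) (nat_lit 417) (nat_lit 270)) (XT.lf (nat_lit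 0) (nat_lit 1709938141) (nat_lit 152) (nat_lit 28018308555) (nat_lit 76) (nat_lit 7495563494) (nat_lit 105) (nat_lit 5) (nat_lit 107) (nat_lit 5) (nat_lit 106) (nat_lit 5) (nat_lit 514) (nat_lit 417) (nat_lit 269))))) (XT.nd (nat_lit 312) (nat_lit 456) (nat_lit 0) (XT.nd (nat_lit 156) (nat_lit 152) (nat_lit 0) (XT.nd (nat_lit 78) (nat_lit 152) (nat_lit 0) (XT.lf (nat_lit 0) (nat_lit 12723391020) (nat_lit 152) (nat_lit 4597123528) (nat_lit 76) (nat_lit 20630981702) (nat_lit 105) (nat_lit 5) (nat_lit 107) (nat_lit 5) (nat_lit 106) (nat_lit 5) (nat_lit 515) (nat_lit 417) (nat_lit 268)) (XT.lf (nat_lit 0) (nat_lit 19897892646) (nat_lit 152) (nat_lit 4351453749) (nat_lit 228) (nat_lit 14446203615) (nat_lit 103) (nat_lit 5) (nat_lit 105) (nat_lit 5) (nat_lit 106) (nat_lit 5) (nat_lit 516) (nat_lit 417) (nat_lit 267))) (XT.nd (nat_lit 78) (nat_lit 76) (nat_lit 0) (XT.lf (nat_lit 0) (nat_lit 5769904271) (nat_lit 76) (nat_lit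 30530956547) (nat_lit 152) (nat_lit 3155671239) (nat_lit 102) (nat_lit 5) (nat_lit 103) (nat_lit 5) (nat_lit 104) (nat_lit 4) (nat_lit 517) (nat_lit 417) (nat_lit 266)) (XT.lf (nat_lit 0) (nat_lit 8533880777) (nat_lit 152) (nat_lit 8918366090) (nat_lit 76) (nat_lit 22778883570) (nat_lit 101) (nat_lit 5) (nat_lit 103) (nat_lit 5) (nat_lit 102) (nat_lit 5) (nat_lit 518) (nat_lit 417) (nat_lit 265)))) (XT.nd (nat_lit 156) (nat_lit 228) (nat_lit 0) (XT.nd (nat_lit 78) (nat_lit 76) (nat_lit 0) (XT.lf (nat_lit 0) (nat_lit 16874350280) (nat_lit 152) (nat_lit 3789686773) (nat_lit 228) (nat_lit 20359392159) (nat_lit 99) (nat_lit 5) (nat_lit 101) (nat_lit 5) (nat_lit 102) (nat_lit 5) (nat_lit 519) (nat_lit 417) (nat_lit 264)) (XT.lf (nat_lit 0) (nat_lit 1703726621) (nat_lit 76) (nat_lit 31651705240) (nat_lit 152) (nat_lit 8478145149) (nat_lit 98) (nat_lit 5) (nat_lit 99) (nat_lit 5) (nat_lit 100) (nat_lit 4) (nat_lit 520)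 (nat_lit 417) (nat_lit 263))) (XT.nd (nat_lit 78) (nat_lit 152) (nat_lit 0) (XT.lf (nat_lit 0) (nat_lit 3961146661) (nat_lit 152) (nat_lit 13926306384) (nat_lit 76) (nat_lit 24771243011) (nat_lit 97) (nat_lit 5) (nat_lit 99) (nat_lit 5) (nat_lit 98) (nat_lit 5) (nat_lit 521) (nat_lit 417) (nat_lit 262)) (XT.lf (nat_lit 0) (nat_lit 13221214261) (nat_lit 152) (nat_lit 3500523183) (nat_lit 228) (nat_lit 26780757361) (nat_lit 95) (nat_lit 5) (nat_lit 97) (nat_lit 5) (nat_lit 98) (nat_lit 5) (nat_lit 522) (nat_lit 417) (nat_lit 261)))))) (XT.nd (nat_lit 624) (nat_lit 760) (nat_lit 0) (XT.nd (nat_lit 312) (nat_lit 380) (nat_lit 0) (XT.nd (nat_lit 156) (nat_lit 228) (nat_lit 0) (XT.nd (nat_lit 78) (nat_lit 76) (nat_lit 0) (XT.lf (nat_lit 0) (nat_lit 30107417475) (nat_lit 228) (nat_lit 3025144734) (nat_lit 76) (nat_lit 11231777229) (nat_lit 95) (nat_lit 5) (nat_lit 98) (nat_lit 5) (nat_lit 96) (nat_lit 4) (nat_lit 523)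 (nat_lit 417) (nat_lit 260)) (XT.lf (nat_lit 0) (nat_lit 25495799165) (nat_lit 76) (nat_lit 18670312582) (nat_lit 152) (nat_lit 1077784412) (nat_lit 94) (nat_lit 5) (nat_lit 95) (nat_lit 5) (nat_lit 96) (nat_lit 4) (nat_lit 524) (nat_lit 417) (nat_lit 259))) (XT.nd (nat_lit 78) (nat_lit 0) (nat_lit 0) (XT.lf (nat_lit 0) (nat_lit 8821426977) (nat_lit 152) (nat_lit 3538806138) (nat_lit 228) (nat_lit 33782781882) (nat_lit 91) (nat_lit 5) (nat_lit 93) (nat_lit 5) (nat_lit 94) (nat_lit 5) (nat_lit 525) (nat_lit 417) (nat_lit 258)) (XT.lf (nat_lit 0) (nat_lit 26488654946) (nat_lit 228) (nat_lit 8554480266) (nat_lit 76) (nat_lit 12016384327) (nat_lit 91) (nat_lit 5) (nat_lit 94) (nat_lit 5) (nat_lit 92) (nat_lit 4) (nat_lit 526) (nat_lit 417) (nat_lit 257)))) (XT.nd (nat_lit 156) (nat_lit 76) (nat_lit 0) (XT.nd (nat_lit 78) (nat_lit 228) (nat_lit 0) (XT.lf (nat_lit 0) (nat_lit 21443743446) (nat_lit 76) (nat_lit 19830329746)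 (nat_lit 152) (nat_lit 6722451772) (nat_lit 90) (nat_lit 5) (nat_lit 91) (nat_lit 5) (nat_lit 92) (nat_lit 4) (nat_lit 527) (nat_lit 417) (nat_lit 256)) (XT.lf (nat_lit 0) (nat_lit 3538612615) (nat_lit 152) (nat_lit 3968879859) (nat_lit 228) (nat_lit 41448576176) (nat_lit 87) (nat_lit 5) (nat_lit 89) (nat_lit 5) (nat_lit 90) (nat_lit 5) (nat_lit 528) (nat_lit 417) (nat_lit 255))) (XT.nd (nat_lit 78) (nat_lit 76) (nat_lit 0) (XT.lf (nat_lit 0) (nat_lit 22410902202) (nat_lit 228) (nat_lit 15062738559) (nat_lit 76) (nat_lit 12457310715) (nat_lit 87) (nat_lit 5) (nat_lit 90) (nat_lit 5) (nat_lit 88) (nat_lit 4) (nat_lit 529) (nat_lit 417) (nat_lit 254)) (XT.lf (nat_lit 0) (nat_lit 16469824808) (nat_lit 76) (nat_lit 21481439432) (nat_lit 152) (nat_lit 12978121100) (nat_lit 86) (nat_lit 5) (nat_lit 87) (nat_lit 5) (nat_lit 88) (nat_lit 4) (nat_lit 530) (nat_lit 417) (nat_lit 253))))) (XT.nd (nat_lit 312) (nat_lit 456)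 (nat_lit 0) (XT.nd (nat_lit 156) (nat_lit 76) (nat_lit 0) (XT.nd (nat_lit 78) (nat_lit 152) (nat_lit 0) (XT.lf (nat_lit 0) (nat_lit 2106891065) (nat_lit 152) (nat_lit 2731698331) (nat_lit 76) (nat_lit 47114230455) (nat_lit 85) (nat_lit 5) (nat_lit 87) (nat_lit 5) (nat_lit 86) (nat_lit 5) (nat_lit 531) (nat_lit 417) (nat_lit 252)) (XT.lf (nat_lit 0) (nat_lit 17790650883) (nat_lit 228) (nat_lit 22718707988) (nat_lit 76) (nat_lit 12481532349) (nat_lit 83) (nat_lit 5) (nat_lit 86) (nat_lit 5) (nat_lit 84) (nat_lit 4) (nat_lit 532) (nat_lit 417) (nat_lit 251))) (XT.nd (nat_lit 78) (nat_lit 0) (nat_lit 0) (XT.lf (nat_lit 0) (nat_lit 10403250407) (nat_lit 76) (nat_lit 23709926263) (nat_lit 152) (nat_lit 19941880509) (nat_lit 82) (nat_lit 5) (nat_lit 83) (nat_lit 5) (nat_lit 84) (nat_lit 4) (nat_lit 533) (nat_lit 417) (nat_lit 250)) (XT.lf (nat_lit 0) (nat_lit 44970244982) (nat_lit 76) (nat_lit 6177114750) (nat_lit 152)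 (nat_lit 3997128983) (nat_lit 82) (nat_lit 5) (nat_lit 83) (nat_lit 5) (nat_lit 84) (nat_lit 4) (nat_lit 534) (nat_lit 417) (nat_lit 249)))) (XT.nd (nat_lit 156) (nat_lit 152) (nat_lit 0) (XT.nd (nat_lit 78) (nat_lit 76) (nat_lit 0) (XT.lf (nat_lit 0) (nat_lit 12530881268) (nat_lit 228) (nat_lit 31718554943) (nat_lit 76) (nat_lit 12003161903) (nat_lit 79) (nat_lit 5) (nat_lit 82) (nat_lit 5) (nat_lit 80) (nat_lit 4) (nat_lit 535) (nat_lit 417) (nat_lit 248)) (XT.lf (nat_lit 0) (nat_lit 3044860655) (nat_lit 76) (nat_lit 26616444577) (nat_lit 152) (nat_lit 27725850985) (nat_lit 78) (nat_lit 5) (nat_lit 79) (nat_lit 5) (nat_lit 80) (nat_lit 4) (nat_lit 536) (nat_lit 417) (nat_lit 247))) (XT.nd (nat_lit 78) (nat_lit 152) (nat_lit 0) (XT.lf (nat_lit 0) (nat_lit 39487440660) (nat_lit 76) (nat_lit 8131300343) (nat_lit 152) (nat_lit 10927617128) (nat_lit 78) (nat_lit 5) (nat_lit 79) (nat_lit 5) (nat_lit 80) (nat_lit 4)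 (nat_lit 537) (nat_lit 417) (nat_lit 246)) (XT.lf (nat_lit 0) (nat_lit 6518894975) (nat_lit 152) (nat_lit 42290232883) (nat_lit 76) (nat_lit 10921308336) (nat_lit 76) (nat_lit 5) (nat_lit 78) (nat_lit 5) (nat_lit 77) (nat_lit 4) (nat_lit 538) (nat_lit 417) (nat_lit 245))))))) (XT.nd (nat_lit 53196) (nat_lit 0) (nat_lit 21812) (XT.nd (nat_lit 624) (nat_lit 380) (nat_lit 0) (XT.nd (nat_lit 312) (nat_lit 304) (nat_lit 0) (XT.nd (nat_lit 156) (nat_lit 152) (nat_lit 0) (XT.nd (nat_lit 78) (nat_lit 76) (nat_lit 0) (XT.lf (nat_lit 0) (nat_lit 24536995899) (nat_lit 152) (nat_lit 5723567936) (nat_lit 76) (nat_lit 30678192141) (nat_lit 76) (nat_lit 5) (nat_lit 78) (nat_lit 5) (nat_lit 77) (nat_lit 4) (nat_lit 539) (nat_lit 417) (nat_lit 244)) (XT.lf (nat_lit 0) (nat_lit 32562217438) (nat_lit 76) (nat_lit 10839592113) (nat_lit 152) (nat_lit 18772330745) (nat_lit 75) (nat_lit 5) (nat_lit 76) (nat_lit 5) (nat_lit 77) (nat_lit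 4) (nat_lit 540) (nat_lit 417) (nat_lit 243))) (XT.nd (nat_lit 78) (nat_lit 76) (nat_lit 0) (XT.lf (nat_lit 0) (nat_lit 8737594305) (nat_lit 76) (nat_lit 54318596564) (nat_lit 76) (nat_lit 383686611) (nat_lit 74) (nat_lit 4) (nat_lit 75) (nat_lit 5) (nat_lit 75) (nat_lit 4) (nat_lit 541) (nat_lit 417) (nat_lit 242)) (XT.lf (nat_lit 0) (nat_lit 18596994488) (nat_lit 152) (nat_lit 16191967026) (nat_lit 76) (nat_lit 29937199450) (nat_lit 73) (nat_lit 5) (nat_lit 75) (nat_lit 5) (nat_lit 74) (nat_lit 4) (nat_lit 542) (nat_lit 417) (nat_lit 241)))) (XT.nd (nat_lit 156) (nat_lit 228) (nat_lit 0) (XT.nd (nat_lit 78) (nat_lit 0) (nat_lit 0) (XT.lf (nat_lit 0) (nat_lit 23923783951) (nat_lit 76) (nat_lit 14438947489) (nat_lit 152) (nat_lit 27681487163) (nat_lit 72) (nat_lit 5) (nat_lit 73) (nat_lit 5) (nat_lit 74) (nat_lit 4) (nat_lit 543) (nat_lit 417) (nat_lit 240)) (XT.lf (nat_lit 0) (nat_lit 58942642918) (nat_lit 152)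 (nat_lit 1899219060) (nat_lit 0) (nat_lit 6553319951) (nat_lit 72) (nat_lit 5) (nat_lit 74) (nat_lit 4) (nat_lit 72) (nat_lit 4) (nat_lit 544) (nat_lit 417) (nat_lit 239))) (XT.nd (nat_lit 78) (nat_lit 76) (nat_lit 0) (XT.lf (nat_lit 0) (nat_lit 11659458620) (nat_lit 152) (nat_lit 28728579155) (nat_lit 76) (nat_lit 28379530636) (nat_lit 70) (nat_lit 5) (nat_lit 72) (nat_lit 5) (nat_lit 71) (nat_lit 4) (nat_lit 545) (nat_lit 417) (nat_lit 238)) (XT.lf (nat_lit 0) (nat_lit 13255964778) (nat_lit 76) (nat_lit 19089340817) (nat_lit 152) (nat_lit 37829098953) (nat_lit 69) (nat_lit 5) (nat_lit 70) (nat_lit 5) (nat_lit 71) (nat_lit 4) (nat_lit 546) (nat_lit 417) (nat_lit 237))))) (XT.nd (nat_lit 312) (nat_lit 152) (nat_lit 0) (XT.nd (nat_lit 156) (nat_lit 76) (nat_lit 0) (XT.nd (nat_lit 78) (nat_lit 152) (nat_lit 0) (XT.lf (nat_lit 0) (nat_lit 53965675642) (nat_lit 152) (nat_lit 14568604234) (nat_lit 0) (nat_lit 3079747491)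 (nat_lit 69) (nat_lit 5) (nat_lit 71) (nat_lit 4) (nat_lit 69) (nat_lit 4) (nat_lit 547) (nat_lit 417) (nat_lit 236)) (XT.lf (nat_lit 0) (nat_lit 3546829533) (nat_lit 152) (nat_lit 43692934057) (nat_lit 76) (nat_lit 25842063173) (nat_lit 67) (nat_lit 5) (nat_lit 69) (nat_lit 5) (nat_lit 68) (nat_lit 4) (nat_lit 548) (nat_lit 417) (nat_lit 235))) (XT.nd (nat_lit 78) (nat_lit 0) (nat_lit 0) (XT.lf (nat_lit 0) (nat_lit 189820823) (nat_lit 76) (nat_lit 24977510592) (nat_lit 152) (nat_lit 49416761279) (nat_lit 66) (nat_lit 5) (nat_lit 67) (nat_lit 5) (nat_lit 68) (nat_lit 4) (nat_lit 549) (nat_lit 417) (nat_lit 234)) (XT.lf (nat_lit 0) (nat_lit 46272639796) (nat_lit 76) (nat_lit 1598870434) (nat_lit 152) (nat_lit 28246864540) (nat_lit 66) (nat_lit 5) (nat_lit 67) (nat_lit 5) (nat_lit 68) (nat_lit 4) (nat_lit 550) (nat_lit 417) (nat_lit 233)))) (XT.nd (nat_lit 52104) (nat_lit 0) (nat_lit 24548) (XT.nd (nat_lit 78) (nat_lit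 76) (nat_lit 0) (XT.lf (nat_lit 0) (nat_lit 16125978757) (nat_lit 76) (nat_lit 55495923520) (nat_lit 76) (nat_lit 6065830418) (nat_lit 65) (nat_lit 4) (nat_lit 66) (nat_lit 5) (nat_lit 66) (nat_lit 4) (nat_lit 551) (nat_lit 417) (nat_lit 232)) (XT.lf (nat_lit 0) (nat_lit 16767358285) (nat_lit 152) (nat_lit 15398454305) (nat_lit 76) (nat_lit 47124094394) (nat_lit 64) (nat_lit 5) (nat_lit 66) (nat_lit 5) (nat_lit 65) (nat_lit 4) (nat_lit 552) (nat_lit 417) (nat_lit 231))) (XT.nd (nat_lit 78) (nat_lit 0) (nat_lit 0) (XT.lf (nat_lit 0) (nat_lit 1709893982) (nat_lit 988) (nat_lit 1098675719) (nat_lit 988) (nat_lit 1098675719) (nat_lit 387) (nat_lit 3) (nat_lit 400) (nat_lit 3) (nat_lit 400) (nat_lit 5) (nat_lit 418) (nat_lit 418) (nat_lit 364)) (XT.lf (nat_lit 76) (nat_lit 1729772362) (nat_lit 0) (nat_lit 3043517931) (nat_lit 988) (nat_lit 3119280885) (nat_lit 388) (nat_lit 5) (nat_lit 387) (nat_lit 3) (nat_lit 400)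 (nat_lit 5) (nat_lit 419) (nat_lit 418) (nat_lit 363)))))) (XT.nd (nat_lit 624) (nat_lit 1824) (nat_lit 0) (XT.nd (nat_lit 312) (nat_lit 0) (nat_lit 76) (XT.nd (nat_lit 156) (nat_lit 912) (nat_lit 0) (XT.nd (nat_lit 78) (nat_lit 0) (nat_lit 76) (XT.lf (nat_lit 76) (nat_lit 5793398931) (nat_lit 0) (nat_lit 345761858) (nat_lit 988) (nat_lit 1834683010) (nat_lit 388) (nat_lit 5) (nat_lit 387) (nat_lit 3) (nat_lit 400) (nat_lit 5) (nat_lit 420) (nat_lit 418) (nat_lit 362)) (XT.lf (nat_lit 76) (nat_lit 1907940775) (nat_lit 0) (nat_lit 5631061217) (nat_lit 988) (nat_lit 518765452) (nat_lit 389) (nat_lit 5) (nat_lit 388) (nat_lit 5) (nat_lit 401) (nat_lit 5) (nat_lit 421) (nat_lit 418) (nat_lit 361))) (XT.nd (nat_lit 78) (nat_lit 0) (nat_lit 76) (XT.lf (nat_lit 0) (nat_lit 797917226) (nat_lit 988) (nat_lit 2019531072) (nat_lit 1064) (nat_lit 5327193370) (nat_lit 375) (nat_lit 5) (nat_lit 388) (nat_lit 5) (nat_lit 389)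 (nat_lit 5) (nat_lit 422) (nat_lit 418) (nat_lit 360)) (XT.lf (nat_lit 0) (nat_lit 2119845186) (nat_lit 988) (nat_lit 5989739301) (nat_lit 1064) (nat_lit 125100854) (nat_lit 376) (nat_lit 5) (nat_lit 389) (nat_lit 5) (nat_lit 390) (nat_lit 5) (nat_lit 423) (nat_lit 418) (nat_lit 359)))) (XT.nd (nat_lit 156) (nat_lit 0) (nat_lit 76) (XT.nd (nat_lit 78) (nat_lit 0) (nat_lit 0) (XT.lf (nat_lit 0) (nat_lit 3484554233) (nat_lit 988) (nat_lit 1704601348) (nat_lit 1064) (nat_lit 3138183432) (nat_lit 376) (nat_lit 5) (nat_lit 389) (nat_lit 5) (nat_lit 390) (nat_lit 5) (nat_lit 424) (nat_lit 418) (nat_lit 358)) (XT.lf (nat_lit 76) (nat_lit 2734844543) (nat_lit 0) (nat_lit 2137602892) (nat_lit 1064) (nat_lit 3550859890) (nat_lit 377) (nat_lit 5) (nat_lit 376) (nat_lit 5) (nat_lit 390) (nat_lit 5) (nat_lit 425) (nat_lit 418) (nat_lit 357))) (XT.nd (nat_lit 78) (nat_lit 0) (nat_lit 0) (XT.lf (nat_lit 0) (nat_lit 6286151154)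 (nat_lit 988) (nat_lit 1217843645) (nat_lit 1064) (nat_lit 1018636924) (nat_lit 377) (nat_lit 5) (nat_lit 390) (nat_lit 5) (nat_lit 391) (nat_lit 5) (nat_lit 426) (nat_lit 418) (nat_lit 356)) (XT.lf (nat_lit 76) (nat_lit 3404210569) (nat_lit 0) (nat_lit 4350316664) (nat_lit 1064) (nat_lit 870042966) (nat_lit 378) (nat_lit 5) (nat_lit 377) (nat_lit 5) (nat_lit 391) (nat_lit 5) (nat_lit 427) (nat_lit 418) (nat_lit 355))))) (XT.nd (nat_lit 312) (nat_lit 912) (nat_lit 0) (XT.nd (nat_lit 156) (nat_lit 0) (nat_lit 76) (XT.nd (nat_lit 78) (nat_lit 0) (nat_lit 76) (XT.lf (nat_lit 0) (nat_lit 498236055) (nat_lit 1064) (nat_lit 573087596) (nat_lit 1140) (nat_lit 7658950224) (nat_lit 363) (nat_lit 5) (nat_lit 377) (nat_lit 5) (nat_lit 378) (nat_lit 5) (nat_lit 428) (nat_lit 418) (nat_lit 354)) (XT.lf (nat_lit 0) (nat_lit 1913917675) (nat_lit 1064) (nat_lit 4601173691) (nat_lit 1140) (nat_lit 2323085629) (nat_lit 364) (nat_lit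 5) (nat_lit 378) (nat_lit 5) (nat_lit 379) (nat_lit 5) (nat_lit 429) (nat_lit 418) (nat_lit 353))) (XT.nd (nat_lit 78) (nat_lit 0) (nat_lit 76) (XT.lf (nat_lit 76) (nat_lit 218933527) (nat_lit 0) (nat_lit 3132813946) (nat_lit 1140) (nat_lit 5598181343) (nat_lit 365) (nat_lit 5) (nat_lit 364) (nat_lit 5) (nat_lit 379) (nat_lit 5) (nat_lit 430) (nat_lit 418) (nat_lit 352)) (XT.lf (nat_lit 0) (nat_lit 4845082036) (nat_lit 1064) (nat_lit 3819138293) (nat_lit 1140) (nat_lit 400443649) (nat_lit 365) (nat_lit 5) (nat_lit 379) (nat_lit 5) (nat_lit 380) (nat_lit 5) (nat_lit 431) (nat_lit 418) (nat_lit 351)))) (XT.nd (nat_lit 156) (nat_lit 1064) (nat_lit 0) (XT.nd (nat_lit 78) (nat_lit 0) (nat_lit 0) (XT.lf (nat_lit 76) (nat_lit 1203780427) (nat_lit 0) (nat_lit 5185203931) (nat_lit 1140) (nat_lit 2793685634) (nat_lit 366) (nat_lit 5) (nat_lit 365) (nat_lit 5) (nat_lit 380) (nat_lit 5) (nat_lit 432) (nat_lit 418) (nat_lit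 350)) (XT.lf (nat_lit 76) (nat_lit 6427191205) (nat_lit 0) (nat_lit 1554555314) (nat_lit 1140) (nat_lit 1322395159) (nat_lit 366) (nat_lit 5) (nat_lit 365) (nat_lit 5) (nat_lit 380) (nat_lit 5) (nat_lit 433) (nat_lit 418) (nat_lit 349))) (XT.nd (nat_lit 78) (nat_lit 0) (nat_lit 0) (XT.lf (nat_lit 0) (nat_lit 198280294) (nat_lit 1140) (nat_lit 7056330934) (nat_lit 76) (nat_lit 2174321902) (nat_lit 351) (nat_lit 5) (nat_lit 366) (nat_lit 5) (nat_lit 352) (nat_lit 5) (nat_lit 434) (nat_lit 418) (nat_lit 348)) (XT.lf (nat_lit 0) (nat_lit 1748227386) (nat_lit 1140) (nat_lit 1775934863) (nat_lit 76) (nat_lit 6032608002) (nat_lit 351) (nat_lit 5) (nat_lit 366) (nat_lit 5) (nat_lit 352) (nat_lit 5) (nat_lit 435) (nat_lit 418) (nat_lit 347))))))))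
noncomputable def xc136 : XT := (XT.nd (nat_lit 2418) (nat_lit 5168) (nat_lit 0) (XT.nd (nat_lit 1170) (nat_lit 4484) (nat_lit 0) (XT.nd (nat_lit 546) (nat_lit 2888) (nat_lit 0) (XT.nd (nat_lit 234) (nat_lit 1520) (nat_lit 0) (XT.nd (nat_lit 78) (nat_lit 1216) (nat_lit 0) (XT.lf (nat_lit 0) (nat_lit 3350271068) (nat_lit 1216) (nat_lit 5984965482) (nat_lit 76) (nat_lit 353039570) (nat_lit 336) (nat_lit 5) (nat_lit 352) (nat_lit 5) (nat_lit 337) (nat_lit 5) (nat_lit 436) (nat_lit 418) (nat_lit 346)) (XT.nd (nat_lit 78) (nat_lit 1216) (nat_lit 0) (XT.lf (nat_lit 0) (nat_lit 5020635475) (nat_lit 1216) (nat_lit 504005909) (nat_lit 76) (nat_lit 4298479529) (nat_lit 336) (nat_lit 5) (nat_lit 352) (nat_lit 5) (nat_lit 337) (nat_lit 5) (nat_lit 437) (nat_lit 418) (nat_lit 345)) (XT.lf (nat_lit 0) (nat_lit 5214906265) (nat_lit 1216) (nat_lit 1544542835) (nat_lit 1292) (nat_lit 3202013287) (nat_lit 320) (nat_lit 5) (nat_lit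 336) (nat_lit 5) (nat_lit 337) (nat_lit 5) (nat_lit 438) (nat_lit 418) (nat_lit 344)))) (XT.nd (nat_lit 156) (nat_lit 608) (nat_lit 0) (XT.nd (nat_lit 78) (nat_lit 76) (nat_lit 0) (XT.lf (nat_lit 0) (nat_lit 977452523) (nat_lit 836) (nat_lit 7580967246) (nat_lit 912) (nat_lit 1545296001) (nat_lit 309) (nat_lit 5) (nat_lit 320) (nat_lit 5) (nat_lit 321) (nat_lit 5) (nat_lit 439) (nat_lit 418) (nat_lit 343)) (XT.lf (nat_lit 0) (nat_lit 190901260) (nat_lit 912) (nat_lit 3324890675) (nat_lit 76) (nat_lit 6733412039) (nat_lit 308) (nat_lit 5) (nat_lit 320) (nat_lit 5) (nat_lit 309) (nat_lit 5) (nat_lit 440) (nat_lit 418) (nat_lit 342))) (XT.nd (nat_lit 78) (nat_lit 0) (nat_lit 0) (XT.lf (nat_lit 0) (nat_lit 1950675513) (nat_lit 684) (nat_lit 7746901909) (nat_lit 76) (nat_lit 700945225) (nat_lit 300) (nat_lit 5) (nat_lit 309) (nat_lit 5) (nat_lit 301) (nat_lit 5) (nat_lit 441) (nat_lit 418) (nat_lit 341)) (XT.lf (nat_lit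 0) (nat_lit 3802692031) (nat_lit 684) (nat_lit 1739888637) (nat_lit 76) (nat_lit 5008558023) (nat_lit 300) (nat_lit 5) (nat_lit 309) (nat_lit 5) (nat_lit 301) (nat_lit 5) (nat_lit 442) (nat_lit 418) (nat_lit 340))))) (XT.nd (nat_lit 312) (nat_lit 1064) (nat_lit 0) (XT.nd (nat_lit 156) (nat_lit 684) (nat_lit 0) (XT.nd (nat_lit 78) (nat_lit 532) (nat_lit 0) (XT.lf (nat_lit 0) (nat_lit 4507112951) (nat_lit 608) (nat_lit 1218065602) (nat_lit 684) (nat_lit 4982708623) (nat_lit 292) (nat_lit 5) (nat_lit 300) (nat_lit 5) (nat_lit 301) (nat_lit 5) (nat_lit 443) (nat_lit 418) (nat_lit 339)) (XT.lf (nat_lit 0) (nat_lit 49327577) (nat_lit 532) (nat_lit 7677481356) (nat_lit 608) (nat_lit 3141886313) (nat_lit 285) (nat_lit 5) (nat_lit 292) (nat_lit 5) (nat_lit 293) (nat_lit 5) (nat_lit 444) (nat_lit 418) (nat_lit 338))) (XT.nd (nat_lit 78) (nat_lit 684) (nat_lit 0) (XT.lf (nat_lit 0) (nat_lit 6573291441) (nat_lit 532) (nat_lit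 3262435622) (nat_lit 608) (nat_lit 1197184504) (nat_lit 285) (nat_lit 5) (nat_lit 292) (nat_lit 5) (nat_lit 293) (nat_lit 5) (nat_lit 445) (nat_lit 418) (nat_lit 337)) (XT.lf (nat_lit 0) (nat_lit 796109517) (nat_lit 684) (nat_lit 9118722037) (nat_lit 76) (nat_lit 1286812246) (nat_lit 276) (nat_lit 5) (nat_lit 285) (nat_lit 5) (nat_lit 277) (nat_lit 5) (nat_lit 446) (nat_lit 418) (nat_lit 336)))) (XT.nd (nat_lit 156) (nat_lit 532) (nat_lit 0) (XT.nd (nat_lit 78) (nat_lit 532) (nat_lit 0) (XT.lf (nat_lit 0) (nat_lit 2876630856) (nat_lit 684) (nat_lit 2534183872) (nat_lit 76) (nat_lit 5962724026) (nat_lit 276) (nat_lit 5) (nat_lit 285) (nat_lit 5) (nat_lit 277) (nat_lit 5) (nat_lit 447) (nat_lit 418) (nat_lit 335)) (XT.lf (nat_lit 0) (nat_lit 4304058613) (nat_lit 532) (nat_lit 731358274) (nat_lit 608) (nat_lit 6514699240) (nat_lit 269) (nat_lit 5) (nat_lit 276) (nat_lit 5) (nat_lit 277) (nat_lit 5) (nat_lit 448) (nat_lit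 418) (nat_lit 334))) (XT.nd (nat_lit 78) (nat_lit 532) (nat_lit 0) (XT.lf (nat_lit 0) (nat_lit 7299041538) (nat_lit 608) (nat_lit 399655920) (nat_lit 76) (nat_lit 4032092126) (nat_lit 269) (nat_lit 5) (nat_lit 277) (nat_lit 5) (nat_lit 270) (nat_lit 5) (nat_lit 449) (nat_lit 418) (nat_lit 333)) (XT.lf (nat_lit 0) (nat_lit 6749145122) (nat_lit 532) (nat_lit 2929208461) (nat_lit 608) (nat_lit 2237097283) (nat_lit 262) (nat_lit 5) (nat_lit 269) (nat_lit 5) (nat_lit 270) (nat_lit 5) (nat_lit 450) (nat_lit 418) (nat_lit 332)))))) (XT.nd (nat_lit 624) (nat_lit 2128) (nat_lit 0) (XT.nd (nat_lit 312) (nat_lit 1368) (nat_lit 0) (XT.nd (nat_lit 156) (nat_lit 456) (nat_lit 0) (XT.nd (nat_lit 78) (nat_lit 0) (nat_lit 0) (XT.lf (nat_lit 0) (nat_lit 41631541) (nat_lit 532) (nat_lit 10098238650) (nat_lit 76) (nat_lit 1965215126) (nat_lit 255) (nat_lit 5) (nat_lit 262) (nat_lit 5) (nat_lit 256) (nat_lit 5) (nat_lit 451) (nat_lit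 418) (nat_lit 331)) (XT.lf (nat_lit 0) (nat_lit 2401721541) (nat_lit 532) (nat_lit 2877482296) (nat_lit 76) (nat_lit 7018802497) (nat_lit 255) (nat_lit 5) (nat_lit 262) (nat_lit 5) (nat_lit 256) (nat_lit 5) (nat_lit 452) (nat_lit 418) (nat_lit 330))) (XT.nd (nat_lit 78) (nat_lit 0) (nat_lit 0) (XT.lf (nat_lit 0) (nat_lit 4622854450) (nat_lit 456) (nat_lit 231163126) (nat_lit 532) (nat_lit 7642056179) (nat_lit 249) (nat_lit 5) (nat_lit 255) (nat_lit 5) (nat_lit 256) (nat_lit 5) (nat_lit 453) (nat_lit 418) (nat_lit 329)) (XT.lf (nat_lit 0) (nat_lit 7434320865) (nat_lit 532) (nat_lit 367692125) (nat_lit 76) (nat_lit 4896437904) (nat_lit 249) (nat_lit 5) (nat_lit 256) (nat_lit 5) (nat_lit 250) (nat_lit 5) (nat_lit 454) (nat_lit 418) (nat_lit 328)))) (XT.nd (nat_lit 156) (nat_lit 456) (nat_lit 0) (XT.nd (nat_lit 78) (nat_lit 456) (nat_lit 0) (XT.lf (nat_lit 0) (nat_lit 7479854238) (nat_lit 456) (nat_lit 2664364063) (nat_lit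 532) (nat_lit 2761116319) (nat_lit 243) (nat_lit 5) (nat_lit 249) (nat_lit 5) (nat_lit 250) (nat_lit 5) (nat_lit 455) (nat_lit 418) (nat_lit 327)) (XT.lf (nat_lit 0) (nat_lit 2447358755) (nat_lit 456) (nat_lit 10518919053) (nat_lit 532) (nat_lit 151221894) (nat_lit 237) (nat_lit 5) (nat_lit 243) (nat_lit 5) (nat_lit 244) (nat_lit 5) (nat_lit 456) (nat_lit 418) (nat_lit 326))) (XT.nd (nat_lit 78) (nat_lit 380) (nat_lit 0) (XT.lf (nat_lit 0) (nat_lit 2547667535) (nat_lit 532) (nat_lit 2745413552) (nat_lit 76) (nat_lit 8040411688) (nat_lit 236) (nat_lit 5) (nat_lit 243) (nat_lit 5) (nat_lit 237) (nat_lit 5) (nat_lit 457) (nat_lit 418) (nat_lit 325)) (XT.lf (nat_lit 0) (nat_lit 5357783192) (nat_lit 456) (nat_lit 8060018981) (nat_lit 76) (nat_lit 137120312) (nat_lit 231) (nat_lit 5) (nat_lit 237) (nat_lit 5) (nat_lit 232) (nat_lit 5) (nat_lit 458) (nat_lit 418) (nat_lit 324))))) (XT.nd (nat_lit 312) (nat_lit 1216) (nat_lit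 0) (XT.nd (nat_lit 156) (nat_lit 456) (nat_lit 0) (XT.nd (nat_lit 78) (nat_lit 0) (nat_lit 0) (XT.lf (nat_lit 0) (nat_lit 180563317) (nat_lit 456) (nat_lit 8133200673) (nat_lit 532) (nat_lit 5467384957) (nat_lit 225) (nat_lit 5) (nat_lit 231) (nat_lit 5) (nat_lit 232) (nat_lit 5) (nat_lit 459) (nat_lit 418) (nat_lit 323)) (XT.lf (nat_lit 0) (nat_lit 8807024688) (nat_lit 456) (nat_lit 2612555428) (nat_lit 532) (nat_lit 2592748099) (nat_lit 225) (nat_lit 5) (nat_lit 231) (nat_lit 5) (nat_lit 232) (nat_lit 5) (nat_lit 460) (nat_lit 418) (nat_lit 322))) (XT.nd (nat_lit 78) (nat_lit 0) (nat_lit 0) (XT.lf (nat_lit 0) (nat_lit 404407835) (nat_lit 456) (nat_lit 10799757262) (nat_lit 76) (nat_lit 3044868348) (nat_lit 219) (nat_lit 5) (nat_lit 225) (nat_lit 5) (nat_lit 220) (nat_lit 5) (nat_lit 461) (nat_lit 418) (nat_lit 321)) (XT.lf (nat_lit 0) (nat_lit 3498744156) (nat_lit 456) (nat_lit 2099574517) (nat_lit 76) (nat_lit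 8891970347) (nat_lit 219) (nat_lit 5) (nat_lit 225) (nat_lit 5) (nat_lit 220) (nat_lit 5) (nat_lit 462) (nat_lit 418) (nat_lit 320)))) (XT.nd (nat_lit 156) (nat_lit 456) (nat_lit 0) (XT.nd (nat_lit 78) (nat_lit 380) (nat_lit 0) (XT.lf (nat_lit 0) (nat_lit 6736214662) (nat_lit 456) (nat_lit 7767648550) (nat_lit 76) (nat_lit 233410540) (nat_lit 214) (nat_lit 5) (nat_lit 220) (nat_lit 5) (nat_lit 215) (nat_lit 5) (nat_lit 463) (nat_lit 418) (nat_lit 319)) (XT.lf (nat_lit 0) (nat_lit 1306845683) (nat_lit 380) (nat_lit 8834607327) (nat_lit 456) (nat_lit 4848096299) (nat_lit 209) (nat_lit 5) (nat_lit 214) (nat_lit 5) (nat_lit 215) (nat_lit 5) (nat_lit 464) (nat_lit 418) (nat_lit 318))) (XT.nd (nat_lit 78) (nat_lit 456) (nat_lit 0) (XT.lf (nat_lit 0) (nat_lit 10787133165) (nat_lit 380) (nat_lit 2921694100) (nat_lit 456) (nat_lit 1538767080) (nat_lit 209) (nat_lit 5) (nat_lit 214) (nat_lit 5) (nat_lit 215) (nat_lit 5) (nat_lit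 465) (nat_lit 418) (nat_lit 317)) (XT.lf (nat_lit 0) (nat_lit 1895279878) (nat_lit 456) (nat_lit 10448363500) (nat_lit 76) (nat_lit 3167340922) (nat_lit 203) (nat_lit 5) (nat_lit 209) (nat_lit 5) (nat_lit 204) (nat_lit 5) (nat_lit 466) (nat_lit 418) (nat_lit 316))))))) (XT.nd (nat_lit 1170) (nat_lit 2356) (nat_lit 0) (XT.nd (nat_lit 546) (nat_lit 1520) (nat_lit 0) (XT.nd (nat_lit 234) (nat_lit 684) (nat_lit 0) (XT.nd (nat_lit 78) (nat_lit 608) (nat_lit 0) (XT.lf (nat_lit 0) (nat_lit 5457953563) (nat_lit 456) (nat_lit 888204753) (nat_lit 76) (nat_lit 9433965115) (nat_lit 203) (nat_lit 5) (nat_lit 209) (nat_lit 5) (nat_lit 204) (nat_lit 5) (nat_lit 467) (nat_lit 418) (nat_lit 315)) (XT.nd (nat_lit 78) (nat_lit 304) (nat_lit 0) (XT.lf (nat_lit 0) (nat_lit 9111804197) (nat_lit 304) (nat_lit 85929824) (nat_lit 380) (nat_lit 6857496431) (nat_lit 199) (nat_lit 5) (nat_lit 203) (nat_lit 5) (nat_lit 204) (nat_lit 5) (nat_lit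 468) (nat_lit 418) (nat_lit 314)) (XT.lf (nat_lit 0) (nat_lit 3065311317) (nat_lit 304) (nat_lit 10066913583) (nat_lit 380) (nat_lit 3203890772) (nat_lit 195) (nat_lit 5) (nat_lit 199) (nat_lit 5) (nat_lit 200) (nat_lit 5) (nat_lit 469) (nat_lit 418) (nat_lit 313)))) (XT.nd (nat_lit 156) (nat_lit 304) (nat_lit 0) (XT.nd (nat_lit 78) (nat_lit 304) (nat_lit 0) (XT.lf (nat_lit 0) (nat_lit 603000144) (nat_lit 380) (nat_lit 3138654411) (nat_lit 76) (nat_lit 12881974321) (nat_lit 194) (nat_lit 5) (nat_lit 199) (nat_lit 5) (nat_lit 195) (nat_lit 5) (nat_lit 470) (nat_lit 418) (nat_lit 312)) (XT.lf (nat_lit 0) (nat_lit 4541727389) (nat_lit 380) (nat_lit 9559252226) (nat_lit 76) (nat_lit 2815375926) (nat_lit 190) (nat_lit 5) (nat_lit 195) (nat_lit 5) (nat_lit 191) (nat_lit 5) (nat_lit 471) (nat_lit 418) (nat_lit 311))) (XT.nd (nat_lit 78) (nat_lit 0) (nat_lit 0) (XT.lf (nat_lit 0) (nat_lit 972272032) (nat_lit 304) (nat_lit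 7688349784) (nat_lit 380) (nat_lit 8555382473) (nat_lit 186) (nat_lit 5) (nat_lit 190) (nat_lit 5) (nat_lit 191) (nat_lit 5) (nat_lit 472) (nat_lit 418) (nat_lit 310)) (XT.lf (nat_lit 0) (nat_lit 11991436979) (nat_lit 304) (nat_lit 992025261) (nat_lit 380) (nat_lit 4538769314) (nat_lit 186) (nat_lit 5) (nat_lit 190) (nat_lit 5) (nat_lit 191) (nat_lit 5) (nat_lit 473) (nat_lit 418) (nat_lit 309))))) (XT.nd (nat_lit 312) (nat_lit 608) (nat_lit 0) (XT.nd (nat_lit 156) (nat_lit 532) (nat_lit 0) (XT.nd (nat_lit 78) (nat_lit 76) (nat_lit 0) (XT.lf (nat_lit 0) (nat_lit 5530742797) (nat_lit 304) (nat_lit 11999418431) (nat_lit 380) (nat_lit 304659625) (nat_lit 182) (nat_lit 5) (nat_lit 186) (nat_lit 5) (nat_lit 187) (nat_lit 5) (nat_lit 474) (nat_lit 418) (nat_lit 308)) (XT.lf (nat_lit 0) (nat_lit 4027863155) (nat_lit 380) (nat_lit 1191004981) (nat_lit 76) (nat_lit 12935233903) (nat_lit 181) (nat_lit 5) (nat_lit 186) (nat_lit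 5) (nat_lit 182) (nat_lit 5) (nat_lit 475) (nat_lit 418) (nat_lit 307))) (XT.nd (nat_lit 78) (nat_lit 228) (nat_lit 0) (XT.lf (nat_lit 0) (nat_lit 8587213513) (nat_lit 380) (nat_lit 8065535111) (nat_lit 76) (nat_lit 1827033667) (nat_lit 177) (nat_lit 5) (nat_lit 182) (nat_lit 5) (nat_lit 178) (nat_lit 5) (nat_lit 476) (nat_lit 418) (nat_lit 306)) (XT.lf (nat_lit 0) (nat_lit 3571633002) (nat_lit 228) (nat_lit 9794783150) (nat_lit 304) (nat_lit 5446325017) (nat_lit 174) (nat_lit 5) (nat_lit 177) (nat_lit 5) (nat_lit 178) (nat_lit 5) (nat_lit 477) (nat_lit 418) (nat_lit 305)))) (XT.nd (nat_lit 156) (nat_lit 228) (nat_lit 0) (XT.nd (nat_lit 78) (nat_lit 380) (nat_lit 0) (XT.lf (nat_lit 0) (nat_lit 15700011249) (nat_lit 228) (nat_lit 2655566694) (nat_lit 304) (nat_lit 798113738) (nat_lit 174) (nat_lit 5) (nat_lit 177) (nat_lit 5) (nat_lit 178) (nat_lit 5) (nat_lit 478) (nat_lit 418) (nat_lit 304)) (XT.lf (nat_lit 0)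 (nat_lit 4027986248) (nat_lit 380) (nat_lit 10750072578) (nat_lit 76) (nat_lit 4722172941) (nat_lit 169) (nat_lit 5) (nat_lit 174) (nat_lit 5) (nat_lit 170) (nat_lit 5) (nat_lit 479) (nat_lit 418) (nat_lit 303))) (XT.nd (nat_lit 78) (nat_lit 0) (nat_lit 0) (XT.lf (nat_lit 0) (nat_lit 1506667857) (nat_lit 228) (nat_lit 7537710705) (nat_lit 304) (nat_lit 10810706240) (nat_lit 166) (nat_lit 5) (nat_lit 169) (nat_lit 5) (nat_lit 170) (nat_lit 5) (nat_lit 480) (nat_lit 418) (nat_lit 302)) (XT.lf (nat_lit 0) (nat_lit 14305795974) (nat_lit 304) (nat_lit 5889256929) (nat_lit 76) (nat_lit 22694845) (nat_lit 166) (nat_lit 5) (nat_lit 170) (nat_lit 5) (nat_lit 167) (nat_lit 5) (nat_lit 481) (nat_lit 418) (nat_lit 301)))))) (XT.nd (nat_lit 624) (nat_lit 1064) (nat_lit 0) (XT.nd (nat_lit 312) (nat_lit 532) (nat_lit 0) (XT.nd (nat_lit 156) (nat_lit 456) (nat_lit 0) (XT.nd (nat_lit 78) (nat_lit 76) (nat_lit 0) (XT.lf (nat_lit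 0) (nat_lit 6982878821) (nat_lit 228) (nat_lit 12870023185) (nat_lit 304) (nat_lit 734553504) (nat_lit 163) (nat_lit 5) (nat_lit 166) (nat_lit 5) (nat_lit 167) (nat_lit 5) (nat_lit 482) (nat_lit 418) (nat_lit 300)) (XT.lf (nat_lit 0) (nat_lit 4554645778) (nat_lit 304) (nat_lit 671842454) (nat_lit 76) (nat_lit 15739054378) (nat_lit 162) (nat_lit 5) (nat_lit 166) (nat_lit 5) (nat_lit 163) (nat_lit 5) (nat_lit 483) (nat_lit 418) (nat_lit 299))) (XT.nd (nat_lit 78) (nat_lit 228) (nat_lit 0) (XT.lf (nat_lit 0) (nat_lit 10124685850) (nat_lit 304) (nat_lit 8507172384) (nat_lit 76) (nat_lit 2718788330) (nat_lit 159) (nat_lit 5) (nat_lit 163) (nat_lit 5) (nat_lit 160) (nat_lit 5) (nat_lit 484) (nat_lit 418) (nat_lit 298)) (XT.lf (nat_lit 0) (nat_lit 5055830702) (nat_lit 228) (nat_lit 10899849277) (nat_lit 304) (nat_lit 5788808348) (nat_lit 156) (nat_lit 5) (nat_lit 159) (nat_lit 5) (nat_lit 160) (nat_lit 5) (nat_lit 485)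 (nat_lit 418) (nat_lit 297)))) (XT.nd (nat_lit 156) (nat_lit 228) (nat_lit 0) (XT.nd (nat_lit 78) (nat_lit 304) (nat_lit 0) (XT.lf (nat_lit 0) (nat_lit 19178393115) (nat_lit 228) (nat_lit 2855950754) (nat_lit 304) (nat_lit 113619544) (nat_lit 156) (nat_lit 5) (nat_lit 159) (nat_lit 5) (nat_lit 160) (nat_lit 5) (nat_lit 486) (nat_lit 418) (nat_lit 296)) (XT.lf (nat_lit 0) (nat_lit 5769470053) (nat_lit 304) (nat_lit 11307492937) (nat_lit 76) (nat_lit 5480442269) (nat_lit 152) (nat_lit 5) (nat_lit 156) (nat_lit 5) (nat_lit 153) (nat_lit 5) (nat_lit 487) (nat_lit 418) (nat_lit 295))) (XT.nd (nat_lit 78) (nat_lit 0) (nat_lit 0) (XT.lf (nat_lit 0) (nat_lit 2985749717) (nat_lit 228) (nat_lit 8915463247) (nat_lit 304) (nat_lit 11075650563) (nat_lit 149) (nat_lit 5) (nat_lit 152) (nat_lit 5) (nat_lit 153) (nat_lit 5) (nat_lit 488) (nat_lit 418) (nat_lit 294)) (XT.lf (nat_lit 0) (nat_lit 17918355960) (nat_lit 228) (nat_lit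 400087924) (nat_lit 304) (nat_lit 5087415829) (nat_lit 149) (nat_lit 5) (nat_lit 152) (nat_lit 5) (nat_lit 153) (nat_lit 5) (nat_lit 489) (nat_lit 418) (nat_lit 293))))) (XT.nd (nat_lit 312) (nat_lit 456) (nat_lit 0) (XT.nd (nat_lit 156) (nat_lit 152) (nat_lit 0) (XT.nd (nat_lit 78) (nat_lit 228) (nat_lit 0) (XT.lf (nat_lit 0) (nat_lit 1220734344) (nat_lit 228) (nat_lit 14318967145) (nat_lit 76) (nat_lit 8302872368) (nat_lit 146) (nat_lit 5) (nat_lit 149) (nat_lit 5) (nat_lit 147) (nat_lit 5) (nat_lit 490) (nat_lit 418) (nat_lit 292)) (XT.lf (nat_lit 0) (nat_lit 745542705) (nat_lit 228) (nat_lit 6925104469) (nat_lit 304) (nat_lit 16618588252) (nat_lit 143) (nat_lit 5) (nat_lit 146) (nat_lit 5) (nat_lit 147) (nat_lit 5) (nat_lit 491) (nat_lit 418) (nat_lit 291))) (XT.nd (nat_lit 78) (nat_lit 152) (nat_lit 0) (XT.lf (nat_lit 0) (nat_lit 14466564954) (nat_lit 304) (nat_lit 8230617114) (nat_lit 76) (nat_lit 2047539758)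 (nat_lit 143) (nat_lit 5) (nat_lit 147) (nat_lit 5) (nat_lit 144) (nat_lit 5) (nat_lit 492) (nat_lit 418) (nat_lit 290)) (XT.lf (nat_lit 0) (nat_lit 7601210025) (nat_lit 152) (nat_lit 13994897435) (nat_lit 228) (nat_lit 3613873147) (nat_lit 141) (nat_lit 5) (nat_lit 143) (nat_lit 5) (nat_lit 144) (nat_lit 5) (nat_lit 493) (nat_lit 418) (nat_lit 289)))) (XT.nd (nat_lit 156) (nat_lit 152) (nat_lit 0) (XT.nd (nat_lit 78) (nat_lit 228) (nat_lit 0) (XT.lf (nat_lit 0) (nat_lit 3258999204) (nat_lit 228) (nat_lit 1662497687) (nat_lit 76) (nat_lit 20764600549) (nat_lit 140) (nat_lit 5) (nat_lit 143) (nat_lit 5) (nat_lit 141) (nat_lit 5) (nat_lit 494) (nat_lit 418) (nat_lit 288)) (XT.lf (nat_lit 0) (nat_lit 10442328170) (nat_lit 304) (nat_lit 11216444706) (nat_lit 76) (nat_lit 4511344491) (nat_lit 137) (nat_lit 5) (nat_lit 141) (nat_lit 5) (nat_lit 138) (nat_lit 5) (nat_lit 495) (nat_lit 418) (nat_lit 287))) (XT.nd (nat_lit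 78) (nat_lit 0) (nat_lit 0) (XT.lf (nat_lit 0) (nat_lit 5472232738) (nat_lit 152) (nat_lit 12475770214) (nat_lit 228) (nat_lit 8717449743) (nat_lit 135) (nat_lit 5) (nat_lit 137) (nat_lit 5) (nat_lit 138) (nat_lit 5) (nat_lit 496) (nat_lit 418) (nat_lit 286)) (XT.lf (nat_lit 0) (nat_lit 22871782055) (nat_lit 152) (nat_lit 2909035292) (nat_lit 228) (nat_lit 1391771831) (nat_lit 135) (nat_lit 5) (nat_lit 137) (nat_lit 5) (nat_lit 138) (nat_lit 5) (nat_lit 497) (nat_lit 418) (nat_lit 285))))))))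
noncomputable def xc137 : XT := (XT.nd (nat_lit 2418) (nat_lit 1900) (nat_lit 0) (XT.nd (nat_lit 1170) (nat_lit 1444) (nat_lit 0) (XT.nd (nat_lit 546) (nat_lit 988) (nat_lit 0) (XT.nd (nat_lit 234) (nat_lit 532) (nat_lit 0) (XT.nd (nat_lit 78) (nat_lit 152) (nat_lit 0) (XT.lf (nat_lit 0) (nat_lit 6218693814) (nat_lit 304) (nat_lit 14479209670) (nat_lit 76) (nat_lit 6989708919) (nat_lit 131) (nat_lit 5) (nat_lit 135) (nat_lit 5) (nat_lit 132) (nat_lit 5) (nat_lit 498) (nat_lit 418) (nat_lit 284)) (XT.nd (nat_lit 78) (nat_lit 0) (nat_lit 0) (XT.lf (nat_lit 0) (nat_lit 3112572837) (nat_lit 152) (nat_lit 11008493974) (nat_lit 228) (nat_lit 14093859278) (nat_lit 129) (nat_lit 5) (nat_lit 131) (nat_lit 5) (nat_lit 132) (nat_lit 5) (nat_lit 499) (nat_lit 418) (nat_lit 283)) (XT.lf (nat_lit 0) (nat_lit 21509688609) (nat_lit 152) (nat_lit 886154623) (nat_lit 228) (nat_lit 6358156146) (nat_lit 129) (nat_lit 5) (nat_lit 131)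 (nat_lit 5) (nat_lit 132) (nat_lit 5) (nat_lit 500) (nat_lit 418) (nat_lit 282)))) (XT.nd (nat_lit 156) (nat_lit 152) (nat_lit 0) (XT.nd (nat_lit 78) (nat_lit 152) (nat_lit 0) (XT.lf (nat_lit 0) (nat_lit 1769369210) (nat_lit 228) (nat_lit 18062356942) (nat_lit 76) (nat_lit 9471319863) (nat_lit 126) (nat_lit 5) (nat_lit 129) (nat_lit 5) (nat_lit 127) (nat_lit 5) (nat_lit 501) (nat_lit 418) (nat_lit 281)) (XT.lf (nat_lit 0) (nat_lit 480359290) (nat_lit 152) (nat_lit 9609222608) (nat_lit 228) (nat_lit 19774794111) (nat_lit 124) (nat_lit 5) (nat_lit 126) (nat_lit 5) (nat_lit 127) (nat_lit 5) (nat_lit 502) (nat_lit 418) (nat_lit 280))) (XT.nd (nat_lit 78) (nat_lit 152) (nat_lit 0) (XT.lf (nat_lit 0) (nat_lit 18841879201) (nat_lit 228) (nat_lit 10517089997) (nat_lit 76) (nat_lit 1078102497) (nat_lit 124) (nat_lit 5) (nat_lit 127) (nat_lit 5) (nat_lit 125) (nat_lit 5) (nat_lit 503) (nat_lit 418) (nat_lit 279)) (XT.lf (nat_lit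 0) (nat_lit 8977454649) (nat_lit 152) (nat_lit 19050470882) (nat_lit 228) (nat_lit 2993887453) (nat_lit 122) (nat_lit 5) (nat_lit 124) (nat_lit 5) (nat_lit 125) (nat_lit 5) (nat_lit 504) (nat_lit 418) (nat_lit 278))))) (XT.nd (nat_lit 312) (nat_lit 532) (nat_lit 0) (XT.nd (nat_lit 156) (nat_lit 228) (nat_lit 0) (XT.nd (nat_lit 78) (nat_lit 152) (nat_lit 0) (XT.lf (nat_lit 0) (nat_lit 5848019405) (nat_lit 228) (nat_lit 2424373297) (nat_lit 76) (nat_lit 23347101902) (nat_lit 121) (nat_lit 5) (nat_lit 124) (nat_lit 5) (nat_lit 122) (nat_lit 5) (nat_lit 505) (nat_lit 418) (nat_lit 277)) (XT.lf (nat_lit 0) (nat_lit 15088094287) (nat_lit 228) (nat_lit 14168785895) (nat_lit 76) (nat_lit 2971544789) (nat_lit 119) (nat_lit 5) (nat_lit 122) (nat_lit 5) (nat_lit 120) (nat_lit 5) (nat_lit 506) (nat_lit 418) (nat_lit 276))) (XT.nd (nat_lit 78) (nat_lit 76) (nat_lit 0) (XT.lf (nat_lit 0) (nat_lit 6377317493) (nat_lit 152) (nat_lit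 18386091445) (nat_lit 228) (nat_lit 8087473309) (nat_lit 117) (nat_lit 5) (nat_lit 119) (nat_lit 5) (nat_lit 120) (nat_lit 5) (nat_lit 507) (nat_lit 418) (nat_lit 275)) (XT.lf (nat_lit 0) (nat_lit 1347452080) (nat_lit 228) (nat_lit 5688758339) (nat_lit 76) (nat_lit 26451407617) (nat_lit 116) (nat_lit 5) (nat_lit 119) (nat_lit 5) (nat_lit 117) (nat_lit 5) (nat_lit 508) (nat_lit 418) (nat_lit 274)))) (XT.nd (nat_lit 156) (nat_lit 228) (nat_lit 0) (XT.nd (nat_lit 78) (nat_lit 152) (nat_lit 0) (XT.lf (nat_lit 0) (nat_lit 11093418801) (nat_lit 228) (nat_lit 18250747775) (nat_lit 76) (nat_lit 4791170901) (nat_lit 114) (nat_lit 5) (nat_lit 117) (nat_lit 5) (nat_lit 115) (nat_lit 5) (nat_lit 509) (nat_lit 418) (nat_lit 273)) (XT.lf (nat_lit 0) (nat_lit 3399596322) (nat_lit 152) (nat_lit 17882978710) (nat_lit 228) (nat_lit 13515389262) (nat_lit 112) (nat_lit 5) (nat_lit 114) (nat_lit 5) (nat_lit 115) (nat_lit 5) (nat_lit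 510) (nat_lit 418) (nat_lit 272))) (XT.nd (nat_lit 78) (nat_lit 228) (nat_lit 0) (XT.lf (nat_lit 0) (nat_lit 26056249854) (nat_lit 152) (nat_lit 5896016425) (nat_lit 228) (nat_lit 3522957929) (nat_lit 112) (nat_lit 5) (nat_lit 114) (nat_lit 5) (nat_lit 115) (nat_lit 5) (nat_lit 511) (nat_lit 418) (nat_lit 271)) (XT.lf (nat_lit 0) (nat_lit 6820554516) (nat_lit 228) (nat_lit 22831920665) (nat_lit 76) (nat_lit 6512872718) (nat_lit 109) (nat_lit 5) (nat_lit 112) (nat_lit 5) (nat_lit 110) (nat_lit 5) (nat_lit 512) (nat_lit 418) (nat_lit 270)))))) (XT.nd (nat_lit 624) (nat_lit 684) (nat_lit 0) (XT.nd (nat_lit 312) (nat_lit 456) (nat_lit 0) (XT.nd (nat_lit 156) (nat_lit 152) (nat_lit 0) (XT.nd (nat_lit 78) (nat_lit 152) (nat_lit 0) (XT.lf (nat_lit 0) (nat_lit 17548776970) (nat_lit 228) (nat_lit 23076985) (nat_lit 76) (nat_lit 19298918638) (nat_lit 109) (nat_lit 5) (nat_lit 112) (nat_lit 5) (nat_lit 110) (nat_lit 5) (nat_lit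 513) (nat_lit 418) (nat_lit 269)) (XT.lf (nat_lit 0) (nat_lit 23920261882) (nat_lit 152) (nat_lit 4899570225) (nat_lit 228) (nat_lit 8770898433) (nat_lit 107) (nat_lit 5) (nat_lit 109) (nat_lit 5) (nat_lit 110) (nat_lit 5) (nat_lit 514) (nat_lit 418) (nat_lit 268))) (XT.nd (nat_lit 78) (nat_lit 0) (nat_lit 0) (XT.lf (nat_lit 0) (nat_lit 2226739292) (nat_lit 152) (nat_lit 27991783892) (nat_lit 76) (nat_lit 8108031803) (nat_lit 105) (nat_lit 5) (nat_lit 107) (nat_lit 5) (nat_lit 106) (nat_lit 5) (nat_lit 515) (nat_lit 418) (nat_lit 267)) (XT.lf (nat_lit 0) (nat_lit 13557037417) (nat_lit 152) (nat_lit 3893217895) (nat_lit 76) (nat_lit 21626223196) (nat_lit 105) (nat_lit 5) (nat_lit 107) (nat_lit 5) (nat_lit 106) (nat_lit 5) (nat_lit 516) (nat_lit 418) (nat_lit 266)))) (XT.nd (nat_lit 156) (nat_lit 228) (nat_lit 0) (XT.nd (nat_lit 78) (nat_lit 76) (nat_lit 0) (XT.lf (nat_lit 0) (nat_lit 21328395634) (nat_lit 152) (nat_lit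 4095225131) (nat_lit 228) (nat_lit 14419387761) (nat_lit 103) (nat_lit 5) (nat_lit 105) (nat_lit 5) (nat_lit 106) (nat_lit 5) (nat_lit 517) (nat_lit 418) (nat_lit 265)) (XT.lf (nat_lit 0) (nat_lit 6777990482) (nat_lit 76) (nat_lit 31057312751) (nat_lit 152) (nat_lit 2791558244) (nat_lit 102) (nat_lit 5) (nat_lit 103) (nat_lit 5) (nat_lit 104) (nat_lit 4) (nat_lit 518) (nat_lit 418) (nat_lit 264))) (XT.nd (nat_lit 78) (nat_lit 152) (nat_lit 0) (XT.lf (nat_lit 0) (nat_lit 9226625959) (nat_lit 152) (nat_lit 8366552490) (nat_lit 76) (nat_lit 23831780228) (nat_lit 101) (nat_lit 5) (nat_lit 103) (nat_lit 5) (nat_lit 102) (nat_lit 5) (nat_lit 519) (nat_lit 418) (nat_lit 263)) (XT.lf (nat_lit 0) (nat_lit 18191912386) (nat_lit 152) (nat_lit 3523853297) (nat_lit 228) (nat_lit 20525408479) (nat_lit 99) (nat_lit 5) (nat_lit 101) (nat_lit 5) (nat_lit 102) (nat_lit 5) (nat_lit 520) (nat_lit 418) (nat_lit 262))))) (XT.nd (nat_lit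 312) (nat_lit 380) (nat_lit 0) (XT.nd (nat_lit 156) (nat_lit 152) (nat_lit 0) (XT.nd (nat_lit 78) (nat_lit 76) (nat_lit 0) (XT.lf (nat_lit 0) (nat_lit 2567434222) (nat_lit 76) (nat_lit 32219244322) (nat_lit 152) (nat_lit 8288984671) (nat_lit 98) (nat_lit 5) (nat_lit 99) (nat_lit 5) (nat_lit 100) (nat_lit 4) (nat_lit 521) (nat_lit 418) (nat_lit 261)) (XT.lf (nat_lit 0) (nat_lit 4502165969) (nat_lit 152) (nat_lit 13546761918) (nat_lit 76) (nat_lit 25876860117) (nat_lit 97) (nat_lit 5) (nat_lit 99) (nat_lit 5) (nat_lit 98) (nat_lit 5) (nat_lit 522) (nat_lit 418) (nat_lit 260))) (XT.nd (nat_lit 78) (nat_lit 0) (nat_lit 0) (XT.lf (nat_lit 0) (nat_lit 14407367349) (nat_lit 152) (nat_lit 3233499795) (nat_lit 228) (nat_lit 27154174890) (nat_lit 95) (nat_lit 5) (nat_lit 97) (nat_lit 5) (nat_lit 98) (nat_lit 5) (nat_lit 523) (nat_lit 418) (nat_lit 259)) (XT.lf (nat_lit 0) (nat_lit 31419430139) (nat_lit 228) (nat_lit 2340687417)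 (nat_lit 76) (nat_lit 11922885168) (nat_lit 95) (nat_lit 5) (nat_lit 98) (nat_lit 5) (nat_lit 96) (nat_lit 4) (nat_lit 524) (nat_lit 418) (nat_lit 258)))) (XT.nd (nat_lit 156) (nat_lit 76) (nat_lit 0) (XT.nd (nat_lit 78) (nat_lit 228) (nat_lit 0) (XT.lf (nat_lit 0) (nat_lit 27028284684) (nat_lit 76) (nat_lit 18867072798) (nat_lit 152) (nat_lit 693724591) (nat_lit 94) (nat_lit 5) (nat_lit 95) (nat_lit 5) (nat_lit 96) (nat_lit 4) (nat_lit 525) (nat_lit 418) (nat_lit 257)) (XT.lf (nat_lit 0) (nat_lit 9854204380) (nat_lit 152) (nat_lit 3280596225) (nat_lit 228) (nat_lit 34380389105) (nat_lit 91) (nat_lit 5) (nat_lit 93) (nat_lit 5) (nat_lit 94) (nat_lit 5) (nat_lit 526) (nat_lit 418) (nat_lit 256))) (XT.nd (nat_lit 78) (nat_lit 76) (nat_lit 0) (XT.lf (nat_lit 0) (nat_lit 27678715647) (nat_lit 228) (nat_lit 8056990652) (nat_lit 76) (nat_lit 12723733960) (nat_lit 91) (nat_lit 5) (nat_lit 94) (nat_lit 5) (nat_lit 92) (nat_lit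 4) (nat_lit 527) (nat_lit 418) (nat_lit 255)) (XT.lf (nat_lit 0) (nat_lit 22833786400) (nat_lit 76) (nat_lit 20069571537) (nat_lit 152) (nat_lit 6521328146) (nat_lit 90) (nat_lit 5) (nat_lit 91) (nat_lit 5) (nat_lit 92) (nat_lit 4) (nat_lit 528) (nat_lit 418) (nat_lit 254))))))) (XT.nd (nat_lit 1248) (nat_lit 532) (nat_lit 0) (XT.nd (nat_lit 624) (nat_lit 532) (nat_lit 0) (XT.nd (nat_lit 312) (nat_lit 456) (nat_lit 0) (XT.nd (nat_lit 156) (nat_lit 152) (nat_lit 0) (XT.nd (nat_lit 78) (nat_lit 0) (nat_lit 0) (XT.lf (nat_lit 0) (nat_lit 4391966366) (nat_lit 152) (nat_lit 3731367512) (nat_lit 228) (nat_lit 42289695736) (nat_lit 87) (nat_lit 5) (nat_lit 89) (nat_lit 5) (nat_lit 90) (nat_lit 5) (nat_lit 529) (nat_lit 418) (nat_lit 253)) (XT.lf (nat_lit 0) (nat_lit 23465796533) (nat_lit 228) (nat_lit 14781136430) (nat_lit 76) (nat_lit 13170467519) (nat_lit 87) (nat_lit 5) (nat_lit 90) (nat_lit 5) (nat_lit 88) (nat_lit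 4) (nat_lit 530) (nat_lit 418) (nat_lit 252))) (XT.nd (nat_lit 78) (nat_lit 76) (nat_lit 0) (XT.lf (nat_lit 0) (nat_lit 17690212815) (nat_lit 76) (nat_lit 21777995456) (nat_lit 152) (nat_lit 12977703999) (nat_lit 86) (nat_lit 5) (nat_lit 87) (nat_lit 5) (nat_lit 88) (nat_lit 4) (nat_lit 531) (nat_lit 418) (nat_lit 251)) (XT.lf (nat_lit 0) (nat_lit 2541122164) (nat_lit 152) (nat_lit 2101123772) (nat_lit 76) (nat_lit 48858025474) (nat_lit 85) (nat_lit 5) (nat_lit 87) (nat_lit 5) (nat_lit 86) (nat_lit 5) (nat_lit 532) (nat_lit 418) (nat_lit 250)))) (XT.nd (nat_lit 156) (nat_lit 228) (nat_lit 0) (XT.nd (nat_lit 78) (nat_lit 76) (nat_lit 0) (XT.lf (nat_lit 0) (nat_lit 18694624577) (nat_lit 228) (nat_lit 22686971281) (nat_lit 76) (nat_lit 13187912234) (nat_lit 83) (nat_lit 5) (nat_lit 86) (nat_lit 5) (nat_lit 84) (nat_lit 4) (nat_lit 533) (nat_lit 418) (nat_lit 249)) (XT.lf (nat_lit 0) (nat_lit 11421652749) (nat_lit 76)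 (nat_lit 24081178721) (nat_lit 152) (nat_lit 20162887465) (nat_lit 82) (nat_lit 5) (nat_lit 83) (nat_lit 5) (nat_lit 84) (nat_lit 4) (nat_lit 534) (nat_lit 418) (nat_lit 248))) (XT.nd (nat_lit 78) (nat_lit 228) (nat_lit 0) (XT.lf (nat_lit 0) (nat_lit 47005085176) (nat_lit 76) (nat_lit 6032287095) (nat_lit 152) (nat_lit 3750781242) (nat_lit 82) (nat_lit 5) (nat_lit 83) (nat_lit 5) (nat_lit 84) (nat_lit 4) (nat_lit 535) (nat_lit 418) (nat_lit 247)) (XT.lf (nat_lit 0) (nat_lit 13265237922) (nat_lit 228) (nat_lit 31976543314) (nat_lit 76) (nat_lit 12687639927) (nat_lit 79) (nat_lit 5) (nat_lit 82) (nat_lit 5) (nat_lit 80) (nat_lit 4) (nat_lit 536) (nat_lit 418) (nat_lit 246))))) (XT.nd (nat_lit 312) (nat_lit 304) (nat_lit 0) (XT.nd (nat_lit 156) (nat_lit 152) (nat_lit 0) (XT.nd (nat_lit 78) (nat_lit 0) (nat_lit 0) (XT.lf (nat_lit 0) (nat_lit 3822975064) (nat_lit 76) (nat_lit 27082761466) (nat_lit 152) (nat_lit 28192394679)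 (nat_lit 78) (nat_lit 5) (nat_lit 79) (nat_lit 5) (nat_lit 80) (nat_lit 4) (nat_lit 537) (nat_lit 418) (nat_lit 245)) (XT.lf (nat_lit 0) (nat_lit 41338829500) (nat_lit 76) (nat_lit 8052737947) (nat_lit 152) (nat_lit 10900851626) (nat_lit 78) (nat_lit 5) (nat_lit 79) (nat_lit 5) (nat_lit 80) (nat_lit 4) (nat_lit 538) (nat_lit 418) (nat_lit 244))) (XT.nd (nat_lit 78) (nat_lit 0) (nat_lit 0) (XT.lf (nat_lit 0) (nat_lit 7061528431) (nat_lit 152) (nat_lit 42884643252) (nat_lit 76) (nat_lit 11565763831) (nat_lit 76) (nat_lit 5) (nat_lit 78) (nat_lit 5) (nat_lit 77) (nat_lit 4) (nat_lit 539) (nat_lit 418) (nat_lit 243)) (XT.lf (nat_lit 0) (nat_lit 25610063646) (nat_lit 152) (nat_lit 5240618065) (nat_lit 76) (nat_lit 31906126493) (nat_lit 76) (nat_lit 5) (nat_lit 78) (nat_lit 5) (nat_lit 77) (nat_lit 4) (nat_lit 540) (nat_lit 418) (nat_lit 242)))) (XT.nd (nat_lit 156) (nat_lit 152) (nat_lit 0) (XT.nd (nat_lit 78) (nat_lit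 76) (nat_lit 0) (XT.lf (nat_lit 0) (nat_lit 34187322665) (nat_lit 76) (nat_lit 10849916002) (nat_lit 152) (nat_lit 18992122926) (nat_lit 75) (nat_lit 5) (nat_lit 76) (nat_lit 5) (nat_lit 77) (nat_lit 4) (nat_lit 541) (nat_lit 418) (nat_lit 241)) (XT.lf (nat_lit 0) (nat_lit 9648513410) (nat_lit 76) (nat_lit 55632203158) (nat_lit 76) (nat_lit 52370422) (nat_lit 74) (nat_lit 4) (nat_lit 75) (nat_lit 5) (nat_lit 75) (nat_lit 4) (nat_lit 542) (nat_lit 418) (nat_lit 240))) (XT.nd (nat_lit 78) (nat_lit 76) (nat_lit 0) (XT.lf (nat_lit 0) (nat_lit 19481250927) (nat_lit 152) (nat_lit 16041335133) (nat_lit 76) (nat_lit 31135567810) (nat_lit 73) (nat_lit 5) (nat_lit 75) (nat_lit 5) (nat_lit 74) (nat_lit 4) (nat_lit 543) (nat_lit 418) (nat_lit 239)) (XT.lf (nat_lit 0) (nat_lit 25271649246) (nat_lit 76) (nat_lit 14564862905) (nat_lit 152) (nat_lit 28179344567) (nat_lit 72) (nat_lit 5) (nat_lit 73) (nat_lit 5) (nat_lit 74) (nat_lit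 4) (nat_lit 544) (nat_lit 418) (nat_lit 238)))))) (XT.nd (nat_lit 52650) (nat_lit 0) (nat_lit 23484) (XT.nd (nat_lit 312) (nat_lit 304) (nat_lit 0) (XT.nd (nat_lit 156) (nat_lit 76) (nat_lit 0) (XT.nd (nat_lit 78) (nat_lit 152) (nat_lit 0) (XT.lf (nat_lit 0) (nat_lit 61027283634) (nat_lit 152) (nat_lit 1337859013) (nat_lit 0) (nat_lit 7042402459) (nat_lit 72) (nat_lit 5) (nat_lit 74) (nat_lit 4) (nat_lit 72) (nat_lit 4) (nat_lit 545) (nat_lit 418) (nat_lit 237)) (XT.lf (nat_lit 0) (nat_lit 12325375654) (nat_lit 152) (nat_lit 28971869009) (nat_lit 76) (nat_lit 29523865447) (nat_lit 70) (nat_lit 5) (nat_lit 72) (nat_lit 5) (nat_lit 71) (nat_lit 4) (nat_lit 546) (nat_lit 418) (nat_lit 236))) (XT.nd (nat_lit 78) (nat_lit 0) (nat_lit 0) (XT.lf (nat_lit 0) (nat_lit 14266146854) (nat_lit 76) (nat_lit 19362331174) (nat_lit 152) (nat_lit 38641772944) (nat_lit 69) (nat_lit 5) (nat_lit 70) (nat_lit 5) (nat_lit 71) (nat_lit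 4) (nat_lit 547) (nat_lit 418) (nat_lit 235)) (XT.lf (nat_lit 0) (nat_lit 55891145006) (nat_lit 152) (nat_lit 14404683677) (nat_lit 0) (nat_lit 3457423255) (nat_lit 69) (nat_lit 5) (nat_lit 71) (nat_lit 4) (nat_lit 69) (nat_lit 4) (nat_lit 548) (nat_lit 418) (nat_lit 234)))) (XT.nd (nat_lit 156) (nat_lit 76) (nat_lit 0) (XT.nd (nat_lit 78) (nat_lit 76) (nat_lit 0) (XT.lf (nat_lit 0) (nat_lit 3959530802) (nat_lit 152) (nat_lit 44402538241) (nat_lit 76) (nat_lit 26903022427) (nat_lit 67) (nat_lit 5) (nat_lit 69) (nat_lit 5) (nat_lit 68) (nat_lit 4) (nat_lit 549) (nat_lit 418) (nat_lit 233)) (XT.lf (nat_lit 0) (nat_lit 790805326) (nat_lit 76) (nat_lit 25434643452) (nat_lit 152) (nat_lit 50587072606) (nat_lit 66) (nat_lit 5) (nat_lit 67) (nat_lit 5) (nat_lit 68) (nat_lit 4) (nat_lit 550) (nat_lit 418) (nat_lit 232))) (XT.nd (nat_lit 78) (nat_lit 76) (nat_lit 0) (XT.lf (nat_lit 0) (nat_lit 48238770329) (nat_lit 76) (nat_lit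 1363154548) (nat_lit 152) (nat_lit 28791171922) (nat_lit 66) (nat_lit 5) (nat_lit 67) (nat_lit 5) (nat_lit 68) (nat_lit 4) (nat_lit 551) (nat_lit 418) (nat_lit 231)) (XT.lf (nat_lit 0) (nat_lit 17188085732) (nat_lit 76) (nat_lit 56876378740) (nat_lit 76) (nat_lit 5945081949) (nat_lit 65) (nat_lit 4) (nat_lit 66) (nat_lit 5) (nat_lit 66) (nat_lit 4) (nat_lit 552) (nat_lit 418) (nat_lit 230))))) (XT.nd (nat_lit 312) (nat_lit 0) (nat_lit 76) (XT.nd (nat_lit 156) (nat_lit 988) (nat_lit 0) (XT.nd (nat_lit 78) (nat_lit 0) (nat_lit 0) (XT.lf (nat_lit 0) (nat_lit 3034410920) (nat_lit 988) (nat_lit 475892540) (nat_lit 988) (nat_lit 475892540) (nat_lit 387) (nat_lit 3) (nat_lit 400) (nat_lit 3) (nat_lit 400) (nat_lit 5) (nat_lit 419) (nat_lit 419) (nat_lit 362)) (XT.lf (nat_lit 76) (nat_lit 3080294719) (nat_lit 0) (nat_lit 4320949577) (nat_lit 988) (nat_lit 653425089) (nat_lit 388) (nat_lit 5) (nat_lit 387) (nat_lit 3) (nat_lit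 400) (nat_lit 5) (nat_lit 420) (nat_lit 419) (nat_lit 361))) (XT.nd (nat_lit 78) (nat_lit 0) (nat_lit 76) (XT.lf (nat_lit 0) (nat_lit 583550298) (nat_lit 988) (nat_lit 918270447) (nat_lit 1064) (nat_lit 6638562922) (nat_lit 374) (nat_lit 5) (nat_lit 387) (nat_lit 3) (nat_lit 388) (nat_lit 5) (nat_lit 421) (nat_lit 419) (nat_lit 360)) (XT.lf (nat_lit 0) (nat_lit 1843602998) (nat_lit 988) (nat_lit 4950744141) (nat_lit 1064) (nat_lit 1434157570) (nat_lit 375) (nat_lit 5) (nat_lit 388) (nat_lit 5) (nat_lit 389) (nat_lit 5) (nat_lit 422) (nat_lit 419) (nat_lit 359)))) (XT.nd (nat_lit 156) (nat_lit 0) (nat_lit 76) (XT.nd (nat_lit 78) (nat_lit 0) (nat_lit 0) (XT.lf (nat_lit 0) (nat_lit 3120403037) (nat_lit 988) (nat_lit 741824734) (nat_lit 1064) (nat_lit 4457675625) (nat_lit 375) (nat_lit 5) (nat_lit 388) (nat_lit 5) (nat_lit 389) (nat_lit 5) (nat_lit 423) (nat_lit 419) (nat_lit 358)) (XT.lf (nat_lit 76) (nat_lit 3638767351)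 (nat_lit 0) (nat_lit 787748565) (nat_lit 1064) (nat_lit 3987800179) (nat_lit 376) (nat_lit 5) (nat_lit 375) (nat_lit 5) (nat_lit 389) (nat_lit 5) (nat_lit 424) (nat_lit 419) (nat_lit 357))) (XT.nd (nat_lit 78) (nat_lit 0) (nat_lit 0) (XT.lf (nat_lit 0) (nat_lit 5759482173) (nat_lit 988) (nat_lit 395103410) (nat_lit 1064) (nat_lit 2357347738) (nat_lit 376) (nat_lit 5) (nat_lit 389) (nat_lit 5) (nat_lit 390) (nat_lit 5) (nat_lit 425) (nat_lit 419) (nat_lit 356)) (XT.lf (nat_lit 76) (nat_lit 4164186289) (nat_lit 0) (nat_lit 2974561639) (nat_lit 1064) (nat_lit 1473544006) (nat_lit 377) (nat_lit 5) (nat_lit 376) (nat_lit 5) (nat_lit 390) (nat_lit 5) (nat_lit 426) (nat_lit 419) (nat_lit 355))))))))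
noncomputable def xc138 : XT := (XT.nd (nat_lit 2418) (nat_lit 6612) (nat_lit 0) (XT.nd (nat_lit 1170) (nat_lit 5472) (nat_lit 0) (XT.nd (nat_lit 546) (nat_lit 4180) (nat_lit 0) (XT.nd (nat_lit 234) (nat_lit 0) (nat_lit 76) (XT.nd (nat_lit 78) (nat_lit 1064) (nat_lit 0) (XT.lf (nat_lit 76) (nat_lit 125190112) (nat_lit 0) (nat_lit 8401912231) (nat_lit 1064) (nat_lit 189529760) (nat_lit 378) (nat_lit 5) (nat_lit 377) (nat_lit 5) (nat_lit 391) (nat_lit 5) (nat_lit 427) (nat_lit 419) (nat_lit 354)) (XT.nd (nat_lit 78) (nat_lit 0) (nat_lit 0) (XT.lf (nat_lit 0) (nat_lit 1145820594) (nat_lit 1064) (nat_lit 3964338736) (nat_lit 1140) (nat_lit 3712570671) (nat_lit 363) (nat_lit 5) (nat_lit 377) (nat_lit 5) (nat_lit 378) (nat_lit 5) (nat_lit 428) (nat_lit 419) (nat_lit 353)) (XT.lf (nat_lit 76) (nat_lit 788224561) (nat_lit 0) (nat_lit 1698047946) (nat_lit 1140) (nat_lit 6446618461) (nat_lit 364) (nat_lit 5) (nat_lit 363)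 (nat_lit 5) (nat_lit 378) (nat_lit 5) (nat_lit 429) (nat_lit 419) (nat_lit 352)))) (XT.nd (nat_lit 156) (nat_lit 0) (nat_lit 0) (XT.nd (nat_lit 78) (nat_lit 0) (nat_lit 0) (XT.lf (nat_lit 0) (nat_lit 3887081048) (nat_lit 1064) (nat_lit 3326223009) (nat_lit 1140) (nat_lit 1832450296) (nat_lit 364) (nat_lit 5) (nat_lit 378) (nat_lit 5) (nat_lit 379) (nat_lit 5) (nat_lit 430) (nat_lit 419) (nat_lit 351)) (XT.lf (nat_lit 76) (nat_lit 1624634622) (nat_lit 0) (nat_lit 3701062018) (nat_lit 1140) (nat_lit 3836435345) (nat_lit 365) (nat_lit 5) (nat_lit 364) (nat_lit 5) (nat_lit 379) (nat_lit 5) (nat_lit 431) (nat_lit 419) (nat_lit 350))) (XT.nd (nat_lit 78) (nat_lit 0) (nat_lit 76) (XT.lf (nat_lit 76) (nat_lit 6765438103) (nat_lit 0) (nat_lit 39784488) (nat_lit 1140) (nat_lit 2476847574) (nat_lit 365) (nat_lit 5) (nat_lit 364) (nat_lit 5) (nat_lit 379) (nat_lit 5) (nat_lit 432) (nat_lit 419) (nat_lit 349)) (XT.lf (nat_lit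 76) (nat_lit 2643459958) (nat_lit 0) (nat_lit 5712244761) (nat_lit 1140) (nat_lit 1049106381) (nat_lit 366) (nat_lit 5) (nat_lit 365) (nat_lit 5) (nat_lit 380) (nat_lit 5) (nat_lit 433) (nat_lit 419) (nat_lit 348))))) (XT.nd (nat_lit 312) (nat_lit 2128) (nat_lit 0) (XT.nd (nat_lit 156) (nat_lit 1064) (nat_lit 0) (XT.nd (nat_lit 78) (nat_lit 0) (nat_lit 76) (XT.lf (nat_lit 0) (nat_lit 405008275) (nat_lit 1140) (nat_lit 1552758678) (nat_lit 1216) (nat_lit 7573594427) (nat_lit 350) (nat_lit 5) (nat_lit 365) (nat_lit 5) (nat_lit 366) (nat_lit 5) (nat_lit 434) (nat_lit 419) (nat_lit 347)) (XT.lf (nat_lit 0) (nat_lit 1904261896) (nat_lit 1140) (nat_lit 5830070267) (nat_lit 76) (nat_lit 1926387921) (nat_lit 351) (nat_lit 5) (nat_lit 366) (nat_lit 5) (nat_lit 352) (nat_lit 5) (nat_lit 435) (nat_lit 419) (nat_lit 346))) (XT.nd (nat_lit 78) (nat_lit 1140) (nat_lit 0) (XT.lf (nat_lit 0) (nat_lit 3451191872) (nat_lit 1140)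 (nat_lit 433144370) (nat_lit 76) (nat_lit 5909543876) (nat_lit 351) (nat_lit 5) (nat_lit 366) (nat_lit 5) (nat_lit 352) (nat_lit 5) (nat_lit 436) (nat_lit 419) (nat_lit 345)) (XT.lf (nat_lit 0) (nat_lit 5064268718) (nat_lit 1216) (nat_lit 4731342314) (nat_lit 76) (nat_lit 134833237) (nat_lit 336) (nat_lit 5) (nat_lit 352) (nat_lit 5) (nat_lit 337) (nat_lit 5) (nat_lit 437) (nat_lit 419) (nat_lit 344)))) (XT.nd (nat_lit 156) (nat_lit 912) (nat_lit 0) (XT.nd (nat_lit 78) (nat_lit 0) (nat_lit 0) (XT.lf (nat_lit 0) (nat_lit 889663711) (nat_lit 1216) (nat_lit 5856637497) (nat_lit 1292) (nat_lit 3324188680) (nat_lit 320) (nat_lit 5) (nat_lit 336) (nat_lit 5) (nat_lit 337) (nat_lit 5) (nat_lit 438) (nat_lit 419) (nat_lit 343)) (XT.lf (nat_lit 0) (nat_lit 6749141245) (nat_lit 1216) (nat_lit 1747204086) (nat_lit 1292) (nat_lit 1717866427) (nat_lit 320) (nat_lit 5) (nat_lit 336) (nat_lit 5) (nat_lit 337) (nat_lit 5) (nat_lit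 439) (nat_lit 419) (nat_lit 342))) (XT.nd (nat_lit 78) (nat_lit 76) (nat_lit 0) (XT.lf (nat_lit 0) (nat_lit 2418186720) (nat_lit 836) (nat_lit 7898523923) (nat_lit 912) (nat_lit 45001405) (nat_lit 309) (nat_lit 5) (nat_lit 320) (nat_lit 5) (nat_lit 321) (nat_lit 5) (nat_lit 440) (nat_lit 419) (nat_lit 341)) (XT.lf (nat_lit 0) (nat_lit 1668931886) (nat_lit 912) (nat_lit 2024969010) (nat_lit 76) (nat_lit 6818545006) (nat_lit 308) (nat_lit 5) (nat_lit 320) (nat_lit 5) (nat_lit 309) (nat_lit 5) (nat_lit 441) (nat_lit 419) (nat_lit 340)))))) (XT.nd (nat_lit 624) (nat_lit 2508) (nat_lit 0) (XT.nd (nat_lit 312) (nat_lit 1216) (nat_lit 0) (XT.nd (nat_lit 156) (nat_lit 1140) (nat_lit 0) (XT.nd (nat_lit 78) (nat_lit 0) (nat_lit 0) (XT.lf (nat_lit 0) (nat_lit 3451393329) (nat_lit 684) (nat_lit 6549471356) (nat_lit 76) (nat_lit 666284527) (nat_lit 300) (nat_lit 5) (nat_lit 309) (nat_lit 5) (nat_lit 301) (nat_lit 5) (nat_lit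 442) (nat_lit 419) (nat_lit 339)) (XT.lf (nat_lit 0) (nat_lit 5316964588) (nat_lit 684) (nat_lit 403893442) (nat_lit 76) (nat_lit 5104747721) (nat_lit 300) (nat_lit 5) (nat_lit 309) (nat_lit 5) (nat_lit 301) (nat_lit 5) (nat_lit 443) (nat_lit 419) (nat_lit 338))) (XT.nd (nat_lit 78) (nat_lit 532) (nat_lit 0) (XT.lf (nat_lit 0) (nat_lit 6016908469) (nat_lit 608) (nat_lit 1252648276) (nat_lit 684) (nat_lit 3718328801) (nat_lit 292) (nat_lit 5) (nat_lit 300) (nat_lit 5) (nat_lit 301) (nat_lit 5) (nat_lit 444) (nat_lit 419) (nat_lit 337)) (XT.lf (nat_lit 0) (nat_lit 1452728538) (nat_lit 532) (nat_lit 7852022602) (nat_lit 608) (nat_lit 1849563000) (nat_lit 285) (nat_lit 5) (nat_lit 292) (nat_lit 5) (nat_lit 293) (nat_lit 5) (nat_lit 445) (nat_lit 419) (nat_lit 336)))) (XT.nd (nat_lit 156) (nat_lit 532) (nat_lit 0) (XT.nd (nat_lit 78) (nat_lit 608) (nat_lit 0) (XT.lf (nat_lit 0) (nat_lit 110887167) (nat_lit 608) (nat_lit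 3194143338) (nat_lit 76) (nat_lit 8019571752) (nat_lit 284) (nat_lit 5) (nat_lit 292) (nat_lit 5) (nat_lit 285) (nat_lit 5) (nat_lit 446) (nat_lit 419) (nat_lit 335)) (XT.lf (nat_lit 0) (nat_lit 2115439856) (nat_lit 684) (nat_lit 7980340768) (nat_lit 76) (nat_lit 1402996160) (nat_lit 276) (nat_lit 5) (nat_lit 285) (nat_lit 5) (nat_lit 277) (nat_lit 5) (nat_lit 447) (nat_lit 419) (nat_lit 334))) (XT.nd (nat_lit 78) (nat_lit 532) (nat_lit 0) (XT.lf (nat_lit 0) (nat_lit 4220645368) (nat_lit 684) (nat_lit 1239391010) (nat_lit 76) (nat_lit 6216925695) (nat_lit 276) (nat_lit 5) (nat_lit 285) (nat_lit 5) (nat_lit 277) (nat_lit 5) (nat_lit 448) (nat_lit 419) (nat_lit 333)) (XT.lf (nat_lit 0) (nat_lit 5790559354) (nat_lit 532) (nat_lit 630051090) (nat_lit 608) (nat_lit 5438935356) (nat_lit 269) (nat_lit 5) (nat_lit 276) (nat_lit 5) (nat_lit 277) (nat_lit 5) (nat_lit 449) (nat_lit 419) (nat_lit 332))))) (XT.nd (nat_lit 312)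 (nat_lit 1444) (nat_lit 0) (XT.nd (nat_lit 156) (nat_lit 532) (nat_lit 0) (XT.nd (nat_lit 78) (nat_lit 0) (nat_lit 0) (XT.lf (nat_lit 0) (nat_lit 959770416) (nat_lit 532) (nat_lit 7766803981) (nat_lit 608) (nat_lit 3319833598) (nat_lit 262) (nat_lit 5) (nat_lit 269) (nat_lit 5) (nat_lit 270) (nat_lit 5) (nat_lit 450) (nat_lit 419) (nat_lit 331)) (XT.lf (nat_lit 0) (nat_lit 8291045271) (nat_lit 532) (nat_lit 2854937905) (nat_lit 608) (nat_lit 1091565829) (nat_lit 262) (nat_lit 5) (nat_lit 269) (nat_lit 5) (nat_lit 270) (nat_lit 5) (nat_lit 451) (nat_lit 419) (nat_lit 330))) (XT.nd (nat_lit 78) (nat_lit 0) (nat_lit 0) (XT.lf (nat_lit 0) (nat_lit 1211959866) (nat_lit 532) (nat_lit 9018105056) (nat_lit 76) (nat_lit 2203056254) (nat_lit 255) (nat_lit 5) (nat_lit 262) (nat_lit 5) (nat_lit 256) (nat_lit 5) (nat_lit 452) (nat_lit 419) (nat_lit 329)) (XT.lf (nat_lit 0) (nat_lit 3608801711) (nat_lit 532) (nat_lit 1621009917)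 (nat_lit 76) (nat_lit 7403041013) (nat_lit 255) (nat_lit 5) (nat_lit 262) (nat_lit 5) (nat_lit 256) (nat_lit 5) (nat_lit 453) (nat_lit 419) (nat_lit 328)))) (XT.nd (nat_lit 156) (nat_lit 532) (nat_lit 0) (XT.nd (nat_lit 78) (nat_lit 456) (nat_lit 0) (XT.lf (nat_lit 0) (nat_lit 6091172256) (nat_lit 456) (nat_lit 23216525) (nat_lit 532) (nat_lit 6723082892) (nat_lit 249) (nat_lit 5) (nat_lit 255) (nat_lit 5) (nat_lit 256) (nat_lit 5) (nat_lit 454) (nat_lit 419) (nat_lit 327)) (XT.lf (nat_lit 0) (nat_lit 961447041) (nat_lit 456) (nat_lit 7789433088) (nat_lit 532) (nat_lit 4295677845) (nat_lit 243) (nat_lit 5) (nat_lit 249) (nat_lit 5) (nat_lit 250) (nat_lit 5) (nat_lit 455) (nat_lit 419) (nat_lit 326))) (XT.nd (nat_lit 78) (nat_lit 532) (nat_lit 0) (XT.lf (nat_lit 0) (nat_lit 9012703515) (nat_lit 456) (nat_lit 2501125421) (nat_lit 532) (nat_lit 1746667824) (nat_lit 243) (nat_lit 5) (nat_lit 249) (nat_lit 5) (nat_lit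 250) (nat_lit 5) (nat_lit 456) (nat_lit 419) (nat_lit 325)) (XT.lf (nat_lit 0) (nat_lit 906969551) (nat_lit 532) (nat_lit 9642625642) (nat_lit 76) (nat_lit 2929646640) (nat_lit 236) (nat_lit 5) (nat_lit 243) (nat_lit 5) (nat_lit 237) (nat_lit 5) (nat_lit 457) (nat_lit 419) (nat_lit 324))))))) (XT.nd (nat_lit 1248) (nat_lit 2812) (nat_lit 0) (XT.nd (nat_lit 624) (nat_lit 1748) (nat_lit 0) (XT.nd (nat_lit 312) (nat_lit 1216) (nat_lit 0) (XT.nd (nat_lit 156) (nat_lit 456) (nat_lit 0) (XT.nd (nat_lit 78) (nat_lit 380) (nat_lit 0) (XT.lf (nat_lit 0) (nat_lit 3652921534) (nat_lit 532) (nat_lit 1520861117) (nat_lit 76) (nat_lit 8528814154) (nat_lit 236) (nat_lit 5) (nat_lit 243) (nat_lit 5) (nat_lit 237) (nat_lit 5) (nat_lit 458) (nat_lit 419) (nat_lit 323)) (XT.lf (nat_lit 0) (nat_lit 6532533099) (nat_lit 456) (nat_lit 6980062162) (nat_lit 76) (nat_lit 418519421) (nat_lit 231) (nat_lit 5) (nat_lit 237) (nat_lit 5) (nat_lit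 232) (nat_lit 5) (nat_lit 459) (nat_lit 419) (nat_lit 322))) (XT.nd (nat_lit 78) (nat_lit 0) (nat_lit 0) (XT.lf (nat_lit 0) (nat_lit 1494779199) (nat_lit 456) (nat_lit 8065460640) (nat_lit 532) (nat_lit 4604397723) (nat_lit 225) (nat_lit 5) (nat_lit 231) (nat_lit 5) (nat_lit 232) (nat_lit 5) (nat_lit 460) (nat_lit 419) (nat_lit 321)) (XT.lf (nat_lit 0) (nat_lit 10341914053) (nat_lit 456) (nat_lit 2388275727) (nat_lit 532) (nat_lit 1673434636) (nat_lit 225) (nat_lit 5) (nat_lit 231) (nat_lit 5) (nat_lit 232) (nat_lit 5) (nat_lit 461) (nat_lit 419) (nat_lit 320)))) (XT.nd (nat_lit 156) (nat_lit 760) (nat_lit 0) (XT.nd (nat_lit 78) (nat_lit 0) (nat_lit 0) (XT.lf (nat_lit 0) (nat_lit 1381022717) (nat_lit 456) (nat_lit 9820394996) (nat_lit 76) (nat_lit 3446121173) (nat_lit 219) (nat_lit 5) (nat_lit 225) (nat_lit 5) (nat_lit 220) (nat_lit 5) (nat_lit 462) (nat_lit 419) (nat_lit 319)) (XT.lf (nat_lit 0) (nat_lit 4540097399)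 (nat_lit 456) (nat_lit 897168565) (nat_lit 76) (nat_lit 9459609821) (nat_lit 219) (nat_lit 5) (nat_lit 225) (nat_lit 5) (nat_lit 220) (nat_lit 5) (nat_lit 463) (nat_lit 419) (nat_lit 318))) (XT.nd (nat_lit 78) (nat_lit 380) (nat_lit 0) (XT.lf (nat_lit 0) (nat_lit 7862652689) (nat_lit 456) (nat_lit 6723216188) (nat_lit 76) (nat_lit 565763240) (nat_lit 214) (nat_lit 5) (nat_lit 220) (nat_lit 5) (nat_lit 215) (nat_lit 5) (nat_lit 464) (nat_lit 419) (nat_lit 317)) (XT.lf (nat_lit 0) (nat_lit 2610988736) (nat_lit 380) (nat_lit 8744295944) (nat_lit 456) (nat_lit 4056635019) (nat_lit 209) (nat_lit 5) (nat_lit 214) (nat_lit 5) (nat_lit 215) (nat_lit 5) (nat_lit 465) (nat_lit 419) (nat_lit 316))))) (XT.nd (nat_lit 312) (nat_lit 988) (nat_lit 0) (XT.nd (nat_lit 156) (nat_lit 304) (nat_lit 0) (XT.nd (nat_lit 78) (nat_lit 456) (nat_lit 0) (XT.lf (nat_lit 0) (nat_lit 12338841998) (nat_lit 380) (nat_lit 2664345309) (nat_lit 456)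 (nat_lit 675314394) (nat_lit 209) (nat_lit 5) (nat_lit 214) (nat_lit 5) (nat_lit 215) (nat_lit 5) (nat_lit 466) (nat_lit 419) (nat_lit 315)) (XT.lf (nat_lit 0) (nat_lit 2833307304) (nat_lit 456) (nat_lit 9505220054) (nat_lit 76) (nat_lit 3611325368) (nat_lit 203) (nat_lit 5) (nat_lit 209) (nat_lit 5) (nat_lit 204) (nat_lit 5) (nat_lit 467) (nat_lit 419) (nat_lit 314))) (XT.nd (nat_lit 78) (nat_lit 0) (nat_lit 0) (XT.lf (nat_lit 0) (nat_lit 311216576) (nat_lit 304) (nat_lit 6168971110) (nat_lit 380) (nat_lit 9747559308) (nat_lit 199) (nat_lit 5) (nat_lit 203) (nat_lit 5) (nat_lit 204) (nat_lit 5) (nat_lit 468) (nat_lit 419) (nat_lit 313)) (XT.lf (nat_lit 0) (nat_lit 10318530566) (nat_lit 380) (nat_lit 5921070600) (nat_lit 76) (nat_lit 271915727) (nat_lit 199) (nat_lit 5) (nat_lit 204) (nat_lit 5) (nat_lit 200) (nat_lit 5) (nat_lit 469) (nat_lit 419) (nat_lit 312)))) (XT.nd (nat_lit 156) (nat_lit 608) (nat_lit 0)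 (XT.nd (nat_lit 78) (nat_lit 76) (nat_lit 0) (XT.lf (nat_lit 0) (nat_lit 4375021372) (nat_lit 304) (nat_lit 9983958868) (nat_lit 380) (nat_lit 2442211421) (nat_lit 195) (nat_lit 5) (nat_lit 199) (nat_lit 5) (nat_lit 200) (nat_lit 5) (nat_lit 470) (nat_lit 419) (nat_lit 311)) (XT.lf (nat_lit 0) (nat_lit 1437650714) (nat_lit 380) (nat_lit 2034258183) (nat_lit 76) (nat_lit 13625909571) (nat_lit 194) (nat_lit 5) (nat_lit 199) (nat_lit 5) (nat_lit 195) (nat_lit 5) (nat_lit 471) (nat_lit 419) (nat_lit 310))) (XT.nd (nat_lit 78) (nat_lit 304) (nat_lit 0) (XT.lf (nat_lit 0) (nat_lit 5485842734) (nat_lit 380) (nat_lit 8638755088) (nat_lit 76) (nat_lit 3274990679) (nat_lit 190) (nat_lit 5) (nat_lit 195) (nat_lit 5) (nat_lit 191) (nat_lit 5) (nat_lit 472) (nat_lit 419) (nat_lit 309)) (XT.lf (nat_lit 0) (nat_lit 2196878872) (nat_lit 304) (nat_lit 7519386404) (nat_lit 380) (nat_lit 7992323232) (nat_lit 186) (nat_lit 5) (nat_lit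 190) (nat_lit 5) (nat_lit 191) (nat_lit 5) (nat_lit 473) (nat_lit 419) (nat_lit 308)))))) (XT.nd (nat_lit 624) (nat_lit 1292) (nat_lit 0) (XT.nd (nat_lit 312) (nat_lit 836) (nat_lit 0) (XT.nd (nat_lit 156) (nat_lit 304) (nat_lit 0) (XT.nd (nat_lit 78) (nat_lit 380) (nat_lit 0) (XT.lf (nat_lit 0) (nat_lit 13511800165) (nat_lit 304) (nat_lit 633811384) (nat_lit 380) (nat_lit 3879087038) (nat_lit 186) (nat_lit 5) (nat_lit 190) (nat_lit 5) (nat_lit 191) (nat_lit 5) (nat_lit 474) (nat_lit 419) (nat_lit 307)) (XT.lf (nat_lit 0) (nat_lit 464912277) (nat_lit 380) (nat_lit 11486267548) (nat_lit 76) (nat_lit 6395579126) (nat_lit 181) (nat_lit 5) (nat_lit 186) (nat_lit 5) (nat_lit 182) (nat_lit 5) (nat_lit 475) (nat_lit 419) (nat_lit 306))) (XT.nd (nat_lit 78) (nat_lit 304) (nat_lit 0) (XT.lf (nat_lit 0) (nat_lit 4898784812) (nat_lit 380) (nat_lit 77301714) (nat_lit 76) (nat_lit 13700117194) (nat_lit 181) (nat_lit 5) (nat_lit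 186) (nat_lit 5) (nat_lit 182) (nat_lit 5) (nat_lit 476) (nat_lit 419) (nat_lit 305)) (XT.lf (nat_lit 0) (nat_lit 9587844545) (nat_lit 380) (nat_lit 7150978354) (nat_lit 76) (nat_lit 2273044163) (nat_lit 177) (nat_lit 5) (nat_lit 182) (nat_lit 5) (nat_lit 178) (nat_lit 5) (nat_lit 477) (nat_lit 419) (nat_lit 304)))) (XT.nd (nat_lit 156) (nat_lit 608) (nat_lit 0) (XT.nd (nat_lit 78) (nat_lit 0) (nat_lit 0) (XT.lf (nat_lit 0) (nat_lit 4823966343) (nat_lit 228) (nat_lit 9675823930) (nat_lit 304) (nat_lit 4855343955) (nat_lit 174) (nat_lit 5) (nat_lit 177) (nat_lit 5) (nat_lit 178) (nat_lit 5) (nat_lit 478) (nat_lit 419) (nat_lit 303)) (XT.lf (nat_lit 0) (nat_lit 17282841054) (nat_lit 228) (nat_lit 2334454359) (nat_lit 304) (nat_lit 89658304) (nat_lit 174) (nat_lit 5) (nat_lit 177) (nat_lit 5) (nat_lit 178) (nat_lit 5) (nat_lit 479) (nat_lit 419) (nat_lit 302))) (XT.nd (nat_lit 78) (nat_lit 228) (nat_lit 0) (XT.lf (nat_lit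 0) (nat_lit 4860650330) (nat_lit 380) (nat_lit 9940138004) (nat_lit 76) (nat_lit 5263079429) (nat_lit 169) (nat_lit 5) (nat_lit 174) (nat_lit 5) (nat_lit 170) (nat_lit 5) (nat_lit 480) (nat_lit 419) (nat_lit 301)) (XT.lf (nat_lit 0) (nat_lit 2673202323) (nat_lit 228) (nat_lit 7344378291) (nat_lit 304) (nat_lit 10412084861) (nat_lit 166) (nat_lit 5) (nat_lit 169) (nat_lit 5) (nat_lit 170) (nat_lit 5) (nat_lit 481) (nat_lit 419) (nat_lit 300))))) (XT.nd (nat_lit 312) (nat_lit 760) (nat_lit 0) (XT.nd (nat_lit 156) (nat_lit 304) (nat_lit 0) (XT.nd (nat_lit 78) (nat_lit 228) (nat_lit 0) (XT.lf (nat_lit 0) (nat_lit 15420312413) (nat_lit 304) (nat_lit 4960717007) (nat_lit 76) (nat_lit 422675193) (nat_lit 166) (nat_lit 5) (nat_lit 170) (nat_lit 5) (nat_lit 167) (nat_lit 5) (nat_lit 482) (nat_lit 419) (nat_lit 299)) (XT.lf (nat_lit 0) (nat_lit 8286747348) (nat_lit 228) (nat_lit 12837642715) (nat_lit 304) (nat_lit 60397236)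 (nat_lit 163) (nat_lit 5) (nat_lit 166) (nat_lit 5) (nat_lit 167) (nat_lit 5) (nat_lit 483) (nat_lit 419) (nat_lit 298))) (XT.nd (nat_lit 78) (nat_lit 0) (nat_lit 0) (XT.lf (nat_lit 0) (nat_lit 391349400) (nat_lit 228) (nat_lit 4966423507) (nat_lit 304) (nat_lit 16216727355) (nat_lit 159) (nat_lit 5) (nat_lit 162) (nat_lit 5) (nat_lit 163) (nat_lit 5) (nat_lit 484) (nat_lit 419) (nat_lit 297)) (XT.lf (nat_lit 0) (nat_lit 11086044218) (nat_lit 304) (nat_lit 7681555403) (nat_lit 76) (nat_lit 3203824220) (nat_lit 159) (nat_lit 5) (nat_lit 163) (nat_lit 5) (nat_lit 160) (nat_lit 5) (nat_lit 485) (nat_lit 419) (nat_lit 296)))) (XT.nd (nat_lit 156) (nat_lit 456) (nat_lit 0) (XT.nd (nat_lit 78) (nat_lit 76) (nat_lit 0) (XT.lf (nat_lit 0) (nat_lit 6277741382) (nat_lit 228) (nat_lit 10805360634) (nat_lit 304) (nat_lit 5294245222) (nat_lit 156) (nat_lit 5) (nat_lit 159) (nat_lit 5) (nat_lit 160) (nat_lit 5) (nat_lit 486)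 (nat_lit 419) (nat_lit 295)) (XT.lf (nat_lit 0) (nat_lit 521360221) (nat_lit 304) (nat_lit 2005796454) (nat_lit 76) (nat_lit 20266183814) (nat_lit 155) (nat_lit 5) (nat_lit 159) (nat_lit 5) (nat_lit 156) (nat_lit 5) (nat_lit 487) (nat_lit 419) (nat_lit 294))) (XT.nd (nat_lit 78) (nat_lit 228) (nat_lit 0) (XT.lf (nat_lit 0) (nat_lit 6574120409) (nat_lit 304) (nat_lit 10590431189) (nat_lit 76) (nat_lit 6050616760) (nat_lit 152) (nat_lit 5) (nat_lit 156) (nat_lit 5) (nat_lit 153) (nat_lit 5) (nat_lit 488) (nat_lit 419) (nat_lit 293)) (XT.lf (nat_lit 0) (nat_lit 4121252995) (nat_lit 228) (nat_lit 8760221606) (nat_lit 304) (nat_lit 10765986356) (nat_lit 149) (nat_lit 5) (nat_lit 152) (nat_lit 5) (nat_lit 153) (nat_lit 5) (nat_lit 489) (nat_lit 419) (nat_lit 292))))))))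
noncomputable def xc139 : XT := (XT.nd (nat_lit 2418) (nat_lit 2660) (nat_lit 0) (XT.nd (nat_lit 1170) (nat_lit 1748) (nat_lit 0) (XT.nd (nat_lit 546) (nat_lit 988) (nat_lit 0) (XT.nd (nat_lit 234) (nat_lit 456) (nat_lit 0) (XT.nd (nat_lit 78) (nat_lit 456) (nat_lit 0) (XT.lf (nat_lit 0) (nat_lit 19471373421) (nat_lit 228) (nat_lit 1696835) (nat_lit 304) (nat_lit 4616801678) (nat_lit 149) (nat_lit 5) (nat_lit 152) (nat_lit 5) (nat_lit 153) (nat_lit 5) (nat_lit 490) (nat_lit 419) (nat_lit 291)) (XT.nd (nat_lit 78) (nat_lit 228) (nat_lit 0) (XT.lf (nat_lit 0) (nat_lit 1864399048) (nat_lit 228) (nat_lit 13716853654) (nat_lit 76) (nat_lit 8958376367) (nat_lit 146) (nat_lit 5) (nat_lit 149) (nat_lit 5) (nat_lit 147) (nat_lit 5) (nat_lit 491) (nat_lit 419) (nat_lit 290)) (XT.lf (nat_lit 0) (nat_lit 1789476958) (nat_lit 228) (nat_lit 6710471387) (nat_lit 304) (nat_lit 16499978279) (nat_lit 143) (nat_lit 5) (nat_lit 146)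 (nat_lit 5) (nat_lit 147) (nat_lit 5) (nat_lit 492) (nat_lit 419) (nat_lit 289)))) (XT.nd (nat_lit 156) (nat_lit 304) (nat_lit 0) (XT.nd (nat_lit 78) (nat_lit 152) (nat_lit 0) (XT.lf (nat_lit 0) (nat_lit 15486233737) (nat_lit 304) (nat_lit 7472202034) (nat_lit 76) (nat_lit 2511047446) (nat_lit 143) (nat_lit 5) (nat_lit 147) (nat_lit 5) (nat_lit 144) (nat_lit 5) (nat_lit 493) (nat_lit 419) (nat_lit 288)) (XT.lf (nat_lit 0) (nat_lit 8824723709) (nat_lit 152) (nat_lit 13997449545) (nat_lit 228) (nat_lit 3126751480) (nat_lit 141) (nat_lit 5) (nat_lit 143) (nat_lit 5) (nat_lit 144) (nat_lit 5) (nat_lit 494) (nat_lit 419) (nat_lit 287))) (XT.nd (nat_lit 78) (nat_lit 228) (nat_lit 0) (XT.lf (nat_lit 0) (nat_lit 3923678668) (nat_lit 228) (nat_lit 734597860) (nat_lit 76) (nat_lit 21781387299) (nat_lit 140) (nat_lit 5) (nat_lit 143) (nat_lit 5) (nat_lit 141) (nat_lit 5) (nat_lit 495) (nat_lit 419) (nat_lit 286)) (XT.lf (nat_lit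 0) (nat_lit 11319229000) (nat_lit 304) (nat_lit 10571875804) (nat_lit 76) (nat_lit 5047198172) (nat_lit 137) (nat_lit 5) (nat_lit 141) (nat_lit 5) (nat_lit 138) (nat_lit 5) (nat_lit 496) (nat_lit 419) (nat_lit 285))))) (XT.nd (nat_lit 312) (nat_lit 380) (nat_lit 0) (XT.nd (nat_lit 156) (nat_lit 456) (nat_lit 0) (XT.nd (nat_lit 78) (nat_lit 0) (nat_lit 0) (XT.lf (nat_lit 0) (nat_lit 6607843705) (nat_lit 152) (nat_lit 12435151998) (nat_lit 228) (nat_lit 8405715272) (nat_lit 135) (nat_lit 5) (nat_lit 137) (nat_lit 5) (nat_lit 138) (nat_lit 5) (nat_lit 497) (nat_lit 419) (nat_lit 284)) (XT.lf (nat_lit 0) (nat_lit 24501085016) (nat_lit 152) (nat_lit 2593499241) (nat_lit 228) (nat_lit 876963858) (nat_lit 135) (nat_lit 5) (nat_lit 137) (nat_lit 5) (nat_lit 138) (nat_lit 5) (nat_lit 498) (nat_lit 419) (nat_lit 283))) (XT.nd (nat_lit 78) (nat_lit 152) (nat_lit 0) (XT.lf (nat_lit 0) (nat_lit 6948042337) (nat_lit 304) (nat_lit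 13956646840) (nat_lit 76) (nat_lit 7597259986) (nat_lit 131) (nat_lit 5) (nat_lit 135) (nat_lit 5) (nat_lit 132) (nat_lit 5) (nat_lit 499) (nat_lit 419) (nat_lit 282)) (XT.lf (nat_lit 0) (nat_lit 4153507386) (nat_lit 152) (nat_lit 10927278289) (nat_lit 228) (nat_lit 13964497844) (nat_lit 129) (nat_lit 5) (nat_lit 131) (nat_lit 5) (nat_lit 132) (nat_lit 5) (nat_lit 500) (nat_lit 419) (nat_lit 281)))) (XT.nd (nat_lit 156) (nat_lit 152) (nat_lit 0) (XT.nd (nat_lit 78) (nat_lit 228) (nat_lit 0) (XT.lf (nat_lit 0) (nat_lit 23074937873) (nat_lit 152) (nat_lit 513253334) (nat_lit 228) (nat_lit 6012806449) (nat_lit 129) (nat_lit 5) (nat_lit 131) (nat_lit 5) (nat_lit 132) (nat_lit 5) (nat_lit 501) (nat_lit 419) (nat_lit 280)) (XT.lf (nat_lit 0) (nat_lit 2345495454) (nat_lit 228) (nat_lit 17671205439) (nat_lit 76) (nat_lit 10149738057) (nat_lit 126) (nat_lit 5) (nat_lit 129) (nat_lit 5) (nat_lit 127) (nat_lit 5) (nat_lit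 502) (nat_lit 419) (nat_lit 279))) (XT.nd (nat_lit 78) (nat_lit 0) (nat_lit 0) (XT.lf (nat_lit 0) (nat_lit 1418645005) (nat_lit 152) (nat_lit 9490316044) (nat_lit 228) (nat_lit 19835838605) (nat_lit 124) (nat_lit 5) (nat_lit 126) (nat_lit 5) (nat_lit 127) (nat_lit 5) (nat_lit 503) (nat_lit 419) (nat_lit 278)) (XT.lf (nat_lit 0) (nat_lit 19912578090) (nat_lit 228) (nat_lit 9924380875) (nat_lit 76) (nat_lit 1498054921) (nat_lit 124) (nat_lit 5) (nat_lit 127) (nat_lit 5) (nat_lit 125) (nat_lit 5) (nat_lit 504) (nat_lit 419) (nat_lit 277)))))) (XT.nd (nat_lit 624) (nat_lit 836) (nat_lit 0) (XT.nd (nat_lit 312) (nat_lit 380) (nat_lit 0) (XT.nd (nat_lit 156) (nat_lit 304) (nat_lit 0) (XT.nd (nat_lit 78) (nat_lit 76) (nat_lit 0) (XT.lf (nat_lit 0) (nat_lit 10146095974) (nat_lit 152) (nat_lit 19222033001) (nat_lit 228) (nat_lit 2569350939) (nat_lit 122) (nat_lit 5) (nat_lit 124) (nat_lit 5) (nat_lit 125) (nat_lit 5) (nat_lit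 505) (nat_lit 419) (nat_lit 276)) (XT.lf (nat_lit 0) (nat_lit 6513087419) (nat_lit 228) (nat_lit 1614229866) (nat_lit 76) (nat_lit 24426067216) (nat_lit 121) (nat_lit 5) (nat_lit 124) (nat_lit 5) (nat_lit 122) (nat_lit 5) (nat_lit 506) (nat_lit 419) (nat_lit 275))) (XT.nd (nat_lit 78) (nat_lit 152) (nat_lit 0) (XT.lf (nat_lit 0) (nat_lit 16028260317) (nat_lit 228) (nat_lit 13708864675) (nat_lit 76) (nat_lit 3443521095) (nat_lit 119) (nat_lit 5) (nat_lit 122) (nat_lit 5) (nat_lit 120) (nat_lit 5) (nat_lit 507) (nat_lit 419) (nat_lit 274)) (XT.lf (nat_lit 0) (nat_lit 7444945494) (nat_lit 152) (nat_lit 18543112822) (nat_lit 228) (nat_lit 7833892219) (nat_lit 117) (nat_lit 5) (nat_lit 119) (nat_lit 5) (nat_lit 120) (nat_lit 5) (nat_lit 508) (nat_lit 419) (nat_lit 273)))) (XT.nd (nat_lit 156) (nat_lit 152) (nat_lit 0) (XT.nd (nat_lit 78) (nat_lit 152) (nat_lit 0) (XT.lf (nat_lit 0) (nat_lit 1860227619) (nat_lit 228)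 (nat_lit 4999229996) (nat_lit 76) (nat_lit 27618612969) (nat_lit 116) (nat_lit 5) (nat_lit 119) (nat_lit 5) (nat_lit 117) (nat_lit 5) (nat_lit 509) (nat_lit 419) (nat_lit 272)) (XT.lf (nat_lit 0) (nat_lit 11896703761) (nat_lit 228) (nat_lit 17936204258) (nat_lit 76) (nat_lit 5312369835) (nat_lit 114) (nat_lit 5) (nat_lit 117) (nat_lit 5) (nat_lit 115) (nat_lit 5) (nat_lit 510) (nat_lit 419) (nat_lit 271))) (XT.nd (nat_lit 78) (nat_lit 0) (nat_lit 0) (XT.lf (nat_lit 0) (nat_lit 4355198535) (nat_lit 152) (nat_lit 18030838235) (nat_lit 228) (nat_lit 13441911796) (nat_lit 112) (nat_lit 5) (nat_lit 114) (nat_lit 5) (nat_lit 115) (nat_lit 5) (nat_lit 511) (nat_lit 419) (nat_lit 270)) (XT.lf (nat_lit 0) (nat_lit 27666689120) (nat_lit 152) (nat_lit 5695586398) (nat_lit 228) (nat_lit 3163657206) (nat_lit 112) (nat_lit 5) (nat_lit 114) (nat_lit 5) (nat_lit 115) (nat_lit 5) (nat_lit 512) (nat_lit 419) (nat_lit 269))))) (XT.nd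 (nat_lit 312) (nat_lit 304) (nat_lit 0) (XT.nd (nat_lit 156) (nat_lit 152) (nat_lit 0) (XT.nd (nat_lit 78) (nat_lit 152) (nat_lit 0) (XT.lf (nat_lit 0) (nat_lit 7479425894) (nat_lit 228) (nat_lit 22677382280) (nat_lit 76) (nat_lit 7079867831) (nat_lit 109) (nat_lit 5) (nat_lit 112) (nat_lit 5) (nat_lit 110) (nat_lit 5) (nat_lit 513) (nat_lit 419) (nat_lit 268)) (XT.lf (nat_lit 0) (nat_lit 807023300) (nat_lit 152) (nat_lit 17716998602) (nat_lit 228) (nat_lit 19439405868) (nat_lit 107) (nat_lit 5) (nat_lit 109) (nat_lit 5) (nat_lit 110) (nat_lit 5) (nat_lit 514) (nat_lit 419) (nat_lit 267))) (XT.nd (nat_lit 78) (nat_lit 152) (nat_lit 0) (XT.lf (nat_lit 0) (nat_lit 25444923769) (nat_lit 152) (nat_lit 4675439860) (nat_lit 228) (nat_lit 8585006311) (nat_lit 107) (nat_lit 5) (nat_lit 109) (nat_lit 5) (nat_lit 110) (nat_lit 5) (nat_lit 515) (nat_lit 419) (nat_lit 266)) (XT.lf (nat_lit 0) (nat_lit 2732322701) (nat_lit 152)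 (nat_lit 28014237079) (nat_lit 76) (nat_lit 8716624255) (nat_lit 105) (nat_lit 5) (nat_lit 107) (nat_lit 5) (nat_lit 106) (nat_lit 5) (nat_lit 516) (nat_lit 419) (nat_lit 265)))) (XT.nd (nat_lit 156) (nat_lit 152) (nat_lit 0) (XT.nd (nat_lit 78) (nat_lit 152) (nat_lit 0) (XT.lf (nat_lit 0) (nat_lit 14389749734) (nat_lit 152) (nat_lit 3216518966) (nat_lit 76) (nat_lit 22629720084) (nat_lit 105) (nat_lit 5) (nat_lit 107) (nat_lit 5) (nat_lit 106) (nat_lit 5) (nat_lit 517) (nat_lit 419) (nat_lit 264)) (XT.lf (nat_lit 0) (nat_lit 22753963602) (nat_lit 152) (nat_lit 3853511963) (nat_lit 228) (nat_lit 14418184907) (nat_lit 103) (nat_lit 5) (nat_lit 105) (nat_lit 5) (nat_lit 106) (nat_lit 5) (nat_lit 518) (nat_lit 419) (nat_lit 263))) (XT.nd (nat_lit 78) (nat_lit 76) (nat_lit 0) (XT.lf (nat_lit 0) (nat_lit 7768387491) (nat_lit 76) (nat_lit 31621822695) (nat_lit 152) (nat_lit 2442857888) (nat_lit 102) (nat_lit 5) (nat_lit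 103) (nat_lit 5) (nat_lit 104) (nat_lit 4) (nat_lit 519) (nat_lit 419) (nat_lit 262)) (XT.lf (nat_lit 0) (nat_lit 9915083478) (nat_lit 152) (nat_lit 7845219361) (nat_lit 76) (nat_lit 24895051243) (nat_lit 101) (nat_lit 5) (nat_lit 103) (nat_lit 5) (nat_lit 102) (nat_lit 5) (nat_lit 520) (nat_lit 419) (nat_lit 261))))))) (XT.nd (nat_lit 1248) (nat_lit 1216) (nat_lit 0) (XT.nd (nat_lit 624) (nat_lit 684) (nat_lit 0) (XT.nd (nat_lit 312) (nat_lit 304) (nat_lit 0) (XT.nd (nat_lit 156) (nat_lit 228) (nat_lit 0) (XT.nd (nat_lit 78) (nat_lit 76) (nat_lit 0) (XT.lf (nat_lit 0) (nat_lit 19502427601) (nat_lit 152) (nat_lit 3271831053) (nat_lit 228) (nat_lit 20721936646) (nat_lit 99) (nat_lit 5) (nat_lit 101) (nat_lit 5) (nat_lit 102) (nat_lit 5) (nat_lit 521) (nat_lit 419) (nat_lit 260)) (XT.lf (nat_lit 0) (nat_lit 3410406727) (nat_lit 76) (nat_lit 32825738633) (nat_lit 152) (nat_lit 8119608372) (nat_lit 98) (nat_lit 5) (nat_lit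 99) (nat_lit 5) (nat_lit 100) (nat_lit 4) (nat_lit 522) (nat_lit 419) (nat_lit 259))) (XT.nd (nat_lit 78) (nat_lit 152) (nat_lit 0) (XT.lf (nat_lit 0) (nat_lit 5035180715) (nat_lit 152) (nat_lit 13201601332) (nat_lit 76) (nat_lit 26994837912) (nat_lit 97) (nat_lit 5) (nat_lit 99) (nat_lit 5) (nat_lit 98) (nat_lit 5) (nat_lit 523) (nat_lit 419) (nat_lit 258)) (XT.lf (nat_lit 0) (nat_lit 15583783544) (nat_lit 152) (nat_lit 2979822271) (nat_lit 228) (nat_lit 27563479001) (nat_lit 95) (nat_lit 5) (nat_lit 97) (nat_lit 5) (nat_lit 98) (nat_lit 5) (nat_lit 524) (nat_lit 419) (nat_lit 257)))) (XT.nd (nat_lit 156) (nat_lit 228) (nat_lit 0) (XT.nd (nat_lit 78) (nat_lit 76) (nat_lit 0) (XT.lf (nat_lit 0) (nat_lit 32747336957) (nat_lit 228) (nat_lit 1680196701) (nat_lit 76) (nat_lit 12614396421) (nat_lit 95) (nat_lit 5) (nat_lit 98) (nat_lit 5) (nat_lit 96) (nat_lit 4) (nat_lit 525) (nat_lit 419) (nat_lit 256)) (XT.lf (nat_lit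 0) (nat_lit 28562680726) (nat_lit 76) (nat_lit 19090593549) (nat_lit 152) (nat_lit 322045657) (nat_lit 94) (nat_lit 5) (nat_lit 95) (nat_lit 5) (nat_lit 96) (nat_lit 4) (nat_lit 526) (nat_lit 419) (nat_lit 255))) (XT.nd (nat_lit 78) (nat_lit 0) (nat_lit 0) (XT.lf (nat_lit 0) (nat_lit 10873871038) (nat_lit 152) (nat_lit 3035556579) (nat_lit 228) (nat_lit 35019797542) (nat_lit 91) (nat_lit 5) (nat_lit 93) (nat_lit 5) (nat_lit 94) (nat_lit 5) (nat_lit 527) (nat_lit 419) (nat_lit 254)) (XT.lf (nat_lit 0) (nat_lit 28881780531) (nat_lit 228) (nat_lit 7587866152) (nat_lit 76) (nat_lit 13432393007) (nat_lit 91) (nat_lit 5) (nat_lit 94) (nat_lit 5) (nat_lit 92) (nat_lit 4) (nat_lit 528) (nat_lit 419) (nat_lit 253))))) (XT.nd (nat_lit 312) (nat_lit 304) (nat_lit 0) (XT.nd (nat_lit 156) (nat_lit 76) (nat_lit 0) (XT.nd (nat_lit 78) (nat_lit 228) (nat_lit 0) (XT.lf (nat_lit 0) (nat_lit 24222665248) (nat_lit 76) (nat_lit 20336407386)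 (nat_lit 152) (nat_lit 6337293017) (nat_lit 90) (nat_lit 5) (nat_lit 91) (nat_lit 5) (nat_lit 92) (nat_lit 4) (nat_lit 529) (nat_lit 419) (nat_lit 252)) (XT.lf (nat_lit 0) (nat_lit 5228028659) (nat_lit 152) (nat_lit 3507198873) (nat_lit 228) (nat_lit 43179144715) (nat_lit 87) (nat_lit 5) (nat_lit 89) (nat_lit 5) (nat_lit 90) (nat_lit 5) (nat_lit 530) (nat_lit 419) (nat_lit 251))) (XT.nd (nat_lit 78) (nat_lit 76) (nat_lit 0) (XT.lf (nat_lit 0) (nat_lit 24530376769) (nat_lit 228) (nat_lit 14533191236) (nat_lit 76) (nat_lit 13885533928) (nat_lit 87) (nat_lit 5) (nat_lit 90) (nat_lit 5) (nat_lit 88) (nat_lit 4) (nat_lit 531) (nat_lit 419) (nat_lit 250)) (XT.lf (nat_lit 0) (nat_lit 18905520259) (nat_lit 76) (nat_lit 22103418306) (nat_lit 152) (nat_lit 12999648245) (nat_lit 86) (nat_lit 5) (nat_lit 87) (nat_lit 5) (nat_lit 88) (nat_lit 4) (nat_lit 532) (nat_lit 419) (nat_lit 249)))) (XT.nd (nat_lit 156) (nat_lit 76) (nat_lit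 0) (XT.nd (nat_lit 78) (nat_lit 152) (nat_lit 0) (XT.lf (nat_lit 0) (nat_lit 2967081880) (nat_lit 152) (nat_lit 1492533855) (nat_lit 76) (nat_lit 50635169862) (nat_lit 85) (nat_lit 5) (nat_lit 87) (nat_lit 5) (nat_lit 86) (nat_lit 5) (nat_lit 533) (nat_lit 419) (nat_lit 248)) (XT.lf (nat_lit 0) (nat_lit 19604463379) (nat_lit 228) (nat_lit 22695228692) (nat_lit 76) (nat_lit 13896429152) (nat_lit 83) (nat_lit 5) (nat_lit 86) (nat_lit 5) (nat_lit 84) (nat_lit 4) (nat_lit 534) (nat_lit 419) (nat_lit 247))) (XT.nd (nat_lit 78) (nat_lit 0) (nat_lit 0) (XT.lf (nat_lit 0) (nat_lit 12430062375) (nat_lit 76) (nat_lit 24483088746) (nat_lit 152) (nat_lit 20412180293) (nat_lit 82) (nat_lit 5) (nat_lit 83) (nat_lit 5) (nat_lit 84) (nat_lit 4) (nat_lit 535) (nat_lit 419) (nat_lit 246)) (XT.lf (nat_lit 0) (nat_lit 49061606705) (nat_lit 76) (nat_lit 5902066061) (nat_lit 152) (nat_lit 3518067984) (nat_lit 82) (nat_lit 5) (nat_lit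 83) (nat_lit 5) (nat_lit 84) (nat_lit 4) (nat_lit 536) (nat_lit 419) (nat_lit 245)))))) (XT.nd (nat_lit 624) (nat_lit 532) (nat_lit 0) (XT.nd (nat_lit 312) (nat_lit 228) (nat_lit 0) (XT.nd (nat_lit 156) (nat_lit 152) (nat_lit 0) (XT.nd (nat_lit 78) (nat_lit 76) (nat_lit 0) (XT.lf (nat_lit 0) (nat_lit 14001049914) (nat_lit 228) (nat_lit 32282084992) (nat_lit 76) (nat_lit 13374031371) (nat_lit 79) (nat_lit 5) (nat_lit 82) (nat_lit 5) (nat_lit 80) (nat_lit 4) (nat_lit 537) (nat_lit 419) (nat_lit 244)) (XT.lf (nat_lit 0) (nat_lit 4585009578) (nat_lit 76) (nat_lit 27582136148) (nat_lit 152) (nat_lit 28693900486) (nat_lit 78) (nat_lit 5) (nat_lit 79) (nat_lit 5) (nat_lit 80) (nat_lit 4) (nat_lit 538) (nat_lit 419) (nat_lit 243))) (XT.nd (nat_lit 78) (nat_lit 152) (nat_lit 0) (XT.lf (nat_lit 0) (nat_lit 43207484931) (nat_lit 76) (nat_lit 7990331579) (nat_lit 152) (nat_lit 10893638307) (nat_lit 78) (nat_lit 5) (nat_lit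 79) (nat_lit 5) (nat_lit 80) (nat_lit 4) (nat_lit 539) (nat_lit 419) (nat_lit 242)) (XT.lf (nat_lit 0) (nat_lit 7600517847) (nat_lit 152) (nat_lit 43535593318) (nat_lit 76) (nat_lit 12211366443) (nat_lit 76) (nat_lit 5) (nat_lit 78) (nat_lit 5) (nat_lit 77) (nat_lit 4) (nat_lit 540) (nat_lit 419) (nat_lit 241)))) (XT.nd (nat_lit 156) (nat_lit 152) (nat_lit 0) (XT.nd (nat_lit 78) (nat_lit 76) (nat_lit 0) (XT.lf (nat_lit 0) (nat_lit 26695980666) (nat_lit 152) (nat_lit 4780759682) (nat_lit 76) (nat_lit 33153242031) (nat_lit 76) (nat_lit 5) (nat_lit 78) (nat_lit 5) (nat_lit 77) (nat_lit 4) (nat_lit 541) (nat_lit 419) (nat_lit 240)) (XT.lf (nat_lit 0) (nat_lit 35823969496) (nat_lit 76) (nat_lit 10878624083) (nat_lit 152) (nat_lit 19238220160) (nat_lit 75) (nat_lit 5) (nat_lit 76) (nat_lit 5) (nat_lit 77) (nat_lit 4) (nat_lit 542) (nat_lit 419) (nat_lit 239))) (XT.nd (nat_lit 78) (nat_lit 0) (nat_lit 0) (XT.lf (nat_lit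 0) (nat_lit 263952422) (nat_lit 152) (nat_lit 56736737022) (nat_lit 76) (nat_lit 10282898990) (nat_lit 73) (nat_lit 5) (nat_lit 75) (nat_lit 5) (nat_lit 74) (nat_lit 4) (nat_lit 543) (nat_lit 419) (nat_lit 238)) (XT.lf (nat_lit 0) (nat_lit 20373301429) (nat_lit 152) (nat_lit 15922715725) (nat_lit 76) (nat_lit 32352651507) (nat_lit 73) (nat_lit 5) (nat_lit 75) (nat_lit 5) (nat_lit 74) (nat_lit 4) (nat_lit 544) (nat_lit 419) (nat_lit 237))))) (XT.nd (nat_lit 312) (nat_lit 228) (nat_lit 0) (XT.nd (nat_lit 156) (nat_lit 228) (nat_lit 0) (XT.nd (nat_lit 78) (nat_lit 0) (nat_lit 0) (XT.lf (nat_lit 0) (nat_lit 26623777211) (nat_lit 76) (nat_lit 14712193362) (nat_lit 152) (nat_lit 28711229560) (nat_lit 72) (nat_lit 5) (nat_lit 73) (nat_lit 5) (nat_lit 74) (nat_lit 4) (nat_lit 545) (nat_lit 419) (nat_lit 236)) (XT.lf (nat_lit 0) (nat_lit 63156303132) (nat_lit 152) (nat_lit 795153217) (nat_lit 0) (nat_lit 7529367726) (nat_lit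 72) (nat_lit 5) (nat_lit 74) (nat_lit 4) (nat_lit 72) (nat_lit 4) (nat_lit 546) (nat_lit 419) (nat_lit 235))) (XT.nd (nat_lit 78) (nat_lit 76) (nat_lit 0) (XT.lf (nat_lit 0) (nat_lit 12993122856) (nat_lit 152) (nat_lit 29257965865) (nat_lit 76) (nat_lit 30685713838) (nat_lit 70) (nat_lit 5) (nat_lit 72) (nat_lit 5) (nat_lit 71) (nat_lit 4) (nat_lit 547) (nat_lit 419) (nat_lit 234)) (XT.lf (nat_lit 0) (nat_lit 15271474208) (nat_lit 76) (nat_lit 19660714665) (nat_lit 152) (nat_lit 39497322693) (nat_lit 69) (nat_lit 5) (nat_lit 70) (nat_lit 5) (nat_lit 71) (nat_lit 4) (nat_lit 548) (nat_lit 419) (nat_lit 233)))) (XT.nd (nat_lit 156) (nat_lit 76) (nat_lit 0) (XT.nd (nat_lit 78) (nat_lit 152) (nat_lit 0) (XT.lf (nat_lit 0) (nat_lit 57856784149) (nat_lit 152) (nat_lit 14270344139) (nat_lit 0) (nat_lit 3830052861) (nat_lit 69) (nat_lit 5) (nat_lit 71) (nat_lit 4) (nat_lit 69) (nat_lit 4) (nat_lit 549) (nat_lit 419) (nat_lit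 232)) (XT.lf (nat_lit 0) (nat_lit 4367030445) (nat_lit 152) (nat_lit 45167940962) (nat_lit 76) (nat_lit 27979410262) (nat_lit 67) (nat_lit 5) (nat_lit 69) (nat_lit 5) (nat_lit 68) (nat_lit 4) (nat_lit 550) (nat_lit 419) (nat_lit 231))) (XT.nd (nat_lit 52260) (nat_lit 0) (nat_lit 23408) (XT.lf (nat_lit 0) (nat_lit 1375647290) (nat_lit 76) (nat_lit 25922263339) (nat_lit 152) (nat_lit 51810414343) (nat_lit 66) (nat_lit 5) (nat_lit 67) (nat_lit 5) (nat_lit 68) (nat_lit 4) (nat_lit 551) (nat_lit 419) (nat_lit 230)) (XT.lf (nat_lit 0) (nat_lit 126677544) (nat_lit 0) (nat_lit 126677544) (nat_lit 988) (nat_lit 3816208364) (nat_lit 374) (nat_lit 5) (nat_lit 374) (nat_lit 3) (nat_lit 387) (nat_lit 3) (nat_lit 420) (nat_lit 420) (nat_lit 360))))))))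
noncomputable def xc140 : XT := (XT.nd (nat_lit 2418) (nat_lit 7296) (nat_lit 0) (XT.nd (nat_lit 1170) (nat_lit 6688) (nat_lit 0) (XT.nd (nat_lit 546) (nat_lit 912) (nat_lit 0) (XT.nd (nat_lit 234) (nat_lit 912) (nat_lit 0) (XT.nd (nat_lit 78) (nat_lit 0) (nat_lit 0) (XT.lf (nat_lit 0) (nat_lit 1705540779) (nat_lit 988) (nat_lit 3845852285) (nat_lit 1064) (nat_lit 2674022723) (nat_lit 374) (nat_lit 5) (nat_lit 387) (nat_lit 3) (nat_lit 388) (nat_lit 5) (nat_lit 421) (nat_lit 420) (nat_lit 359)) (XT.nd (nat_lit 78) (nat_lit 0) (nat_lit 76) (XT.lf (nat_lit 76) (nat_lit 294178292) (nat_lit 0) (nat_lit 2606245583) (nat_lit 1064) (nat_lit 5415069217) (nat_lit 375) (nat_lit 5) (nat_lit 374) (nat_lit 5) (nat_lit 388) (nat_lit 5) (nat_lit 422) (nat_lit 420) (nat_lit 358)) (XT.lf (nat_lit 0) (nat_lit 4130511374) (nat_lit 988) (nat_lit 3799953582) (nat_lit 1064) (nat_lit 477829340) (nat_lit 375) (nat_lit 5) (nat_lit 388)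 (nat_lit 5) (nat_lit 389) (nat_lit 5) (nat_lit 423) (nat_lit 420) (nat_lit 357)))) (XT.nd (nat_lit 156) (nat_lit 988) (nat_lit 0) (XT.nd (nat_lit 78) (nat_lit 0) (nat_lit 0) (XT.lf (nat_lit 76) (nat_lit 507288365) (nat_lit 0) (nat_lit 4878205347) (nat_lit 1064) (nat_lit 3118748305) (nat_lit 376) (nat_lit 5) (nat_lit 375) (nat_lit 5) (nat_lit 389) (nat_lit 5) (nat_lit 424) (nat_lit 420) (nat_lit 356)) (XT.lf (nat_lit 76) (nat_lit 4997031849) (nat_lit 0) (nat_lit 1677783972) (nat_lit 1064) (nat_lit 1928353825) (nat_lit 376) (nat_lit 5) (nat_lit 375) (nat_lit 5) (nat_lit 389) (nat_lit 5) (nat_lit 425) (nat_lit 420) (nat_lit 355))) (XT.nd (nat_lit 78) (nat_lit 1064) (nat_lit 0) (XT.lf (nat_lit 76) (nat_lit 892999021) (nat_lit 0) (nat_lit 7093653643) (nat_lit 1064) (nat_lit 718899504) (nat_lit 377) (nat_lit 5) (nat_lit 376) (nat_lit 5) (nat_lit 390) (nat_lit 5) (nat_lit 426) (nat_lit 420) (nat_lit 354)) (XT.lf (nat_lit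 0) (nat_lit 530178319) (nat_lit 1064) (nat_lit 3256733425) (nat_lit 1140) (nat_lit 5023535881) (nat_lit 362) (nat_lit 5) (nat_lit 376) (nat_lit 5) (nat_lit 377) (nat_lit 5) (nat_lit 427) (nat_lit 420) (nat_lit 353))))) (XT.nd (nat_lit 312) (nat_lit 912) (nat_lit 0) (XT.nd (nat_lit 156) (nat_lit 0) (nat_lit 76) (XT.nd (nat_lit 78) (nat_lit 0) (nat_lit 76) (XT.lf (nat_lit 76) (nat_lit 1431513583) (nat_lit 0) (nat_lit 345917769) (nat_lit 1140) (nat_lit 7141592437) (nat_lit 363) (nat_lit 5) (nat_lit 362) (nat_lit 5) (nat_lit 377) (nat_lit 5) (nat_lit 428) (nat_lit 420) (nat_lit 352)) (XT.lf (nat_lit 0) (nat_lit 3088459750) (nat_lit 1064) (nat_lit 2759847844) (nat_lit 1140) (nat_lit 3181760795) (nat_lit 363) (nat_lit 5) (nat_lit 377) (nat_lit 5) (nat_lit 378) (nat_lit 5) (nat_lit 429) (nat_lit 420) (nat_lit 351))) (XT.nd (nat_lit 78) (nat_lit 0) (nat_lit 76) (XT.lf (nat_lit 76) (nat_lit 2122317635) (nat_lit 0) (nat_lit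 2303823875) (nat_lit 1140) (nat_lit 4718684969) (nat_lit 364) (nat_lit 5) (nat_lit 363) (nat_lit 5) (nat_lit 378) (nat_lit 5) (nat_lit 430) (nat_lit 420) (nat_lit 350)) (XT.lf (nat_lit 0) (nat_lit 5809467674) (nat_lit 1064) (nat_lit 2094134978) (nat_lit 1140) (nat_lit 1359261017) (nat_lit 364) (nat_lit 5) (nat_lit 378) (nat_lit 5) (nat_lit 379) (nat_lit 5) (nat_lit 431) (nat_lit 420) (nat_lit 349)))) (XT.nd (nat_lit 156) (nat_lit 1064) (nat_lit 0) (XT.nd (nat_lit 78) (nat_lit 0) (nat_lit 0) (XT.lf (nat_lit 76) (nat_lit 2992190788) (nat_lit 0) (nat_lit 4259132858) (nat_lit 1140) (nat_lit 2132609150) (nat_lit 365) (nat_lit 5) (nat_lit 364) (nat_lit 5) (nat_lit 379) (nat_lit 5) (nat_lit 432) (nat_lit 420) (nat_lit 348)) (XT.lf (nat_lit 76) (nat_lit 8248806223) (nat_lit 0) (nat_lit 474996449) (nat_lit 1140) (nat_lit 785211977) (nat_lit 365) (nat_lit 5) (nat_lit 364) (nat_lit 5) (nat_lit 379) (nat_lit 5) (nat_lit 433)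 (nat_lit 420) (nat_lit 347))) (XT.nd (nat_lit 78) (nat_lit 0) (nat_lit 0) (XT.lf (nat_lit 0) (nat_lit 630308811) (nat_lit 1140) (nat_lit 5597098380) (nat_lit 1216) (nat_lit 3409085743) (nat_lit 350) (nat_lit 5) (nat_lit 365) (nat_lit 5) (nat_lit 366) (nat_lit 5) (nat_lit 434) (nat_lit 420) (nat_lit 346)) (XT.lf (nat_lit 0) (nat_lit 2057743363) (nat_lit 1140) (nat_lit 282151045) (nat_lit 1216) (nat_lit 7428112556) (nat_lit 350) (nat_lit 5) (nat_lit 365) (nat_lit 5) (nat_lit 366) (nat_lit 5) (nat_lit 435) (nat_lit 420) (nat_lit 345)))))) (XT.nd (nat_lit 624) (nat_lit 2888) (nat_lit 0) (XT.nd (nat_lit 312) (nat_lit 1520) (nat_lit 0) (XT.nd (nat_lit 156) (nat_lit 1216) (nat_lit 0) (XT.nd (nat_lit 78) (nat_lit 1140) (nat_lit 0) (XT.lf (nat_lit 0) (nat_lit 3563834086) (nat_lit 1140) (nat_lit 4649566027) (nat_lit 76) (nat_lit 1688992795) (nat_lit 351) (nat_lit 5) (nat_lit 366) (nat_lit 5) (nat_lit 352) (nat_lit 5) (nat_lit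 436) (nat_lit 420) (nat_lit 344)) (XT.lf (nat_lit 0) (nat_lit 887100314) (nat_lit 1140) (nat_lit 4231925862) (nat_lit 1216) (nat_lit 4921668137) (nat_lit 336) (nat_lit 5) (nat_lit 351) (nat_lit 5) (nat_lit 352) (nat_lit 5) (nat_lit 437) (nat_lit 420) (nat_lit 343))) (XT.nd (nat_lit 78) (nat_lit 1216) (nat_lit 0) (XT.lf (nat_lit 0) (nat_lit 6659504646) (nat_lit 1140) (nat_lit 78313550) (nat_lit 1216) (nat_lit 3444819641) (nat_lit 336) (nat_lit 5) (nat_lit 351) (nat_lit 5) (nat_lit 352) (nat_lit 5) (nat_lit 438) (nat_lit 420) (nat_lit 342)) (XT.lf (nat_lit 0) (nat_lit 2254011673) (nat_lit 1216) (nat_lit 6184108434) (nat_lit 1292) (nat_lit 1889732536) (nat_lit 320) (nat_lit 5) (nat_lit 336) (nat_lit 5) (nat_lit 337) (nat_lit 5) (nat_lit 439) (nat_lit 420) (nat_lit 341)))) (XT.nd (nat_lit 156) (nat_lit 608) (nat_lit 0) (XT.nd (nat_lit 78) (nat_lit 912) (nat_lit 0) (XT.lf (nat_lit 0) (nat_lit 8250312619) (nat_lit 1216)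 (nat_lit 1946971482) (nat_lit 1292) (nat_lit 279905522) (nat_lit 320) (nat_lit 5) (nat_lit 336) (nat_lit 5) (nat_lit 337) (nat_lit 5) (nat_lit 440) (nat_lit 420) (nat_lit 340)) (XT.lf (nat_lit 0) (nat_lit 1383973994) (nat_lit 912) (nat_lit 6822484186) (nat_lit 76) (nat_lit 2423172780) (nat_lit 308) (nat_lit 5) (nat_lit 320) (nat_lit 5) (nat_lit 309) (nat_lit 5) (nat_lit 441) (nat_lit 420) (nat_lit 339))) (XT.nd (nat_lit 78) (nat_lit 608) (nat_lit 0) (XT.lf (nat_lit 0) (nat_lit 3106787182) (nat_lit 912) (nat_lit 766396387) (nat_lit 76) (nat_lit 6912940744) (nat_lit 308) (nat_lit 5) (nat_lit 320) (nat_lit 5) (nat_lit 309) (nat_lit 5) (nat_lit 442) (nat_lit 420) (nat_lit 338)) (XT.lf (nat_lit 0) (nat_lit 4914344640) (nat_lit 684) (nat_lit 5398196416) (nat_lit 76) (nat_lit 633780788) (nat_lit 300) (nat_lit 5) (nat_lit 309) (nat_lit 5) (nat_lit 301) (nat_lit 5) (nat_lit 443) (nat_lit 420) (nat_lit 337))))) (XT.nd (nat_lit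 312) (nat_lit 1672) (nat_lit 0) (XT.nd (nat_lit 156) (nat_lit 608) (nat_lit 0) (XT.nd (nat_lit 78) (nat_lit 0) (nat_lit 0) (XT.lf (nat_lit 0) (nat_lit 910256091) (nat_lit 608) (nat_lit 5894782432) (nat_lit 684) (nat_lit 4305420625) (nat_lit 292) (nat_lit 5) (nat_lit 300) (nat_lit 5) (nat_lit 301) (nat_lit 5) (nat_lit 444) (nat_lit 420) (nat_lit 336)) (XT.lf (nat_lit 0) (nat_lit 7493091215) (nat_lit 608) (nat_lit 1288380901) (nat_lit 684) (nat_lit 2497178995) (nat_lit 292) (nat_lit 5) (nat_lit 300) (nat_lit 5) (nat_lit 301) (nat_lit 5) (nat_lit 445) (nat_lit 420) (nat_lit 335))) (XT.nd (nat_lit 78) (nat_lit 76) (nat_lit 0) (XT.lf (nat_lit 0) (nat_lit 2817755520) (nat_lit 532) (nat_lit 8035002268) (nat_lit 608) (nat_lit 598065347) (nat_lit 285) (nat_lit 5) (nat_lit 292) (nat_lit 5) (nat_lit 293) (nat_lit 5) (nat_lit 446) (nat_lit 420) (nat_lit 334)) (XT.lf (nat_lit 0) (nat_lit 1358369673) (nat_lit 608) (nat_lit 1982198687)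 (nat_lit 76) (nat_lit 8286395912) (nat_lit 284) (nat_lit 5) (nat_lit 292) (nat_lit 5) (nat_lit 285) (nat_lit 5) (nat_lit 447) (nat_lit 420) (nat_lit 333)))) (XT.nd (nat_lit 156) (nat_lit 532) (nat_lit 0) (XT.nd (nat_lit 78) (nat_lit 532) (nat_lit 0) (XT.lf (nat_lit 0) (nat_lit 3399986145) (nat_lit 684) (nat_lit 6888859362) (nat_lit 76) (nat_lit 1518212208) (nat_lit 276) (nat_lit 5) (nat_lit 285) (nat_lit 5) (nat_lit 277) (nat_lit 5) (nat_lit 448) (nat_lit 420) (nat_lit 332)) (XT.lf (nat_lit 0) (nat_lit 15864630) (nat_lit 532) (nat_lit 5517070164) (nat_lit 608) (nat_lit 6458717611) (nat_lit 269) (nat_lit 5) (nat_lit 276) (nat_lit 5) (nat_lit 277) (nat_lit 5) (nat_lit 449) (nat_lit 420) (nat_lit 331))) (XT.nd (nat_lit 78) (nat_lit 532) (nat_lit 0) (XT.lf (nat_lit 0) (nat_lit 7243736010) (nat_lit 532) (nat_lit 532779626) (nat_lit 608) (nat_lit 4403870914) (nat_lit 269) (nat_lit 5) (nat_lit 276) (nat_lit 5) (nat_lit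 277) (nat_lit 5) (nat_lit 450) (nat_lit 420) (nat_lit 330)) (XT.lf (nat_lit 0) (nat_lit 2288976921) (nat_lit 532) (nat_lit 7842384013) (nat_lit 608) (nat_lit 2242103973) (nat_lit 262) (nat_lit 5) (nat_lit 269) (nat_lit 5) (nat_lit 270) (nat_lit 5) (nat_lit 451) (nat_lit 420) (nat_lit 329))))))) (XT.nd (nat_lit 1170) (nat_lit 3268) (nat_lit 0) (XT.nd (nat_lit 546) (nat_lit 2052) (nat_lit 0) (XT.nd (nat_lit 234) (nat_lit 1444) (nat_lit 0) (XT.nd (nat_lit 78) (nat_lit 456) (nat_lit 0) (XT.lf (nat_lit 0) (nat_lit 18355508) (nat_lit 608) (nat_lit 2769206260) (nat_lit 76) (nat_lit 9783773041) (nat_lit 261) (nat_lit 5) (nat_lit 269) (nat_lit 5) (nat_lit 262) (nat_lit 5) (nat_lit 452) (nat_lit 420) (nat_lit 328)) (XT.nd (nat_lit 78) (nat_lit 0) (nat_lit 0) (XT.lf (nat_lit 0) (nat_lit 2350288103) (nat_lit 532) (nat_lit 7984961948) (nat_lit 76) (nat_lit 2437763905) (nat_lit 255) (nat_lit 5) (nat_lit 262) (nat_lit 5) (nat_lit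 256) (nat_lit 5) (nat_lit 453) (nat_lit 420) (nat_lit 327)) (XT.lf (nat_lit 0) (nat_lit 4786939005) (nat_lit 532) (nat_lit 403925399) (nat_lit 76) (nat_lit 7788837062) (nat_lit 255) (nat_lit 5) (nat_lit 262) (nat_lit 5) (nat_lit 256) (nat_lit 5) (nat_lit 454) (nat_lit 420) (nat_lit 326)))) (XT.nd (nat_lit 156) (nat_lit 532) (nat_lit 0) (XT.nd (nat_lit 78) (nat_lit 456) (nat_lit 0) (XT.lf (nat_lit 0) (nat_lit 7350297007) (nat_lit 532) (nat_lit 5665537527) (nat_lit 76) (nat_lit 175147616) (nat_lit 249) (nat_lit 5) (nat_lit 256) (nat_lit 5) (nat_lit 250) (nat_lit 5) (nat_lit 455) (nat_lit 420) (nat_lit 325)) (XT.lf (nat_lit 0) (nat_lit 2260633801) (nat_lit 456) (nat_lit 7787029126) (nat_lit 532) (nat_lit 3359225865) (nat_lit 243) (nat_lit 5) (nat_lit 249) (nat_lit 5) (nat_lit 250) (nat_lit 5) (nat_lit 456) (nat_lit 420) (nat_lit 324))) (XT.nd (nat_lit 78) (nat_lit 532) (nat_lit 0) (XT.lf (nat_lit 0) (nat_lit 10516427677)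 (nat_lit 456) (nat_lit 2346948548) (nat_lit 532) (nat_lit 764774349) (nat_lit 243) (nat_lit 5) (nat_lit 249) (nat_lit 5) (nat_lit 250) (nat_lit 5) (nat_lit 457) (nat_lit 420) (nat_lit 323)) (XT.lf (nat_lit 0) (nat_lit 1933036863) (nat_lit 532) (nat_lit 8663055051) (nat_lit 76) (nat_lit 3257526442) (nat_lit 236) (nat_lit 5) (nat_lit 243) (nat_lit 5) (nat_lit 237) (nat_lit 5) (nat_lit 458) (nat_lit 420) (nat_lit 322))))) (XT.nd (nat_lit 312) (nat_lit 1216) (nat_lit 0) (XT.nd (nat_lit 156) (nat_lit 456) (nat_lit 0) (XT.nd (nat_lit 78) (nat_lit 380) (nat_lit 0) (XT.lf (nat_lit 0) (nat_lit 4732274448) (nat_lit 532) (nat_lit 334594367) (nat_lit 76) (nat_lit 9017678969) (nat_lit 236) (nat_lit 5) (nat_lit 243) (nat_lit 5) (nat_lit 237) (nat_lit 5) (nat_lit 459) (nat_lit 420) (nat_lit 321)) (XT.lf (nat_lit 0) (nat_lit 7684316813) (nat_lit 456) (nat_lit 5943580920) (nat_lit 76) (nat_lit 692443182) (nat_lit 231) (nat_lit 5)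 (nat_lit 237) (nat_lit 5) (nat_lit 232) (nat_lit 5) (nat_lit 460) (nat_lit 420) (nat_lit 320))) (XT.nd (nat_lit 78) (nat_lit 0) (nat_lit 0) (XT.lf (nat_lit 0) (nat_lit 2773291142) (nat_lit 456) (nat_lit 8013583330) (nat_lit 532) (nat_lit 3774475377) (nat_lit 225) (nat_lit 5) (nat_lit 231) (nat_lit 5) (nat_lit 232) (nat_lit 5) (nat_lit 461) (nat_lit 420) (nat_lit 319)) (XT.lf (nat_lit 0) (nat_lit 11849907948) (nat_lit 456) (nat_lit 2174641350) (nat_lit 532) (nat_lit 783779153) (nat_lit 225) (nat_lit 5) (nat_lit 231) (nat_lit 5) (nat_lit 232) (nat_lit 5) (nat_lit 462) (nat_lit 420) (nat_lit 318)))) (XT.nd (nat_lit 156) (nat_lit 380) (nat_lit 0) (XT.nd (nat_lit 78) (nat_lit 380) (nat_lit 0) (XT.lf (nat_lit 0) (nat_lit 2331570795) (nat_lit 456) (nat_lit 8886469771) (nat_lit 76) (nat_lit 3841621666) (nat_lit 219) (nat_lit 5) (nat_lit 225) (nat_lit 5) (nat_lit 220) (nat_lit 5) (nat_lit 463) (nat_lit 420) (nat_lit 317))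 (XT.lf (nat_lit 0) (nat_lit 274017896) (nat_lit 380) (nat_lit 5287554702) (nat_lit 456) (nat_lit 9755622847) (nat_lit 214) (nat_lit 5) (nat_lit 219) (nat_lit 5) (nat_lit 220) (nat_lit 5) (nat_lit 464) (nat_lit 420) (nat_lit 316))) (XT.nd (nat_lit 78) (nat_lit 380) (nat_lit 0) (XT.lf (nat_lit 0) (nat_lit 8969822295) (nat_lit 456) (nat_lit 5720782389) (nat_lit 76) (nat_lit 889410078) (nat_lit 214) (nat_lit 5) (nat_lit 220) (nat_lit 5) (nat_lit 215) (nat_lit 5) (nat_lit 465) (nat_lit 420) (nat_lit 315)) (XT.lf (nat_lit 0) (nat_lit 3881643484) (nat_lit 380) (nat_lit 8671673741) (nat_lit 456) (nat_lit 3295212032) (nat_lit 209) (nat_lit 5) (nat_lit 214) (nat_lit 5) (nat_lit 215) (nat_lit 5) (nat_lit 466) (nat_lit 420) (nat_lit 314)))))) (XT.nd (nat_lit 624) (nat_lit 1520) (nat_lit 0) (XT.nd (nat_lit 312) (nat_lit 988) (nat_lit 0) (XT.nd (nat_lit 156) (nat_lit 304) (nat_lit 0) (XT.nd (nat_lit 78) (nat_lit 380) (nat_lit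 0) (XT.lf (nat_lit 0) (nat_lit 158668397) (nat_lit 456) (nat_lit 2258809806) (nat_lit 76) (nat_lit 13706333791) (nat_lit 208) (nat_lit 5) (nat_lit 214) (nat_lit 5) (nat_lit 209) (nat_lit 5) (nat_lit 467) (nat_lit 420) (nat_lit 313)) (XT.lf (nat_lit 0) (nat_lit 3748892846) (nat_lit 456) (nat_lit 8605915960) (nat_lit 76) (nat_lit 4048597374) (nat_lit 203) (nat_lit 5) (nat_lit 209) (nat_lit 5) (nat_lit 204) (nat_lit 5) (nat_lit 468) (nat_lit 420) (nat_lit 312))) (XT.nd (nat_lit 78) (nat_lit 0) (nat_lit 0) (XT.lf (nat_lit 0) (nat_lit 1493401409) (nat_lit 304) (nat_lit 5998860532) (nat_lit 380) (nat_lit 9197763582) (nat_lit 199) (nat_lit 5) (nat_lit 203) (nat_lit 5) (nat_lit 204) (nat_lit 5) (nat_lit 469) (nat_lit 420) (nat_lit 311)) (XT.lf (nat_lit 0) (nat_lit 11425254277) (nat_lit 380) (nat_lit 4939491055) (nat_lit 76) (nat_lit 618178904) (nat_lit 199) (nat_lit 5) (nat_lit 204) (nat_lit 5) (nat_lit 200) (nat_lit 5)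 (nat_lit 470) (nat_lit 420) (nat_lit 310)))) (XT.nd (nat_lit 156) (nat_lit 608) (nat_lit 0) (XT.nd (nat_lit 78) (nat_lit 76) (nat_lit 0) (XT.lf (nat_lit 0) (nat_lit 5654118856) (nat_lit 304) (nat_lit 9920613913) (nat_lit 380) (nat_lit 1706922693) (nat_lit 195) (nat_lit 5) (nat_lit 199) (nat_lit 5) (nat_lit 200) (nat_lit 5) (nat_lit 471) (nat_lit 420) (nat_lit 309)) (XT.lf (nat_lit 0) (nat_lit 2250466885) (nat_lit 380) (nat_lit 965532078) (nat_lit 76) (nat_lit 14371642294) (nat_lit 194) (nat_lit 5) (nat_lit 199) (nat_lit 5) (nat_lit 195) (nat_lit 5) (nat_lit 472) (nat_lit 420) (nat_lit 308))) (XT.nd (nat_lit 78) (nat_lit 304) (nat_lit 0) (XT.lf (nat_lit 0) (nat_lit 6411906868) (nat_lit 380) (nat_lit 7759945542) (nat_lit 76) (nat_lit 3726858530) (nat_lit 190) (nat_lit 5) (nat_lit 195) (nat_lit 5) (nat_lit 191) (nat_lit 5) (nat_lit 473) (nat_lit 420) (nat_lit 307)) (XT.lf (nat_lit 0) (nat_lit 3389600846) (nat_lit 304)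 (nat_lit 7368293594) (nat_lit 380) (nat_lit 7459427535) (nat_lit 186) (nat_lit 5) (nat_lit 190) (nat_lit 5) (nat_lit 191) (nat_lit 5) (nat_lit 474) (nat_lit 420) (nat_lit 306))))) (XT.nd (nat_lit 312) (nat_lit 836) (nat_lit 0) (XT.nd (nat_lit 156) (nat_lit 304) (nat_lit 0) (XT.nd (nat_lit 78) (nat_lit 380) (nat_lit 0) (XT.lf (nat_lit 0) (nat_lit 15011149906) (nat_lit 304) (nat_lit 287122423) (nat_lit 380) (nat_lit 3245299073) (nat_lit 186) (nat_lit 5) (nat_lit 190) (nat_lit 5) (nat_lit 191) (nat_lit 5) (nat_lit 475) (nat_lit 420) (nat_lit 305)) (XT.lf (nat_lit 0) (nat_lit 1207098250) (nat_lit 380) (nat_lit 10714900802) (nat_lit 76) (nat_lit 6953297252) (nat_lit 181) (nat_lit 5) (nat_lit 186) (nat_lit 5) (nat_lit 182) (nat_lit 5) (nat_lit 476) (nat_lit 420) (nat_lit 304))) (XT.nd (nat_lit 78) (nat_lit 0) (nat_lit 0) (XT.lf (nat_lit 0) (nat_lit 1023808663) (nat_lit 304) (nat_lit 4738808939) (nat_lit 380) (nat_lit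 13452348426) (nat_lit 177) (nat_lit 5) (nat_lit 181) (nat_lit 5) (nat_lit 182) (nat_lit 5) (nat_lit 477) (nat_lit 420) (nat_lit 303)) (XT.lf (nat_lit 0) (nat_lit 10575842429) (nat_lit 380) (nat_lit 6275374035) (nat_lit 76) (nat_lit 2709978524) (nat_lit 177) (nat_lit 5) (nat_lit 182) (nat_lit 5) (nat_lit 178) (nat_lit 5) (nat_lit 478) (nat_lit 420) (nat_lit 302)))) (XT.nd (nat_lit 156) (nat_lit 532) (nat_lit 0) (XT.nd (nat_lit 78) (nat_lit 76) (nat_lit 0) (XT.lf (nat_lit 0) (nat_lit 6048131419) (nat_lit 228) (nat_lit 9576992497) (nat_lit 304) (nat_lit 4289937433) (nat_lit 174) (nat_lit 5) (nat_lit 177) (nat_lit 5) (nat_lit 178) (nat_lit 5) (nat_lit 479) (nat_lit 420) (nat_lit 301)) (XT.lf (nat_lit 0) (nat_lit 586338811) (nat_lit 304) (nat_lit 1434455345) (nat_lit 76) (nat_lit 18257072509) (nat_lit 173) (nat_lit 5) (nat_lit 177) (nat_lit 5) (nat_lit 174) (nat_lit 5) (nat_lit 480) (nat_lit 420) (nat_lit 300))) (XT.nd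 (nat_lit 78) (nat_lit 228) (nat_lit 0) (XT.lf (nat_lit 0) (nat_lit 5677432696) (nat_lit 380) (nat_lit 9170911895) (nat_lit 76) (nat_lit 5797295027) (nat_lit 169) (nat_lit 5) (nat_lit 174) (nat_lit 5) (nat_lit 170) (nat_lit 5) (nat_lit 481) (nat_lit 420) (nat_lit 299)) (XT.lf (nat_lit 0) (nat_lit 3810363639) (nat_lit 228) (nat_lit 7169324839) (nat_lit 304) (nat_lit 10043004702) (nat_lit 166) (nat_lit 5) (nat_lit 169) (nat_lit 5) (nat_lit 170) (nat_lit 5) (nat_lit 482) (nat_lit 420) (nat_lit 298))))))))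
noncomputable def xc141 : XT := (XT.nd (nat_lit 2418) (nat_lit 2964) (nat_lit 0) (XT.nd (nat_lit 1170) (nat_lit 1900) (nat_lit 0) (XT.nd (nat_lit 546) (nat_lit 1140) (nat_lit 0) (XT.nd (nat_lit 234) (nat_lit 532) (nat_lit 0) (XT.nd (nat_lit 78) (nat_lit 532) (nat_lit 0) (XT.lf (nat_lit 0) (nat_lit 16528922879) (nat_lit 304) (nat_lit 4067764900) (nat_lit 76) (nat_lit 811733526) (nat_lit 166) (nat_lit 5) (nat_lit 170) (nat_lit 5) (nat_lit 167) (nat_lit 5) (nat_lit 483) (nat_lit 420) (nat_lit 297)) (XT.nd (nat_lit 78) (nat_lit 228) (nat_lit 0) (XT.lf (nat_lit 0) (nat_lit 582427941) (nat_lit 304) (nat_lit 12240004039) (nat_lit 76) (nat_lit 8978600597) (nat_lit 162) (nat_lit 5) (nat_lit 166) (nat_lit 5) (nat_lit 163) (nat_lit 5) (nat_lit 484) (nat_lit 420) (nat_lit 296)) (XT.lf (nat_lit 0) (nat_lit 1437229989) (nat_lit 228) (nat_lit 4715899583) (nat_lit 304) (nat_lit 16049553803) (nat_lit 159) (nat_lit 5) (nat_lit 162)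 (nat_lit 5) (nat_lit 163) (nat_lit 5) (nat_lit 485) (nat_lit 420) (nat_lit 295)))) (XT.nd (nat_lit 156) (nat_lit 304) (nat_lit 0) (XT.nd (nat_lit 78) (nat_lit 228) (nat_lit 0) (XT.lf (nat_lit 0) (nat_lit 12038493386) (nat_lit 304) (nat_lit 6893214100) (nat_lit 76) (nat_lit 3680250230) (nat_lit 159) (nat_lit 5) (nat_lit 163) (nat_lit 5) (nat_lit 160) (nat_lit 5) (nat_lit 486) (nat_lit 420) (nat_lit 294)) (XT.lf (nat_lit 0) (nat_lit 7474873471) (nat_lit 228) (nat_lit 10732232244) (nat_lit 304) (nat_lit 4823204188) (nat_lit 156) (nat_lit 5) (nat_lit 159) (nat_lit 5) (nat_lit 160) (nat_lit 5) (nat_lit 487) (nat_lit 420) (nat_lit 293))) (XT.nd (nat_lit 78) (nat_lit 228) (nat_lit 0) (XT.lf (nat_lit 0) (nat_lit 1136590727) (nat_lit 304) (nat_lit 1074608289) (nat_lit 76) (nat_lit 21247942277) (nat_lit 155) (nat_lit 5) (nat_lit 159) (nat_lit 5) (nat_lit 156) (nat_lit 5) (nat_lit 488) (nat_lit 420) (nat_lit 292)) (XT.lf (nat_lit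 0) (nat_lit 7366655788) (nat_lit 304) (nat_lit 9912492757) (nat_lit 76) (nat_lit 6614604131) (nat_lit 152) (nat_lit 5) (nat_lit 156) (nat_lit 5) (nat_lit 153) (nat_lit 5) (nat_lit 489) (nat_lit 420) (nat_lit 291))))) (XT.nd (nat_lit 312) (nat_lit 456) (nat_lit 0) (XT.nd (nat_lit 156) (nat_lit 456) (nat_lit 0) (XT.nd (nat_lit 78) (nat_lit 0) (nat_lit 0) (XT.lf (nat_lit 0) (nat_lit 5230780664) (nat_lit 228) (nat_lit 8624587744) (nat_lit 304) (nat_lit 10483881844) (nat_lit 149) (nat_lit 5) (nat_lit 152) (nat_lit 5) (nat_lit 153) (nat_lit 5) (nat_lit 490) (nat_lit 420) (nat_lit 290)) (XT.lf (nat_lit 0) (nat_lit 20631303449) (nat_lit 304) (nat_lit 3786459426) (nat_lit 76) (nat_lit 377573259) (nat_lit 149) (nat_lit 5) (nat_lit 153) (nat_lit 5) (nat_lit 150) (nat_lit 5) (nat_lit 491) (nat_lit 420) (nat_lit 289))) (XT.nd (nat_lit 78) (nat_lit 228) (nat_lit 0) (XT.lf (nat_lit 0) (nat_lit 2492526960) (nat_lit 228) (nat_lit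 13155899554) (nat_lit 76) (nat_lit 9610215439) (nat_lit 146) (nat_lit 5) (nat_lit 149) (nat_lit 5) (nat_lit 147) (nat_lit 5) (nat_lit 492) (nat_lit 420) (nat_lit 288)) (XT.lf (nat_lit 0) (nat_lit 2806087057) (nat_lit 228) (nat_lit 6513646009) (nat_lit 304) (nat_lit 16413237953) (nat_lit 143) (nat_lit 5) (nat_lit 146) (nat_lit 5) (nat_lit 147) (nat_lit 5) (nat_lit 493) (nat_lit 420) (nat_lit 287)))) (XT.nd (nat_lit 156) (nat_lit 304) (nat_lit 0) (XT.nd (nat_lit 78) (nat_lit 152) (nat_lit 0) (XT.lf (nat_lit 0) (nat_lit 16502872625) (nat_lit 304) (nat_lit 6748744762) (nat_lit 76) (nat_lit 2965379242) (nat_lit 143) (nat_lit 5) (nat_lit 147) (nat_lit 5) (nat_lit 144) (nat_lit 5) (nat_lit 494) (nat_lit 420) (nat_lit 286)) (XT.lf (nat_lit 0) (nat_lit 10027798328) (nat_lit 152) (nat_lit 14024032648) (nat_lit 228) (nat_lit 2659202473) (nat_lit 141) (nat_lit 5) (nat_lit 143) (nat_lit 5) (nat_lit 144) (nat_lit 5) (nat_lit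 495) (nat_lit 420) (nat_lit 285))) (XT.nd (nat_lit 78) (nat_lit 0) (nat_lit 0) (XT.lf (nat_lit 0) (nat_lit 168294726) (nat_lit 228) (nat_lit 4409078618) (nat_lit 304) (nat_lit 22639392149) (nat_lit 137) (nat_lit 5) (nat_lit 140) (nat_lit 5) (nat_lit 141) (nat_lit 5) (nat_lit 496) (nat_lit 420) (nat_lit 284)) (XT.lf (nat_lit 0) (nat_lit 12190082131) (nat_lit 304) (nat_lit 9964286822) (nat_lit 76) (nat_lit 5576136358) (nat_lit 137) (nat_lit 5) (nat_lit 141) (nat_lit 5) (nat_lit 138) (nat_lit 5) (nat_lit 497) (nat_lit 420) (nat_lit 283)))))) (XT.nd (nat_lit 624) (nat_lit 912) (nat_lit 0) (XT.nd (nat_lit 312) (nat_lit 380) (nat_lit 0) (XT.nd (nat_lit 156) (nat_lit 456) (nat_lit 0) (XT.nd (nat_lit 78) (nat_lit 0) (nat_lit 0) (XT.lf (nat_lit 0) (nat_lit 7721758143) (nat_lit 152) (nat_lit 12417131694) (nat_lit 228) (nat_lit 8117536120) (nat_lit 135) (nat_lit 5) (nat_lit 137) (nat_lit 5) (nat_lit 138) (nat_lit 5) (nat_lit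 498) (nat_lit 420) (nat_lit 282)) (XT.lf (nat_lit 0) (nat_lit 26125126428) (nat_lit 152) (nat_lit 2291619885) (nat_lit 228) (nat_lit 378660531) (nat_lit 135) (nat_lit 5) (nat_lit 137) (nat_lit 5) (nat_lit 138) (nat_lit 5) (nat_lit 499) (nat_lit 420) (nat_lit 281))) (XT.nd (nat_lit 78) (nat_lit 152) (nat_lit 0) (XT.lf (nat_lit 0) (nat_lit 7668113081) (nat_lit 304) (nat_lit 13473339345) (nat_lit 76) (nat_lit 8200198805) (nat_lit 131) (nat_lit 5) (nat_lit 135) (nat_lit 5) (nat_lit 132) (nat_lit 5) (nat_lit 500) (nat_lit 420) (nat_lit 280)) (XT.lf (nat_lit 0) (nat_lit 5171276302) (nat_lit 152) (nat_lit 10867246223) (nat_lit 228) (nat_lit 13862952797) (nat_lit 129) (nat_lit 5) (nat_lit 131) (nat_lit 5) (nat_lit 132) (nat_lit 5) (nat_lit 501) (nat_lit 420) (nat_lit 279)))) (XT.nd (nat_lit 156) (nat_lit 152) (nat_lit 0) (XT.nd (nat_lit 78) (nat_lit 228) (nat_lit 0) (XT.lf (nat_lit 0) (nat_lit 24634335227) (nat_lit 152)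 (nat_lit 152097134) (nat_lit 228) (nat_lit 5687870271) (nat_lit 129) (nat_lit 5) (nat_lit 131) (nat_lit 5) (nat_lit 132) (nat_lit 5) (nat_lit 502) (nat_lit 420) (nat_lit 278)) (XT.lf (nat_lit 0) (nat_lit 2908880554) (nat_lit 228) (nat_lit 17321878681) (nat_lit 76) (nat_lit 10825875593) (nat_lit 126) (nat_lit 5) (nat_lit 129) (nat_lit 5) (nat_lit 127) (nat_lit 5) (nat_lit 503) (nat_lit 420) (nat_lit 277))) (XT.nd (nat_lit 78) (nat_lit 0) (nat_lit 0) (XT.lf (nat_lit 0) (nat_lit 2332045090) (nat_lit 152) (nat_lit 9391216268) (nat_lit 228) (nat_lit 19929264853) (nat_lit 124) (nat_lit 5) (nat_lit 126) (nat_lit 5) (nat_lit 127) (nat_lit 5) (nat_lit 504) (nat_lit 420) (nat_lit 276)) (XT.lf (nat_lit 0) (nat_lit 20986383479) (nat_lit 228) (nat_lit 9366026128) (nat_lit 76) (nat_lit 1908355556) (nat_lit 124) (nat_lit 5) (nat_lit 127) (nat_lit 5) (nat_lit 125) (nat_lit 5) (nat_lit 505) (nat_lit 420) (nat_lit 275))))) (XT.nd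 (nat_lit 312) (nat_lit 380) (nat_lit 0) (XT.nd (nat_lit 156) (nat_lit 304) (nat_lit 0) (XT.nd (nat_lit 78) (nat_lit 76) (nat_lit 0) (XT.lf (nat_lit 0) (nat_lit 11298172025) (nat_lit 152) (nat_lit 19421700865) (nat_lit 228) (nat_lit 2161604304) (nat_lit 122) (nat_lit 5) (nat_lit 124) (nat_lit 5) (nat_lit 125) (nat_lit 5) (nat_lit 506) (nat_lit 420) (nat_lit 274)) (XT.lf (nat_lit 0) (nat_lit 7170000856) (nat_lit 228) (nat_lit 830462749) (nat_lit 76) (nat_lit 25515671042) (nat_lit 121) (nat_lit 5) (nat_lit 124) (nat_lit 5) (nat_lit 122) (nat_lit 5) (nat_lit 507) (nat_lit 420) (nat_lit 273))) (XT.nd (nat_lit 78) (nat_lit 152) (nat_lit 0) (XT.lf (nat_lit 0) (nat_lit 16968645502) (nat_lit 228) (nat_lit 13285947565) (nat_lit 76) (nat_lit 3907680684) (nat_lit 119) (nat_lit 5) (nat_lit 122) (nat_lit 5) (nat_lit 120) (nat_lit 5) (nat_lit 508) (nat_lit 420) (nat_lit 272)) (XT.lf (nat_lit 0) (nat_lit 8494298644) (nat_lit 152)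 (nat_lit 18727494277) (nat_lit 228) (nat_lit 7601187911) (nat_lit 117) (nat_lit 5) (nat_lit 119) (nat_lit 5) (nat_lit 120) (nat_lit 5) (nat_lit 509) (nat_lit 420) (nat_lit 271)))) (XT.nd (nat_lit 156) (nat_lit 152) (nat_lit 0) (XT.nd (nat_lit 78) (nat_lit 152) (nat_lit 0) (XT.lf (nat_lit 0) (nat_lit 2361271489) (nat_lit 228) (nat_lit 4338394291) (nat_lit 76) (nat_lit 28799384689) (nat_lit 116) (nat_lit 5) (nat_lit 119) (nat_lit 5) (nat_lit 117) (nat_lit 5) (nat_lit 510) (nat_lit 420) (nat_lit 270)) (XT.lf (nat_lit 0) (nat_lit 12697079655) (nat_lit 228) (nat_lit 17661710548) (nat_lit 76) (nat_lit 5827536771) (nat_lit 114) (nat_lit 5) (nat_lit 117) (nat_lit 5) (nat_lit 115) (nat_lit 5) (nat_lit 511) (nat_lit 420) (nat_lit 269))) (XT.nd (nat_lit 78) (nat_lit 0) (nat_lit 0) (XT.lf (nat_lit 0) (nat_lit 5290467860) (nat_lit 152) (nat_lit 18205442489) (nat_lit 228) (nat_lit 13393723071) (nat_lit 112) (nat_lit 5) (nat_lit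 114) (nat_lit 5) (nat_lit 115) (nat_lit 5) (nat_lit 512) (nat_lit 420) (nat_lit 268)) (XT.lf (nat_lit 0) (nat_lit 29277867822) (nat_lit 152) (nat_lit 5510802637) (nat_lit 228) (nat_lit 2820269759) (nat_lit 112) (nat_lit 5) (nat_lit 114) (nat_lit 5) (nat_lit 115) (nat_lit 5) (nat_lit 513) (nat_lit 420) (nat_lit 267))))))) (XT.nd (nat_lit 1248) (nat_lit 1368) (nat_lit 0) (XT.nd (nat_lit 624) (nat_lit 760) (nat_lit 0) (XT.nd (nat_lit 312) (nat_lit 304) (nat_lit 0) (XT.nd (nat_lit 156) (nat_lit 152) (nat_lit 0) (XT.nd (nat_lit 78) (nat_lit 152) (nat_lit 0) (XT.lf (nat_lit 0) (nat_lit 8131987333) (nat_lit 228) (nat_lit 22566398249) (nat_lit 76) (nat_lit 7642540925) (nat_lit 109) (nat_lit 5) (nat_lit 112) (nat_lit 5) (nat_lit 110) (nat_lit 5) (nat_lit 514) (nat_lit 420) (nat_lit 266)) (XT.lf (nat_lit 0) (nat_lit 1614781602) (nat_lit 152) (nat_lit 17888200335) (nat_lit 228) (nat_lit 19586647196) (nat_lit 107) (nat_lit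 5) (nat_lit 109) (nat_lit 5) (nat_lit 110) (nat_lit 5) (nat_lit 515) (nat_lit 420) (nat_lit 265))) (XT.nd (nat_lit 78) (nat_lit 152) (nat_lit 0) (XT.lf (nat_lit 0) (nat_lit 26968997309) (nat_lit 152) (nat_lit 4465889246) (nat_lit 228) (nat_lit 8419312958) (nat_lit 107) (nat_lit 5) (nat_lit 109) (nat_lit 5) (nat_lit 110) (nat_lit 5) (nat_lit 516) (nat_lit 420) (nat_lit 264)) (XT.lf (nat_lit 0) (nat_lit 3227885775) (nat_lit 152) (nat_lit 28084280244) (nat_lit 76) (nat_lit 9322501810) (nat_lit 105) (nat_lit 5) (nat_lit 107) (nat_lit 5) (nat_lit 106) (nat_lit 5) (nat_lit 517) (nat_lit 420) (nat_lit 263)))) (XT.nd (nat_lit 156) (nat_lit 152) (nat_lit 0) (XT.nd (nat_lit 78) (nat_lit 152) (nat_lit 0) (XT.lf (nat_lit 0) (nat_lit 15222989209) (nat_lit 152) (nat_lit 2565068955) (nat_lit 76) (nat_lit 23642960062) (nat_lit 105) (nat_lit 5) (nat_lit 107) (nat_lit 5) (nat_lit 106) (nat_lit 5) (nat_lit 518) (nat_lit 420) (nat_lit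 262)) (XT.lf (nat_lit 0) (nat_lit 24177195290) (nat_lit 152) (nat_lit 3625475204) (nat_lit 228) (nat_lit 14441846971) (nat_lit 103) (nat_lit 5) (nat_lit 105) (nat_lit 5) (nat_lit 106) (nat_lit 5) (nat_lit 519) (nat_lit 420) (nat_lit 261))) (XT.nd (nat_lit 78) (nat_lit 76) (nat_lit 0) (XT.lf (nat_lit 0) (nat_lit 8743316101) (nat_lit 76) (nat_lit 32224347262) (nat_lit 152) (nat_lit 2108520755) (nat_lit 102) (nat_lit 5) (nat_lit 103) (nat_lit 5) (nat_lit 104) (nat_lit 4) (nat_lit 520) (nat_lit 420) (nat_lit 260)) (XT.lf (nat_lit 0) (nat_lit 10600563827) (nat_lit 152) (nat_lit 7352581123) (nat_lit 76) (nat_lit 25970225533) (nat_lit 101) (nat_lit 5) (nat_lit 103) (nat_lit 5) (nat_lit 102) (nat_lit 5) (nat_lit 521) (nat_lit 420) (nat_lit 259))))) (XT.nd (nat_lit 312) (nat_lit 304) (nat_lit 0) (XT.nd (nat_lit 156) (nat_lit 228) (nat_lit 0) (XT.nd (nat_lit 78) (nat_lit 76) (nat_lit 0) (XT.lf (nat_lit 0) (nat_lit 20808358044)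 (nat_lit 152) (nat_lit 3032783756) (nat_lit 228) (nat_lit 20948426408) (nat_lit 99) (nat_lit 5) (nat_lit 101) (nat_lit 5) (nat_lit 102) (nat_lit 5) (nat_lit 522) (nat_lit 420) (nat_lit 258)) (XT.lf (nat_lit 0) (nat_lit 4234699774) (nat_lit 76) (nat_lit 33471098011) (nat_lit 152) (nat_lit 7969148324) (nat_lit 98) (nat_lit 5) (nat_lit 99) (nat_lit 5) (nat_lit 100) (nat_lit 4) (nat_lit 523) (nat_lit 420) (nat_lit 257))) (XT.nd (nat_lit 78) (nat_lit 152) (nat_lit 0) (XT.lf (nat_lit 0) (nat_lit 5561341958) (nat_lit 152) (nat_lit 12889228745) (nat_lit 76) (nat_lit 28126741671) (nat_lit 97) (nat_lit 5) (nat_lit 99) (nat_lit 5) (nat_lit 98) (nat_lit 5) (nat_lit 524) (nat_lit 420) (nat_lit 256)) (XT.lf (nat_lit 0) (nat_lit 16752772377) (nat_lit 152) (nat_lit 2738665032) (nat_lit 228) (nat_lit 28008329328) (nat_lit 95) (nat_lit 5) (nat_lit 97) (nat_lit 5) (nat_lit 98) (nat_lit 5) (nat_lit 525) (nat_lit 420) (nat_lit 255))))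 (XT.nd (nat_lit 156) (nat_lit 152) (nat_lit 0) (XT.nd (nat_lit 78) (nat_lit 152) (nat_lit 0) (XT.lf (nat_lit 0) (nat_lit 34092961811) (nat_lit 228) (nat_lit 1041837084) (nat_lit 76) (nat_lit 13307490109) (nat_lit 95) (nat_lit 5) (nat_lit 98) (nat_lit 5) (nat_lit 96) (nat_lit 4) (nat_lit 526) (nat_lit 420) (nat_lit 254)) (XT.lf (nat_lit 0) (nat_lit 37506618) (nat_lit 152) (nat_lit 19302594970) (nat_lit 76) (nat_lit 30063688701) (nat_lit 93) (nat_lit 5) (nat_lit 95) (nat_lit 5) (nat_lit 94) (nat_lit 5) (nat_lit 527) (nat_lit 420) (nat_lit 253))) (XT.nd (nat_lit 78) (nat_lit 0) (nat_lit 0) (XT.lf (nat_lit 0) (nat_lit 11882564807) (nat_lit 152) (nat_lit 2802881611) (nat_lit 228) (nat_lit 35700890821) (nat_lit 91) (nat_lit 5) (nat_lit 93) (nat_lit 5) (nat_lit 94) (nat_lit 5) (nat_lit 528) (nat_lit 420) (nat_lit 252)) (XT.lf (nat_lit 0) (nat_lit 30099542661) (nat_lit 228) (nat_lit 7145472710) (nat_lit 76) (nat_lit 14143543729)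 (nat_lit 91) (nat_lit 5) (nat_lit 94) (nat_lit 5) (nat_lit 92) (nat_lit 4) (nat_lit 529) (nat_lit 420) (nat_lit 251)))))) (XT.nd (nat_lit 624) (nat_lit 684) (nat_lit 0) (XT.nd (nat_lit 312) (nat_lit 304) (nat_lit 0) (XT.nd (nat_lit 156) (nat_lit 76) (nat_lit 0) (XT.nd (nat_lit 78) (nat_lit 228) (nat_lit 0) (XT.lf (nat_lit 0) (nat_lit 25612805716) (nat_lit 76) (nat_lit 20630493106) (nat_lit 152) (nat_lit 6169531732) (nat_lit 90) (nat_lit 5) (nat_lit 91) (nat_lit 5) (nat_lit 92) (nat_lit 4) (nat_lit 530) (nat_lit 420) (nat_lit 250)) (XT.lf (nat_lit 0) (nat_lit 6048742930) (nat_lit 152) (nat_lit 3295599244) (nat_lit 228) (nat_lit 44117047200) (nat_lit 87) (nat_lit 5) (nat_lit 89) (nat_lit 5) (nat_lit 90) (nat_lit 5) (nat_lit 531) (nat_lit 420) (nat_lit 249))) (XT.nd (nat_lit 78) (nat_lit 76) (nat_lit 0) (XT.lf (nat_lit 0) (nat_lit 25606194132) (nat_lit 228) (nat_lit 14317495685) (nat_lit 76) (nat_lit 14603685753) (nat_lit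 87) (nat_lit 5) (nat_lit 90) (nat_lit 5) (nat_lit 88) (nat_lit 4) (nat_lit 532) (nat_lit 420) (nat_lit 248)) (XT.lf (nat_lit 0) (nat_lit 20117988024) (nat_lit 76) (nat_lit 22457427621) (nat_lit 152) (nat_lit 13043340329) (nat_lit 86) (nat_lit 5) (nat_lit 87) (nat_lit 5) (nat_lit 88) (nat_lit 4) (nat_lit 533) (nat_lit 420) (nat_lit 247)))) (XT.nd (nat_lit 156) (nat_lit 76) (nat_lit 0) (XT.nd (nat_lit 78) (nat_lit 152) (nat_lit 0) (XT.lf (nat_lit 0) (nat_lit 3385744681) (nat_lit 152) (nat_lit 904240185) (nat_lit 76) (nat_lit 52447752740) (nat_lit 85) (nat_lit 5) (nat_lit 87) (nat_lit 5) (nat_lit 86) (nat_lit 5) (nat_lit 534) (nat_lit 420) (nat_lit 246)) (XT.lf (nat_lit 0) (nat_lit 20521563313) (nat_lit 228) (nat_lit 22742329566) (nat_lit 76) (nat_lit 14608241011) (nat_lit 83) (nat_lit 5) (nat_lit 86) (nat_lit 5) (nat_lit 84) (nat_lit 4) (nat_lit 535) (nat_lit 420) (nat_lit 245))) (XT.nd (nat_lit 78) (nat_lit 0) (nat_lit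 0) (XT.lf (nat_lit 0) (nat_lit 13430506939) (nat_lit 76) (nat_lit 24915455537) (nat_lit 152) (nat_lit 20689364444) (nat_lit 82) (nat_lit 5) (nat_lit 83) (nat_lit 5) (nat_lit 84) (nat_lit 4) (nat_lit 536) (nat_lit 420) (nat_lit 244)) (XT.lf (nat_lit 0) (nat_lit 51142719657) (nat_lit 76) (nat_lit 5785801954) (nat_lit 152) (nat_lit 3298191326) (nat_lit 82) (nat_lit 5) (nat_lit 83) (nat_lit 5) (nat_lit 84) (nat_lit 4) (nat_lit 537) (nat_lit 420) (nat_lit 243))))) (XT.nd (nat_lit 312) (nat_lit 228) (nat_lit 0) (XT.nd (nat_lit 156) (nat_lit 152) (nat_lit 0) (XT.nd (nat_lit 78) (nat_lit 76) (nat_lit 0) (XT.lf (nat_lit 0) (nat_lit 14739542015) (nat_lit 228) (nat_lit 32634321110) (nat_lit 76) (nat_lit 14063462554) (nat_lit 79) (nat_lit 5) (nat_lit 82) (nat_lit 5) (nat_lit 80) (nat_lit 4) (nat_lit 538) (nat_lit 420) (nat_lit 242)) (XT.lf (nat_lit 0) (nat_lit 5332744862) (nat_lit 76) (nat_lit 28114465760) (nat_lit 152) (nat_lit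 29230213745) (nat_lit 78) (nat_lit 5) (nat_lit 79) (nat_lit 5) (nat_lit 80) (nat_lit 4) (nat_lit 539) (nat_lit 420) (nat_lit 241))) (XT.nd (nat_lit 78) (nat_lit 152) (nat_lit 0) (XT.lf (nat_lit 0) (nat_lit 45096122097) (nat_lit 76) (nat_lit 7943503204) (nat_lit 152) (nat_lit 10905395267) (nat_lit 78) (nat_lit 5) (nat_lit 79) (nat_lit 5) (nat_lit 80) (nat_lit 4) (nat_lit 540) (nat_lit 420) (nat_lit 240)) (XT.lf (nat_lit 0) (nat_lit 8136897567) (nat_lit 152) (nat_lit 44242557307) (nat_lit 76) (nat_lit 12859194566) (nat_lit 76) (nat_lit 5) (nat_lit 78) (nat_lit 5) (nat_lit 77) (nat_lit 4) (nat_lit 541) (nat_lit 420) (nat_lit 239)))) (XT.nd (nat_lit 156) (nat_lit 152) (nat_lit 0) (XT.nd (nat_lit 78) (nat_lit 76) (nat_lit 0) (XT.lf (nat_lit 0) (nat_lit 27796242789) (nat_lit 152) (nat_lit 4342528288) (nat_lit 76) (nat_lit 34421127768) (nat_lit 76) (nat_lit 5) (nat_lit 78) (nat_lit 5) (nat_lit 77) (nat_lit 4) (nat_lit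 542) (nat_lit 420) (nat_lit 238)) (XT.lf (nat_lit 0) (nat_lit 37474640274) (nat_lit 76) (nat_lit 10925230331) (nat_lit 152) (nat_lit 19510280089) (nat_lit 75) (nat_lit 5) (nat_lit 76) (nat_lit 5) (nat_lit 77) (nat_lit 4) (nat_lit 543) (nat_lit 420) (nat_lit 237))) (XT.nd (nat_lit 78) (nat_lit 0) (nat_lit 0) (XT.lf (nat_lit 0) (nat_lit 570524367) (nat_lit 152) (nat_lit 57856451305) (nat_lit 76) (nat_lit 10866159418) (nat_lit 73) (nat_lit 5) (nat_lit 75) (nat_lit 5) (nat_lit 74) (nat_lit 4) (nat_lit 544) (nat_lit 420) (nat_lit 236)) (XT.lf (nat_lit 0) (nat_lit 21274455203) (nat_lit 152) (nat_lit 15834972121) (nat_lit 76) (nat_lit 33590001400) (nat_lit 73) (nat_lit 5) (nat_lit 75) (nat_lit 5) (nat_lit 74) (nat_lit 4) (nat_lit 545) (nat_lit 420) (nat_lit 235))))))))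
noncomputable def xc142 : XT := (XT.nd (nat_lit 54678) (nat_lit 0) (nat_lit 8664) (XT.nd (nat_lit 53430) (nat_lit 0) (nat_lit 17100) (XT.nd (nat_lit 52806) (nat_lit 0) (nat_lit 22344) (XT.nd (nat_lit 234) (nat_lit 228) (nat_lit 0) (XT.nd (nat_lit 78) (nat_lit 152) (nat_lit 0) (XT.lf (nat_lit 0) (nat_lit 27982372220) (nat_lit 76) (nat_lit 14880568844) (nat_lit 152) (nat_lit 29277067017) (nat_lit 72) (nat_lit 5) (nat_lit 73) (nat_lit 5) (nat_lit 74) (nat_lit 4) (nat_lit 546) (nat_lit 420) (nat_lit 234)) (XT.nd (nat_lit 78) (nat_lit 152) (nat_lit 0) (XT.lf (nat_lit 0) (nat_lit 65332075258) (nat_lit 152) (nat_lit 269623738) (nat_lit 0) (nat_lit 8015116035) (nat_lit 72) (nat_lit 5) (nat_lit 74) (nat_lit 4) (nat_lit 72) (nat_lit 4) (nat_lit 547) (nat_lit 420) (nat_lit 233)) (XT.lf (nat_lit 0) (nat_lit 13663796863) (nat_lit 152) (nat_lit 29586115610) (nat_lit 76) (nat_lit 31866566550) (nat_lit 70) (nat_lit 5) (nat_lit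 72) (nat_lit 5) (nat_lit 71) (nat_lit 4) (nat_lit 548) (nat_lit 420) (nat_lit 232)))) (XT.nd (nat_lit 156) (nat_lit 152) (nat_lit 0) (XT.nd (nat_lit 78) (nat_lit 0) (nat_lit 0) (XT.lf (nat_lit 0) (nat_lit 16273819535) (nat_lit 76) (nat_lit 19984265539) (nat_lit 152) (nat_lit 40395972755) (nat_lit 69) (nat_lit 5) (nat_lit 70) (nat_lit 5) (nat_lit 71) (nat_lit 4) (nat_lit 549) (nat_lit 420) (nat_lit 231)) (XT.lf (nat_lit 0) (nat_lit 59864808149) (nat_lit 152) (nat_lit 14164492687) (nat_lit 0) (nat_lit 4198424999) (nat_lit 69) (nat_lit 5) (nat_lit 71) (nat_lit 4) (nat_lit 69) (nat_lit 4) (nat_lit 550) (nat_lit 420) (nat_lit 230))) (XT.nd (nat_lit 52338) (nat_lit 0) (nat_lit 23332) (XT.lf (nat_lit 0) (nat_lit 4770181727) (nat_lit 152) (nat_lit 45988835138) (nat_lit 76) (nat_lit 29072630974) (nat_lit 67) (nat_lit 5) (nat_lit 69) (nat_lit 5) (nat_lit 68) (nat_lit 4) (nat_lit 551) (nat_lit 420) (nat_lit 229)) (XT.lf (nat_lit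 0) (nat_lit 707385476) (nat_lit 0) (nat_lit 707385476) (nat_lit 988) (nat_lit 2742204410) (nat_lit 374) (nat_lit 5) (nat_lit 374) (nat_lit 3) (nat_lit 387) (nat_lit 3) (nat_lit 421) (nat_lit 421) (nat_lit 358))))) (XT.nd (nat_lit 312) (nat_lit 988) (nat_lit 0) (XT.nd (nat_lit 156) (nat_lit 0) (nat_lit 0) (XT.nd (nat_lit 78) (nat_lit 0) (nat_lit 0) (XT.lf (nat_lit 0) (nat_lit 3986356756) (nat_lit 988) (nat_lit 2762920693) (nat_lit 1064) (nat_lit 1655893772) (nat_lit 374) (nat_lit 5) (nat_lit 387) (nat_lit 3) (nat_lit 388) (nat_lit 5) (nat_lit 422) (nat_lit 421) (nat_lit 357)) (XT.lf (nat_lit 76) (nat_lit 1489562692) (nat_lit 0) (nat_lit 3673988330) (nat_lit 1064) (nat_lit 3336009307) (nat_lit 375) (nat_lit 5) (nat_lit 374) (nat_lit 5) (nat_lit 388) (nat_lit 5) (nat_lit 423) (nat_lit 421) (nat_lit 356))) (XT.nd (nat_lit 78) (nat_lit 0) (nat_lit 76) (XT.lf (nat_lit 76) (nat_lit 5903559908) (nat_lit 0) (nat_lit 458774124)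 (nat_lit 1064) (nat_lit 2234861074) (nat_lit 375) (nat_lit 5) (nat_lit 374) (nat_lit 5) (nat_lit 388) (nat_lit 5) (nat_lit 424) (nat_lit 421) (nat_lit 355)) (XT.lf (nat_lit 76) (nat_lit 1735226897) (nat_lit 0) (nat_lit 5865719421) (nat_lit 1064) (nat_lit 1096698755) (nat_lit 376) (nat_lit 5) (nat_lit 375) (nat_lit 5) (nat_lit 389) (nat_lit 5) (nat_lit 425) (nat_lit 421) (nat_lit 354)))) (XT.nd (nat_lit 156) (nat_lit 0) (nat_lit 76) (XT.nd (nat_lit 78) (nat_lit 0) (nat_lit 76) (XT.lf (nat_lit 0) (nat_lit 66465008) (nat_lit 1064) (nat_lit 2477649193) (nat_lit 1140) (nat_lit 6257204572) (nat_lit 361) (nat_lit 5) (nat_lit 375) (nat_lit 5) (nat_lit 376) (nat_lit 5) (nat_lit 426) (nat_lit 421) (nat_lit 353)) (XT.lf (nat_lit 0) (nat_lit 1233508766) (nat_lit 1064) (nat_lit 6767747998) (nat_lit 1140) (nat_lit 906791278) (nat_lit 362) (nat_lit 5) (nat_lit 376) (nat_lit 5) (nat_lit 377) (nat_lit 5) (nat_lit 427) (nat_lit 421)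 (nat_lit 352))) (XT.nd (nat_lit 78) (nat_lit 0) (nat_lit 0) (XT.lf (nat_lit 0) (nat_lit 2448536181) (nat_lit 1064) (nat_lit 2119421906) (nat_lit 1140) (nat_lit 4449633815) (nat_lit 362) (nat_lit 5) (nat_lit 376) (nat_lit 5) (nat_lit 377) (nat_lit 5) (nat_lit 428) (nat_lit 421) (nat_lit 351)) (XT.lf (nat_lit 76) (nat_lit 2697364536) (nat_lit 0) (nat_lit 992186347) (nat_lit 1140) (nat_lit 5441186930) (nat_lit 363) (nat_lit 5) (nat_lit 362) (nat_lit 5) (nat_lit 377) (nat_lit 5) (nat_lit 429) (nat_lit 421) (nat_lit 350)))))) (XT.nd (nat_lit 624) (nat_lit 4332) (nat_lit 0) (XT.nd (nat_lit 312) (nat_lit 1064) (nat_lit 0) (XT.nd (nat_lit 156) (nat_lit 0) (nat_lit 76) (XT.nd (nat_lit 78) (nat_lit 0) (nat_lit 0) (XT.lf (nat_lit 0) (nat_lit 4979835889) (nat_lit 1064) (nat_lit 1595192008) (nat_lit 1140) (nat_lit 2671890784) (nat_lit 363) (nat_lit 5) (nat_lit 377) (nat_lit 5) (nat_lit 378) (nat_lit 5) (nat_lit 430) (nat_lit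 421) (nat_lit 349)) (XT.lf (nat_lit 76) (nat_lit 3421208521) (nat_lit 0) (nat_lit 2895923313) (nat_lit 1140) (nat_lit 3049205791) (nat_lit 364) (nat_lit 5) (nat_lit 363) (nat_lit 5) (nat_lit 378) (nat_lit 5) (nat_lit 431) (nat_lit 421) (nat_lit 348))) (XT.nd (nat_lit 78) (nat_lit 0) (nat_lit 0) (XT.lf (nat_lit 0) (nat_lit 7685867073) (nat_lit 1064) (nat_lit 901539363) (nat_lit 1140) (nat_lit 902194764) (nat_lit 364) (nat_lit 5) (nat_lit 378) (nat_lit 5) (nat_lit 379) (nat_lit 5) (nat_lit 432) (nat_lit 421) (nat_lit 347)) (XT.lf (nat_lit 76) (nat_lit 4325068140) (nat_lit 0) (nat_lit 4808283958) (nat_lit 1140) (nat_lit 482081575) (nat_lit 365) (nat_lit 5) (nat_lit 364) (nat_lit 5) (nat_lit 379) (nat_lit 5) (nat_lit 433) (nat_lit 421) (nat_lit 346)))) (XT.nd (nat_lit 156) (nat_lit 0) (nat_lit 76) (XT.nd (nat_lit 78) (nat_lit 0) (nat_lit 76) (XT.lf (nat_lit 0) (nat_lit 839100699) (nat_lit 1140) (nat_lit 50776366) (nat_lit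 1216) (nat_lit 8855600932) (nat_lit 349) (nat_lit 5) (nat_lit 364) (nat_lit 5) (nat_lit 365) (nat_lit 5) (nat_lit 434) (nat_lit 421) (nat_lit 345)) (XT.lf (nat_lit 0) (nat_lit 2242018890) (nat_lit 1140) (nat_lit 4486185707) (nat_lit 1216) (nat_lit 3149523652) (nat_lit 350) (nat_lit 5) (nat_lit 365) (nat_lit 5) (nat_lit 366) (nat_lit 5) (nat_lit 435) (nat_lit 421) (nat_lit 344))) (XT.nd (nat_lit 78) (nat_lit 0) (nat_lit 76) (XT.lf (nat_lit 76) (nat_lit 969888722) (nat_lit 0) (nat_lit 2705318664) (nat_lit 1216) (nat_lit 6339094584) (nat_lit 351) (nat_lit 5) (nat_lit 350) (nat_lit 5) (nat_lit 366) (nat_lit 5) (nat_lit 436) (nat_lit 421) (nat_lit 343)) (XT.lf (nat_lit 0) (nat_lit 5181206582) (nat_lit 1140) (nat_lit 3511452528) (nat_lit 76) (nat_lit 1461420743) (nat_lit 351) (nat_lit 5) (nat_lit 366) (nat_lit 5) (nat_lit 352) (nat_lit 5) (nat_lit 437) (nat_lit 421) (nat_lit 342))))) (XT.nd (nat_lit 312) (nat_lit 2052)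 (nat_lit 0) (XT.nd (nat_lit 156) (nat_lit 1292) (nat_lit 0) (XT.nd (nat_lit 78) (nat_lit 0) (nat_lit 0) (XT.lf (nat_lit 0) (nat_lit 2178788307) (nat_lit 1140) (nat_lit 4572432895) (nat_lit 1216) (nat_lit 3546266167) (nat_lit 336) (nat_lit 5) (nat_lit 351) (nat_lit 5) (nat_lit 352) (nat_lit 5) (nat_lit 438) (nat_lit 421) (nat_lit 341)) (XT.lf (nat_lit 0) (nat_lit 8087517926) (nat_lit 1140) (nat_lit 287992332) (nat_lit 1216) (nat_lit 2069472954) (nat_lit 336) (nat_lit 5) (nat_lit 351) (nat_lit 5) (nat_lit 352) (nat_lit 5) (nat_lit 439) (nat_lit 421) (nat_lit 340))) (XT.nd (nat_lit 78) (nat_lit 76) (nat_lit 0) (XT.lf (nat_lit 0) (nat_lit 3582503029) (nat_lit 1216) (nat_lit 6512691176) (nat_lit 1292) (nat_lit 500311019) (nat_lit 320) (nat_lit 5) (nat_lit 336) (nat_lit 5) (nat_lit 337) (nat_lit 5) (nat_lit 440) (nat_lit 421) (nat_lit 339)) (XT.lf (nat_lit 0) (nat_lit 1093919844) (nat_lit 1292) (nat_lit 1039307045) (nat_lit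 76) (nat_lit 8617002316) (nat_lit 319) (nat_lit 5) (nat_lit 336) (nat_lit 5) (nat_lit 320) (nat_lit 5) (nat_lit 441) (nat_lit 421) (nat_lit 338)))) (XT.nd (nat_lit 156) (nat_lit 608) (nat_lit 0) (XT.nd (nat_lit 78) (nat_lit 608) (nat_lit 0) (XT.lf (nat_lit 0) (nat_lit 2772859563) (nat_lit 912) (nat_lit 5746263864) (nat_lit 76) (nat_lit 2388915912) (nat_lit 308) (nat_lit 5) (nat_lit 320) (nat_lit 5) (nat_lit 309) (nat_lit 5) (nat_lit 442) (nat_lit 421) (nat_lit 337)) (XT.lf (nat_lit 0) (nat_lit 463238401) (nat_lit 608) (nat_lit 4049327996) (nat_lit 684) (nat_lit 6557706553) (nat_lit 300) (nat_lit 5) (nat_lit 308) (nat_lit 5) (nat_lit 309) (nat_lit 5) (nat_lit 443) (nat_lit 421) (nat_lit 336))) (XT.nd (nat_lit 78) (nat_lit 608) (nat_lit 0) (XT.lf (nat_lit 0) (nat_lit 6343148824) (nat_lit 684) (nat_lit 4289750112) (nat_lit 76) (nat_lit 603315207) (nat_lit 300) (nat_lit 5) (nat_lit 309) (nat_lit 5) (nat_lit 301) (nat_lit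 5) (nat_lit 444) (nat_lit 421) (nat_lit 335)) (XT.lf (nat_lit 0) (nat_lit 2195501145) (nat_lit 608) (nat_lit 6069832873) (nat_lit 684) (nat_lit 3140700069) (nat_lit 292) (nat_lit 5) (nat_lit 300) (nat_lit 5) (nat_lit 301) (nat_lit 5) (nat_lit 445) (nat_lit 421) (nat_lit 334))))))) (XT.nd (nat_lit 1248) (nat_lit 3800) (nat_lit 0) (XT.nd (nat_lit 624) (nat_lit 2280) (nat_lit 0) (XT.nd (nat_lit 312) (nat_lit 1140) (nat_lit 0) (XT.nd (nat_lit 156) (nat_lit 608) (nat_lit 0) (XT.nd (nat_lit 78) (nat_lit 608) (nat_lit 0) (XT.lf (nat_lit 0) (nat_lit 8939182370) (nat_lit 608) (nat_lit 1325291521) (nat_lit 684) (nat_lit 1315897107) (nat_lit 292) (nat_lit 5) (nat_lit 300) (nat_lit 5) (nat_lit 301) (nat_lit 5) (nat_lit 446) (nat_lit 421) (nat_lit 333)) (XT.lf (nat_lit 0) (nat_lit 603931553) (nat_lit 608) (nat_lit 7616459612) (nat_lit 76) (nat_lit 3537846876) (nat_lit 284) (nat_lit 5) (nat_lit 292) (nat_lit 5) (nat_lit 285)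 (nat_lit 5) (nat_lit 447) (nat_lit 421) (nat_lit 332))) (XT.nd (nat_lit 78) (nat_lit 608) (nat_lit 0) (XT.lf (nat_lit 0) (nat_lit 2571857016) (nat_lit 608) (nat_lit 808966985) (nat_lit 76) (nat_lit 8559718685) (nat_lit 284) (nat_lit 5) (nat_lit 292) (nat_lit 5) (nat_lit 285) (nat_lit 5) (nat_lit 448) (nat_lit 421) (nat_lit 331)) (XT.lf (nat_lit 0) (nat_lit 4652973657) (nat_lit 684) (nat_lit 5841032138) (nat_lit 76) (nat_lit 1632686997) (nat_lit 276) (nat_lit 5) (nat_lit 285) (nat_lit 5) (nat_lit 277) (nat_lit 5) (nat_lit 449) (nat_lit 421) (nat_lit 330)))) (XT.nd (nat_lit 156) (nat_lit 608) (nat_lit 0) (XT.nd (nat_lit 78) (nat_lit 0) (nat_lit 0) (XT.lf (nat_lit 0) (nat_lit 1258534623) (nat_lit 532) (nat_lit 5569792952) (nat_lit 608) (nat_lit 5489146612) (nat_lit 269) (nat_lit 5) (nat_lit 276) (nat_lit 5) (nat_lit 277) (nat_lit 5) (nat_lit 450) (nat_lit 421) (nat_lit 329)) (XT.lf (nat_lit 0) (nat_lit 8667061735)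 (nat_lit 532) (nat_lit 439258823) (nat_lit 608) (nat_lit 3406537986) (nat_lit 269) (nat_lit 5) (nat_lit 276) (nat_lit 5) (nat_lit 277) (nat_lit 5) (nat_lit 451) (nat_lit 421) (nat_lit 328))) (XT.nd (nat_lit 78) (nat_lit 76) (nat_lit 0) (XT.lf (nat_lit 0) (nat_lit 3583410574) (nat_lit 532) (nat_lit 7929268233) (nat_lit 608) (nat_lit 1199625710) (nat_lit 262) (nat_lit 5) (nat_lit 269) (nat_lit 5) (nat_lit 270) (nat_lit 5) (nat_lit 452) (nat_lit 421) (nat_lit 327)) (XT.lf (nat_lit 0) (nat_lit 1075300670) (nat_lit 608) (nat_lit 1641155098) (nat_lit 76) (nat_lit 10200286693) (nat_lit 261) (nat_lit 5) (nat_lit 269) (nat_lit 5) (nat_lit 262) (nat_lit 5) (nat_lit 453) (nat_lit 421) (nat_lit 326))))) (XT.nd (nat_lit 312) (nat_lit 912) (nat_lit 0) (XT.nd (nat_lit 156) (nat_lit 456) (nat_lit 0) (XT.nd (nat_lit 78) (nat_lit 456) (nat_lit 0) (XT.lf (nat_lit 0) (nat_lit 3459508632) (nat_lit 532) (nat_lit 6995661471) (nat_lit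 76) (nat_lit 2669833539) (nat_lit 255) (nat_lit 5) (nat_lit 262) (nat_lit 5) (nat_lit 256) (nat_lit 5) (nat_lit 454) (nat_lit 421) (nat_lit 325)) (XT.lf (nat_lit 0) (nat_lit 792478557) (nat_lit 456) (nat_lit 5154144549) (nat_lit 532) (nat_lit 7391948897) (nat_lit 249) (nat_lit 5) (nat_lit 255) (nat_lit 5) (nat_lit 256) (nat_lit 5) (nat_lit 455) (nat_lit 421) (nat_lit 324))) (XT.nd (nat_lit 78) (nat_lit 456) (nat_lit 0) (XT.lf (nat_lit 0) (nat_lit 8563082691) (nat_lit 532) (nat_lit 4626227561) (nat_lit 76) (nat_lit 367595944) (nat_lit 249) (nat_lit 5) (nat_lit 256) (nat_lit 5) (nat_lit 250) (nat_lit 5) (nat_lit 456) (nat_lit 421) (nat_lit 323)) (XT.lf (nat_lit 0) (nat_lit 3525873259) (nat_lit 456) (nat_lit 7798105402) (nat_lit 532) (nat_lit 2455834185) (nat_lit 243) (nat_lit 5) (nat_lit 249) (nat_lit 5) (nat_lit 250) (nat_lit 5) (nat_lit 457) (nat_lit 421) (nat_lit 322)))) (XT.nd (nat_lit 156) (nat_lit 380) (nat_lit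 0) (XT.nd (nat_lit 78) (nat_lit 456) (nat_lit 0) (XT.lf (nat_lit 0) (nat_lit 183550241) (nat_lit 532) (nat_lit 2015900257) (nat_lit 76) (nat_lit 11809060889) (nat_lit 242) (nat_lit 5) (nat_lit 249) (nat_lit 5) (nat_lit 243) (nat_lit 5) (nat_lit 458) (nat_lit 421) (nat_lit 321)) (XT.lf (nat_lit 0) (nat_lit 2932547647) (nat_lit 532) (nat_lit 7726934486) (nat_lit 76) (nat_lit 3581466207) (nat_lit 236) (nat_lit 5) (nat_lit 243) (nat_lit 5) (nat_lit 237) (nat_lit 5) (nat_lit 459) (nat_lit 421) (nat_lit 320))) (XT.nd (nat_lit 78) (nat_lit 0) (nat_lit 0) (XT.lf (nat_lit 0) (nat_lit 832795551) (nat_lit 380) (nat_lit 4963549244) (nat_lit 456) (nat_lit 8683044342) (nat_lit 231) (nat_lit 5) (nat_lit 236) (nat_lit 5) (nat_lit 237) (nat_lit 5) (nat_lit 460) (nat_lit 421) (nat_lit 319)) (XT.lf (nat_lit 0) (nat_lit 8815786765) (nat_lit 456) (nat_lit 4947524027) (nat_lit 76) (nat_lit 959581052) (nat_lit 231) (nat_lit 5) (nat_lit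 237) (nat_lit 5) (nat_lit 232) (nat_lit 5) (nat_lit 461) (nat_lit 421) (nat_lit 318)))))) (XT.nd (nat_lit 624) (nat_lit 1672) (nat_lit 0) (XT.nd (nat_lit 312) (nat_lit 836) (nat_lit 0) (XT.nd (nat_lit 156) (nat_lit 760) (nat_lit 0) (XT.nd (nat_lit 78) (nat_lit 76) (nat_lit 0) (XT.lf (nat_lit 0) (nat_lit 4019340821) (nat_lit 456) (nat_lit 7977017384) (nat_lit 532) (nat_lit 2975225636) (nat_lit 225) (nat_lit 5) (nat_lit 231) (nat_lit 5) (nat_lit 232) (nat_lit 5) (nat_lit 462) (nat_lit 421) (nat_lit 317)) (XT.lf (nat_lit 0) (nat_lit 77080221) (nat_lit 532) (nat_lit 1893115751) (nat_lit 76) (nat_lit 13256528104) (nat_lit 224) (nat_lit 5) (nat_lit 231) (nat_lit 5) (nat_lit 225) (nat_lit 5) (nat_lit 463) (nat_lit 421) (nat_lit 316))) (XT.nd (nat_lit 78) (nat_lit 380) (nat_lit 0) (XT.lf (nat_lit 0) (nat_lit 3258448258) (nat_lit 456) (nat_lit 7995049842) (nat_lit 76) (nat_lit 4232218471) (nat_lit 219) (nat_lit 5) (nat_lit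 225) (nat_lit 5) (nat_lit 220) (nat_lit 5) (nat_lit 464) (nat_lit 421) (nat_lit 315)) (XT.lf (nat_lit 0) (nat_lit 1428899376) (nat_lit 380) (nat_lit 5142514009) (nat_lit 456) (nat_lit 9179981301) (nat_lit 214) (nat_lit 5) (nat_lit 219) (nat_lit 5) (nat_lit 220) (nat_lit 5) (nat_lit 465) (nat_lit 421) (nat_lit 314)))) (XT.nd (nat_lit 156) (nat_lit 456) (nat_lit 0) (XT.nd (nat_lit 78) (nat_lit 380) (nat_lit 0) (XT.lf (nat_lit 0) (nat_lit 10060191377) (nat_lit 456) (nat_lit 4757397581) (nat_lit 76) (nat_lit 1205161983) (nat_lit 214) (nat_lit 5) (nat_lit 220) (nat_lit 5) (nat_lit 215) (nat_lit 5) (nat_lit 466) (nat_lit 421) (nat_lit 313)) (XT.lf (nat_lit 0) (nat_lit 5121973536) (nat_lit 380) (nat_lit 8616100433) (nat_lit 456) (nat_lit 2561641173) (nat_lit 209) (nat_lit 5) (nat_lit 214) (nat_lit 5) (nat_lit 215) (nat_lit 5) (nat_lit 467) (nat_lit 421) (nat_lit 312))) (XT.nd (nat_lit 78) (nat_lit 380) (nat_lit 0) (XT.lf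 (nat_lit 0) (nat_lit 955839679) (nat_lit 456) (nat_lit 1219633383) (nat_lit 76) (nat_lit 14408257133) (nat_lit 208) (nat_lit 5) (nat_lit 214) (nat_lit 5) (nat_lit 209) (nat_lit 5) (nat_lit 468) (nat_lit 421) (nat_lit 311)) (XT.lf (nat_lit 0) (nat_lit 4644266901) (nat_lit 456) (nat_lit 7747625632) (nat_lit 76) (nat_lit 4480105484) (nat_lit 203) (nat_lit 5) (nat_lit 209) (nat_lit 5) (nat_lit 204) (nat_lit 5) (nat_lit 469) (nat_lit 421) (nat_lit 310))))) (XT.nd (nat_lit 312) (nat_lit 684) (nat_lit 0) (XT.nd (nat_lit 156) (nat_lit 684) (nat_lit 0) (XT.nd (nat_lit 78) (nat_lit 0) (nat_lit 0) (XT.lf (nat_lit 0) (nat_lit 2643725494) (nat_lit 304) (nat_lit 5844035404) (nat_lit 380) (nat_lit 8679821001) (nat_lit 199) (nat_lit 5) (nat_lit 203) (nat_lit 5) (nat_lit 204) (nat_lit 5) (nat_lit 470) (nat_lit 421) (nat_lit 309)) (XT.lf (nat_lit 0) (nat_lit 12519419008) (nat_lit 380) (nat_lit 3995007615) (nat_lit 76) (nat_lit 955421325)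 (nat_lit 199) (nat_lit 5) (nat_lit 204) (nat_lit 5) (nat_lit 200) (nat_lit 5) (nat_lit 471) (nat_lit 421) (nat_lit 308))) (XT.nd (nat_lit 78) (nat_lit 380) (nat_lit 0) (XT.lf (nat_lit 0) (nat_lit 6905698160) (nat_lit 304) (nat_lit 9876198471) (nat_lit 380) (nat_lit 995989671) (nat_lit 195) (nat_lit 5) (nat_lit 199) (nat_lit 5) (nat_lit 200) (nat_lit 5) (nat_lit 472) (nat_lit 421) (nat_lit 307)) (XT.lf (nat_lit 0) (nat_lit 71804480) (nat_lit 304) (nat_lit 2972370127) (nat_lit 380) (nat_lit 15049290125) (nat_lit 190) (nat_lit 5) (nat_lit 194) (nat_lit 5) (nat_lit 195) (nat_lit 5) (nat_lit 473) (nat_lit 421) (nat_lit 306)))) (XT.nd (nat_lit 156) (nat_lit 380) (nat_lit 0) (XT.nd (nat_lit 78) (nat_lit 304) (nat_lit 0) (XT.lf (nat_lit 0) (nat_lit 7322040350) (nat_lit 380) (nat_lit 6920095969) (nat_lit 76) (nat_lit 4171983290) (nat_lit 190) (nat_lit 5) (nat_lit 195) (nat_lit 5) (nat_lit 191) (nat_lit 5) (nat_lit 474) (nat_lit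 421) (nat_lit 305)) (XT.lf (nat_lit 0) (nat_lit 4553420654) (nat_lit 304) (nat_lit 7234290651) (nat_lit 380) (nat_lit 6954899122) (nat_lit 186) (nat_lit 5) (nat_lit 190) (nat_lit 5) (nat_lit 191) (nat_lit 5) (nat_lit 475) (nat_lit 421) (nat_lit 304))) (XT.nd (nat_lit 78) (nat_lit 380) (nat_lit 0) (XT.lf (nat_lit 0) (nat_lit 16444176738) (nat_lit 380) (nat_lit 2587056185) (nat_lit 76) (nat_lit 48018676) (nat_lit 186) (nat_lit 5) (nat_lit 191) (nat_lit 5) (nat_lit 187) (nat_lit 5) (nat_lit 476) (nat_lit 421) (nat_lit 303)) (XT.lf (nat_lit 0) (nat_lit 1929745926) (nat_lit 380) (nat_lit 9984453422) (nat_lit 76) (nat_lit 7506745591) (nat_lit 181) (nat_lit 5) (nat_lit 186) (nat_lit 5) (nat_lit 182) (nat_lit 5) (nat_lit 477) (nat_lit 421) (nat_lit 302))))))))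
noncomputable def xc143 : XT := (XT.nd (nat_lit 2418) (nat_lit 3268) (nat_lit 0) (XT.nd (nat_lit 1170) (nat_lit 2128) (nat_lit 0) (XT.nd (nat_lit 546) (nat_lit 1292) (nat_lit 0) (XT.nd (nat_lit 234) (nat_lit 608) (nat_lit 0) (XT.nd (nat_lit 78) (nat_lit 228) (nat_lit 0) (XT.lf (nat_lit 0) (nat_lit 2096104637) (nat_lit 304) (nat_lit 4515845300) (nat_lit 380) (nat_lit 13159154750) (nat_lit 177) (nat_lit 5) (nat_lit 181) (nat_lit 5) (nat_lit 182) (nat_lit 5) (nat_lit 478) (nat_lit 421) (nat_lit 301)) (XT.nd (nat_lit 78) (nat_lit 228) (nat_lit 0) (XT.lf (nat_lit 0) (nat_lit 11553276574) (nat_lit 380) (nat_lit 5436079719) (nat_lit 76) (nat_lit 3138853557) (nat_lit 177) (nat_lit 5) (nat_lit 182) (nat_lit 5) (nat_lit 178) (nat_lit 5) (nat_lit 479) (nat_lit 421) (nat_lit 300)) (XT.lf (nat_lit 0) (nat_lit 7247056825) (nat_lit 228) (nat_lit 9497532406) (nat_lit 304) (nat_lit 3748386860) (nat_lit 174) (nat_lit 5) (nat_lit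 177) (nat_lit 5) (nat_lit 178) (nat_lit 5) (nat_lit 480) (nat_lit 421) (nat_lit 299)))) (XT.nd (nat_lit 156) (nat_lit 228) (nat_lit 0) (XT.nd (nat_lit 78) (nat_lit 304) (nat_lit 0) (XT.lf (nat_lit 0) (nat_lit 1241957839) (nat_lit 304) (nat_lit 476930053) (nat_lit 76) (nat_lit 19148159062) (nat_lit 173) (nat_lit 5) (nat_lit 177) (nat_lit 5) (nat_lit 174) (nat_lit 5) (nat_lit 481) (nat_lit 421) (nat_lit 298)) (XT.lf (nat_lit 0) (nat_lit 6480202521) (nat_lit 380) (nat_lit 8439883866) (nat_lit 76) (nat_lit 6325934602) (nat_lit 169) (nat_lit 5) (nat_lit 174) (nat_lit 5) (nat_lit 170) (nat_lit 5) (nat_lit 482) (nat_lit 421) (nat_lit 297))) (XT.nd (nat_lit 78) (nat_lit 0) (nat_lit 0) (XT.lf (nat_lit 0) (nat_lit 4920965666) (nat_lit 228) (nat_lit 7011716488) (nat_lit 304) (nat_lit 9701969738) (nat_lit 166) (nat_lit 5) (nat_lit 169) (nat_lit 5) (nat_lit 170) (nat_lit 5) (nat_lit 483) (nat_lit 421) (nat_lit 296)) (XT.lf (nat_lit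 0) (nat_lit 17633708553) (nat_lit 304) (nat_lit 3207826298) (nat_lit 76) (nat_lit 1190857967) (nat_lit 166) (nat_lit 5) (nat_lit 170) (nat_lit 5) (nat_lit 167) (nat_lit 5) (nat_lit 484) (nat_lit 421) (nat_lit 295))))) (XT.nd (nat_lit 312) (nat_lit 532) (nat_lit 0) (XT.nd (nat_lit 156) (nat_lit 228) (nat_lit 0) (XT.nd (nat_lit 78) (nat_lit 228) (nat_lit 0) (XT.lf (nat_lit 0) (nat_lit 1206388829) (nat_lit 304) (nat_lit 11622776676) (nat_lit 76) (nat_lit 9607690603) (nat_lit 162) (nat_lit 5) (nat_lit 166) (nat_lit 5) (nat_lit 163) (nat_lit 5) (nat_lit 485) (nat_lit 421) (nat_lit 294)) (XT.lf (nat_lit 0) (nat_lit 2455123124) (nat_lit 228) (nat_lit 4480793829) (nat_lit 304) (nat_lit 15914888685) (nat_lit 159) (nat_lit 5) (nat_lit 162) (nat_lit 5) (nat_lit 163) (nat_lit 5) (nat_lit 486) (nat_lit 421) (nat_lit 293))) (XT.nd (nat_lit 78) (nat_lit 228) (nat_lit 0) (XT.lf (nat_lit 0) (nat_lit 12983933078) (nat_lit 304) (nat_lit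 6139705155) (nat_lit 76) (nat_lit 4149137596) (nat_lit 159) (nat_lit 5) (nat_lit 163) (nat_lit 5) (nat_lit 160) (nat_lit 5) (nat_lit 487) (nat_lit 421) (nat_lit 292)) (XT.lf (nat_lit 0) (nat_lit 8650010285) (nat_lit 228) (nat_lit 10679716028) (nat_lit 304) (nat_lit 4374188945) (nat_lit 156) (nat_lit 5) (nat_lit 159) (nat_lit 5) (nat_lit 160) (nat_lit 5) (nat_lit 488) (nat_lit 421) (nat_lit 291)))) (XT.nd (nat_lit 156) (nat_lit 228) (nat_lit 0) (XT.nd (nat_lit 78) (nat_lit 228) (nat_lit 0) (XT.lf (nat_lit 0) (nat_lit 1735859247) (nat_lit 304) (nat_lit 172392718) (nat_lit 76) (nat_lit 22237697397) (nat_lit 155) (nat_lit 5) (nat_lit 159) (nat_lit 5) (nat_lit 156) (nat_lit 5) (nat_lit 489) (nat_lit 421) (nat_lit 290)) (XT.lf (nat_lit 0) (nat_lit 8148793899) (nat_lit 304) (nat_lit 9271370634) (nat_lit 76) (nat_lit 7173555846) (nat_lit 152) (nat_lit 5) (nat_lit 156) (nat_lit 5) (nat_lit 153) (nat_lit 5) (nat_lit 490)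 (nat_lit 421) (nat_lit 289))) (XT.nd (nat_lit 78) (nat_lit 0) (nat_lit 0) (XT.lf (nat_lit 0) (nat_lit 6317000040) (nat_lit 228) (nat_lit 8507756980) (nat_lit 304) (nat_lit 10228048500) (nat_lit 149) (nat_lit 5) (nat_lit 152) (nat_lit 5) (nat_lit 153) (nat_lit 5) (nat_lit 491) (nat_lit 421) (nat_lit 288)) (XT.lf (nat_lit 0) (nat_lit 21791347168) (nat_lit 304) (nat_lit 2985191071) (nat_lit 76) (nat_lit 746414732) (nat_lit 149) (nat_lit 5) (nat_lit 153) (nat_lit 5) (nat_lit 150) (nat_lit 5) (nat_lit 492) (nat_lit 421) (nat_lit 287)))))) (XT.nd (nat_lit 624) (nat_lit 988) (nat_lit 0) (XT.nd (nat_lit 312) (nat_lit 532) (nat_lit 0) (XT.nd (nat_lit 156) (nat_lit 152) (nat_lit 0) (XT.nd (nat_lit 78) (nat_lit 228) (nat_lit 0) (XT.lf (nat_lit 0) (nat_lit 3106652321) (nat_lit 228) (nat_lit 12633939996) (nat_lit 76) (nat_lit 10259618878) (nat_lit 146) (nat_lit 5) (nat_lit 149) (nat_lit 5) (nat_lit 147) (nat_lit 5) (nat_lit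 493) (nat_lit 421) (nat_lit 286)) (XT.lf (nat_lit 0) (nat_lit 3797919580) (nat_lit 228) (nat_lit 6333770706) (nat_lit 304) (nat_lit 16357289655) (nat_lit 143) (nat_lit 5) (nat_lit 146) (nat_lit 5) (nat_lit 147) (nat_lit 5) (nat_lit 494) (nat_lit 421) (nat_lit 285))) (XT.nd (nat_lit 78) (nat_lit 152) (nat_lit 0) (XT.lf (nat_lit 0) (nat_lit 17518320643) (nat_lit 304) (nat_lit 6057981227) (nat_lit 76) (nat_lit 3411584820) (nat_lit 143) (nat_lit 5) (nat_lit 147) (nat_lit 5) (nat_lit 144) (nat_lit 5) (nat_lit 495) (nat_lit 421) (nat_lit 284)) (XT.lf (nat_lit 0) (nat_lit 11213101039) (nat_lit 152) (nat_lit 14073992591) (nat_lit 228) (nat_lit 2209850871) (nat_lit 141) (nat_lit 5) (nat_lit 143) (nat_lit 5) (nat_lit 144) (nat_lit 5) (nat_lit 496) (nat_lit 421) (nat_lit 283)))) (XT.nd (nat_lit 156) (nat_lit 228) (nat_lit 0) (XT.nd (nat_lit 78) (nat_lit 0) (nat_lit 0) (XT.lf (nat_lit 0) (nat_lit 1059373409) (nat_lit 228) (nat_lit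 4167529934) (nat_lit 304) (nat_lit 22790990631) (nat_lit 137) (nat_lit 5) (nat_lit 140) (nat_lit 5) (nat_lit 141) (nat_lit 5) (nat_lit 497) (nat_lit 421) (nat_lit 282)) (XT.lf (nat_lit 0) (nat_lit 13056563424) (nat_lit 304) (nat_lit 9391554331) (nat_lit 76) (nat_lit 6099271370) (nat_lit 137) (nat_lit 5) (nat_lit 141) (nat_lit 5) (nat_lit 138) (nat_lit 5) (nat_lit 498) (nat_lit 421) (nat_lit 281))) (XT.nd (nat_lit 78) (nat_lit 76) (nat_lit 0) (XT.lf (nat_lit 0) (nat_lit 8816526285) (nat_lit 152) (nat_lit 12421020078) (nat_lit 228) (nat_lit 7851729929) (nat_lit 135) (nat_lit 5) (nat_lit 137) (nat_lit 5) (nat_lit 138) (nat_lit 5) (nat_lit 499) (nat_lit 421) (nat_lit 280)) (XT.lf (nat_lit 0) (nat_lit 102438284) (nat_lit 228) (nat_lit 1899006871) (nat_lit 76) (nat_lit 27643383625) (nat_lit 134) (nat_lit 5) (nat_lit 137) (nat_lit 5) (nat_lit 135) (nat_lit 5) (nat_lit 500) (nat_lit 421) (nat_lit 279))))) (XT.nd (nat_lit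 312) (nat_lit 380) (nat_lit 0) (XT.nd (nat_lit 156) (nat_lit 228) (nat_lit 0) (XT.nd (nat_lit 78) (nat_lit 152) (nat_lit 0) (XT.lf (nat_lit 0) (nat_lit 8380416323) (nat_lit 304) (nat_lit 13027311512) (nat_lit 76) (nat_lit 8799698048) (nat_lit 131) (nat_lit 5) (nat_lit 135) (nat_lit 5) (nat_lit 132) (nat_lit 5) (nat_lit 501) (nat_lit 421) (nat_lit 278)) (XT.lf (nat_lit 0) (nat_lit 6168307036) (nat_lit 152) (nat_lit 10827677396) (nat_lit 228) (nat_lit 13788239079) (nat_lit 129) (nat_lit 5) (nat_lit 131) (nat_lit 5) (nat_lit 132) (nat_lit 5) (nat_lit 502) (nat_lit 421) (nat_lit 277))) (XT.nd (nat_lit 78) (nat_lit 228) (nat_lit 0) (XT.lf (nat_lit 0) (nat_lit 25994364536) (nat_lit 228) (nat_lit 5185821411) (nat_lit 76) (nat_lit 194408905) (nat_lit 129) (nat_lit 5) (nat_lit 132) (nat_lit 5) (nat_lit 130) (nat_lit 5) (nat_lit 503) (nat_lit 421) (nat_lit 276)) (XT.lf (nat_lit 0) (nat_lit 3460865829) (nat_lit 228) (nat_lit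 17012556891) (nat_lit 76) (nat_lit 11500963288) (nat_lit 126) (nat_lit 5) (nat_lit 129) (nat_lit 5) (nat_lit 127) (nat_lit 5) (nat_lit 504) (nat_lit 421) (nat_lit 275)))) (XT.nd (nat_lit 156) (nat_lit 228) (nat_lit 0) (XT.nd (nat_lit 78) (nat_lit 0) (nat_lit 0) (XT.lf (nat_lit 0) (nat_lit 3222857357) (nat_lit 152) (nat_lit 9311175720) (nat_lit 228) (nat_lit 20054290588) (nat_lit 124) (nat_lit 5) (nat_lit 126) (nat_lit 5) (nat_lit 127) (nat_lit 5) (nat_lit 505) (nat_lit 421) (nat_lit 274)) (XT.lf (nat_lit 0) (nat_lit 22065054109) (nat_lit 228) (nat_lit 8840063587) (nat_lit 76) (nat_lit 2309992109) (nat_lit 124) (nat_lit 5) (nat_lit 127) (nat_lit 5) (nat_lit 125) (nat_lit 5) (nat_lit 506) (nat_lit 421) (nat_lit 273))) (XT.nd (nat_lit 78) (nat_lit 76) (nat_lit 0) (XT.lf (nat_lit 0) (nat_lit 12436149302) (nat_lit 152) (nat_lit 19648999713) (nat_lit 228) (nat_lit 1769456332) (nat_lit 122) (nat_lit 5) (nat_lit 124) (nat_lit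 5) (nat_lit 125) (nat_lit 5) (nat_lit 507) (nat_lit 421) (nat_lit 272)) (XT.lf (nat_lit 0) (nat_lit 7820128514) (nat_lit 228) (nat_lit 70953958) (nat_lit 76) (nat_lit 26617479951) (nat_lit 121) (nat_lit 5) (nat_lit 124) (nat_lit 5) (nat_lit 122) (nat_lit 5) (nat_lit 508) (nat_lit 421) (nat_lit 271))))))) (XT.nd (nat_lit 1248) (nat_lit 1520) (nat_lit 0) (XT.nd (nat_lit 624) (nat_lit 684) (nat_lit 0) (XT.nd (nat_lit 312) (nat_lit 532) (nat_lit 0) (XT.nd (nat_lit 156) (nat_lit 228) (nat_lit 0) (XT.nd (nat_lit 78) (nat_lit 152) (nat_lit 0) (XT.lf (nat_lit 0) (nat_lit 17910862918) (nat_lit 228) (nat_lit 12898228462) (nat_lit 76) (nat_lit 4365050567) (nat_lit 119) (nat_lit 5) (nat_lit 122) (nat_lit 5) (nat_lit 120) (nat_lit 5) (nat_lit 509) (nat_lit 421) (nat_lit 270)) (XT.lf (nat_lit 0) (nat_lit 9527716334) (nat_lit 152) (nat_lit 18938756442) (nat_lit 228) (nat_lit 7388351576) (nat_lit 117) (nat_lit 5) (nat_lit 119)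 (nat_lit 5) (nat_lit 120) (nat_lit 5) (nat_lit 510) (nat_lit 421) (nat_lit 269))) (XT.nd (nat_lit 78) (nat_lit 152) (nat_lit 0) (XT.lf (nat_lit 0) (nat_lit 2851788247) (nat_lit 228) (nat_lit 3704277474) (nat_lit 76) (nat_lit 29995361074) (nat_lit 116) (nat_lit 5) (nat_lit 119) (nat_lit 5) (nat_lit 117) (nat_lit 5) (nat_lit 511) (nat_lit 421) (nat_lit 268)) (XT.lf (nat_lit 0) (nat_lit 13496009559) (nat_lit 228) (nat_lit 17425627433) (nat_lit 76) (nat_lit 6337734578) (nat_lit 114) (nat_lit 5) (nat_lit 117) (nat_lit 5) (nat_lit 115) (nat_lit 5) (nat_lit 512) (nat_lit 421) (nat_lit 267)))) (XT.nd (nat_lit 156) (nat_lit 380) (nat_lit 0) (XT.nd (nat_lit 78) (nat_lit 0) (nat_lit 0) (XT.lf (nat_lit 0) (nat_lit 6207607167) (nat_lit 152) (nat_lit 18406313188) (nat_lit 228) (nat_lit 13370003537) (nat_lit 112) (nat_lit 5) (nat_lit 114) (nat_lit 5) (nat_lit 115) (nat_lit 5) (nat_lit 513) (nat_lit 421) (nat_lit 266)) (XT.lf (nat_lit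 0) (nat_lit 30892539071) (nat_lit 152) (nat_lit 5340891206) (nat_lit 228) (nat_lit 2491740739) (nat_lit 112) (nat_lit 5) (nat_lit 114) (nat_lit 5) (nat_lit 115) (nat_lit 5) (nat_lit 514) (nat_lit 421) (nat_lit 265))) (XT.nd (nat_lit 78) (nat_lit 152) (nat_lit 0) (XT.lf (nat_lit 0) (nat_lit 8779546408) (nat_lit 228) (nat_lit 22497508870) (nat_lit 76) (nat_lit 8201986876) (nat_lit 109) (nat_lit 5) (nat_lit 112) (nat_lit 5) (nat_lit 110) (nat_lit 5) (nat_lit 515) (nat_lit 421) (nat_lit 264)) (XT.lf (nat_lit 0) (nat_lit 2401793815) (nat_lit 152) (nat_lit 18085221286) (nat_lit 228) (nat_lit 19763330551) (nat_lit 107) (nat_lit 5) (nat_lit 109) (nat_lit 5) (nat_lit 110) (nat_lit 5) (nat_lit 516) (nat_lit 421) (nat_lit 263))))) (XT.nd (nat_lit 312) (nat_lit 380) (nat_lit 0) (XT.nd (nat_lit 156) (nat_lit 152) (nat_lit 0) (XT.nd (nat_lit 78) (nat_lit 152) (nat_lit 0) (XT.lf (nat_lit 0) (nat_lit 28495124282) (nat_lit 152)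 (nat_lit 4270132856) (nat_lit 228) (nat_lit 8272944715) (nat_lit 107) (nat_lit 5) (nat_lit 109) (nat_lit 5) (nat_lit 110) (nat_lit 5) (nat_lit 517) (nat_lit 421) (nat_lit 262)) (XT.lf (nat_lit 0) (nat_lit 3714573788) (nat_lit 152) (nat_lit 28200647895) (nat_lit 76) (nat_lit 9926786938) (nat_lit 105) (nat_lit 5) (nat_lit 107) (nat_lit 5) (nat_lit 106) (nat_lit 5) (nat_lit 518) (nat_lit 421) (nat_lit 261))) (XT.nd (nat_lit 78) (nat_lit 152) (nat_lit 0) (XT.lf (nat_lit 0) (nat_lit 16058175429) (nat_lit 152) (nat_lit 1937010580) (nat_lit 76) (nat_lit 24667404276) (nat_lit 105) (nat_lit 5) (nat_lit 107) (nat_lit 5) (nat_lit 106) (nat_lit 5) (nat_lit 519) (nat_lit 421) (nat_lit 260)) (XT.lf (nat_lit 0) (nat_lit 25600609725) (nat_lit 152) (nat_lit 3410323807) (nat_lit 228) (nat_lit 14489690481) (nat_lit 103) (nat_lit 5) (nat_lit 105) (nat_lit 5) (nat_lit 106) (nat_lit 5) (nat_lit 520) (nat_lit 421) (nat_lit 259)))) (XT.nd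 (nat_lit 156) (nat_lit 228) (nat_lit 0) (XT.nd (nat_lit 78) (nat_lit 76) (nat_lit 0) (XT.lf (nat_lit 0) (nat_lit 9704905795) (nat_lit 76) (nat_lit 32864816851) (nat_lit 152) (nat_lit 1787552727) (nat_lit 102) (nat_lit 5) (nat_lit 103) (nat_lit 5) (nat_lit 104) (nat_lit 4) (nat_lit 521) (nat_lit 421) (nat_lit 258)) (XT.lf (nat_lit 0) (nat_lit 11284334201) (nat_lit 152) (nat_lit 6886953618) (nat_lit 76) (nat_lit 27058807983) (nat_lit 101) (nat_lit 5) (nat_lit 103) (nat_lit 5) (nat_lit 102) (nat_lit 5) (nat_lit 522) (nat_lit 421) (nat_lit 257))) (XT.nd (nat_lit 78) (nat_lit 76) (nat_lit 0) (XT.lf (nat_lit 0) (nat_lit 22112086225) (nat_lit 152) (nat_lit 2805921828) (nat_lit 228) (nat_lit 21204395143) (nat_lit 99) (nat_lit 5) (nat_lit 101) (nat_lit 5) (nat_lit 102) (nat_lit 5) (nat_lit 523) (nat_lit 421) (nat_lit 256)) (XT.lf (nat_lit 0) (nat_lit 5042276959) (nat_lit 76) (nat_lit 34155301853) (nat_lit 152) (nat_lit 7836794460)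 (nat_lit 98) (nat_lit 5) (nat_lit 99) (nat_lit 5) (nat_lit 100) (nat_lit 4) (nat_lit 524) (nat_lit 421) (nat_lit 255)))))) (XT.nd (nat_lit 624) (nat_lit 684) (nat_lit 0) (XT.nd (nat_lit 312) (nat_lit 456) (nat_lit 0) (XT.nd (nat_lit 156) (nat_lit 152) (nat_lit 0) (XT.nd (nat_lit 78) (nat_lit 152) (nat_lit 0) (XT.lf (nat_lit 0) (nat_lit 6081755431) (nat_lit 152) (nat_lit 12608151222) (nat_lit 76) (nat_lit 29274115060) (nat_lit 97) (nat_lit 5) (nat_lit 99) (nat_lit 5) (nat_lit 98) (nat_lit 5) (nat_lit 525) (nat_lit 421) (nat_lit 254)) (XT.lf (nat_lit 0) (nat_lit 17916563322) (nat_lit 152) (nat_lit 2509248108) (nat_lit 228) (nat_lit 28488456629) (nat_lit 95) (nat_lit 5) (nat_lit 97) (nat_lit 5) (nat_lit 98) (nat_lit 5) (nat_lit 526) (nat_lit 421) (nat_lit 253))) (XT.nd (nat_lit 78) (nat_lit 152) (nat_lit 0) (XT.lf (nat_lit 0) (nat_lit 35458105972) (nat_lit 228) (nat_lit 423864637) (nat_lit 76) (nat_lit 14003313733)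 (nat_lit 95) (nat_lit 5) (nat_lit 98) (nat_lit 5) (nat_lit 96) (nat_lit 4) (nat_lit 527) (nat_lit 421) (nat_lit 252)) (XT.lf (nat_lit 0) (nat_lit 380549855) (nat_lit 152) (nat_lit 19232002876) (nat_lit 76) (nat_lit 31263091205) (nat_lit 93) (nat_lit 5) (nat_lit 95) (nat_lit 5) (nat_lit 94) (nat_lit 5) (nat_lit 528) (nat_lit 421) (nat_lit 251)))) (XT.nd (nat_lit 156) (nat_lit 304) (nat_lit 0) (XT.nd (nat_lit 78) (nat_lit 0) (nat_lit 0) (XT.lf (nat_lit 0) (nat_lit 12882342380) (nat_lit 152) (nat_lit 2581810490) (nat_lit 228) (nat_lit 36423627748) (nat_lit 91) (nat_lit 5) (nat_lit 93) (nat_lit 5) (nat_lit 94) (nat_lit 5) (nat_lit 529) (nat_lit 421) (nat_lit 250)) (XT.lf (nat_lit 0) (nat_lit 31333671097) (nat_lit 228) (nat_lit 6728269895) (nat_lit 76) (nat_lit 14858338241) (nat_lit 91) (nat_lit 5) (nat_lit 94) (nat_lit 5) (nat_lit 92) (nat_lit 4) (nat_lit 530) (nat_lit 421) (nat_lit 249))) (XT.nd (nat_lit 78) (nat_lit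 228) (nat_lit 0) (XT.lf (nat_lit 0) (nat_lit 27006565051) (nat_lit 76) (nat_lit 20951541464) (nat_lit 152) (nat_lit 6017281388) (nat_lit 90) (nat_lit 5) (nat_lit 91) (nat_lit 5) (nat_lit 92) (nat_lit 4) (nat_lit 531) (nat_lit 421) (nat_lit 248)) (XT.lf (nat_lit 0) (nat_lit 6855969580) (nat_lit 152) (nat_lit 3095838138) (nat_lit 228) (nat_lit 45103607106) (nat_lit 87) (nat_lit 5) (nat_lit 89) (nat_lit 5) (nat_lit 90) (nat_lit 5) (nat_lit 532) (nat_lit 421) (nat_lit 247))))) (XT.nd (nat_lit 312) (nat_lit 380) (nat_lit 0) (XT.nd (nat_lit 156) (nat_lit 228) (nat_lit 0) (XT.nd (nat_lit 78) (nat_lit 76) (nat_lit 0) (XT.lf (nat_lit 0) (nat_lit 26694774017) (nat_lit 228) (nat_lit 14132739014) (nat_lit 76) (nat_lit 15326069873) (nat_lit 87) (nat_lit 5) (nat_lit 90) (nat_lit 5) (nat_lit 88) (nat_lit 4) (nat_lit 533) (nat_lit 421) (nat_lit 246)) (XT.lf (nat_lit 0) (nat_lit 21329786839) (nat_lit 76) (nat_lit 22839800430) (nat_lit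 152) (nat_lit 13108222060) (nat_lit 86) (nat_lit 5) (nat_lit 87) (nat_lit 5) (nat_lit 88) (nat_lit 4) (nat_lit 534) (nat_lit 421) (nat_lit 245))) (XT.nd (nat_lit 78) (nat_lit 152) (nat_lit 0) (XT.lf (nat_lit 0) (nat_lit 3798044088) (nat_lit 152) (nat_lit 334638494) (nat_lit 76) (nat_lit 54297863409) (nat_lit 85) (nat_lit 5) (nat_lit 87) (nat_lit 5) (nat_lit 86) (nat_lit 5) (nat_lit 535) (nat_lit 421) (nat_lit 244)) (XT.lf (nat_lit 0) (nat_lit 21447292249) (nat_lit 228) (nat_lit 22827223652) (nat_lit 76) (nat_lit 15324477669) (nat_lit 83) (nat_lit 5) (nat_lit 86) (nat_lit 5) (nat_lit 84) (nat_lit 4) (nat_lit 536) (nat_lit 421) (nat_lit 243)))) (XT.nd (nat_lit 156) (nat_lit 304) (nat_lit 0) (XT.nd (nat_lit 78) (nat_lit 0) (nat_lit 0) (XT.lf (nat_lit 0) (nat_lit 14424941323) (nat_lit 76) (nat_lit 25378136593) (nat_lit 152) (nat_lit 20994104894) (nat_lit 82) (nat_lit 5) (nat_lit 83) (nat_lit 5) (nat_lit 84) (nat_lit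 4) (nat_lit 537) (nat_lit 421) (nat_lit 242)) (XT.lf (nat_lit 0) (nat_lit 53251291709) (nat_lit 76) (nat_lit 5682888042) (nat_lit 152) (nat_lit 3090398734) (nat_lit 82) (nat_lit 5) (nat_lit 83) (nat_lit 5) (nat_lit 84) (nat_lit 4) (nat_lit 538) (nat_lit 421) (nat_lit 241))) (XT.nd (nat_lit 78) (nat_lit 76) (nat_lit 0) (XT.lf (nat_lit 0) (nat_lit 15481907938) (nat_lit 228) (nat_lit 33032498229) (nat_lit 76) (nat_lit 14757032226) (nat_lit 79) (nat_lit 5) (nat_lit 82) (nat_lit 5) (nat_lit 80) (nat_lit 4) (nat_lit 539) (nat_lit 421) (nat_lit 240)) (XT.lf (nat_lit 0) (nat_lit 6067885089) (nat_lit 76) (nat_lit 28679707187) (nat_lit 152) (nat_lit 29801244245) (nat_lit 78) (nat_lit 5) (nat_lit 79) (nat_lit 5) (nat_lit 80) (nat_lit 4) (nat_lit 540) (nat_lit 421) (nat_lit 239))))))))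
noncomputable def xc144 : XT := (XT.nd (nat_lit 54756) (nat_lit 0) (nat_lit 9880) (XT.nd (nat_lit 53508) (nat_lit 0) (nat_lit 19000) (XT.nd (nat_lit 546) (nat_lit 228) (nat_lit 0) (XT.nd (nat_lit 234) (nat_lit 304) (nat_lit 0) (XT.nd (nat_lit 78) (nat_lit 152) (nat_lit 0) (XT.lf (nat_lit 0) (nat_lit 47007411470) (nat_lit 76) (nat_lit 7911718449) (nat_lit 152) (nat_lit 10935590219) (nat_lit 78) (nat_lit 5) (nat_lit 79) (nat_lit 5) (nat_lit 80) (nat_lit 4) (nat_lit 541) (nat_lit 421) (nat_lit 238)) (XT.nd (nat_lit 78) (nat_lit 0) (nat_lit 0) (XT.lf (nat_lit 0) (nat_lit 8671667313) (nat_lit 152) (nat_lit 45005121225) (nat_lit 76) (nat_lit 13510299020) (nat_lit 76) (nat_lit 5) (nat_lit 78) (nat_lit 5) (nat_lit 77) (nat_lit 4) (nat_lit 542) (nat_lit 421) (nat_lit 237)) (XT.lf (nat_lit 0) (nat_lit 28912326984) (nat_lit 152) (nat_lit 3924539281) (nat_lit 76) (nat_lit 35711362201) (nat_lit 76) (nat_lit 5) (nat_lit 78) (nat_lit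 5) (nat_lit 77) (nat_lit 4) (nat_lit 543) (nat_lit 421) (nat_lit 236)))) (XT.nd (nat_lit 156) (nat_lit 76) (nat_lit 0) (XT.nd (nat_lit 78) (nat_lit 152) (nat_lit 0) (XT.lf (nat_lit 0) (nat_lit 39141769192) (nat_lit 76) (nat_lit 10989293704) (nat_lit 152) (nat_lit 19808015040) (nat_lit 75) (nat_lit 5) (nat_lit 76) (nat_lit 5) (nat_lit 77) (nat_lit 4) (nat_lit 544) (nat_lit 421) (nat_lit 235)) (XT.lf (nat_lit 0) (nat_lit 869149546) (nat_lit 152) (nat_lit 59043188460) (nat_lit 76) (nat_lit 11451144538) (nat_lit 73) (nat_lit 5) (nat_lit 75) (nat_lit 5) (nat_lit 74) (nat_lit 4) (nat_lit 545) (nat_lit 421) (nat_lit 234))) (XT.nd (nat_lit 78) (nat_lit 76) (nat_lit 0) (XT.lf (nat_lit 0) (nat_lit 22185999003) (nat_lit 152) (nat_lit 15777053922) (nat_lit 76) (nat_lit 34849158080) (nat_lit 73) (nat_lit 5) (nat_lit 75) (nat_lit 5) (nat_lit 74) (nat_lit 4) (nat_lit 546) (nat_lit 421) (nat_lit 233)) (XT.lf (nat_lit 0) (nat_lit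 29349585579) (nat_lit 76) (nat_lit 15069666351) (nat_lit 152) (nat_lit 29876842475) (nat_lit 72) (nat_lit 5) (nat_lit 73) (nat_lit 5) (nat_lit 74) (nat_lit 4) (nat_lit 547) (nat_lit 421) (nat_lit 232))))) (XT.nd (nat_lit 52650) (nat_lit 0) (nat_lit 23180) (XT.nd (nat_lit 156) (nat_lit 76) (nat_lit 0) (XT.nd (nat_lit 78) (nat_lit 76) (nat_lit 0) (XT.lf (nat_lit 0) (nat_lit 244913884) (nat_lit 76) (nat_lit 67314425609) (nat_lit 76) (nat_lit 8257959725) (nat_lit 71) (nat_lit 4) (nat_lit 72) (nat_lit 5) (nat_lit 72) (nat_lit 4) (nat_lit 548) (nat_lit 421) (nat_lit 231)) (XT.lf (nat_lit 0) (nat_lit 14338467410) (nat_lit 152) (nat_lit 29955658518) (nat_lit 76) (nat_lit 33067903632) (nat_lit 70) (nat_lit 5) (nat_lit 72) (nat_lit 5) (nat_lit 71) (nat_lit 4) (nat_lit 549) (nat_lit 421) (nat_lit 230))) (XT.nd (nat_lit 78) (nat_lit 0) (nat_lit 0) (XT.lf (nat_lit 0) (nat_lit 17274995852) (nat_lit 76) (nat_lit 20332807958) (nat_lit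 152) (nat_lit 41338015366) (nat_lit 69) (nat_lit 5) (nat_lit 70) (nat_lit 5) (nat_lit 71) (nat_lit 4) (nat_lit 550) (nat_lit 421) (nat_lit 229)) (XT.lf (nat_lit 0) (nat_lit 61917440560) (nat_lit 152) (nat_lit 14086117281) (nat_lit 0) (nat_lit 4563298054) (nat_lit 69) (nat_lit 5) (nat_lit 71) (nat_lit 4) (nat_lit 69) (nat_lit 4) (nat_lit 551) (nat_lit 421) (nat_lit 228)))) (XT.nd (nat_lit 156) (nat_lit 0) (nat_lit 0) (XT.nd (nat_lit 78) (nat_lit 0) (nat_lit 0) (XT.lf (nat_lit 0) (nat_lit 1272397790) (nat_lit 0) (nat_lit 1272397790) (nat_lit 988) (nat_lit 1704204537) (nat_lit 374) (nat_lit 5) (nat_lit 374) (nat_lit 3) (nat_lit 387) (nat_lit 3) (nat_lit 422) (nat_lit 422) (nat_lit 356)) (XT.lf (nat_lit 0) (nat_lit 6207606196) (nat_lit 988) (nat_lit 1716288886) (nat_lit 1064) (nat_lit 670270714) (nat_lit 374) (nat_lit 5) (nat_lit 387) (nat_lit 3) (nat_lit 388) (nat_lit 5) (nat_lit 423) (nat_lit 422) (nat_lit 355)))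 (XT.nd (nat_lit 78) (nat_lit 0) (nat_lit 0) (XT.lf (nat_lit 76) (nat_lit 2652695281) (nat_lit 0) (nat_lit 4716958832) (nat_lit 1064) (nat_lit 1323249557) (nat_lit 375) (nat_lit 5) (nat_lit 374) (nat_lit 5) (nat_lit 388) (nat_lit 5) (nat_lit 424) (nat_lit 422) (nat_lit 354)) (XT.lf (nat_lit 76) (nat_lit 7166536325) (nat_lit 0) (nat_lit 1378120699) (nat_lit 1064) (nat_lit 250605908) (nat_lit 375) (nat_lit 5) (nat_lit 374) (nat_lit 5) (nat_lit 388) (nat_lit 5) (nat_lit 425) (nat_lit 422) (nat_lit 353)))))) (XT.nd (nat_lit 624) (nat_lit 3192) (nat_lit 0) (XT.nd (nat_lit 312) (nat_lit 0) (nat_lit 76) (XT.nd (nat_lit 156) (nat_lit 0) (nat_lit 76) (XT.nd (nat_lit 78) (nat_lit 0) (nat_lit 0) (XT.lf (nat_lit 0) (nat_lit 847696672) (nat_lit 1064) (nat_lit 5978315690) (nat_lit 1140) (nat_lit 2074131756) (nat_lit 361) (nat_lit 5) (nat_lit 375) (nat_lit 5) (nat_lit 376) (nat_lit 5) (nat_lit 426) (nat_lit 422) (nat_lit 352))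 (XT.lf (nat_lit 0) (nat_lit 1966763648) (nat_lit 1064) (nat_lit 1404292622) (nat_lit 1140) (nat_lit 5637257348) (nat_lit 361) (nat_lit 5) (nat_lit 375) (nat_lit 5) (nat_lit 376) (nat_lit 5) (nat_lit 427) (nat_lit 422) (nat_lit 351))) (XT.nd (nat_lit 78) (nat_lit 0) (nat_lit 0) (XT.lf (nat_lit 0) (nat_lit 3117555303) (nat_lit 1064) (nat_lit 5771738185) (nat_lit 1140) (nat_lit 230491965) (nat_lit 362) (nat_lit 5) (nat_lit 376) (nat_lit 5) (nat_lit 377) (nat_lit 5) (nat_lit 428) (nat_lit 422) (nat_lit 350)) (XT.lf (nat_lit 0) (nat_lit 4315236222) (nat_lit 1064) (nat_lit 1018885871) (nat_lit 1140) (nat_lit 3900110159) (nat_lit 362) (nat_lit 5) (nat_lit 376) (nat_lit 5) (nat_lit 377) (nat_lit 5) (nat_lit 429) (nat_lit 422) (nat_lit 349)))) (XT.nd (nat_lit 156) (nat_lit 0) (nat_lit 76) (XT.nd (nat_lit 78) (nat_lit 0) (nat_lit 76) (XT.lf (nat_lit 76) (nat_lit 3930991237) (nat_lit 0) (nat_lit 1621340235) (nat_lit 1140)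 (nat_lit 3799678188) (nat_lit 363) (nat_lit 5) (nat_lit 362) (nat_lit 5) (nat_lit 377) (nat_lit 5) (nat_lit 430) (nat_lit 422) (nat_lit 348)) (XT.lf (nat_lit 0) (nat_lit 6824699291) (nat_lit 1064) (nat_lit 467205303) (nat_lit 1140) (nat_lit 2181472679) (nat_lit 363) (nat_lit 5) (nat_lit 377) (nat_lit 5) (nat_lit 378) (nat_lit 5) (nat_lit 431) (nat_lit 422) (nat_lit 347))) (XT.nd (nat_lit 78) (nat_lit 0) (nat_lit 76) (XT.lf (nat_lit 76) (nat_lit 4688159375) (nat_lit 0) (nat_lit 3475764272) (nat_lit 1140) (nat_lit 1433603327) (nat_lit 364) (nat_lit 5) (nat_lit 363) (nat_lit 5) (nat_lit 378) (nat_lit 5) (nat_lit 432) (nat_lit 422) (nat_lit 346)) (XT.lf (nat_lit 76) (nat_lit 259838276) (nat_lit 0) (nat_lit 9263509516) (nat_lit 1140) (nat_lit 202654259) (nat_lit 365) (nat_lit 5) (nat_lit 364) (nat_lit 5) (nat_lit 379) (nat_lit 5) (nat_lit 433) (nat_lit 422) (nat_lit 345))))) (XT.nd (nat_lit 312) (nat_lit 2280) (nat_lit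 0) (XT.nd (nat_lit 156) (nat_lit 0) (nat_lit 76) (XT.nd (nat_lit 78) (nat_lit 0) (nat_lit 0) (XT.lf (nat_lit 0) (nat_lit 1097695876) (nat_lit 1140) (nat_lit 4240940368) (nat_lit 1216) (nat_lit 4517791667) (nat_lit 349) (nat_lit 5) (nat_lit 364) (nat_lit 5) (nat_lit 365) (nat_lit 5) (nat_lit 434) (nat_lit 422) (nat_lit 344)) (XT.lf (nat_lit 76) (nat_lit 1138224847) (nat_lit 0) (nat_lit 1275388766) (nat_lit 1216) (nat_lit 7577675276) (nat_lit 350) (nat_lit 5) (nat_lit 349) (nat_lit 5) (nat_lit 365) (nat_lit 5) (nat_lit 435) (nat_lit 422) (nat_lit 343))) (XT.nd (nat_lit 78) (nat_lit 0) (nat_lit 0) (XT.lf (nat_lit 0) (nat_lit 3810646989) (nat_lit 1140) (nat_lit 3415355476) (nat_lit 1216) (nat_lit 2902945488) (nat_lit 350) (nat_lit 5) (nat_lit 365) (nat_lit 5) (nat_lit 366) (nat_lit 5) (nat_lit 436) (nat_lit 422) (nat_lit 342)) (XT.lf (nat_lit 76) (nat_lit 2192583384) (nat_lit 0) (nat_lit 3061992199) (nat_lit 1216) (nat_lit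 5016013041) (nat_lit 351) (nat_lit 5) (nat_lit 350) (nat_lit 5) (nat_lit 366) (nat_lit 5) (nat_lit 437) (nat_lit 422) (nat_lit 341)))) (XT.nd (nat_lit 156) (nat_lit 1292) (nat_lit 0) (XT.nd (nat_lit 78) (nat_lit 1140) (nat_lit 0) (XT.lf (nat_lit 0) (nat_lit 6760393815) (nat_lit 1140) (nat_lit 2412535119) (nat_lit 76) (nat_lit 1242993748) (nat_lit 351) (nat_lit 5) (nat_lit 366) (nat_lit 5) (nat_lit 352) (nat_lit 5) (nat_lit 438) (nat_lit 422) (nat_lit 340)) (XT.lf (nat_lit 0) (nat_lit 3436606462) (nat_lit 1140) (nat_lit 4910896537) (nat_lit 1216) (nat_lit 2217031554) (nat_lit 336) (nat_lit 5) (nat_lit 351) (nat_lit 5) (nat_lit 352) (nat_lit 5) (nat_lit 439) (nat_lit 422) (nat_lit 339))) (XT.nd (nat_lit 78) (nat_lit 1292) (nat_lit 0) (XT.lf (nat_lit 0) (nat_lit 9487866284) (nat_lit 1140) (nat_lit 492059923) (nat_lit 1216) (nat_lit 737748794) (nat_lit 336) (nat_lit 5) (nat_lit 351) (nat_lit 5) (nat_lit 352) (nat_lit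 5) (nat_lit 440) (nat_lit 422) (nat_lit 338)) (XT.lf (nat_lit 0) (nat_lit 831237064) (nat_lit 1292) (nat_lit 6003288272) (nat_lit 76) (nat_lit 4038839044) (nat_lit 319) (nat_lit 5) (nat_lit 336) (nat_lit 5) (nat_lit 320) (nat_lit 5) (nat_lit 441) (nat_lit 422) (nat_lit 337))))))) (XT.nd (nat_lit 1170) (nat_lit 3800) (nat_lit 0) (XT.nd (nat_lit 546) (nat_lit 2660) (nat_lit 0) (XT.nd (nat_lit 234) (nat_lit 1216) (nat_lit 0) (XT.nd (nat_lit 78) (nat_lit 608) (nat_lit 0) (XT.lf (nat_lit 0) (nat_lit 111446143) (nat_lit 836) (nat_lit 2313937010) (nat_lit 912) (nat_lit 8608335731) (nat_lit 308) (nat_lit 5) (nat_lit 319) (nat_lit 5) (nat_lit 320) (nat_lit 5) (nat_lit 442) (nat_lit 422) (nat_lit 336)) (XT.nd (nat_lit 78) (nat_lit 608) (nat_lit 0) (XT.lf (nat_lit 0) (nat_lit 4126067358) (nat_lit 912) (nat_lit 4711285536) (nat_lit 76) (nat_lit 2359770824) (nat_lit 308) (nat_lit 5) (nat_lit 320) (nat_lit 5) (nat_lit 309) (nat_lit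 5) (nat_lit 443) (nat_lit 422) (nat_lit 335)) (XT.lf (nat_lit 0) (nat_lit 1672664873) (nat_lit 608) (nat_lit 4219801751) (nat_lit 684) (nat_lit 5472524311) (nat_lit 300) (nat_lit 5) (nat_lit 308) (nat_lit 5) (nat_lit 309) (nat_lit 5) (nat_lit 444) (nat_lit 422) (nat_lit 334)))) (XT.nd (nat_lit 156) (nat_lit 608) (nat_lit 0) (XT.nd (nat_lit 78) (nat_lit 608) (nat_lit 0) (XT.lf (nat_lit 0) (nat_lit 7741261032) (nat_lit 684) (nat_lit 3220976127) (nat_lit 76) (nat_lit 574775957) (nat_lit 300) (nat_lit 5) (nat_lit 309) (nat_lit 5) (nat_lit 301) (nat_lit 5) (nat_lit 445) (nat_lit 422) (nat_lit 333)) (XT.lf (nat_lit 0) (nat_lit 3447092799) (nat_lit 608) (nat_lit 6250237755) (nat_lit 684) (nat_lit 2015312083) (nat_lit 292) (nat_lit 5) (nat_lit 300) (nat_lit 5) (nat_lit 301) (nat_lit 5) (nat_lit 446) (nat_lit 422) (nat_lit 332))) (XT.nd (nat_lit 78) (nat_lit 608) (nat_lit 0) (XT.lf (nat_lit 0) (nat_lit 10358548735) (nat_lit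 608) (nat_lit 1363409388) (nat_lit 684) (nat_lit 171287624) (nat_lit 292) (nat_lit 5) (nat_lit 300) (nat_lit 5) (nat_lit 301) (nat_lit 5) (nat_lit 447) (nat_lit 422) (nat_lit 331)) (XT.lf (nat_lit 0) (nat_lit 1760628386) (nat_lit 608) (nat_lit 6648159553) (nat_lit 76) (nat_lit 3667992861) (nat_lit 284) (nat_lit 5) (nat_lit 292) (nat_lit 5) (nat_lit 285) (nat_lit 5) (nat_lit 448) (nat_lit 422) (nat_lit 330))))) (XT.nd (nat_lit 312) (nat_lit 1520) (nat_lit 0) (XT.nd (nat_lit 156) (nat_lit 532) (nat_lit 0) (XT.nd (nat_lit 78) (nat_lit 0) (nat_lit 0) (XT.lf (nat_lit 0) (nat_lit 335241550) (nat_lit 608) (nat_lit 3422410117) (nat_lit 684) (nat_lit 8507802483) (nat_lit 276) (nat_lit 5) (nat_lit 284) (nat_lit 5) (nat_lit 285) (nat_lit 5) (nat_lit 449) (nat_lit 422) (nat_lit 329)) (XT.lf (nat_lit 0) (nat_lit 5877479379) (nat_lit 684) (nat_lit 4833783127) (nat_lit 76) (nat_lit 1746639256) (nat_lit 276) (nat_lit 5) (nat_lit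 285) (nat_lit 5) (nat_lit 277) (nat_lit 5) (nat_lit 450) (nat_lit 422) (nat_lit 328))) (XT.nd (nat_lit 78) (nat_lit 0) (nat_lit 0) (XT.lf (nat_lit 0) (nat_lit 2467177696) (nat_lit 532) (nat_lit 5630571992) (nat_lit 608) (nat_lit 4557268530) (nat_lit 269) (nat_lit 5) (nat_lit 276) (nat_lit 5) (nat_lit 277) (nat_lit 5) (nat_lit 451) (nat_lit 422) (nat_lit 327)) (XT.lf (nat_lit 0) (nat_lit 10063857115) (nat_lit 532) (nat_lit 349218385) (nat_lit 608) (nat_lit 2444120067) (nat_lit 269) (nat_lit 5) (nat_lit 276) (nat_lit 5) (nat_lit 277) (nat_lit 5) (nat_lit 452) (nat_lit 422) (nat_lit 326)))) (XT.nd (nat_lit 156) (nat_lit 912) (nat_lit 0) (XT.nd (nat_lit 78) (nat_lit 76) (nat_lit 0) (XT.lf (nat_lit 0) (nat_lit 4846313348) (nat_lit 532) (nat_lit 8027277017) (nat_lit 608) (nat_lit 189576794) (nat_lit 262) (nat_lit 5) (nat_lit 269) (nat_lit 5) (nat_lit 270) (nat_lit 5) (nat_lit 453) (nat_lit 422) (nat_lit 325)) (XT.lf (nat_lit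 0) (nat_lit 2103312820) (nat_lit 608) (nat_lit 548786065) (nat_lit 76) (nat_lit 10622235026) (nat_lit 261) (nat_lit 5) (nat_lit 269) (nat_lit 5) (nat_lit 262) (nat_lit 5) (nat_lit 454) (nat_lit 422) (nat_lit 324))) (XT.nd (nat_lit 78) (nat_lit 456) (nat_lit 0) (XT.lf (nat_lit 0) (nat_lit 4542379466) (nat_lit 532) (nat_lit 6047222958) (nat_lit 76) (nat_lit 2899741644) (nat_lit 255) (nat_lit 5) (nat_lit 262) (nat_lit 5) (nat_lit 256) (nat_lit 5) (nat_lit 455) (nat_lit 422) (nat_lit 323)) (XT.lf (nat_lit 0) (nat_lit 1963205306) (nat_lit 456) (nat_lit 5123410220) (nat_lit 532) (nat_lit 6623229790) (nat_lit 249) (nat_lit 5) (nat_lit 255) (nat_lit 5) (nat_lit 256) (nat_lit 5) (nat_lit 456) (nat_lit 422) (nat_lit 322)))))) (XT.nd (nat_lit 624) (nat_lit 1900) (nat_lit 0) (XT.nd (nat_lit 312) (nat_lit 912) (nat_lit 0) (XT.nd (nat_lit 156) (nat_lit 532) (nat_lit 0) (XT.nd (nat_lit 78) (nat_lit 456) (nat_lit 0) (XT.lf (nat_lit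 0) (nat_lit 9755291199) (nat_lit 532) (nat_lit 3625155691) (nat_lit 76) (nat_lit 555072026) (nat_lit 249) (nat_lit 5) (nat_lit 256) (nat_lit 5) (nat_lit 250) (nat_lit 5) (nat_lit 457) (nat_lit 422) (nat_lit 321)) (XT.lf (nat_lit 0) (nat_lit 4760333068) (nat_lit 456) (nat_lit 7822288363) (nat_lit 532) (nat_lit 1582984132) (nat_lit 243) (nat_lit 5) (nat_lit 249) (nat_lit 5) (nat_lit 250) (nat_lit 5) (nat_lit 458) (nat_lit 422) (nat_lit 320))) (XT.nd (nat_lit 78) (nat_lit 456) (nat_lit 0) (XT.lf (nat_lit 0) (nat_lit 1090080986) (nat_lit 532) (nat_lit 962603768) (nat_lit 76) (nat_lit 12349019231) (nat_lit 242) (nat_lit 5) (nat_lit 249) (nat_lit 5) (nat_lit 243) (nat_lit 5) (nat_lit 459) (nat_lit 422) (nat_lit 319)) (XT.lf (nat_lit 0) (nat_lit 3907996673) (nat_lit 532) (nat_lit 6831386298) (nat_lit 76) (nat_lit 3902138558) (nat_lit 236) (nat_lit 5) (nat_lit 243) (nat_lit 5) (nat_lit 237) (nat_lit 5) (nat_lit 460) (nat_lit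 422) (nat_lit 318)))) (XT.nd (nat_lit 156) (nat_lit 532) (nat_lit 0) (XT.nd (nat_lit 78) (nat_lit 0) (nat_lit 0) (XT.lf (nat_lit 0) (nat_lit 1974083128) (nat_lit 380) (nat_lit 4868506485) (nat_lit 456) (nat_lit 8044980385) (nat_lit 231) (nat_lit 5) (nat_lit 236) (nat_lit 5) (nat_lit 237) (nat_lit 5) (nat_lit 461) (nat_lit 422) (nat_lit 317)) (XT.lf (nat_lit 0) (nat_lit 9929483148) (nat_lit 456) (nat_lit 3988998744) (nat_lit 76) (nat_lit 1220590725) (nat_lit 231) (nat_lit 5) (nat_lit 237) (nat_lit 5) (nat_lit 232) (nat_lit 5) (nat_lit 462) (nat_lit 422) (nat_lit 316))) (XT.nd (nat_lit 78) (nat_lit 76) (nat_lit 0) (XT.lf (nat_lit 0) (nat_lit 5236019588) (nat_lit 456) (nat_lit 7955253868) (nat_lit 532) (nat_lit 2204378718) (nat_lit 225) (nat_lit 5) (nat_lit 231) (nat_lit 5) (nat_lit 232) (nat_lit 5) (nat_lit 463) (nat_lit 422) (nat_lit 315)) (XT.lf (nat_lit 0) (nat_lit 898149877) (nat_lit 532) (nat_lit 869414192) (nat_lit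 76) (nat_lit 13891372199) (nat_lit 224) (nat_lit 5) (nat_lit 231) (nat_lit 5) (nat_lit 225) (nat_lit 5) (nat_lit 464) (nat_lit 422) (nat_lit 314))))) (XT.nd (nat_lit 312) (nat_lit 760) (nat_lit 0) (XT.nd (nat_lit 156) (nat_lit 380) (nat_lit 0) (XT.nd (nat_lit 78) (nat_lit 380) (nat_lit 0) (XT.lf (nat_lit 0) (nat_lit 4163940738) (nat_lit 456) (nat_lit 7143362057) (nat_lit 76) (nat_lit 4618727069) (nat_lit 219) (nat_lit 5) (nat_lit 225) (nat_lit 5) (nat_lit 220) (nat_lit 5) (nat_lit 465) (nat_lit 422) (nat_lit 313)) (XT.lf (nat_lit 0) (nat_lit 2552604271) (nat_lit 380) (nat_lit 5010553843) (nat_lit 456) (nat_lit 8636915068) (nat_lit 214) (nat_lit 5) (nat_lit 219) (nat_lit 5) (nat_lit 220) (nat_lit 5) (nat_lit 466) (nat_lit 422) (nat_lit 312))) (XT.nd (nat_lit 78) (nat_lit 380) (nat_lit 0) (XT.lf (nat_lit 0) (nat_lit 11136127021) (nat_lit 456) (nat_lit 3830265347) (nat_lit 76) (nat_lit 1513792667) (nat_lit 214) (nat_lit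 5) (nat_lit 220) (nat_lit 5) (nat_lit 215) (nat_lit 5) (nat_lit 467) (nat_lit 422) (nat_lit 311)) (XT.lf (nat_lit 0) (nat_lit 6334998138) (nat_lit 380) (nat_lit 8576983749) (nat_lit 456) (nat_lit 1853847917) (nat_lit 209) (nat_lit 5) (nat_lit 214) (nat_lit 5) (nat_lit 215) (nat_lit 5) (nat_lit 468) (nat_lit 422) (nat_lit 310)))) (XT.nd (nat_lit 156) (nat_lit 304) (nat_lit 0) (XT.nd (nat_lit 78) (nat_lit 380) (nat_lit 0) (XT.lf (nat_lit 0) (nat_lit 1731438452) (nat_lit 456) (nat_lit 212824592) (nat_lit 76) (nat_lit 15114548893) (nat_lit 208) (nat_lit 5) (nat_lit 214) (nat_lit 5) (nat_lit 209) (nat_lit 5) (nat_lit 469) (nat_lit 422) (nat_lit 309)) (XT.lf (nat_lit 0) (nat_lit 5521560099) (nat_lit 456) (nat_lit 6927676415) (nat_lit 76) (nat_lit 4906760688) (nat_lit 203) (nat_lit 5) (nat_lit 209) (nat_lit 5) (nat_lit 204) (nat_lit 5) (nat_lit 470) (nat_lit 422) (nat_lit 308))) (XT.nd (nat_lit 78) (nat_lit 0) (nat_lit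 0) (XT.lf (nat_lit 0) (nat_lit 3765097815) (nat_lit 304) (nat_lit 5703783893) (nat_lit 380) (nat_lit 8191911843) (nat_lit 199) (nat_lit 5) (nat_lit 203) (nat_lit 5) (nat_lit 204) (nat_lit 5) (nat_lit 471) (nat_lit 422) (nat_lit 307)) (XT.lf (nat_lit 0) (nat_lit 13603274839) (nat_lit 380) (nat_lit 3084913295) (nat_lit 76) (nat_lit 1284486505) (nat_lit 199) (nat_lit 5) (nat_lit 204) (nat_lit 5) (nat_lit 200) (nat_lit 5) (nat_lit 472) (nat_lit 422) (nat_lit 306))))))))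
noncomputable def xc145 : XT := (XT.nd (nat_lit 2418) (nat_lit 3268) (nat_lit 0) (XT.nd (nat_lit 1170) (nat_lit 2280) (nat_lit 0) (XT.nd (nat_lit 546) (nat_lit 1368) (nat_lit 0) (XT.nd (nat_lit 234) (nat_lit 988) (nat_lit 0) (XT.nd (nat_lit 78) (nat_lit 380) (nat_lit 0) (XT.lf (nat_lit 0) (nat_lit 8132716158) (nat_lit 304) (nat_lit 9850084708) (nat_lit 380) (nat_lit 307478654) (nat_lit 195) (nat_lit 5) (nat_lit 199) (nat_lit 5) (nat_lit 200) (nat_lit 5) (nat_lit 473) (nat_lit 422) (nat_lit 305)) (XT.nd (nat_lit 78) (nat_lit 0) (nat_lit 0) (XT.lf (nat_lit 0) (nat_lit 1097707303) (nat_lit 304) (nat_lit 2731490060) (nat_lit 380) (nat_lit 14786241579) (nat_lit 190) (nat_lit 5) (nat_lit 194) (nat_lit 5) (nat_lit 195) (nat_lit 5) (nat_lit 474) (nat_lit 422) (nat_lit 304)) (XT.lf (nat_lit 0) (nat_lit 8218274543) (nat_lit 380) (nat_lit 6116625289) (nat_lit 76) (nat_lit 4611327918) (nat_lit 190) (nat_lit 5) (nat_lit 195)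 (nat_lit 5) (nat_lit 191) (nat_lit 5) (nat_lit 475) (nat_lit 422) (nat_lit 303)))) (XT.nd (nat_lit 156) (nat_lit 684) (nat_lit 0) (XT.nd (nat_lit 78) (nat_lit 0) (nat_lit 0) (XT.lf (nat_lit 0) (nat_lit 5691184347) (nat_lit 304) (nat_lit 7116649042) (nat_lit 380) (nat_lit 6477042901) (nat_lit 186) (nat_lit 5) (nat_lit 190) (nat_lit 5) (nat_lit 191) (nat_lit 5) (nat_lit 476) (nat_lit 422) (nat_lit 302)) (XT.lf (nat_lit 0) (nat_lit 17587703789) (nat_lit 380) (nat_lit 1676360621) (nat_lit 76) (nat_lit 368041473) (nat_lit 186) (nat_lit 5) (nat_lit 191) (nat_lit 5) (nat_lit 187) (nat_lit 5) (nat_lit 477) (nat_lit 422) (nat_lit 301))) (XT.nd (nat_lit 78) (nat_lit 304) (nat_lit 0) (XT.lf (nat_lit 0) (nat_lit 2634668872) (nat_lit 380) (nat_lit 9292475663) (nat_lit 76) (nat_lit 8057001613) (nat_lit 181) (nat_lit 5) (nat_lit 186) (nat_lit 5) (nat_lit 182) (nat_lit 5) (nat_lit 478) (nat_lit 422) (nat_lit 300)) (XT.lf (nat_lit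 0) (nat_lit 3140778438) (nat_lit 304) (nat_lit 4307152586) (nat_lit 380) (nat_lit 12897162375) (nat_lit 177) (nat_lit 5) (nat_lit 181) (nat_lit 5) (nat_lit 182) (nat_lit 5) (nat_lit 479) (nat_lit 422) (nat_lit 299))))) (XT.nd (nat_lit 312) (nat_lit 760) (nat_lit 0) (XT.nd (nat_lit 156) (nat_lit 380) (nat_lit 0) (XT.nd (nat_lit 78) (nat_lit 228) (nat_lit 0) (XT.lf (nat_lit 0) (nat_lit 12522137924) (nat_lit 380) (nat_lit 4630592464) (nat_lit 76) (nat_lit 3560642575) (nat_lit 177) (nat_lit 5) (nat_lit 182) (nat_lit 5) (nat_lit 178) (nat_lit 5) (nat_lit 480) (nat_lit 422) (nat_lit 298)) (XT.lf (nat_lit 0) (nat_lit 8423542395) (nat_lit 228) (nat_lit 9436742604) (nat_lit 304) (nat_lit 3229064787) (nat_lit 174) (nat_lit 5) (nat_lit 177) (nat_lit 5) (nat_lit 178) (nat_lit 5) (nat_lit 481) (nat_lit 422) (nat_lit 297))) (XT.nd (nat_lit 78) (nat_lit 0) (nat_lit 0) (XT.lf (nat_lit 0) (nat_lit 460878214) (nat_lit 304) (nat_lit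 1424172000) (nat_lit 380) (nat_lit 19589819146) (nat_lit 169) (nat_lit 5) (nat_lit 173) (nat_lit 5) (nat_lit 174) (nat_lit 5) (nat_lit 482) (nat_lit 422) (nat_lit 296)) (XT.lf (nat_lit 0) (nat_lit 7270750404) (nat_lit 380) (nat_lit 7744682431) (nat_lit 76) (nat_lit 6850070942) (nat_lit 169) (nat_lit 5) (nat_lit 174) (nat_lit 5) (nat_lit 170) (nat_lit 5) (nat_lit 483) (nat_lit 422) (nat_lit 295)))) (XT.nd (nat_lit 156) (nat_lit 532) (nat_lit 0) (XT.nd (nat_lit 78) (nat_lit 0) (nat_lit 0) (XT.lf (nat_lit 0) (nat_lit 6007694567) (nat_lit 228) (nat_lit 6870773709) (nat_lit 304) (nat_lit 9387575813) (nat_lit 166) (nat_lit 5) (nat_lit 169) (nat_lit 5) (nat_lit 170) (nat_lit 5) (nat_lit 484) (nat_lit 422) (nat_lit 294)) (XT.lf (nat_lit 0) (nat_lit 18736683414) (nat_lit 304) (nat_lit 2378458721) (nat_lit 76) (nat_lit 1560990753) (nat_lit 166) (nat_lit 5) (nat_lit 170) (nat_lit 5) (nat_lit 167) (nat_lit 5) (nat_lit 485)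 (nat_lit 422) (nat_lit 293))) (XT.nd (nat_lit 78) (nat_lit 228) (nat_lit 0) (XT.lf (nat_lit 0) (nat_lit 1814253647) (nat_lit 304) (nat_lit 11043542656) (nat_lit 76) (nat_lit 10235003221) (nat_lit 162) (nat_lit 5) (nat_lit 166) (nat_lit 5) (nat_lit 163) (nat_lit 5) (nat_lit 486) (nat_lit 422) (nat_lit 292)) (XT.lf (nat_lit 0) (nat_lit 3447596909) (nat_lit 228) (nat_lit 4260252293) (nat_lit 304) (nat_lit 15811553244) (nat_lit 159) (nat_lit 5) (nat_lit 162) (nat_lit 5) (nat_lit 163) (nat_lit 5) (nat_lit 487) (nat_lit 422) (nat_lit 291)))))) (XT.nd (nat_lit 624) (nat_lit 1064) (nat_lit 0) (XT.nd (nat_lit 312) (nat_lit 684) (nat_lit 0) (XT.nd (nat_lit 156) (nat_lit 304) (nat_lit 0) (XT.nd (nat_lit 78) (nat_lit 228) (nat_lit 0) (XT.lf (nat_lit 0) (nat_lit 13924195618) (nat_lit 304) (nat_lit 5418716398) (nat_lit 76) (nat_lit 4611513373) (nat_lit 159) (nat_lit 5) (nat_lit 163) (nat_lit 5) (nat_lit 160) (nat_lit 5) (nat_lit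 488) (nat_lit 422) (nat_lit 290)) (XT.lf (nat_lit 0) (nat_lit 9805816192) (nat_lit 228) (nat_lit 10647121193) (nat_lit 304) (nat_lit 3945784705) (nat_lit 156) (nat_lit 5) (nat_lit 159) (nat_lit 5) (nat_lit 160) (nat_lit 5) (nat_lit 489) (nat_lit 422) (nat_lit 289))) (XT.nd (nat_lit 78) (nat_lit 0) (nat_lit 0) (XT.lf (nat_lit 0) (nat_lit 717243859) (nat_lit 228) (nat_lit 1610313433) (nat_lit 304) (nat_lit 22526571470) (nat_lit 152) (nat_lit 5) (nat_lit 155) (nat_lit 5) (nat_lit 156) (nat_lit 5) (nat_lit 490) (nat_lit 422) (nat_lit 288)) (XT.lf (nat_lit 0) (nat_lit 8922184511) (nat_lit 304) (nat_lit 8664888409) (nat_lit 76) (nat_lit 7728581158) (nat_lit 152) (nat_lit 5) (nat_lit 156) (nat_lit 5) (nat_lit 153) (nat_lit 5) (nat_lit 491) (nat_lit 422) (nat_lit 287)))) (XT.nd (nat_lit 156) (nat_lit 456) (nat_lit 0) (XT.nd (nat_lit 78) (nat_lit 0) (nat_lit 0) (XT.lf (nat_lit 0) (nat_lit 7382460608) (nat_lit 228) (nat_lit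 8408980456) (nat_lit 304) (nat_lit 9997280567) (nat_lit 149) (nat_lit 5) (nat_lit 152) (nat_lit 5) (nat_lit 153) (nat_lit 5) (nat_lit 492) (nat_lit 422) (nat_lit 286)) (XT.lf (nat_lit 0) (nat_lit 22955130579) (nat_lit 304) (nat_lit 2212401495) (nat_lit 76) (nat_lit 1105798667) (nat_lit 149) (nat_lit 5) (nat_lit 153) (nat_lit 5) (nat_lit 150) (nat_lit 5) (nat_lit 493) (nat_lit 422) (nat_lit 285))) (XT.nd (nat_lit 78) (nat_lit 228) (nat_lit 0) (XT.lf (nat_lit 0) (nat_lit 3708240573) (nat_lit 228) (nat_lit 12148940340) (nat_lit 76) (nat_lit 10907775977) (nat_lit 146) (nat_lit 5) (nat_lit 149) (nat_lit 5) (nat_lit 147) (nat_lit 5) (nat_lit 494) (nat_lit 422) (nat_lit 284)) (XT.lf (nat_lit 0) (nat_lit 4767404261) (nat_lit 228) (nat_lit 6170042021) (nat_lit 304) (nat_lit 16331140179) (nat_lit 143) (nat_lit 5) (nat_lit 146) (nat_lit 5) (nat_lit 147) (nat_lit 5) (nat_lit 495) (nat_lit 422) (nat_lit 283))))) (XT.nd (nat_lit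 312) (nat_lit 608) (nat_lit 0) (XT.nd (nat_lit 156) (nat_lit 304) (nat_lit 0) (XT.nd (nat_lit 78) (nat_lit 152) (nat_lit 0) (XT.lf (nat_lit 0) (nat_lit 18534361203) (nat_lit 304) (nat_lit 5397769606) (nat_lit 76) (nat_lit 3850669287) (nat_lit 143) (nat_lit 5) (nat_lit 147) (nat_lit 5) (nat_lit 144) (nat_lit 5) (nat_lit 496) (nat_lit 422) (nat_lit 282)) (XT.lf (nat_lit 0) (nat_lit 12383190706) (nat_lit 152) (nat_lit 14146734532) (nat_lit 228) (nat_lit 1777392814) (nat_lit 141) (nat_lit 5) (nat_lit 143) (nat_lit 5) (nat_lit 144) (nat_lit 5) (nat_lit 497) (nat_lit 422) (nat_lit 281))) (XT.nd (nat_lit 78) (nat_lit 0) (nat_lit 0) (XT.lf (nat_lit 0) (nat_lit 1926322715) (nat_lit 228) (nat_lit 3940193646) (nat_lit 304) (nat_lit 22977422507) (nat_lit 137) (nat_lit 5) (nat_lit 140) (nat_lit 5) (nat_lit 141) (nat_lit 5) (nat_lit 498) (nat_lit 422) (nat_lit 280)) (XT.lf (nat_lit 0) (nat_lit 13920292403) (nat_lit 304) (nat_lit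 8851676778) (nat_lit 76) (nat_lit 6617673133) (nat_lit 137) (nat_lit 5) (nat_lit 141) (nat_lit 5) (nat_lit 138) (nat_lit 5) (nat_lit 499) (nat_lit 422) (nat_lit 279)))) (XT.nd (nat_lit 156) (nat_lit 380) (nat_lit 0) (XT.nd (nat_lit 78) (nat_lit 76) (nat_lit 0) (XT.lf (nat_lit 0) (nat_lit 9894591118) (nat_lit 152) (nat_lit 12446185729) (nat_lit 228) (nat_lit 7607187309) (nat_lit 135) (nat_lit 5) (nat_lit 137) (nat_lit 5) (nat_lit 138) (nat_lit 5) (nat_lit 500) (nat_lit 422) (nat_lit 278)) (XT.lf (nat_lit 0) (nat_lit 562527108) (nat_lit 228) (nat_lit 1157001827) (nat_lit 76) (nat_lit 28800927355) (nat_lit 134) (nat_lit 5) (nat_lit 137) (nat_lit 5) (nat_lit 135) (nat_lit 5) (nat_lit 501) (nat_lit 422) (nat_lit 277))) (XT.nd (nat_lit 78) (nat_lit 152) (nat_lit 0) (XT.lf (nat_lit 0) (nat_lit 9086404973) (nat_lit 304) (nat_lit 12616709410) (nat_lit 76) (nat_lit 9396890308) (nat_lit 131) (nat_lit 5) (nat_lit 135) (nat_lit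 5) (nat_lit 132) (nat_lit 5) (nat_lit 502) (nat_lit 422) (nat_lit 276)) (XT.lf (nat_lit 0) (nat_lit 7146920622) (nat_lit 152) (nat_lit 10807907648) (nat_lit 228) (nat_lit 13739446529) (nat_lit 129) (nat_lit 5) (nat_lit 131) (nat_lit 5) (nat_lit 132) (nat_lit 5) (nat_lit 503) (nat_lit 422) (nat_lit 275))))))) (XT.nd (nat_lit 1248) (nat_lit 1444) (nat_lit 0) (XT.nd (nat_lit 624) (nat_lit 912) (nat_lit 0) (XT.nd (nat_lit 312) (nat_lit 532) (nat_lit 0) (XT.nd (nat_lit 156) (nat_lit 152) (nat_lit 0) (XT.nd (nat_lit 78) (nat_lit 228) (nat_lit 0) (XT.lf (nat_lit 0) (nat_lit 27213299173) (nat_lit 228) (nat_lit 4561078300) (nat_lit 76) (nat_lit 528275814) (nat_lit 129) (nat_lit 5) (nat_lit 132) (nat_lit 5) (nat_lit 130) (nat_lit 5) (nat_lit 504) (nat_lit 422) (nat_lit 274)) (XT.lf (nat_lit 0) (nat_lit 4002733898) (nat_lit 228) (nat_lit 16741542184) (nat_lit 76) (nat_lit 12176194306) (nat_lit 126) (nat_lit 5) (nat_lit 129)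 (nat_lit 5) (nat_lit 127) (nat_lit 5) (nat_lit 505) (nat_lit 422) (nat_lit 273))) (XT.nd (nat_lit 78) (nat_lit 0) (nat_lit 0) (XT.lf (nat_lit 0) (nat_lit 4093273791) (nat_lit 152) (nat_lit 9249501437) (nat_lit 228) (nat_lit 20210210746) (nat_lit 124) (nat_lit 5) (nat_lit 126) (nat_lit 5) (nat_lit 127) (nat_lit 5) (nat_lit 506) (nat_lit 422) (nat_lit 272)) (XT.lf (nat_lit 0) (nat_lit 23150305880) (nat_lit 228) (nat_lit 8344644018) (nat_lit 76) (nat_lit 2703908600) (nat_lit 124) (nat_lit 5) (nat_lit 127) (nat_lit 5) (nat_lit 125) (nat_lit 5) (nat_lit 507) (nat_lit 422) (nat_lit 271)))) (XT.nd (nat_lit 156) (nat_lit 152) (nat_lit 0) (XT.nd (nat_lit 78) (nat_lit 228) (nat_lit 0) (XT.lf (nat_lit 0) (nat_lit 13562398185) (nat_lit 152) (nat_lit 19903516195) (nat_lit 228) (nat_lit 1391777367) (nat_lit 122) (nat_lit 5) (nat_lit 124) (nat_lit 5) (nat_lit 125) (nat_lit 5) (nat_lit 508) (nat_lit 422) (nat_lit 270)) (XT.lf (nat_lit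 0) (nat_lit 679571920) (nat_lit 152) (nat_lit 7791748176) (nat_lit 228) (nat_lit 27059996446) (nat_lit 119) (nat_lit 5) (nat_lit 121) (nat_lit 5) (nat_lit 122) (nat_lit 5) (nat_lit 509) (nat_lit 422) (nat_lit 269))) (XT.nd (nat_lit 78) (nat_lit 152) (nat_lit 0) (XT.lf (nat_lit 0) (nat_lit 18856481812) (nat_lit 228) (nat_lit 12544014480) (nat_lit 76) (nat_lit 4816616150) (nat_lit 119) (nat_lit 5) (nat_lit 122) (nat_lit 5) (nat_lit 120) (nat_lit 5) (nat_lit 510) (nat_lit 422) (nat_lit 268)) (XT.lf (nat_lit 0) (nat_lit 10547442377) (nat_lit 152) (nat_lit 19176480203) (nat_lit 228) (nat_lit 7194438006) (nat_lit 117) (nat_lit 5) (nat_lit 119) (nat_lit 5) (nat_lit 120) (nat_lit 5) (nat_lit 511) (nat_lit 422) (nat_lit 267))))) (XT.nd (nat_lit 312) (nat_lit 532) (nat_lit 0) (XT.nd (nat_lit 156) (nat_lit 152) (nat_lit 0) (XT.nd (nat_lit 78) (nat_lit 152) (nat_lit 0) (XT.lf (nat_lit 0) (nat_lit 3332929239) (nat_lit 228) (nat_lit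 3095009300) (nat_lit 76) (nat_lit 31208158889) (nat_lit 116) (nat_lit 5) (nat_lit 119) (nat_lit 5) (nat_lit 117) (nat_lit 5) (nat_lit 512) (nat_lit 422) (nat_lit 266)) (XT.lf (nat_lit 0) (nat_lit 14294911445) (nat_lit 228) (nat_lit 17226429594) (nat_lit 76) (nat_lit 6843986612) (nat_lit 114) (nat_lit 5) (nat_lit 117) (nat_lit 5) (nat_lit 115) (nat_lit 5) (nat_lit 513) (nat_lit 422) (nat_lit 265))) (XT.nd (nat_lit 78) (nat_lit 0) (nat_lit 0) (XT.lf (nat_lit 0) (nat_lit 7108723939) (nat_lit 152) (nat_lit 18633031214) (nat_lit 228) (nat_lit 13369999649) (nat_lit 112) (nat_lit 5) (nat_lit 114) (nat_lit 5) (nat_lit 115) (nat_lit 5) (nat_lit 514) (nat_lit 422) (nat_lit 264)) (XT.lf (nat_lit 0) (nat_lit 32513381804) (nat_lit 152) (nat_lit 5185126321) (nat_lit 228) (nat_lit 2177071608) (nat_lit 112) (nat_lit 5) (nat_lit 114) (nat_lit 5) (nat_lit 115) (nat_lit 5) (nat_lit 515) (nat_lit 422) (nat_lit 263)))) (XT.nd (nat_lit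 156) (nat_lit 152) (nat_lit 0) (XT.nd (nat_lit 78) (nat_lit 152) (nat_lit 0) (XT.lf (nat_lit 0) (nat_lit 9423363996) (nat_lit 228) (nat_lit 22469369448) (nat_lit 76) (nat_lit 8759263113) (nat_lit 109) (nat_lit 5) (nat_lit 112) (nat_lit 5) (nat_lit 110) (nat_lit 5) (nat_lit 516) (nat_lit 422) (nat_lit 262)) (XT.lf (nat_lit 0) (nat_lit 3170019526) (nat_lit 152) (nat_lit 18307648734) (nat_lit 228) (nat_lit 19968902669) (nat_lit 107) (nat_lit 5) (nat_lit 109) (nat_lit 5) (nat_lit 110) (nat_lit 5) (nat_lit 517) (nat_lit 422) (nat_lit 261))) (XT.nd (nat_lit 78) (nat_lit 152) (nat_lit 0) (XT.lf (nat_lit 0) (nat_lit 30025873055) (nat_lit 152) (nat_lit 4087431802) (nat_lit 228) (nat_lit 8145086651) (nat_lit 107) (nat_lit 5) (nat_lit 109) (nat_lit 5) (nat_lit 110) (nat_lit 5) (nat_lit 518) (nat_lit 422) (nat_lit 260)) (XT.lf (nat_lit 0) (nat_lit 4193483374) (nat_lit 152) (nat_lit 28362191172) (nat_lit 76) (nat_lit 10530566674)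 (nat_lit 105) (nat_lit 5) (nat_lit 107) (nat_lit 5) (nat_lit 106) (nat_lit 5) (nat_lit 519) (nat_lit 422) (nat_lit 259)))))) (XT.nd (nat_lit 624) (nat_lit 684) (nat_lit 0) (XT.nd (nat_lit 312) (nat_lit 456) (nat_lit 0) (XT.nd (nat_lit 156) (nat_lit 152) (nat_lit 0) (XT.nd (nat_lit 78) (nat_lit 152) (nat_lit 0) (XT.lf (nat_lit 0) (nat_lit 16896689985) (nat_lit 152) (nat_lit 1330580937) (nat_lit 76) (nat_lit 25704490605) (nat_lit 105) (nat_lit 5) (nat_lit 107) (nat_lit 5) (nat_lit 106) (nat_lit 5) (nat_lit 520) (nat_lit 422) (nat_lit 258)) (XT.lf (nat_lit 0) (nat_lit 27026652880) (nat_lit 152) (nat_lit 3207311951) (nat_lit 228) (nat_lit 14561093517) (nat_lit 103) (nat_lit 5) (nat_lit 105) (nat_lit 5) (nat_lit 106) (nat_lit 5) (nat_lit 521) (nat_lit 422) (nat_lit 257))) (XT.nd (nat_lit 78) (nat_lit 76) (nat_lit 0) (XT.lf (nat_lit 0) (nat_lit 10655201062) (nat_lit 76) (nat_lit 33543229233) (nat_lit 152) (nat_lit 1479011668)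 (nat_lit 102) (nat_lit 5) (nat_lit 103) (nat_lit 5) (nat_lit 104) (nat_lit 4) (nat_lit 522) (nat_lit 422) (nat_lit 256)) (XT.lf (nat_lit 0) (nat_lit 11967621941) (nat_lit 152) (nat_lit 6446748259) (nat_lit 76) (nat_lit 28162282736) (nat_lit 101) (nat_lit 5) (nat_lit 103) (nat_lit 5) (nat_lit 102) (nat_lit 5) (nat_lit 523) (nat_lit 422) (nat_lit 255)))) (XT.nd (nat_lit 156) (nat_lit 228) (nat_lit 0) (XT.nd (nat_lit 78) (nat_lit 76) (nat_lit 0) (XT.lf (nat_lit 0) (nat_lit 23415921466) (nat_lit 152) (nat_lit 2590499671) (nat_lit 228) (nat_lit 21489425048) (nat_lit 99) (nat_lit 5) (nat_lit 101) (nat_lit 5) (nat_lit 102) (nat_lit 5) (nat_lit 524) (nat_lit 422) (nat_lit 254)) (XT.lf (nat_lit 0) (nat_lit 5835015898) (nat_lit 76) (nat_lit 34878397049) (nat_lit 152) (nat_lit 7721791484) (nat_lit 98) (nat_lit 5) (nat_lit 99) (nat_lit 5) (nat_lit 100) (nat_lit 4) (nat_lit 525) (nat_lit 422) (nat_lit 253))) (XT.nd (nat_lit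 78) (nat_lit 152) (nat_lit 0) (XT.lf (nat_lit 0) (nat_lit 6597484758) (nat_lit 152) (nat_lit 12356973207) (nat_lit 76) (nat_lit 30438483426) (nat_lit 97) (nat_lit 5) (nat_lit 99) (nat_lit 5) (nat_lit 98) (nat_lit 5) (nat_lit 526) (nat_lit 422) (nat_lit 252)) (XT.lf (nat_lit 0) (nat_lit 19077311964) (nat_lit 152) (nat_lit 2290834463) (nat_lit 228) (nat_lit 29003660258) (nat_lit 95) (nat_lit 5) (nat_lit 97) (nat_lit 5) (nat_lit 98) (nat_lit 5) (nat_lit 527) (nat_lit 422) (nat_lit 251))))) (XT.nd (nat_lit 312) (nat_lit 380) (nat_lit 0) (XT.nd (nat_lit 156) (nat_lit 152) (nat_lit 0) (XT.nd (nat_lit 78) (nat_lit 76) (nat_lit 0) (XT.lf (nat_lit 0) (nat_lit 178869044) (nat_lit 76) (nat_lit 36667402217) (nat_lit 152) (nat_lit 14525836428) (nat_lit 94) (nat_lit 5) (nat_lit 95) (nat_lit 5) (nat_lit 96) (nat_lit 4) (nat_lit 528) (nat_lit 422) (nat_lit 250)) (XT.lf (nat_lit 0) (nat_lit 714256895) (nat_lit 152) (nat_lit 19196586732)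 (nat_lit 76) (nat_lit 32481398535) (nat_lit 93) (nat_lit 5) (nat_lit 95) (nat_lit 5) (nat_lit 94) (nat_lit 5) (nat_lit 529) (nat_lit 422) (nat_lit 249))) (XT.nd (nat_lit 78) (nat_lit 0) (nat_lit 0) (XT.lf (nat_lit 0) (nat_lit 13875185194) (nat_lit 152) (nat_lit 2371624528) (nat_lit 228) (nat_lit 37188040041) (nat_lit 91) (nat_lit 5) (nat_lit 93) (nat_lit 5) (nat_lit 94) (nat_lit 5) (nat_lit 530) (nat_lit 422) (nat_lit 248)) (XT.lf (nat_lit 0) (nat_lit 32585814472) (nat_lit 228) (nat_lit 6334805524) (nat_lit 76) (nat_lit 15577901378) (nat_lit 91) (nat_lit 5) (nat_lit 94) (nat_lit 5) (nat_lit 92) (nat_lit 4) (nat_lit 531) (nat_lit 422) (nat_lit 247)))) (XT.nd (nat_lit 156) (nat_lit 76) (nat_lit 0) (XT.nd (nat_lit 78) (nat_lit 228) (nat_lit 0) (XT.lf (nat_lit 0) (nat_lit 28406238073) (nat_lit 76) (nat_lit 21299320024) (nat_lit 152) (nat_lit 5879828017) (nat_lit 90) (nat_lit 5) (nat_lit 91) (nat_lit 5) (nat_lit 92)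 (nat_lit 4) (nat_lit 532) (nat_lit 422) (nat_lit 246)) (XT.lf (nat_lit 0) (nat_lit 7651491595) (nat_lit 152) (nat_lit 2907226730) (nat_lit 228) (nat_lit 46139106204) (nat_lit 87) (nat_lit 5) (nat_lit 89) (nat_lit 5) (nat_lit 90) (nat_lit 5) (nat_lit 533) (nat_lit 422) (nat_lit 245))) (XT.nd (nat_lit 78) (nat_lit 76) (nat_lit 0) (XT.lf (nat_lit 0) (nat_lit 27797619370) (nat_lit 228) (nat_lit 13977701916) (nat_lit 76) (nat_lit 16053807053) (nat_lit 87) (nat_lit 5) (nat_lit 90) (nat_lit 5) (nat_lit 88) (nat_lit 4) (nat_lit 534) (nat_lit 422) (nat_lit 244)) (XT.lf (nat_lit 0) (nat_lit 22543023053) (nat_lit 76) (nat_lit 23250369108) (nat_lit 152) (nat_lit 13193787999) (nat_lit 86) (nat_lit 5) (nat_lit 87) (nat_lit 5) (nat_lit 88) (nat_lit 4) (nat_lit 535) (nat_lit 422) (nat_lit 243))))))))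
noncomputable def xc146 : XT := (XT.nd (nat_lit 54834) (nat_lit 0) (nat_lit 10640) (XT.nd (nat_lit 1170) (nat_lit 76) (nat_lit 0) (XT.nd (nat_lit 546) (nat_lit 608) (nat_lit 0) (XT.nd (nat_lit 234) (nat_lit 304) (nat_lit 0) (XT.nd (nat_lit 78) (nat_lit 76) (nat_lit 0) (XT.lf (nat_lit 0) (nat_lit 222131145) (nat_lit 152) (nat_lit 3984879587) (nat_lit 228) (nat_lit 55967599059) (nat_lit 83) (nat_lit 5) (nat_lit 85) (nat_lit 5) (nat_lit 86) (nat_lit 5) (nat_lit 536) (nat_lit 422) (nat_lit 242)) (XT.nd (nat_lit 78) (nat_lit 76) (nat_lit 0) (XT.lf (nat_lit 0) (nat_lit 22382993076) (nat_lit 228) (nat_lit 22948956375) (nat_lit 76) (nat_lit 16046243697) (nat_lit 83) (nat_lit 5) (nat_lit 86) (nat_lit 5) (nat_lit 84) (nat_lit 4) (nat_lit 537) (nat_lit 422) (nat_lit 241)) (XT.lf (nat_lit 0) (nat_lit 15415253118) (nat_lit 76) (nat_lit 25871045767) (nat_lit 152) (nat_lit 21326123835) (nat_lit 82) (nat_lit 5) (nat_lit 83) (nat_lit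 5) (nat_lit 84) (nat_lit 4) (nat_lit 538) (nat_lit 422) (nat_lit 240)))) (XT.nd (nat_lit 156) (nat_lit 76) (nat_lit 0) (XT.nd (nat_lit 78) (nat_lit 228) (nat_lit 0) (XT.lf (nat_lit 0) (nat_lit 55390154300) (nat_lit 76) (nat_lit 5592758253) (nat_lit 152) (nat_lit 2893980398) (nat_lit 82) (nat_lit 5) (nat_lit 83) (nat_lit 5) (nat_lit 84) (nat_lit 4) (nat_lit 539) (nat_lit 422) (nat_lit 239)) (XT.lf (nat_lit 0) (nat_lit 16229313298) (nat_lit 228) (nat_lit 33475963973) (nat_lit 76) (nat_lit 15455814260) (nat_lit 79) (nat_lit 5) (nat_lit 82) (nat_lit 5) (nat_lit 80) (nat_lit 4) (nat_lit 540) (nat_lit 422) (nat_lit 238))) (XT.nd (nat_lit 78) (nat_lit 0) (nat_lit 0) (XT.lf (nat_lit 0) (nat_lit 6792063107) (nat_lit 76) (nat_lit 29277875246) (nat_lit 152) (nat_lit 30406964189) (nat_lit 78) (nat_lit 5) (nat_lit 79) (nat_lit 5) (nat_lit 80) (nat_lit 4) (nat_lit 541) (nat_lit 422) (nat_lit 237)) (XT.lf (nat_lit 0) (nat_lit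 48943984751) (nat_lit 76) (nat_lit 7894484414) (nat_lit 152) (nat_lit 10983738136) (nat_lit 78) (nat_lit 5) (nat_lit 79) (nat_lit 5) (nat_lit 80) (nat_lit 4) (nat_lit 542) (nat_lit 422) (nat_lit 236))))) (XT.nd (nat_lit 312) (nat_lit 228) (nat_lit 0) (XT.nd (nat_lit 156) (nat_lit 228) (nat_lit 0) (XT.nd (nat_lit 78) (nat_lit 0) (nat_lit 0) (XT.lf (nat_lit 0) (nat_lit 9205794917) (nat_lit 152) (nat_lit 45822978886) (nat_lit 76) (nat_lit 14165705660) (nat_lit 76) (nat_lit 5) (nat_lit 78) (nat_lit 5) (nat_lit 77) (nat_lit 4) (nat_lit 543) (nat_lit 422) (nat_lit 235)) (XT.lf (nat_lit 0) (nat_lit 30045694448) (nat_lit 152) (nat_lit 3525483250) (nat_lit 76) (nat_lit 37025516338) (nat_lit 76) (nat_lit 5) (nat_lit 78) (nat_lit 5) (nat_lit 77) (nat_lit 4) (nat_lit 544) (nat_lit 422) (nat_lit 234))) (XT.nd (nat_lit 78) (nat_lit 152) (nat_lit 0) (XT.lf (nat_lit 0) (nat_lit 40827747887) (nat_lit 76) (nat_lit 11070416065) (nat_lit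 152) (nat_lit 20131189931) (nat_lit 75) (nat_lit 5) (nat_lit 76) (nat_lit 5) (nat_lit 77) (nat_lit 4) (nat_lit 545) (nat_lit 422) (nat_lit 233)) (XT.lf (nat_lit 0) (nat_lit 1160573686) (nat_lit 152) (nat_lit 60297040072) (nat_lit 76) (nat_lit 12038811533) (nat_lit 73) (nat_lit 5) (nat_lit 75) (nat_lit 5) (nat_lit 74) (nat_lit 4) (nat_lit 546) (nat_lit 422) (nat_lit 232)))) (XT.nd (nat_lit 156) (nat_lit 152) (nat_lit 0) (XT.nd (nat_lit 78) (nat_lit 76) (nat_lit 0) (XT.lf (nat_lit 0) (nat_lit 23109199996) (nat_lit 152) (nat_lit 15747992684) (nat_lit 76) (nat_lit 36131654822) (nat_lit 73) (nat_lit 5) (nat_lit 75) (nat_lit 5) (nat_lit 74) (nat_lit 4) (nat_lit 547) (nat_lit 422) (nat_lit 231)) (XT.lf (nat_lit 0) (nat_lit 30727520779) (nat_lit 76) (nat_lit 15279207978) (nat_lit 152) (nat_lit 30510600333) (nat_lit 72) (nat_lit 5) (nat_lit 73) (nat_lit 5) (nat_lit 74) (nat_lit 4) (nat_lit 548) (nat_lit 422) (nat_lit 230)))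 (XT.nd (nat_lit 78) (nat_lit 76) (nat_lit 0) (XT.lf (nat_lit 0) (nat_lit 750096495) (nat_lit 76) (nat_lit 69090547313) (nat_lit 76) (nat_lit 8243537529) (nat_lit 71) (nat_lit 4) (nat_lit 72) (nat_lit 5) (nat_lit 72) (nat_lit 4) (nat_lit 549) (nat_lit 422) (nat_lit 229)) (XT.lf (nat_lit 0) (nat_lit 15018179960) (nat_lit 152) (nat_lit 30366025361) (nat_lit 76) (nat_lit 34291197302) (nat_lit 70) (nat_lit 5) (nat_lit 72) (nat_lit 5) (nat_lit 71) (nat_lit 4) (nat_lit 550) (nat_lit 422) (nat_lit 228)))))) (XT.nd (nat_lit 53040) (nat_lit 0) (nat_lit 21204) (XT.nd (nat_lit 52728) (nat_lit 0) (nat_lit 22116) (XT.nd (nat_lit 52572) (nat_lit 0) (nat_lit 22116) (XT.nd (nat_lit 52494) (nat_lit 0) (nat_lit 23180) (XT.lf (nat_lit 0) (nat_lit 18276761358) (nat_lit 76) (nat_lit 20706214248) (nat_lit 152) (nat_lit 42323808978) (nat_lit 69) (nat_lit 5) (nat_lit 70) (nat_lit 5) (nat_lit 71) (nat_lit 4) (nat_lit 551) (nat_lit 422) (nat_lit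 227)) (XT.lf (nat_lit 0) (nat_lit 1823144660) (nat_lit 0) (nat_lit 1823144660) (nat_lit 988) (nat_lit 699372519) (nat_lit 374) (nat_lit 5) (nat_lit 374) (nat_lit 3) (nat_lit 387) (nat_lit 3) (nat_lit 423) (nat_lit 423) (nat_lit 354))) (XT.nd (nat_lit 78) (nat_lit 1064) (nat_lit 0) (XT.lf (nat_lit 0) (nat_lit 8086475828) (nat_lit 0) (nat_lit 291172408) (nat_lit 988) (nat_lit 414723679) (nat_lit 374) (nat_lit 5) (nat_lit 374) (nat_lit 3) (nat_lit 387) (nat_lit 3) (nat_lit 424) (nat_lit 423) (nat_lit 353)) (XT.lf (nat_lit 0) (nat_lit 616340930) (nat_lit 1064) (nat_lit 5115109970) (nat_lit 1140) (nat_lit 3163953723) (nat_lit 360) (nat_lit 5) (nat_lit 374) (nat_lit 5) (nat_lit 375) (nat_lit 5) (nat_lit 425) (nat_lit 423) (nat_lit 352)))) (XT.nd (nat_lit 156) (nat_lit 0) (nat_lit 76) (XT.nd (nat_lit 78) (nat_lit 0) (nat_lit 76) (XT.lf (nat_lit 0) (nat_lit 1642730290) (nat_lit 1064) (nat_lit 613744837) (nat_lit 1140) (nat_lit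 6745750030) (nat_lit 360) (nat_lit 5) (nat_lit 374) (nat_lit 5) (nat_lit 375) (nat_lit 5) (nat_lit 426) (nat_lit 423) (nat_lit 351)) (XT.lf (nat_lit 0) (nat_lit 2716141834) (nat_lit 1064) (nat_lit 5043406864) (nat_lit 1140) (nat_lit 1352216524) (nat_lit 361) (nat_lit 5) (nat_lit 375) (nat_lit 5) (nat_lit 376) (nat_lit 5) (nat_lit 427) (nat_lit 423) (nat_lit 350))) (XT.nd (nat_lit 78) (nat_lit 0) (nat_lit 0) (XT.lf (nat_lit 0) (nat_lit 3815100793) (nat_lit 1064) (nat_lit 364617229) (nat_lit 1140) (nat_lit 5045074889) (nat_lit 361) (nat_lit 5) (nat_lit 375) (nat_lit 5) (nat_lit 376) (nat_lit 5) (nat_lit 428) (nat_lit 423) (nat_lit 349)) (XT.lf (nat_lit 76) (nat_lit 4522084278) (nat_lit 0) (nat_lit 434184884) (nat_lit 1140) (nat_lit 4384666773) (nat_lit 362) (nat_lit 5) (nat_lit 361) (nat_lit 5) (nat_lit 376) (nat_lit 5) (nat_lit 429) (nat_lit 423) (nat_lit 348))))) (XT.nd (nat_lit 312) (nat_lit 0) (nat_lit 76) (XT.nd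 (nat_lit 156) (nat_lit 1064) (nat_lit 0) (XT.nd (nat_lit 78) (nat_lit 0) (nat_lit 0) (XT.lf (nat_lit 76) (nat_lit 48793201) (nat_lit 0) (nat_lit 6086673554) (nat_lit 1140) (nat_lit 3324984342) (nat_lit 363) (nat_lit 5) (nat_lit 362) (nat_lit 5) (nat_lit 377) (nat_lit 5) (nat_lit 430) (nat_lit 423) (nat_lit 347)) (XT.lf (nat_lit 76) (nat_lit 5135456713) (nat_lit 0) (nat_lit 2234961400) (nat_lit 1140) (nat_lit 2212523892) (nat_lit 363) (nat_lit 5) (nat_lit 362) (nat_lit 5) (nat_lit 377) (nat_lit 5) (nat_lit 431) (nat_lit 423) (nat_lit 346))) (XT.nd (nat_lit 78) (nat_lit 1140) (nat_lit 0) (XT.lf (nat_lit 76) (nat_lit 639603809) (nat_lit 0) (nat_lit 7994126231) (nat_lit 1140) (nat_lit 1075639815) (nat_lit 364) (nat_lit 5) (nat_lit 363) (nat_lit 5) (nat_lit 378) (nat_lit 5) (nat_lit 432) (nat_lit 423) (nat_lit 345)) (XT.lf (nat_lit 0) (nat_lit 129888869) (nat_lit 1140) (nat_lit 3913501859) (nat_lit 1216) (nat_lit 5795081841)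 (nat_lit 348) (nat_lit 5) (nat_lit 363) (nat_lit 5) (nat_lit 364) (nat_lit 5) (nat_lit 433) (nat_lit 423) (nat_lit 344)))) (XT.nd (nat_lit 156) (nat_lit 0) (nat_lit 0) (XT.nd (nat_lit 78) (nat_lit 0) (nat_lit 0) (XT.lf (nat_lit 0) (nat_lit 1333737842) (nat_lit 1140) (nat_lit 8579828573) (nat_lit 1216) (nat_lit 58050682) (nat_lit 349) (nat_lit 5) (nat_lit 364) (nat_lit 5) (nat_lit 365) (nat_lit 5) (nat_lit 434) (nat_lit 423) (nat_lit 343)) (XT.lf (nat_lit 0) (nat_lit 2624217606) (nat_lit 1140) (nat_lit 3233883494) (nat_lit 1216) (nat_lit 4249140805) (nat_lit 349) (nat_lit 5) (nat_lit 364) (nat_lit 5) (nat_lit 365) (nat_lit 5) (nat_lit 435) (nat_lit 423) (nat_lit 342))) (XT.nd (nat_lit 78) (nat_lit 0) (nat_lit 76) (XT.lf (nat_lit 76) (nat_lit 2295536235) (nat_lit 0) (nat_lit 1651370540) (nat_lit 1216) (nat_lit 6300225192) (nat_lit 350) (nat_lit 5) (nat_lit 349) (nat_lit 5) (nat_lit 365) (nat_lit 5) (nat_lit 436) (nat_lit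 423) (nat_lit 341)) (XT.lf (nat_lit 0) (nat_lit 5340149293) (nat_lit 1140) (nat_lit 2381596136) (nat_lit 1216) (nat_lit 2668548440) (nat_lit 350) (nat_lit 5) (nat_lit 365) (nat_lit 5) (nat_lit 366) (nat_lit 5) (nat_lit 437) (nat_lit 423) (nat_lit 340))))))) (XT.nd (nat_lit 1248) (nat_lit 4560) (nat_lit 0) (XT.nd (nat_lit 624) (nat_lit 2356) (nat_lit 0) (XT.nd (nat_lit 312) (nat_lit 2660) (nat_lit 0) (XT.nd (nat_lit 156) (nat_lit 1140) (nat_lit 0) (XT.nd (nat_lit 78) (nat_lit 0) (nat_lit 76) (XT.lf (nat_lit 76) (nat_lit 3383441478) (nat_lit 0) (nat_lit 3413550311) (nat_lit 1216) (nat_lit 3740106044) (nat_lit 351) (nat_lit 5) (nat_lit 350) (nat_lit 5) (nat_lit 366) (nat_lit 5) (nat_lit 438) (nat_lit 423) (nat_lit 339)) (XT.lf (nat_lit 0) (nat_lit 8305227531) (nat_lit 1140) (nat_lit 1349779695) (nat_lit 76) (nat_lit 1033069293) (nat_lit 351) (nat_lit 5) (nat_lit 366) (nat_lit 5) (nat_lit 352) (nat_lit 5) (nat_lit 439)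 (nat_lit 423) (nat_lit 338))) (XT.nd (nat_lit 78) (nat_lit 76) (nat_lit 0) (XT.lf (nat_lit 0) (nat_lit 4663707394) (nat_lit 1140) (nat_lit 5247959182) (nat_lit 1216) (nat_lit 930330512) (nat_lit 336) (nat_lit 5) (nat_lit 351) (nat_lit 5) (nat_lit 352) (nat_lit 5) (nat_lit 440) (nat_lit 423) (nat_lit 337)) (XT.lf (nat_lit 0) (nat_lit 543107876) (nat_lit 1216) (nat_lit 142438985) (nat_lit 76) (nat_lit 10315174866) (nat_lit 335) (nat_lit 5) (nat_lit 351) (nat_lit 5) (nat_lit 336) (nat_lit 5) (nat_lit 441) (nat_lit 423) (nat_lit 336)))) (XT.nd (nat_lit 156) (nat_lit 608) (nat_lit 0) (XT.nd (nat_lit 78) (nat_lit 836) (nat_lit 0) (XT.lf (nat_lit 0) (nat_lit 2115955172) (nat_lit 1292) (nat_lit 5037991109) (nat_lit 76) (nat_lit 4007769459) (nat_lit 319) (nat_lit 5) (nat_lit 336) (nat_lit 5) (nat_lit 320) (nat_lit 5) (nat_lit 442) (nat_lit 423) (nat_lit 335)) (XT.lf (nat_lit 0) (nat_lit 1248955968) (nat_lit 836) (nat_lit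 2483179327) (nat_lit 912) (nat_lit 7595520930) (nat_lit 308) (nat_lit 5) (nat_lit 319) (nat_lit 5) (nat_lit 320) (nat_lit 5) (nat_lit 443) (nat_lit 423) (nat_lit 334))) (XT.nd (nat_lit 78) (nat_lit 608) (nat_lit 0) (XT.lf (nat_lit 0) (nat_lit 5446966929) (nat_lit 912) (nat_lit 3714565620) (nat_lit 76) (nat_lit 2335538437) (nat_lit 308) (nat_lit 5) (nat_lit 320) (nat_lit 5) (nat_lit 309) (nat_lit 5) (nat_lit 444) (nat_lit 423) (nat_lit 333)) (XT.lf (nat_lit 0) (nat_lit 2849745865) (nat_lit 608) (nat_lit 4392577268) (nat_lit 684) (nat_lit 4428373678) (nat_lit 300) (nat_lit 5) (nat_lit 308) (nat_lit 5) (nat_lit 309) (nat_lit 5) (nat_lit 445) (nat_lit 423) (nat_lit 332))))) (XT.nd (nat_lit 312) (nat_lit 1140) (nat_lit 0) (XT.nd (nat_lit 156) (nat_lit 608) (nat_lit 0) (XT.nd (nat_lit 78) (nat_lit 608) (nat_lit 0) (XT.lf (nat_lit 0) (nat_lit 9111982927) (nat_lit 684) (nat_lit 2188878399) (nat_lit 76) (nat_lit 548057782)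 (nat_lit 300) (nat_lit 5) (nat_lit 309) (nat_lit 5) (nat_lit 301) (nat_lit 5) (nat_lit 446) (nat_lit 423) (nat_lit 331)) (XT.lf (nat_lit 0) (nat_lit 4668166645) (nat_lit 608) (nat_lit 6436151802) (nat_lit 684) (nat_lit 926173003) (nat_lit 292) (nat_lit 5) (nat_lit 300) (nat_lit 5) (nat_lit 301) (nat_lit 5) (nat_lit 447) (nat_lit 423) (nat_lit 330))) (XT.nd (nat_lit 78) (nat_lit 532) (nat_lit 0) (XT.lf (nat_lit 0) (nat_lit 921352027) (nat_lit 684) (nat_lit 472109109) (nat_lit 76) (nat_lit 10823757147) (nat_lit 291) (nat_lit 5) (nat_lit 300) (nat_lit 5) (nat_lit 292) (nat_lit 5) (nat_lit 448) (nat_lit 423) (nat_lit 329)) (XT.lf (nat_lit 0) (nat_lit 2886667038) (nat_lit 608) (nat_lit 5719511354) (nat_lit 76) (nat_lit 3800664919) (nat_lit 284) (nat_lit 5) (nat_lit 292) (nat_lit 5) (nat_lit 285) (nat_lit 5) (nat_lit 449) (nat_lit 423) (nat_lit 328)))) (XT.nd (nat_lit 156) (nat_lit 532) (nat_lit 0) (XT.nd (nat_lit 78)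 (nat_lit 0) (nat_lit 0) (XT.lf (nat_lit 0) (nat_lit 1462332046) (nat_lit 608) (nat_lit 3460747749) (nat_lit 684) (nat_lit 7678713995) (nat_lit 276) (nat_lit 5) (nat_lit 284) (nat_lit 5) (nat_lit 285) (nat_lit 5) (nat_lit 450) (nat_lit 423) (nat_lit 327)) (XT.lf (nat_lit 0) (nat_lit 7076441627) (nat_lit 684) (nat_lit 3864195835) (nat_lit 76) (nat_lit 1860280444) (nat_lit 276) (nat_lit 5) (nat_lit 285) (nat_lit 5) (nat_lit 277) (nat_lit 5) (nat_lit 451) (nat_lit 423) (nat_lit 326))) (XT.nd (nat_lit 78) (nat_lit 0) (nat_lit 0) (XT.lf (nat_lit 0) (nat_lit 3644866355) (nat_lit 532) (nat_lit 5699277304) (nat_lit 608) (nat_lit 3660380703) (nat_lit 269) (nat_lit 5) (nat_lit 276) (nat_lit 5) (nat_lit 277) (nat_lit 5) (nat_lit 452) (nat_lit 423) (nat_lit 325)) (XT.lf (nat_lit 0) (nat_lit 11437300332) (nat_lit 532) (nat_lit 262401881) (nat_lit 608) (nat_lit 1513942812) (nat_lit 269) (nat_lit 5) (nat_lit 276) (nat_lit 5) (nat_lit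 277) (nat_lit 5) (nat_lit 453) (nat_lit 423) (nat_lit 324)))))) (XT.nd (nat_lit 624) (nat_lit 2052) (nat_lit 0) (XT.nd (nat_lit 312) (nat_lit 988) (nat_lit 0) (XT.nd (nat_lit 156) (nat_lit 456) (nat_lit 0) (XT.nd (nat_lit 78) (nat_lit 456) (nat_lit 0) (XT.lf (nat_lit 0) (nat_lit 775296819) (nat_lit 608) (nat_lit 7353129336) (nat_lit 76) (nat_lit 5297652695) (nat_lit 261) (nat_lit 5) (nat_lit 269) (nat_lit 5) (nat_lit 262) (nat_lit 5) (nat_lit 454) (nat_lit 423) (nat_lit 323)) (XT.lf (nat_lit 0) (nat_lit 520987661) (nat_lit 456) (nat_lit 2589025423) (nat_lit 532) (nat_lit 10534206784) (nat_lit 255) (nat_lit 5) (nat_lit 261) (nat_lit 5) (nat_lit 262) (nat_lit 5) (nat_lit 455) (nat_lit 423) (nat_lit 322))) (XT.nd (nat_lit 78) (nat_lit 456) (nat_lit 0) (XT.lf (nat_lit 0) (nat_lit 5601532907) (nat_lit 532) (nat_lit 5136822928) (nat_lit 76) (nat_lit 3127947107) (nat_lit 255) (nat_lit 5) (nat_lit 262) (nat_lit 5) (nat_lit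 256) (nat_lit 5) (nat_lit 456) (nat_lit 423) (nat_lit 321)) (XT.lf (nat_lit 0) (nat_lit 3103214098) (nat_lit 456) (nat_lit 5102394207) (nat_lit 532) (nat_lit 5888306575) (nat_lit 249) (nat_lit 5) (nat_lit 255) (nat_lit 5) (nat_lit 256) (nat_lit 5) (nat_lit 457) (nat_lit 423) (nat_lit 320)))) (XT.nd (nat_lit 156) (nat_lit 532) (nat_lit 0) (XT.nd (nat_lit 78) (nat_lit 456) (nat_lit 0) (XT.lf (nat_lit 0) (nat_lit 10929574996) (nat_lit 532) (nat_lit 2659484216) (nat_lit 76) (nat_lit 738043542) (nat_lit 249) (nat_lit 5) (nat_lit 256) (nat_lit 5) (nat_lit 250) (nat_lit 5) (nat_lit 458) (nat_lit 423) (nat_lit 319)) (XT.lf (nat_lit 0) (nat_lit 5967035616) (nat_lit 456) (nat_lit 7859237906) (nat_lit 532) (nat_lit 738282989) (nat_lit 243) (nat_lit 5) (nat_lit 249) (nat_lit 5) (nat_lit 250) (nat_lit 5) (nat_lit 459) (nat_lit 423) (nat_lit 318))) (XT.nd (nat_lit 78) (nat_lit 0) (nat_lit 0) (XT.lf (nat_lit 0) (nat_lit 59517868)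 (nat_lit 456) (nat_lit 1913139430) (nat_lit 532) (nat_lit 12835571412) (nat_lit 236) (nat_lit 5) (nat_lit 242) (nat_lit 5) (nat_lit 243) (nat_lit 5) (nat_lit 460) (nat_lit 423) (nat_lit 317)) (XT.lf (nat_lit 0) (nat_lit 4861764612) (nat_lit 532) (nat_lit 5973686523) (nat_lit 76) (nat_lit 4220190898) (nat_lit 236) (nat_lit 5) (nat_lit 243) (nat_lit 5) (nat_lit 237) (nat_lit 5) (nat_lit 461) (nat_lit 423) (nat_lit 316))))) (XT.nd (nat_lit 312) (nat_lit 760) (nat_lit 0) (XT.nd (nat_lit 156) (nat_lit 912) (nat_lit 0) (XT.nd (nat_lit 78) (nat_lit 0) (nat_lit 0) (XT.lf (nat_lit 0) (nat_lit 3085528933) (nat_lit 380) (nat_lit 4784616128) (nat_lit 456) (nat_lit 7439355259) (nat_lit 231) (nat_lit 5) (nat_lit 236) (nat_lit 5) (nat_lit 237) (nat_lit 5) (nat_lit 462) (nat_lit 423) (nat_lit 315)) (XT.lf (nat_lit 0) (nat_lit 11027841561) (nat_lit 456) (nat_lit 3065261218) (nat_lit 76) (nat_lit 1476100181) (nat_lit 231) (nat_lit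 5) (nat_lit 237) (nat_lit 5) (nat_lit 232) (nat_lit 5) (nat_lit 463) (nat_lit 423) (nat_lit 314))) (XT.nd (nat_lit 78) (nat_lit 456) (nat_lit 0) (XT.lf (nat_lit 0) (nat_lit 6426278179) (nat_lit 456) (nat_lit 7947824164) (nat_lit 532) (nat_lit 1459779863) (nat_lit 225) (nat_lit 5) (nat_lit 231) (nat_lit 5) (nat_lit 232) (nat_lit 5) (nat_lit 464) (nat_lit 423) (nat_lit 313)) (XT.lf (nat_lit 0) (nat_lit 125420992) (nat_lit 380) (nat_lit 1572636237) (nat_lit 456) (nat_lit 14407432967) (nat_lit 219) (nat_lit 5) (nat_lit 224) (nat_lit 5) (nat_lit 225) (nat_lit 5) (nat_lit 465) (nat_lit 423) (nat_lit 312)))) (XT.nd (nat_lit 156) (nat_lit 380) (nat_lit 0) (XT.nd (nat_lit 78) (nat_lit 380) (nat_lit 0) (XT.lf (nat_lit 0) (nat_lit 5050230468) (nat_lit 456) (nat_lit 6328782459) (nat_lit 76) (nat_lit 5001932150) (nat_lit 219) (nat_lit 5) (nat_lit 225) (nat_lit 5) (nat_lit 220) (nat_lit 5) (nat_lit 466) (nat_lit 423) (nat_lit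 311)) (XT.lf (nat_lit 0) (nat_lit 3647975796) (nat_lit 380) (nat_lit 4891065966) (nat_lit 456) (nat_lit 8124540126) (nat_lit 214) (nat_lit 5) (nat_lit 219) (nat_lit 5) (nat_lit 220) (nat_lit 5) (nat_lit 467) (nat_lit 423) (nat_lit 310))) (XT.nd (nat_lit 78) (nat_lit 380) (nat_lit 0) (XT.lf (nat_lit 0) (nat_lit 12199902510) (nat_lit 456) (nat_lit 2936733151) (nat_lit 76) (nat_lit 1816041044) (nat_lit 214) (nat_lit 5) (nat_lit 220) (nat_lit 5) (nat_lit 215) (nat_lit 5) (nat_lit 468) (nat_lit 423) (nat_lit 309)) (XT.lf (nat_lit 0) (nat_lit 7523601570) (nat_lit 380) (nat_lit 8553777004) (nat_lit 456) (nat_lit 1169862551) (nat_lit 209) (nat_lit 5) (nat_lit 214) (nat_lit 5) (nat_lit 215) (nat_lit 5) (nat_lit 469) (nat_lit 423) (nat_lit 308))))))))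
noncomputable def xc147 : XT := (XT.nd (nat_lit 2418) (nat_lit 3496) (nat_lit 0) (XT.nd (nat_lit 1170) (nat_lit 2432) (nat_lit 0) (XT.nd (nat_lit 546) (nat_lit 1596) (nat_lit 0) (XT.nd (nat_lit 234) (nat_lit 684) (nat_lit 0) (XT.nd (nat_lit 78) (nat_lit 304) (nat_lit 0) (XT.lf (nat_lit 0) (nat_lit 779504092) (nat_lit 380) (nat_lit 1715417697) (nat_lit 456) (nat_lit 15054287134) (nat_lit 203) (nat_lit 5) (nat_lit 208) (nat_lit 5) (nat_lit 209) (nat_lit 5) (nat_lit 470) (nat_lit 423) (nat_lit 307)) (XT.nd (nat_lit 78) (nat_lit 304) (nat_lit 0) (XT.lf (nat_lit 0) (nat_lit 6382809871) (nat_lit 456) (nat_lit 6143539522) (nat_lit 76) (nat_lit 5329439085) (nat_lit 203) (nat_lit 5) (nat_lit 209) (nat_lit 5) (nat_lit 204) (nat_lit 5) (nat_lit 471) (nat_lit 423) (nat_lit 306)) (XT.lf (nat_lit 0) (nat_lit 4860292766) (nat_lit 304) (nat_lit 5577439993) (nat_lit 380) (nat_lit 7732321109) (nat_lit 199) (nat_lit 5) (nat_lit 203)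 (nat_lit 5) (nat_lit 204) (nat_lit 5) (nat_lit 472) (nat_lit 423) (nat_lit 305)))) (XT.nd (nat_lit 156) (nat_lit 304) (nat_lit 0) (XT.nd (nat_lit 78) (nat_lit 380) (nat_lit 0) (XT.lf (nat_lit 0) (nat_lit 14678988562) (nat_lit 380) (nat_lit 2206639176) (nat_lit 76) (nat_lit 1606179305) (nat_lit 199) (nat_lit 5) (nat_lit 204) (nat_lit 5) (nat_lit 200) (nat_lit 5) (nat_lit 473) (nat_lit 423) (nat_lit 304)) (XT.lf (nat_lit 0) (nat_lit 353415467) (nat_lit 380) (nat_lit 9484710325) (nat_lit 76) (nat_lit 8981017031) (nat_lit 194) (nat_lit 5) (nat_lit 199) (nat_lit 5) (nat_lit 195) (nat_lit 5) (nat_lit 474) (nat_lit 423) (nat_lit 303))) (XT.nd (nat_lit 78) (nat_lit 0) (nat_lit 0) (XT.lf (nat_lit 0) (nat_lit 2095619847) (nat_lit 304) (nat_lit 2502329879) (nat_lit 380) (nat_lit 14556318364) (nat_lit 190) (nat_lit 5) (nat_lit 194) (nat_lit 5) (nat_lit 195) (nat_lit 5) (nat_lit 475) (nat_lit 423) (nat_lit 302)) (XT.lf (nat_lit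 0) (nat_lit 9102557704) (nat_lit 380) (nat_lit 5347090247) (nat_lit 76) (nat_lit 5045817373) (nat_lit 190) (nat_lit 5) (nat_lit 195) (nat_lit 5) (nat_lit 191) (nat_lit 5) (nat_lit 476) (nat_lit 423) (nat_lit 301))))) (XT.nd (nat_lit 312) (nat_lit 608) (nat_lit 0) (XT.nd (nat_lit 156) (nat_lit 684) (nat_lit 0) (XT.nd (nat_lit 78) (nat_lit 0) (nat_lit 0) (XT.lf (nat_lit 0) (nat_lit 6805610210) (nat_lit 304) (nat_lit 7014689632) (nat_lit 380) (nat_lit 6024259086) (nat_lit 186) (nat_lit 5) (nat_lit 190) (nat_lit 5) (nat_lit 191) (nat_lit 5) (nat_lit 477) (nat_lit 423) (nat_lit 300)) (XT.lf (nat_lit 0) (nat_lit 18728212411) (nat_lit 380) (nat_lit 795077070) (nat_lit 76) (nat_lit 679377031) (nat_lit 186) (nat_lit 5) (nat_lit 191) (nat_lit 5) (nat_lit 187) (nat_lit 5) (nat_lit 478) (nat_lit 423) (nat_lit 299))) (XT.nd (nat_lit 78) (nat_lit 304) (nat_lit 0) (XT.lf (nat_lit 0) (nat_lit 3323597304) (nat_lit 380) (nat_lit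 8636655380) (nat_lit 76) (nat_lit 8605105907) (nat_lit 181) (nat_lit 5) (nat_lit 186) (nat_lit 5) (nat_lit 182) (nat_lit 5) (nat_lit 479) (nat_lit 423) (nat_lit 298)) (XT.lf (nat_lit 0) (nat_lit 4160433652) (nat_lit 304) (nat_lit 4111955747) (nat_lit 380) (nat_lit 12665011343) (nat_lit 177) (nat_lit 5) (nat_lit 181) (nat_lit 5) (nat_lit 182) (nat_lit 5) (nat_lit 480) (nat_lit 423) (nat_lit 297)))) (XT.nd (nat_lit 156) (nat_lit 380) (nat_lit 0) (XT.nd (nat_lit 78) (nat_lit 228) (nat_lit 0) (XT.lf (nat_lit 0) (nat_lit 13484344669) (nat_lit 380) (nat_lit 3856540452) (nat_lit 76) (nat_lit 3976278339) (nat_lit 177) (nat_lit 5) (nat_lit 182) (nat_lit 5) (nat_lit 178) (nat_lit 5) (nat_lit 481) (nat_lit 423) (nat_lit 296)) (XT.lf (nat_lit 0) (nat_lit 9580267769) (nat_lit 228) (nat_lit 9393974607) (nat_lit 304) (nat_lit 2730429445) (nat_lit 174) (nat_lit 5) (nat_lit 177) (nat_lit 5) (nat_lit 178) (nat_lit 5) (nat_lit 482)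 (nat_lit 423) (nat_lit 295))) (XT.nd (nat_lit 78) (nat_lit 0) (nat_lit 0) (XT.lf (nat_lit 0) (nat_lit 1381380749) (nat_lit 304) (nat_lit 1135816880) (nat_lit 380) (nat_lit 19584636744) (nat_lit 169) (nat_lit 5) (nat_lit 173) (nat_lit 5) (nat_lit 174) (nat_lit 5) (nat_lit 483) (nat_lit 423) (nat_lit 294)) (XT.lf (nat_lit 0) (nat_lit 8050793745) (nat_lit 380) (nat_lit 7083066876) (nat_lit 76) (nat_lit 7370737839) (nat_lit 169) (nat_lit 5) (nat_lit 174) (nat_lit 5) (nat_lit 170) (nat_lit 5) (nat_lit 484) (nat_lit 423) (nat_lit 293)))))) (XT.nd (nat_lit 624) (nat_lit 1140) (nat_lit 0) (XT.nd (nat_lit 312) (nat_lit 532) (nat_lit 0) (XT.nd (nat_lit 156) (nat_lit 532) (nat_lit 0) (XT.nd (nat_lit 78) (nat_lit 0) (nat_lit 0) (XT.lf (nat_lit 0) (nat_lit 7073117158) (nat_lit 228) (nat_lit 6745768374) (nat_lit 304) (nat_lit 9098505550) (nat_lit 166) (nat_lit 5) (nat_lit 169) (nat_lit 5) (nat_lit 170) (nat_lit 5) (nat_lit 485)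 (nat_lit 423) (nat_lit 292)) (XT.lf (nat_lit 0) (nat_lit 19839799662) (nat_lit 304) (nat_lit 1577343480) (nat_lit 76) (nat_lit 1923031189) (nat_lit 166) (nat_lit 5) (nat_lit 170) (nat_lit 5) (nat_lit 167) (nat_lit 5) (nat_lit 486) (nat_lit 423) (nat_lit 291))) (XT.nd (nat_lit 78) (nat_lit 228) (nat_lit 0) (XT.lf (nat_lit 0) (nat_lit 2407538033) (nat_lit 304) (nat_lit 10500197866) (nat_lit 76) (nat_lit 10861670530) (nat_lit 162) (nat_lit 5) (nat_lit 166) (nat_lit 5) (nat_lit 163) (nat_lit 5) (nat_lit 487) (nat_lit 423) (nat_lit 290)) (XT.lf (nat_lit 0) (nat_lit 4417100876) (nat_lit 228) (nat_lit 4053470974) (nat_lit 304) (nat_lit 15738457008) (nat_lit 159) (nat_lit 5) (nat_lit 162) (nat_lit 5) (nat_lit 163) (nat_lit 5) (nat_lit 488) (nat_lit 423) (nat_lit 289)))) (XT.nd (nat_lit 156) (nat_lit 304) (nat_lit 0) (XT.nd (nat_lit 78) (nat_lit 228) (nat_lit 0) (XT.lf (nat_lit 0) (nat_lit 14861051045) (nat_lit 304) (nat_lit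 4728059008) (nat_lit 76) (nat_lit 5068363486) (nat_lit 159) (nat_lit 5) (nat_lit 163) (nat_lit 5) (nat_lit 160) (nat_lit 5) (nat_lit 489) (nat_lit 423) (nat_lit 288)) (XT.lf (nat_lit 0) (nat_lit 10944844668) (nat_lit 228) (nat_lit 10633811371) (nat_lit 304) (nat_lit 3536653385) (nat_lit 156) (nat_lit 5) (nat_lit 159) (nat_lit 5) (nat_lit 160) (nat_lit 5) (nat_lit 490) (nat_lit 423) (nat_lit 287))) (XT.nd (nat_lit 78) (nat_lit 0) (nat_lit 0) (XT.lf (nat_lit 0) (nat_lit 1585534897) (nat_lit 228) (nat_lit 1322135755) (nat_lit 304) (nat_lit 22676763559) (nat_lit 152) (nat_lit 5) (nat_lit 155) (nat_lit 5) (nat_lit 156) (nat_lit 5) (nat_lit 491) (nat_lit 423) (nat_lit 286)) (XT.lf (nat_lit 0) (nat_lit 9688414280) (nat_lit 304) (nat_lit 8090992716) (nat_lit 76) (nat_lit 8280750249) (nat_lit 152) (nat_lit 5) (nat_lit 156) (nat_lit 5) (nat_lit 153) (nat_lit 5) (nat_lit 492) (nat_lit 423) (nat_lit 285))))) (XT.nd (nat_lit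 312) (nat_lit 456) (nat_lit 0) (XT.nd (nat_lit 156) (nat_lit 456) (nat_lit 0) (XT.nd (nat_lit 78) (nat_lit 0) (nat_lit 0) (XT.lf (nat_lit 0) (nat_lit 8429601847) (nat_lit 228) (nat_lit 8327562214) (nat_lit 304) (nat_lit 9790450575) (nat_lit 149) (nat_lit 5) (nat_lit 152) (nat_lit 5) (nat_lit 153) (nat_lit 5) (nat_lit 493) (nat_lit 423) (nat_lit 284)) (XT.lf (nat_lit 0) (nat_lit 24124548938) (nat_lit 304) (nat_lit 1465930379) (nat_lit 76) (nat_lit 1456619431) (nat_lit 149) (nat_lit 5) (nat_lit 153) (nat_lit 5) (nat_lit 150) (nat_lit 5) (nat_lit 494) (nat_lit 423) (nat_lit 283))) (XT.nd (nat_lit 78) (nat_lit 228) (nat_lit 0) (XT.lf (nat_lit 0) (nat_lit 4298692882) (nat_lit 228) (nat_lit 11698988853) (nat_lit 76) (nat_lit 11555839242) (nat_lit 146) (nat_lit 5) (nat_lit 149) (nat_lit 5) (nat_lit 147) (nat_lit 5) (nat_lit 495) (nat_lit 423) (nat_lit 282)) (XT.lf (nat_lit 0) (nat_lit 5716861579) (nat_lit 228) (nat_lit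 6021707702) (nat_lit 304) (nat_lit 16333876566) (nat_lit 143) (nat_lit 5) (nat_lit 146) (nat_lit 5) (nat_lit 147) (nat_lit 5) (nat_lit 496) (nat_lit 423) (nat_lit 281)))) (XT.nd (nat_lit 156) (nat_lit 304) (nat_lit 0) (XT.nd (nat_lit 78) (nat_lit 152) (nat_lit 0) (XT.lf (nat_lit 0) (nat_lit 19552726794) (nat_lit 304) (nat_lit 4766083071) (nat_lit 76) (nat_lit 4283596210) (nat_lit 143) (nat_lit 5) (nat_lit 147) (nat_lit 5) (nat_lit 144) (nat_lit 5) (nat_lit 497) (nat_lit 423) (nat_lit 280)) (XT.lf (nat_lit 0) (nat_lit 13540525465) (nat_lit 152) (nat_lit 14241720189) (nat_lit 228) (nat_lit 1360591511) (nat_lit 141) (nat_lit 5) (nat_lit 143) (nat_lit 5) (nat_lit 144) (nat_lit 5) (nat_lit 498) (nat_lit 423) (nat_lit 279))) (XT.nd (nat_lit 78) (nat_lit 0) (nat_lit 0) (XT.lf (nat_lit 0) (nat_lit 2771338434) (nat_lit 228) (nat_lit 3726264300) (nat_lit 304) (nat_lit 23197994269) (nat_lit 137) (nat_lit 5) (nat_lit 140) (nat_lit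 5) (nat_lit 141) (nat_lit 5) (nat_lit 499) (nat_lit 423) (nat_lit 278)) (XT.lf (nat_lit 0) (nat_lit 14782836680) (nat_lit 304) (nat_lit 8342767488) (nat_lit 76) (nat_lit 7132372261) (nat_lit 137) (nat_lit 5) (nat_lit 141) (nat_lit 5) (nat_lit 138) (nat_lit 5) (nat_lit 500) (nat_lit 423) (nat_lit 277))))))) (XT.nd (nat_lit 1248) (nat_lit 1596) (nat_lit 0) (XT.nd (nat_lit 624) (nat_lit 912) (nat_lit 0) (XT.nd (nat_lit 312) (nat_lit 380) (nat_lit 0) (XT.nd (nat_lit 156) (nat_lit 380) (nat_lit 0) (XT.nd (nat_lit 78) (nat_lit 76) (nat_lit 0) (XT.lf (nat_lit 0) (nat_lit 10958295704) (nat_lit 152) (nat_lit 12492052259) (nat_lit 228) (nat_lit 7382867799) (nat_lit 135) (nat_lit 5) (nat_lit 137) (nat_lit 5) (nat_lit 138) (nat_lit 5) (nat_lit 501) (nat_lit 423) (nat_lit 276)) (XT.lf (nat_lit 0) (nat_lit 1010184026) (nat_lit 228) (nat_lit 438601080) (nat_lit 76) (nat_lit 29974354950) (nat_lit 134) (nat_lit 5) (nat_lit 137)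 (nat_lit 5) (nat_lit 135) (nat_lit 5) (nat_lit 502) (nat_lit 423) (nat_lit 275))) (XT.nd (nat_lit 78) (nat_lit 152) (nat_lit 0) (XT.lf (nat_lit 0) (nat_lit 9787478752) (nat_lit 304) (nat_lit 12239794114) (nat_lit 76) (nat_lit 9992871217) (nat_lit 131) (nat_lit 5) (nat_lit 135) (nat_lit 5) (nat_lit 132) (nat_lit 5) (nat_lit 503) (nat_lit 423) (nat_lit 274)) (XT.lf (nat_lit 0) (nat_lit 8109338774) (nat_lit 152) (nat_lit 10807326261) (nat_lit 228) (nat_lit 13715736134) (nat_lit 129) (nat_lit 5) (nat_lit 131) (nat_lit 5) (nat_lit 132) (nat_lit 5) (nat_lit 504) (nat_lit 423) (nat_lit 273)))) (XT.nd (nat_lit 156) (nat_lit 152) (nat_lit 0) (XT.nd (nat_lit 78) (nat_lit 228) (nat_lit 0) (XT.lf (nat_lit 0) (nat_lit 28443595499) (nat_lit 228) (nat_lit 3962386327) (nat_lit 76) (nat_lit 853328200) (nat_lit 129) (nat_lit 5) (nat_lit 132) (nat_lit 5) (nat_lit 130) (nat_lit 5) (nat_lit 505) (nat_lit 423) (nat_lit 272)) (XT.lf (nat_lit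 0) (nat_lit 4535712601) (nat_lit 228) (nat_lit 16507252099) (nat_lit 76) (nat_lit 12852727301) (nat_lit 126) (nat_lit 5) (nat_lit 129) (nat_lit 5) (nat_lit 127) (nat_lit 5) (nat_lit 506) (nat_lit 423) (nat_lit 271))) (XT.nd (nat_lit 78) (nat_lit 0) (nat_lit 0) (XT.lf (nat_lit 0) (nat_lit 4945387410) (nat_lit 152) (nat_lit 9205552270) (nat_lit 228) (nat_lit 20396394004) (nat_lit 124) (nat_lit 5) (nat_lit 126) (nat_lit 5) (nat_lit 127) (nat_lit 5) (nat_lit 507) (nat_lit 423) (nat_lit 270)) (XT.lf (nat_lit 0) (nat_lit 24243816044) (nat_lit 228) (nat_lit 7878024646) (nat_lit 76) (nat_lit 3091008257) (nat_lit 124) (nat_lit 5) (nat_lit 127) (nat_lit 5) (nat_lit 125) (nat_lit 5) (nat_lit 508) (nat_lit 423) (nat_lit 269))))) (XT.nd (nat_lit 312) (nat_lit 380) (nat_lit 0) (XT.nd (nat_lit 156) (nat_lit 152) (nat_lit 0) (XT.nd (nat_lit 78) (nat_lit 228) (nat_lit 0) (XT.lf (nat_lit 0) (nat_lit 14679199816) (nat_lit 152) (nat_lit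 20184895872) (nat_lit 228) (nat_lit 1027495571) (nat_lit 122) (nat_lit 5) (nat_lit 124) (nat_lit 5) (nat_lit 125) (nat_lit 5) (nat_lit 509) (nat_lit 423) (nat_lit 268)) (XT.lf (nat_lit 0) (nat_lit 1410779122) (nat_lit 152) (nat_lit 7708029830) (nat_lit 228) (nat_lit 27466641780) (nat_lit 119) (nat_lit 5) (nat_lit 121) (nat_lit 5) (nat_lit 122) (nat_lit 5) (nat_lit 510) (nat_lit 423) (nat_lit 267))) (XT.nd (nat_lit 78) (nat_lit 152) (nat_lit 0) (XT.lf (nat_lit 0) (nat_lit 19807031583) (nat_lit 228) (nat_lit 12221719743) (nat_lit 76) (nat_lit 5263324141) (nat_lit 119) (nat_lit 5) (nat_lit 122) (nat_lit 5) (nat_lit 120) (nat_lit 5) (nat_lit 511) (nat_lit 423) (nat_lit 266)) (XT.lf (nat_lit 0) (nat_lit 11555631651) (nat_lit 152) (nat_lit 19440304223) (nat_lit 228) (nat_lit 7018562110) (nat_lit 117) (nat_lit 5) (nat_lit 119) (nat_lit 5) (nat_lit 120) (nat_lit 5) (nat_lit 512) (nat_lit 423) (nat_lit 265)))) (XT.nd (nat_lit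 156) (nat_lit 152) (nat_lit 0) (XT.nd (nat_lit 78) (nat_lit 152) (nat_lit 0) (XT.lf (nat_lit 0) (nat_lit 3805796128) (nat_lit 228) (nat_lit 2508816787) (nat_lit 76) (nat_lit 32439376775) (nat_lit 116) (nat_lit 5) (nat_lit 119) (nat_lit 5) (nat_lit 117) (nat_lit 5) (nat_lit 513) (nat_lit 423) (nat_lit 264)) (XT.lf (nat_lit 0) (nat_lit 15095161935) (nat_lit 228) (nat_lit 17062699660) (nat_lit 76) (nat_lit 7347279625) (nat_lit 114) (nat_lit 5) (nat_lit 117) (nat_lit 5) (nat_lit 115) (nat_lit 5) (nat_lit 514) (nat_lit 423) (nat_lit 263))) (XT.nd (nat_lit 78) (nat_lit 0) (nat_lit 0) (XT.lf (nat_lit 0) (nat_lit 7995836687) (nat_lit 152) (nat_lit 18885234169) (nat_lit 228) (nat_lit 13393020655) (nat_lit 112) (nat_lit 5) (nat_lit 114) (nat_lit 5) (nat_lit 115) (nat_lit 5) (nat_lit 515) (nat_lit 423) (nat_lit 262)) (XT.lf (nat_lit 0) (nat_lit 34143007558) (nat_lit 152) (nat_lit 5042827702) (nat_lit 228) (nat_lit 1875316782)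 (nat_lit 112) (nat_lit 5) (nat_lit 114) (nat_lit 5) (nat_lit 115) (nat_lit 5) (nat_lit 516) (nat_lit 423) (nat_lit 261)))))) (XT.nd (nat_lit 624) (nat_lit 760) (nat_lit 0) (XT.nd (nat_lit 312) (nat_lit 304) (nat_lit 0) (XT.nd (nat_lit 156) (nat_lit 152) (nat_lit 0) (XT.nd (nat_lit 78) (nat_lit 152) (nat_lit 0) (XT.lf (nat_lit 0) (nat_lit 10064657804) (nat_lit 228) (nat_lit 22480744634) (nat_lit 76) (nat_lit 9315392529) (nat_lit 109) (nat_lit 5) (nat_lit 112) (nat_lit 5) (nat_lit 110) (nat_lit 5) (nat_lit 517) (nat_lit 423) (nat_lit 260)) (XT.lf (nat_lit 0) (nat_lit 3921328893) (nat_lit 152) (nat_lit 18555125730) (nat_lit 228) (nat_lit 20202876151) (nat_lit 107) (nat_lit 5) (nat_lit 109) (nat_lit 5) (nat_lit 110) (nat_lit 5) (nat_lit 518) (nat_lit 423) (nat_lit 259))) (XT.nd (nat_lit 78) (nat_lit 152) (nat_lit 0) (XT.lf (nat_lit 0) (nat_lit 31563745151) (nat_lit 152) (nat_lit 3917091197) (nat_lit 228) (nat_lit 8034979447)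 (nat_lit 107) (nat_lit 5) (nat_lit 109) (nat_lit 5) (nat_lit 110) (nat_lit 5) (nat_lit 519) (nat_lit 423) (nat_lit 258)) (XT.lf (nat_lit 0) (nat_lit 4665665830) (nat_lit 152) (nat_lit 28567872480) (nat_lit 76) (nat_lit 11134895520) (nat_lit 105) (nat_lit 5) (nat_lit 107) (nat_lit 5) (nat_lit 106) (nat_lit 5) (nat_lit 520) (nat_lit 423) (nat_lit 257)))) (XT.nd (nat_lit 156) (nat_lit 152) (nat_lit 0) (XT.nd (nat_lit 78) (nat_lit 152) (nat_lit 0) (XT.lf (nat_lit 0) (nat_lit 17739879961) (nat_lit 152) (nat_lit 744105717) (nat_lit 76) (nat_lit 26755636825) (nat_lit 105) (nat_lit 5) (nat_lit 107) (nat_lit 5) (nat_lit 106) (nat_lit 5) (nat_lit 521) (nat_lit 423) (nat_lit 256)) (XT.lf (nat_lit 0) (nat_lit 28457704010) (nat_lit 152) (nat_lit 3015736446) (nat_lit 228) (nat_lit 14655492843) (nat_lit 103) (nat_lit 5) (nat_lit 105) (nat_lit 5) (nat_lit 106) (nat_lit 5) (nat_lit 522) (nat_lit 423) (nat_lit 255))) (XT.nd (nat_lit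 78) (nat_lit 76) (nat_lit 0) (XT.lf (nat_lit 0) (nat_lit 11596167390) (nat_lit 76) (nat_lit 34259647589) (nat_lit 152) (nat_lit 1182004282) (nat_lit 102) (nat_lit 5) (nat_lit 103) (nat_lit 5) (nat_lit 104) (nat_lit 4) (nat_lit 523) (nat_lit 423) (nat_lit 254)) (XT.lf (nat_lit 0) (nat_lit 12651617810) (nat_lit 152) (nat_lit 6030466506) (nat_lit 76) (nat_lit 29282116354) (nat_lit 101) (nat_lit 5) (nat_lit 103) (nat_lit 5) (nat_lit 102) (nat_lit 5) (nat_lit 524) (nat_lit 423) (nat_lit 253))))) (XT.nd (nat_lit 312) (nat_lit 304) (nat_lit 0) (XT.nd (nat_lit 156) (nat_lit 228) (nat_lit 0) (XT.nd (nat_lit 78) (nat_lit 76) (nat_lit 0) (XT.lf (nat_lit 0) (nat_lit 24722106014) (nat_lit 152) (nat_lit 2385813104) (nat_lit 228) (nat_lit 21803160539) (nat_lit 99) (nat_lit 5) (nat_lit 101) (nat_lit 5) (nat_lit 102) (nat_lit 5) (nat_lit 525) (nat_lit 423) (nat_lit 252)) (XT.lf (nat_lit 0) (nat_lit 6614713966) (nat_lit 76) (nat_lit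 35640496100) (nat_lit 152) (nat_lit 7623435982) (nat_lit 98) (nat_lit 5) (nat_lit 99) (nat_lit 5) (nat_lit 100) (nat_lit 4) (nat_lit 526) (nat_lit 423) (nat_lit 251))) (XT.nd (nat_lit 78) (nat_lit 152) (nat_lit 0) (XT.lf (nat_lit 0) (nat_lit 7109554522) (nat_lit 152) (nat_lit 12134391281) (nat_lit 76) (nat_lit 31621356954) (nat_lit 97) (nat_lit 5) (nat_lit 99) (nat_lit 5) (nat_lit 98) (nat_lit 5) (nat_lit 527) (nat_lit 423) (nat_lit 250)) (XT.lf (nat_lit 0) (nat_lit 20237105866) (nat_lit 152) (nat_lit 2082727479) (nat_lit 228) (nat_lit 29553805819) (nat_lit 95) (nat_lit 5) (nat_lit 97) (nat_lit 5) (nat_lit 98) (nat_lit 5) (nat_lit 528) (nat_lit 423) (nat_lit 249)))) (XT.nd (nat_lit 156) (nat_lit 152) (nat_lit 0) (XT.nd (nat_lit 78) (nat_lit 76) (nat_lit 0) (XT.lf (nat_lit 0) (nat_lit 772545446) (nat_lit 76) (nat_lit 37488947407) (nat_lit 152) (nat_lit 14642480688) (nat_lit 94) (nat_lit 5) (nat_lit 95) (nat_lit 5)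 (nat_lit 96) (nat_lit 4) (nat_lit 529) (nat_lit 423) (nat_lit 248)) (XT.lf (nat_lit 0) (nat_lit 1039474351) (nat_lit 152) (nat_lit 19195261004) (nat_lit 76) (nat_lit 33720158141) (nat_lit 93) (nat_lit 5) (nat_lit 95) (nat_lit 5) (nat_lit 94) (nat_lit 5) (nat_lit 530) (nat_lit 423) (nat_lit 247))) (XT.nd (nat_lit 78) (nat_lit 0) (nat_lit 0) (XT.lf (nat_lit 0) (nat_lit 14863005027) (nat_lit 152) (nat_lit 2171644715) (nat_lit 228) (nat_lit 37994230268) (nat_lit 91) (nat_lit 5) (nat_lit 93) (nat_lit 5) (nat_lit 94) (nat_lit 5) (nat_lit 531) (nat_lit 423) (nat_lit 246)) (XT.lf (nat_lit 0) (nat_lit 33857604424) (nat_lit 228) (nat_lit 5963710593) (nat_lit 76) (nat_lit 16303333422) (nat_lit 91) (nat_lit 5) (nat_lit 94) (nat_lit 5) (nat_lit 92) (nat_lit 4) (nat_lit 532) (nat_lit 423) (nat_lit 245))))))))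
noncomputable def xc148 : XT := (XT.nd (nat_lit 54912) (nat_lit 0) (nat_lit 11324) (XT.nd (nat_lit 1170) (nat_lit 228) (nat_lit 0) (XT.nd (nat_lit 546) (nat_lit 684) (nat_lit 0) (XT.nd (nat_lit 234) (nat_lit 380) (nat_lit 0) (XT.nd (nat_lit 78) (nat_lit 228) (nat_lit 0) (XT.lf (nat_lit 0) (nat_lit 29814062948) (nat_lit 76) (nat_lit 21673649155) (nat_lit 152) (nat_lit 5756503928) (nat_lit 90) (nat_lit 5) (nat_lit 91) (nat_lit 5) (nat_lit 92) (nat_lit 4) (nat_lit 533) (nat_lit 423) (nat_lit 244)) (XT.nd (nat_lit 78) (nat_lit 0) (nat_lit 0) (XT.lf (nat_lit 0) (nat_lit 8437019873) (nat_lit 152) (nat_lit 2729115459) (nat_lit 228) (nat_lit 47223902338) (nat_lit 87) (nat_lit 5) (nat_lit 89) (nat_lit 5) (nat_lit 90) (nat_lit 5) (nat_lit 534) (nat_lit 423) (nat_lit 243)) (XT.lf (nat_lit 0) (nat_lit 28916213925) (nat_lit 228) (nat_lit 13851251779) (nat_lit 76) (nat_lit 16787994630) (nat_lit 87) (nat_lit 5) (nat_lit 90) (nat_lit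 5) (nat_lit 88) (nat_lit 4) (nat_lit 535) (nat_lit 423) (nat_lit 242)))) (XT.nd (nat_lit 156) (nat_lit 76) (nat_lit 0) (XT.nd (nat_lit 78) (nat_lit 228) (nat_lit 0) (XT.lf (nat_lit 0) (nat_lit 23759744142) (nat_lit 76) (nat_lit 23689019463) (nat_lit 152) (nat_lit 13299583049) (nat_lit 86) (nat_lit 5) (nat_lit 87) (nat_lit 5) (nat_lit 88) (nat_lit 4) (nat_lit 536) (nat_lit 423) (nat_lit 241)) (XT.lf (nat_lit 0) (nat_lit 769532714) (nat_lit 152) (nat_lit 3844963215) (nat_lit 228) (nat_lit 57356912194) (nat_lit 83) (nat_lit 5) (nat_lit 85) (nat_lit 5) (nat_lit 86) (nat_lit 5) (nat_lit 537) (nat_lit 423) (nat_lit 240))) (XT.nd (nat_lit 78) (nat_lit 76) (nat_lit 0) (XT.lf (nat_lit 0) (nat_lit 23329986742) (nat_lit 228) (nat_lit 23106664404) (nat_lit 76) (nat_lit 16774621015) (nat_lit 83) (nat_lit 5) (nat_lit 86) (nat_lit 5) (nat_lit 84) (nat_lit 4) (nat_lit 538) (nat_lit 423) (nat_lit 239)) (XT.lf (nat_lit 0) (nat_lit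 16403267837) (nat_lit 76) (nat_lit 26394151480) (nat_lit 152) (nat_lit 21685198523) (nat_lit 82) (nat_lit 5) (nat_lit 83) (nat_lit 5) (nat_lit 84) (nat_lit 4) (nat_lit 539) (nat_lit 423) (nat_lit 238))))) (XT.nd (nat_lit 312) (nat_lit 380) (nat_lit 0) (XT.nd (nat_lit 156) (nat_lit 76) (nat_lit 0) (XT.nd (nat_lit 78) (nat_lit 228) (nat_lit 0) (XT.lf (nat_lit 0) (nat_lit 57562108566) (nat_lit 76) (nat_lit 5514885019) (nat_lit 152) (nat_lit 2708266774) (nat_lit 82) (nat_lit 5) (nat_lit 83) (nat_lit 5) (nat_lit 84) (nat_lit 4) (nat_lit 540) (nat_lit 423) (nat_lit 237)) (XT.lf (nat_lit 0) (nat_lit 16982898439) (nat_lit 228) (nat_lit 33964162957) (nat_lit 76) (nat_lit 16160860229) (nat_lit 79) (nat_lit 5) (nat_lit 82) (nat_lit 5) (nat_lit 80) (nat_lit 4) (nat_lit 541) (nat_lit 423) (nat_lit 236))) (XT.nd (nat_lit 78) (nat_lit 0) (nat_lit 0) (XT.lf (nat_lit 0) (nat_lit 7506845329) (nat_lit 76) (nat_lit 29909041029) (nat_lit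 152) (nat_lit 31047406328) (nat_lit 78) (nat_lit 5) (nat_lit 79) (nat_lit 5) (nat_lit 80) (nat_lit 4) (nat_lit 542) (nat_lit 423) (nat_lit 235)) (XT.lf (nat_lit 0) (nat_lit 50908440535) (nat_lit 76) (nat_lit 7891347612) (nat_lit 152) (nat_lit 11049399031) (nat_lit 78) (nat_lit 5) (nat_lit 79) (nat_lit 5) (nat_lit 80) (nat_lit 4) (nat_lit 543) (nat_lit 423) (nat_lit 234)))) (XT.nd (nat_lit 156) (nat_lit 228) (nat_lit 0) (XT.nd (nat_lit 78) (nat_lit 0) (nat_lit 0) (XT.lf (nat_lit 0) (nat_lit 9740218914) (nat_lit 152) (nat_lit 46695928243) (nat_lit 76) (nat_lit 14826417870) (nat_lit 76) (nat_lit 5) (nat_lit 78) (nat_lit 5) (nat_lit 77) (nat_lit 4) (nat_lit 544) (nat_lit 423) (nat_lit 233)) (XT.lf (nat_lit 0) (nat_lit 31197793583) (nat_lit 152) (nat_lit 3144121525) (nat_lit 76) (nat_lit 38365156624) (nat_lit 76) (nat_lit 5) (nat_lit 78) (nat_lit 5) (nat_lit 77) (nat_lit 4) (nat_lit 545) (nat_lit 423) (nat_lit 232)))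 (XT.nd (nat_lit 78) (nat_lit 152) (nat_lit 0) (XT.lf (nat_lit 0) (nat_lit 42534930799) (nat_lit 76) (nat_lit 11168240254) (nat_lit 152) (nat_lit 20479620342) (nat_lit 75) (nat_lit 5) (nat_lit 76) (nat_lit 5) (nat_lit 77) (nat_lit 4) (nat_lit 546) (nat_lit 423) (nat_lit 231)) (XT.lf (nat_lit 0) (nat_lit 1445508395) (nat_lit 152) (nat_lit 61618210638) (nat_lit 76) (nat_lit 12630094324) (nat_lit 73) (nat_lit 5) (nat_lit 75) (nat_lit 5) (nat_lit 74) (nat_lit 4) (nat_lit 547) (nat_lit 423) (nat_lit 230)))))) (XT.nd (nat_lit 53118) (nat_lit 0) (nat_lit 21128) (XT.nd (nat_lit 52806) (nat_lit 0) (nat_lit 21964) (XT.nd (nat_lit 156) (nat_lit 152) (nat_lit 0) (XT.nd (nat_lit 78) (nat_lit 76) (nat_lit 0) (XT.lf (nat_lit 0) (nat_lit 24045308518) (nat_lit 152) (nat_lit 15746897865) (nat_lit 76) (nat_lit 37439020433) (nat_lit 73) (nat_lit 5) (nat_lit 75) (nat_lit 5) (nat_lit 74) (nat_lit 4) (nat_lit 548) (nat_lit 423) (nat_lit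 229)) (XT.lf (nat_lit 0) (nat_lit 32118238505) (nat_lit 76) (nat_lit 15508959123) (nat_lit 152) (nat_lit 31178442224) (nat_lit 72) (nat_lit 5) (nat_lit 73) (nat_lit 5) (nat_lit 74) (nat_lit 4) (nat_lit 549) (nat_lit 423) (nat_lit 228))) (XT.nd (nat_lit 78) (nat_lit 76) (nat_lit 0) (XT.lf (nat_lit 0) (nat_lit 1241856807) (nat_lit 76) (nat_lit 70933919719) (nat_lit 76) (nat_lit 8243731780) (nat_lit 71) (nat_lit 4) (nat_lit 72) (nat_lit 5) (nat_lit 72) (nat_lit 4) (nat_lit 550) (nat_lit 423) (nat_lit 227)) (XT.lf (nat_lit 0) (nat_lit 15703958205) (nat_lit 152) (nat_lit 30816733793) (nat_lit 76) (nat_lit 35537914709) (nat_lit 70) (nat_lit 5) (nat_lit 72) (nat_lit 5) (nat_lit 71) (nat_lit 4) (nat_lit 551) (nat_lit 423) (nat_lit 226)))) (XT.nd (nat_lit 156) (nat_lit 0) (nat_lit 76) (XT.nd (nat_lit 78) (nat_lit 0) (nat_lit 0) (XT.lf (nat_lit 0) (nat_lit 269622131) (nat_lit 1140) (nat_lit 2088645251) (nat_lit 1140) (nat_lit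 2088645251) (nat_lit 359) (nat_lit 3) (nat_lit 374) (nat_lit 3) (nat_lit 374) (nat_lit 5) (nat_lit 424) (nat_lit 424) (nat_lit 352)) (XT.lf (nat_lit 76) (nat_lit 258035322) (nat_lit 0) (nat_lit 1220603821) (nat_lit 1140) (nat_lit 7520607470) (nat_lit 360) (nat_lit 5) (nat_lit 359) (nat_lit 3) (nat_lit 374) (nat_lit 5) (nat_lit 425) (nat_lit 424) (nat_lit 351))) (XT.nd (nat_lit 78) (nat_lit 0) (nat_lit 0) (XT.lf (nat_lit 0) (nat_lit 2475430619) (nat_lit 1064) (nat_lit 4238114413) (nat_lit 1140) (nat_lit 2393410953) (nat_lit 360) (nat_lit 5) (nat_lit 374) (nat_lit 5) (nat_lit 375) (nat_lit 5) (nat_lit 426) (nat_lit 424) (nat_lit 350)) (XT.lf (nat_lit 76) (nat_lit 375608065) (nat_lit 0) (nat_lit 3107004476) (nat_lit 1140) (nat_lit 5735871271) (nat_lit 361) (nat_lit 5) (nat_lit 360) (nat_lit 5) (nat_lit 375) (nat_lit 5) (nat_lit 427) (nat_lit 424) (nat_lit 349))))) (XT.nd (nat_lit 312) (nat_lit 988) (nat_lit 0) (XT.nd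 (nat_lit 156) (nat_lit 0) (nat_lit 0) (XT.nd (nat_lit 78) (nat_lit 0) (nat_lit 0) (XT.lf (nat_lit 0) (nat_lit 4534843793) (nat_lit 1064) (nat_lit 4144413758) (nat_lit 1140) (nat_lit 653656631) (nat_lit 361) (nat_lit 5) (nat_lit 375) (nat_lit 5) (nat_lit 376) (nat_lit 5) (nat_lit 428) (nat_lit 424) (nat_lit 348)) (XT.lf (nat_lit 76) (nat_lit 656968257) (nat_lit 0) (nat_lit 4965519871) (nat_lit 1140) (nat_lit 3828175624) (nat_lit 362) (nat_lit 5) (nat_lit 361) (nat_lit 5) (nat_lit 376) (nat_lit 5) (nat_lit 429) (nat_lit 424) (nat_lit 347))) (XT.nd (nat_lit 78) (nat_lit 0) (nat_lit 76) (XT.lf (nat_lit 76) (nat_lit 5667453893) (nat_lit 0) (nat_lit 1084703567) (nat_lit 1140) (nat_lit 2819508101) (nat_lit 362) (nat_lit 5) (nat_lit 361) (nat_lit 5) (nat_lit 376) (nat_lit 5) (nat_lit 430) (nat_lit 424) (nat_lit 346)) (XT.lf (nat_lit 76) (nat_lit 1105146064) (nat_lit 0) (nat_lit 6817798962) (nat_lit 1140) (nat_lit 1773137133)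 (nat_lit 363) (nat_lit 5) (nat_lit 362) (nat_lit 5) (nat_lit 377) (nat_lit 5) (nat_lit 431) (nat_lit 424) (nat_lit 345)))) (XT.nd (nat_lit 156) (nat_lit 0) (nat_lit 0) (XT.nd (nat_lit 78) (nat_lit 1064) (nat_lit 0) (XT.lf (nat_lit 76) (nat_lit 6313684556) (nat_lit 0) (nat_lit 2834558981) (nat_lit 1140) (nat_lit 675407629) (nat_lit 363) (nat_lit 5) (nat_lit 362) (nat_lit 5) (nat_lit 377) (nat_lit 5) (nat_lit 432) (nat_lit 424) (nat_lit 344)) (XT.lf (nat_lit 0) (nat_lit 445444547) (nat_lit 1140) (nat_lit 8235138569) (nat_lit 1216) (nat_lit 1274362052) (nat_lit 348) (nat_lit 5) (nat_lit 363) (nat_lit 5) (nat_lit 364) (nat_lit 5) (nat_lit 433) (nat_lit 424) (nat_lit 343))) (XT.nd (nat_lit 78) (nat_lit 0) (nat_lit 0) (XT.lf (nat_lit 0) (nat_lit 1620906178) (nat_lit 1140) (nat_lit 2966760740) (nat_lit 1216) (nat_lit 5501275091) (nat_lit 348) (nat_lit 5) (nat_lit 363) (nat_lit 5) (nat_lit 364) (nat_lit 5) (nat_lit 434)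 (nat_lit 424) (nat_lit 342)) (XT.lf (nat_lit 76) (nat_lit 2487859334) (nat_lit 0) (nat_lit 339239832) (nat_lit 1216) (nat_lit 7399996923) (nat_lit 349) (nat_lit 5) (nat_lit 348) (nat_lit 5) (nat_lit 364) (nat_lit 5) (nat_lit 435) (nat_lit 424) (nat_lit 341))))))) (XT.nd (nat_lit 1170) (nat_lit 4940) (nat_lit 0) (XT.nd (nat_lit 546) (nat_lit 2660) (nat_lit 0) (XT.nd (nat_lit 234) (nat_lit 2280) (nat_lit 0) (XT.nd (nat_lit 78) (nat_lit 0) (nat_lit 0) (XT.lf (nat_lit 0) (nat_lit 4110796763) (nat_lit 1140) (nat_lit 2261727518) (nat_lit 1216) (nat_lit 3995632267) (nat_lit 349) (nat_lit 5) (nat_lit 364) (nat_lit 5) (nat_lit 365) (nat_lit 5) (nat_lit 436) (nat_lit 424) (nat_lit 340)) (XT.nd (nat_lit 78) (nat_lit 0) (nat_lit 76) (XT.lf (nat_lit 76) (nat_lit 3423092720) (nat_lit 0) (nat_lit 2019245250) (nat_lit 1216) (nat_lit 5070832153) (nat_lit 350) (nat_lit 5) (nat_lit 349) (nat_lit 5) (nat_lit 365) (nat_lit 5) (nat_lit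 437) (nat_lit 424) (nat_lit 339)) (XT.lf (nat_lit 0) (nat_lit 6834299379) (nat_lit 1140) (nat_lit 1382047693) (nat_lit 1216) (nat_lit 2445574059) (nat_lit 350) (nat_lit 5) (nat_lit 365) (nat_lit 5) (nat_lit 366) (nat_lit 5) (nat_lit 438) (nat_lit 424) (nat_lit 338)))) (XT.nd (nat_lit 156) (nat_lit 2356) (nat_lit 0) (XT.nd (nat_lit 78) (nat_lit 0) (nat_lit 76) (XT.lf (nat_lit 76) (nat_lit 4545441086) (nat_lit 0) (nat_lit 3760747419) (nat_lit 1216) (nat_lit 2507802307) (nat_lit 351) (nat_lit 5) (nat_lit 350) (nat_lit 5) (nat_lit 366) (nat_lit 5) (nat_lit 439) (nat_lit 424) (nat_lit 337)) (XT.lf (nat_lit 0) (nat_lit 9819368711) (nat_lit 1140) (nat_lit 320302798) (nat_lit 76) (nat_lit 831038215) (nat_lit 351) (nat_lit 5) (nat_lit 366) (nat_lit 5) (nat_lit 352) (nat_lit 5) (nat_lit 440) (nat_lit 424) (nat_lit 336))) (XT.nd (nat_lit 78) (nat_lit 1216) (nat_lit 0) (XT.lf (nat_lit 0) (nat_lit 311100153) (nat_lit 1216) (nat_lit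 5270000444) (nat_lit 76) (nat_lit 5548857344) (nat_lit 335) (nat_lit 5) (nat_lit 351) (nat_lit 5) (nat_lit 336) (nat_lit 5) (nat_lit 441) (nat_lit 424) (nat_lit 335)) (XT.lf (nat_lit 0) (nat_lit 924163099) (nat_lit 1216) (nat_lit 858337031) (nat_lit 1292) (nat_lit 9511495772) (nat_lit 319) (nat_lit 5) (nat_lit 335) (nat_lit 5) (nat_lit 336) (nat_lit 5) (nat_lit 442) (nat_lit 424) (nat_lit 334))))) (XT.nd (nat_lit 312) (nat_lit 1216) (nat_lit 0) (XT.nd (nat_lit 156) (nat_lit 608) (nat_lit 0) (XT.nd (nat_lit 78) (nat_lit 836) (nat_lit 0) (XT.lf (nat_lit 0) (nat_lit 3366898241) (nat_lit 1292) (nat_lit 4109485437) (nat_lit 76) (nat_lit 3984506684) (nat_lit 319) (nat_lit 5) (nat_lit 336) (nat_lit 5) (nat_lit 320) (nat_lit 5) (nat_lit 443) (nat_lit 424) (nat_lit 333)) (XT.lf (nat_lit 0) (nat_lit 2355485294) (nat_lit 836) (nat_lit 2651768597) (nat_lit 912) (nat_lit 6625286009) (nat_lit 308) (nat_lit 5) (nat_lit 319) (nat_lit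 5) (nat_lit 320) (nat_lit 5) (nat_lit 444) (nat_lit 424) (nat_lit 332))) (XT.nd (nat_lit 78) (nat_lit 608) (nat_lit 0) (XT.lf (nat_lit 0) (nat_lit 6738774042) (nat_lit 912) (nat_lit 2753273319) (nat_lit 76) (nat_lit 2316033931) (nat_lit 308) (nat_lit 5) (nat_lit 320) (nat_lit 5) (nat_lit 309) (nat_lit 5) (nat_lit 445) (nat_lit 424) (nat_lit 331)) (XT.lf (nat_lit 0) (nat_lit 3997450557) (nat_lit 608) (nat_lit 4567885045) (nat_lit 684) (nat_lit 3422261402) (nat_lit 300) (nat_lit 5) (nat_lit 308) (nat_lit 5) (nat_lit 309) (nat_lit 5) (nat_lit 446) (nat_lit 424) (nat_lit 330)))) (XT.nd (nat_lit 156) (nat_lit 532) (nat_lit 0) (XT.nd (nat_lit 78) (nat_lit 684) (nat_lit 0) (XT.lf (nat_lit 0) (nat_lit 10458472836) (nat_lit 684) (nat_lit 1190611286) (nat_lit 76) (nat_lit 523061629) (nat_lit 300) (nat_lit 5) (nat_lit 309) (nat_lit 5) (nat_lit 301) (nat_lit 5) (nat_lit 447) (nat_lit 424) (nat_lit 329)) (XT.lf (nat_lit 0) (nat_lit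 127118685) (nat_lit 684) (nat_lit 6499332386) (nat_lit 76) (nat_lit 5733312054) (nat_lit 291) (nat_lit 5) (nat_lit 300) (nat_lit 5) (nat_lit 292) (nat_lit 5) (nat_lit 448) (nat_lit 424) (nat_lit 328))) (XT.nd (nat_lit 78) (nat_lit 0) (nat_lit 0) (XT.lf (nat_lit 0) (nat_lit 568205780) (nat_lit 532) (nat_lit 1417764980) (nat_lit 608) (nat_lit 10566611699) (nat_lit 284) (nat_lit 5) (nat_lit 291) (nat_lit 5) (nat_lit 292) (nat_lit 5) (nat_lit 449) (nat_lit 424) (nat_lit 327)) (XT.lf (nat_lit 0) (nat_lit 3984879642) (nat_lit 608) (nat_lit 4827760862) (nat_lit 76) (nat_lit 3936017955) (nat_lit 284) (nat_lit 5) (nat_lit 292) (nat_lit 5) (nat_lit 285) (nat_lit 5) (nat_lit 450) (nat_lit 424) (nat_lit 326)))))) (XT.nd (nat_lit 624) (nat_lit 2280) (nat_lit 0) (XT.nd (nat_lit 312) (nat_lit 1520) (nat_lit 0) (XT.nd (nat_lit 156) (nat_lit 532) (nat_lit 0) (XT.nd (nat_lit 78) (nat_lit 0) (nat_lit 0) (XT.lf (nat_lit 0) (nat_lit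 2559112979) (nat_lit 608) (nat_lit 3503928583) (nat_lit 684) (nat_lit 6886997403) (nat_lit 276) (nat_lit 5) (nat_lit 284) (nat_lit 5) (nat_lit 285) (nat_lit 5) (nat_lit 451) (nat_lit 424) (nat_lit 325)) (XT.lf (nat_lit 0) (nat_lit 8252669145) (nat_lit 684) (nat_lit 2929503568) (nat_lit 76) (nat_lit 1973815325) (nat_lit 276) (nat_lit 5) (nat_lit 285) (nat_lit 5) (nat_lit 277) (nat_lit 5) (nat_lit 452) (nat_lit 424) (nat_lit 324))) (XT.nd (nat_lit 78) (nat_lit 0) (nat_lit 0) (XT.lf (nat_lit 0) (nat_lit 4794530310) (nat_lit 532) (nat_lit 5775796345) (nat_lit 608) (nat_lit 2795919448) (nat_lit 269) (nat_lit 5) (nat_lit 276) (nat_lit 5) (nat_lit 277) (nat_lit 5) (nat_lit 453) (nat_lit 424) (nat_lit 323)) (XT.lf (nat_lit 0) (nat_lit 12790436783) (nat_lit 532) (nat_lit 178565901) (nat_lit 608) (nat_lit 613465295) (nat_lit 269) (nat_lit 5) (nat_lit 276) (nat_lit 5) (nat_lit 277) (nat_lit 5) (nat_lit 454) (nat_lit 424) (nat_lit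 322)))) (XT.nd (nat_lit 156) (nat_lit 456) (nat_lit 0) (XT.nd (nat_lit 78) (nat_lit 456) (nat_lit 0) (XT.lf (nat_lit 0) (nat_lit 1709810896) (nat_lit 608) (nat_lit 6528994125) (nat_lit 76) (nat_lit 5562683554) (nat_lit 261) (nat_lit 5) (nat_lit 269) (nat_lit 5) (nat_lit 262) (nat_lit 5) (nat_lit 455) (nat_lit 424) (nat_lit 321)) (XT.lf (nat_lit 0) (nat_lit 1571103940) (nat_lit 456) (nat_lit 2526867414) (nat_lit 532) (nat_lit 9928701407) (nat_lit 255) (nat_lit 5) (nat_lit 261) (nat_lit 5) (nat_lit 262) (nat_lit 5) (nat_lit 456) (nat_lit 424) (nat_lit 320))) (XT.nd (nat_lit 78) (nat_lit 456) (nat_lit 0) (XT.lf (nat_lit 0) (nat_lit 6639483746) (nat_lit 532) (nat_lit 4261785644) (nat_lit 76) (nat_lit 3354892518) (nat_lit 255) (nat_lit 5) (nat_lit 262) (nat_lit 5) (nat_lit 256) (nat_lit 5) (nat_lit 457) (nat_lit 424) (nat_lit 319)) (XT.lf (nat_lit 0) (nat_lit 4215362866) (nat_lit 456) (nat_lit 5090777260) (nat_lit 532)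 (nat_lit 5184929276) (nat_lit 249) (nat_lit 5) (nat_lit 255) (nat_lit 5) (nat_lit 256) (nat_lit 5) (nat_lit 458) (nat_lit 424) (nat_lit 318))))) (XT.nd (nat_lit 312) (nat_lit 1292) (nat_lit 0) (XT.nd (nat_lit 156) (nat_lit 456) (nat_lit 0) (XT.nd (nat_lit 78) (nat_lit 532) (nat_lit 0) (XT.lf (nat_lit 0) (nat_lit 12088478422) (nat_lit 532) (nat_lit 1726519054) (nat_lit 76) (nat_lit 916956792) (nat_lit 249) (nat_lit 5) (nat_lit 256) (nat_lit 5) (nat_lit 250) (nat_lit 5) (nat_lit 459) (nat_lit 424) (nat_lit 317)) (XT.lf (nat_lit 0) (nat_lit 78972094) (nat_lit 532) (nat_lit 7828876263) (nat_lit 76) (nat_lit 7069097897) (nat_lit 242) (nat_lit 5) (nat_lit 249) (nat_lit 5) (nat_lit 243) (nat_lit 5) (nat_lit 460) (nat_lit 424) (nat_lit 316))) (XT.nd (nat_lit 78) (nat_lit 0) (nat_lit 0) (XT.lf (nat_lit 0) (nat_lit 1070571181) (nat_lit 456) (nat_lit 1771515901) (nat_lit 532) (nat_lit 12386052541) (nat_lit 236) (nat_lit 5)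 (nat_lit 242) (nat_lit 5) (nat_lit 243) (nat_lit 5) (nat_lit 461) (nat_lit 424) (nat_lit 315)) (XT.lf (nat_lit 0) (nat_lit 5796125458) (nat_lit 532) (nat_lit 5151255716) (nat_lit 76) (nat_lit 4536247265) (nat_lit 236) (nat_lit 5) (nat_lit 243) (nat_lit 5) (nat_lit 237) (nat_lit 5) (nat_lit 462) (nat_lit 424) (nat_lit 314)))) (XT.nd (nat_lit 156) (nat_lit 912) (nat_lit 0) (XT.nd (nat_lit 78) (nat_lit 0) (nat_lit 0) (XT.lf (nat_lit 0) (nat_lit 4169916190) (nat_lit 380) (nat_lit 4711408875) (nat_lit 456) (nat_lit 6864181183) (nat_lit 231) (nat_lit 5) (nat_lit 236) (nat_lit 5) (nat_lit 237) (nat_lit 5) (nat_lit 463) (nat_lit 424) (nat_lit 313)) (XT.lf (nat_lit 0) (nat_lit 12113200249) (nat_lit 456) (nat_lit 2173707425) (nat_lit 76) (nat_lit 1726709640) (nat_lit 231) (nat_lit 5) (nat_lit 237) (nat_lit 5) (nat_lit 232) (nat_lit 5) (nat_lit 464) (nat_lit 424) (nat_lit 312))) (XT.nd (nat_lit 78) (nat_lit 456) (nat_lit 0)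 (XT.lf (nat_lit 0) (nat_lit 7592935883) (nat_lit 456) (nat_lit 7954297989) (nat_lit 532) (nat_lit 739382273) (nat_lit 225) (nat_lit 5) (nat_lit 231) (nat_lit 5) (nat_lit 232) (nat_lit 5) (nat_lit 465) (nat_lit 424) (nat_lit 311)) (XT.lf (nat_lit 0) (nat_lit 1108295460) (nat_lit 380) (nat_lit 1377570519) (nat_lit 456) (nat_lit 14080659089) (nat_lit 219) (nat_lit 5) (nat_lit 224) (nat_lit 5) (nat_lit 225) (nat_lit 5) (nat_lit 466) (nat_lit 424) (nat_lit 310))))))))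
noncomputable def xc149 : XT := (XT.nd (nat_lit 2418) (nat_lit 3648) (nat_lit 0) (XT.nd (nat_lit 1170) (nat_lit 2584) (nat_lit 0) (XT.nd (nat_lit 546) (nat_lit 1672) (nat_lit 0) (XT.nd (nat_lit 234) (nat_lit 1140) (nat_lit 0) (XT.nd (nat_lit 78) (nat_lit 380) (nat_lit 0) (XT.lf (nat_lit 0) (nat_lit 5919403050) (nat_lit 456) (nat_lit 5548827421) (nat_lit 76) (nat_lit 5382589860) (nat_lit 219) (nat_lit 5) (nat_lit 225) (nat_lit 5) (nat_lit 220) (nat_lit 5) (nat_lit 467) (nat_lit 424) (nat_lit 309)) (XT.nd (nat_lit 78) (nat_lit 0) (nat_lit 0) (XT.lf (nat_lit 0) (nat_lit 4717725557) (nat_lit 380) (nat_lit 4783481334) (nat_lit 456) (nat_lit 7641080182) (nat_lit 214) (nat_lit 5) (nat_lit 219) (nat_lit 5) (nat_lit 220) (nat_lit 5) (nat_lit 468) (nat_lit 424) (nat_lit 308)) (XT.lf (nat_lit 0) (nat_lit 13253703977) (nat_lit 456) (nat_lit 2074283580) (nat_lit 76) (nat_lit 2112613516) (nat_lit 214) (nat_lit 5) (nat_lit 220)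 (nat_lit 5) (nat_lit 215) (nat_lit 5) (nat_lit 469) (nat_lit 424) (nat_lit 307)))) (XT.nd (nat_lit 156) (nat_lit 304) (nat_lit 0) (XT.nd (nat_lit 78) (nat_lit 456) (nat_lit 0) (XT.lf (nat_lit 0) (nat_lit 8690542050) (nat_lit 380) (nat_lit 8545976837) (nat_lit 456) (nat_lit 507813737) (nat_lit 209) (nat_lit 5) (nat_lit 214) (nat_lit 5) (nat_lit 215) (nat_lit 5) (nat_lit 470) (nat_lit 424) (nat_lit 306)) (XT.lf (nat_lit 0) (nat_lit 1748384661) (nat_lit 380) (nat_lit 1494105392) (nat_lit 456) (nat_lit 14812993568) (nat_lit 203) (nat_lit 5) (nat_lit 208) (nat_lit 5) (nat_lit 209) (nat_lit 5) (nat_lit 471) (nat_lit 424) (nat_lit 305))) (XT.nd (nat_lit 78) (nat_lit 304) (nat_lit 0) (XT.lf (nat_lit 0) (nat_lit 7229966680) (nat_lit 456) (nat_lit 5392821497) (nat_lit 76) (nat_lit 5748984409) (nat_lit 203) (nat_lit 5) (nat_lit 209) (nat_lit 5) (nat_lit 204) (nat_lit 5) (nat_lit 472) (nat_lit 424) (nat_lit 304)) (XT.lf (nat_lit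 0) (nat_lit 5931958855) (nat_lit 304) (nat_lit 5464381048) (nat_lit 380) (nat_lit 7299432519) (nat_lit 199) (nat_lit 5) (nat_lit 203) (nat_lit 5) (nat_lit 204) (nat_lit 5) (nat_lit 473) (nat_lit 424) (nat_lit 303))))) (XT.nd (nat_lit 312) (nat_lit 988) (nat_lit 0) (XT.nd (nat_lit 156) (nat_lit 304) (nat_lit 0) (XT.nd (nat_lit 78) (nat_lit 380) (nat_lit 0) (XT.lf (nat_lit 0) (nat_lit 15748649837) (nat_lit 380) (nat_lit 1357745960) (nat_lit 76) (nat_lit 1921268450) (nat_lit 199) (nat_lit 5) (nat_lit 204) (nat_lit 5) (nat_lit 200) (nat_lit 5) (nat_lit 474) (nat_lit 424) (nat_lit 302)) (XT.lf (nat_lit 0) (nat_lit 989843612) (nat_lit 380) (nat_lit 8850658368) (nat_lit 76) (nat_lit 9524423146) (nat_lit 194) (nat_lit 5) (nat_lit 199) (nat_lit 5) (nat_lit 195) (nat_lit 5) (nat_lit 475) (nat_lit 424) (nat_lit 301))) (XT.nd (nat_lit 78) (nat_lit 0) (nat_lit 0) (XT.lf (nat_lit 0) (nat_lit 3068075892) (nat_lit 304) (nat_lit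 2284153585) (nat_lit 380) (nat_lit 14358159709) (nat_lit 190) (nat_lit 5) (nat_lit 194) (nat_lit 5) (nat_lit 195) (nat_lit 5) (nat_lit 476) (nat_lit 424) (nat_lit 300)) (XT.lf (nat_lit 0) (nat_lit 9976760767) (nat_lit 380) (nat_lit 4609177193) (nat_lit 76) (nat_lit 5476341312) (nat_lit 190) (nat_lit 5) (nat_lit 195) (nat_lit 5) (nat_lit 191) (nat_lit 5) (nat_lit 477) (nat_lit 424) (nat_lit 299)))) (XT.nd (nat_lit 156) (nat_lit 380) (nat_lit 0) (XT.nd (nat_lit 78) (nat_lit 304) (nat_lit 0) (XT.lf (nat_lit 0) (nat_lit 7899297162) (nat_lit 304) (nat_lit 6927780069) (nat_lit 380) (nat_lit 5595037662) (nat_lit 186) (nat_lit 5) (nat_lit 190) (nat_lit 5) (nat_lit 191) (nat_lit 5) (nat_lit 478) (nat_lit 424) (nat_lit 298)) (XT.lf (nat_lit 0) (nat_lit 60346382) (nat_lit 304) (nat_lit 19807988320) (nat_lit 380) (nat_lit 923048237) (nat_lit 182) (nat_lit 5) (nat_lit 186) (nat_lit 5) (nat_lit 187) (nat_lit 5) (nat_lit 479)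 (nat_lit 424) (nat_lit 297))) (XT.nd (nat_lit 78) (nat_lit 304) (nat_lit 0) (XT.lf (nat_lit 0) (nat_lit 3998183503) (nat_lit 380) (nat_lit 8014810039) (nat_lit 76) (nat_lit 9152065046) (nat_lit 181) (nat_lit 5) (nat_lit 186) (nat_lit 5) (nat_lit 182) (nat_lit 5) (nat_lit 480) (nat_lit 424) (nat_lit 296)) (XT.lf (nat_lit 0) (nat_lit 5157554949) (nat_lit 304) (nat_lit 3929525545) (nat_lit 380) (nat_lit 12461432695) (nat_lit 177) (nat_lit 5) (nat_lit 181) (nat_lit 5) (nat_lit 182) (nat_lit 5) (nat_lit 481) (nat_lit 424) (nat_lit 295)))))) (XT.nd (nat_lit 624) (nat_lit 1216) (nat_lit 0) (XT.nd (nat_lit 312) (nat_lit 760) (nat_lit 0) (XT.nd (nat_lit 156) (nat_lit 380) (nat_lit 0) (XT.nd (nat_lit 78) (nat_lit 228) (nat_lit 0) (XT.lf (nat_lit 0) (nat_lit 14441747671) (nat_lit 380) (nat_lit 3111675080) (nat_lit 76) (nat_lit 4386655847) (nat_lit 177) (nat_lit 5) (nat_lit 182) (nat_lit 5) (nat_lit 178) (nat_lit 5) (nat_lit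 482) (nat_lit 424) (nat_lit 294)) (XT.lf (nat_lit 0) (nat_lit 10719800509) (nat_lit 228) (nat_lit 9368629856) (nat_lit 304) (nat_lit 2251019598) (nat_lit 174) (nat_lit 5) (nat_lit 177) (nat_lit 5) (nat_lit 178) (nat_lit 5) (nat_lit 483) (nat_lit 424) (nat_lit 293))) (XT.nd (nat_lit 78) (nat_lit 0) (nat_lit 0) (XT.lf (nat_lit 0) (nat_lit 2277451437) (nat_lit 304) (nat_lit 857816468) (nat_lit 380) (nat_lit 19613332435) (nat_lit 169) (nat_lit 5) (nat_lit 173) (nat_lit 5) (nat_lit 174) (nat_lit 5) (nat_lit 484) (nat_lit 424) (nat_lit 292)) (XT.lf (nat_lit 0) (nat_lit 8821981833) (nat_lit 380) (nat_lit 6452919586) (nat_lit 76) (nat_lit 7888932996) (nat_lit 169) (nat_lit 5) (nat_lit 174) (nat_lit 5) (nat_lit 170) (nat_lit 5) (nat_lit 485) (nat_lit 424) (nat_lit 291)))) (XT.nd (nat_lit 156) (nat_lit 532) (nat_lit 0) (XT.nd (nat_lit 78) (nat_lit 0) (nat_lit 0) (XT.lf (nat_lit 0) (nat_lit 8119688799) (nat_lit 228) (nat_lit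 6636021012) (nat_lit 304) (nat_lit 8833523553) (nat_lit 166) (nat_lit 5) (nat_lit 169) (nat_lit 5) (nat_lit 170) (nat_lit 5) (nat_lit 486) (nat_lit 424) (nat_lit 290)) (XT.lf (nat_lit 0) (nat_lit 20944952881) (nat_lit 304) (nat_lit 802278072) (nat_lit 76) (nat_lit 2277838455) (nat_lit 166) (nat_lit 5) (nat_lit 170) (nat_lit 5) (nat_lit 167) (nat_lit 5) (nat_lit 487) (nat_lit 424) (nat_lit 289))) (XT.nd (nat_lit 78) (nat_lit 228) (nat_lit 0) (XT.lf (nat_lit 0) (nat_lit 2987688367) (nat_lit 304) (nat_lit 9990761282) (nat_lit 76) (nat_lit 11488790523) (nat_lit 162) (nat_lit 5) (nat_lit 166) (nat_lit 5) (nat_lit 163) (nat_lit 5) (nat_lit 488) (nat_lit 424) (nat_lit 288)) (XT.lf (nat_lit 0) (nat_lit 5365973652) (nat_lit 228) (nat_lit 3859692986) (nat_lit 304) (nat_lit 15694593343) (nat_lit 159) (nat_lit 5) (nat_lit 162) (nat_lit 5) (nat_lit 163) (nat_lit 5) (nat_lit 489) (nat_lit 424) (nat_lit 287))))) (XT.nd (nat_lit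 312) (nat_lit 684) (nat_lit 0) (XT.nd (nat_lit 156) (nat_lit 304) (nat_lit 0) (XT.nd (nat_lit 78) (nat_lit 228) (nat_lit 0) (XT.lf (nat_lit 0) (nat_lit 15796211974) (nat_lit 304) (nat_lit 4065660151) (nat_lit 76) (nat_lit 5520635630) (nat_lit 159) (nat_lit 5) (nat_lit 163) (nat_lit 5) (nat_lit 160) (nat_lit 5) (nat_lit 490) (nat_lit 424) (nat_lit 286)) (XT.lf (nat_lit 0) (nat_lit 12069545924) (nat_lit 228) (nat_lit 10639201942) (nat_lit 304) (nat_lit 3145529062) (nat_lit 156) (nat_lit 5) (nat_lit 159) (nat_lit 5) (nat_lit 160) (nat_lit 5) (nat_lit 491) (nat_lit 424) (nat_lit 285))) (XT.nd (nat_lit 78) (nat_lit 0) (nat_lit 0) (XT.lf (nat_lit 0) (nat_lit 2431266389) (nat_lit 228) (nat_lit 1044628482) (nat_lit 304) (nat_lit 22861633291) (nat_lit 152) (nat_lit 5) (nat_lit 155) (nat_lit 5) (nat_lit 156) (nat_lit 5) (nat_lit 492) (nat_lit 424) (nat_lit 284)) (XT.lf (nat_lit 0) (nat_lit 10449011315) (nat_lit 304) (nat_lit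 7547746113) (nat_lit 76) (nat_lit 8831097213) (nat_lit 152) (nat_lit 5) (nat_lit 156) (nat_lit 5) (nat_lit 153) (nat_lit 5) (nat_lit 493) (nat_lit 424) (nat_lit 283)))) (XT.nd (nat_lit 156) (nat_lit 456) (nat_lit 0) (XT.nd (nat_lit 78) (nat_lit 0) (nat_lit 0) (XT.lf (nat_lit 0) (nat_lit 9460760635) (nat_lit 228) (nat_lit 8262856462) (nat_lit 304) (nat_lit 9606505114) (nat_lit 149) (nat_lit 5) (nat_lit 152) (nat_lit 5) (nat_lit 153) (nat_lit 5) (nat_lit 494) (nat_lit 424) (nat_lit 282)) (XT.lf (nat_lit 0) (nat_lit 25301452003) (nat_lit 304) (nat_lit 743725653) (nat_lit 76) (nat_lit 1799730591) (nat_lit 149) (nat_lit 5) (nat_lit 153) (nat_lit 5) (nat_lit 150) (nat_lit 5) (nat_lit 495) (nat_lit 424) (nat_lit 281))) (XT.nd (nat_lit 78) (nat_lit 228) (nat_lit 0) (XT.lf (nat_lit 0) (nat_lit 4879350428) (nat_lit 228) (nat_lit 11282289844) (nat_lit 76) (nat_lit 12204927452) (nat_lit 146) (nat_lit 5) (nat_lit 149) (nat_lit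 5) (nat_lit 147) (nat_lit 5) (nat_lit 496) (nat_lit 424) (nat_lit 280)) (XT.lf (nat_lit 0) (nat_lit 6648509938) (nat_lit 228) (nat_lit 5888063919) (nat_lit 304) (nat_lit 16364662192) (nat_lit 143) (nat_lit 5) (nat_lit 146) (nat_lit 5) (nat_lit 147) (nat_lit 5) (nat_lit 497) (nat_lit 424) (nat_lit 279))))))) (XT.nd (nat_lit 1248) (nat_lit 1672) (nat_lit 0) (XT.nd (nat_lit 624) (nat_lit 912) (nat_lit 0) (XT.nd (nat_lit 312) (nat_lit 608) (nat_lit 0) (XT.nd (nat_lit 156) (nat_lit 304) (nat_lit 0) (XT.nd (nat_lit 78) (nat_lit 152) (nat_lit 0) (XT.lf (nat_lit 0) (nat_lit 20575103446) (nat_lit 304) (nat_lit 4161002954) (nat_lit 76) (nat_lit 4711290491) (nat_lit 143) (nat_lit 5) (nat_lit 147) (nat_lit 5) (nat_lit 144) (nat_lit 5) (nat_lit 498) (nat_lit 424) (nat_lit 278)) (XT.lf (nat_lit 0) (nat_lit 14687469892) (nat_lit 152) (nat_lit 14358465263) (nat_lit 228) (nat_lit 958273158) (nat_lit 141) (nat_lit 5) (nat_lit 143)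 (nat_lit 5) (nat_lit 144) (nat_lit 5) (nat_lit 499) (nat_lit 424) (nat_lit 277))) (XT.nd (nat_lit 78) (nat_lit 0) (nat_lit 0) (XT.lf (nat_lit 0) (nat_lit 3596514630) (nat_lit 228) (nat_lit 3524982991) (nat_lit 304) (nat_lit 23452091405) (nat_lit 137) (nat_lit 5) (nat_lit 140) (nat_lit 5) (nat_lit 141) (nat_lit 5) (nat_lit 500) (nat_lit 424) (nat_lit 276)) (XT.lf (nat_lit 0) (nat_lit 15645716166) (nat_lit 304) (nat_lit 7863048068) (nat_lit 76) (nat_lit 7644362972) (nat_lit 137) (nat_lit 5) (nat_lit 141) (nat_lit 5) (nat_lit 138) (nat_lit 5) (nat_lit 501) (nat_lit 424) (nat_lit 275)))) (XT.nd (nat_lit 156) (nat_lit 152) (nat_lit 0) (XT.nd (nat_lit 78) (nat_lit 304) (nat_lit 0) (XT.lf (nat_lit 0) (nat_lit 12009890133) (nat_lit 152) (nat_lit 12558095719) (nat_lit 228) (nat_lit 7177796071) (nat_lit 135) (nat_lit 5) (nat_lit 137) (nat_lit 5) (nat_lit 138) (nat_lit 5) (nat_lit 502) (nat_lit 424) (nat_lit 274)) (XT.lf (nat_lit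 0) (nat_lit 263257143) (nat_lit 228) (nat_lit 1185815501) (nat_lit 304) (nat_lit 30904498006) (nat_lit 131) (nat_lit 5) (nat_lit 134) (nat_lit 5) (nat_lit 135) (nat_lit 5) (nat_lit 503) (nat_lit 424) (nat_lit 273))) (XT.nd (nat_lit 78) (nat_lit 152) (nat_lit 0) (XT.lf (nat_lit 0) (nat_lit 10484988146) (nat_lit 304) (nat_lit 11894935361) (nat_lit 76) (nat_lit 10588702409) (nat_lit 131) (nat_lit 5) (nat_lit 135) (nat_lit 5) (nat_lit 132) (nat_lit 5) (nat_lit 504) (nat_lit 424) (nat_lit 272)) (XT.lf (nat_lit 0) (nat_lit 9057690606) (nat_lit 152) (nat_lit 10825373350) (nat_lit 228) (nat_lit 13716336514) (nat_lit 129) (nat_lit 5) (nat_lit 131) (nat_lit 5) (nat_lit 132) (nat_lit 5) (nat_lit 505) (nat_lit 424) (nat_lit 271))))) (XT.nd (nat_lit 312) (nat_lit 532) (nat_lit 0) (XT.nd (nat_lit 156) (nat_lit 152) (nat_lit 0) (XT.nd (nat_lit 78) (nat_lit 228) (nat_lit 0) (XT.lf (nat_lit 0) (nat_lit 29687041315) (nat_lit 228)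 (nat_lit 3387955700) (nat_lit 76) (nat_lit 1170382577) (nat_lit 129) (nat_lit 5) (nat_lit 132) (nat_lit 5) (nat_lit 130) (nat_lit 5) (nat_lit 506) (nat_lit 424) (nat_lit 270)) (XT.lf (nat_lit 0) (nat_lit 5060978706) (nat_lit 228) (nat_lit 16308213511) (nat_lit 76) (nat_lit 13531689426) (nat_lit 126) (nat_lit 5) (nat_lit 129) (nat_lit 5) (nat_lit 127) (nat_lit 5) (nat_lit 507) (nat_lit 424) (nat_lit 269))) (XT.nd (nat_lit 78) (nat_lit 0) (nat_lit 0) (XT.lf (nat_lit 0) (nat_lit 5781198750) (nat_lit 152) (nat_lit 9178736266) (nat_lit 228) (nat_lit 20612279542) (nat_lit 124) (nat_lit 5) (nat_lit 126) (nat_lit 5) (nat_lit 127) (nat_lit 5) (nat_lit 508) (nat_lit 424) (nat_lit 268)) (XT.lf (nat_lit 0) (nat_lit 25347227224) (nat_lit 228) (nat_lit 7438563055) (nat_lit 76) (nat_lit 3472156263) (nat_lit 124) (nat_lit 5) (nat_lit 127) (nat_lit 5) (nat_lit 125) (nat_lit 5) (nat_lit 509) (nat_lit 424) (nat_lit 267)))) (XT.nd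 (nat_lit 156) (nat_lit 152) (nat_lit 0) (XT.nd (nat_lit 78) (nat_lit 228) (nat_lit 0) (XT.lf (nat_lit 0) (nat_lit 15788752628) (nat_lit 152) (nat_lit 20492840894) (nat_lit 228) (nat_lit 675593399) (nat_lit 122) (nat_lit 5) (nat_lit 124) (nat_lit 5) (nat_lit 125) (nat_lit 5) (nat_lit 510) (nat_lit 424) (nat_lit 266)) (XT.lf (nat_lit 0) (nat_lit 2123118562) (nat_lit 152) (nat_lit 7640024057) (nat_lit 228) (nat_lit 27908744004) (nat_lit 119) (nat_lit 5) (nat_lit 121) (nat_lit 5) (nat_lit 122) (nat_lit 5) (nat_lit 511) (nat_lit 424) (nat_lit 265))) (XT.nd (nat_lit 78) (nat_lit 152) (nat_lit 0) (XT.lf (nat_lit 0) (nat_lit 20764005579) (nat_lit 228) (nat_lit 11929859532) (nat_lit 76) (nat_lit 5706085310) (nat_lit 119) (nat_lit 5) (nat_lit 122) (nat_lit 5) (nat_lit 120) (nat_lit 5) (nat_lit 512) (nat_lit 424) (nat_lit 264)) (XT.lf (nat_lit 0) (nat_lit 12554356406) (nat_lit 152) (nat_lit 19729922638) (nat_lit 228) (nat_lit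 6859895637) (nat_lit 117) (nat_lit 5) (nat_lit 119) (nat_lit 5) (nat_lit 120) (nat_lit 5) (nat_lit 513) (nat_lit 424) (nat_lit 263)))))) (XT.nd (nat_lit 624) (nat_lit 760) (nat_lit 0) (XT.nd (nat_lit 312) (nat_lit 532) (nat_lit 0) (XT.nd (nat_lit 156) (nat_lit 152) (nat_lit 0) (XT.nd (nat_lit 78) (nat_lit 152) (nat_lit 0) (XT.lf (nat_lit 0) (nat_lit 4271444244) (nat_lit 228) (nat_lit 1944018333) (nat_lit 76) (nat_lit 33690598535) (nat_lit 116) (nat_lit 5) (nat_lit 119) (nat_lit 5) (nat_lit 117) (nat_lit 5) (nat_lit 514) (nat_lit 424) (nat_lit 262)) (XT.lf (nat_lit 0) (nat_lit 15898099881) (nat_lit 228) (nat_lit 16933122621) (nat_lit 76) (nat_lit 7848566536) (nat_lit 114) (nat_lit 5) (nat_lit 117) (nat_lit 5) (nat_lit 115) (nat_lit 5) (nat_lit 515) (nat_lit 424) (nat_lit 261))) (XT.nd (nat_lit 78) (nat_lit 0) (nat_lit 0) (XT.lf (nat_lit 0) (nat_lit 8870881011) (nat_lit 152) (nat_lit 19162614098) (nat_lit 228) (nat_lit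 13438435572) (nat_lit 112) (nat_lit 5) (nat_lit 114) (nat_lit 5) (nat_lit 115) (nat_lit 5) (nat_lit 516) (nat_lit 424) (nat_lit 260)) (XT.lf (nat_lit 0) (nat_lit 35783966934) (nat_lit 152) (nat_lit 4913358071) (nat_lit 228) (nat_lit 1585580457) (nat_lit 112) (nat_lit 5) (nat_lit 114) (nat_lit 5) (nat_lit 115) (nat_lit 5) (nat_lit 517) (nat_lit 424) (nat_lit 259)))) (XT.nd (nat_lit 156) (nat_lit 152) (nat_lit 0) (XT.nd (nat_lit 78) (nat_lit 152) (nat_lit 0) (XT.lf (nat_lit 0) (nat_lit 10704605728) (nat_lit 228) (nat_lit 22530503104) (nat_lit 76) (nat_lit 9871366250) (nat_lit 109) (nat_lit 5) (nat_lit 112) (nat_lit 5) (nat_lit 110) (nat_lit 5) (nat_lit 518) (nat_lit 424) (nat_lit 258)) (XT.lf (nat_lit 0) (nat_lit 4657508473) (nat_lit 152) (nat_lit 18827348862) (nat_lit 228) (nat_lit 20464826704) (nat_lit 107) (nat_lit 5) (nat_lit 109) (nat_lit 5) (nat_lit 110) (nat_lit 5) (nat_lit 519) (nat_lit 424) (nat_lit 257)))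 (XT.nd (nat_lit 78) (nat_lit 152) (nat_lit 0) (XT.lf (nat_lit 0) (nat_lit 33111181499) (nat_lit 152) (nat_lit 3758457681) (nat_lit 228) (nat_lit 7941916469) (nat_lit 107) (nat_lit 5) (nat_lit 109) (nat_lit 5) (nat_lit 110) (nat_lit 5) (nat_lit 520) (nat_lit 424) (nat_lit 256)) (XT.lf (nat_lit 0) (nat_lit 5132130248) (nat_lit 152) (nat_lit 28816760453) (nat_lit 76) (nat_lit 11740798212) (nat_lit 105) (nat_lit 5) (nat_lit 107) (nat_lit 5) (nat_lit 106) (nat_lit 5) (nat_lit 521) (nat_lit 424) (nat_lit 255))))) (XT.nd (nat_lit 312) (nat_lit 456) (nat_lit 0) (XT.nd (nat_lit 156) (nat_lit 152) (nat_lit 0) (XT.nd (nat_lit 78) (nat_lit 152) (nat_lit 0) (XT.lf (nat_lit 0) (nat_lit 18589061256) (nat_lit 152) (nat_lit 175993741) (nat_lit 76) (nat_lit 27822243625) (nat_lit 105) (nat_lit 5) (nat_lit 107) (nat_lit 5) (nat_lit 106) (nat_lit 5) (nat_lit 522) (nat_lit 424) (nat_lit 254)) (XT.lf (nat_lit 0) (nat_lit 29896081698)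 (nat_lit 152) (nat_lit 2834934279) (nat_lit 228) (nat_lit 14772381230) (nat_lit 103) (nat_lit 5) (nat_lit 105) (nat_lit 5) (nat_lit 106) (nat_lit 5) (nat_lit 523) (nat_lit 424) (nat_lit 253))) (XT.nd (nat_lit 78) (nat_lit 76) (nat_lit 0) (XT.lf (nat_lit 0) (nat_lit 12529696954) (nat_lit 76) (nat_lit 35014198709) (nat_lit 152) (nat_lit 895683152) (nat_lit 102) (nat_lit 5) (nat_lit 103) (nat_lit 5) (nat_lit 104) (nat_lit 4) (nat_lit 524) (nat_lit 424) (nat_lit 252)) (XT.lf (nat_lit 0) (nat_lit 13337479109) (nat_lit 152) (nat_lit 5636694669) (nat_lit 76) (nat_lit 30419760858) (nat_lit 101) (nat_lit 5) (nat_lit 103) (nat_lit 5) (nat_lit 102) (nat_lit 5) (nat_lit 525) (nat_lit 424) (nat_lit 251)))) (XT.nd (nat_lit 156) (nat_lit 228) (nat_lit 0) (XT.nd (nat_lit 78) (nat_lit 76) (nat_lit 0) (XT.lf (nat_lit 0) (nat_lit 26032820853) (nat_lit 152) (nat_lit 2191196944) (nat_lit 228) (nat_lit 22145305821) (nat_lit 99) (nat_lit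 5) (nat_lit 101) (nat_lit 5) (nat_lit 102) (nat_lit 5) (nat_lit 526) (nat_lit 424) (nat_lit 250)) (XT.lf (nat_lit 0) (nat_lit 7383093732) (nat_lit 76) (nat_lit 36441775399) (nat_lit 152) (nat_lit 7541073696) (nat_lit 98) (nat_lit 5) (nat_lit 99) (nat_lit 5) (nat_lit 100) (nat_lit 4) (nat_lit 527) (nat_lit 424) (nat_lit 249))) (XT.nd (nat_lit 78) (nat_lit 152) (nat_lit 0) (XT.lf (nat_lit 0) (nat_lit 7618953158) (nat_lit 152) (nat_lit 11939189234) (nat_lit 76) (nat_lit 32824233712) (nat_lit 97) (nat_lit 5) (nat_lit 99) (nat_lit 5) (nat_lit 98) (nat_lit 5) (nat_lit 528) (nat_lit 424) (nat_lit 248)) (XT.lf (nat_lit 0) (nat_lit 21397970142) (nat_lit 152) (nat_lit 1884268576) (nat_lit 228) (nat_lit 30138823004) (nat_lit 95) (nat_lit 5) (nat_lit 97) (nat_lit 5) (nat_lit 98) (nat_lit 5) (nat_lit 529) (nat_lit 424) (nat_lit 247))))))))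
noncomputable def xc150 : XT := (XT.nd (nat_lit 54990) (nat_lit 0) (nat_lit 12160) (XT.nd (nat_lit 1170) (nat_lit 532) (nat_lit 0) (XT.nd (nat_lit 546) (nat_lit 684) (nat_lit 0) (XT.nd (nat_lit 234) (nat_lit 304) (nat_lit 0) (XT.nd (nat_lit 78) (nat_lit 228) (nat_lit 0) (XT.lf (nat_lit 0) (nat_lit 1350260721) (nat_lit 76) (nat_lit 38351124664) (nat_lit 152) (nat_lit 14780943691) (nat_lit 94) (nat_lit 5) (nat_lit 95) (nat_lit 5) (nat_lit 96) (nat_lit 4) (nat_lit 530) (nat_lit 424) (nat_lit 246)) (XT.nd (nat_lit 78) (nat_lit 152) (nat_lit 0) (XT.lf (nat_lit 0) (nat_lit 1357009556) (nat_lit 152) (nat_lit 19227030485) (nat_lit 76) (nat_lit 34980907620) (nat_lit 93) (nat_lit 5) (nat_lit 95) (nat_lit 5) (nat_lit 94) (nat_lit 5) (nat_lit 531) (nat_lit 424) (nat_lit 245)) (XT.lf (nat_lit 0) (nat_lit 15847649327) (nat_lit 152) (nat_lit 1981229396) (nat_lit 228) (nat_lit 38842369953) (nat_lit 91) (nat_lit 5) (nat_lit 93)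 (nat_lit 5) (nat_lit 94) (nat_lit 5) (nat_lit 532) (nat_lit 424) (nat_lit 244)))) (XT.nd (nat_lit 156) (nat_lit 228) (nat_lit 0) (XT.nd (nat_lit 78) (nat_lit 76) (nat_lit 0) (XT.lf (nat_lit 0) (nat_lit 35150658899) (nat_lit 228) (nat_lit 5613694494) (nat_lit 76) (nat_lit 17035712720) (nat_lit 91) (nat_lit 5) (nat_lit 94) (nat_lit 5) (nat_lit 92) (nat_lit 4) (nat_lit 533) (nat_lit 424) (nat_lit 243)) (XT.lf (nat_lit 0) (nat_lit 31232226691) (nat_lit 76) (nat_lit 22074400180) (nat_lit 152) (nat_lit 5646685209) (nat_lit 90) (nat_lit 5) (nat_lit 91) (nat_lit 5) (nat_lit 92) (nat_lit 4) (nat_lit 534) (nat_lit 424) (nat_lit 242))) (XT.nd (nat_lit 78) (nat_lit 0) (nat_lit 0) (XT.lf (nat_lit 0) (nat_lit 9214198270) (nat_lit 152) (nat_lit 2560891766) (nat_lit 228) (nat_lit 48358427823) (nat_lit 87) (nat_lit 5) (nat_lit 89) (nat_lit 5) (nat_lit 90) (nat_lit 5) (nat_lit 535) (nat_lit 424) (nat_lit 241)) (XT.lf (nat_lit 0)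 (nat_lit 30052025325) (nat_lit 228) (nat_lit 13752338212) (nat_lit 76) (nat_lit 17529709090) (nat_lit 87) (nat_lit 5) (nat_lit 90) (nat_lit 5) (nat_lit 88) (nat_lit 4) (nat_lit 536) (nat_lit 424) (nat_lit 240))))) (XT.nd (nat_lit 312) (nat_lit 304) (nat_lit 0) (XT.nd (nat_lit 156) (nat_lit 76) (nat_lit 0) (XT.nd (nat_lit 78) (nat_lit 228) (nat_lit 0) (XT.lf (nat_lit 0) (nat_lit 24981943949) (nat_lit 76) (nat_lit 24155688993) (nat_lit 152) (nat_lit 13425200203) (nat_lit 86) (nat_lit 5) (nat_lit 87) (nat_lit 5) (nat_lit 88) (nat_lit 4) (nat_lit 537) (nat_lit 424) (nat_lit 239)) (XT.lf (nat_lit 0) (nat_lit 1302315778) (nat_lit 152) (nat_lit 3715743576) (nat_lit 228) (nat_lit 58804535539) (nat_lit 83) (nat_lit 5) (nat_lit 85) (nat_lit 5) (nat_lit 86) (nat_lit 5) (nat_lit 538) (nat_lit 424) (nat_lit 238))) (XT.nd (nat_lit 78) (nat_lit 76) (nat_lit 0) (XT.lf (nat_lit 0) (nat_lit 24289575168) (nat_lit 228) (nat_lit 23299571508)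 (nat_lit 76) (nat_lit 17510671415) (nat_lit 83) (nat_lit 5) (nat_lit 86) (nat_lit 5) (nat_lit 84) (nat_lit 4) (nat_lit 539) (nat_lit 424) (nat_lit 237)) (XT.lf (nat_lit 0) (nat_lit 17390753869) (nat_lit 76) (nat_lit 26947475071) (nat_lit 152) (nat_lit 22071159298) (nat_lit 82) (nat_lit 5) (nat_lit 83) (nat_lit 5) (nat_lit 84) (nat_lit 4) (nat_lit 540) (nat_lit 424) (nat_lit 236)))) (XT.nd (nat_lit 156) (nat_lit 76) (nat_lit 0) (XT.nd (nat_lit 78) (nat_lit 228) (nat_lit 0) (XT.lf (nat_lit 0) (nat_lit 59769931043) (nat_lit 76) (nat_lit 5448777247) (nat_lit 152) (nat_lit 2532626253) (nat_lit 82) (nat_lit 5) (nat_lit 83) (nat_lit 5) (nat_lit 84) (nat_lit 4) (nat_lit 541) (nat_lit 424) (nat_lit 235)) (XT.lf (nat_lit 0) (nat_lit 17743781134) (nat_lit 228) (nat_lit 34496633010) (nat_lit 76) (nat_lit 16873201863) (nat_lit 79) (nat_lit 5) (nat_lit 82) (nat_lit 5) (nat_lit 80) (nat_lit 4) (nat_lit 542) (nat_lit 424) (nat_lit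 234))) (XT.nd (nat_lit 78) (nat_lit 0) (nat_lit 0) (XT.lf (nat_lit 0) (nat_lit 8213736359) (nat_lit 76) (nat_lit 30573330382) (nat_lit 152) (nat_lit 31722662257) (nat_lit 78) (nat_lit 5) (nat_lit 79) (nat_lit 5) (nat_lit 80) (nat_lit 4) (nat_lit 543) (nat_lit 424) (nat_lit 233)) (XT.lf (nat_lit 0) (nat_lit 52903349742) (nat_lit 76) (nat_lit 7901892043) (nat_lit 152) (nat_lit 11132175894) (nat_lit 78) (nat_lit 5) (nat_lit 79) (nat_lit 5) (nat_lit 80) (nat_lit 4) (nat_lit 544) (nat_lit 424) (nat_lit 232)))))) (XT.nd (nat_lit 53196) (nat_lit 0) (nat_lit 20976) (XT.nd (nat_lit 312) (nat_lit 152) (nat_lit 0) (XT.nd (nat_lit 156) (nat_lit 228) (nat_lit 0) (XT.nd (nat_lit 78) (nat_lit 0) (nat_lit 0) (XT.lf (nat_lit 0) (nat_lit 10275851016) (nat_lit 152) (nat_lit 47623868010) (nat_lit 76) (nat_lit 15493418946) (nat_lit 76) (nat_lit 5) (nat_lit 78) (nat_lit 5) (nat_lit 77) (nat_lit 4) (nat_lit 545) (nat_lit 424) (nat_lit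 231)) (XT.lf (nat_lit 0) (nat_lit 32370062861) (nat_lit 152) (nat_lit 2779281986) (nat_lit 76) (nat_lit 39731847769) (nat_lit 76) (nat_lit 5) (nat_lit 78) (nat_lit 5) (nat_lit 77) (nat_lit 4) (nat_lit 546) (nat_lit 424) (nat_lit 230))) (XT.nd (nat_lit 78) (nat_lit 152) (nat_lit 0) (XT.lf (nat_lit 0) (nat_lit 44265640308) (nat_lit 76) (nat_lit 11282448275) (nat_lit 152) (nat_lit 20853170713) (nat_lit 75) (nat_lit 5) (nat_lit 76) (nat_lit 5) (nat_lit 77) (nat_lit 4) (nat_lit 547) (nat_lit 424) (nat_lit 229)) (XT.lf (nat_lit 0) (nat_lit 1724633377) (nat_lit 152) (nat_lit 63007014628) (nat_lit 76) (nat_lit 13225905860) (nat_lit 73) (nat_lit 5) (nat_lit 75) (nat_lit 5) (nat_lit 74) (nat_lit 4) (nat_lit 548) (nat_lit 424) (nat_lit 228)))) (XT.nd (nat_lit 156) (nat_lit 76) (nat_lit 0) (XT.nd (nat_lit 78) (nat_lit 76) (nat_lit 0) (XT.lf (nat_lit 0) (nat_lit 24995560716) (nat_lit 152) (nat_lit 15772953025) (nat_lit 76) (nat_lit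 38772782022) (nat_lit 73) (nat_lit 5) (nat_lit 75) (nat_lit 5) (nat_lit 74) (nat_lit 4) (nat_lit 549) (nat_lit 424) (nat_lit 227)) (XT.lf (nat_lit 0) (nat_lit 33523761438) (nat_lit 76) (nat_lit 15758726818) (nat_lit 152) (nat_lit 31880525512) (nat_lit 72) (nat_lit 5) (nat_lit 73) (nat_lit 5) (nat_lit 74) (nat_lit 4) (nat_lit 550) (nat_lit 424) (nat_lit 226))) (XT.nd (nat_lit 52650) (nat_lit 0) (nat_lit 21888) (XT.lf (nat_lit 0) (nat_lit 1721432633) (nat_lit 76) (nat_lit 72845758581) (nat_lit 76) (nat_lit 8258117091) (nat_lit 71) (nat_lit 4) (nat_lit 72) (nat_lit 5) (nat_lit 72) (nat_lit 4) (nat_lit 551) (nat_lit 424) (nat_lit 225)) (XT.lf (nat_lit 0) (nat_lit 1197608176) (nat_lit 1140) (nat_lit 1677534259) (nat_lit 1140) (nat_lit 1677534259) (nat_lit 359) (nat_lit 3) (nat_lit 374) (nat_lit 3) (nat_lit 374) (nat_lit 5) (nat_lit 425) (nat_lit 425) (nat_lit 350))))) (XT.nd (nat_lit 312) (nat_lit 912) (nat_lit 0) (XT.nd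 (nat_lit 156) (nat_lit 0) (nat_lit 76) (XT.nd (nat_lit 78) (nat_lit 0) (nat_lit 76) (XT.lf (nat_lit 76) (nat_lit 1204027466) (nat_lit 0) (nat_lit 2114198402) (nat_lit 1140) (nat_lit 5897051227) (nat_lit 360) (nat_lit 5) (nat_lit 359) (nat_lit 3) (nat_lit 374) (nat_lit 5) (nat_lit 426) (nat_lit 425) (nat_lit 349)) (XT.lf (nat_lit 0) (nat_lit 4284635061) (nat_lit 1064) (nat_lit 3393960969) (nat_lit 1140) (nat_lit 1649432923) (nat_lit 360) (nat_lit 5) (nat_lit 374) (nat_lit 5) (nat_lit 375) (nat_lit 5) (nat_lit 427) (nat_lit 425) (nat_lit 348))) (XT.nd (nat_lit 78) (nat_lit 0) (nat_lit 0) (XT.lf (nat_lit 76) (nat_lit 1348650665) (nat_lit 0) (nat_lit 3932094662) (nat_lit 1140) (nat_lit 4163398449) (nat_lit 361) (nat_lit 5) (nat_lit 360) (nat_lit 5) (nat_lit 375) (nat_lit 5) (nat_lit 428) (nat_lit 425) (nat_lit 347)) (XT.lf (nat_lit 76) (nat_lit 6284715619) (nat_lit 0) (nat_lit 23897506) (nat_lit 1140) (nat_lit 3255074317)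 (nat_lit 361) (nat_lit 5) (nat_lit 360) (nat_lit 5) (nat_lit 375) (nat_lit 5) (nat_lit 429) (nat_lit 425) (nat_lit 346)))) (XT.nd (nat_lit 156) (nat_lit 1064) (nat_lit 0) (XT.nd (nat_lit 78) (nat_lit 0) (nat_lit 0) (XT.lf (nat_lit 76) (nat_lit 1656975447) (nat_lit 0) (nat_lit 5733410842) (nat_lit 1140) (nat_lit 2295740625) (nat_lit 362) (nat_lit 5) (nat_lit 361) (nat_lit 5) (nat_lit 376) (nat_lit 5) (nat_lit 430) (nat_lit 425) (nat_lit 345)) (XT.lf (nat_lit 76) (nat_lit 6789223280) (nat_lit 0) (nat_lit 1718143096) (nat_lit 1140) (nat_lit 1304792115) (nat_lit 362) (nat_lit 5) (nat_lit 361) (nat_lit 5) (nat_lit 376) (nat_lit 5) (nat_lit 431) (nat_lit 425) (nat_lit 344))) (XT.nd (nat_lit 78) (nat_lit 1140) (nat_lit 0) (XT.lf (nat_lit 76) (nat_lit 2132634564) (nat_lit 0) (nat_lit 7539370542) (nat_lit 1140) (nat_lit 269542918) (nat_lit 363) (nat_lit 5) (nat_lit 362) (nat_lit 5) (nat_lit 377) (nat_lit 5) (nat_lit 432)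 (nat_lit 425) (nat_lit 343)) (XT.lf (nat_lit 0) (nat_lit 799856410) (nat_lit 1140) (nat_lit 2613640621) (nat_lit 1216) (nat_lit 6660534631) (nat_lit 347) (nat_lit 5) (nat_lit 362) (nat_lit 5) (nat_lit 363) (nat_lit 5) (nat_lit 433) (nat_lit 425) (nat_lit 342))))))) (XT.nd (nat_lit 1248) (nat_lit 4560) (nat_lit 0) (XT.nd (nat_lit 624) (nat_lit 3344) (nat_lit 0) (XT.nd (nat_lit 312) (nat_lit 988) (nat_lit 0) (XT.nd (nat_lit 156) (nat_lit 0) (nat_lit 0) (XT.nd (nat_lit 78) (nat_lit 0) (nat_lit 0) (XT.lf (nat_lit 0) (nat_lit 1902614333) (nat_lit 1140) (nat_lit 7449041100) (nat_lit 1216) (nat_lit 858554851) (nat_lit 348) (nat_lit 5) (nat_lit 363) (nat_lit 5) (nat_lit 364) (nat_lit 5) (nat_lit 434) (nat_lit 425) (nat_lit 341)) (XT.lf (nat_lit 0) (nat_lit 3071287197) (nat_lit 1140) (nat_lit 2052703732) (nat_lit 1216) (nat_lit 5225499690) (nat_lit 348) (nat_lit 5) (nat_lit 363) (nat_lit 5) (nat_lit 364) (nat_lit 5) (nat_lit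 435) (nat_lit 425) (nat_lit 340))) (XT.nd (nat_lit 78) (nat_lit 0) (nat_lit 76) (XT.lf (nat_lit 76) (nat_lit 3555721024) (nat_lit 0) (nat_lit 726664664) (nat_lit 1216) (nat_lit 6210343994) (nat_lit 349) (nat_lit 5) (nat_lit 348) (nat_lit 5) (nat_lit 364) (nat_lit 5) (nat_lit 436) (nat_lit 425) (nat_lit 339)) (XT.lf (nat_lit 0) (nat_lit 5561156795) (nat_lit 1140) (nat_lit 1321781737) (nat_lit 1216) (nat_lit 3756388442) (nat_lit 349) (nat_lit 5) (nat_lit 364) (nat_lit 5) (nat_lit 365) (nat_lit 5) (nat_lit 437) (nat_lit 425) (nat_lit 338)))) (XT.nd (nat_lit 156) (nat_lit 1064) (nat_lit 0) (XT.nd (nat_lit 78) (nat_lit 0) (nat_lit 76) (XT.lf (nat_lit 76) (nat_lit 4523702740) (nat_lit 0) (nat_lit 2379882552) (nat_lit 1216) (nat_lit 3885979273) (nat_lit 350) (nat_lit 5) (nat_lit 349) (nat_lit 5) (nat_lit 365) (nat_lit 5) (nat_lit 438) (nat_lit 425) (nat_lit 337)) (XT.lf (nat_lit 0) (nat_lit 8296700032) (nat_lit 1140) (nat_lit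 413992366) (nat_lit 1216) (nat_lit 2233305656) (nat_lit 350) (nat_lit 5) (nat_lit 365) (nat_lit 5) (nat_lit 366) (nat_lit 5) (nat_lit 439) (nat_lit 425) (nat_lit 336))) (XT.nd (nat_lit 78) (nat_lit 1140) (nat_lit 0) (XT.lf (nat_lit 76) (nat_lit 5681423852) (nat_lit 0) (nat_lit 4104308458) (nat_lit 1216) (nat_lit 1315709656) (nat_lit 351) (nat_lit 5) (nat_lit 350) (nat_lit 5) (nat_lit 366) (nat_lit 5) (nat_lit 440) (nat_lit 425) (nat_lit 335)) (XT.lf (nat_lit 0) (nat_lit 48208513) (nat_lit 1216) (nat_lit 10572132882) (nat_lit 76) (nat_lit 643448630) (nat_lit 335) (nat_lit 5) (nat_lit 351) (nat_lit 5) (nat_lit 336) (nat_lit 5) (nat_lit 441) (nat_lit 425) (nat_lit 334))))) (XT.nd (nat_lit 312) (nat_lit 1292) (nat_lit 0) (XT.nd (nat_lit 156) (nat_lit 836) (nat_lit 0) (XT.nd (nat_lit 78) (nat_lit 1216) (nat_lit 0) (XT.lf (nat_lit 0) (nat_lit 1499283057) (nat_lit 1216) (nat_lit 4405924240) (nat_lit 76) (nat_lit 5523230966)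 (nat_lit 335) (nat_lit 5) (nat_lit 351) (nat_lit 5) (nat_lit 336) (nat_lit 5) (nat_lit 442) (nat_lit 425) (nat_lit 333)) (XT.lf (nat_lit 0) (nat_lit 1964042874) (nat_lit 1216) (nat_lit 1026176178) (nat_lit 1292) (nat_lit 8607918033) (nat_lit 319) (nat_lit 5) (nat_lit 335) (nat_lit 5) (nat_lit 336) (nat_lit 5) (nat_lit 443) (nat_lit 425) (nat_lit 332))) (XT.nd (nat_lit 78) (nat_lit 836) (nat_lit 0) (XT.lf (nat_lit 0) (nat_lit 4587204286) (nat_lit 1292) (nat_lit 3215100657) (nat_lit 76) (nat_lit 3968783276) (nat_lit 319) (nat_lit 5) (nat_lit 336) (nat_lit 5) (nat_lit 320) (nat_lit 5) (nat_lit 444) (nat_lit 425) (nat_lit 331)) (XT.lf (nat_lit 0) (nat_lit 3433842045) (nat_lit 836) (nat_lit 2820014170) (nat_lit 912) (nat_lit 5694719913) (nat_lit 308) (nat_lit 5) (nat_lit 319) (nat_lit 5) (nat_lit 320) (nat_lit 5) (nat_lit 445) (nat_lit 425) (nat_lit 330)))) (XT.nd (nat_lit 156) (nat_lit 684) (nat_lit 0) (XT.nd (nat_lit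 78) (nat_lit 608) (nat_lit 0) (XT.lf (nat_lit 0) (nat_lit 8004560701) (nat_lit 912) (nat_lit 1824721297) (nat_lit 76) (nat_lit 2301086012) (nat_lit 308) (nat_lit 5) (nat_lit 320) (nat_lit 5) (nat_lit 309) (nat_lit 5) (nat_lit 446) (nat_lit 425) (nat_lit 329)) (XT.lf (nat_lit 0) (nat_lit 5118611058) (nat_lit 608) (nat_lit 4745953229) (nat_lit 684) (nat_lit 2451346922) (nat_lit 300) (nat_lit 5) (nat_lit 308) (nat_lit 5) (nat_lit 309) (nat_lit 5) (nat_lit 447) (nat_lit 425) (nat_lit 328))) (XT.nd (nat_lit 78) (nat_lit 684) (nat_lit 0) (XT.lf (nat_lit 0) (nat_lit 11783755366) (nat_lit 684) (nat_lit 223470294) (nat_lit 76) (nat_lit 499694295) (nat_lit 300) (nat_lit 5) (nat_lit 309) (nat_lit 5) (nat_lit 301) (nat_lit 5) (nat_lit 448) (nat_lit 425) (nat_lit 327)) (XT.lf (nat_lit 0) (nat_lit 1132404314) (nat_lit 684) (nat_lit 5681311949) (nat_lit 76) (nat_lit 5886753819) (nat_lit 291) (nat_lit 5) (nat_lit 300) (nat_lit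 5) (nat_lit 292) (nat_lit 5) (nat_lit 449) (nat_lit 425) (nat_lit 326)))))) (XT.nd (nat_lit 624) (nat_lit 1824) (nat_lit 0) (XT.nd (nat_lit 312) (nat_lit 1596) (nat_lit 0) (XT.nd (nat_lit 156) (nat_lit 608) (nat_lit 0) (XT.nd (nat_lit 78) (nat_lit 0) (nat_lit 0) (XT.lf (nat_lit 0) (nat_lit 1588320985) (nat_lit 532) (nat_lit 1439173990) (nat_lit 608) (nat_lit 9872166047) (nat_lit 284) (nat_lit 5) (nat_lit 291) (nat_lit 5) (nat_lit 292) (nat_lit 5) (nat_lit 450) (nat_lit 425) (nat_lit 325)) (XT.lf (nat_lit 0) (nat_lit 5057967924) (nat_lit 608) (nat_lit 3970297682) (nat_lit 76) (nat_lit 4074206974) (nat_lit 284) (nat_lit 5) (nat_lit 292) (nat_lit 5) (nat_lit 285) (nat_lit 5) (nat_lit 451) (nat_lit 425) (nat_lit 324))) (XT.nd (nat_lit 78) (nat_lit 0) (nat_lit 0) (XT.lf (nat_lit 0) (nat_lit 3628355943) (nat_lit 608) (nat_lit 3551885918) (nat_lit 684) (nat_lit 6130200772) (nat_lit 276) (nat_lit 5) (nat_lit 284) (nat_lit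 5) (nat_lit 285) (nat_lit 5) (nat_lit 452) (nat_lit 425) (nat_lit 323)) (XT.lf (nat_lit 0) (nat_lit 9408849718) (nat_lit 684) (nat_lit 2027080312) (nat_lit 76) (nat_lit 2087442518) (nat_lit 276) (nat_lit 5) (nat_lit 285) (nat_lit 5) (nat_lit 277) (nat_lit 5) (nat_lit 453) (nat_lit 425) (nat_lit 322)))) (XT.nd (nat_lit 156) (nat_lit 456) (nat_lit 0) (XT.nd (nat_lit 78) (nat_lit 608) (nat_lit 0) (XT.lf (nat_lit 0) (nat_lit 5918965676) (nat_lit 532) (nat_lit 5860033307) (nat_lit 608) (nat_lit 1961451593) (nat_lit 269) (nat_lit 5) (nat_lit 276) (nat_lit 5) (nat_lit 277) (nat_lit 5) (nat_lit 454) (nat_lit 425) (nat_lit 321)) (XT.lf (nat_lit 0) (nat_lit 162931718) (nat_lit 532) (nat_lit 93294506) (nat_lit 608) (nat_lit 13707591081) (nat_lit 261) (nat_lit 5) (nat_lit 268) (nat_lit 5) (nat_lit 269) (nat_lit 5) (nat_lit 455) (nat_lit 425) (nat_lit 320))) (XT.nd (nat_lit 78) (nat_lit 456) (nat_lit 0) (XT.lf (nat_lit 0) (nat_lit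 2620050620) (nat_lit 608) (nat_lit 5740106582) (nat_lit 76) (nat_lit 5829574692) (nat_lit 261) (nat_lit 5) (nat_lit 269) (nat_lit 5) (nat_lit 262) (nat_lit 5) (nat_lit 456) (nat_lit 425) (nat_lit 319)) (XT.lf (nat_lit 0) (nat_lit 2593339941) (nat_lit 456) (nat_lit 2470871409) (nat_lit 532) (nat_lit 9357930551) (nat_lit 255) (nat_lit 5) (nat_lit 261) (nat_lit 5) (nat_lit 262) (nat_lit 5) (nat_lit 457) (nat_lit 425) (nat_lit 318))))) (XT.nd (nat_lit 312) (nat_lit 836) (nat_lit 0) (XT.nd (nat_lit 156) (nat_lit 532) (nat_lit 0) (XT.nd (nat_lit 78) (nat_lit 456) (nat_lit 0) (XT.lf (nat_lit 0) (nat_lit 7658637014) (nat_lit 532) (nat_lit 3419574200) (nat_lit 76) (nat_lit 3581005406) (nat_lit 255) (nat_lit 5) (nat_lit 262) (nat_lit 5) (nat_lit 256) (nat_lit 5) (nat_lit 458) (nat_lit 425) (nat_lit 317)) (XT.lf (nat_lit 0) (nat_lit 5302378324) (nat_lit 456) (nat_lit 5088265614) (nat_lit 532) (nat_lit 4510967780) (nat_lit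 249) (nat_lit 5) (nat_lit 255) (nat_lit 5) (nat_lit 256) (nat_lit 5) (nat_lit 459) (nat_lit 425) (nat_lit 316))) (XT.nd (nat_lit 78) (nat_lit 532) (nat_lit 0) (XT.lf (nat_lit 0) (nat_lit 13234445222) (nat_lit 532) (nat_lit 823700912) (nat_lit 76) (nat_lit 1092238088) (nat_lit 249) (nat_lit 5) (nat_lit 256) (nat_lit 5) (nat_lit 250) (nat_lit 5) (nat_lit 460) (nat_lit 425) (nat_lit 315)) (XT.lf (nat_lit 0) (nat_lit 858572679) (nat_lit 532) (nat_lit 7102991748) (nat_lit 76) (nat_lit 7441345654) (nat_lit 242) (nat_lit 5) (nat_lit 249) (nat_lit 5) (nat_lit 243) (nat_lit 5) (nat_lit 461) (nat_lit 425) (nat_lit 314)))) (XT.nd (nat_lit 156) (nat_lit 380) (nat_lit 0) (XT.nd (nat_lit 78) (nat_lit 0) (nat_lit 0) (XT.lf (nat_lit 0) (nat_lit 2054019993) (nat_lit 456) (nat_lit 1637068098) (nat_lit 532) (nat_lit 11970956756) (nat_lit 236) (nat_lit 5) (nat_lit 242) (nat_lit 5) (nat_lit 243) (nat_lit 5) (nat_lit 462) (nat_lit 425)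 (nat_lit 313)) (XT.lf (nat_lit 0) (nat_lit 6713253550) (nat_lit 532) (nat_lit 4361650300) (nat_lit 76) (nat_lit 4850910082) (nat_lit 236) (nat_lit 5) (nat_lit 243) (nat_lit 5) (nat_lit 237) (nat_lit 5) (nat_lit 463) (nat_lit 425) (nat_lit 312))) (XT.nd (nat_lit 78) (nat_lit 0) (nat_lit 0) (XT.lf (nat_lit 0) (nat_lit 5229900459) (nat_lit 380) (nat_lit 4648447496) (nat_lit 456) (nat_lit 6317580711) (nat_lit 231) (nat_lit 5) (nat_lit 236) (nat_lit 5) (nat_lit 237) (nat_lit 5) (nat_lit 464) (nat_lit 425) (nat_lit 311)) (XT.lf (nat_lit 0) (nat_lit 13187806965) (nat_lit 456) (nat_lit 1311864609) (nat_lit 76) (nat_lit 1972993400) (nat_lit 231) (nat_lit 5) (nat_lit 237) (nat_lit 5) (nat_lit 232) (nat_lit 5) (nat_lit 465) (nat_lit 425) (nat_lit 310))))))))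
noncomputable def xc151 : XT := (XT.nd (nat_lit 2418) (nat_lit 3876) (nat_lit 0) (XT.nd (nat_lit 1170) (nat_lit 2508) (nat_lit 0) (XT.nd (nat_lit 546) (nat_lit 1596) (nat_lit 0) (XT.nd (nat_lit 234) (nat_lit 1216) (nat_lit 0) (XT.nd (nat_lit 78) (nat_lit 456) (nat_lit 0) (XT.lf (nat_lit 0) (nat_lit 8738689233) (nat_lit 456) (nat_lit 7974281532) (nat_lit 532) (nat_lit 41240444) (nat_lit 225) (nat_lit 5) (nat_lit 231) (nat_lit 5) (nat_lit 232) (nat_lit 5) (nat_lit 466) (nat_lit 425) (nat_lit 309)) (XT.nd (nat_lit 78) (nat_lit 0) (nat_lit 0) (XT.lf (nat_lit 0) (nat_lit 2064451138) (nat_lit 380) (nat_lit 1190558671) (nat_lit 456) (nat_lit 13787651520) (nat_lit 219) (nat_lit 5) (nat_lit 224) (nat_lit 5) (nat_lit 225) (nat_lit 5) (nat_lit 467) (nat_lit 425) (nat_lit 308)) (XT.lf (nat_lit 0) (nat_lit 6773453864) (nat_lit 456) (nat_lit 4801145281) (nat_lit 76) (nat_lit 5761429932) (nat_lit 219) (nat_lit 5) (nat_lit 225)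 (nat_lit 5) (nat_lit 220) (nat_lit 5) (nat_lit 468) (nat_lit 425) (nat_lit 307)))) (XT.nd (nat_lit 156) (nat_lit 836) (nat_lit 0) (XT.nd (nat_lit 78) (nat_lit 0) (nat_lit 0) (XT.lf (nat_lit 0) (nat_lit 5764442061) (nat_lit 380) (nat_lit 4687267976) (nat_lit 456) (nat_lit 7184860473) (nat_lit 214) (nat_lit 5) (nat_lit 219) (nat_lit 5) (nat_lit 220) (nat_lit 5) (nat_lit 469) (nat_lit 425) (nat_lit 306)) (XT.lf (nat_lit 0) (nat_lit 14299636703) (nat_lit 456) (nat_lit 1240526070) (nat_lit 76) (nat_lit 2404186135) (nat_lit 214) (nat_lit 5) (nat_lit 220) (nat_lit 5) (nat_lit 215) (nat_lit 5) (nat_lit 470) (nat_lit 425) (nat_lit 305))) (XT.nd (nat_lit 78) (nat_lit 380) (nat_lit 0) (XT.lf (nat_lit 0) (nat_lit 131461247) (nat_lit 456) (nat_lit 8420332332) (nat_lit 76) (nat_lit 9705671403) (nat_lit 208) (nat_lit 5) (nat_lit 214) (nat_lit 5) (nat_lit 209) (nat_lit 5) (nat_lit 471) (nat_lit 425) (nat_lit 304)) (XT.lf (nat_lit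 0) (nat_lit 2692056340) (nat_lit 380) (nat_lit 1281812110) (nat_lit 456) (nat_lit 14604237763) (nat_lit 203) (nat_lit 5) (nat_lit 208) (nat_lit 5) (nat_lit 209) (nat_lit 5) (nat_lit 472) (nat_lit 425) (nat_lit 303))))) (XT.nd (nat_lit 312) (nat_lit 912) (nat_lit 0) (XT.nd (nat_lit 156) (nat_lit 380) (nat_lit 0) (XT.nd (nat_lit 78) (nat_lit 304) (nat_lit 0) (XT.lf (nat_lit 0) (nat_lit 8064899909) (nat_lit 456) (nat_lit 4673256146) (nat_lit 76) (nat_lit 6166210424) (nat_lit 203) (nat_lit 5) (nat_lit 209) (nat_lit 5) (nat_lit 204) (nat_lit 5) (nat_lit 473) (nat_lit 425) (nat_lit 302)) (XT.lf (nat_lit 0) (nat_lit 6982626931) (nat_lit 304) (nat_lit 5364025417) (nat_lit 380) (nat_lit 6891722853) (nat_lit 199) (nat_lit 5) (nat_lit 203) (nat_lit 5) (nat_lit 204) (nat_lit 5) (nat_lit 474) (nat_lit 425) (nat_lit 301))) (XT.nd (nat_lit 78) (nat_lit 380) (nat_lit 0) (XT.lf (nat_lit 0) (nat_lit 16814277038) (nat_lit 380) (nat_lit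 535915994) (nat_lit 76) (nat_lit 2230488902) (nat_lit 199) (nat_lit 5) (nat_lit 204) (nat_lit 5) (nat_lit 200) (nat_lit 5) (nat_lit 475) (nat_lit 425) (nat_lit 300)) (XT.lf (nat_lit 0) (nat_lit 1609439647) (nat_lit 380) (nat_lit 8250315865) (nat_lit 76) (nat_lit 10068404124) (nat_lit 194) (nat_lit 5) (nat_lit 199) (nat_lit 5) (nat_lit 195) (nat_lit 5) (nat_lit 476) (nat_lit 425) (nat_lit 299)))) (XT.nd (nat_lit 156) (nat_lit 608) (nat_lit 0) (XT.nd (nat_lit 78) (nat_lit 0) (nat_lit 0) (XT.lf (nat_lit 0) (nat_lit 4017491578) (nat_lit 304) (nat_lit 2076265534) (nat_lit 380) (nat_lit 14190499178) (nat_lit 190) (nat_lit 5) (nat_lit 194) (nat_lit 5) (nat_lit 195) (nat_lit 5) (nat_lit 477) (nat_lit 425) (nat_lit 298)) (XT.lf (nat_lit 0) (nat_lit 10842682811) (nat_lit 380) (nat_lit 3900694321) (nat_lit 76) (nat_lit 5903756651) (nat_lit 190) (nat_lit 5) (nat_lit 195) (nat_lit 5) (nat_lit 191) (nat_lit 5) (nat_lit 478) (nat_lit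 425) (nat_lit 297))) (XT.nd (nat_lit 78) (nat_lit 304) (nat_lit 0) (XT.lf (nat_lit 0) (nat_lit 8974732714) (nat_lit 304) (nat_lit 6855332340) (nat_lit 380) (nat_lit 5187953174) (nat_lit 186) (nat_lit 5) (nat_lit 190) (nat_lit 5) (nat_lit 191) (nat_lit 5) (nat_lit 479) (nat_lit 425) (nat_lit 296)) (XT.lf (nat_lit 0) (nat_lit 906321224) (nat_lit 304) (nat_lit 20110711872) (nat_lit 380) (nat_lit 381497466) (nat_lit 182) (nat_lit 5) (nat_lit 186) (nat_lit 5) (nat_lit 187) (nat_lit 5) (nat_lit 480) (nat_lit 425) (nat_lit 295)))))) (XT.nd (nat_lit 624) (nat_lit 1292) (nat_lit 0) (XT.nd (nat_lit 312) (nat_lit 608) (nat_lit 0) (XT.nd (nat_lit 156) (nat_lit 228) (nat_lit 0) (XT.nd (nat_lit 78) (nat_lit 304) (nat_lit 0) (XT.lf (nat_lit 0) (nat_lit 4660006922) (nat_lit 380) (nat_lit 7424879184) (nat_lit 76) (nat_lit 9698854315) (nat_lit 181) (nat_lit 5) (nat_lit 186) (nat_lit 5) (nat_lit 182) (nat_lit 5) (nat_lit 481) (nat_lit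 425) (nat_lit 294)) (XT.lf (nat_lit 0) (nat_lit 6134515820) (nat_lit 304) (nat_lit 3759175969) (nat_lit 380) (nat_lit 12285243638) (nat_lit 177) (nat_lit 5) (nat_lit 181) (nat_lit 5) (nat_lit 182) (nat_lit 5) (nat_lit 482) (nat_lit 425) (nat_lit 293))) (XT.nd (nat_lit 78) (nat_lit 228) (nat_lit 0) (XT.lf (nat_lit 0) (nat_lit 15396135611) (nat_lit 380) (nat_lit 2393863502) (nat_lit 76) (nat_lit 4792634971) (nat_lit 177) (nat_lit 5) (nat_lit 182) (nat_lit 5) (nat_lit 178) (nat_lit 5) (nat_lit 483) (nat_lit 425) (nat_lit 292)) (XT.lf (nat_lit 0) (nat_lit 11844603788) (nat_lit 228) (nat_lit 9360157233) (nat_lit 304) (nat_lit 1789449676) (nat_lit 174) (nat_lit 5) (nat_lit 177) (nat_lit 5) (nat_lit 178) (nat_lit 5) (nat_lit 484) (nat_lit 425) (nat_lit 291)))) (XT.nd (nat_lit 156) (nat_lit 228) (nat_lit 0) (XT.nd (nat_lit 78) (nat_lit 0) (nat_lit 0) (XT.lf (nat_lit 0) (nat_lit 3151345030) (nat_lit 304) (nat_lit 589390421)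 (nat_lit 380) (nat_lit 19674968895) (nat_lit 169) (nat_lit 5) (nat_lit 173) (nat_lit 5) (nat_lit 174) (nat_lit 5) (nat_lit 485) (nat_lit 425) (nat_lit 290)) (XT.lf (nat_lit 0) (nat_lit 9585900666) (nat_lit 380) (nat_lit 5852238821) (nat_lit 76) (nat_lit 8405620800) (nat_lit 169) (nat_lit 5) (nat_lit 174) (nat_lit 5) (nat_lit 170) (nat_lit 5) (nat_lit 486) (nat_lit 425) (nat_lit 289))) (XT.nd (nat_lit 78) (nat_lit 0) (nat_lit 0) (XT.lf (nat_lit 0) (nat_lit 9149760871) (nat_lit 228) (nat_lit 6540898218) (nat_lit 304) (nat_lit 8591471889) (nat_lit 166) (nat_lit 5) (nat_lit 169) (nat_lit 5) (nat_lit 170) (nat_lit 5) (nat_lit 487) (nat_lit 425) (nat_lit 288)) (XT.lf (nat_lit 0) (nat_lit 22053986950) (nat_lit 304) (nat_lit 51169005) (nat_lit 76) (nat_lit 2626234245) (nat_lit 166) (nat_lit 5) (nat_lit 170) (nat_lit 5) (nat_lit 167) (nat_lit 5) (nat_lit 488) (nat_lit 425) (nat_lit 287))))) (XT.nd (nat_lit 312) (nat_lit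 532) (nat_lit 0) (XT.nd (nat_lit 156) (nat_lit 228) (nat_lit 0) (XT.nd (nat_lit 78) (nat_lit 228) (nat_lit 0) (XT.lf (nat_lit 0) (nat_lit 3556086284) (nat_lit 304) (nat_lit 9513367973) (nat_lit 76) (nat_lit 12117429992) (nat_lit 162) (nat_lit 5) (nat_lit 166) (nat_lit 5) (nat_lit 163) (nat_lit 5) (nat_lit 489) (nat_lit 425) (nat_lit 286)) (XT.lf (nat_lit 0) (nat_lit 6296450223) (nat_lit 228) (nat_lit 3678205883) (nat_lit 304) (nat_lit 15679035276) (nat_lit 159) (nat_lit 5) (nat_lit 162) (nat_lit 5) (nat_lit 163) (nat_lit 5) (nat_lit 490) (nat_lit 425) (nat_lit 285))) (XT.nd (nat_lit 78) (nat_lit 228) (nat_lit 0) (XT.lf (nat_lit 0) (nat_lit 16731338221) (nat_lit 304) (nat_lit 3429556030) (nat_lit 76) (nat_lit 5969242010) (nat_lit 159) (nat_lit 5) (nat_lit 163) (nat_lit 5) (nat_lit 160) (nat_lit 5) (nat_lit 491) (nat_lit 425) (nat_lit 284)) (XT.lf (nat_lit 0) (nat_lit 13182274130) (nat_lit 228) (nat_lit 10662757517)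 (nat_lit 304) (nat_lit 2771213697) (nat_lit 156) (nat_lit 5) (nat_lit 159) (nat_lit 5) (nat_lit 160) (nat_lit 5) (nat_lit 492) (nat_lit 425) (nat_lit 283)))) (XT.nd (nat_lit 156) (nat_lit 228) (nat_lit 0) (XT.nd (nat_lit 78) (nat_lit 0) (nat_lit 0) (XT.lf (nat_lit 0) (nat_lit 3256551865) (nat_lit 228) (nat_lit 777002923) (nat_lit 304) (nat_lit 23080489007) (nat_lit 152) (nat_lit 5) (nat_lit 155) (nat_lit 5) (nat_lit 156) (nat_lit 5) (nat_lit 493) (nat_lit 425) (nat_lit 282)) (XT.lf (nat_lit 0) (nat_lit 11205449518) (nat_lit 304) (nat_lit 7033320373) (nat_lit 76) (nat_lit 9380622888) (nat_lit 152) (nat_lit 5) (nat_lit 156) (nat_lit 5) (nat_lit 153) (nat_lit 5) (nat_lit 494) (nat_lit 425) (nat_lit 281))) (XT.nd (nat_lit 78) (nat_lit 0) (nat_lit 0) (XT.lf (nat_lit 0) (nat_lit 10478178263) (nat_lit 228) (nat_lit 8214264996) (nat_lit 304) (nat_lit 9444460869) (nat_lit 149) (nat_lit 5) (nat_lit 152) (nat_lit 5) (nat_lit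 153) (nat_lit 5) (nat_lit 495) (nat_lit 425) (nat_lit 280)) (XT.lf (nat_lit 0) (nat_lit 26487648542) (nat_lit 304) (nat_lit 43836803) (nat_lit 76) (nat_lit 2135947579) (nat_lit 149) (nat_lit 5) (nat_lit 153) (nat_lit 5) (nat_lit 150) (nat_lit 5) (nat_lit 496) (nat_lit 425) (nat_lit 279))))))) (XT.nd (nat_lit 1248) (nat_lit 1596) (nat_lit 0) (XT.nd (nat_lit 624) (nat_lit 912) (nat_lit 0) (XT.nd (nat_lit 312) (nat_lit 760) (nat_lit 0) (XT.nd (nat_lit 156) (nat_lit 152) (nat_lit 0) (XT.nd (nat_lit 78) (nat_lit 228) (nat_lit 0) (XT.lf (nat_lit 0) (nat_lit 5451498458) (nat_lit 228) (nat_lit 10897157187) (nat_lit 76) (nat_lit 12856128562) (nat_lit 146) (nat_lit 5) (nat_lit 149) (nat_lit 5) (nat_lit 147) (nat_lit 5) (nat_lit 497) (nat_lit 425) (nat_lit 278)) (XT.lf (nat_lit 0) (nat_lit 7564472457) (nat_lit 228) (nat_lit 5768452643) (nat_lit 304) (nat_lit 16422733107) (nat_lit 143) (nat_lit 5) (nat_lit 146) (nat_lit 5)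 (nat_lit 147) (nat_lit 5) (nat_lit 498) (nat_lit 425) (nat_lit 277))) (XT.nd (nat_lit 78) (nat_lit 152) (nat_lit 0) (XT.lf (nat_lit 0) (nat_lit 21603134991) (nat_lit 304) (nat_lit 3580712287) (nat_lit 76) (nat_lit 5134641076) (nat_lit 143) (nat_lit 5) (nat_lit 147) (nat_lit 5) (nat_lit 144) (nat_lit 5) (nat_lit 499) (nat_lit 425) (nat_lit 276)) (XT.lf (nat_lit 0) (nat_lit 15826301796) (nat_lit 152) (nat_lit 14496537035) (nat_lit 228) (nat_lit 569323079) (nat_lit 141) (nat_lit 5) (nat_lit 143) (nat_lit 5) (nat_lit 144) (nat_lit 5) (nat_lit 500) (nat_lit 425) (nat_lit 275)))) (XT.nd (nat_lit 156) (nat_lit 456) (nat_lit 0) (XT.nd (nat_lit 78) (nat_lit 0) (nat_lit 0) (XT.lf (nat_lit 0) (nat_lit 4403850208) (nat_lit 228) (nat_lit 3335634697) (nat_lit 304) (nat_lit 23739175032) (nat_lit 137) (nat_lit 5) (nat_lit 140) (nat_lit 5) (nat_lit 141) (nat_lit 5) (nat_lit 501) (nat_lit 425) (nat_lit 274)) (XT.lf (nat_lit 0) (nat_lit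 16510407084) (nat_lit 304) (nat_lit 7410842192) (nat_lit 76) (nat_lit 8154605864) (nat_lit 137) (nat_lit 5) (nat_lit 141) (nat_lit 5) (nat_lit 138) (nat_lit 5) (nat_lit 502) (nat_lit 425) (nat_lit 273))) (XT.nd (nat_lit 78) (nat_lit 304) (nat_lit 0) (XT.lf (nat_lit 0) (nat_lit 13051538103) (nat_lit 152) (nat_lit 12643842164) (nat_lit 228) (nat_lit 6991058352) (nat_lit 135) (nat_lit 5) (nat_lit 137) (nat_lit 5) (nat_lit 138) (nat_lit 5) (nat_lit 503) (nat_lit 425) (nat_lit 272)) (XT.lf (nat_lit 0) (nat_lit 953601033) (nat_lit 228) (nat_lit 928247312) (nat_lit 304) (nat_lit 31430644552) (nat_lit 131) (nat_lit 5) (nat_lit 134) (nat_lit 5) (nat_lit 135) (nat_lit 5) (nat_lit 504) (nat_lit 425) (nat_lit 271))))) (XT.nd (nat_lit 312) (nat_lit 532) (nat_lit 0) (XT.nd (nat_lit 156) (nat_lit 228) (nat_lit 0) (XT.nd (nat_lit 78) (nat_lit 152) (nat_lit 0) (XT.lf (nat_lit 0) (nat_lit 11180238168) (nat_lit 304) (nat_lit 11580605577)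 (nat_lit 76) (nat_lit 11185414340) (nat_lit 131) (nat_lit 5) (nat_lit 135) (nat_lit 5) (nat_lit 132) (nat_lit 5) (nat_lit 505) (nat_lit 425) (nat_lit 270)) (XT.lf (nat_lit 0) (nat_lit 9994018994) (nat_lit 152) (nat_lit 10861537417) (nat_lit 228) (nat_lit 13740540622) (nat_lit 129) (nat_lit 5) (nat_lit 131) (nat_lit 5) (nat_lit 132) (nat_lit 5) (nat_lit 506) (nat_lit 425) (nat_lit 269))) (XT.nd (nat_lit 78) (nat_lit 228) (nat_lit 0) (XT.lf (nat_lit 0) (nat_lit 30945394991) (nat_lit 228) (nat_lit 2836090537) (nat_lit 76) (nat_lit 1480217902) (nat_lit 129) (nat_lit 5) (nat_lit 132) (nat_lit 5) (nat_lit 130) (nat_lit 5) (nat_lit 507) (nat_lit 425) (nat_lit 268)) (XT.lf (nat_lit 0) (nat_lit 5579661425) (nat_lit 228) (nat_lit 16143056909) (nat_lit 76) (nat_lit 14214179185) (nat_lit 126) (nat_lit 5) (nat_lit 129) (nat_lit 5) (nat_lit 127) (nat_lit 5) (nat_lit 508) (nat_lit 425) (nat_lit 267)))) (XT.nd (nat_lit 156) (nat_lit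 380) (nat_lit 0) (XT.nd (nat_lit 78) (nat_lit 0) (nat_lit 0) (XT.lf (nat_lit 0) (nat_lit 6602622005) (nat_lit 152) (nat_lit 9168508221) (nat_lit 228) (nat_lit 20857374026) (nat_lit 124) (nat_lit 5) (nat_lit 126) (nat_lit 5) (nat_lit 127) (nat_lit 5) (nat_lit 509) (nat_lit 425) (nat_lit 266)) (XT.lf (nat_lit 0) (nat_lit 26462151250) (nat_lit 228) (nat_lit 7024711434) (nat_lit 76) (nat_lit 3848182350) (nat_lit 124) (nat_lit 5) (nat_lit 127) (nat_lit 5) (nat_lit 125) (nat_lit 5) (nat_lit 510) (nat_lit 425) (nat_lit 265))) (XT.nd (nat_lit 78) (nat_lit 228) (nat_lit 0) (XT.lf (nat_lit 0) (nat_lit 16893178538) (nat_lit 152) (nat_lit 20827107829) (nat_lit 228) (nat_lit 335104259) (nat_lit 122) (nat_lit 5) (nat_lit 124) (nat_lit 5) (nat_lit 125) (nat_lit 5) (nat_lit 511) (nat_lit 425) (nat_lit 264)) (XT.lf (nat_lit 0) (nat_lit 2818366521) (nat_lit 152) (nat_lit 7587156093) (nat_lit 228) (nat_lit 28386031745) (nat_lit 119)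 (nat_lit 5) (nat_lit 121) (nat_lit 5) (nat_lit 122) (nat_lit 5) (nat_lit 512) (nat_lit 425) (nat_lit 263)))))) (XT.nd (nat_lit 624) (nat_lit 684) (nat_lit 0) (XT.nd (nat_lit 312) (nat_lit 532) (nat_lit 0) (XT.nd (nat_lit 156) (nat_lit 228) (nat_lit 0) (XT.nd (nat_lit 78) (nat_lit 152) (nat_lit 0) (XT.lf (nat_lit 0) (nat_lit 21728864711) (nat_lit 228) (nat_lit 11667044787) (nat_lit 76) (nat_lit 6145777102) (nat_lit 119) (nat_lit 5) (nat_lit 122) (nat_lit 5) (nat_lit 120) (nat_lit 5) (nat_lit 513) (nat_lit 425) (nat_lit 262)) (XT.lf (nat_lit 0) (nat_lit 13545612232) (nat_lit 152) (nat_lit 20045082913) (nat_lit 228) (nat_lit 6717664101) (nat_lit 117) (nat_lit 5) (nat_lit 119) (nat_lit 5) (nat_lit 120) (nat_lit 5) (nat_lit 514) (nat_lit 425) (nat_lit 261))) (XT.nd (nat_lit 78) (nat_lit 152) (nat_lit 0) (XT.lf (nat_lit 0) (nat_lit 4730885744) (nat_lit 228) (nat_lit 1399018157) (nat_lit 76) (nat_lit 34963396287) (nat_lit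 116) (nat_lit 5) (nat_lit 119) (nat_lit 5) (nat_lit 117) (nat_lit 5) (nat_lit 515) (nat_lit 425) (nat_lit 260)) (XT.lf (nat_lit 0) (nat_lit 16705029763) (nat_lit 228) (nat_lit 16836480587) (nat_lit 76) (nat_lit 8348769053) (nat_lit 114) (nat_lit 5) (nat_lit 117) (nat_lit 5) (nat_lit 115) (nat_lit 5) (nat_lit 516) (nat_lit 425) (nat_lit 259)))) (XT.nd (nat_lit 156) (nat_lit 380) (nat_lit 0) (XT.nd (nat_lit 78) (nat_lit 0) (nat_lit 0) (XT.lf (nat_lit 0) (nat_lit 9735715353) (nat_lit 152) (nat_lit 19464915374) (nat_lit 228) (nat_lit 13505670359) (nat_lit 112) (nat_lit 5) (nat_lit 114) (nat_lit 5) (nat_lit 115) (nat_lit 5) (nat_lit 517) (nat_lit 425) (nat_lit 258)) (XT.lf (nat_lit 0) (nat_lit 37438755760) (nat_lit 152) (nat_lit 4796120805) (nat_lit 228) (nat_lit 1307013619) (nat_lit 112) (nat_lit 5) (nat_lit 114) (nat_lit 5) (nat_lit 115) (nat_lit 5) (nat_lit 518) (nat_lit 425) (nat_lit 257))) (XT.nd (nat_lit 78) (nat_lit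 152) (nat_lit 0) (XT.lf (nat_lit 0) (nat_lit 11344349037) (nat_lit 228) (nat_lit 22617612590) (nat_lit 76) (nat_lit 10428146265) (nat_lit 109) (nat_lit 5) (nat_lit 112) (nat_lit 5) (nat_lit 110) (nat_lit 5) (nat_lit 519) (nat_lit 425) (nat_lit 256)) (XT.lf (nat_lit 0) (nat_lit 5380266730) (nat_lit 152) (nat_lit 19124066171) (nat_lit 228) (nat_lit 20754390573) (nat_lit 107) (nat_lit 5) (nat_lit 109) (nat_lit 5) (nat_lit 110) (nat_lit 5) (nat_lit 520) (nat_lit 425) (nat_lit 255))))) (XT.nd (nat_lit 312) (nat_lit 380) (nat_lit 0) (XT.nd (nat_lit 156) (nat_lit 152) (nat_lit 0) (XT.nd (nat_lit 78) (nat_lit 152) (nat_lit 0) (XT.lf (nat_lit 0) (nat_lit 34670568403) (nat_lit 152) (nat_lit 3610917084) (nat_lit 228) (nat_lit 7865241019) (nat_lit 107) (nat_lit 5) (nat_lit 109) (nat_lit 5) (nat_lit 110) (nat_lit 5) (nat_lit 521) (nat_lit 425) (nat_lit 254)) (XT.lf (nat_lit 0) (nat_lit 5593846482) (nat_lit 152) (nat_lit 29108025259)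 (nat_lit 76) (nat_lit 12349272349) (nat_lit 105) (nat_lit 5) (nat_lit 107) (nat_lit 5) (nat_lit 106) (nat_lit 5) (nat_lit 522) (nat_lit 425) (nat_lit 253))) (XT.nd (nat_lit 78) (nat_lit 0) (nat_lit 0) (XT.lf (nat_lit 0) (nat_lit 382736773) (nat_lit 152) (nat_lit 19066464087) (nat_lit 228) (nat_lit 28526639852) (nat_lit 103) (nat_lit 5) (nat_lit 105) (nat_lit 5) (nat_lit 106) (nat_lit 5) (nat_lit 523) (nat_lit 425) (nat_lit 252)) (XT.lf (nat_lit 0) (nat_lit 31344049612) (nat_lit 152) (nat_lit 2664280299) (nat_lit 228) (nat_lit 14911304956) (nat_lit 103) (nat_lit 5) (nat_lit 105) (nat_lit 5) (nat_lit 106) (nat_lit 5) (nat_lit 524) (nat_lit 425) (nat_lit 251)))) (XT.nd (nat_lit 156) (nat_lit 228) (nat_lit 0) (XT.nd (nat_lit 78) (nat_lit 76) (nat_lit 0) (XT.lf (nat_lit 0) (nat_lit 13457614014) (nat_lit 76) (nat_lit 35807071359) (nat_lit 152) (nat_lit 619243949) (nat_lit 102) (nat_lit 5) (nat_lit 103) (nat_lit 5) (nat_lit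 104) (nat_lit 4) (nat_lit 525) (nat_lit 425) (nat_lit 250)) (XT.lf (nat_lit 0) (nat_lit 14026332640) (nat_lit 152) (nat_lit 5264098993) (nat_lit 76) (nat_lit 31576656646) (nat_lit 101) (nat_lit 5) (nat_lit 103) (nat_lit 5) (nat_lit 102) (nat_lit 5) (nat_lit 526) (nat_lit 425) (nat_lit 249))) (XT.nd (nat_lit 78) (nat_lit 76) (nat_lit 0) (XT.lf (nat_lit 0) (nat_lit 27350191243) (nat_lit 152) (nat_lit 2006022727) (nat_lit 228) (nat_lit 22515622641) (nat_lit 99) (nat_lit 5) (nat_lit 101) (nat_lit 5) (nat_lit 102) (nat_lit 5) (nat_lit 527) (nat_lit 425) (nat_lit 248)) (XT.lf (nat_lit 0) (nat_lit 8141808097) (nat_lit 76) (nat_lit 37282473677) (nat_lit 152) (nat_lit 7474096966) (nat_lit 98) (nat_lit 5) (nat_lit 99) (nat_lit 5) (nat_lit 100) (nat_lit 4) (nat_lit 528) (nat_lit 425) (nat_lit 247))))))))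
noncomputable def xc152 : XT := (XT.nd (nat_lit 55068) (nat_lit 0) (nat_lit 12464) (XT.nd (nat_lit 1170) (nat_lit 532) (nat_lit 0) (XT.nd (nat_lit 546) (nat_lit 836) (nat_lit 0) (XT.nd (nat_lit 234) (nat_lit 304) (nat_lit 0) (XT.nd (nat_lit 78) (nat_lit 228) (nat_lit 0) (XT.lf (nat_lit 0) (nat_lit 8126635712) (nat_lit 152) (nat_lit 11770233434) (nat_lit 76) (nat_lit 34048602584) (nat_lit 97) (nat_lit 5) (nat_lit 99) (nat_lit 5) (nat_lit 98) (nat_lit 5) (nat_lit 529) (nat_lit 425) (nat_lit 246)) (XT.nd (nat_lit 78) (nat_lit 76) (nat_lit 0) (XT.lf (nat_lit 0) (nat_lit 22561872769) (nat_lit 152) (nat_lit 1694834970) (nat_lit 228) (nat_lit 30758703605) (nat_lit 95) (nat_lit 5) (nat_lit 97) (nat_lit 5) (nat_lit 98) (nat_lit 5) (nat_lit 530) (nat_lit 425) (nat_lit 245)) (XT.lf (nat_lit 0) (nat_lit 1913474653) (nat_lit 76) (nat_lit 39254235305) (nat_lit 152) (nat_lit 14940828389) (nat_lit 94) (nat_lit 5) (nat_lit 95) (nat_lit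 5) (nat_lit 96) (nat_lit 4) (nat_lit 531) (nat_lit 425) (nat_lit 244)))) (XT.nd (nat_lit 156) (nat_lit 76) (nat_lit 0) (XT.nd (nat_lit 78) (nat_lit 152) (nat_lit 0) (XT.lf (nat_lit 0) (nat_lit 1667633100) (nat_lit 152) (nat_lit 19290985948) (nat_lit 76) (nat_lit 36265177657) (nat_lit 93) (nat_lit 5) (nat_lit 95) (nat_lit 5) (nat_lit 94) (nat_lit 5) (nat_lit 532) (nat_lit 425) (nat_lit 243)) (XT.lf (nat_lit 0) (nat_lit 16830906265) (nat_lit 152) (nat_lit 1799772075) (nat_lit 228) (nat_lit 39732697868) (nat_lit 91) (nat_lit 5) (nat_lit 93) (nat_lit 5) (nat_lit 94) (nat_lit 5) (nat_lit 533) (nat_lit 425) (nat_lit 242))) (XT.nd (nat_lit 78) (nat_lit 76) (nat_lit 0) (XT.lf (nat_lit 0) (nat_lit 36466585342) (nat_lit 228) (nat_lit 5283540510) (nat_lit 76) (nat_lit 17776098169) (nat_lit 91) (nat_lit 5) (nat_lit 94) (nat_lit 5) (nat_lit 92) (nat_lit 4) (nat_lit 534) (nat_lit 425) (nat_lit 241)) (XT.lf (nat_lit 0) (nat_lit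 32662870420) (nat_lit 76) (nat_lit 22501493670) (nat_lit 152) (nat_lit 5549789378) (nat_lit 90) (nat_lit 5) (nat_lit 91) (nat_lit 5) (nat_lit 92) (nat_lit 4) (nat_lit 535) (nat_lit 425) (nat_lit 240))))) (XT.nd (nat_lit 312) (nat_lit 304) (nat_lit 0) (XT.nd (nat_lit 156) (nat_lit 304) (nat_lit 0) (XT.nd (nat_lit 78) (nat_lit 0) (nat_lit 0) (XT.lf (nat_lit 0) (nat_lit 9984608384) (nat_lit 152) (nat_lit 2401977963) (nat_lit 228) (nat_lit 49543188024) (nat_lit 87) (nat_lit 5) (nat_lit 89) (nat_lit 5) (nat_lit 90) (nat_lit 5) (nat_lit 536) (nat_lit 425) (nat_lit 239)) (XT.lf (nat_lit 0) (nat_lit 31206508116) (nat_lit 228) (nat_lit 13679988837) (nat_lit 76) (nat_lit 18280008527) (nat_lit 87) (nat_lit 5) (nat_lit 90) (nat_lit 5) (nat_lit 88) (nat_lit 4) (nat_lit 537) (nat_lit 425) (nat_lit 238))) (XT.nd (nat_lit 78) (nat_lit 228) (nat_lit 0) (XT.lf (nat_lit 0) (nat_lit 26211567676) (nat_lit 76) (nat_lit 24650365267) (nat_lit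 152) (nat_lit 13570278448) (nat_lit 86) (nat_lit 5) (nat_lit 87) (nat_lit 5) (nat_lit 88) (nat_lit 4) (nat_lit 538) (nat_lit 425) (nat_lit 237)) (XT.lf (nat_lit 0) (nat_lit 1821823636) (nat_lit 152) (nat_lit 3596686582) (nat_lit 228) (nat_lit 60311263725) (nat_lit 83) (nat_lit 5) (nat_lit 85) (nat_lit 5) (nat_lit 86) (nat_lit 5) (nat_lit 539) (nat_lit 425) (nat_lit 236)))) (XT.nd (nat_lit 156) (nat_lit 228) (nat_lit 0) (XT.nd (nat_lit 78) (nat_lit 76) (nat_lit 0) (XT.lf (nat_lit 0) (nat_lit 25263044046) (nat_lit 228) (nat_lit 23526984679) (nat_lit 76) (nat_lit 18255438979) (nat_lit 83) (nat_lit 5) (nat_lit 86) (nat_lit 5) (nat_lit 84) (nat_lit 4) (nat_lit 540) (nat_lit 425) (nat_lit 235)) (XT.lf (nat_lit 0) (nat_lit 18379427185) (nat_lit 76) (nat_lit 27531089301) (nat_lit 152) (nat_lit 22483887743) (nat_lit 82) (nat_lit 5) (nat_lit 83) (nat_lit 5) (nat_lit 84) (nat_lit 4) (nat_lit 541) (nat_lit 425) (nat_lit 234)))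 (XT.nd (nat_lit 78) (nat_lit 228) (nat_lit 0) (XT.lf (nat_lit 0) (nat_lit 62016379168) (nat_lit 76) (nat_lit 5393978406) (nat_lit 152) (nat_lit 2366462968) (nat_lit 82) (nat_lit 5) (nat_lit 83) (nat_lit 5) (nat_lit 84) (nat_lit 4) (nat_lit 542) (nat_lit 425) (nat_lit 233)) (XT.lf (nat_lit 0) (nat_lit 18513059166) (nat_lit 228) (nat_lit 35073001663) (nat_lit 76) (nat_lit 17593853406) (nat_lit 79) (nat_lit 5) (nat_lit 82) (nat_lit 5) (nat_lit 80) (nat_lit 4) (nat_lit 543) (nat_lit 425) (nat_lit 232)))))) (XT.nd (nat_lit 53274) (nat_lit 0) (nat_lit 20824) (XT.nd (nat_lit 312) (nat_lit 304) (nat_lit 0) (XT.nd (nat_lit 156) (nat_lit 152) (nat_lit 0) (XT.nd (nat_lit 78) (nat_lit 0) (nat_lit 0) (XT.lf (nat_lit 0) (nat_lit 8914183392) (nat_lit 76) (nat_lit 31270922529) (nat_lit 152) (nat_lit 32432880855) (nat_lit 78) (nat_lit 5) (nat_lit 79) (nat_lit 5) (nat_lit 80) (nat_lit 4) (nat_lit 544) (nat_lit 425) (nat_lit 231))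 (XT.lf (nat_lit 0) (nat_lit 54931260858) (nat_lit 76) (nat_lit 7925737382) (nat_lit 152) (nat_lit 11231712754) (nat_lit 78) (nat_lit 5) (nat_lit 79) (nat_lit 5) (nat_lit 80) (nat_lit 4) (nat_lit 545) (nat_lit 425) (nat_lit 230))) (XT.nd (nat_lit 78) (nat_lit 0) (nat_lit 0) (XT.lf (nat_lit 0) (nat_lit 10813578460) (nat_lit 152) (nat_lit 48606794551) (nat_lit 76) (nat_lit 16167674375) (nat_lit 76) (nat_lit 5) (nat_lit 78) (nat_lit 5) (nat_lit 77) (nat_lit 4) (nat_lit 546) (nat_lit 425) (nat_lit 229)) (XT.lf (nat_lit 0) (nat_lit 33563933595) (nat_lit 152) (nat_lit 2429855106) (nat_lit 76) (nat_lit 41127155494) (nat_lit 76) (nat_lit 5) (nat_lit 78) (nat_lit 5) (nat_lit 77) (nat_lit 4) (nat_lit 547) (nat_lit 425) (nat_lit 228)))) (XT.nd (nat_lit 156) (nat_lit 76) (nat_lit 0) (XT.nd (nat_lit 78) (nat_lit 152) (nat_lit 0) (XT.lf (nat_lit 0) (nat_lit 46022171667) (nat_lit 76) (nat_lit 11412759610) (nat_lit 152) (nat_lit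 21251752695) (nat_lit 75) (nat_lit 5) (nat_lit 76) (nat_lit 5) (nat_lit 77) (nat_lit 4) (nat_lit 548) (nat_lit 425) (nat_lit 227)) (XT.lf (nat_lit 0) (nat_lit 1998598536) (nat_lit 152) (nat_lit 64463873828) (nat_lit 76) (nat_lit 13827140294) (nat_lit 73) (nat_lit 5) (nat_lit 75) (nat_lit 5) (nat_lit 74) (nat_lit 4) (nat_lit 549) (nat_lit 425) (nat_lit 226))) (XT.nd (nat_lit 78) (nat_lit 76) (nat_lit 0) (XT.lf (nat_lit 0) (nat_lit 25961181088) (nat_lit 152) (nat_lit 15825412258) (nat_lit 76) (nat_lit 40134467675) (nat_lit 73) (nat_lit 5) (nat_lit 75) (nat_lit 5) (nat_lit 74) (nat_lit 4) (nat_lit 550) (nat_lit 425) (nat_lit 225)) (XT.lf (nat_lit 0) (nat_lit 34946078841) (nat_lit 76) (nat_lit 16028358187) (nat_lit 152) (nat_lit 32617061950) (nat_lit 72) (nat_lit 5) (nat_lit 73) (nat_lit 5) (nat_lit 74) (nat_lit 4) (nat_lit 551) (nat_lit 425) (nat_lit 224))))) (XT.nd (nat_lit 312) (nat_lit 988) (nat_lit 0) (XT.nd (nat_lit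 156) (nat_lit 0) (nat_lit 76) (XT.nd (nat_lit 78) (nat_lit 0) (nat_lit 0) (XT.lf (nat_lit 0) (nat_lit 2100627930) (nat_lit 1140) (nat_lit 1281286293) (nat_lit 1140) (nat_lit 1281286293) (nat_lit 359) (nat_lit 3) (nat_lit 374) (nat_lit 3) (nat_lit 374) (nat_lit 5) (nat_lit 426) (nat_lit 426) (nat_lit 348)) (XT.lf (nat_lit 76) (nat_lit 2124539923) (nat_lit 0) (nat_lit 2985406866) (nat_lit 1140) (nat_lit 4330938476) (nat_lit 360) (nat_lit 5) (nat_lit 359) (nat_lit 3) (nat_lit 374) (nat_lit 5) (nat_lit 427) (nat_lit 426) (nat_lit 347))) (XT.nd (nat_lit 78) (nat_lit 0) (nat_lit 0) (XT.lf (nat_lit 0) (nat_lit 6048522894) (nat_lit 1064) (nat_lit 2580239337) (nat_lit 1140) (nat_lit 929964683) (nat_lit 360) (nat_lit 5) (nat_lit 374) (nat_lit 5) (nat_lit 375) (nat_lit 5) (nat_lit 428) (nat_lit 426) (nat_lit 346)) (XT.lf (nat_lit 76) (nat_lit 2295674760) (nat_lit 0) (nat_lit 4739924644) (nat_lit 1140) (nat_lit 2643895691)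 (nat_lit 361) (nat_lit 5) (nat_lit 360) (nat_lit 5) (nat_lit 375) (nat_lit 5) (nat_lit 429) (nat_lit 426) (nat_lit 345)))) (XT.nd (nat_lit 156) (nat_lit 1064) (nat_lit 0) (XT.nd (nat_lit 78) (nat_lit 0) (nat_lit 76) (XT.lf (nat_lit 76) (nat_lit 7353416869) (nat_lit 0) (nat_lit 694388355) (nat_lit 1140) (nat_lit 1756217117) (nat_lit 361) (nat_lit 5) (nat_lit 360) (nat_lit 5) (nat_lit 375) (nat_lit 5) (nat_lit 430) (nat_lit 426) (nat_lit 344)) (XT.lf (nat_lit 76) (nat_lit 2630709729) (nat_lit 0) (nat_lit 6488809694) (nat_lit 1140) (nat_lit 811893204) (nat_lit 362) (nat_lit 5) (nat_lit 361) (nat_lit 5) (nat_lit 376) (nat_lit 5) (nat_lit 431) (nat_lit 426) (nat_lit 343))) (XT.nd (nat_lit 78) (nat_lit 0) (nat_lit 76) (XT.lf (nat_lit 0) (nat_lit 160367294) (nat_lit 1140) (nat_lit 2174105094) (nat_lit 1216) (nat_lit 7728024957) (nat_lit 346) (nat_lit 5) (nat_lit 361) (nat_lit 5) (nat_lit 362) (nat_lit 5) (nat_lit 432)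 (nat_lit 426) (nat_lit 342)) (XT.lf (nat_lit 0) (nat_lit 1166575956) (nat_lit 1140) (nat_lit 7074553108) (nat_lit 1216) (nat_lit 1955512787) (nat_lit 347) (nat_lit 5) (nat_lit 362) (nat_lit 5) (nat_lit 363) (nat_lit 5) (nat_lit 433) (nat_lit 426) (nat_lit 341))))))) (XT.nd (nat_lit 1170) (nat_lit 4864) (nat_lit 0) (XT.nd (nat_lit 546) (nat_lit 3572) (nat_lit 0) (XT.nd (nat_lit 234) (nat_lit 0) (nat_lit 76) (XT.nd (nat_lit 78) (nat_lit 0) (nat_lit 76) (XT.lf (nat_lit 0) (nat_lit 2220733284) (nat_lit 1140) (nat_lit 1754225555) (nat_lit 1216) (nat_lit 6359320303) (nat_lit 347) (nat_lit 5) (nat_lit 362) (nat_lit 5) (nat_lit 363) (nat_lit 5) (nat_lit 434) (nat_lit 426) (nat_lit 340)) (XT.nd (nat_lit 78) (nat_lit 0) (nat_lit 0) (XT.lf (nat_lit 0) (nat_lit 3320618815) (nat_lit 1140) (nat_lit 6698667838) (nat_lit 1216) (nat_lit 456337075) (nat_lit 348) (nat_lit 5) (nat_lit 363) (nat_lit 5) (nat_lit 364) (nat_lit 5) (nat_lit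 435) (nat_lit 426) (nat_lit 339)) (XT.lf (nat_lit 0) (nat_lit 4484713243) (nat_lit 1140) (nat_lit 1168804751) (nat_lit 1216) (nat_lit 4966755534) (nat_lit 348) (nat_lit 5) (nat_lit 363) (nat_lit 5) (nat_lit 364) (nat_lit 5) (nat_lit 436) (nat_lit 426) (nat_lit 338)))) (XT.nd (nat_lit 156) (nat_lit 0) (nat_lit 76) (XT.nd (nat_lit 78) (nat_lit 0) (nat_lit 76) (XT.lf (nat_lit 76) (nat_lit 4598603336) (nat_lit 0) (nat_lit 1104056683) (nat_lit 1216) (nat_lit 5066036125) (nat_lit 349) (nat_lit 5) (nat_lit 348) (nat_lit 5) (nat_lit 364) (nat_lit 5) (nat_lit 437) (nat_lit 426) (nat_lit 337)) (XT.lf (nat_lit 0) (nat_lit 6978850325) (nat_lit 1140) (nat_lit 411489287) (nat_lit 1216) (nat_lit 3530581846) (nat_lit 349) (nat_lit 5) (nat_lit 364) (nat_lit 5) (nat_lit 365) (nat_lit 5) (nat_lit 438) (nat_lit 426) (nat_lit 336))) (XT.nd (nat_lit 78) (nat_lit 0) (nat_lit 76) (XT.lf (nat_lit 76) (nat_lit 5600046528) (nat_lit 0) (nat_lit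 2734114304) (nat_lit 1216) (nat_lit 2742328805) (nat_lit 350) (nat_lit 5) (nat_lit 349) (nat_lit 5) (nat_lit 365) (nat_lit 5) (nat_lit 439) (nat_lit 426) (nat_lit 335)) (XT.lf (nat_lit 76) (nat_lit 535605826) (nat_lit 0) (nat_lit 9200337172) (nat_lit 1216) (nat_lit 1500608599) (nat_lit 351) (nat_lit 5) (nat_lit 350) (nat_lit 5) (nat_lit 366) (nat_lit 5) (nat_lit 440) (nat_lit 426) (nat_lit 334))))) (XT.nd (nat_lit 312) (nat_lit 1444) (nat_lit 0) (XT.nd (nat_lit 156) (nat_lit 1216) (nat_lit 0) (XT.nd (nat_lit 78) (nat_lit 1140) (nat_lit 0) (XT.lf (nat_lit 76) (nat_lit 6794103851) (nat_lit 0) (nat_lit 4444930987) (nat_lit 1216) (nat_lit 160603964) (nat_lit 351) (nat_lit 5) (nat_lit 350) (nat_lit 5) (nat_lit 366) (nat_lit 5) (nat_lit 441) (nat_lit 426) (nat_lit 333)) (XT.lf (nat_lit 0) (nat_lit 1194169234) (nat_lit 1216) (nat_lit 9896892774) (nat_lit 76) (nat_lit 476254907) (nat_lit 335) (nat_lit 5) (nat_lit 351) (nat_lit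 5) (nat_lit 336) (nat_lit 5) (nat_lit 442) (nat_lit 426) (nat_lit 332))) (XT.nd (nat_lit 78) (nat_lit 1216) (nat_lit 0) (XT.lf (nat_lit 0) (nat_lit 2655440642) (nat_lit 1216) (nat_lit 3574602846) (nat_lit 76) (nat_lit 5507862669) (nat_lit 335) (nat_lit 5) (nat_lit 351) (nat_lit 5) (nat_lit 336) (nat_lit 5) (nat_lit 443) (nat_lit 426) (nat_lit 331)) (XT.lf (nat_lit 0) (nat_lit 2977017211) (nat_lit 1216) (nat_lit 1190894007) (nat_lit 1292) (nat_lit 7745481983) (nat_lit 319) (nat_lit 5) (nat_lit 335) (nat_lit 5) (nat_lit 336) (nat_lit 5) (nat_lit 444) (nat_lit 426) (nat_lit 330)))) (XT.nd (nat_lit 156) (nat_lit 608) (nat_lit 0) (XT.nd (nat_lit 78) (nat_lit 836) (nat_lit 0) (XT.lf (nat_lit 0) (nat_lit 5779867166) (nat_lit 1292) (nat_lit 2352302717) (nat_lit 76) (nat_lit 3960352563) (nat_lit 319) (nat_lit 5) (nat_lit 336) (nat_lit 5) (nat_lit 320) (nat_lit 5) (nat_lit 445) (nat_lit 426) (nat_lit 329)) (XT.lf (nat_lit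 0) (nat_lit 4486703844) (nat_lit 836) (nat_lit 2988215797) (nat_lit 912) (nat_lit 4801064690) (nat_lit 308) (nat_lit 5) (nat_lit 319) (nat_lit 5) (nat_lit 320) (nat_lit 5) (nat_lit 446) (nat_lit 426) (nat_lit 328))) (XT.nd (nat_lit 78) (nat_lit 608) (nat_lit 0) (XT.lf (nat_lit 0) (nat_lit 9247264623) (nat_lit 912) (nat_lit 926356874) (nat_lit 76) (nat_lit 2290536222) (nat_lit 308) (nat_lit 5) (nat_lit 320) (nat_lit 5) (nat_lit 309) (nat_lit 5) (nat_lit 447) (nat_lit 426) (nat_lit 327)) (XT.lf (nat_lit 0) (nat_lit 6215931275) (nat_lit 608) (nat_lit 4927008075) (nat_lit 684) (nat_lit 1512933024) (nat_lit 300) (nat_lit 5) (nat_lit 308) (nat_lit 5) (nat_lit 309) (nat_lit 5) (nat_lit 448) (nat_lit 426) (nat_lit 326)))))) (XT.nd (nat_lit 624) (nat_lit 1900) (nat_lit 0) (XT.nd (nat_lit 312) (nat_lit 1748) (nat_lit 0) (XT.nd (nat_lit 156) (nat_lit 532) (nat_lit 0) (XT.nd (nat_lit 78) (nat_lit 0) (nat_lit 0) (XT.lf (nat_lit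 0) (nat_lit 239699389) (nat_lit 684) (nat_lit 12126272648) (nat_lit 76) (nat_lit 487229041) (nat_lit 291) (nat_lit 5) (nat_lit 300) (nat_lit 5) (nat_lit 292) (nat_lit 5) (nat_lit 449) (nat_lit 426) (nat_lit 325)) (XT.lf (nat_lit 0) (nat_lit 2110359919) (nat_lit 684) (nat_lit 4896901266) (nat_lit 76) (nat_lit 6045864120) (nat_lit 291) (nat_lit 5) (nat_lit 300) (nat_lit 5) (nat_lit 292) (nat_lit 5) (nat_lit 450) (nat_lit 426) (nat_lit 324))) (XT.nd (nat_lit 78) (nat_lit 0) (nat_lit 0) (XT.lf (nat_lit 0) (nat_lit 2581459381) (nat_lit 532) (nat_lit 1462437871) (nat_lit 608) (nat_lit 9214948049) (nat_lit 284) (nat_lit 5) (nat_lit 291) (nat_lit 5) (nat_lit 292) (nat_lit 5) (nat_lit 451) (nat_lit 426) (nat_lit 323)) (XT.lf (nat_lit 0) (nat_lit 6108511648) (nat_lit 608) (nat_lit 3144646497) (nat_lit 76) (nat_lit 4215387356) (nat_lit 284) (nat_lit 5) (nat_lit 292) (nat_lit 5) (nat_lit 285) (nat_lit 5) (nat_lit 452) (nat_lit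 426) (nat_lit 322)))) (XT.nd (nat_lit 156) (nat_lit 1140) (nat_lit 0) (XT.nd (nat_lit 78) (nat_lit 0) (nat_lit 0) (XT.lf (nat_lit 0) (nat_lit 4672704383) (nat_lit 608) (nat_lit 3604563221) (nat_lit 684) (nat_lit 5406003720) (nat_lit 276) (nat_lit 5) (nat_lit 284) (nat_lit 5) (nat_lit 285) (nat_lit 5) (nat_lit 453) (nat_lit 426) (nat_lit 321)) (XT.lf (nat_lit 0) (nat_lit 10547558323) (nat_lit 684) (nat_lit 1154432110) (nat_lit 76) (nat_lit 2201355013) (nat_lit 276) (nat_lit 5) (nat_lit 285) (nat_lit 5) (nat_lit 277) (nat_lit 5) (nat_lit 454) (nat_lit 426) (nat_lit 320))) (XT.nd (nat_lit 78) (nat_lit 608) (nat_lit 0) (XT.lf (nat_lit 0) (nat_lit 7020843683) (nat_lit 532) (nat_lit 5951908462) (nat_lit 608) (nat_lit 1154666486) (nat_lit 269) (nat_lit 5) (nat_lit 276) (nat_lit 5) (nat_lit 277) (nat_lit 5) (nat_lit 455) (nat_lit 426) (nat_lit 319)) (XT.lf (nat_lit 0) (nat_lit 1096916874) (nat_lit 608) (nat_lit 13257913334)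 (nat_lit 76) (nat_lit 2879485) (nat_lit 261) (nat_lit 5) (nat_lit 269) (nat_lit 5) (nat_lit 262) (nat_lit 5) (nat_lit 456) (nat_lit 426) (nat_lit 318))))) (XT.nd (nat_lit 312) (nat_lit 988) (nat_lit 0) (XT.nd (nat_lit 156) (nat_lit 456) (nat_lit 0) (XT.nd (nat_lit 78) (nat_lit 456) (nat_lit 0) (XT.lf (nat_lit 0) (nat_lit 3508290557) (nat_lit 608) (nat_lit 4984081514) (nat_lit 76) (nat_lit 6098731544) (nat_lit 261) (nat_lit 5) (nat_lit 269) (nat_lit 5) (nat_lit 262) (nat_lit 5) (nat_lit 457) (nat_lit 426) (nat_lit 317)) (XT.lf (nat_lit 0) (nat_lit 3590268128) (nat_lit 456) (nat_lit 2420761500) (nat_lit 532) (nat_lit 8819899594) (nat_lit 255) (nat_lit 5) (nat_lit 261) (nat_lit 5) (nat_lit 262) (nat_lit 5) (nat_lit 458) (nat_lit 426) (nat_lit 316))) (XT.nd (nat_lit 78) (nat_lit 456) (nat_lit 0) (XT.lf (nat_lit 0) (nat_lit 8661295318) (nat_lit 532) (nat_lit 2607782113) (nat_lit 76) (nat_lit 3806699412) (nat_lit 255)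 (nat_lit 5) (nat_lit 262) (nat_lit 5) (nat_lit 256) (nat_lit 5) (nat_lit 459) (nat_lit 426) (nat_lit 315)) (XT.lf (nat_lit 0) (nat_lit 6366864484) (nat_lit 456) (nat_lit 5094589741) (nat_lit 532) (nat_lit 3864404670) (nat_lit 249) (nat_lit 5) (nat_lit 255) (nat_lit 5) (nat_lit 256) (nat_lit 5) (nat_lit 460) (nat_lit 426) (nat_lit 314)))) (XT.nd (nat_lit 156) (nat_lit 456) (nat_lit 0) (XT.nd (nat_lit 78) (nat_lit 76) (nat_lit 0) (XT.lf (nat_lit 0) (nat_lit 52426062) (nat_lit 456) (nat_lit 14317903577) (nat_lit 532) (nat_lit 1212372961) (nat_lit 243) (nat_lit 5) (nat_lit 249) (nat_lit 5) (nat_lit 250) (nat_lit 5) (nat_lit 461) (nat_lit 426) (nat_lit 313)) (XT.lf (nat_lit 0) (nat_lit 1616945019) (nat_lit 532) (nat_lit 6410481724) (nat_lit 76) (nat_lit 7815566153) (nat_lit 242) (nat_lit 5) (nat_lit 249) (nat_lit 5) (nat_lit 243) (nat_lit 5) (nat_lit 462) (nat_lit 426) (nat_lit 312))) (XT.nd (nat_lit 78) (nat_lit 0)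 (nat_lit 0) (XT.lf (nat_lit 0) (nat_lit 3012361940) (nat_lit 456) (nat_lit 1509355482) (nat_lit 532) (nat_lit 11588566596) (nat_lit 236) (nat_lit 5) (nat_lit 242) (nat_lit 5) (nat_lit 243) (nat_lit 5) (nat_lit 463) (nat_lit 426) (nat_lit 311)) (XT.lf (nat_lit 0) (nat_lit 7615230219) (nat_lit 532) (nat_lit 3602554396) (nat_lit 76) (nat_lit 5164761824) (nat_lit 236) (nat_lit 5) (nat_lit 243) (nat_lit 5) (nat_lit 237) (nat_lit 5) (nat_lit 464) (nat_lit 426) (nat_lit 310))))))))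
noncomputable def xc153 : XT := (XT.nd (nat_lit 2418) (nat_lit 3876) (nat_lit 0) (XT.nd (nat_lit 1170) (nat_lit 2888) (nat_lit 0) (XT.nd (nat_lit 546) (nat_lit 1824) (nat_lit 0) (XT.nd (nat_lit 234) (nat_lit 760) (nat_lit 0) (XT.nd (nat_lit 78) (nat_lit 532) (nat_lit 0) (XT.lf (nat_lit 0) (nat_lit 6268017930) (nat_lit 380) (nat_lit 4595325141) (nat_lit 456) (nat_lit 5797780292) (nat_lit 231) (nat_lit 5) (nat_lit 236) (nat_lit 5) (nat_lit 237) (nat_lit 5) (nat_lit 465) (nat_lit 426) (nat_lit 309)) (XT.nd (nat_lit 78) (nat_lit 532) (nat_lit 0) (XT.lf (nat_lit 0) (nat_lit 14253825479) (nat_lit 456) (nat_lit 477383203) (nat_lit 76) (nat_lit 2215501583) (nat_lit 231) (nat_lit 5) (nat_lit 237) (nat_lit 5) (nat_lit 232) (nat_lit 5) (nat_lit 466) (nat_lit 426) (nat_lit 308)) (XT.lf (nat_lit 0) (nat_lit 624075803) (nat_lit 532) (nat_lit 7377037977) (nat_lit 76) (nat_lit 9235742477) (nat_lit 224) (nat_lit 5) (nat_lit 231)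 (nat_lit 5) (nat_lit 225) (nat_lit 5) (nat_lit 467) (nat_lit 426) (nat_lit 307)))) (XT.nd (nat_lit 156) (nat_lit 380) (nat_lit 0) (XT.nd (nat_lit 78) (nat_lit 0) (nat_lit 0) (XT.lf (nat_lit 0) (nat_lit 2996312859) (nat_lit 380) (nat_lit 1011044059) (nat_lit 456) (nat_lit 13526922180) (nat_lit 219) (nat_lit 5) (nat_lit 224) (nat_lit 5) (nat_lit 225) (nat_lit 5) (nat_lit 468) (nat_lit 426) (nat_lit 306)) (XT.lf (nat_lit 0) (nat_lit 7614294131) (nat_lit 456) (nat_lit 4083508453) (nat_lit 76) (nat_lit 6139157716) (nat_lit 219) (nat_lit 5) (nat_lit 225) (nat_lit 5) (nat_lit 220) (nat_lit 5) (nat_lit 469) (nat_lit 426) (nat_lit 305))) (XT.nd (nat_lit 78) (nat_lit 0) (nat_lit 0) (XT.lf (nat_lit 0) (nat_lit 6790598753) (nat_lit 380) (nat_lit 4601929001) (nat_lit 456) (nat_lit 6754301928) (nat_lit 214) (nat_lit 5) (nat_lit 219) (nat_lit 5) (nat_lit 220) (nat_lit 5) (nat_lit 470) (nat_lit 426) (nat_lit 304)) (XT.lf (nat_lit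 0) (nat_lit 15339731097) (nat_lit 456) (nat_lit 433189097) (nat_lit 76) (nat_lit 2691406651) (nat_lit 214) (nat_lit 5) (nat_lit 220) (nat_lit 5) (nat_lit 215) (nat_lit 5) (nat_lit 471) (nat_lit 426) (nat_lit 303))))) (XT.nd (nat_lit 312) (nat_lit 684) (nat_lit 0) (XT.nd (nat_lit 156) (nat_lit 304) (nat_lit 0) (XT.nd (nat_lit 78) (nat_lit 380) (nat_lit 0) (XT.lf (nat_lit 0) (nat_lit 742722310) (nat_lit 456) (nat_lit 7824564414) (nat_lit 76) (nat_lit 10219664433) (nat_lit 208) (nat_lit 5) (nat_lit 214) (nat_lit 5) (nat_lit 209) (nat_lit 5) (nat_lit 472) (nat_lit 426) (nat_lit 302)) (XT.lf (nat_lit 0) (nat_lit 3612878487) (nat_lit 380) (nat_lit 1077909565) (nat_lit 456) (nat_lit 14426712514) (nat_lit 203) (nat_lit 5) (nat_lit 208) (nat_lit 5) (nat_lit 209) (nat_lit 5) (nat_lit 473) (nat_lit 426) (nat_lit 301))) (XT.nd (nat_lit 78) (nat_lit 304) (nat_lit 0) (XT.lf (nat_lit 0) (nat_lit 8889403442) (nat_lit 456) (nat_lit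 3982696930) (nat_lit 76) (nat_lit 6581903195) (nat_lit 203) (nat_lit 5) (nat_lit 209) (nat_lit 5) (nat_lit 204) (nat_lit 5) (nat_lit 474) (nat_lit 426) (nat_lit 300)) (XT.lf (nat_lit 0) (nat_lit 8014717964) (nat_lit 304) (nat_lit 5275830276) (nat_lit 380) (nat_lit 6507756618) (nat_lit 199) (nat_lit 5) (nat_lit 203) (nat_lit 5) (nat_lit 204) (nat_lit 5) (nat_lit 475) (nat_lit 426) (nat_lit 299)))) (XT.nd (nat_lit 156) (nat_lit 304) (nat_lit 0) (XT.nd (nat_lit 78) (nat_lit 76) (nat_lit 0) (XT.lf (nat_lit 0) (nat_lit 266249754) (nat_lit 304) (nat_lit 17614132402) (nat_lit 380) (nat_lit 2270853708) (nat_lit 195) (nat_lit 5) (nat_lit 199) (nat_lit 5) (nat_lit 200) (nat_lit 5) (nat_lit 476) (nat_lit 426) (nat_lit 298)) (XT.lf (nat_lit 0) (nat_lit 2213760849) (nat_lit 380) (nat_lit 7681667122) (nat_lit 76) (nat_lit 10613880024) (nat_lit 194) (nat_lit 5) (nat_lit 199) (nat_lit 5) (nat_lit 195) (nat_lit 5) (nat_lit 477)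 (nat_lit 426) (nat_lit 297))) (XT.nd (nat_lit 78) (nat_lit 0) (nat_lit 0) (XT.lf (nat_lit 0) (nat_lit 4946172993) (nat_lit 304) (nat_lit 1878008058) (nat_lit 380) (nat_lit 14052159744) (nat_lit 190) (nat_lit 5) (nat_lit 194) (nat_lit 5) (nat_lit 195) (nat_lit 5) (nat_lit 478) (nat_lit 426) (nat_lit 296)) (XT.lf (nat_lit 0) (nat_lit 11702056254) (nat_lit 380) (nat_lit 3219564346) (nat_lit 76) (nat_lit 6328889993) (nat_lit 190) (nat_lit 5) (nat_lit 195) (nat_lit 5) (nat_lit 191) (nat_lit 5) (nat_lit 479) (nat_lit 426) (nat_lit 295)))))) (XT.nd (nat_lit 624) (nat_lit 1292) (nat_lit 0) (XT.nd (nat_lit 312) (nat_lit 608) (nat_lit 0) (XT.nd (nat_lit 156) (nat_lit 304) (nat_lit 0) (XT.nd (nat_lit 78) (nat_lit 380) (nat_lit 0) (XT.lf (nat_lit 0) (nat_lit 10034300492) (nat_lit 304) (nat_lit 6796800463) (nat_lit 380) (nat_lit 4801659808) (nat_lit 186) (nat_lit 5) (nat_lit 190) (nat_lit 5) (nat_lit 191) (nat_lit 5) (nat_lit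 480) (nat_lit 426) (nat_lit 294)) (XT.lf (nat_lit 0) (nat_lit 140820392) (nat_lit 380) (nat_lit 20297008945) (nat_lit 76) (nat_lit 1586974417) (nat_lit 181) (nat_lit 5) (nat_lit 186) (nat_lit 5) (nat_lit 182) (nat_lit 5) (nat_lit 481) (nat_lit 426) (nat_lit 293))) (XT.nd (nat_lit 78) (nat_lit 304) (nat_lit 0) (XT.lf (nat_lit 0) (nat_lit 5310579035) (nat_lit 380) (nat_lit 6864917335) (nat_lit 76) (nat_lit 10246420301) (nat_lit 181) (nat_lit 5) (nat_lit 186) (nat_lit 5) (nat_lit 182) (nat_lit 5) (nat_lit 482) (nat_lit 426) (nat_lit 292)) (XT.lf (nat_lit 0) (nat_lit 7093585909) (nat_lit 304) (nat_lit 3600261794) (nat_lit 380) (nat_lit 12135342999) (nat_lit 177) (nat_lit 5) (nat_lit 181) (nat_lit 5) (nat_lit 182) (nat_lit 5) (nat_lit 483) (nat_lit 426) (nat_lit 291)))) (XT.nd (nat_lit 156) (nat_lit 380) (nat_lit 0) (XT.nd (nat_lit 78) (nat_lit 228) (nat_lit 0) (XT.lf (nat_lit 0) (nat_lit 16349239879) (nat_lit 380) (nat_lit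 1701081584) (nat_lit 76) (nat_lit 5195042966) (nat_lit 177) (nat_lit 5) (nat_lit 182) (nat_lit 5) (nat_lit 178) (nat_lit 5) (nat_lit 484) (nat_lit 426) (nat_lit 290)) (XT.lf (nat_lit 0) (nat_lit 12957043667) (nat_lit 228) (nat_lit 9368050725) (nat_lit 304) (nat_lit 1344405190) (nat_lit 174) (nat_lit 5) (nat_lit 177) (nat_lit 5) (nat_lit 178) (nat_lit 5) (nat_lit 485) (nat_lit 426) (nat_lit 289))) (XT.nd (nat_lit 78) (nat_lit 0) (nat_lit 0) (XT.lf (nat_lit 0) (nat_lit 4005212414) (nat_lit 304) (nat_lit 329797612) (nat_lit 380) (nat_lit 19768692828) (nat_lit 169) (nat_lit 5) (nat_lit 173) (nat_lit 5) (nat_lit 174) (nat_lit 5) (nat_lit 486) (nat_lit 426) (nat_lit 288)) (XT.lf (nat_lit 0) (nat_lit 10344077534) (nat_lit 380) (nat_lit 5279131886) (nat_lit 76) (nat_lit 8921734956) (nat_lit 169) (nat_lit 5) (nat_lit 174) (nat_lit 5) (nat_lit 170) (nat_lit 5) (nat_lit 487) (nat_lit 426) (nat_lit 287))))) (XT.nd (nat_lit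 312) (nat_lit 532) (nat_lit 0) (XT.nd (nat_lit 156) (nat_lit 304) (nat_lit 0) (XT.nd (nat_lit 78) (nat_lit 228) (nat_lit 0) (XT.lf (nat_lit 0) (nat_lit 10165587855) (nat_lit 228) (nat_lit 6459810220) (nat_lit 304) (nat_lit 8371265843) (nat_lit 166) (nat_lit 5) (nat_lit 169) (nat_lit 5) (nat_lit 170) (nat_lit 5) (nat_lit 488) (nat_lit 426) (nat_lit 286)) (XT.lf (nat_lit 0) (nat_lit 691468010) (nat_lit 228) (nat_lit 22483877531) (nat_lit 304) (nat_lit 2284184086) (nat_lit 163) (nat_lit 5) (nat_lit 166) (nat_lit 5) (nat_lit 167) (nat_lit 5) (nat_lit 489) (nat_lit 426) (nat_lit 285))) (XT.nd (nat_lit 78) (nat_lit 228) (nat_lit 0) (XT.lf (nat_lit 0) (nat_lit 4114052939) (nat_lit 304) (nat_lit 9066262511) (nat_lit 76) (nat_lit 12748627275) (nat_lit 162) (nat_lit 5) (nat_lit 166) (nat_lit 5) (nat_lit 163) (nat_lit 5) (nat_lit 490) (nat_lit 426) (nat_lit 284)) (XT.lf (nat_lit 0) (nat_lit 7210668795) (nat_lit 228) (nat_lit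 3508339133) (nat_lit 304) (nat_lit 15690931580) (nat_lit 159) (nat_lit 5) (nat_lit 162) (nat_lit 5) (nat_lit 163) (nat_lit 5) (nat_lit 491) (nat_lit 426) (nat_lit 283)))) (XT.nd (nat_lit 156) (nat_lit 304) (nat_lit 0) (XT.nd (nat_lit 78) (nat_lit 228) (nat_lit 0) (XT.lf (nat_lit 0) (nat_lit 17668041200) (nat_lit 304) (nat_lit 2817885330) (nat_lit 76) (nat_lit 6415061952) (nat_lit 159) (nat_lit 5) (nat_lit 163) (nat_lit 5) (nat_lit 160) (nat_lit 5) (nat_lit 492) (nat_lit 426) (nat_lit 282)) (XT.lf (nat_lit 0) (nat_lit 14285294270) (nat_lit 228) (nat_lit 10703989585) (nat_lit 304) (nat_lit 2412573091) (nat_lit 156) (nat_lit 5) (nat_lit 159) (nat_lit 5) (nat_lit 160) (nat_lit 5) (nat_lit 493) (nat_lit 426) (nat_lit 281))) (XT.nd (nat_lit 78) (nat_lit 0) (nat_lit 0) (XT.lf (nat_lit 0) (nat_lit 4063408082) (nat_lit 228) (nat_lit 518510378) (nat_lit 304) (nat_lit 23332717719) (nat_lit 152) (nat_lit 5) (nat_lit 155) (nat_lit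 5) (nat_lit 156) (nat_lit 5) (nat_lit 494) (nat_lit 426) (nat_lit 280)) (XT.lf (nat_lit 0) (nat_lit 11959152700) (nat_lit 304) (nat_lit 6545990147) (nat_lit 76) (nat_lit 9930297544) (nat_lit 152) (nat_lit 5) (nat_lit 156) (nat_lit 5) (nat_lit 153) (nat_lit 5) (nat_lit 495) (nat_lit 426) (nat_lit 279))))))) (XT.nd (nat_lit 1248) (nat_lit 1748) (nat_lit 0) (XT.nd (nat_lit 624) (nat_lit 988) (nat_lit 0) (XT.nd (nat_lit 312) (nat_lit 456) (nat_lit 0) (XT.nd (nat_lit 156) (nat_lit 304) (nat_lit 0) (XT.nd (nat_lit 78) (nat_lit 152) (nat_lit 0) (XT.lf (nat_lit 0) (nat_lit 11484007077) (nat_lit 228) (nat_lit 8181234788) (nat_lit 304) (nat_lit 9303400880) (nat_lit 149) (nat_lit 5) (nat_lit 152) (nat_lit 5) (nat_lit 153) (nat_lit 5) (nat_lit 496) (nat_lit 426) (nat_lit 278)) (XT.lf (nat_lit 0) (nat_lit 648240958) (nat_lit 152) (nat_lit 27042900980) (nat_lit 228) (nat_lit 1824040533) (nat_lit 147) (nat_lit 5) (nat_lit 149)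 (nat_lit 5) (nat_lit 150) (nat_lit 5) (nat_lit 497) (nat_lit 426) (nat_lit 277))) (XT.nd (nat_lit 78) (nat_lit 228) (nat_lit 0) (XT.lf (nat_lit 0) (nat_lit 6016370132) (nat_lit 228) (nat_lit 10542008228) (nat_lit 76) (nat_lit 13510502482) (nat_lit 146) (nat_lit 5) (nat_lit 149) (nat_lit 5) (nat_lit 147) (nat_lit 5) (nat_lit 498) (nat_lit 426) (nat_lit 276)) (XT.lf (nat_lit 0) (nat_lit 8466783407) (nat_lit 228) (nat_lit 5662259174) (nat_lit 304) (nat_lit 16507394597) (nat_lit 143) (nat_lit 5) (nat_lit 146) (nat_lit 5) (nat_lit 147) (nat_lit 5) (nat_lit 499) (nat_lit 426) (nat_lit 275)))) (XT.nd (nat_lit 156) (nat_lit 304) (nat_lit 0) (XT.nd (nat_lit 78) (nat_lit 152) (nat_lit 0) (XT.lf (nat_lit 0) (nat_lit 22638427119) (nat_lit 304) (nat_lit 3023489715) (nat_lit 76) (nat_lit 5554503544) (nat_lit 143) (nat_lit 5) (nat_lit 147) (nat_lit 5) (nat_lit 144) (nat_lit 5) (nat_lit 500) (nat_lit 426) (nat_lit 274)) (XT.lf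 (nat_lit 0) (nat_lit 16959218673) (nat_lit 152) (nat_lit 14655552115) (nat_lit 228) (nat_lit 192682087) (nat_lit 141) (nat_lit 5) (nat_lit 143) (nat_lit 5) (nat_lit 144) (nat_lit 5) (nat_lit 501) (nat_lit 426) (nat_lit 273))) (XT.nd (nat_lit 78) (nat_lit 0) (nat_lit 0) (XT.lf (nat_lit 0) (nat_lit 5195255127) (nat_lit 228) (nat_lit 3157545775) (nat_lit 304) (nat_lit 24058778774) (nat_lit 137) (nat_lit 5) (nat_lit 140) (nat_lit 5) (nat_lit 141) (nat_lit 5) (nat_lit 502) (nat_lit 426) (nat_lit 272)) (XT.lf (nat_lit 0) (nat_lit 17378345776) (nat_lit 304) (nat_lit 6984569741) (nat_lit 76) (nat_lit 8664030545) (nat_lit 137) (nat_lit 5) (nat_lit 141) (nat_lit 5) (nat_lit 138) (nat_lit 5) (nat_lit 503) (nat_lit 426) (nat_lit 271))))) (XT.nd (nat_lit 312) (nat_lit 380) (nat_lit 0) (XT.nd (nat_lit 156) (nat_lit 152) (nat_lit 0) (XT.nd (nat_lit 78) (nat_lit 304) (nat_lit 0) (XT.lf (nat_lit 0) (nat_lit 14085323162) (nat_lit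 152) (nat_lit 12748865388) (nat_lit 228) (nat_lit 6821799057) (nat_lit 135) (nat_lit 5) (nat_lit 137) (nat_lit 5) (nat_lit 138) (nat_lit 5) (nat_lit 504) (nat_lit 426) (nat_lit 270)) (XT.lf (nat_lit 0) (nat_lit 1625480038) (nat_lit 228) (nat_lit 679779666) (nat_lit 304) (nat_lit 31995593869) (nat_lit 131) (nat_lit 5) (nat_lit 134) (nat_lit 5) (nat_lit 135) (nat_lit 5) (nat_lit 505) (nat_lit 426) (nat_lit 269))) (XT.nd (nat_lit 78) (nat_lit 152) (nat_lit 0) (XT.lf (nat_lit 0) (nat_lit 11874491933) (nat_lit 304) (nat_lit 11295374253) (nat_lit 76) (nat_lit 11784008968) (nat_lit 131) (nat_lit 5) (nat_lit 135) (nat_lit 5) (nat_lit 132) (nat_lit 5) (nat_lit 506) (nat_lit 426) (nat_lit 268)) (XT.lf (nat_lit 0) (nat_lit 10920286609) (nat_lit 152) (nat_lit 10915353062) (nat_lit 228) (nat_lit 13787702653) (nat_lit 129) (nat_lit 5) (nat_lit 131) (nat_lit 5) (nat_lit 132) (nat_lit 5) (nat_lit 507) (nat_lit 426) (nat_lit 267))))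 (XT.nd (nat_lit 156) (nat_lit 152) (nat_lit 0) (XT.nd (nat_lit 78) (nat_lit 228) (nat_lit 0) (XT.lf (nat_lit 0) (nat_lit 32220389356) (nat_lit 228) (nat_lit 2305183213) (nat_lit 76) (nat_lit 1783578015) (nat_lit 129) (nat_lit 5) (nat_lit 132) (nat_lit 5) (nat_lit 130) (nat_lit 5) (nat_lit 508) (nat_lit 426) (nat_lit 266)) (XT.lf (nat_lit 0) (nat_lit 6092845741) (nat_lit 228) (nat_lit 16010511019) (nat_lit 76) (nat_lit 14901269162) (nat_lit 126) (nat_lit 5) (nat_lit 129) (nat_lit 5) (nat_lit 127) (nat_lit 5) (nat_lit 509) (nat_lit 426) (nat_lit 265))) (XT.nd (nat_lit 78) (nat_lit 0) (nat_lit 0) (XT.lf (nat_lit 0) (nat_lit 7411490835) (nat_lit 152) (nat_lit 9174367376) (nat_lit 228) (nat_lit 21131248794) (nat_lit 124) (nat_lit 5) (nat_lit 126) (nat_lit 5) (nat_lit 127) (nat_lit 5) (nat_lit 510) (nat_lit 426) (nat_lit 264)) (XT.lf (nat_lit 0) (nat_lit 27590172833) (nat_lit 228) (nat_lit 6635011159) (nat_lit 76) (nat_lit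 4219883263) (nat_lit 124) (nat_lit 5) (nat_lit 127) (nat_lit 5) (nat_lit 125) (nat_lit 5) (nat_lit 511) (nat_lit 426) (nat_lit 263)))))) (XT.nd (nat_lit 624) (nat_lit 836) (nat_lit 0) (XT.nd (nat_lit 312) (nat_lit 380) (nat_lit 0) (XT.nd (nat_lit 156) (nat_lit 152) (nat_lit 0) (XT.nd (nat_lit 78) (nat_lit 228) (nat_lit 0) (XT.lf (nat_lit 0) (nat_lit 17994528829) (nat_lit 152) (nat_lit 21187505671) (nat_lit 228) (nat_lit 5109369) (nat_lit 122) (nat_lit 5) (nat_lit 124) (nat_lit 5) (nat_lit 125) (nat_lit 5) (nat_lit 512) (nat_lit 426) (nat_lit 262)) (XT.lf (nat_lit 0) (nat_lit 3498218113) (nat_lit 152) (nat_lit 7548893986) (nat_lit 228) (nat_lit 28898302133) (nat_lit 119) (nat_lit 5) (nat_lit 121) (nat_lit 5) (nat_lit 122) (nat_lit 5) (nat_lit 513) (nat_lit 426) (nat_lit 261))) (XT.nd (nat_lit 78) (nat_lit 152) (nat_lit 0) (XT.lf (nat_lit 0) (nat_lit 22703040922) (nat_lit 228) (nat_lit 11431976923) (nat_lit 76) (nat_lit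 6583246120) (nat_lit 119) (nat_lit 5) (nat_lit 122) (nat_lit 5) (nat_lit 120) (nat_lit 5) (nat_lit 514) (nat_lit 426) (nat_lit 260)) (XT.lf (nat_lit 0) (nat_lit 14531323736) (nat_lit 152) (nat_lit 20385583856) (nat_lit 228) (nat_lit 6591143872) (nat_lit 117) (nat_lit 5) (nat_lit 119) (nat_lit 5) (nat_lit 120) (nat_lit 5) (nat_lit 515) (nat_lit 426) (nat_lit 259)))) (XT.nd (nat_lit 156) (nat_lit 152) (nat_lit 0) (XT.nd (nat_lit 78) (nat_lit 152) (nat_lit 0) (XT.lf (nat_lit 0) (nat_lit 5185092619) (nat_lit 228) (nat_lit 872301054) (nat_lit 76) (nat_lit 36259333519) (nat_lit 116) (nat_lit 5) (nat_lit 119) (nat_lit 5) (nat_lit 117) (nat_lit 5) (nat_lit 516) (nat_lit 426) (nat_lit 258)) (XT.lf (nat_lit 0) (nat_lit 17517224945) (nat_lit 228) (nat_lit 16771647855) (nat_lit 76) (nat_lit 8848780168) (nat_lit 114) (nat_lit 5) (nat_lit 117) (nat_lit 5) (nat_lit 115) (nat_lit 5) (nat_lit 517) (nat_lit 426) (nat_lit 257))) (XT.nd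 (nat_lit 78) (nat_lit 0) (nat_lit 0) (XT.lf (nat_lit 0) (nat_lit 10592126443) (nat_lit 152) (nat_lit 19791932730) (nat_lit 228) (nat_lit 13594205274) (nat_lit 112) (nat_lit 5) (nat_lit 114) (nat_lit 5) (nat_lit 115) (nat_lit 5) (nat_lit 518) (nat_lit 426) (nat_lit 256)) (XT.lf (nat_lit 0) (nat_lit 39109820985) (nat_lit 152) (nat_lit 4690557726) (nat_lit 228) (nat_lit 1038811215) (nat_lit 112) (nat_lit 5) (nat_lit 114) (nat_lit 5) (nat_lit 115) (nat_lit 5) (nat_lit 519) (nat_lit 426) (nat_lit 255))))) (XT.nd (nat_lit 312) (nat_lit 304) (nat_lit 0) (XT.nd (nat_lit 156) (nat_lit 152) (nat_lit 0) (XT.nd (nat_lit 78) (nat_lit 152) (nat_lit 0) (XT.lf (nat_lit 0) (nat_lit 11984995406) (nat_lit 228) (nat_lit 22741135212) (nat_lit 76) (nat_lit 10986667935) (nat_lit 109) (nat_lit 5) (nat_lit 112) (nat_lit 5) (nat_lit 110) (nat_lit 5) (nat_lit 520) (nat_lit 426) (nat_lit 254)) (XT.lf (nat_lit 0) (nat_lit 6091239255) (nat_lit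 152) (nat_lit 19445075216) (nat_lit 228) (nat_lit 21071262149) (nat_lit 107) (nat_lit 5) (nat_lit 109) (nat_lit 5) (nat_lit 110) (nat_lit 5) (nat_lit 521) (nat_lit 426) (nat_lit 253))) (XT.nd (nat_lit 78) (nat_lit 152) (nat_lit 0) (XT.lf (nat_lit 0) (nat_lit 36244243245) (nat_lit 152) (nat_lit 3473892228) (nat_lit 228) (nat_lit 7804343744) (nat_lit 107) (nat_lit 5) (nat_lit 109) (nat_lit 5) (nat_lit 110) (nat_lit 5) (nat_lit 522) (nat_lit 426) (nat_lit 252)) (XT.lf (nat_lit 0) (nat_lit 6051747960) (nat_lit 152) (nat_lit 29440934216) (nat_lit 76) (nat_lit 12961290900) (nat_lit 105) (nat_lit 5) (nat_lit 107) (nat_lit 5) (nat_lit 106) (nat_lit 5) (nat_lit 523) (nat_lit 426) (nat_lit 251)))) (XT.nd (nat_lit 156) (nat_lit 152) (nat_lit 0) (XT.nd (nat_lit 78) (nat_lit 0) (nat_lit 0) (XT.lf (nat_lit 0) (nat_lit 929253307) (nat_lit 152) (nat_lit 19390203632) (nat_lit 228) (nat_lit 29087052920) (nat_lit 103) (nat_lit 5)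 (nat_lit 105) (nat_lit 5) (nat_lit 106) (nat_lit 5) (nat_lit 524) (nat_lit 426) (nat_lit 250)) (XT.lf (nat_lit 0) (nat_lit 32803822003) (nat_lit 152) (nat_lit 2503185041) (nat_lit 228) (nat_lit 15071861456) (nat_lit 103) (nat_lit 5) (nat_lit 105) (nat_lit 5) (nat_lit 106) (nat_lit 5) (nat_lit 525) (nat_lit 426) (nat_lit 249))) (XT.nd (nat_lit 78) (nat_lit 76) (nat_lit 0) (XT.lf (nat_lit 0) (nat_lit 14381680025) (nat_lit 76) (nat_lit 36638514802) (nat_lit 152) (nat_lit 351922787) (nat_lit 102) (nat_lit 5) (nat_lit 103) (nat_lit 5) (nat_lit 104) (nat_lit 4) (nat_lit 526) (nat_lit 426) (nat_lit 248)) (XT.lf (nat_lit 0) (nat_lit 14719277542) (nat_lit 152) (nat_lit 4911421044) (nat_lit 76) (nat_lit 32754235318) (nat_lit 101) (nat_lit 5) (nat_lit 103) (nat_lit 5) (nat_lit 102) (nat_lit 5) (nat_lit 527) (nat_lit 426) (nat_lit 247))))))))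
noncomputable def xc154 : XT := (XT.nd (nat_lit 55146) (nat_lit 0) (nat_lit 12388) (XT.nd (nat_lit 1170) (nat_lit 684) (nat_lit 0) (XT.nd (nat_lit 546) (nat_lit 684) (nat_lit 0) (XT.nd (nat_lit 234) (nat_lit 456) (nat_lit 0) (XT.nd (nat_lit 78) (nat_lit 152) (nat_lit 0) (XT.lf (nat_lit 0) (nat_lit 28676292008) (nat_lit 152) (nat_lit 1829696550) (nat_lit 228) (nat_lit 22913928200) (nat_lit 99) (nat_lit 5) (nat_lit 101) (nat_lit 5) (nat_lit 102) (nat_lit 5) (nat_lit 528) (nat_lit 426) (nat_lit 246)) (XT.nd (nat_lit 78) (nat_lit 76) (nat_lit 0) (XT.lf (nat_lit 0) (nat_lit 8892445179) (nat_lit 76) (nat_lit 38162890591) (nat_lit 152) (nat_lit 7421942326) (nat_lit 98) (nat_lit 5) (nat_lit 99) (nat_lit 5) (nat_lit 100) (nat_lit 4) (nat_lit 529) (nat_lit 426) (nat_lit 245)) (XT.lf (nat_lit 0) (nat_lit 8633526460) (nat_lit 152) (nat_lit 11626468462) (nat_lit 76) (nat_lit 35295946099) (nat_lit 97) (nat_lit 5) (nat_lit 99)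 (nat_lit 5) (nat_lit 98) (nat_lit 5) (nat_lit 530) (nat_lit 426) (nat_lit 244)))) (XT.nd (nat_lit 156) (nat_lit 228) (nat_lit 0) (XT.nd (nat_lit 78) (nat_lit 76) (nat_lit 0) (XT.lf (nat_lit 0) (nat_lit 23730729633) (nat_lit 152) (nat_lit 1513837563) (nat_lit 228) (nat_lit 31413499693) (nat_lit 95) (nat_lit 5) (nat_lit 97) (nat_lit 5) (nat_lit 98) (nat_lit 5) (nat_lit 531) (nat_lit 426) (nat_lit 243)) (XT.lf (nat_lit 0) (nat_lit 2463579533) (nat_lit 76) (nat_lit 40198642364) (nat_lit 152) (nat_lit 15121786192) (nat_lit 94) (nat_lit 5) (nat_lit 95) (nat_lit 5) (nat_lit 96) (nat_lit 4) (nat_lit 532) (nat_lit 426) (nat_lit 242))) (XT.nd (nat_lit 78) (nat_lit 152) (nat_lit 0) (XT.lf (nat_lit 0) (nat_lit 1972081225) (nat_lit 152) (nat_lit 19386300075) (nat_lit 76) (nat_lit 37574494857) (nat_lit 93) (nat_lit 5) (nat_lit 95) (nat_lit 5) (nat_lit 94) (nat_lit 5) (nat_lit 533) (nat_lit 426) (nat_lit 241)) (XT.lf (nat_lit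 0) (nat_lit 17814509536) (nat_lit 152) (nat_lit 1626699347) (nat_lit 228) (nat_lit 40665518485) (nat_lit 91) (nat_lit 5) (nat_lit 93) (nat_lit 5) (nat_lit 94) (nat_lit 5) (nat_lit 534) (nat_lit 426) (nat_lit 240))))) (XT.nd (nat_lit 312) (nat_lit 380) (nat_lit 0) (XT.nd (nat_lit 156) (nat_lit 228) (nat_lit 0) (XT.nd (nat_lit 78) (nat_lit 76) (nat_lit 0) (XT.lf (nat_lit 0) (nat_lit 37806983766) (nat_lit 228) (nat_lit 4972101566) (nat_lit 76) (nat_lit 18525531616) (nat_lit 91) (nat_lit 5) (nat_lit 94) (nat_lit 5) (nat_lit 92) (nat_lit 4) (nat_lit 535) (nat_lit 426) (nat_lit 239)) (XT.lf (nat_lit 0) (nat_lit 34108094387) (nat_lit 76) (nat_lit 22954897878) (nat_lit 152) (nat_lit 5465273174) (nat_lit 90) (nat_lit 5) (nat_lit 91) (nat_lit 5) (nat_lit 92) (nat_lit 4) (nat_lit 536) (nat_lit 426) (nat_lit 238))) (XT.nd (nat_lit 78) (nat_lit 0) (nat_lit 0) (XT.lf (nat_lit 0) (nat_lit 10749774089) (nat_lit 152) (nat_lit 2251829218)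 (nat_lit 228) (nat_lit 50778760096) (nat_lit 87) (nat_lit 5) (nat_lit 89) (nat_lit 5) (nat_lit 90) (nat_lit 5) (nat_lit 537) (nat_lit 426) (nat_lit 237)) (XT.lf (nat_lit 0) (nat_lit 32381106631) (nat_lit 228) (nat_lit 13633305345) (nat_lit 76) (nat_lit 19039935000) (nat_lit 87) (nat_lit 5) (nat_lit 90) (nat_lit 5) (nat_lit 88) (nat_lit 4) (nat_lit 538) (nat_lit 426) (nat_lit 236)))) (XT.nd (nat_lit 156) (nat_lit 76) (nat_lit 0) (XT.nd (nat_lit 78) (nat_lit 228) (nat_lit 0) (XT.lf (nat_lit 0) (nat_lit 27450516656) (nat_lit 76) (nat_lit 25173084449) (nat_lit 152) (nat_lit 13734500798) (nat_lit 86) (nat_lit 5) (nat_lit 87) (nat_lit 5) (nat_lit 88) (nat_lit 4) (nat_lit 539) (nat_lit 426) (nat_lit 235)) (XT.lf (nat_lit 0) (nat_lit 2329337601) (nat_lit 152) (nat_lit 3487291203) (nat_lit 228) (nat_lit 61877970022) (nat_lit 83) (nat_lit 5) (nat_lit 85) (nat_lit 5) (nat_lit 86) (nat_lit 5) (nat_lit 540) (nat_lit 426) (nat_lit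 234))) (XT.nd (nat_lit 78) (nat_lit 76) (nat_lit 0) (XT.lf (nat_lit 0) (nat_lit 26251665524) (nat_lit 228) (nat_lit 23788290521) (nat_lit 76) (nat_lit 19009952390) (nat_lit 83) (nat_lit 5) (nat_lit 86) (nat_lit 5) (nat_lit 84) (nat_lit 4) (nat_lit 541) (nat_lit 426) (nat_lit 233)) (XT.lf (nat_lit 0) (nat_lit 19370955820) (nat_lit 76) (nat_lit 28145116973) (nat_lit 152) (nat_lit 22923314985) (nat_lit 82) (nat_lit 5) (nat_lit 83) (nat_lit 5) (nat_lit 84) (nat_lit 4) (nat_lit 542) (nat_lit 426) (nat_lit 232)))))) (XT.nd (nat_lit 624) (nat_lit 0) (nat_lit 0) (XT.nd (nat_lit 312) (nat_lit 380) (nat_lit 0) (XT.nd (nat_lit 156) (nat_lit 76) (nat_lit 0) (XT.nd (nat_lit 78) (nat_lit 228) (nat_lit 0) (XT.lf (nat_lit 0) (nat_lit 64304196581) (nat_lit 76) (nat_lit 5350064742) (nat_lit 152) (nat_lit 2209214731) (nat_lit 82) (nat_lit 5) (nat_lit 83) (nat_lit 5) (nat_lit 84) (nat_lit 4) (nat_lit 543) (nat_lit 426) (nat_lit 231))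 (XT.lf (nat_lit 0) (nat_lit 19291812801) (nat_lit 228) (nat_lit 35692982892) (nat_lit 76) (nat_lit 18323813873) (nat_lit 79) (nat_lit 5) (nat_lit 82) (nat_lit 5) (nat_lit 80) (nat_lit 4) (nat_lit 544) (nat_lit 426) (nat_lit 230))) (XT.nd (nat_lit 78) (nat_lit 0) (nat_lit 0) (XT.lf (nat_lit 0) (nat_lit 9609580374) (nat_lit 76) (nat_lit 32002048824) (nat_lit 152) (nat_lit 33178266875) (nat_lit 78) (nat_lit 5) (nat_lit 79) (nat_lit 5) (nat_lit 80) (nat_lit 4) (nat_lit 545) (nat_lit 426) (nat_lit 229)) (XT.lf (nat_lit 0) (nat_lit 56994704974) (nat_lit 76) (nat_lit 7962537289) (nat_lit 152) (nat_lit 11347692870) (nat_lit 78) (nat_lit 5) (nat_lit 79) (nat_lit 5) (nat_lit 80) (nat_lit 4) (nat_lit 546) (nat_lit 426) (nat_lit 228)))) (XT.nd (nat_lit 156) (nat_lit 228) (nat_lit 0) (XT.nd (nat_lit 78) (nat_lit 0) (nat_lit 0) (XT.lf (nat_lit 0) (nat_lit 11354266249) (nat_lit 152) (nat_lit 49644799028) (nat_lit 76) (nat_lit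 16850134016) (nat_lit 76) (nat_lit 5) (nat_lit 78) (nat_lit 5) (nat_lit 77) (nat_lit 4) (nat_lit 547) (nat_lit 426) (nat_lit 227)) (XT.lf (nat_lit 0) (nat_lit 34780832607) (nat_lit 152) (nat_lit 2094790217) (nat_lit 76) (nat_lit 42552649197) (nat_lit 76) (nat_lit 5) (nat_lit 78) (nat_lit 5) (nat_lit 77) (nat_lit 4) (nat_lit 548) (nat_lit 426) (nat_lit 226))) (XT.nd (nat_lit 78) (nat_lit 152) (nat_lit 0) (XT.lf (nat_lit 0) (nat_lit 47806797747) (nat_lit 76) (nat_lit 11558929642) (nat_lit 152) (nat_lit 21675323620) (nat_lit 75) (nat_lit 5) (nat_lit 76) (nat_lit 5) (nat_lit 77) (nat_lit 4) (nat_lit 549) (nat_lit 426) (nat_lit 225)) (XT.lf (nat_lit 0) (nat_lit 2268025959) (nat_lit 152) (nat_lit 65989314938) (nat_lit 76) (nat_lit 14434675078) (nat_lit 73) (nat_lit 5) (nat_lit 75) (nat_lit 5) (nat_lit 74) (nat_lit 4) (nat_lit 550) (nat_lit 426) (nat_lit 224))))) (XT.nd (nat_lit 53040) (nat_lit 0) (nat_lit 20748) (XT.nd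 (nat_lit 52884) (nat_lit 0) (nat_lit 21736) (XT.nd (nat_lit 52806) (nat_lit 0) (nat_lit 21736) (XT.lf (nat_lit 0) (nat_lit 26943384936) (nat_lit 152) (nat_lit 15903596854) (nat_lit 76) (nat_lit 41525609060) (nat_lit 73) (nat_lit 5) (nat_lit 75) (nat_lit 5) (nat_lit 74) (nat_lit 4) (nat_lit 551) (nat_lit 426) (nat_lit 223)) (XT.lf (nat_lit 0) (nat_lit 2980963676) (nat_lit 1140) (nat_lit 898786063) (nat_lit 1140) (nat_lit 898786063) (nat_lit 359) (nat_lit 3) (nat_lit 374) (nat_lit 3) (nat_lit 374) (nat_lit 5) (nat_lit 427) (nat_lit 427) (nat_lit 346))) (XT.nd (nat_lit 78) (nat_lit 0) (nat_lit 76) (XT.lf (nat_lit 76) (nat_lit 3021900057) (nat_lit 0) (nat_lit 3836381563) (nat_lit 1140) (nat_lit 2817899067) (nat_lit 360) (nat_lit 5) (nat_lit 359) (nat_lit 3) (nat_lit 374) (nat_lit 5) (nat_lit 428) (nat_lit 427) (nat_lit 345)) (XT.lf (nat_lit 0) (nat_lit 7771451653) (nat_lit 1064) (nat_lit 1794661823) (nat_lit 1140) (nat_lit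 233053341) (nat_lit 360) (nat_lit 5) (nat_lit 374) (nat_lit 5) (nat_lit 375) (nat_lit 5) (nat_lit 429) (nat_lit 427) (nat_lit 344)))) (XT.nd (nat_lit 156) (nat_lit 1064) (nat_lit 0) (XT.nd (nat_lit 78) (nat_lit 0) (nat_lit 0) (XT.lf (nat_lit 76) (nat_lit 3219069062) (nat_lit 0) (nat_lit 5532388330) (nat_lit 1140) (nat_lit 1173203406) (nat_lit 361) (nat_lit 5) (nat_lit 360) (nat_lit 5) (nat_lit 375) (nat_lit 5) (nat_lit 430) (nat_lit 427) (nat_lit 343)) (XT.lf (nat_lit 76) (nat_lit 8403654385) (nat_lit 0) (nat_lit 1346546167) (nat_lit 1140) (nat_lit 304040373) (nat_lit 361) (nat_lit 5) (nat_lit 360) (nat_lit 5) (nat_lit 375) (nat_lit 5) (nat_lit 431) (nat_lit 427) (nat_lit 342))) (XT.nd (nat_lit 78) (nat_lit 0) (nat_lit 0) (XT.lf (nat_lit 0) (nat_lit 615095573) (nat_lit 1140) (nat_lit 6612074332) (nat_lit 1216) (nat_lit 2959306392) (nat_lit 346) (nat_lit 5) (nat_lit 361) (nat_lit 5) (nat_lit 362) (nat_lit 5) (nat_lit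 432) (nat_lit 427) (nat_lit 341)) (XT.lf (nat_lit 0) (nat_lit 1558408725) (nat_lit 1140) (nat_lit 1365919405) (nat_lit 1216) (nat_lit 7398180188) (nat_lit 346) (nat_lit 5) (nat_lit 361) (nat_lit 5) (nat_lit 362) (nat_lit 5) (nat_lit 433) (nat_lit 427) (nat_lit 340))))))) (XT.nd (nat_lit 1248) (nat_lit 4864) (nat_lit 0) (XT.nd (nat_lit 624) (nat_lit 3572) (nat_lit 0) (XT.nd (nat_lit 312) (nat_lit 0) (nat_lit 76) (XT.nd (nat_lit 156) (nat_lit 0) (nat_lit 76) (XT.nd (nat_lit 78) (nat_lit 0) (nat_lit 0) (XT.lf (nat_lit 0) (nat_lit 2557768556) (nat_lit 1140) (nat_lit 6376280687) (nat_lit 1216) (nat_lit 1527740922) (nat_lit 347) (nat_lit 5) (nat_lit 362) (nat_lit 5) (nat_lit 363) (nat_lit 5) (nat_lit 434) (nat_lit 427) (nat_lit 339)) (XT.lf (nat_lit 0) (nat_lit 3604049769) (nat_lit 1140) (nat_lit 922862987) (nat_lit 1216) (nat_lit 6077830738) (nat_lit 347) (nat_lit 5) (nat_lit 362) (nat_lit 5) (nat_lit 363) (nat_lit 5)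 (nat_lit 435) (nat_lit 427) (nat_lit 338))) (XT.nd (nat_lit 78) (nat_lit 0) (nat_lit 0) (XT.lf (nat_lit 0) (nat_lit 4703040709) (nat_lit 1140) (nat_lit 5981686035) (nat_lit 1216) (nat_lit 66620249) (nat_lit 348) (nat_lit 5) (nat_lit 363) (nat_lit 5) (nat_lit 364) (nat_lit 5) (nat_lit 436) (nat_lit 427) (nat_lit 337)) (XT.lf (nat_lit 0) (nat_lit 5864694766) (nat_lit 1140) (nat_lit 312663225) (nat_lit 1216) (nat_lit 4724100978) (nat_lit 348) (nat_lit 5) (nat_lit 363) (nat_lit 5) (nat_lit 364) (nat_lit 5) (nat_lit 437) (nat_lit 427) (nat_lit 336)))) (XT.nd (nat_lit 156) (nat_lit 0) (nat_lit 76) (XT.nd (nat_lit 78) (nat_lit 0) (nat_lit 76) (XT.lf (nat_lit 76) (nat_lit 5619029793) (nat_lit 0) (nat_lit 1472358023) (nat_lit 1216) (nat_lit 3963781947) (nat_lit 349) (nat_lit 5) (nat_lit 348) (nat_lit 5) (nat_lit 364) (nat_lit 5) (nat_lit 438) (nat_lit 427) (nat_lit 335)) (XT.lf (nat_lit 76) (nat_lit 480966543) (nat_lit 0)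 (nat_lit 7890927048) (nat_lit 1216) (nat_lit 2841089037) (nat_lit 350) (nat_lit 5) (nat_lit 349) (nat_lit 5) (nat_lit 365) (nat_lit 5) (nat_lit 439) (nat_lit 427) (nat_lit 334))) (XT.nd (nat_lit 78) (nat_lit 0) (nat_lit 76) (XT.lf (nat_lit 76) (nat_lit 6654684465) (nat_lit 0) (nat_lit 3082737107) (nat_lit 1216) (nat_lit 1636711171) (nat_lit 350) (nat_lit 5) (nat_lit 349) (nat_lit 5) (nat_lit 365) (nat_lit 5) (nat_lit 440) (nat_lit 427) (nat_lit 333)) (XT.lf (nat_lit 76) (nat_lit 1466467480) (nat_lit 0) (nat_lit 9687505808) (nat_lit 1216) (nat_lit 385843379) (nat_lit 351) (nat_lit 5) (nat_lit 350) (nat_lit 5) (nat_lit 366) (nat_lit 5) (nat_lit 441) (nat_lit 427) (nat_lit 332))))) (XT.nd (nat_lit 312) (nat_lit 1444) (nat_lit 0) (XT.nd (nat_lit 156) (nat_lit 1140) (nat_lit 0) (XT.nd (nat_lit 78) (nat_lit 0) (nat_lit 76) (XT.lf (nat_lit 0) (nat_lit 941836891) (nat_lit 1216) (nat_lit 3831939591) (nat_lit 1292) (nat_lit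 6934728378) (nat_lit 334) (nat_lit 5) (nat_lit 350) (nat_lit 5) (nat_lit 351) (nat_lit 5) (nat_lit 442) (nat_lit 427) (nat_lit 331)) (XT.lf (nat_lit 0) (nat_lit 2308808965) (nat_lit 1216) (nat_lit 9258363517) (nat_lit 76) (nat_lit 314751073) (nat_lit 335) (nat_lit 5) (nat_lit 351) (nat_lit 5) (nat_lit 336) (nat_lit 5) (nat_lit 443) (nat_lit 427) (nat_lit 330))) (XT.nd (nat_lit 78) (nat_lit 1216) (nat_lit 0) (XT.lf (nat_lit 0) (nat_lit 3782496729) (nat_lit 1216) (nat_lit 2773650602) (nat_lit 76) (nat_lit 5502427208) (nat_lit 335) (nat_lit 5) (nat_lit 351) (nat_lit 5) (nat_lit 336) (nat_lit 5) (nat_lit 444) (nat_lit 427) (nat_lit 329)) (XT.lf (nat_lit 0) (nat_lit 3965614231) (nat_lit 1216) (nat_lit 1352865096) (nat_lit 1292) (nat_lit 6921504101) (nat_lit 319) (nat_lit 5) (nat_lit 335) (nat_lit 5) (nat_lit 336) (nat_lit 5) (nat_lit 445) (nat_lit 427) (nat_lit 328)))) (XT.nd (nat_lit 156) (nat_lit 608) (nat_lit 0) (XT.nd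 (nat_lit 78) (nat_lit 836) (nat_lit 0) (XT.lf (nat_lit 0) (nat_lit 6947745933) (nat_lit 1292) (nat_lit 1518685769) (nat_lit 76) (nat_lit 3958987617) (nat_lit 319) (nat_lit 5) (nat_lit 336) (nat_lit 5) (nat_lit 320) (nat_lit 5) (nat_lit 446) (nat_lit 427) (nat_lit 327)) (XT.lf (nat_lit 0) (nat_lit 5516626421) (nat_lit 836) (nat_lit 3156664422) (nat_lit 912) (nat_lit 3941706283) (nat_lit 308) (nat_lit 5) (nat_lit 319) (nat_lit 5) (nat_lit 320) (nat_lit 5) (nat_lit 447) (nat_lit 427) (nat_lit 326))) (XT.nd (nat_lit 78) (nat_lit 608) (nat_lit 0) (XT.lf (nat_lit 0) (nat_lit 10469698210) (nat_lit 912) (nat_lit 55753705) (nat_lit 76) (nat_lit 2284238292) (nat_lit 308) (nat_lit 5) (nat_lit 320) (nat_lit 5) (nat_lit 309) (nat_lit 5) (nat_lit 448) (nat_lit 427) (nat_lit 325)) (XT.lf (nat_lit 0) (nat_lit 7291995305) (nat_lit 608) (nat_lit 5111274392) (nat_lit 684) (nat_lit 604457026) (nat_lit 300) (nat_lit 5) (nat_lit 308)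 (nat_lit 5) (nat_lit 309) (nat_lit 5) (nat_lit 449) (nat_lit 427) (nat_lit 324)))))) (XT.nd (nat_lit 624) (nat_lit 1900) (nat_lit 0) (XT.nd (nat_lit 312) (nat_lit 1748) (nat_lit 0) (XT.nd (nat_lit 156) (nat_lit 532) (nat_lit 0) (XT.nd (nat_lit 78) (nat_lit 0) (nat_lit 0) (XT.lf (nat_lit 0) (nat_lit 1163379182) (nat_lit 684) (nat_lit 11563021952) (nat_lit 76) (nat_lit 484863082) (nat_lit 291) (nat_lit 5) (nat_lit 300) (nat_lit 5) (nat_lit 292) (nat_lit 5) (nat_lit 450) (nat_lit 427) (nat_lit 323)) (XT.lf (nat_lit 0) (nat_lit 3063465678) (nat_lit 684) (nat_lit 4143770561) (nat_lit 76) (nat_lit 6210751860) (nat_lit 291) (nat_lit 5) (nat_lit 300) (nat_lit 5) (nat_lit 292) (nat_lit 5) (nat_lit 451) (nat_lit 427) (nat_lit 322))) (XT.nd (nat_lit 78) (nat_lit 0) (nat_lit 0) (XT.lf (nat_lit 0) (nat_lit 3550117006) (nat_lit 532) (nat_lit 1487542660) (nat_lit 608) (nat_lit 8592741594) (nat_lit 284) (nat_lit 5) (nat_lit 291)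 (nat_lit 5) (nat_lit 292) (nat_lit 5) (nat_lit 452) (nat_lit 427) (nat_lit 321)) (XT.lf (nat_lit 0) (nat_lit 7138976618) (nat_lit 608) (nat_lit 2348458873) (nat_lit 76) (nat_lit 4359715101) (nat_lit 284) (nat_lit 5) (nat_lit 292) (nat_lit 5) (nat_lit 285) (nat_lit 5) (nat_lit 453) (nat_lit 427) (nat_lit 320)))) (XT.nd (nat_lit 156) (nat_lit 1140) (nat_lit 0) (XT.nd (nat_lit 78) (nat_lit 0) (nat_lit 0) (XT.lf (nat_lit 0) (nat_lit 5694681877) (nat_lit 608) (nat_lit 3661913733) (nat_lit 684) (nat_lit 4712209587) (nat_lit 276) (nat_lit 5) (nat_lit 284) (nat_lit 5) (nat_lit 285) (nat_lit 5) (nat_lit 454) (nat_lit 427) (nat_lit 319)) (XT.lf (nat_lit 0) (nat_lit 11671264848) (nat_lit 684) (nat_lit 309188920) (nat_lit 76) (nat_lit 2315740672) (nat_lit 276) (nat_lit 5) (nat_lit 285) (nat_lit 5) (nat_lit 277) (nat_lit 5) (nat_lit 455) (nat_lit 427) (nat_lit 318))) (XT.nd (nat_lit 78) (nat_lit 608) (nat_lit 0) (XT.lf (nat_lit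 0) (nat_lit 8102718910) (nat_lit 532) (nat_lit 6051357558) (nat_lit 608) (nat_lit 373368453) (nat_lit 269) (nat_lit 5) (nat_lit 276) (nat_lit 5) (nat_lit 277) (nat_lit 5) (nat_lit 456) (nat_lit 427) (nat_lit 317)) (XT.lf (nat_lit 0) (nat_lit 1915881096) (nat_lit 608) (nat_lit 12754458243) (nat_lit 76) (nat_lit 94489764) (nat_lit 261) (nat_lit 5) (nat_lit 269) (nat_lit 5) (nat_lit 262) (nat_lit 5) (nat_lit 457) (nat_lit 427) (nat_lit 316))))) (XT.nd (nat_lit 312) (nat_lit 988) (nat_lit 0) (XT.nd (nat_lit 156) (nat_lit 456) (nat_lit 0) (XT.nd (nat_lit 78) (nat_lit 456) (nat_lit 0) (XT.lf (nat_lit 0) (nat_lit 4376701134) (nat_lit 608) (nat_lit 4258659793) (nat_lit 76) (nat_lit 6370551640) (nat_lit 261) (nat_lit 5) (nat_lit 269) (nat_lit 5) (nat_lit 262) (nat_lit 5) (nat_lit 458) (nat_lit 427) (nat_lit 315)) (XT.lf (nat_lit 0) (nat_lit 4564342454) (nat_lit 456) (nat_lit 2376279951) (nat_lit 532) (nat_lit 8312728391)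 (nat_lit 255) (nat_lit 5) (nat_lit 261) (nat_lit 5) (nat_lit 262) (nat_lit 5) (nat_lit 459) (nat_lit 427) (nat_lit 314))) (XT.nd (nat_lit 78) (nat_lit 456) (nat_lit 0) (XT.lf (nat_lit 0) (nat_lit 9649665796) (nat_lit 532) (nat_lit 1824125376) (nat_lit 76) (nat_lit 4032375409) (nat_lit 255) (nat_lit 5) (nat_lit 262) (nat_lit 5) (nat_lit 256) (nat_lit 5) (nat_lit 460) (nat_lit 427) (nat_lit 313)) (XT.lf (nat_lit 0) (nat_lit 7411310714) (nat_lit 456) (nat_lit 5109503178) (nat_lit 532) (nat_lit 3243328475) (nat_lit 249) (nat_lit 5) (nat_lit 255) (nat_lit 5) (nat_lit 256) (nat_lit 5) (nat_lit 461) (nat_lit 427) (nat_lit 312)))) (XT.nd (nat_lit 156) (nat_lit 456) (nat_lit 0) (XT.nd (nat_lit 78) (nat_lit 76) (nat_lit 0) (XT.lf (nat_lit 0) (nat_lit 919040850) (nat_lit 456) (nat_lit 14586676956) (nat_lit 532) (nat_lit 523311492) (nat_lit 243) (nat_lit 5) (nat_lit 249) (nat_lit 5) (nat_lit 250) (nat_lit 5) (nat_lit 462) (nat_lit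 427) (nat_lit 311)) (XT.lf (nat_lit 0) (nat_lit 2356013422) (nat_lit 532) (nat_lit 5749181532) (nat_lit 76) (nat_lit 8192346390) (nat_lit 242) (nat_lit 5) (nat_lit 249) (nat_lit 5) (nat_lit 243) (nat_lit 5) (nat_lit 463) (nat_lit 427) (nat_lit 310))) (XT.nd (nat_lit 78) (nat_lit 0) (nat_lit 0) (XT.lf (nat_lit 0) (nat_lit 3947978672) (nat_lit 456) (nat_lit 1387961946) (nat_lit 532) (nat_lit 11237270947) (nat_lit 236) (nat_lit 5) (nat_lit 242) (nat_lit 5) (nat_lit 243) (nat_lit 5) (nat_lit 464) (nat_lit 427) (nat_lit 309)) (XT.lf (nat_lit 0) (nat_lit 8504050085) (nat_lit 532) (nat_lit 2871772123) (nat_lit 76) (nat_lit 5478366607) (nat_lit 236) (nat_lit 5) (nat_lit 243) (nat_lit 5) (nat_lit 237) (nat_lit 5) (nat_lit 465) (nat_lit 427) (nat_lit 308))))))))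
noncomputable def xc155 : XT := (XT.nd (nat_lit 2418) (nat_lit 3876) (nat_lit 0) (XT.nd (nat_lit 1170) (nat_lit 2888) (nat_lit 0) (XT.nd (nat_lit 546) (nat_lit 1444) (nat_lit 0) (XT.nd (nat_lit 234) (nat_lit 1140) (nat_lit 0) (XT.nd (nat_lit 78) (nat_lit 532) (nat_lit 0) (XT.lf (nat_lit 0) (nat_lit 7286693267) (nat_lit 380) (nat_lit 4551663753) (nat_lit 456) (nat_lit 5303104179) (nat_lit 231) (nat_lit 5) (nat_lit 236) (nat_lit 5) (nat_lit 237) (nat_lit 5) (nat_lit 466) (nat_lit 427) (nat_lit 307)) (XT.nd (nat_lit 78) (nat_lit 76) (nat_lit 0) (XT.lf (nat_lit 0) (nat_lit 338577676) (nat_lit 456) (nat_lit 14978018686) (nat_lit 532) (nat_lit 2119438726) (nat_lit 225) (nat_lit 5) (nat_lit 231) (nat_lit 5) (nat_lit 232) (nat_lit 5) (nat_lit 467) (nat_lit 427) (nat_lit 306)) (XT.lf (nat_lit 0) (nat_lit 1270307332) (nat_lit 532) (nat_lit 6770239646) (nat_lit 76) (nat_lit 9694569139) (nat_lit 224) (nat_lit 5) (nat_lit 231)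 (nat_lit 5) (nat_lit 225) (nat_lit 5) (nat_lit 468) (nat_lit 427) (nat_lit 305)))) (XT.nd (nat_lit 156) (nat_lit 760) (nat_lit 0) (XT.nd (nat_lit 78) (nat_lit 0) (nat_lit 0) (XT.lf (nat_lit 0) (nat_lit 3906192996) (nat_lit 380) (nat_lit 838499170) (nat_lit 456) (nat_lit 13297081918) (nat_lit 219) (nat_lit 5) (nat_lit 224) (nat_lit 5) (nat_lit 225) (nat_lit 5) (nat_lit 469) (nat_lit 427) (nat_lit 304)) (XT.lf (nat_lit 0) (nat_lit 8443756654) (nat_lit 456) (nat_lit 3393805970) (nat_lit 76) (nat_lit 6516456103) (nat_lit 219) (nat_lit 5) (nat_lit 225) (nat_lit 5) (nat_lit 220) (nat_lit 5) (nat_lit 470) (nat_lit 427) (nat_lit 303))) (XT.nd (nat_lit 78) (nat_lit 380) (nat_lit 0) (XT.lf (nat_lit 0) (nat_lit 7798561631) (nat_lit 380) (nat_lit 4527000713) (nat_lit 456) (nat_lit 6347915660) (nat_lit 214) (nat_lit 5) (nat_lit 219) (nat_lit 5) (nat_lit 220) (nat_lit 5) (nat_lit 471) (nat_lit 427) (nat_lit 302)) (XT.lf (nat_lit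 0) (nat_lit 356850642) (nat_lit 380) (nat_lit 16022528004) (nat_lit 456) (nat_lit 2621476078) (nat_lit 209) (nat_lit 5) (nat_lit 214) (nat_lit 5) (nat_lit 215) (nat_lit 5) (nat_lit 472) (nat_lit 427) (nat_lit 301))))) (XT.nd (nat_lit 312) (nat_lit 684) (nat_lit 0) (XT.nd (nat_lit 156) (nat_lit 304) (nat_lit 0) (XT.nd (nat_lit 78) (nat_lit 380) (nat_lit 0) (XT.lf (nat_lit 0) (nat_lit 1337458711) (nat_lit 456) (nat_lit 7259623820) (nat_lit 76) (nat_lit 10736286308) (nat_lit 208) (nat_lit 5) (nat_lit 214) (nat_lit 5) (nat_lit 209) (nat_lit 5) (nat_lit 473) (nat_lit 427) (nat_lit 300)) (XT.lf (nat_lit 0) (nat_lit 4513102393) (nat_lit 380) (nat_lit 881802221) (nat_lit 456) (nat_lit 14279202473) (nat_lit 203) (nat_lit 5) (nat_lit 208) (nat_lit 5) (nat_lit 209) (nat_lit 5) (nat_lit 474) (nat_lit 427) (nat_lit 299))) (XT.nd (nat_lit 78) (nat_lit 304) (nat_lit 0) (XT.lf (nat_lit 0) (nat_lit 9705200953) (nat_lit 456) (nat_lit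 3319109781) (nat_lit 76) (nat_lit 6996823255) (nat_lit 203) (nat_lit 5) (nat_lit 209) (nat_lit 5) (nat_lit 204) (nat_lit 5) (nat_lit 475) (nat_lit 427) (nat_lit 298)) (XT.lf (nat_lit 0) (nat_lit 9030550421) (nat_lit 304) (nat_lit 5199289553) (nat_lit 380) (nat_lit 6146181022) (nat_lit 199) (nat_lit 5) (nat_lit 203) (nat_lit 5) (nat_lit 204) (nat_lit 5) (nat_lit 476) (nat_lit 427) (nat_lit 297)))) (XT.nd (nat_lit 156) (nat_lit 304) (nat_lit 0) (XT.nd (nat_lit 78) (nat_lit 76) (nat_lit 0) (XT.lf (nat_lit 0) (nat_lit 1055865093) (nat_lit 304) (nat_lit 17895463836) (nat_lit 380) (nat_lit 1788392661) (nat_lit 195) (nat_lit 5) (nat_lit 199) (nat_lit 5) (nat_lit 200) (nat_lit 5) (nat_lit 477) (nat_lit 427) (nat_lit 296)) (XT.lf (nat_lit 0) (nat_lit 2804292829) (nat_lit 380) (nat_lit 7142809737) (nat_lit 76) (nat_lit 11161746680) (nat_lit 194) (nat_lit 5) (nat_lit 199) (nat_lit 5) (nat_lit 195) (nat_lit 5) (nat_lit 478)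 (nat_lit 427) (nat_lit 295))) (XT.nd (nat_lit 78) (nat_lit 0) (nat_lit 0) (XT.lf (nat_lit 0) (nat_lit 5856323352) (nat_lit 304) (nat_lit 1688759233) (nat_lit 380) (nat_lit 13942049158) (nat_lit 190) (nat_lit 5) (nat_lit 194) (nat_lit 5) (nat_lit 195) (nat_lit 5) (nat_lit 479) (nat_lit 427) (nat_lit 294)) (XT.lf (nat_lit 0) (nat_lit 12556551781) (nat_lit 380) (nat_lit 2563817594) (nat_lit 76) (nat_lit 6752539935) (nat_lit 190) (nat_lit 5) (nat_lit 195) (nat_lit 5) (nat_lit 191) (nat_lit 5) (nat_lit 480) (nat_lit 427) (nat_lit 293)))))) (XT.nd (nat_lit 624) (nat_lit 1292) (nat_lit 0) (XT.nd (nat_lit 312) (nat_lit 608) (nat_lit 0) (XT.nd (nat_lit 156) (nat_lit 304) (nat_lit 0) (XT.nd (nat_lit 78) (nat_lit 380) (nat_lit 0) (XT.lf (nat_lit 0) (nat_lit 11080287369) (nat_lit 304) (nat_lit 6751678323) (nat_lit 380) (nat_lit 4434886753) (nat_lit 186) (nat_lit 5) (nat_lit 190) (nat_lit 5) (nat_lit 191) (nat_lit 5) (nat_lit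 481) (nat_lit 427) (nat_lit 292)) (XT.lf (nat_lit 0) (nat_lit 640940057) (nat_lit 380) (nat_lit 20146008315) (nat_lit 76) (nat_lit 1883710209) (nat_lit 181) (nat_lit 5) (nat_lit 186) (nat_lit 5) (nat_lit 182) (nat_lit 5) (nat_lit 482) (nat_lit 427) (nat_lit 291))) (XT.nd (nat_lit 78) (nat_lit 304) (nat_lit 0) (XT.lf (nat_lit 0) (nat_lit 5951347914) (nat_lit 380) (nat_lit 6333087284) (nat_lit 76) (nat_lit 10795683356) (nat_lit 181) (nat_lit 5) (nat_lit 186) (nat_lit 5) (nat_lit 182) (nat_lit 5) (nat_lit 483) (nat_lit 427) (nat_lit 290)) (XT.lf (nat_lit 0) (nat_lit 8036937944) (nat_lit 304) (nat_lit 3452176279) (nat_lit 380) (nat_lit 12010706948) (nat_lit 177) (nat_lit 5) (nat_lit 181) (nat_lit 5) (nat_lit 182) (nat_lit 5) (nat_lit 484) (nat_lit 427) (nat_lit 289)))) (XT.nd (nat_lit 156) (nat_lit 380) (nat_lit 0) (XT.nd (nat_lit 78) (nat_lit 228) (nat_lit 0) (XT.lf (nat_lit 0) (nat_lit 17302739226) (nat_lit 380) (nat_lit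 1031407252) (nat_lit 76) (nat_lit 5594676842) (nat_lit 177) (nat_lit 5) (nat_lit 182) (nat_lit 5) (nat_lit 178) (nat_lit 5) (nat_lit 485) (nat_lit 427) (nat_lit 288)) (XT.lf (nat_lit 0) (nat_lit 14059396004) (nat_lit 228) (nat_lit 9391847242) (nat_lit 304) (nat_lit 914638396) (nat_lit 174) (nat_lit 5) (nat_lit 177) (nat_lit 5) (nat_lit 178) (nat_lit 5) (nat_lit 486) (nat_lit 427) (nat_lit 287))) (XT.nd (nat_lit 78) (nat_lit 0) (nat_lit 0) (XT.lf (nat_lit 0) (nat_lit 4841107342) (nat_lit 304) (nat_lit 78333709) (nat_lit 380) (nat_lit 19893731054) (nat_lit 169) (nat_lit 5) (nat_lit 173) (nat_lit 5) (nat_lit 174) (nat_lit 5) (nat_lit 487) (nat_lit 427) (nat_lit 286)) (XT.lf (nat_lit 0) (nat_lit 11097985352) (nat_lit 380) (nat_lit 4731808698) (nat_lit 76) (nat_lit 9438180984) (nat_lit 169) (nat_lit 5) (nat_lit 174) (nat_lit 5) (nat_lit 170) (nat_lit 5) (nat_lit 488) (nat_lit 427) (nat_lit 285))))) (XT.nd (nat_lit 312)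 (nat_lit 532) (nat_lit 0) (XT.nd (nat_lit 156) (nat_lit 304) (nat_lit 0) (XT.nd (nat_lit 78) (nat_lit 228) (nat_lit 0) (XT.lf (nat_lit 0) (nat_lit 11169334036) (nat_lit 228) (nat_lit 6392208595) (nat_lit 304) (nat_lit 8171889913) (nat_lit 166) (nat_lit 5) (nat_lit 169) (nat_lit 5) (nat_lit 170) (nat_lit 5) (nat_lit 489) (nat_lit 427) (nat_lit 284)) (XT.lf (nat_lit 0) (nat_lit 1414654316) (nat_lit 228) (nat_lit 22889786721) (nat_lit 304) (nat_lit 1905849896) (nat_lit 163) (nat_lit 5) (nat_lit 166) (nat_lit 5) (nat_lit 167) (nat_lit 5) (nat_lit 490) (nat_lit 427) (nat_lit 283))) (XT.nd (nat_lit 78) (nat_lit 228) (nat_lit 0) (XT.lf (nat_lit 0) (nat_lit 4662853043) (nat_lit 304) (nat_lit 8647792755) (nat_lit 76) (nat_lit 13383394872) (nat_lit 162) (nat_lit 5) (nat_lit 166) (nat_lit 5) (nat_lit 163) (nat_lit 5) (nat_lit 491) (nat_lit 427) (nat_lit 282)) (XT.lf (nat_lit 0) (nat_lit 8110677297) (nat_lit 228) (nat_lit 3349461750)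 (nat_lit 304) (nat_lit 15729503100) (nat_lit 159) (nat_lit 5) (nat_lit 162) (nat_lit 5) (nat_lit 163) (nat_lit 5) (nat_lit 492) (nat_lit 427) (nat_lit 281)))) (XT.nd (nat_lit 156) (nat_lit 304) (nat_lit 0) (XT.nd (nat_lit 78) (nat_lit 228) (nat_lit 0) (XT.lf (nat_lit 0) (nat_lit 18607888103) (nat_lit 304) (nat_lit 2228883026) (nat_lit 76) (nat_lit 6858944372) (nat_lit 159) (nat_lit 5) (nat_lit 163) (nat_lit 5) (nat_lit 160) (nat_lit 5) (nat_lit 493) (nat_lit 427) (nat_lit 280)) (XT.lf (nat_lit 0) (nat_lit 15380788640) (nat_lit 228) (nat_lit 10762454303) (nat_lit 304) (nat_lit 2068533075) (nat_lit 156) (nat_lit 5) (nat_lit 159) (nat_lit 5) (nat_lit 160) (nat_lit 5) (nat_lit 494) (nat_lit 427) (nat_lit 279))) (XT.nd (nat_lit 78) (nat_lit 0) (nat_lit 0) (XT.lf (nat_lit 0) (nat_lit 4853761320) (nat_lit 228) (nat_lit 268439680) (nat_lit 304) (nat_lit 23617781766) (nat_lit 152) (nat_lit 5) (nat_lit 155) (nat_lit 5) (nat_lit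 156) (nat_lit 5) (nat_lit 495) (nat_lit 427) (nat_lit 278)) (XT.lf (nat_lit 0) (nat_lit 12711498491) (nat_lit 304) (nat_lit 6084127004) (nat_lit 76) (nat_lit 10481063449) (nat_lit 152) (nat_lit 5) (nat_lit 156) (nat_lit 5) (nat_lit 153) (nat_lit 5) (nat_lit 496) (nat_lit 427) (nat_lit 277))))))) (XT.nd (nat_lit 1248) (nat_lit 1748) (nat_lit 0) (XT.nd (nat_lit 624) (nat_lit 988) (nat_lit 0) (XT.nd (nat_lit 312) (nat_lit 456) (nat_lit 0) (XT.nd (nat_lit 156) (nat_lit 304) (nat_lit 0) (XT.nd (nat_lit 78) (nat_lit 152) (nat_lit 0) (XT.lf (nat_lit 0) (nat_lit 12480316776) (nat_lit 228) (nat_lit 8163255715) (nat_lit 304) (nat_lit 9182471032) (nat_lit 149) (nat_lit 5) (nat_lit 152) (nat_lit 5) (nat_lit 153) (nat_lit 5) (nat_lit 497) (nat_lit 427) (nat_lit 276)) (XT.lf (nat_lit 0) (nat_lit 1322124493) (nat_lit 152) (nat_lit 27585562435) (nat_lit 228) (nat_lit 1481369605) (nat_lit 147) (nat_lit 5) (nat_lit 149) (nat_lit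 5) (nat_lit 150) (nat_lit 5) (nat_lit 498) (nat_lit 427) (nat_lit 275))) (XT.nd (nat_lit 78) (nat_lit 228) (nat_lit 0) (XT.lf (nat_lit 0) (nat_lit 6575150160) (nat_lit 228) (nat_lit 10215358045) (nat_lit 76) (nat_lit 14169083710) (nat_lit 146) (nat_lit 5) (nat_lit 149) (nat_lit 5) (nat_lit 147) (nat_lit 5) (nat_lit 499) (nat_lit 427) (nat_lit 274)) (XT.lf (nat_lit 0) (nat_lit 9357394295) (nat_lit 228) (nat_lit 5568909823) (nat_lit 304) (nat_lit 16618017978) (nat_lit 143) (nat_lit 5) (nat_lit 146) (nat_lit 5) (nat_lit 147) (nat_lit 5) (nat_lit 500) (nat_lit 427) (nat_lit 273)))) (XT.nd (nat_lit 156) (nat_lit 228) (nat_lit 0) (XT.nd (nat_lit 78) (nat_lit 228) (nat_lit 0) (XT.lf (nat_lit 0) (nat_lit 23682551257) (nat_lit 304) (nat_lit 2487703748) (nat_lit 76) (nat_lit 5971702546) (nat_lit 143) (nat_lit 5) (nat_lit 147) (nat_lit 5) (nat_lit 144) (nat_lit 5) (nat_lit 501) (nat_lit 427) (nat_lit 272)) (XT.lf (nat_lit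 0) (nat_lit 169287796) (nat_lit 228) (nat_lit 14664177076) (nat_lit 76) (nat_lit 17917346555) (nat_lit 140) (nat_lit 5) (nat_lit 143) (nat_lit 5) (nat_lit 141) (nat_lit 5) (nat_lit 502) (nat_lit 427) (nat_lit 271))) (XT.nd (nat_lit 78) (nat_lit 0) (nat_lit 0) (XT.lf (nat_lit 0) (nat_lit 5972556285) (nat_lit 228) (nat_lit 2990081589) (nat_lit 304) (nat_lit 24410505838) (nat_lit 137) (nat_lit 5) (nat_lit 140) (nat_lit 5) (nat_lit 141) (nat_lit 5) (nat_lit 503) (nat_lit 427) (nat_lit 270)) (XT.lf (nat_lit 0) (nat_lit 18250932345) (nat_lit 304) (nat_lit 6582741278) (nat_lit 76) (nat_lit 9173538137) (nat_lit 137) (nat_lit 5) (nat_lit 141) (nat_lit 5) (nat_lit 138) (nat_lit 5) (nat_lit 504) (nat_lit 427) (nat_lit 269))))) (XT.nd (nat_lit 312) (nat_lit 380) (nat_lit 0) (XT.nd (nat_lit 156) (nat_lit 152) (nat_lit 0) (XT.nd (nat_lit 78) (nat_lit 304) (nat_lit 0) (XT.lf (nat_lit 0) (nat_lit 15113254632) (nat_lit 152) (nat_lit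 12872784793) (nat_lit 228) (nat_lit 6669217618) (nat_lit 135) (nat_lit 5) (nat_lit 137) (nat_lit 5) (nat_lit 138) (nat_lit 5) (nat_lit 505) (nat_lit 427) (nat_lit 268)) (XT.lf (nat_lit 0) (nat_lit 2280589028) (nat_lit 228) (nat_lit 439719605) (nat_lit 304) (nat_lit 32599188691) (nat_lit 131) (nat_lit 5) (nat_lit 134) (nat_lit 5) (nat_lit 135) (nat_lit 5) (nat_lit 506) (nat_lit 427) (nat_lit 267))) (XT.nd (nat_lit 78) (nat_lit 152) (nat_lit 0) (XT.lf (nat_lit 0) (nat_lit 12568974046) (nat_lit 304) (nat_lit 11037902658) (nat_lit 76) (nat_lit 12385462311) (nat_lit 131) (nat_lit 5) (nat_lit 135) (nat_lit 5) (nat_lit 132) (nat_lit 5) (nat_lit 507) (nat_lit 427) (nat_lit 266)) (XT.lf (nat_lit 0) (nat_lit 11838381630) (nat_lit 152) (nat_lit 10986398839) (nat_lit 228) (nat_lit 13857235149) (nat_lit 129) (nat_lit 5) (nat_lit 131) (nat_lit 5) (nat_lit 132) (nat_lit 5) (nat_lit 508) (nat_lit 427) (nat_lit 265)))) (XT.nd (nat_lit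 156) (nat_lit 152) (nat_lit 0) (XT.nd (nat_lit 78) (nat_lit 228) (nat_lit 0) (XT.lf (nat_lit 0) (nat_lit 33513735428) (nat_lit 228) (nat_lit 1793709018) (nat_lit 76) (nat_lit 2081173937) (nat_lit 129) (nat_lit 5) (nat_lit 132) (nat_lit 5) (nat_lit 130) (nat_lit 5) (nat_lit 509) (nat_lit 427) (nat_lit 264)) (XT.lf (nat_lit 0) (nat_lit 6601575570) (nat_lit 228) (nat_lit 15909397753) (nat_lit 76) (nat_lit 15594008624) (nat_lit 126) (nat_lit 5) (nat_lit 129) (nat_lit 5) (nat_lit 127) (nat_lit 5) (nat_lit 510) (nat_lit 427) (nat_lit 263))) (XT.nd (nat_lit 78) (nat_lit 0) (nat_lit 0) (XT.lf (nat_lit 0) (nat_lit 8209563876) (nat_lit 152) (nat_lit 9195855263) (nat_lit 228) (nat_lit 21433537231) (nat_lit 124) (nat_lit 5) (nat_lit 126) (nat_lit 5) (nat_lit 127) (nat_lit 5) (nat_lit 511) (nat_lit 427) (nat_lit 262)) (XT.lf (nat_lit 0) (nat_lit 28732853082) (nat_lit 228) (nat_lit 6268087682) (nat_lit 76) (nat_lit 4588025093)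 (nat_lit 124) (nat_lit 5) (nat_lit 127) (nat_lit 5) (nat_lit 125) (nat_lit 5) (nat_lit 512) (nat_lit 427) (nat_lit 261)))))) (XT.nd (nat_lit 624) (nat_lit 836) (nat_lit 0) (XT.nd (nat_lit 312) (nat_lit 380) (nat_lit 0) (XT.nd (nat_lit 156) (nat_lit 152) (nat_lit 0) (XT.nd (nat_lit 78) (nat_lit 152) (nat_lit 0) (XT.lf (nat_lit 0) (nat_lit 309113260) (nat_lit 228) (nat_lit 21261659275) (nat_lit 76) (nat_lit 18782555046) (nat_lit 121) (nat_lit 5) (nat_lit 124) (nat_lit 5) (nat_lit 122) (nat_lit 5) (nat_lit 513) (nat_lit 427) (nat_lit 260)) (XT.lf (nat_lit 0) (nat_lit 4164292564) (nat_lit 152) (nat_lit 7524746432) (nat_lit 228) (nat_lit 29445418446) (nat_lit 119) (nat_lit 5) (nat_lit 121) (nat_lit 5) (nat_lit 122) (nat_lit 5) (nat_lit 514) (nat_lit 427) (nat_lit 259))) (XT.nd (nat_lit 78) (nat_lit 152) (nat_lit 0) (XT.lf (nat_lit 0) (nat_lit 23687940491) (nat_lit 228) (nat_lit 11223442963) (nat_lit 76) (nat_lit 7019310479)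 (nat_lit 119) (nat_lit 5) (nat_lit 122) (nat_lit 5) (nat_lit 120) (nat_lit 5) (nat_lit 515) (nat_lit 427) (nat_lit 258)) (XT.lf (nat_lit 0) (nat_lit 15513349919) (nat_lit 152) (nat_lit 20751273773) (nat_lit 228) (nat_lit 6479659457) (nat_lit 117) (nat_lit 5) (nat_lit 119) (nat_lit 5) (nat_lit 120) (nat_lit 5) (nat_lit 516) (nat_lit 427) (nat_lit 257)))) (XT.nd (nat_lit 156) (nat_lit 152) (nat_lit 0) (XT.nd (nat_lit 78) (nat_lit 152) (nat_lit 0) (XT.lf (nat_lit 0) (nat_lit 5634999533) (nat_lit 228) (nat_lit 362427435) (nat_lit 76) (nat_lit 37579968029) (nat_lit 116) (nat_lit 5) (nat_lit 119) (nat_lit 5) (nat_lit 117) (nat_lit 5) (nat_lit 517) (nat_lit 427) (nat_lit 256)) (XT.lf (nat_lit 0) (nat_lit 18335930768) (nat_lit 228) (nat_lit 16737586291) (nat_lit 76) (nat_lit 9349466539) (nat_lit 114) (nat_lit 5) (nat_lit 117) (nat_lit 5) (nat_lit 115) (nat_lit 5) (nat_lit 518) (nat_lit 427) (nat_lit 255))) (XT.nd (nat_lit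 78) (nat_lit 0) (nat_lit 0) (XT.lf (nat_lit 0) (nat_lit 11441834461) (nat_lit 152) (nat_lit 20143509447) (nat_lit 228) (nat_lit 13703572391) (nat_lit 112) (nat_lit 5) (nat_lit 114) (nat_lit 5) (nat_lit 115) (nat_lit 5) (nat_lit 519) (nat_lit 427) (nat_lit 254)) (XT.lf (nat_lit 0) (nat_lit 40799566319) (nat_lit 152) (nat_lit 4596147016) (nat_lit 228) (nat_lit 780209493) (nat_lit 112) (nat_lit 5) (nat_lit 114) (nat_lit 5) (nat_lit 115) (nat_lit 5) (nat_lit 520) (nat_lit 427) (nat_lit 253))))) (XT.nd (nat_lit 312) (nat_lit 304) (nat_lit 0) (XT.nd (nat_lit 156) (nat_lit 152) (nat_lit 0) (XT.nd (nat_lit 78) (nat_lit 152) (nat_lit 0) (XT.lf (nat_lit 0) (nat_lit 12627621806) (nat_lit 228) (nat_lit 22900223112) (nat_lit 76) (nat_lit 11547842374) (nat_lit 109) (nat_lit 5) (nat_lit 112) (nat_lit 5) (nat_lit 110) (nat_lit 5) (nat_lit 521) (nat_lit 427) (nat_lit 252)) (XT.lf (nat_lit 0) (nat_lit 6791993705) (nat_lit 152) (nat_lit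 19790221290) (nat_lit 228) (nat_lit 21415191756) (nat_lit 107) (nat_lit 5) (nat_lit 109) (nat_lit 5) (nat_lit 110) (nat_lit 5) (nat_lit 522) (nat_lit 427) (nat_lit 251))) (XT.nd (nat_lit 78) (nat_lit 152) (nat_lit 0) (XT.lf (nat_lit 0) (nat_lit 37834499933) (nat_lit 152) (nat_lit 3346840856) (nat_lit 228) (nat_lit 7758660214) (nat_lit 107) (nat_lit 5) (nat_lit 109) (nat_lit 5) (nat_lit 110) (nat_lit 5) (nat_lit 523) (nat_lit 427) (nat_lit 250)) (XT.lf (nat_lit 0) (nat_lit 6506734355) (nat_lit 152) (nat_lit 29814847698) (nat_lit 76) (nat_lit 13577804601) (nat_lit 105) (nat_lit 5) (nat_lit 107) (nat_lit 5) (nat_lit 106) (nat_lit 5) (nat_lit 524) (nat_lit 427) (nat_lit 249)))) (XT.nd (nat_lit 156) (nat_lit 152) (nat_lit 0) (XT.nd (nat_lit 78) (nat_lit 0) (nat_lit 0) (XT.lf (nat_lit 0) (nat_lit 1461452171) (nat_lit 152) (nat_lit 19737906181) (nat_lit 228) (nat_lit 29681234751) (nat_lit 103) (nat_lit 5) (nat_lit 105)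 (nat_lit 5) (nat_lit 106) (nat_lit 5) (nat_lit 525) (nat_lit 427) (nat_lit 248)) (XT.lf (nat_lit 0) (nat_lit 34277568959) (nat_lit 152) (nat_lit 2351092669) (nat_lit 228) (nat_lit 15253697148) (nat_lit 103) (nat_lit 5) (nat_lit 105) (nat_lit 5) (nat_lit 106) (nat_lit 5) (nat_lit 526) (nat_lit 427) (nat_lit 247))) (XT.nd (nat_lit 78) (nat_lit 76) (nat_lit 0) (XT.lf (nat_lit 0) (nat_lit 15303598511) (nat_lit 76) (nat_lit 37508837464) (nat_lit 152) (nat_lit 92993733) (nat_lit 102) (nat_lit 5) (nat_lit 103) (nat_lit 5) (nat_lit 104) (nat_lit 4) (nat_lit 527) (nat_lit 427) (nat_lit 246)) (XT.lf (nat_lit 0) (nat_lit 15417387986) (nat_lit 152) (nat_lit 4577473338) (nat_lit 76) (nat_lit 33953922396) (nat_lit 101) (nat_lit 5) (nat_lit 103) (nat_lit 5) (nat_lit 102) (nat_lit 5) (nat_lit 528) (nat_lit 427) (nat_lit 245))))))))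
noncomputable def xc156 : XT := (XT.nd (nat_lit 55224) (nat_lit 0) (nat_lit 12388) (XT.nd (nat_lit 1170) (nat_lit 684) (nat_lit 0) (XT.nd (nat_lit 546) (nat_lit 684) (nat_lit 0) (XT.nd (nat_lit 234) (nat_lit 456) (nat_lit 0) (XT.nd (nat_lit 78) (nat_lit 152) (nat_lit 0) (XT.lf (nat_lit 0) (nat_lit 30013152574) (nat_lit 152) (nat_lit 1661657050) (nat_lit 228) (nat_lit 23340093222) (nat_lit 99) (nat_lit 5) (nat_lit 101) (nat_lit 5) (nat_lit 102) (nat_lit 5) (nat_lit 529) (nat_lit 427) (nat_lit 244)) (XT.nd (nat_lit 78) (nat_lit 76) (nat_lit 0) (XT.lf (nat_lit 0) (nat_lit 9636532927) (nat_lit 76) (nat_lit 39083385476) (nat_lit 152) (nat_lit 7384088250) (nat_lit 98) (nat_lit 5) (nat_lit 99) (nat_lit 5) (nat_lit 100) (nat_lit 4) (nat_lit 530) (nat_lit 427) (nat_lit 243)) (XT.lf (nat_lit 0) (nat_lit 9140521392) (nat_lit 152) (nat_lit 11506913025) (nat_lit 76) (nat_lit 36567743171) (nat_lit 97) (nat_lit 5) (nat_lit 99)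 (nat_lit 5) (nat_lit 98) (nat_lit 5) (nat_lit 531) (nat_lit 427) (nat_lit 242)))) (XT.nd (nat_lit 156) (nat_lit 228) (nat_lit 0) (XT.nd (nat_lit 78) (nat_lit 76) (nat_lit 0) (XT.lf (nat_lit 0) (nat_lit 24906409351) (nat_lit 152) (nat_lit 1340718938) (nat_lit 228) (nat_lit 32103321953) (nat_lit 95) (nat_lit 5) (nat_lit 97) (nat_lit 5) (nat_lit 98) (nat_lit 5) (nat_lit 532) (nat_lit 427) (nat_lit 241)) (XT.lf (nat_lit 0) (nat_lit 3001904527) (nat_lit 76) (nat_lit 41184769417) (nat_lit 152) (nat_lit 15323514951) (nat_lit 94) (nat_lit 5) (nat_lit 95) (nat_lit 5) (nat_lit 96) (nat_lit 4) (nat_lit 533) (nat_lit 427) (nat_lit 240))) (XT.nd (nat_lit 78) (nat_lit 152) (nat_lit 0) (XT.lf (nat_lit 0) (nat_lit 2271058095) (nat_lit 152) (nat_lit 19512223651) (nat_lit 76) (nat_lit 38910384496) (nat_lit 93) (nat_lit 5) (nat_lit 95) (nat_lit 5) (nat_lit 94) (nat_lit 5) (nat_lit 534) (nat_lit 427) (nat_lit 239)) (XT.lf (nat_lit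 0) (nat_lit 18800142941) (nat_lit 152) (nat_lit 1461468947) (nat_lit 228) (nat_lit 41641200583) (nat_lit 91) (nat_lit 5) (nat_lit 93) (nat_lit 5) (nat_lit 94) (nat_lit 5) (nat_lit 535) (nat_lit 427) (nat_lit 238))))) (XT.nd (nat_lit 312) (nat_lit 380) (nat_lit 0) (XT.nd (nat_lit 156) (nat_lit 228) (nat_lit 0) (XT.nd (nat_lit 78) (nat_lit 76) (nat_lit 0) (XT.lf (nat_lit 0) (nat_lit 39173449726) (nat_lit 228) (nat_lit 4678296229) (nat_lit 76) (nat_lit 19285040144) (nat_lit 91) (nat_lit 5) (nat_lit 94) (nat_lit 5) (nat_lit 92) (nat_lit 4) (nat_lit 536) (nat_lit 427) (nat_lit 237)) (XT.lf (nat_lit 0) (nat_lit 35569962776) (nat_lit 76) (nat_lit 23434627290) (nat_lit 152) (nat_lit 5392630479) (nat_lit 90) (nat_lit 5) (nat_lit 91) (nat_lit 5) (nat_lit 92) (nat_lit 4) (nat_lit 537) (nat_lit 427) (nat_lit 236))) (XT.nd (nat_lit 78) (nat_lit 0) (nat_lit 0) (XT.lf (nat_lit 0) (nat_lit 11511165845) (nat_lit 152) (nat_lit 2109931664)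 (nat_lit 228) (nat_lit 52065791889) (nat_lit 87) (nat_lit 5) (nat_lit 89) (nat_lit 5) (nat_lit 90) (nat_lit 5) (nat_lit 538) (nat_lit 427) (nat_lit 235)) (XT.lf (nat_lit 0) (nat_lit 33577257779) (nat_lit 228) (nat_lit 13611459791) (nat_lit 76) (nat_lit 19810516797) (nat_lit 87) (nat_lit 5) (nat_lit 90) (nat_lit 5) (nat_lit 88) (nat_lit 4) (nat_lit 539) (nat_lit 427) (nat_lit 234)))) (XT.nd (nat_lit 156) (nat_lit 76) (nat_lit 0) (XT.nd (nat_lit 78) (nat_lit 228) (nat_lit 0) (XT.lf (nat_lit 0) (nat_lit 28700652902) (nat_lit 76) (nat_lit 25723929942) (nat_lit 152) (nat_lit 13917592468) (nat_lit 86) (nat_lit 5) (nat_lit 87) (nat_lit 5) (nat_lit 88) (nat_lit 4) (nat_lit 540) (nat_lit 427) (nat_lit 233)) (XT.lf (nat_lit 0) (nat_lit 2826081011) (nat_lit 152) (nat_lit 3387087641) (nat_lit 228) (nat_lit 63505605555) (nat_lit 83) (nat_lit 5) (nat_lit 85) (nat_lit 5) (nat_lit 86) (nat_lit 5) (nat_lit 541) (nat_lit 427) (nat_lit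 232))) (XT.nd (nat_lit 78) (nat_lit 76) (nat_lit 0) (XT.lf (nat_lit 0) (nat_lit 27256700792) (nat_lit 228) (nat_lit 24082951869) (nat_lit 76) (nat_lit 19775227154) (nat_lit 83) (nat_lit 5) (nat_lit 86) (nat_lit 5) (nat_lit 84) (nat_lit 4) (nat_lit 542) (nat_lit 427) (nat_lit 231)) (XT.lf (nat_lit 0) (nat_lit 20366964143) (nat_lit 76) (nat_lit 28789729689) (nat_lit 152) (nat_lit 23389420136) (nat_lit 82) (nat_lit 5) (nat_lit 83) (nat_lit 5) (nat_lit 84) (nat_lit 4) (nat_lit 543) (nat_lit 427) (nat_lit 230)))))) (XT.nd (nat_lit 53430) (nat_lit 0) (nat_lit 20672) (XT.nd (nat_lit 312) (nat_lit 380) (nat_lit 0) (XT.nd (nat_lit 156) (nat_lit 76) (nat_lit 0) (XT.nd (nat_lit 78) (nat_lit 228) (nat_lit 0) (XT.lf (nat_lit 0) (nat_lit 66636118254) (nat_lit 76) (nat_lit 5316643584) (nat_lit 152) (nat_lit 2060351078) (nat_lit 82) (nat_lit 5) (nat_lit 83) (nat_lit 5) (nat_lit 84) (nat_lit 4) (nat_lit 544) (nat_lit 427) (nat_lit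 229)) (XT.lf (nat_lit 0) (nat_lit 20081107160) (nat_lit 228) (nat_lit 36356374112) (nat_lit 76) (nat_lit 19064069213) (nat_lit 79) (nat_lit 5) (nat_lit 82) (nat_lit 5) (nat_lit 80) (nat_lit 4) (nat_lit 545) (nat_lit 427) (nat_lit 228))) (XT.nd (nat_lit 78) (nat_lit 0) (nat_lit 0) (XT.lf (nat_lit 0) (nat_lit 10301271951) (nat_lit 76) (nat_lit 32766991634) (nat_lit 152) (nat_lit 33959079671) (nat_lit 78) (nat_lit 5) (nat_lit 79) (nat_lit 5) (nat_lit 80) (nat_lit 4) (nat_lit 546) (nat_lit 427) (nat_lit 227)) (XT.lf (nat_lit 0) (nat_lit 59096200653) (nat_lit 76) (nat_lit 8011977821) (nat_lit 152) (nat_lit 11479837043) (nat_lit 78) (nat_lit 5) (nat_lit 79) (nat_lit 5) (nat_lit 80) (nat_lit 4) (nat_lit 547) (nat_lit 427) (nat_lit 226)))) (XT.nd (nat_lit 156) (nat_lit 228) (nat_lit 0) (XT.nd (nat_lit 78) (nat_lit 0) (nat_lit 0) (XT.lf (nat_lit 0) (nat_lit 11898759289) (nat_lit 152) (nat_lit 50738064803) (nat_lit 76) (nat_lit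 17541734190) (nat_lit 76) (nat_lit 5) (nat_lit 78) (nat_lit 5) (nat_lit 77) (nat_lit 4) (nat_lit 548) (nat_lit 427) (nat_lit 225)) (XT.lf (nat_lit 0) (nat_lit 36022184821) (nat_lit 152) (nat_lit 1773091985) (nat_lit 76) (nat_lit 44009904551) (nat_lit 76) (nat_lit 5) (nat_lit 78) (nat_lit 5) (nat_lit 77) (nat_lit 4) (nat_lit 549) (nat_lit 427) (nat_lit 224))) (XT.nd (nat_lit 78) (nat_lit 152) (nat_lit 0) (XT.lf (nat_lit 0) (nat_lit 49621773598) (nat_lit 76) (nat_lit 11720748189) (nat_lit 152) (nat_lit 22123885095) (nat_lit 75) (nat_lit 5) (nat_lit 76) (nat_lit 5) (nat_lit 77) (nat_lit 4) (nat_lit 550) (nat_lit 427) (nat_lit 223)) (XT.lf (nat_lit 0) (nat_lit 2533511800) (nat_lit 152) (nat_lit 67583967424) (nat_lit 76) (nat_lit 15049372956) (nat_lit 73) (nat_lit 5) (nat_lit 75) (nat_lit 5) (nat_lit 74) (nat_lit 4) (nat_lit 551) (nat_lit 427) (nat_lit 222))))) (XT.nd (nat_lit 312) (nat_lit 0) (nat_lit 0) (XT.nd (nat_lit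 156) (nat_lit 1064) (nat_lit 0) (XT.nd (nat_lit 78) (nat_lit 0) (nat_lit 0) (XT.lf (nat_lit 0) (nat_lit 3840792161) (nat_lit 1140) (nat_lit 528974436) (nat_lit 1140) (nat_lit 528974436) (nat_lit 359) (nat_lit 3) (nat_lit 374) (nat_lit 3) (nat_lit 374) (nat_lit 5) (nat_lit 428) (nat_lit 428) (nat_lit 344)) (XT.lf (nat_lit 76) (nat_lit 3898327570) (nat_lit 0) (nat_lit 4669177308) (nat_lit 1140) (nat_lit 1353781536) (nat_lit 360) (nat_lit 5) (nat_lit 359) (nat_lit 3) (nat_lit 374) (nat_lit 5) (nat_lit 429) (nat_lit 428) (nat_lit 343))) (XT.nd (nat_lit 78) (nat_lit 1064) (nat_lit 0) (XT.lf (nat_lit 76) (nat_lit 9009948120) (nat_lit 0) (nat_lit 451977983) (nat_lit 1140) (nat_lit 587422540) (nat_lit 360) (nat_lit 5) (nat_lit 359) (nat_lit 3) (nat_lit 374) (nat_lit 5) (nat_lit 430) (nat_lit 428) (nat_lit 342)) (XT.lf (nat_lit 0) (nat_lit 247703003) (nat_lit 1140) (nat_lit 6061093682) (nat_lit 1216) (nat_lit 3870907699)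 (nat_lit 345) (nat_lit 5) (nat_lit 360) (nat_lit 5) (nat_lit 361) (nat_lit 5) (nat_lit 431) (nat_lit 428) (nat_lit 341)))) (XT.nd (nat_lit 156) (nat_lit 0) (nat_lit 76) (XT.nd (nat_lit 78) (nat_lit 0) (nat_lit 76) (XT.lf (nat_lit 0) (nat_lit 1083747661) (nat_lit 1140) (nat_lit 887336622) (nat_lit 1216) (nat_lit 8343083195) (nat_lit 345) (nat_lit 5) (nat_lit 360) (nat_lit 5) (nat_lit 361) (nat_lit 5) (nat_lit 432) (nat_lit 428) (nat_lit 340)) (XT.lf (nat_lit 0) (nat_lit 1986199325) (nat_lit 1140) (nat_lit 5962466813) (nat_lit 1216) (nat_lit 2502759838) (nat_lit 346) (nat_lit 5) (nat_lit 361) (nat_lit 5) (nat_lit 362) (nat_lit 5) (nat_lit 433) (nat_lit 428) (nat_lit 339))) (XT.nd (nat_lit 78) (nat_lit 0) (nat_lit 76) (XT.lf (nat_lit 0) (nat_lit 2918414273) (nat_lit 1140) (nat_lit 583625387) (nat_lit 1216) (nat_lit 7090683123) (nat_lit 346) (nat_lit 5) (nat_lit 361) (nat_lit 5) (nat_lit 362) (nat_lit 5) (nat_lit 434)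 (nat_lit 428) (nat_lit 338)) (XT.lf (nat_lit 0) (nat_lit 3912845774) (nat_lit 1140) (nat_lit 5709327036) (nat_lit 1216) (nat_lit 1115059388) (nat_lit 347) (nat_lit 5) (nat_lit 362) (nat_lit 5) (nat_lit 363) (nat_lit 5) (nat_lit 435) (nat_lit 428) (nat_lit 337))))))) (XT.nd (nat_lit 1170) (nat_lit 4788) (nat_lit 0) (XT.nd (nat_lit 546) (nat_lit 2660) (nat_lit 0) (XT.nd (nat_lit 234) (nat_lit 988) (nat_lit 0) (XT.nd (nat_lit 78) (nat_lit 0) (nat_lit 0) (XT.lf (nat_lit 0) (nat_lit 4953282098) (nat_lit 1140) (nat_lit 117304146) (nat_lit 1216) (nat_lit 5815006669) (nat_lit 347) (nat_lit 5) (nat_lit 362) (nat_lit 5) (nat_lit 363) (nat_lit 5) (nat_lit 436) (nat_lit 428) (nat_lit 336)) (XT.nd (nat_lit 78) (nat_lit 0) (nat_lit 76) (XT.lf (nat_lit 76) (nat_lit 5738519368) (nat_lit 0) (nat_lit 317832938) (nat_lit 1216) (nat_lit 4981110661) (nat_lit 348) (nat_lit 5) (nat_lit 347) (nat_lit 5) (nat_lit 363) (nat_lit 5) (nat_lit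 437) (nat_lit 428) (nat_lit 335)) (XT.lf (nat_lit 76) (nat_lit 528312983) (nat_lit 0) (nat_lit 6691347861) (nat_lit 1216) (nat_lit 3973414997) (nat_lit 349) (nat_lit 5) (nat_lit 348) (nat_lit 5) (nat_lit 364) (nat_lit 5) (nat_lit 438) (nat_lit 428) (nat_lit 334)))) (XT.nd (nat_lit 156) (nat_lit 1064) (nat_lit 0) (XT.nd (nat_lit 78) (nat_lit 0) (nat_lit 76) (XT.lf (nat_lit 76) (nat_lit 6619411750) (nat_lit 0) (nat_lit 1832467720) (nat_lit 1216) (nat_lit 2900458379) (nat_lit 349) (nat_lit 5) (nat_lit 348) (nat_lit 5) (nat_lit 364) (nat_lit 5) (nat_lit 439) (nat_lit 428) (nat_lit 333)) (XT.lf (nat_lit 76) (nat_lit 1356207715) (nat_lit 0) (nat_lit 8386489203) (nat_lit 1216) (nat_lit 1773032875) (nat_lit 350) (nat_lit 5) (nat_lit 349) (nat_lit 5) (nat_lit 365) (nat_lit 5) (nat_lit 440) (nat_lit 428) (nat_lit 332))) (XT.nd (nat_lit 78) (nat_lit 1140) (nat_lit 0) (XT.lf (nat_lit 76) (nat_lit 7690064975) (nat_lit 0) (nat_lit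 3426514699) (nat_lit 1216) (nat_lit 566114611) (nat_lit 350) (nat_lit 5) (nat_lit 349) (nat_lit 5) (nat_lit 365) (nat_lit 5) (nat_lit 441) (nat_lit 428) (nat_lit 331)) (XT.lf (nat_lit 0) (nat_lit 682211141) (nat_lit 1216) (nat_lit 9488068003) (nat_lit 1292) (nat_lit 1683641959) (nat_lit 334) (nat_lit 5) (nat_lit 350) (nat_lit 5) (nat_lit 351) (nat_lit 5) (nat_lit 442) (nat_lit 428) (nat_lit 330))))) (XT.nd (nat_lit 312) (nat_lit 1520) (nat_lit 0) (XT.nd (nat_lit 156) (nat_lit 1140) (nat_lit 0) (XT.nd (nat_lit 78) (nat_lit 0) (nat_lit 76) (XT.lf (nat_lit 0) (nat_lit 2010747097) (nat_lit 1216) (nat_lit 3088974063) (nat_lit 1292) (nat_lit 6928772177) (nat_lit 334) (nat_lit 5) (nat_lit 350) (nat_lit 5) (nat_lit 351) (nat_lit 5) (nat_lit 443) (nat_lit 428) (nat_lit 329)) (XT.lf (nat_lit 0) (nat_lit 3394959513) (nat_lit 1216) (nat_lit 8654376238) (nat_lit 76) (nat_lit 158493274) (nat_lit 335) (nat_lit 5) (nat_lit 351)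 (nat_lit 5) (nat_lit 336) (nat_lit 5) (nat_lit 444) (nat_lit 428) (nat_lit 328))) (XT.nd (nat_lit 78) (nat_lit 1216) (nat_lit 0) (XT.lf (nat_lit 0) (nat_lit 4883239863) (nat_lit 1216) (nat_lit 2000803630) (nat_lit 76) (nat_lit 5506625917) (nat_lit 335) (nat_lit 5) (nat_lit 351) (nat_lit 5) (nat_lit 336) (nat_lit 5) (nat_lit 445) (nat_lit 428) (nat_lit 327)) (XT.lf (nat_lit 0) (nat_lit 4932246436) (nat_lit 1216) (nat_lit 1512448380) (nat_lit 1292) (nat_lit 6133445253) (nat_lit 319) (nat_lit 5) (nat_lit 335) (nat_lit 5) (nat_lit 336) (nat_lit 5) (nat_lit 446) (nat_lit 428) (nat_lit 326)))) (XT.nd (nat_lit 156) (nat_lit 684) (nat_lit 0) (XT.nd (nat_lit 78) (nat_lit 836) (nat_lit 0) (XT.lf (nat_lit 0) (nat_lit 8093573684) (nat_lit 1292) (nat_lit 711964289) (nat_lit 76) (nat_lit 3964480290) (nat_lit 319) (nat_lit 5) (nat_lit 336) (nat_lit 5) (nat_lit 320) (nat_lit 5) (nat_lit 447) (nat_lit 428) (nat_lit 325)) (XT.lf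 (nat_lit 0) (nat_lit 6526051560) (nat_lit 836) (nat_lit 3325642940) (nat_lit 912) (nat_lit 3114165835) (nat_lit 308) (nat_lit 5) (nat_lit 319) (nat_lit 5) (nat_lit 320) (nat_lit 5) (nat_lit 448) (nat_lit 428) (nat_lit 324))) (XT.nd (nat_lit 78) (nat_lit 76) (nat_lit 0) (XT.lf (nat_lit 0) (nat_lit 805106604) (nat_lit 608) (nat_lit 10877189613) (nat_lit 684) (nat_lit 1484690108) (nat_lit 300) (nat_lit 5) (nat_lit 308) (nat_lit 5) (nat_lit 309) (nat_lit 5) (nat_lit 449) (nat_lit 428) (nat_lit 323)) (XT.lf (nat_lit 0) (nat_lit 271121703) (nat_lit 684) (nat_lit 5025116470) (nat_lit 76) (nat_lit 8075415874) (nat_lit 299) (nat_lit 5) (nat_lit 308) (nat_lit 5) (nat_lit 300) (nat_lit 5) (nat_lit 450) (nat_lit 428) (nat_lit 322)))))) (XT.nd (nat_lit 624) (nat_lit 1900) (nat_lit 0) (XT.nd (nat_lit 312) (nat_lit 1748) (nat_lit 0) (XT.nd (nat_lit 156) (nat_lit 532) (nat_lit 0) (XT.nd (nat_lit 78) (nat_lit 0) (nat_lit 0) (XT.lf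 (nat_lit 0) (nat_lit 2062159161) (nat_lit 684) (nat_lit 11036089560) (nat_lit 76) (nat_lit 483401030) (nat_lit 291) (nat_lit 5) (nat_lit 300) (nat_lit 5) (nat_lit 292) (nat_lit 5) (nat_lit 451) (nat_lit 428) (nat_lit 321)) (XT.lf (nat_lit 0) (nat_lit 3994086740) (nat_lit 684) (nat_lit 3419711783) (nat_lit 76) (nat_lit 6381532721) (nat_lit 291) (nat_lit 5) (nat_lit 300) (nat_lit 5) (nat_lit 292) (nat_lit 5) (nat_lit 452) (nat_lit 428) (nat_lit 320))) (XT.nd (nat_lit 78) (nat_lit 0) (nat_lit 0) (XT.lf (nat_lit 0) (nat_lit 4496675039) (nat_lit 532) (nat_lit 1514477973) (nat_lit 608) (nat_lit 8003455413) (nat_lit 284) (nat_lit 5) (nat_lit 291) (nat_lit 5) (nat_lit 292) (nat_lit 5) (nat_lit 453) (nat_lit 428) (nat_lit 319)) (XT.lf (nat_lit 0) (nat_lit 8151722239) (nat_lit 608) (nat_lit 1579505513) (nat_lit 76) (nat_lit 4507347091) (nat_lit 284) (nat_lit 5) (nat_lit 292) (nat_lit 5) (nat_lit 285) (nat_lit 5) (nat_lit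 454) (nat_lit 428) (nat_lit 318)))) (XT.nd (nat_lit 156) (nat_lit 608) (nat_lit 0) (XT.nd (nat_lit 78) (nat_lit 532) (nat_lit 0) (XT.lf (nat_lit 0) (nat_lit 6696699977) (nat_lit 608) (nat_lit 3723900107) (nat_lit 684) (nat_lit 4046738054) (nat_lit 276) (nat_lit 5) (nat_lit 284) (nat_lit 5) (nat_lit 285) (nat_lit 5) (nat_lit 455) (nat_lit 428) (nat_lit 317)) (XT.lf (nat_lit 0) (nat_lit 521071048) (nat_lit 532) (nat_lit 12266279212) (nat_lit 608) (nat_lit 1914720505) (nat_lit 269) (nat_lit 5) (nat_lit 276) (nat_lit 5) (nat_lit 277) (nat_lit 5) (nat_lit 456) (nat_lit 428) (nat_lit 316))) (XT.nd (nat_lit 78) (nat_lit 532) (nat_lit 0) (XT.lf (nat_lit 0) (nat_lit 377026768) (nat_lit 608) (nat_lit 5777497259) (nat_lit 76) (nat_lit 8786203085) (nat_lit 268) (nat_lit 5) (nat_lit 276) (nat_lit 5) (nat_lit 269) (nat_lit 5) (nat_lit 457) (nat_lit 428) (nat_lit 315)) (XT.lf (nat_lit 0) (nat_lit 2714291375) (nat_lit 608) (nat_lit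 12287631634) (nat_lit 76) (nat_lit 183594506) (nat_lit 261) (nat_lit 5) (nat_lit 269) (nat_lit 5) (nat_lit 262) (nat_lit 5) (nat_lit 458) (nat_lit 428) (nat_lit 314))))) (XT.nd (nat_lit 312) (nat_lit 988) (nat_lit 0) (XT.nd (nat_lit 156) (nat_lit 456) (nat_lit 0) (XT.nd (nat_lit 78) (nat_lit 456) (nat_lit 0) (XT.lf (nat_lit 0) (nat_lit 5227355416) (nat_lit 608) (nat_lit 3561700795) (nat_lit 76) (nat_lit 6645425519) (nat_lit 261) (nat_lit 5) (nat_lit 269) (nat_lit 5) (nat_lit 262) (nat_lit 5) (nat_lit 459) (nat_lit 428) (nat_lit 313)) (XT.lf (nat_lit 0) (nat_lit 5517906041) (nat_lit 456) (nat_lit 2337186226) (nat_lit 532) (nat_lit 7834644704) (nat_lit 255) (nat_lit 5) (nat_lit 261) (nat_lit 5) (nat_lit 262) (nat_lit 5) (nat_lit 460) (nat_lit 428) (nat_lit 312))) (XT.nd (nat_lit 78) (nat_lit 456) (nat_lit 0) (XT.lf (nat_lit 0) (nat_lit 10625866693) (nat_lit 532) (nat_lit 1066434961) (nat_lit 76) (nat_lit 4258422565)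 (nat_lit 255) (nat_lit 5) (nat_lit 262) (nat_lit 5) (nat_lit 256) (nat_lit 5) (nat_lit 461) (nat_lit 428) (nat_lit 311)) (XT.lf (nat_lit 0) (nat_lit 8438099367) (nat_lit 456) (nat_lit 5132781435) (nat_lit 532) (nat_lit 2645927287) (nat_lit 249) (nat_lit 5) (nat_lit 255) (nat_lit 5) (nat_lit 256) (nat_lit 5) (nat_lit 462) (nat_lit 428) (nat_lit 310)))) (XT.nd (nat_lit 156) (nat_lit 456) (nat_lit 0) (XT.nd (nat_lit 78) (nat_lit 0) (nat_lit 0) (XT.lf (nat_lit 0) (nat_lit 141953858) (nat_lit 532) (nat_lit 14729354718) (nat_lit 76) (nat_lit 1618609817) (nat_lit 242) (nat_lit 5) (nat_lit 249) (nat_lit 5) (nat_lit 243) (nat_lit 5) (nat_lit 463) (nat_lit 428) (nat_lit 309)) (XT.lf (nat_lit 0) (nat_lit 3077612905) (nat_lit 532) (nat_lit 5117043306) (nat_lit 76) (nat_lit 8572260672) (nat_lit 242) (nat_lit 5) (nat_lit 249) (nat_lit 5) (nat_lit 243) (nat_lit 5) (nat_lit 464) (nat_lit 428) (nat_lit 308))) (XT.nd (nat_lit 78)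 (nat_lit 0) (nat_lit 0) (XT.lf (nat_lit 0) (nat_lit 4863143334) (nat_lit 456) (nat_lit 1272494385) (nat_lit 532) (nat_lit 10915559170) (nat_lit 236) (nat_lit 5) (nat_lit 242) (nat_lit 5) (nat_lit 243) (nat_lit 5) (nat_lit 465) (nat_lit 428) (nat_lit 307)) (XT.lf (nat_lit 0) (nat_lit 9381627011) (nat_lit 532) (nat_lit 2167220314) (nat_lit 76) (nat_lit 5792271690) (nat_lit 236) (nat_lit 5) (nat_lit 243) (nat_lit 5) (nat_lit 237) (nat_lit 5) (nat_lit 466) (nat_lit 428) (nat_lit 306))))))))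
noncomputable def xc157 : XT := (XT.nd (nat_lit 2418) (nat_lit 3876) (nat_lit 0) (XT.nd (nat_lit 1170) (nat_lit 2888) (nat_lit 0) (XT.nd (nat_lit 546) (nat_lit 1444) (nat_lit 0) (XT.nd (nat_lit 234) (nat_lit 1140) (nat_lit 0) (XT.nd (nat_lit 78) (nat_lit 532) (nat_lit 0) (XT.lf (nat_lit 0) (nat_lit 8288247028) (nat_lit 380) (nat_lit 4517112579) (nat_lit 456) (nat_lit 4831968705) (nat_lit 231) (nat_lit 5) (nat_lit 236) (nat_lit 5) (nat_lit 237) (nat_lit 5) (nat_lit 467) (nat_lit 428) (nat_lit 305)) (XT.nd (nat_lit 78) (nat_lit 76) (nat_lit 0) (XT.lf (nat_lit 0) (nat_lit 1140579915) (nat_lit 456) (nat_lit 15238753807) (nat_lit 532) (nat_lit 1561664684) (nat_lit 225) (nat_lit 5) (nat_lit 231) (nat_lit 5) (nat_lit 232) (nat_lit 5) (nat_lit 468) (nat_lit 428) (nat_lit 304)) (XT.lf (nat_lit 0) (nat_lit 1899904209) (nat_lit 532) (nat_lit 6192774236) (nat_lit 76) (nat_lit 10156727156) (nat_lit 224) (nat_lit 5) (nat_lit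 231) (nat_lit 5) (nat_lit 225) (nat_lit 5) (nat_lit 469) (nat_lit 428) (nat_lit 303)))) (XT.nd (nat_lit 156) (nat_lit 760) (nat_lit 0) (XT.nd (nat_lit 78) (nat_lit 0) (nat_lit 0) (XT.lf (nat_lit 0) (nat_lit 4796298713) (nat_lit 380) (nat_lit 672423858) (nat_lit 456) (nat_lit 13096835240) (nat_lit 219) (nat_lit 5) (nat_lit 224) (nat_lit 5) (nat_lit 225) (nat_lit 5) (nat_lit 470) (nat_lit 428) (nat_lit 302)) (XT.lf (nat_lit 0) (nat_lit 9263601259) (nat_lit 456) (nat_lit 2730036460) (nat_lit 76) (nat_lit 6893987355) (nat_lit 219) (nat_lit 5) (nat_lit 225) (nat_lit 5) (nat_lit 220) (nat_lit 5) (nat_lit 471) (nat_lit 428) (nat_lit 301))) (XT.nd (nat_lit 78) (nat_lit 380) (nat_lit 0) (XT.lf (nat_lit 0) (nat_lit 8790596447) (nat_lit 380) (nat_lit 4462050853) (nat_lit 456) (nat_lit 5964297775) (nat_lit 214) (nat_lit 5) (nat_lit 219) (nat_lit 5) (nat_lit 220) (nat_lit 5) (nat_lit 472) (nat_lit 428) (nat_lit 300)) (XT.lf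 (nat_lit 0) (nat_lit 1132864262) (nat_lit 380) (nat_lit 16288211491) (nat_lit 456) (nat_lit 2133277930) (nat_lit 209) (nat_lit 5) (nat_lit 214) (nat_lit 5) (nat_lit 215) (nat_lit 5) (nat_lit 473) (nat_lit 428) (nat_lit 299))))) (XT.nd (nat_lit 312) (nat_lit 684) (nat_lit 0) (XT.nd (nat_lit 156) (nat_lit 304) (nat_lit 0) (XT.nd (nat_lit 78) (nat_lit 380) (nat_lit 0) (XT.lf (nat_lit 0) (nat_lit 1917175961) (nat_lit 456) (nat_lit 6723639769) (nat_lit 76) (nat_lit 11256350147) (nat_lit 208) (nat_lit 5) (nat_lit 214) (nat_lit 5) (nat_lit 209) (nat_lit 5) (nat_lit 474) (nat_lit 428) (nat_lit 298)) (XT.lf (nat_lit 0) (nat_lit 5394878300) (nat_lit 380) (nat_lit 692925313) (nat_lit 456) (nat_lit 14160579380) (nat_lit 203) (nat_lit 5) (nat_lit 208) (nat_lit 5) (nat_lit 209) (nat_lit 5) (nat_lit 475) (nat_lit 428) (nat_lit 297))) (XT.nd (nat_lit 78) (nat_lit 304) (nat_lit 0) (XT.lf (nat_lit 0) (nat_lit 10513950918) (nat_lit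 456) (nat_lit 2680566329) (nat_lit 76) (nat_lit 7411707653) (nat_lit 203) (nat_lit 5) (nat_lit 209) (nat_lit 5) (nat_lit 204) (nat_lit 5) (nat_lit 476) (nat_lit 428) (nat_lit 296)) (XT.lf (nat_lit 0) (nat_lit 10032347241) (nat_lit 304) (nat_lit 5133931985) (nat_lit 380) (nat_lit 5805721231) (nat_lit 199) (nat_lit 5) (nat_lit 203) (nat_lit 5) (nat_lit 204) (nat_lit 5) (nat_lit 477) (nat_lit 428) (nat_lit 295)))) (XT.nd (nat_lit 156) (nat_lit 304) (nat_lit 0) (XT.nd (nat_lit 78) (nat_lit 76) (nat_lit 0) (XT.lf (nat_lit 0) (nat_lit 1824300256) (nat_lit 304) (nat_lit 18199419337) (nat_lit 380) (nat_lit 1323063708) (nat_lit 195) (nat_lit 5) (nat_lit 199) (nat_lit 5) (nat_lit 200) (nat_lit 5) (nat_lit 478) (nat_lit 428) (nat_lit 294)) (XT.lf (nat_lit 0) (nat_lit 3382454186) (nat_lit 380) (nat_lit 6631948023) (nat_lit 76) (nat_lit 11712877952) (nat_lit 194) (nat_lit 5) (nat_lit 199) (nat_lit 5) (nat_lit 195) (nat_lit 5)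 (nat_lit 479) (nat_lit 428) (nat_lit 293))) (XT.nd (nat_lit 78) (nat_lit 0) (nat_lit 0) (XT.lf (nat_lit 0) (nat_lit 6750049785) (nat_lit 304) (nat_lit 1507930760) (nat_lit 380) (nat_lit 13859155597) (nat_lit 190) (nat_lit 5) (nat_lit 194) (nat_lit 5) (nat_lit 195) (nat_lit 5) (nat_lit 480) (nat_lit 428) (nat_lit 292)) (XT.lf (nat_lit 0) (nat_lit 13407783011) (nat_lit 380) (nat_lit 1931585470) (nat_lit 76) (nat_lit 7175479262) (nat_lit 190) (nat_lit 5) (nat_lit 195) (nat_lit 5) (nat_lit 191) (nat_lit 5) (nat_lit 481) (nat_lit 428) (nat_lit 291)))))) (XT.nd (nat_lit 624) (nat_lit 1292) (nat_lit 0) (XT.nd (nat_lit 312) (nat_lit 608) (nat_lit 0) (XT.nd (nat_lit 156) (nat_lit 304) (nat_lit 0) (XT.nd (nat_lit 78) (nat_lit 380) (nat_lit 0) (XT.lf (nat_lit 0) (nat_lit 12114890224) (nat_lit 304) (nat_lit 6719497638) (nat_lit 380) (nat_lit 4086433827) (nat_lit 186) (nat_lit 5) (nat_lit 190) (nat_lit 5) (nat_lit 191) (nat_lit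 5) (nat_lit 482) (nat_lit 428) (nat_lit 290)) (XT.lf (nat_lit 0) (nat_lit 1127596908) (nat_lit 380) (nat_lit 20034099661) (nat_lit 76) (nat_lit 2175047191) (nat_lit 181) (nat_lit 5) (nat_lit 186) (nat_lit 5) (nat_lit 182) (nat_lit 5) (nat_lit 483) (nat_lit 428) (nat_lit 289))) (XT.nd (nat_lit 78) (nat_lit 304) (nat_lit 0) (XT.lf (nat_lit 0) (nat_lit 6583702573) (nat_lit 380) (nat_lit 5827653783) (nat_lit 76) (nat_lit 11347539950) (nat_lit 181) (nat_lit 5) (nat_lit 186) (nat_lit 5) (nat_lit 182) (nat_lit 5) (nat_lit 484) (nat_lit 428) (nat_lit 288)) (XT.lf (nat_lit 0) (nat_lit 8966654299) (nat_lit 304) (nat_lit 3314349007) (nat_lit 380) (nat_lit 11910384984) (nat_lit 177) (nat_lit 5) (nat_lit 181) (nat_lit 5) (nat_lit 182) (nat_lit 5) (nat_lit 485) (nat_lit 428) (nat_lit 287)))) (XT.nd (nat_lit 156) (nat_lit 380) (nat_lit 0) (XT.nd (nat_lit 78) (nat_lit 228) (nat_lit 0) (XT.lf (nat_lit 0) (nat_lit 18258264188) (nat_lit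 380) (nat_lit 383014207) (nat_lit 76) (nat_lit 5992305616) (nat_lit 177) (nat_lit 5) (nat_lit 182) (nat_lit 5) (nat_lit 178) (nat_lit 5) (nat_lit 486) (nat_lit 428) (nat_lit 286)) (XT.lf (nat_lit 0) (nat_lit 15153852997) (nat_lit 228) (nat_lit 9431124571) (nat_lit 304) (nat_lit 498964200) (nat_lit 174) (nat_lit 5) (nat_lit 177) (nat_lit 5) (nat_lit 178) (nat_lit 5) (nat_lit 487) (nat_lit 428) (nat_lit 285))) (XT.nd (nat_lit 78) (nat_lit 0) (nat_lit 0) (XT.lf (nat_lit 0) (nat_lit 5496914228) (nat_lit 380) (nat_lit 19885308267) (nat_lit 76) (nat_lit 162438260) (nat_lit 169) (nat_lit 5) (nat_lit 174) (nat_lit 5) (nat_lit 170) (nat_lit 5) (nat_lit 488) (nat_lit 428) (nat_lit 284)) (XT.lf (nat_lit 0) (nat_lit 11849046782) (nat_lit 380) (nat_lit 4208575718) (nat_lit 76) (nat_lit 9955838599) (nat_lit 169) (nat_lit 5) (nat_lit 174) (nat_lit 5) (nat_lit 170) (nat_lit 5) (nat_lit 489) (nat_lit 428) (nat_lit 283))))) (XT.nd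 (nat_lit 312) (nat_lit 532) (nat_lit 0) (XT.nd (nat_lit 156) (nat_lit 304) (nat_lit 0) (XT.nd (nat_lit 78) (nat_lit 228) (nat_lit 0) (XT.lf (nat_lit 0) (nat_lit 12163079854) (nat_lit 228) (nat_lit 6337584116) (nat_lit 304) (nat_lit 7992394045) (nat_lit 166) (nat_lit 5) (nat_lit 169) (nat_lit 5) (nat_lit 170) (nat_lit 5) (nat_lit 490) (nat_lit 428) (nat_lit 282)) (XT.lf (nat_lit 0) (nat_lit 2119213153) (nat_lit 228) (nat_lit 23323292335) (nat_lit 304) (nat_lit 1541817255) (nat_lit 163) (nat_lit 5) (nat_lit 166) (nat_lit 5) (nat_lit 167) (nat_lit 5) (nat_lit 491) (nat_lit 428) (nat_lit 281))) (XT.nd (nat_lit 78) (nat_lit 228) (nat_lit 0) (XT.lf (nat_lit 0) (nat_lit 5203698682) (nat_lit 304) (nat_lit 8256403999) (nat_lit 76) (nat_lit 14022721941) (nat_lit 162) (nat_lit 5) (nat_lit 166) (nat_lit 5) (nat_lit 163) (nat_lit 5) (nat_lit 492) (nat_lit 428) (nat_lit 280)) (XT.lf (nat_lit 0) (nat_lit 8998439542) (nat_lit 228)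 (nat_lit 3200980047) (nat_lit 304) (nat_lit 15794039312) (nat_lit 159) (nat_lit 5) (nat_lit 162) (nat_lit 5) (nat_lit 163) (nat_lit 5) (nat_lit 493) (nat_lit 428) (nat_lit 279)))) (XT.nd (nat_lit 156) (nat_lit 304) (nat_lit 0) (XT.nd (nat_lit 78) (nat_lit 228) (nat_lit 0) (XT.lf (nat_lit 0) (nat_lit 19552405891) (nat_lit 304) (nat_lit 1660874539) (nat_lit 76) (nat_lit 7301710121) (nat_lit 159) (nat_lit 5) (nat_lit 163) (nat_lit 5) (nat_lit 160) (nat_lit 5) (nat_lit 494) (nat_lit 428) (nat_lit 278)) (XT.lf (nat_lit 0) (nat_lit 16470863012) (nat_lit 228) (nat_lit 10837750431) (nat_lit 304) (nat_lit 1738075910) (nat_lit 156) (nat_lit 5) (nat_lit 159) (nat_lit 5) (nat_lit 160) (nat_lit 5) (nat_lit 495) (nat_lit 428) (nat_lit 277))) (XT.nd (nat_lit 78) (nat_lit 0) (nat_lit 0) (XT.lf (nat_lit 0) (nat_lit 5629453333) (nat_lit 228) (nat_lit 26114881) (nat_lit 304) (nat_lit 23935215697) (nat_lit 152) (nat_lit 5) (nat_lit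 155) (nat_lit 5) (nat_lit 156) (nat_lit 5) (nat_lit 496) (nat_lit 428) (nat_lit 276)) (XT.lf (nat_lit 0) (nat_lit 13463822058) (nat_lit 304) (nat_lit 5646193799) (nat_lit 76) (nat_lit 11033837307) (nat_lit 152) (nat_lit 5) (nat_lit 156) (nat_lit 5) (nat_lit 153) (nat_lit 5) (nat_lit 497) (nat_lit 428) (nat_lit 275))))))) (XT.nd (nat_lit 1248) (nat_lit 1748) (nat_lit 0) (XT.nd (nat_lit 624) (nat_lit 988) (nat_lit 0) (XT.nd (nat_lit 312) (nat_lit 456) (nat_lit 0) (XT.nd (nat_lit 156) (nat_lit 304) (nat_lit 0) (XT.nd (nat_lit 78) (nat_lit 152) (nat_lit 0) (XT.lf (nat_lit 0) (nat_lit 13469100382) (nat_lit 228) (nat_lit 8159858433) (nat_lit 304) (nat_lit 9080876755) (nat_lit 149) (nat_lit 5) (nat_lit 152) (nat_lit 5) (nat_lit 153) (nat_lit 5) (nat_lit 498) (nat_lit 428) (nat_lit 274)) (XT.lf (nat_lit 0) (nat_lit 1978657213) (nat_lit 152) (nat_lit 28159923941) (nat_lit 228) (nat_lit 1151230483) (nat_lit 147) (nat_lit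 5) (nat_lit 149) (nat_lit 5) (nat_lit 150) (nat_lit 5) (nat_lit 499) (nat_lit 428) (nat_lit 273))) (XT.nd (nat_lit 78) (nat_lit 228) (nat_lit 0) (XT.lf (nat_lit 0) (nat_lit 7128978258) (nat_lit 228) (nat_lit 9915814046) (nat_lit 76) (nat_lit 14832883861) (nat_lit 146) (nat_lit 5) (nat_lit 149) (nat_lit 5) (nat_lit 147) (nat_lit 5) (nat_lit 500) (nat_lit 428) (nat_lit 272)) (XT.lf (nat_lit 0) (nat_lit 10238179642) (nat_lit 228) (nat_lit 5487869732) (nat_lit 304) (nat_lit 16754037585) (nat_lit 143) (nat_lit 5) (nat_lit 146) (nat_lit 5) (nat_lit 147) (nat_lit 5) (nat_lit 501) (nat_lit 428) (nat_lit 271)))) (XT.nd (nat_lit 156) (nat_lit 228) (nat_lit 0) (XT.nd (nat_lit 78) (nat_lit 228) (nat_lit 0) (XT.lf (nat_lit 0) (nat_lit 24737048272) (nat_lit 304) (nat_lit 1971807328) (nat_lit 76) (nat_lit 6387034124) (nat_lit 143) (nat_lit 5) (nat_lit 147) (nat_lit 5) (nat_lit 144) (nat_lit 5) (nat_lit 502) (nat_lit 428) (nat_lit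 270)) (XT.lf (nat_lit 0) (nat_lit 517355993) (nat_lit 228) (nat_lit 14512532579) (nat_lit 76) (nat_lit 18693151913) (nat_lit 140) (nat_lit 5) (nat_lit 143) (nat_lit 5) (nat_lit 141) (nat_lit 5) (nat_lit 503) (nat_lit 428) (nat_lit 269))) (XT.nd (nat_lit 78) (nat_lit 0) (nat_lit 0) (XT.lf (nat_lit 0) (nat_lit 6737503078) (nat_lit 228) (nat_lit 2832644289) (nat_lit 304) (nat_lit 24794026311) (nat_lit 137) (nat_lit 5) (nat_lit 140) (nat_lit 5) (nat_lit 141) (nat_lit 5) (nat_lit 504) (nat_lit 428) (nat_lit 268)) (XT.lf (nat_lit 0) (nat_lit 19129534117) (nat_lit 304) (nat_lit 6203952846) (nat_lit 76) (nat_lit 9684003661) (nat_lit 137) (nat_lit 5) (nat_lit 141) (nat_lit 5) (nat_lit 138) (nat_lit 5) (nat_lit 505) (nat_lit 428) (nat_lit 267))))) (XT.nd (nat_lit 312) (nat_lit 380) (nat_lit 0) (XT.nd (nat_lit 156) (nat_lit 152) (nat_lit 0) (XT.nd (nat_lit 78) (nat_lit 304) (nat_lit 0) (XT.lf (nat_lit 0) (nat_lit 16137273229)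 (nat_lit 152) (nat_lit 13015263411) (nat_lit 228) (nat_lit 6532565511) (nat_lit 135) (nat_lit 5) (nat_lit 137) (nat_lit 5) (nat_lit 138) (nat_lit 5) (nat_lit 506) (nat_lit 428) (nat_lit 266)) (XT.lf (nat_lit 0) (nat_lit 2920544628) (nat_lit 228) (nat_lit 207408836) (nat_lit 304) (nat_lit 33241342884) (nat_lit 131) (nat_lit 5) (nat_lit 134) (nat_lit 5) (nat_lit 135) (nat_lit 5) (nat_lit 507) (nat_lit 428) (nat_lit 265))) (XT.nd (nat_lit 78) (nat_lit 152) (nat_lit 0) (XT.lf (nat_lit 0) (nat_lit 13264873840) (nat_lit 304) (nat_lit 10806938859) (nat_lit 76) (nat_lit 12990726881) (nat_lit 131) (nat_lit 5) (nat_lit 135) (nat_lit 5) (nat_lit 132) (nat_lit 5) (nat_lit 508) (nat_lit 428) (nat_lit 264)) (XT.lf (nat_lit 0) (nat_lit 12750123165) (nat_lit 152) (nat_lit 11074295249) (nat_lit 228) (nat_lit 13948606287) (nat_lit 129) (nat_lit 5) (nat_lit 131) (nat_lit 5) (nat_lit 132) (nat_lit 5) (nat_lit 509) (nat_lit 428) (nat_lit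 263)))) (XT.nd (nat_lit 156) (nat_lit 152) (nat_lit 0) (XT.nd (nat_lit 78) (nat_lit 228) (nat_lit 0) (XT.lf (nat_lit 0) (nat_lit 34827125992) (nat_lit 228) (nat_lit 1300221116) (nat_lit 76) (nat_lit 2373686053) (nat_lit 129) (nat_lit 5) (nat_lit 132) (nat_lit 5) (nat_lit 130) (nat_lit 5) (nat_lit 510) (nat_lit 428) (nat_lit 262)) (XT.lf (nat_lit 0) (nat_lit 7106856749) (nat_lit 228) (nat_lit 15838627469) (nat_lit 76) (nat_lit 16293426005) (nat_lit 126) (nat_lit 5) (nat_lit 129) (nat_lit 5) (nat_lit 127) (nat_lit 5) (nat_lit 511) (nat_lit 428) (nat_lit 261))) (XT.nd (nat_lit 78) (nat_lit 0) (nat_lit 0) (XT.lf (nat_lit 0) (nat_lit 8998529948) (nat_lit 152) (nat_lit 9232553681) (nat_lit 228) (nat_lit 21763932332) (nat_lit 124) (nat_lit 5) (nat_lit 126) (nat_lit 5) (nat_lit 127) (nat_lit 5) (nat_lit 512) (nat_lit 428) (nat_lit 260)) (XT.lf (nat_lit 0) (nat_lit 29891732881) (nat_lit 228) (nat_lit 5922645712) (nat_lit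 76) (nat_lit 4953345487) (nat_lit 124) (nat_lit 5) (nat_lit 127) (nat_lit 5) (nat_lit 125) (nat_lit 5) (nat_lit 513) (nat_lit 428) (nat_lit 259)))))) (XT.nd (nat_lit 624) (nat_lit 836) (nat_lit 0) (XT.nd (nat_lit 312) (nat_lit 380) (nat_lit 0) (XT.nd (nat_lit 156) (nat_lit 152) (nat_lit 0) (XT.nd (nat_lit 78) (nat_lit 152) (nat_lit 0) (XT.lf (nat_lit 0) (nat_lit 614619306) (nat_lit 228) (nat_lit 21365355383) (nat_lit 76) (nat_lit 19575062039) (nat_lit 121) (nat_lit 5) (nat_lit 124) (nat_lit 5) (nat_lit 122) (nat_lit 5) (nat_lit 514) (nat_lit 428) (nat_lit 258)) (XT.lf (nat_lit 0) (nat_lit 4818138210) (nat_lit 152) (nat_lit 7514260741) (nat_lit 228) (nat_lit 30027307957) (nat_lit 119) (nat_lit 5) (nat_lit 121) (nat_lit 5) (nat_lit 122) (nat_lit 5) (nat_lit 515) (nat_lit 428) (nat_lit 257))) (XT.nd (nat_lit 78) (nat_lit 152) (nat_lit 0) (XT.lf (nat_lit 0) (nat_lit 24684947205) (nat_lit 228) (nat_lit 11040310954) (nat_lit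 76) (nat_lit 7454762048) (nat_lit 119) (nat_lit 5) (nat_lit 122) (nat_lit 5) (nat_lit 120) (nat_lit 5) (nat_lit 516) (nat_lit 428) (nat_lit 256)) (XT.lf (nat_lit 0) (nat_lit 16493489290) (nat_lit 152) (nat_lit 21142048767) (nat_lit 228) (nat_lit 6382580930) (nat_lit 117) (nat_lit 5) (nat_lit 119) (nat_lit 5) (nat_lit 120) (nat_lit 5) (nat_lit 517) (nat_lit 428) (nat_lit 255)))) (XT.nd (nat_lit 156) (nat_lit 152) (nat_lit 0) (XT.nd (nat_lit 78) (nat_lit 0) (nat_lit 0) (XT.lf (nat_lit 0) (nat_lit 134597839) (nat_lit 152) (nat_lit 5948202520) (nat_lit 228) (nat_lit 38793550771) (nat_lit 114) (nat_lit 5) (nat_lit 116) (nat_lit 5) (nat_lit 117) (nat_lit 5) (nat_lit 518) (nat_lit 428) (nat_lit 254)) (XT.lf (nat_lit 0) (nat_lit 19162367513) (nat_lit 228) (nat_lit 16733340989) (nat_lit 76) (nat_lit 9851670740) (nat_lit 114) (nat_lit 5) (nat_lit 117) (nat_lit 5) (nat_lit 115) (nat_lit 5) (nat_lit 519) (nat_lit 428) (nat_lit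 253))) (XT.nd (nat_lit 78) (nat_lit 0) (nat_lit 0) (XT.lf (nat_lit 0) (nat_lit 12286497946) (nat_lit 152) (nat_lit 20519535660) (nat_lit 228) (nat_lit 13833353292) (nat_lit 112) (nat_lit 5) (nat_lit 114) (nat_lit 5) (nat_lit 115) (nat_lit 5) (nat_lit 520) (nat_lit 428) (nat_lit 252)) (XT.lf (nat_lit 0) (nat_lit 42510357629) (nat_lit 152) (nat_lit 4512401261) (nat_lit 228) (nat_lit 530483476) (nat_lit 112) (nat_lit 5) (nat_lit 114) (nat_lit 5) (nat_lit 115) (nat_lit 5) (nat_lit 521) (nat_lit 428) (nat_lit 251))))) (XT.nd (nat_lit 312) (nat_lit 304) (nat_lit 0) (XT.nd (nat_lit 156) (nat_lit 152) (nat_lit 0) (XT.nd (nat_lit 78) (nat_lit 152) (nat_lit 0) (XT.lf (nat_lit 0) (nat_lit 13273277247) (nat_lit 228) (nat_lit 23094114380) (nat_lit 76) (nat_lit 12112558728) (nat_lit 109) (nat_lit 5) (nat_lit 112) (nat_lit 5) (nat_lit 110) (nat_lit 5) (nat_lit 522) (nat_lit 428) (nat_lit 250)) (XT.lf (nat_lit 0) (nat_lit 7484034477)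 (nat_lit 152) (nat_lit 20159395755) (nat_lit 228) (nat_lit 21785983585) (nat_lit 107) (nat_lit 5) (nat_lit 109) (nat_lit 5) (nat_lit 110) (nat_lit 5) (nat_lit 523) (nat_lit 428) (nat_lit 249))) (XT.nd (nat_lit 78) (nat_lit 152) (nat_lit 0) (XT.lf (nat_lit 0) (nat_lit 39443594116) (nat_lit 152) (nat_lit 3229253680) (nat_lit 228) (nat_lit 7727668638) (nat_lit 107) (nat_lit 5) (nat_lit 109) (nat_lit 5) (nat_lit 110) (nat_lit 5) (nat_lit 524) (nat_lit 428) (nat_lit 248)) (XT.lf (nat_lit 0) (nat_lit 6959674114) (nat_lit 152) (nat_lit 30229215322) (nat_lit 76) (nat_lit 14199744239) (nat_lit 105) (nat_lit 5) (nat_lit 107) (nat_lit 5) (nat_lit 106) (nat_lit 5) (nat_lit 525) (nat_lit 428) (nat_lit 247)))) (XT.nd (nat_lit 156) (nat_lit 152) (nat_lit 0) (XT.nd (nat_lit 78) (nat_lit 0) (nat_lit 0) (XT.lf (nat_lit 0) (nat_lit 1980666897) (nat_lit 152) (nat_lit 20109472568) (nat_lit 228) (nat_lit 30309225045) (nat_lit 103) (nat_lit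 5) (nat_lit 105) (nat_lit 5) (nat_lit 106) (nat_lit 5) (nat_lit 526) (nat_lit 428) (nat_lit 246)) (XT.lf (nat_lit 0) (nat_lit 35767421427) (nat_lit 152) (nat_lit 2207479043) (nat_lit 228) (nat_lit 15456505394) (nat_lit 103) (nat_lit 5) (nat_lit 105) (nat_lit 5) (nat_lit 106) (nat_lit 5) (nat_lit 527) (nat_lit 428) (nat_lit 245))) (XT.nd (nat_lit 78) (nat_lit 0) (nat_lit 0) (XT.lf (nat_lit 0) (nat_lit 155145844) (nat_lit 152) (nat_lit 38261693232) (nat_lit 76) (nat_lit 16068307164) (nat_lit 101) (nat_lit 5) (nat_lit 103) (nat_lit 5) (nat_lit 102) (nat_lit 5) (nat_lit 528) (nat_lit 428) (nat_lit 244)) (XT.lf (nat_lit 0) (nat_lit 16121715750) (nat_lit 152) (nat_lit 4261135235) (nat_lit 76) (nat_lit 35177139953) (nat_lit 101) (nat_lit 5) (nat_lit 103) (nat_lit 5) (nat_lit 102) (nat_lit 5) (nat_lit 529) (nat_lit 428) (nat_lit 243))))))))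
noncomputable def xc158 : XT := (XT.nd (nat_lit 55302) (nat_lit 0) (nat_lit 11400) (XT.nd (nat_lit 1170) (nat_lit 532) (nat_lit 0) (XT.nd (nat_lit 546) (nat_lit 684) (nat_lit 0) (XT.nd (nat_lit 234) (nat_lit 456) (nat_lit 0) (XT.nd (nat_lit 78) (nat_lit 152) (nat_lit 0) (XT.lf (nat_lit 0) (nat_lit 31362761785) (nat_lit 152) (nat_lit 1501373481) (nat_lit 228) (nat_lit 23794040176) (nat_lit 99) (nat_lit 5) (nat_lit 101) (nat_lit 5) (nat_lit 102) (nat_lit 5) (nat_lit 530) (nat_lit 428) (nat_lit 242)) (XT.nd (nat_lit 78) (nat_lit 76) (nat_lit 0) (XT.lf (nat_lit 0) (nat_lit 10375543508) (nat_lit 76) (nat_lit 40044376217) (nat_lit 152) (nat_lit 7360053025) (nat_lit 98) (nat_lit 5) (nat_lit 99) (nat_lit 5) (nat_lit 100) (nat_lit 4) (nat_lit 531) (nat_lit 428) (nat_lit 241)) (XT.lf (nat_lit 0) (nat_lit 9648490581) (nat_lit 152) (nat_lit 11410656102) (nat_lit 76) (nat_lit 37865471751) (nat_lit 97) (nat_lit 5) (nat_lit 99)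 (nat_lit 5) (nat_lit 98) (nat_lit 5) (nat_lit 532) (nat_lit 428) (nat_lit 240)))) (XT.nd (nat_lit 156) (nat_lit 228) (nat_lit 0) (XT.nd (nat_lit 78) (nat_lit 76) (nat_lit 0) (XT.lf (nat_lit 0) (nat_lit 26090737864) (nat_lit 152) (nat_lit 1174951486) (nat_lit 228) (nat_lit 32828338163) (nat_lit 95) (nat_lit 5) (nat_lit 97) (nat_lit 5) (nat_lit 98) (nat_lit 5) (nat_lit 533) (nat_lit 428) (nat_lit 239)) (XT.lf (nat_lit 0) (nat_lit 3529719801) (nat_lit 76) (nat_lit 42213099550) (nat_lit 152) (nat_lit 15545757089) (nat_lit 94) (nat_lit 5) (nat_lit 95) (nat_lit 5) (nat_lit 96) (nat_lit 4) (nat_lit 534) (nat_lit 428) (nat_lit 238))) (XT.nd (nat_lit 78) (nat_lit 152) (nat_lit 0) (XT.lf (nat_lit 0) (nat_lit 2565237941) (nat_lit 152) (nat_lit 19668081993) (nat_lit 76) (nat_lit 40274373185) (nat_lit 93) (nat_lit 5) (nat_lit 95) (nat_lit 5) (nat_lit 94) (nat_lit 5) (nat_lit 535) (nat_lit 428) (nat_lit 237)) (XT.lf (nat_lit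 0) (nat_lit 19789444730) (nat_lit 152) (nat_lit 1303567913) (nat_lit 228) (nat_lit 42660176013) (nat_lit 91) (nat_lit 5) (nat_lit 93) (nat_lit 5) (nat_lit 94) (nat_lit 5) (nat_lit 536) (nat_lit 428) (nat_lit 236))))) (XT.nd (nat_lit 312) (nat_lit 380) (nat_lit 0) (XT.nd (nat_lit 156) (nat_lit 228) (nat_lit 0) (XT.nd (nat_lit 78) (nat_lit 76) (nat_lit 0) (XT.lf (nat_lit 0) (nat_lit 40567577193) (nat_lit 228) (nat_lit 4401104928) (nat_lit 76) (nat_lit 20055638270) (nat_lit 91) (nat_lit 5) (nat_lit 94) (nat_lit 5) (nat_lit 92) (nat_lit 4) (nat_lit 537) (nat_lit 428) (nat_lit 235)) (XT.lf (nat_lit 0) (nat_lit 37050508315) (nat_lit 76) (nat_lit 23940741305) (nat_lit 152) (nat_lit 5331390361) (nat_lit 90) (nat_lit 5) (nat_lit 91) (nat_lit 5) (nat_lit 92) (nat_lit 4) (nat_lit 538) (nat_lit 428) (nat_lit 234))) (XT.nd (nat_lit 78) (nat_lit 0) (nat_lit 0) (XT.lf (nat_lit 0) (nat_lit 12270204782) (nat_lit 152) (nat_lit 1975800609)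 (nat_lit 228) (nat_lit 53405001003) (nat_lit 87) (nat_lit 5) (nat_lit 89) (nat_lit 5) (nat_lit 90) (nat_lit 5) (nat_lit 539) (nat_lit 428) (nat_lit 233)) (XT.lf (nat_lit 0) (nat_lit 34796393731) (nat_lit 228) (nat_lit 13613691119) (nat_lit 76) (nat_lit 20592770605) (nat_lit 87) (nat_lit 5) (nat_lit 90) (nat_lit 5) (nat_lit 88) (nat_lit 4) (nat_lit 540) (nat_lit 428) (nat_lit 232)))) (XT.nd (nat_lit 156) (nat_lit 76) (nat_lit 0) (XT.nd (nat_lit 78) (nat_lit 228) (nat_lit 0) (XT.lf (nat_lit 0) (nat_lit 29963803460) (nat_lit 76) (nat_lit 26303031155) (nat_lit 152) (nat_lit 14119319174) (nat_lit 86) (nat_lit 5) (nat_lit 87) (nat_lit 5) (nat_lit 88) (nat_lit 4) (nat_lit 541) (nat_lit 428) (nat_lit 231)) (XT.lf (nat_lit 0) (nat_lit 3313223024) (nat_lit 152) (nat_lit 3295635609) (nat_lit 228) (nat_lit 65195198675) (nat_lit 83) (nat_lit 5) (nat_lit 85) (nat_lit 5) (nat_lit 86) (nat_lit 5) (nat_lit 542) (nat_lit 428) (nat_lit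 230))) (XT.nd (nat_lit 78) (nat_lit 76) (nat_lit 0) (XT.lf (nat_lit 0) (nat_lit 28279402571) (nat_lit 228) (nat_lit 24410504646) (nat_lit 76) (nat_lit 20552267729) (nat_lit 83) (nat_lit 5) (nat_lit 86) (nat_lit 5) (nat_lit 84) (nat_lit 4) (nat_lit 543) (nat_lit 428) (nat_lit 229)) (XT.lf (nat_lit 0) (nat_lit 21369036926) (nat_lit 76) (nat_lit 29465146725) (nat_lit 152) (nat_lit 23882228862) (nat_lit 82) (nat_lit 5) (nat_lit 83) (nat_lit 5) (nat_lit 84) (nat_lit 4) (nat_lit 544) (nat_lit 428) (nat_lit 228)))))) (XT.nd (nat_lit 53508) (nat_lit 0) (nat_lit 20444) (XT.nd (nat_lit 312) (nat_lit 228) (nat_lit 0) (XT.nd (nat_lit 156) (nat_lit 76) (nat_lit 0) (XT.nd (nat_lit 78) (nat_lit 228) (nat_lit 0) (XT.lf (nat_lit 0) (nat_lit 69014875451) (nat_lit 76) (nat_lit 5293351771) (nat_lit 152) (nat_lit 1919371436) (nat_lit 82) (nat_lit 5) (nat_lit 83) (nat_lit 5) (nat_lit 84) (nat_lit 4) (nat_lit 545) (nat_lit 428) (nat_lit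 227)) (XT.lf (nat_lit 0) (nat_lit 20881994495) (nat_lit 228) (nat_lit 37063053396) (nat_lit 76) (nat_lit 19815594384) (nat_lit 79) (nat_lit 5) (nat_lit 82) (nat_lit 5) (nat_lit 80) (nat_lit 4) (nat_lit 546) (nat_lit 428) (nat_lit 226))) (XT.nd (nat_lit 78) (nat_lit 0) (nat_lit 0) (XT.lf (nat_lit 0) (nat_lit 10990557226) (nat_lit 76) (nat_lit 33566083337) (nat_lit 152) (nat_lit 34775632049) (nat_lit 78) (nat_lit 5) (nat_lit 79) (nat_lit 5) (nat_lit 80) (nat_lit 4) (nat_lit 547) (nat_lit 428) (nat_lit 225)) (XT.lf (nat_lit 0) (nat_lit 61238258631) (nat_lit 76) (nat_lit 8073775946) (nat_lit 152) (nat_lit 11627902046) (nat_lit 78) (nat_lit 5) (nat_lit 79) (nat_lit 5) (nat_lit 80) (nat_lit 4) (nat_lit 548) (nat_lit 428) (nat_lit 224)))) (XT.nd (nat_lit 156) (nat_lit 76) (nat_lit 0) (XT.nd (nat_lit 78) (nat_lit 0) (nat_lit 0) (XT.lf (nat_lit 0) (nat_lit 12447884433) (nat_lit 152) (nat_lit 51886865059) (nat_lit 76) (nat_lit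 18243399689) (nat_lit 76) (nat_lit 5) (nat_lit 78) (nat_lit 5) (nat_lit 77) (nat_lit 4) (nat_lit 549) (nat_lit 428) (nat_lit 223)) (XT.lf (nat_lit 0) (nat_lit 37289415769) (nat_lit 152) (nat_lit 1463817086) (nat_lit 76) (nat_lit 45500506030) (nat_lit 76) (nat_lit 5) (nat_lit 78) (nat_lit 5) (nat_lit 77) (nat_lit 4) (nat_lit 550) (nat_lit 428) (nat_lit 222))) (XT.nd (nat_lit 52962) (nat_lit 0) (nat_lit 21584) (XT.lf (nat_lit 0) (nat_lit 51469340860) (nat_lit 76) (nat_lit 11898038142) (nat_lit 152) (nat_lit 22597481719) (nat_lit 75) (nat_lit 5) (nat_lit 76) (nat_lit 5) (nat_lit 77) (nat_lit 4) (nat_lit 551) (nat_lit 428) (nat_lit 221)) (XT.lf (nat_lit 0) (nat_lit 4682191413) (nat_lit 1140) (nat_lit 170844980) (nat_lit 1140) (nat_lit 170844980) (nat_lit 359) (nat_lit 3) (nat_lit 374) (nat_lit 3) (nat_lit 374) (nat_lit 5) (nat_lit 429) (nat_lit 429) (nat_lit 342))))) (XT.nd (nat_lit 312) (nat_lit 0) (nat_lit 152) (XT.nd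 (nat_lit 156) (nat_lit 0) (nat_lit 76) (XT.nd (nat_lit 78) (nat_lit 0) (nat_lit 0) (XT.lf (nat_lit 0) (nat_lit 64085000) (nat_lit 1140) (nat_lit 5421025631) (nat_lit 1216) (nat_lit 4691209334) (nat_lit 344) (nat_lit 5) (nat_lit 359) (nat_lit 3) (nat_lit 360) (nat_lit 5) (nat_lit 430) (nat_lit 429) (nat_lit 341)) (XT.lf (nat_lit 0) (nat_lit 796344223) (nat_lit 1140) (nat_lit 317952687) (nat_lit 1216) (nat_lit 9194952154) (nat_lit 344) (nat_lit 5) (nat_lit 359) (nat_lit 3) (nat_lit 360) (nat_lit 5) (nat_lit 431) (nat_lit 429) (nat_lit 340))) (XT.nd (nat_lit 78) (nat_lit 0) (nat_lit 0) (XT.lf (nat_lit 0) (nat_lit 1605423740) (nat_lit 1140) (nat_lit 5456754439) (nat_lit 1216) (nat_lit 3382343565) (nat_lit 345) (nat_lit 5) (nat_lit 360) (nat_lit 5) (nat_lit 361) (nat_lit 5) (nat_lit 432) (nat_lit 429) (nat_lit 339)) (XT.lf (nat_lit 0) (nat_lit 2427220913) (nat_lit 1140) (nat_lit 150682882) (nat_lit 1216) (nat_lit 8006296695)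 (nat_lit 345) (nat_lit 5) (nat_lit 360) (nat_lit 5) (nat_lit 361) (nat_lit 5) (nat_lit 433) (nat_lit 429) (nat_lit 338)))) (XT.nd (nat_lit 156) (nat_lit 0) (nat_lit 76) (XT.nd (nat_lit 78) (nat_lit 0) (nat_lit 0) (XT.lf (nat_lit 0) (nat_lit 3320788495) (nat_lit 1140) (nat_lit 5342048001) (nat_lit 1216) (nat_lit 2063820817) (nat_lit 346) (nat_lit 5) (nat_lit 361) (nat_lit 5) (nat_lit 362) (nat_lit 5) (nat_lit 434) (nat_lit 429) (nat_lit 337)) (XT.lf (nat_lit 76) (nat_lit 178358715) (nat_lit 0) (nat_lit 4067189654) (nat_lit 1216) (nat_lit 6627709087) (nat_lit 347) (nat_lit 5) (nat_lit 346) (nat_lit 5) (nat_lit 362) (nat_lit 5) (nat_lit 435) (nat_lit 429) (nat_lit 336))) (XT.nd (nat_lit 78) (nat_lit 0) (nat_lit 0) (XT.lf (nat_lit 0) (nat_lit 5235193125) (nat_lit 1140) (nat_lit 5071631381) (nat_lit 1216) (nat_lit 716317974) (nat_lit 347) (nat_lit 5) (nat_lit 362) (nat_lit 5) (nat_lit 363) (nat_lit 5) (nat_lit 436) (nat_lit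 429) (nat_lit 335)) (XT.lf (nat_lit 76) (nat_lit 677816442) (nat_lit 0) (nat_lit 5600445702) (nat_lit 1216) (nat_lit 4898550969) (nat_lit 348) (nat_lit 5) (nat_lit 347) (nat_lit 5) (nat_lit 363) (nat_lit 5) (nat_lit 437) (nat_lit 429) (nat_lit 334))))))) (XT.nd (nat_lit 1248) (nat_lit 5016) (nat_lit 0) (XT.nd (nat_lit 624) (nat_lit 3192) (nat_lit 0) (XT.nd (nat_lit 312) (nat_lit 1064) (nat_lit 0) (XT.nd (nat_lit 156) (nat_lit 0) (nat_lit 76) (XT.nd (nat_lit 78) (nat_lit 0) (nat_lit 76) (XT.lf (nat_lit 76) (nat_lit 6688387895) (nat_lit 0) (nat_lit 692923063) (nat_lit 1216) (nat_lit 3952923350) (nat_lit 348) (nat_lit 5) (nat_lit 347) (nat_lit 5) (nat_lit 363) (nat_lit 5) (nat_lit 438) (nat_lit 429) (nat_lit 333)) (XT.lf (nat_lit 76) (nat_lit 1351745929) (nat_lit 0) (nat_lit 7198825148) (nat_lit 1216) (nat_lit 2944814508) (nat_lit 349) (nat_lit 5) (nat_lit 348) (nat_lit 5) (nat_lit 364) (nat_lit 5) (nat_lit 439) (nat_lit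 429) (nat_lit 332))) (XT.nd (nat_lit 78) (nat_lit 0) (nat_lit 76) (XT.lf (nat_lit 76) (nat_lit 7602055809) (nat_lit 0) (nat_lit 2185244520) (nat_lit 1216) (nat_lit 1873100346) (nat_lit 349) (nat_lit 5) (nat_lit 348) (nat_lit 5) (nat_lit 364) (nat_lit 5) (nat_lit 440) (nat_lit 429) (nat_lit 331)) (XT.lf (nat_lit 76) (nat_lit 2208291982) (nat_lit 0) (nat_lit 8882060073) (nat_lit 1216) (nat_lit 739138526) (nat_lit 350) (nat_lit 5) (nat_lit 349) (nat_lit 5) (nat_lit 365) (nat_lit 5) (nat_lit 441) (nat_lit 429) (nat_lit 330)))) (XT.nd (nat_lit 156) (nat_lit 0) (nat_lit 76) (XT.nd (nat_lit 78) (nat_lit 0) (nat_lit 76) (XT.lf (nat_lit 0) (nat_lit 463107852) (nat_lit 1216) (nat_lit 3298395897) (nat_lit 1292) (nat_lit 8240747674) (nat_lit 333) (nat_lit 5) (nat_lit 349) (nat_lit 5) (nat_lit 350) (nat_lit 5) (nat_lit 442) (nat_lit 429) (nat_lit 329)) (XT.lf (nat_lit 0) (nat_lit 1713022232) (nat_lit 1216) (nat_lit 8939774396)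 (nat_lit 1292) (nat_lit 1526386118) (nat_lit 334) (nat_lit 5) (nat_lit 350) (nat_lit 5) (nat_lit 351) (nat_lit 5) (nat_lit 443) (nat_lit 429) (nat_lit 328))) (XT.nd (nat_lit 78) (nat_lit 0) (nat_lit 76) (XT.lf (nat_lit 0) (nat_lit 3051986750) (nat_lit 1216) (nat_lit 2372967899) (nat_lit 1292) (nat_lit 6934921653) (nat_lit 334) (nat_lit 5) (nat_lit 350) (nat_lit 5) (nat_lit 351) (nat_lit 5) (nat_lit 444) (nat_lit 429) (nat_lit 327)) (XT.lf (nat_lit 0) (nat_lit 4455321145) (nat_lit 1216) (nat_lit 8082884720) (nat_lit 76) (nat_lit 7059618) (nat_lit 335) (nat_lit 5) (nat_lit 351) (nat_lit 5) (nat_lit 336) (nat_lit 5) (nat_lit 445) (nat_lit 429) (nat_lit 326))))) (XT.nd (nat_lit 312) (nat_lit 1292) (nat_lit 0) (XT.nd (nat_lit 156) (nat_lit 836) (nat_lit 0) (XT.nd (nat_lit 78) (nat_lit 1216) (nat_lit 0) (XT.lf (nat_lit 0) (nat_lit 5960332056) (nat_lit 1216) (nat_lit 1253912394) (nat_lit 76) (nat_lit 5520185418) (nat_lit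 335) (nat_lit 5) (nat_lit 351) (nat_lit 5) (nat_lit 336) (nat_lit 5) (nat_lit 446) (nat_lit 429) (nat_lit 325)) (XT.lf (nat_lit 0) (nat_lit 5879218240) (nat_lit 1216) (nat_lit 1669988228) (nat_lit 1292) (nat_lit 5378902122) (nat_lit 319) (nat_lit 5) (nat_lit 335) (nat_lit 5) (nat_lit 336) (nat_lit 5) (nat_lit 447) (nat_lit 429) (nat_lit 324))) (XT.nd (nat_lit 78) (nat_lit 0) (nat_lit 0) (XT.lf (nat_lit 0) (nat_lit 71428179) (nat_lit 836) (nat_lit 9149224370) (nat_lit 912) (nat_lit 3905898736) (nat_lit 308) (nat_lit 5) (nat_lit 319) (nat_lit 5) (nat_lit 320) (nat_lit 5) (nat_lit 448) (nat_lit 429) (nat_lit 323)) (XT.lf (nat_lit 0) (nat_lit 7517314629) (nat_lit 836) (nat_lit 3495426918) (nat_lit 912) (nat_lit 2316091482) (nat_lit 308) (nat_lit 5) (nat_lit 319) (nat_lit 5) (nat_lit 320) (nat_lit 5) (nat_lit 449) (nat_lit 429) (nat_lit 322)))) (XT.nd (nat_lit 156) (nat_lit 608) (nat_lit 0) (XT.nd (nat_lit 78) (nat_lit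 76) (nat_lit 0) (XT.lf (nat_lit 0) (nat_lit 1643357094) (nat_lit 608) (nat_lit 11236867774) (nat_lit 684) (nat_lit 656310138) (nat_lit 300) (nat_lit 5) (nat_lit 308) (nat_lit 5) (nat_lit 309) (nat_lit 5) (nat_lit 450) (nat_lit 429) (nat_lit 321)) (XT.lf (nat_lit 0) (nat_lit 1110213458) (nat_lit 684) (nat_lit 4368911562) (nat_lit 76) (nat_lit 8268714920) (nat_lit 299) (nat_lit 5) (nat_lit 308) (nat_lit 5) (nat_lit 300) (nat_lit 5) (nat_lit 451) (nat_lit 429) (nat_lit 320))) (XT.nd (nat_lit 78) (nat_lit 0) (nat_lit 0) (XT.lf (nat_lit 0) (nat_lit 2938312374) (nat_lit 684) (nat_lit 10543510213) (nat_lit 76) (nat_lit 482814037) (nat_lit 291) (nat_lit 5) (nat_lit 300) (nat_lit 5) (nat_lit 292) (nat_lit 5) (nat_lit 452) (nat_lit 429) (nat_lit 319)) (XT.lf (nat_lit 0) (nat_lit 4904480641) (nat_lit 684) (nat_lit 2722631260) (nat_lit 76) (nat_lit 6558329165) (nat_lit 291) (nat_lit 5) (nat_lit 300) (nat_lit 5) (nat_lit 292)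 (nat_lit 5) (nat_lit 453) (nat_lit 429) (nat_lit 318)))))) (XT.nd (nat_lit 624) (nat_lit 2280) (nat_lit 0) (XT.nd (nat_lit 312) (nat_lit 1064) (nat_lit 0) (XT.nd (nat_lit 156) (nat_lit 1140) (nat_lit 0) (XT.nd (nat_lit 78) (nat_lit 0) (nat_lit 0) (XT.lf (nat_lit 0) (nat_lit 5423407247) (nat_lit 532) (nat_lit 1543236879) (nat_lit 608) (nat_lit 7445115840) (nat_lit 284) (nat_lit 5) (nat_lit 291) (nat_lit 5) (nat_lit 292) (nat_lit 5) (nat_lit 454) (nat_lit 429) (nat_lit 317)) (XT.lf (nat_lit 0) (nat_lit 9149008682) (nat_lit 608) (nat_lit 835668956) (nat_lit 76) (nat_lit 4658441324) (nat_lit 284) (nat_lit 5) (nat_lit 292) (nat_lit 5) (nat_lit 285) (nat_lit 5) (nat_lit 455) (nat_lit 429) (nat_lit 316))) (XT.nd (nat_lit 78) (nat_lit 532) (nat_lit 0) (XT.lf (nat_lit 0) (nat_lit 7681065623) (nat_lit 608) (nat_lit 3790494066) (nat_lit 684) (nat_lit 3407618167) (nat_lit 276) (nat_lit 5) (nat_lit 284) (nat_lit 5) (nat_lit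 285) (nat_lit 5) (nat_lit 456) (nat_lit 429) (nat_lit 315)) (XT.lf (nat_lit 0) (nat_lit 1334020274) (nat_lit 532) (nat_lit 12561872418) (nat_lit 608) (nat_lit 1225463239) (nat_lit 269) (nat_lit 5) (nat_lit 276) (nat_lit 5) (nat_lit 277) (nat_lit 5) (nat_lit 457) (nat_lit 429) (nat_lit 314)))) (XT.nd (nat_lit 156) (nat_lit 456) (nat_lit 0) (XT.nd (nat_lit 78) (nat_lit 532) (nat_lit 0) (XT.lf (nat_lit 0) (nat_lit 1099141548) (nat_lit 608) (nat_lit 5162553900) (nat_lit 76) (nat_lit 9105901741) (nat_lit 268) (nat_lit 5) (nat_lit 276) (nat_lit 5) (nat_lit 269) (nat_lit 5) (nat_lit 458) (nat_lit 429) (nat_lit 313)) (XT.lf (nat_lit 0) (nat_lit 3494121327) (nat_lit 608) (nat_lit 11855562727) (nat_lit 76) (nat_lit 270420137) (nat_lit 261) (nat_lit 5) (nat_lit 269) (nat_lit 5) (nat_lit 262) (nat_lit 5) (nat_lit 459) (nat_lit 429) (nat_lit 312))) (XT.nd (nat_lit 78) (nat_lit 456) (nat_lit 0) (XT.lf (nat_lit 0) (nat_lit 6062235507)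 (nat_lit 608) (nat_lit 2891175260) (nat_lit 76) (nat_lit 6923737600) (nat_lit 261) (nat_lit 5) (nat_lit 269) (nat_lit 5) (nat_lit 262) (nat_lit 5) (nat_lit 460) (nat_lit 429) (nat_lit 311)) (XT.lf (nat_lit 0) (nat_lit 6453198443) (nat_lit 456) (nat_lit 2303256075) (nat_lit 532) (nat_lit 7383978004) (nat_lit 255) (nat_lit 5) (nat_lit 261) (nat_lit 5) (nat_lit 262) (nat_lit 5) (nat_lit 461) (nat_lit 429) (nat_lit 310))))) (XT.nd (nat_lit 312) (nat_lit 1292) (nat_lit 0) (XT.nd (nat_lit 156) (nat_lit 532) (nat_lit 0) (XT.nd (nat_lit 78) (nat_lit 456) (nat_lit 0) (XT.lf (nat_lit 0) (nat_lit 11591933601) (nat_lit 532) (nat_lit 332649731) (nat_lit 76) (nat_lit 4485219349) (nat_lit 255) (nat_lit 5) (nat_lit 262) (nat_lit 5) (nat_lit 256) (nat_lit 5) (nat_lit 462) (nat_lit 429) (nat_lit 309)) (XT.lf (nat_lit 0) (nat_lit 9449512997) (nat_lit 456) (nat_lit 5164220964) (nat_lit 532) (nat_lit 2070482746) (nat_lit 249) (nat_lit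 5) (nat_lit 255) (nat_lit 5) (nat_lit 256) (nat_lit 5) (nat_lit 463) (nat_lit 429) (nat_lit 308))) (XT.nd (nat_lit 78) (nat_lit 0) (nat_lit 0) (XT.lf (nat_lit 0) (nat_lit 778172746) (nat_lit 532) (nat_lit 14390057037) (nat_lit 76) (nat_lit 1797404898) (nat_lit 242) (nat_lit 5) (nat_lit 249) (nat_lit 5) (nat_lit 243) (nat_lit 5) (nat_lit 464) (nat_lit 429) (nat_lit 307)) (XT.lf (nat_lit 0) (nat_lit 3783494955) (nat_lit 532) (nat_lit 4512129050) (nat_lit 76) (nat_lit 8955871974) (nat_lit 242) (nat_lit 5) (nat_lit 249) (nat_lit 5) (nat_lit 243) (nat_lit 5) (nat_lit 465) (nat_lit 429) (nat_lit 306)))) (XT.nd (nat_lit 156) (nat_lit 836) (nat_lit 0) (XT.nd (nat_lit 78) (nat_lit 0) (nat_lit 0) (XT.lf (nat_lit 0) (nat_lit 5760027645) (nat_lit 456) (nat_lit 1162581348) (nat_lit 532) (nat_lit 10622015572) (nat_lit 236) (nat_lit 5) (nat_lit 242) (nat_lit 5) (nat_lit 243) (nat_lit 5) (nat_lit 466) (nat_lit 429) (nat_lit 305))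 (XT.lf (nat_lit 0) (nat_lit 10249799757) (nat_lit 532) (nat_lit 1486921651) (nat_lit 76) (nat_lit 6107008909) (nat_lit 236) (nat_lit 5) (nat_lit 243) (nat_lit 5) (nat_lit 237) (nat_lit 5) (nat_lit 467) (nat_lit 429) (nat_lit 304))) (XT.nd (nat_lit 78) (nat_lit 456) (nat_lit 0) (XT.lf (nat_lit 0) (nat_lit 9274902698) (nat_lit 380) (nat_lit 4491346773) (nat_lit 456) (nat_lit 4382876866) (nat_lit 231) (nat_lit 5) (nat_lit 236) (nat_lit 5) (nat_lit 237) (nat_lit 5) (nat_lit 468) (nat_lit 429) (nat_lit 303)) (XT.lf (nat_lit 0) (nat_lit 1921187085) (nat_lit 456) (nat_lit 15518137706) (nat_lit 532) (nat_lit 1022825866) (nat_lit 225) (nat_lit 5) (nat_lit 231) (nat_lit 5) (nat_lit 232) (nat_lit 5) (nat_lit 469) (nat_lit 429) (nat_lit 302))))))))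
noncomputable def xc159 : XT := (XT.nd (nat_lit 2418) (nat_lit 3724) (nat_lit 0) (XT.nd (nat_lit 1170) (nat_lit 2584) (nat_lit 0) (XT.nd (nat_lit 546) (nat_lit 1672) (nat_lit 0) (XT.nd (nat_lit 234) (nat_lit 1216) (nat_lit 0) (XT.nd (nat_lit 78) (nat_lit 380) (nat_lit 0) (XT.lf (nat_lit 0) (nat_lit 2514435181) (nat_lit 532) (nat_lit 5642792924) (nat_lit 76) (nat_lit 10622915390) (nat_lit 224) (nat_lit 5) (nat_lit 231) (nat_lit 5) (nat_lit 225) (nat_lit 5) (nat_lit 470) (nat_lit 429) (nat_lit 301)) (XT.nd (nat_lit 78) (nat_lit 0) (nat_lit 0) (XT.lf (nat_lit 0) (nat_lit 5668738835) (nat_lit 380) (nat_lit 512343688) (nat_lit 456) (nat_lit 12924975347) (nat_lit 219) (nat_lit 5) (nat_lit 224) (nat_lit 5) (nat_lit 225) (nat_lit 5) (nat_lit 471) (nat_lit 429) (nat_lit 300)) (XT.lf (nat_lit 0) (nat_lit 10075519953) (nat_lit 456) (nat_lit 2090301501) (nat_lit 76) (nat_lit 7272394842) (nat_lit 219) (nat_lit 5) (nat_lit 225)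 (nat_lit 5) (nat_lit 220) (nat_lit 5) (nat_lit 472) (nat_lit 429) (nat_lit 299)))) (XT.nd (nat_lit 156) (nat_lit 456) (nat_lit 0) (XT.nd (nat_lit 78) (nat_lit 380) (nat_lit 0) (XT.lf (nat_lit 0) (nat_lit 9768875530) (nat_lit 380) (nat_lit 4406676935) (nat_lit 456) (nat_lit 5602124479) (nat_lit 214) (nat_lit 5) (nat_lit 219) (nat_lit 5) (nat_lit 220) (nat_lit 5) (nat_lit 473) (nat_lit 429) (nat_lit 298)) (XT.lf (nat_lit 0) (nat_lit 1888226476) (nat_lit 380) (nat_lit 16574206922) (nat_lit 456) (nat_lit 1662972912) (nat_lit 209) (nat_lit 5) (nat_lit 214) (nat_lit 5) (nat_lit 215) (nat_lit 5) (nat_lit 474) (nat_lit 429) (nat_lit 297))) (XT.nd (nat_lit 78) (nat_lit 380) (nat_lit 0) (XT.lf (nat_lit 0) (nat_lit 2483309854) (nat_lit 456) (nat_lit 6214845838) (nat_lit 76) (nat_lit 11780651312) (nat_lit 208) (nat_lit 5) (nat_lit 214) (nat_lit 5) (nat_lit 209) (nat_lit 5) (nat_lit 475) (nat_lit 429) (nat_lit 296)) (XT.lf (nat_lit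 0) (nat_lit 6260262057) (nat_lit 380) (nat_lit 510742977) (nat_lit 456) (nat_lit 14069797584) (nat_lit 203) (nat_lit 5) (nat_lit 208) (nat_lit 5) (nat_lit 209) (nat_lit 5) (nat_lit 476) (nat_lit 429) (nat_lit 295))))) (XT.nd (nat_lit 312) (nat_lit 988) (nat_lit 0) (XT.nd (nat_lit 156) (nat_lit 380) (nat_lit 0) (XT.nd (nat_lit 78) (nat_lit 304) (nat_lit 0) (XT.lf (nat_lit 0) (nat_lit 11317251373) (nat_lit 456) (nat_lit 2065237493) (nat_lit 76) (nat_lit 7827271909) (nat_lit 203) (nat_lit 5) (nat_lit 209) (nat_lit 5) (nat_lit 204) (nat_lit 5) (nat_lit 477) (nat_lit 429) (nat_lit 294)) (XT.lf (nat_lit 0) (nat_lit 11022242447) (nat_lit 304) (nat_lit 5079319298) (nat_lit 380) (nat_lit 5485175910) (nat_lit 199) (nat_lit 5) (nat_lit 203) (nat_lit 5) (nat_lit 204) (nat_lit 5) (nat_lit 478) (nat_lit 429) (nat_lit 293))) (XT.nd (nat_lit 78) (nat_lit 76) (nat_lit 0) (XT.lf (nat_lit 0) (nat_lit 2573495480) (nat_lit 304) (nat_lit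 18525863398) (nat_lit 380) (nat_lit 873566505) (nat_lit 195) (nat_lit 5) (nat_lit 199) (nat_lit 5) (nat_lit 200) (nat_lit 5) (nat_lit 479) (nat_lit 429) (nat_lit 292)) (XT.lf (nat_lit 0) (nat_lit 3949600893) (nat_lit 380) (nat_lit 6147386804) (nat_lit 76) (nat_lit 12268127870) (nat_lit 194) (nat_lit 5) (nat_lit 199) (nat_lit 5) (nat_lit 195) (nat_lit 5) (nat_lit 480) (nat_lit 429) (nat_lit 291)))) (XT.nd (nat_lit 156) (nat_lit 684) (nat_lit 0) (XT.nd (nat_lit 78) (nat_lit 0) (nat_lit 0) (XT.lf (nat_lit 0) (nat_lit 7629369764) (nat_lit 304) (nat_lit 1334965977) (nat_lit 380) (nat_lit 13802543577) (nat_lit 190) (nat_lit 5) (nat_lit 194) (nat_lit 5) (nat_lit 195) (nat_lit 5) (nat_lit 481) (nat_lit 429) (nat_lit 290)) (XT.lf (nat_lit 0) (nat_lit 14257310947) (nat_lit 380) (nat_lit 1321094301) (nat_lit 76) (nat_lit 7598457023) (nat_lit 190) (nat_lit 5) (nat_lit 195) (nat_lit 5) (nat_lit 191) (nat_lit 5) (nat_lit 482)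 (nat_lit 429) (nat_lit 289))) (XT.nd (nat_lit 78) (nat_lit 380) (nat_lit 0) (XT.lf (nat_lit 0) (nat_lit 13140222343) (nat_lit 304) (nat_lit 6699826054) (nat_lit 380) (nat_lit 3755167356) (nat_lit 186) (nat_lit 5) (nat_lit 190) (nat_lit 5) (nat_lit 191) (nat_lit 5) (nat_lit 483) (nat_lit 429) (nat_lit 288)) (XT.lf (nat_lit 0) (nat_lit 1602021147) (nat_lit 380) (nat_lit 19959951661) (nat_lit 76) (nat_lit 2461644328) (nat_lit 181) (nat_lit 5) (nat_lit 186) (nat_lit 5) (nat_lit 182) (nat_lit 5) (nat_lit 484) (nat_lit 429) (nat_lit 287)))))) (XT.nd (nat_lit 624) (nat_lit 1216) (nat_lit 0) (XT.nd (nat_lit 312) (nat_lit 836) (nat_lit 0) (XT.nd (nat_lit 156) (nat_lit 228) (nat_lit 0) (XT.nd (nat_lit 78) (nat_lit 304) (nat_lit 0) (XT.lf (nat_lit 0) (nat_lit 7208977080) (nat_lit 380) (nat_lit 5346977581) (nat_lit 76) (nat_lit 11902864908) (nat_lit 181) (nat_lit 5) (nat_lit 186) (nat_lit 5) (nat_lit 182) (nat_lit 5) (nat_lit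 485) (nat_lit 429) (nat_lit 286)) (XT.lf (nat_lit 0) (nat_lit 9884733216) (nat_lit 304) (nat_lit 3186243836) (nat_lit 380) (nat_lit 11833496165) (nat_lit 177) (nat_lit 5) (nat_lit 181) (nat_lit 5) (nat_lit 182) (nat_lit 5) (nat_lit 486) (nat_lit 429) (nat_lit 285))) (XT.nd (nat_lit 78) (nat_lit 0) (nat_lit 0) (XT.lf (nat_lit 0) (nat_lit 250726583) (nat_lit 228) (nat_lit 18969084850) (nat_lit 304) (nat_lit 6140356009) (nat_lit 174) (nat_lit 5) (nat_lit 177) (nat_lit 5) (nat_lit 178) (nat_lit 5) (nat_lit 487) (nat_lit 429) (nat_lit 284)) (XT.lf (nat_lit 0) (nat_lit 16242529396) (nat_lit 228) (nat_lit 9485499453) (nat_lit 304) (nat_lit 96256298) (nat_lit 174) (nat_lit 5) (nat_lit 177) (nat_lit 5) (nat_lit 178) (nat_lit 5) (nat_lit 488) (nat_lit 429) (nat_lit 283)))) (XT.nd (nat_lit 156) (nat_lit 456) (nat_lit 0) (XT.nd (nat_lit 78) (nat_lit 0) (nat_lit 0) (XT.lf (nat_lit 0) (nat_lit 6067765218) (nat_lit 380) (nat_lit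 19836054660) (nat_lit 76) (nat_lit 394993142) (nat_lit 169) (nat_lit 5) (nat_lit 174) (nat_lit 5) (nat_lit 170) (nat_lit 5) (nat_lit 489) (nat_lit 429) (nat_lit 282)) (XT.lf (nat_lit 0) (nat_lit 12598638149) (nat_lit 380) (nat_lit 3707830217) (nat_lit 76) (nat_lit 10475563985) (nat_lit 169) (nat_lit 5) (nat_lit 174) (nat_lit 5) (nat_lit 170) (nat_lit 5) (nat_lit 490) (nat_lit 429) (nat_lit 281))) (XT.nd (nat_lit 78) (nat_lit 228) (nat_lit 0) (XT.lf (nat_lit 0) (nat_lit 13148827936) (nat_lit 228) (nat_lit 6295464740) (nat_lit 304) (nat_lit 7831890097) (nat_lit 166) (nat_lit 5) (nat_lit 169) (nat_lit 5) (nat_lit 170) (nat_lit 5) (nat_lit 491) (nat_lit 429) (nat_lit 280)) (XT.lf (nat_lit 0) (nat_lit 2806900403) (nat_lit 228) (nat_lit 23784337144) (nat_lit 304) (nat_lit 1191042706) (nat_lit 163) (nat_lit 5) (nat_lit 166) (nat_lit 5) (nat_lit 167) (nat_lit 5) (nat_lit 492) (nat_lit 429) (nat_lit 279))))) (XT.nd (nat_lit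 312) (nat_lit 684) (nat_lit 0) (XT.nd (nat_lit 156) (nat_lit 228) (nat_lit 0) (XT.nd (nat_lit 78) (nat_lit 228) (nat_lit 0) (XT.lf (nat_lit 0) (nat_lit 5737752944) (nat_lit 304) (nat_lit 7890633457) (nat_lit 76) (nat_lit 14667576681) (nat_lit 162) (nat_lit 5) (nat_lit 166) (nat_lit 5) (nat_lit 163) (nat_lit 5) (nat_lit 493) (nat_lit 429) (nat_lit 278)) (XT.lf (nat_lit 0) (nat_lit 9875841051) (nat_lit 228) (nat_lit 3062335534) (nat_lit 304) (nat_lit 15883895102) (nat_lit 159) (nat_lit 5) (nat_lit 162) (nat_lit 5) (nat_lit 163) (nat_lit 5) (nat_lit 494) (nat_lit 429) (nat_lit 277))) (XT.nd (nat_lit 78) (nat_lit 228) (nat_lit 0) (XT.lf (nat_lit 0) (nat_lit 20503085095) (nat_lit 304) (nat_lit 1112270218) (nat_lit 76) (nat_lit 7744154221) (nat_lit 159) (nat_lit 5) (nat_lit 163) (nat_lit 5) (nat_lit 160) (nat_lit 5) (nat_lit 495) (nat_lit 429) (nat_lit 276)) (XT.lf (nat_lit 0) (nat_lit 17557552493) (nat_lit 228) (nat_lit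 10929517405) (nat_lit 304) (nat_lit 1420236891) (nat_lit 156) (nat_lit 5) (nat_lit 159) (nat_lit 5) (nat_lit 160) (nat_lit 5) (nat_lit 496) (nat_lit 429) (nat_lit 275)))) (XT.nd (nat_lit 156) (nat_lit 380) (nat_lit 0) (XT.nd (nat_lit 78) (nat_lit 0) (nat_lit 0) (XT.lf (nat_lit 0) (nat_lit 6185150107) (nat_lit 304) (nat_lit 24077526481) (nat_lit 76) (nat_lit 205026510) (nat_lit 152) (nat_lit 5) (nat_lit 156) (nat_lit 5) (nat_lit 153) (nat_lit 5) (nat_lit 497) (nat_lit 429) (nat_lit 274)) (XT.lf (nat_lit 0) (nat_lit 14217419642) (nat_lit 304) (nat_lit 5230739368) (nat_lit 76) (nat_lit 11589512577) (nat_lit 152) (nat_lit 5) (nat_lit 156) (nat_lit 5) (nat_lit 153) (nat_lit 5) (nat_lit 498) (nat_lit 429) (nat_lit 273))) (XT.nd (nat_lit 78) (nat_lit 152) (nat_lit 0) (XT.lf (nat_lit 0) (nat_lit 14452279910) (nat_lit 228) (nat_lit 8170612378) (nat_lit 304) (nat_lit 8997879919) (nat_lit 149) (nat_lit 5) (nat_lit 152) (nat_lit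 5) (nat_lit 153) (nat_lit 5) (nat_lit 499) (nat_lit 429) (nat_lit 272)) (XT.lf (nat_lit 0) (nat_lit 2619475111) (nat_lit 152) (nat_lit 28766051316) (nat_lit 228) (nat_lit 832689624) (nat_lit 147) (nat_lit 5) (nat_lit 149) (nat_lit 5) (nat_lit 150) (nat_lit 5) (nat_lit 500) (nat_lit 429) (nat_lit 271))))))) (XT.nd (nat_lit 1248) (nat_lit 1596) (nat_lit 0) (XT.nd (nat_lit 624) (nat_lit 912) (nat_lit 0) (XT.nd (nat_lit 312) (nat_lit 684) (nat_lit 0) (XT.nd (nat_lit 156) (nat_lit 228) (nat_lit 0) (XT.nd (nat_lit 78) (nat_lit 228) (nat_lit 0) (XT.lf (nat_lit 0) (nat_lit 7678952416) (nat_lit 228) (nat_lit 9642070878) (nat_lit 76) (nat_lit 15502894074) (nat_lit 146) (nat_lit 5) (nat_lit 149) (nat_lit 5) (nat_lit 147) (nat_lit 5) (nat_lit 501) (nat_lit 429) (nat_lit 270)) (XT.lf (nat_lit 0) (nat_lit 11110942448) (nat_lit 228) (nat_lit 5418640817) (nat_lit 304) (nat_lit 16914947965) (nat_lit 143) (nat_lit 5) (nat_lit 146)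 (nat_lit 5) (nat_lit 147) (nat_lit 5) (nat_lit 502) (nat_lit 429) (nat_lit 269))) (XT.nd (nat_lit 78) (nat_lit 228) (nat_lit 0) (XT.lf (nat_lit 0) (nat_lit 25803432015) (nat_lit 304) (nat_lit 1474332712) (nat_lit 76) (nat_lit 6801267923) (nat_lit 143) (nat_lit 5) (nat_lit 147) (nat_lit 5) (nat_lit 144) (nat_lit 5) (nat_lit 503) (nat_lit 429) (nat_lit 268)) (XT.lf (nat_lit 0) (nat_lit 856177233) (nat_lit 228) (nat_lit 14390297275) (nat_lit 76) (nat_lit 19478552900) (nat_lit 140) (nat_lit 5) (nat_lit 143) (nat_lit 5) (nat_lit 141) (nat_lit 5) (nat_lit 504) (nat_lit 429) (nat_lit 267)))) (XT.nd (nat_lit 156) (nat_lit 456) (nat_lit 0) (XT.nd (nat_lit 78) (nat_lit 0) (nat_lit 0) (XT.lf (nat_lit 0) (nat_lit 7491772675) (nat_lit 228) (nat_lit 2684670703) (nat_lit 304) (nat_lit 25209074642) (nat_lit 137) (nat_lit 5) (nat_lit 140) (nat_lit 5) (nat_lit 141) (nat_lit 5) (nat_lit 505) (nat_lit 429) (nat_lit 266)) (XT.lf (nat_lit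 0) (nat_lit 20015488951) (nat_lit 304) (nat_lit 5846881054) (nat_lit 76) (nat_lit 10196278300) (nat_lit 137) (nat_lit 5) (nat_lit 141) (nat_lit 5) (nat_lit 138) (nat_lit 5) (nat_lit 506) (nat_lit 429) (nat_lit 265))) (XT.nd (nat_lit 78) (nat_lit 304) (nat_lit 0) (XT.lf (nat_lit 0) (nat_lit 17159256407) (nat_lit 152) (nat_lit 13176006048) (nat_lit 228) (nat_lit 6411143442) (nat_lit 135) (nat_lit 5) (nat_lit 137) (nat_lit 5) (nat_lit 138) (nat_lit 5) (nat_lit 507) (nat_lit 429) (nat_lit 264)) (XT.lf (nat_lit 0) (nat_lit 3529282762) (nat_lit 304) (nat_lit 33904431711) (nat_lit 76) (nat_lit 17431494) (nat_lit 131) (nat_lit 5) (nat_lit 135) (nat_lit 5) (nat_lit 132) (nat_lit 5) (nat_lit 508) (nat_lit 429) (nat_lit 263))))) (XT.nd (nat_lit 312) (nat_lit 532) (nat_lit 0) (XT.nd (nat_lit 156) (nat_lit 228) (nat_lit 0) (XT.nd (nat_lit 78) (nat_lit 152) (nat_lit 0) (XT.lf (nat_lit 0) (nat_lit 13963348450) (nat_lit 304) (nat_lit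 10601313035) (nat_lit 76) (nat_lit 13600734012) (nat_lit 131) (nat_lit 5) (nat_lit 135) (nat_lit 5) (nat_lit 132) (nat_lit 5) (nat_lit 509) (nat_lit 429) (nat_lit 262)) (XT.lf (nat_lit 0) (nat_lit 13657266398) (nat_lit 152) (nat_lit 11178702864) (nat_lit 228) (nat_lit 14061337340) (nat_lit 129) (nat_lit 5) (nat_lit 131) (nat_lit 5) (nat_lit 132) (nat_lit 5) (nat_lit 510) (nat_lit 429) (nat_lit 261))) (XT.nd (nat_lit 78) (nat_lit 228) (nat_lit 0) (XT.lf (nat_lit 0) (nat_lit 36162239047) (nat_lit 228) (nat_lit 823345789) (nat_lit 76) (nat_lit 2661766177) (nat_lit 129) (nat_lit 5) (nat_lit 132) (nat_lit 5) (nat_lit 130) (nat_lit 5) (nat_lit 511) (nat_lit 429) (nat_lit 260)) (XT.lf (nat_lit 0) (nat_lit 7609659880) (nat_lit 228) (nat_lit 15797194516) (nat_lit 76) (nat_lit 17000531286) (nat_lit 126) (nat_lit 5) (nat_lit 129) (nat_lit 5) (nat_lit 127) (nat_lit 5) (nat_lit 512) (nat_lit 429) (nat_lit 259)))) (XT.nd (nat_lit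 156) (nat_lit 380) (nat_lit 0) (XT.nd (nat_lit 78) (nat_lit 0) (nat_lit 0) (XT.lf (nat_lit 0) (nat_lit 9780012998) (nat_lit 152) (nat_lit 9284082803) (nat_lit 228) (nat_lit 22122184437) (nat_lit 124) (nat_lit 5) (nat_lit 126) (nat_lit 5) (nat_lit 127) (nat_lit 5) (nat_lit 513) (nat_lit 429) (nat_lit 258)) (XT.lf (nat_lit 0) (nat_lit 31068336132) (nat_lit 228) (nat_lit 5597464681) (nat_lit 76) (nat_lit 5316555751) (nat_lit 124) (nat_lit 5) (nat_lit 127) (nat_lit 5) (nat_lit 125) (nat_lit 5) (nat_lit 514) (nat_lit 429) (nat_lit 257))) (XT.nd (nat_lit 78) (nat_lit 152) (nat_lit 0) (XT.lf (nat_lit 0) (nat_lit 912285568) (nat_lit 228) (nat_lit 21502824980) (nat_lit 76) (nat_lit 20378196963) (nat_lit 121) (nat_lit 5) (nat_lit 124) (nat_lit 5) (nat_lit 122) (nat_lit 5) (nat_lit 515) (nat_lit 429) (nat_lit 256)) (XT.lf (nat_lit 0) (nat_lit 5461237234) (nat_lit 152) (nat_lit 7517020938) (nat_lit 228) (nat_lit 30643959940)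 (nat_lit 119) (nat_lit 5) (nat_lit 121) (nat_lit 5) (nat_lit 122) (nat_lit 5) (nat_lit 516) (nat_lit 429) (nat_lit 255)))))) (XT.nd (nat_lit 624) (nat_lit 684) (nat_lit 0) (XT.nd (nat_lit 312) (nat_lit 532) (nat_lit 0) (XT.nd (nat_lit 156) (nat_lit 228) (nat_lit 0) (XT.nd (nat_lit 78) (nat_lit 152) (nat_lit 0) (XT.lf (nat_lit 0) (nat_lit 25695425398) (nat_lit 228) (nat_lit 10881525657) (nat_lit 76) (nat_lit 7890368577) (nat_lit 119) (nat_lit 5) (nat_lit 122) (nat_lit 5) (nat_lit 120) (nat_lit 5) (nat_lit 517) (nat_lit 429) (nat_lit 254)) (XT.lf (nat_lit 0) (nat_lit 17473484725) (nat_lit 152) (nat_lit 21557851168) (nat_lit 228) (nat_lit 6299321521) (nat_lit 117) (nat_lit 5) (nat_lit 119) (nat_lit 5) (nat_lit 120) (nat_lit 5) (nat_lit 518) (nat_lit 429) (nat_lit 253))) (XT.nd (nat_lit 78) (nat_lit 0) (nat_lit 0) (XT.lf (nat_lit 0) (nat_lit 624381373) (nat_lit 152) (nat_lit 5907102118) (nat_lit 228) (nat_lit 39683169190)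 (nat_lit 114) (nat_lit 5) (nat_lit 116) (nat_lit 5) (nat_lit 117) (nat_lit 5) (nat_lit 519) (nat_lit 429) (nat_lit 252)) (XT.lf (nat_lit 0) (nat_lit 19997733233) (nat_lit 228) (nat_lit 16758036203) (nat_lit 76) (nat_lit 10356213421) (nat_lit 114) (nat_lit 5) (nat_lit 117) (nat_lit 5) (nat_lit 115) (nat_lit 5) (nat_lit 520) (nat_lit 429) (nat_lit 251)))) (XT.nd (nat_lit 156) (nat_lit 380) (nat_lit 0) (XT.nd (nat_lit 78) (nat_lit 0) (nat_lit 0) (XT.lf (nat_lit 0) (nat_lit 13127718439) (nat_lit 152) (nat_lit 20919946813) (nat_lit 228) (nat_lit 13983176899) (nat_lit 112) (nat_lit 5) (nat_lit 114) (nat_lit 5) (nat_lit 115) (nat_lit 5) (nat_lit 521) (nat_lit 429) (nat_lit 250)) (XT.lf (nat_lit 0) (nat_lit 44244528120) (nat_lit 152) (nat_lit 4438865612) (nat_lit 228) (nat_lit 288944590) (nat_lit 112) (nat_lit 5) (nat_lit 114) (nat_lit 5) (nat_lit 115) (nat_lit 5) (nat_lit 522) (nat_lit 429) (nat_lit 249))) (XT.nd (nat_lit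 78) (nat_lit 152) (nat_lit 0) (XT.lf (nat_lit 0) (nat_lit 13922985401) (nat_lit 228) (nat_lit 23322129228) (nat_lit 76) (nat_lit 12681686346) (nat_lit 109) (nat_lit 5) (nat_lit 112) (nat_lit 5) (nat_lit 110) (nat_lit 5) (nat_lit 523) (nat_lit 429) (nat_lit 248)) (XT.lf (nat_lit 0) (nat_lit 8168807148) (nat_lit 152) (nat_lit 20552534519) (nat_lit 228) (nat_lit 22183493788) (nat_lit 107) (nat_lit 5) (nat_lit 109) (nat_lit 5) (nat_lit 110) (nat_lit 5) (nat_lit 524) (nat_lit 429) (nat_lit 247))))) (XT.nd (nat_lit 312) (nat_lit 380) (nat_lit 0) (XT.nd (nat_lit 156) (nat_lit 152) (nat_lit 0) (XT.nd (nat_lit 78) (nat_lit 152) (nat_lit 0) (XT.lf (nat_lit 0) (nat_lit 41073748189) (nat_lit 152) (nat_lit 3120652545) (nat_lit 228) (nat_lit 7710887722) (nat_lit 107) (nat_lit 5) (nat_lit 109) (nat_lit 5) (nat_lit 110) (nat_lit 5) (nat_lit 525) (nat_lit 429) (nat_lit 246)) (XT.lf (nat_lit 0) (nat_lit 7411406866) (nat_lit 152)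 (nat_lit 30683572405) (nat_lit 76) (nat_lit 14828022832) (nat_lit 105) (nat_lit 5) (nat_lit 107) (nat_lit 5) (nat_lit 106) (nat_lit 5) (nat_lit 526) (nat_lit 429) (nat_lit 245))) (XT.nd (nat_lit 78) (nat_lit 0) (nat_lit 0) (XT.lf (nat_lit 0) (nat_lit 2488169816) (nat_lit 152) (nat_lit 20504847612) (nat_lit 228) (nat_lit 30971120565) (nat_lit 103) (nat_lit 5) (nat_lit 105) (nat_lit 5) (nat_lit 106) (nat_lit 5) (nat_lit 527) (nat_lit 429) (nat_lit 244)) (XT.lf (nat_lit 0) (nat_lit 37275476024) (nat_lit 152) (nat_lit 2071849888) (nat_lit 228) (nat_lit 15680024603) (nat_lit 103) (nat_lit 5) (nat_lit 105) (nat_lit 5) (nat_lit 106) (nat_lit 5) (nat_lit 528) (nat_lit 429) (nat_lit 243)))) (XT.nd (nat_lit 156) (nat_lit 228) (nat_lit 0) (XT.nd (nat_lit 78) (nat_lit 0) (nat_lit 0) (XT.lf (nat_lit 0) (nat_lit 394563446) (nat_lit 152) (nat_lit 38969095191) (nat_lit 76) (nat_lit 16748997043) (nat_lit 101) (nat_lit 5) (nat_lit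 103) (nat_lit 5) (nat_lit 102) (nat_lit 5) (nat_lit 529) (nat_lit 429) (nat_lit 242)) (XT.lf (nat_lit 0) (nat_lit 16833292686) (nat_lit 152) (nat_lit 3961349060) (nat_lit 76) (nat_lit 36425309166) (nat_lit 101) (nat_lit 5) (nat_lit 103) (nat_lit 5) (nat_lit 102) (nat_lit 5) (nat_lit 530) (nat_lit 429) (nat_lit 241))) (XT.nd (nat_lit 78) (nat_lit 76) (nat_lit 0) (XT.lf (nat_lit 0) (nat_lit 32727072514) (nat_lit 152) (nat_lit 1348343915) (nat_lit 228) (nat_lit 24275741632) (nat_lit 99) (nat_lit 5) (nat_lit 101) (nat_lit 5) (nat_lit 102) (nat_lit 5) (nat_lit 531) (nat_lit 429) (nat_lit 240)) (XT.lf (nat_lit 0) (nat_lit 11110897469) (nat_lit 76) (nat_lit 41046338266) (nat_lit 152) (nat_lit 7349392770) (nat_lit 98) (nat_lit 5) (nat_lit 99) (nat_lit 5) (nat_lit 100) (nat_lit 4) (nat_lit 532) (nat_lit 429) (nat_lit 239))))))))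
noncomputable def xc160 : XT := (XT.nd (nat_lit 55458) (nat_lit 0) (nat_lit 10868) (XT.nd (nat_lit 1170) (nat_lit 228) (nat_lit 0) (XT.nd (nat_lit 546) (nat_lit 836) (nat_lit 0) (XT.nd (nat_lit 234) (nat_lit 304) (nat_lit 0) (XT.nd (nat_lit 78) (nat_lit 228) (nat_lit 0) (XT.lf (nat_lit 0) (nat_lit 10158280436) (nat_lit 152) (nat_lit 11336853329) (nat_lit 76) (nat_lit 39190611402) (nat_lit 97) (nat_lit 5) (nat_lit 99) (nat_lit 5) (nat_lit 98) (nat_lit 5) (nat_lit 533) (nat_lit 429) (nat_lit 238)) (XT.nd (nat_lit 78) (nat_lit 76) (nat_lit 0) (XT.lf (nat_lit 0) (nat_lit 27285502824) (nat_lit 152) (nat_lit 1016035623) (nat_lit 228) (nat_lit 33588771823) (nat_lit 95) (nat_lit 5) (nat_lit 97) (nat_lit 5) (nat_lit 98) (nat_lit 5) (nat_lit 534) (nat_lit 429) (nat_lit 237)) (XT.lf (nat_lit 0) (nat_lit 4048240425) (nat_lit 76) (nat_lit 43284174458) (nat_lit 152) (nat_lit 15788297856) (nat_lit 94) (nat_lit 5) (nat_lit 95)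 (nat_lit 5) (nat_lit 96) (nat_lit 4) (nat_lit 535) (nat_lit 429) (nat_lit 236)))) (XT.nd (nat_lit 156) (nat_lit 76) (nat_lit 0) (XT.nd (nat_lit 78) (nat_lit 152) (nat_lit 0) (XT.lf (nat_lit 0) (nat_lit 2855267097) (nat_lit 152) (nat_lit 19853271623) (nat_lit 76) (nat_lit 41667991462) (nat_lit 93) (nat_lit 5) (nat_lit 95) (nat_lit 5) (nat_lit 94) (nat_lit 5) (nat_lit 536) (nat_lit 429) (nat_lit 235)) (XT.lf (nat_lit 0) (nat_lit 20784011756) (nat_lit 152) (nat_lit 1152510842) (nat_lit 228) (nat_lit 43722938606) (nat_lit 91) (nat_lit 5) (nat_lit 93) (nat_lit 5) (nat_lit 94) (nat_lit 5) (nat_lit 537) (nat_lit 429) (nat_lit 234))) (XT.nd (nat_lit 78) (nat_lit 76) (nat_lit 0) (XT.lf (nat_lit 0) (nat_lit 41990961353) (nat_lit 228) (nat_lit 4139566404) (nat_lit 76) (nat_lit 20838330060) (nat_lit 91) (nat_lit 5) (nat_lit 94) (nat_lit 5) (nat_lit 92) (nat_lit 4) (nat_lit 538) (nat_lit 429) (nat_lit 233)) (XT.lf (nat_lit 0)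 (nat_lit 38551736691) (nat_lit 76) (nat_lit 24473343029) (nat_lit 152) (nat_lit 5281115245) (nat_lit 90) (nat_lit 5) (nat_lit 91) (nat_lit 5) (nat_lit 92) (nat_lit 4) (nat_lit 539) (nat_lit 429) (nat_lit 232))))) (XT.nd (nat_lit 312) (nat_lit 304) (nat_lit 0) (XT.nd (nat_lit 156) (nat_lit 304) (nat_lit 0) (XT.nd (nat_lit 78) (nat_lit 0) (nat_lit 0) (XT.lf (nat_lit 0) (nat_lit 13028266587) (nat_lit 152) (nat_lit 1848978856) (nat_lit 228) (nat_lit 54797173992) (nat_lit 87) (nat_lit 5) (nat_lit 89) (nat_lit 5) (nat_lit 90) (nat_lit 5) (nat_lit 540) (nat_lit 429) (nat_lit 231)) (XT.lf (nat_lit 0) (nat_lit 36039944530) (nat_lit 228) (nat_lit 13639301905) (nat_lit 76) (nat_lit 21387703600) (nat_lit 87) (nat_lit 5) (nat_lit 90) (nat_lit 5) (nat_lit 88) (nat_lit 4) (nat_lit 541) (nat_lit 429) (nat_lit 230))) (XT.nd (nat_lit 78) (nat_lit 228) (nat_lit 0) (XT.lf (nat_lit 0) (nat_lit 31241764571) (nat_lit 76) (nat_lit 26910562390)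 (nat_lit 152) (nat_lit 14339485545) (nat_lit 86) (nat_lit 5) (nat_lit 87) (nat_lit 5) (nat_lit 88) (nat_lit 4) (nat_lit 542) (nat_lit 429) (nat_lit 229)) (XT.lf (nat_lit 0) (nat_lit 3791882213) (nat_lit 152) (nat_lit 3212522718) (nat_lit 228) (nat_lit 66947854477) (nat_lit 83) (nat_lit 5) (nat_lit 85) (nat_lit 5) (nat_lit 86) (nat_lit 5) (nat_lit 543) (nat_lit 429) (nat_lit 228)))) (XT.nd (nat_lit 156) (nat_lit 228) (nat_lit 0) (XT.nd (nat_lit 78) (nat_lit 76) (nat_lit 0) (XT.lf (nat_lit 0) (nat_lit 29321017522) (nat_lit 228) (nat_lit 24770554936) (nat_lit 76) (nat_lit 21342069582) (nat_lit 83) (nat_lit 5) (nat_lit 86) (nat_lit 5) (nat_lit 84) (nat_lit 4) (nat_lit 544) (nat_lit 429) (nat_lit 227)) (XT.lf (nat_lit 0) (nat_lit 22378723228) (nat_lit 76) (nat_lit 30171634019) (nat_lit 152) (nat_lit 24401812064) (nat_lit 82) (nat_lit 5) (nat_lit 83) (nat_lit 5) (nat_lit 84) (nat_lit 4) (nat_lit 545) (nat_lit 429) (nat_lit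 226))) (XT.nd (nat_lit 78) (nat_lit 228) (nat_lit 0) (XT.lf (nat_lit 0) (nat_lit 71443200544) (nat_lit 76) (nat_lit 5279854161) (nat_lit 152) (nat_lit 1785803392) (nat_lit 82) (nat_lit 5) (nat_lit 83) (nat_lit 5) (nat_lit 84) (nat_lit 4) (nat_lit 546) (nat_lit 429) (nat_lit 225)) (XT.lf (nat_lit 0) (nat_lit 21695516371) (nat_lit 228) (nat_lit 37812976915) (nat_lit 76) (nat_lit 20579355357) (nat_lit 79) (nat_lit 5) (nat_lit 82) (nat_lit 5) (nat_lit 80) (nat_lit 4) (nat_lit 547) (nat_lit 429) (nat_lit 224)))))) (XT.nd (nat_lit 53664) (nat_lit 0) (nat_lit 19532) (XT.nd (nat_lit 53352) (nat_lit 0) (nat_lit 20368) (XT.nd (nat_lit 156) (nat_lit 152) (nat_lit 0) (XT.nd (nat_lit 78) (nat_lit 0) (nat_lit 0) (XT.lf (nat_lit 0) (nat_lit 11678693319) (nat_lit 76) (nat_lit 34399705440) (nat_lit 152) (nat_lit 35628289254) (nat_lit 78) (nat_lit 5) (nat_lit 79) (nat_lit 5) (nat_lit 80) (nat_lit 4) (nat_lit 548) (nat_lit 429) (nat_lit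 223)) (XT.lf (nat_lit 0) (nat_lit 63423386367) (nat_lit 76) (nat_lit 8147678158) (nat_lit 152) (nat_lit 11791679150) (nat_lit 78) (nat_lit 5) (nat_lit 79) (nat_lit 5) (nat_lit 80) (nat_lit 4) (nat_lit 549) (nat_lit 429) (nat_lit 222))) (XT.nd (nat_lit 53118) (nat_lit 0) (nat_lit 20368) (XT.lf (nat_lit 0) (nat_lit 13002452425) (nat_lit 152) (nat_lit 53091560663) (nat_lit 76) (nat_lit 18956045702) (nat_lit 76) (nat_lit 5) (nat_lit 78) (nat_lit 5) (nat_lit 77) (nat_lit 4) (nat_lit 550) (nat_lit 429) (nat_lit 221)) (XT.lf (nat_lit 0) (nat_lit 174828330) (nat_lit 0) (nat_lit 174828330) (nat_lit 1140) (nat_lit 4804167240) (nat_lit 344) (nat_lit 5) (nat_lit 344) (nat_lit 3) (nat_lit 359) (nat_lit 3) (nat_lit 430) (nat_lit 430) (nat_lit 340)))) (XT.nd (nat_lit 156) (nat_lit 0) (nat_lit 76) (XT.nd (nat_lit 78) (nat_lit 0) (nat_lit 0) (XT.lf (nat_lit 0) (nat_lit 1415117093) (nat_lit 1140) (nat_lit 4858594469) (nat_lit 1216)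 (nat_lit 4167359632) (nat_lit 344) (nat_lit 5) (nat_lit 359) (nat_lit 3) (nat_lit 360) (nat_lit 5) (nat_lit 431) (nat_lit 430) (nat_lit 339)) (XT.lf (nat_lit 76) (nat_lit 383944493) (nat_lit 0) (nat_lit 1749795856) (nat_lit 1216) (nat_lit 8445317826) (nat_lit 345) (nat_lit 5) (nat_lit 344) (nat_lit 5) (nat_lit 360) (nat_lit 5) (nat_lit 432) (nat_lit 430) (nat_lit 338))) (XT.nd (nat_lit 78) (nat_lit 0) (nat_lit 0) (XT.lf (nat_lit 0) (nat_lit 2926363949) (nat_lit 1140) (nat_lit 4879414510) (nat_lit 1216) (nat_lit 2913834264) (nat_lit 345) (nat_lit 5) (nat_lit 360) (nat_lit 5) (nat_lit 361) (nat_lit 5) (nat_lit 433) (nat_lit 430) (nat_lit 337)) (XT.lf (nat_lit 76) (nat_lit 575485218) (nat_lit 0) (nat_lit 3165790546) (nat_lit 1216) (nat_lit 7123154034) (nat_lit 346) (nat_lit 5) (nat_lit 345) (nat_lit 5) (nat_lit 361) (nat_lit 5) (nat_lit 434) (nat_lit 430) (nat_lit 336))))) (XT.nd (nat_lit 312) (nat_lit 988) (nat_lit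 0) (XT.nd (nat_lit 156) (nat_lit 0) (nat_lit 76) (XT.nd (nat_lit 78) (nat_lit 0) (nat_lit 0) (XT.lf (nat_lit 0) (nat_lit 4622224942) (nat_lit 1140) (nat_lit 4748899302) (nat_lit 1216) (nat_lit 1641220580) (nat_lit 346) (nat_lit 5) (nat_lit 361) (nat_lit 5) (nat_lit 362) (nat_lit 5) (nat_lit 435) (nat_lit 430) (nat_lit 335)) (XT.lf (nat_lit 76) (nat_lit 929733241) (nat_lit 0) (nat_lit 4617161351) (nat_lit 1216) (nat_lit 5617285053) (nat_lit 347) (nat_lit 5) (nat_lit 346) (nat_lit 5) (nat_lit 362) (nat_lit 5) (nat_lit 436) (nat_lit 430) (nat_lit 334))) (XT.nd (nat_lit 78) (nat_lit 0) (nat_lit 0) (XT.lf (nat_lit 0) (nat_lit 6528041149) (nat_lit 1140) (nat_lit 4461243357) (nat_lit 1216) (nat_lit 330423975) (nat_lit 347) (nat_lit 5) (nat_lit 362) (nat_lit 5) (nat_lit 363) (nat_lit 5) (nat_lit 437) (nat_lit 430) (nat_lit 333)) (XT.lf (nat_lit 76) (nat_lit 1453212048) (nat_lit 0) (nat_lit 6123366974) (nat_lit 1216) (nat_lit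 3902186496) (nat_lit 348) (nat_lit 5) (nat_lit 347) (nat_lit 5) (nat_lit 363) (nat_lit 5) (nat_lit 438) (nat_lit 430) (nat_lit 332)))) (XT.nd (nat_lit 156) (nat_lit 1064) (nat_lit 0) (XT.nd (nat_lit 78) (nat_lit 0) (nat_lit 76) (XT.lf (nat_lit 76) (nat_lit 7622108573) (nat_lit 0) (nat_lit 1058281532) (nat_lit 1216) (nat_lit 2961490661) (nat_lit 348) (nat_lit 5) (nat_lit 347) (nat_lit 5) (nat_lit 363) (nat_lit 5) (nat_lit 439) (nat_lit 430) (nat_lit 331)) (XT.lf (nat_lit 76) (nat_lit 2153523264) (nat_lit 0) (nat_lit 7703918804) (nat_lit 1216) (nat_lit 1951244589) (nat_lit 349) (nat_lit 5) (nat_lit 348) (nat_lit 5) (nat_lit 364) (nat_lit 5) (nat_lit 440) (nat_lit 430) (nat_lit 330))) (XT.nd (nat_lit 78) (nat_lit 1140) (nat_lit 0) (XT.lf (nat_lit 76) (nat_lit 8569170839) (nat_lit 0) (nat_lit 2531509526) (nat_lit 1216) (nat_lit 878891070) (nat_lit 349) (nat_lit 5) (nat_lit 348) (nat_lit 5) (nat_lit 364) (nat_lit 5)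 (nat_lit 441) (nat_lit 430) (nat_lit 329)) (XT.lf (nat_lit 0) (nat_lit 258230220) (nat_lit 1216) (nat_lit 9117654997) (nat_lit 1292) (nat_lit 2778523370) (nat_lit 333) (nat_lit 5) (nat_lit 349) (nat_lit 5) (nat_lit 350) (nat_lit 5) (nat_lit 442) (nat_lit 430) (nat_lit 328))))))) (XT.nd (nat_lit 1170) (nat_lit 4332) (nat_lit 0) (XT.nd (nat_lit 546) (nat_lit 2432) (nat_lit 0) (XT.nd (nat_lit 234) (nat_lit 1900) (nat_lit 0) (XT.nd (nat_lit 78) (nat_lit 0) (nat_lit 76) (XT.lf (nat_lit 0) (nat_lit 1452425311) (nat_lit 1216) (nat_lit 2635346456) (nat_lit 1292) (nat_lit 8245240153) (nat_lit 333) (nat_lit 5) (nat_lit 349) (nat_lit 5) (nat_lit 350) (nat_lit 5) (nat_lit 443) (nat_lit 430) (nat_lit 327)) (XT.nd (nat_lit 78) (nat_lit 0) (nat_lit 0) (XT.lf (nat_lit 0) (nat_lit 2716759733) (nat_lit 1216) (nat_lit 8422845894) (nat_lit 1292) (nat_lit 1376339169) (nat_lit 334) (nat_lit 5) (nat_lit 350) (nat_lit 5) (nat_lit 351)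 (nat_lit 5) (nat_lit 444) (nat_lit 430) (nat_lit 326)) (XT.lf (nat_lit 0) (nat_lit 4068154929) (nat_lit 1216) (nat_lit 1681902826) (nat_lit 1292) (nat_lit 6952834804) (nat_lit 334) (nat_lit 5) (nat_lit 350) (nat_lit 5) (nat_lit 351) (nat_lit 5) (nat_lit 445) (nat_lit 430) (nat_lit 325)))) (XT.nd (nat_lit 156) (nat_lit 1976) (nat_lit 0) (XT.nd (nat_lit 78) (nat_lit 0) (nat_lit 76) (XT.lf (nat_lit 76) (nat_lit 5351106644) (nat_lit 0) (nat_lit 142736494) (nat_lit 1292) (nat_lit 7400593881) (nat_lit 335) (nat_lit 5) (nat_lit 334) (nat_lit 5) (nat_lit 351) (nat_lit 5) (nat_lit 446) (nat_lit 430) (nat_lit 324)) (XT.lf (nat_lit 0) (nat_lit 7016317055) (nat_lit 1216) (nat_lit 530934663) (nat_lit 76) (nat_lit 5542856420) (nat_lit 335) (nat_lit 5) (nat_lit 351) (nat_lit 5) (nat_lit 336) (nat_lit 5) (nat_lit 447) (nat_lit 430) (nat_lit 323))) (XT.nd (nat_lit 78) (nat_lit 836) (nat_lit 0) (XT.lf (nat_lit 0) (nat_lit 6808733076)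 (nat_lit 1216) (nat_lit 1825815462) (nat_lit 1292) (nat_lit 4655599104) (nat_lit 319) (nat_lit 5) (nat_lit 335) (nat_lit 5) (nat_lit 336) (nat_lit 5) (nat_lit 448) (nat_lit 430) (nat_lit 322)) (XT.lf (nat_lit 0) (nat_lit 845883182) (nat_lit 836) (nat_lit 9491676529) (nat_lit 912) (nat_lit 3157542370) (nat_lit 308) (nat_lit 5) (nat_lit 319) (nat_lit 5) (nat_lit 320) (nat_lit 5) (nat_lit 449) (nat_lit 430) (nat_lit 321))))) (XT.nd (nat_lit 312) (nat_lit 1140) (nat_lit 0) (XT.nd (nat_lit 156) (nat_lit 608) (nat_lit 0) (XT.nd (nat_lit 78) (nat_lit 684) (nat_lit 0) (XT.lf (nat_lit 0) (nat_lit 8492651696) (nat_lit 836) (nat_lit 3666285287) (nat_lit 912) (nat_lit 1545250606) (nat_lit 308) (nat_lit 5) (nat_lit 319) (nat_lit 5) (nat_lit 320) (nat_lit 5) (nat_lit 450) (nat_lit 430) (nat_lit 320)) (XT.lf (nat_lit 0) (nat_lit 143947181) (nat_lit 684) (nat_lit 11460020371) (nat_lit 76) (nat_lit 2314621819) (nat_lit 299) (nat_lit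 5) (nat_lit 308) (nat_lit 5) (nat_lit 300) (nat_lit 5) (nat_lit 451) (nat_lit 430) (nat_lit 319))) (XT.nd (nat_lit 78) (nat_lit 608) (nat_lit 0) (XT.lf (nat_lit 0) (nat_lit 1926777571) (nat_lit 684) (nat_lit 3739343221) (nat_lit 76) (nat_lit 8470623638) (nat_lit 299) (nat_lit 5) (nat_lit 308) (nat_lit 5) (nat_lit 300) (nat_lit 5) (nat_lit 452) (nat_lit 430) (nat_lit 318)) (XT.lf (nat_lit 0) (nat_lit 3794006696) (nat_lit 684) (nat_lit 10083435056) (nat_lit 76) (nat_lit 483075605) (nat_lit 291) (nat_lit 5) (nat_lit 300) (nat_lit 5) (nat_lit 292) (nat_lit 5) (nat_lit 453) (nat_lit 430) (nat_lit 317)))) (XT.nd (nat_lit 156) (nat_lit 608) (nat_lit 0) (XT.nd (nat_lit 78) (nat_lit 532) (nat_lit 0) (XT.lf (nat_lit 0) (nat_lit 5796804333) (nat_lit 684) (nat_lit 2050542757) (nat_lit 76) (nat_lit 6741270445) (nat_lit 291) (nat_lit 5) (nat_lit 300) (nat_lit 5) (nat_lit 292) (nat_lit 5) (nat_lit 454) (nat_lit 430) (nat_lit 316))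 (XT.lf (nat_lit 0) (nat_lit 6332487028) (nat_lit 532) (nat_lit 1573815790) (nat_lit 608) (nat_lit 6915859987) (nat_lit 284) (nat_lit 5) (nat_lit 291) (nat_lit 5) (nat_lit 292) (nat_lit 5) (nat_lit 455) (nat_lit 430) (nat_lit 315))) (XT.nd (nat_lit 78) (nat_lit 608) (nat_lit 0) (XT.lf (nat_lit 0) (nat_lit 10133003662) (nat_lit 608) (nat_lit 114936665) (nat_lit 76) (nat_lit 4813157162) (nat_lit 284) (nat_lit 5) (nat_lit 292) (nat_lit 5) (nat_lit 285) (nat_lit 5) (nat_lit 456) (nat_lit 430) (nat_lit 314)) (XT.lf (nat_lit 0) (nat_lit 8649988163) (nat_lit 608) (nat_lit 3861676091) (nat_lit 684) (nat_lit 2792981758) (nat_lit 276) (nat_lit 5) (nat_lit 284) (nat_lit 5) (nat_lit 285) (nat_lit 5) (nat_lit 457) (nat_lit 430) (nat_lit 313)))))) (XT.nd (nat_lit 624) (nat_lit 1748) (nat_lit 0) (XT.nd (nat_lit 312) (nat_lit 1444) (nat_lit 0) (XT.nd (nat_lit 156) (nat_lit 532) (nat_lit 0) (XT.nd (nat_lit 78) (nat_lit 76) (nat_lit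 0) (XT.lf (nat_lit 0) (nat_lit 2125588714) (nat_lit 532) (nat_lit 12870489198) (nat_lit 608) (nat_lit 558391826) (nat_lit 269) (nat_lit 5) (nat_lit 276) (nat_lit 5) (nat_lit 277) (nat_lit 5) (nat_lit 458) (nat_lit 430) (nat_lit 312)) (XT.lf (nat_lit 0) (nat_lit 1802116716) (nat_lit 608) (nat_lit 4574412063) (nat_lit 76) (nat_lit 9431970266) (nat_lit 268) (nat_lit 5) (nat_lit 276) (nat_lit 5) (nat_lit 269) (nat_lit 5) (nat_lit 459) (nat_lit 430) (nat_lit 311))) (XT.nd (nat_lit 78) (nat_lit 0) (nat_lit 0) (XT.lf (nat_lit 0) (nat_lit 4257255092) (nat_lit 608) (nat_lit 11456495086) (nat_lit 76) (nat_lit 355182562) (nat_lit 261) (nat_lit 5) (nat_lit 269) (nat_lit 5) (nat_lit 262) (nat_lit 5) (nat_lit 460) (nat_lit 430) (nat_lit 310)) (XT.lf (nat_lit 0) (nat_lit 6883238615) (nat_lit 608) (nat_lit 2245158553) (nat_lit 76) (nat_lit 7205867030) (nat_lit 261) (nat_lit 5) (nat_lit 269) (nat_lit 5) (nat_lit 262) (nat_lit 5)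 (nat_lit 461) (nat_lit 430) (nat_lit 309)))) (XT.nd (nat_lit 156) (nat_lit 532) (nat_lit 0) (XT.nd (nat_lit 78) (nat_lit 456) (nat_lit 0) (XT.lf (nat_lit 0) (nat_lit 7372362518) (nat_lit 456) (nat_lit 2274280671) (nat_lit 532) (nat_lit 6959153634) (nat_lit 255) (nat_lit 5) (nat_lit 261) (nat_lit 5) (nat_lit 262) (nat_lit 5) (nat_lit 462) (nat_lit 430) (nat_lit 308)) (XT.lf (nat_lit 0) (nat_lit 386736879) (nat_lit 456) (nat_lit 12166806042) (nat_lit 532) (nat_lit 4330115172) (nat_lit 249) (nat_lit 5) (nat_lit 255) (nat_lit 5) (nat_lit 256) (nat_lit 5) (nat_lit 463) (nat_lit 430) (nat_lit 307))) (XT.nd (nat_lit 78) (nat_lit 532) (nat_lit 0) (XT.lf (nat_lit 0) (nat_lit 10447741199) (nat_lit 456) (nat_lit 5203638201) (nat_lit 532) (nat_lit 1515364350) (nat_lit 249) (nat_lit 5) (nat_lit 255) (nat_lit 5) (nat_lit 256) (nat_lit 5) (nat_lit 464) (nat_lit 430) (nat_lit 306)) (XT.lf (nat_lit 0) (nat_lit 1397201095) (nat_lit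 532) (nat_lit 14085423258) (nat_lit 76) (nat_lit 1974087707) (nat_lit 242) (nat_lit 5) (nat_lit 249) (nat_lit 5) (nat_lit 243) (nat_lit 5) (nat_lit 465) (nat_lit 430) (nat_lit 305))))) (XT.nd (nat_lit 312) (nat_lit 912) (nat_lit 0) (XT.nd (nat_lit 156) (nat_lit 380) (nat_lit 0) (XT.nd (nat_lit 78) (nat_lit 456) (nat_lit 0) (XT.lf (nat_lit 0) (nat_lit 4475332975) (nat_lit 532) (nat_lit 3932604095) (nat_lit 76) (nat_lit 9343733241) (nat_lit 242) (nat_lit 5) (nat_lit 249) (nat_lit 5) (nat_lit 243) (nat_lit 5) (nat_lit 466) (nat_lit 430) (nat_lit 304)) (XT.lf (nat_lit 0) (nat_lit 6640708587) (nat_lit 456) (nat_lit 1057871770) (nat_lit 532) (nat_lit 10355314202) (nat_lit 236) (nat_lit 5) (nat_lit 242) (nat_lit 5) (nat_lit 243) (nat_lit 5) (nat_lit 467) (nat_lit 430) (nat_lit 303))) (XT.nd (nat_lit 78) (nat_lit 380) (nat_lit 0) (XT.lf (nat_lit 0) (nat_lit 11110337331) (nat_lit 532) (nat_lit 828998174) (nat_lit 76) (nat_lit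 6423096043) (nat_lit 236) (nat_lit 5) (nat_lit 243) (nat_lit 5) (nat_lit 237) (nat_lit 5) (nat_lit 468) (nat_lit 430) (nat_lit 302)) (XT.lf (nat_lit 0) (nat_lit 10248793346) (nat_lit 380) (nat_lit 4474066077) (nat_lit 456) (nat_lit 3954413224) (nat_lit 231) (nat_lit 5) (nat_lit 236) (nat_lit 5) (nat_lit 237) (nat_lit 5) (nat_lit 469) (nat_lit 430) (nat_lit 301)))) (XT.nd (nat_lit 156) (nat_lit 380) (nat_lit 0) (XT.nd (nat_lit 78) (nat_lit 76) (nat_lit 0) (XT.lf (nat_lit 0) (nat_lit 2682366643) (nat_lit 456) (nat_lit 15816108347) (nat_lit 532) (nat_lit 501442814) (nat_lit 225) (nat_lit 5) (nat_lit 231) (nat_lit 5) (nat_lit 232) (nat_lit 5) (nat_lit 470) (nat_lit 430) (nat_lit 300)) (XT.lf (nat_lit 0) (nat_lit 3115397358) (nat_lit 532) (nat_lit 5118548067) (nat_lit 76) (nat_lit 11093819290) (nat_lit 224) (nat_lit 5) (nat_lit 231) (nat_lit 5) (nat_lit 225) (nat_lit 5) (nat_lit 471) (nat_lit 430) (nat_lit 299))) (XT.nd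 (nat_lit 78) (nat_lit 0) (nat_lit 0) (XT.lf (nat_lit 0) (nat_lit 6525530345) (nat_lit 380) (nat_lit 357808366) (nat_lit 456) (nat_lit 12780379476) (nat_lit 219) (nat_lit 5) (nat_lit 224) (nat_lit 5) (nat_lit 225) (nat_lit 5) (nat_lit 472) (nat_lit 430) (nat_lit 298)) (XT.lf (nat_lit 0) (nat_lit 10881141812) (nat_lit 456) (nat_lit 1472799354) (nat_lit 76) (nat_lit 7652304709) (nat_lit 219) (nat_lit 5) (nat_lit 225) (nat_lit 5) (nat_lit 220) (nat_lit 5) (nat_lit 473) (nat_lit 430) (nat_lit 297))))))))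
noncomputable def xc161 : XT := (XT.nd (nat_lit 2418) (nat_lit 3724) (nat_lit 0) (XT.nd (nat_lit 1170) (nat_lit 2356) (nat_lit 0) (XT.nd (nat_lit 546) (nat_lit 1596) (nat_lit 0) (XT.nd (nat_lit 234) (nat_lit 988) (nat_lit 0) (XT.nd (nat_lit 78) (nat_lit 456) (nat_lit 0) (XT.lf (nat_lit 0) (nat_lit 10735484251) (nat_lit 380) (nat_lit 4360504689) (nat_lit 456) (nat_lit 5260147466) (nat_lit 214) (nat_lit 5) (nat_lit 219) (nat_lit 5) (nat_lit 220) (nat_lit 5) (nat_lit 474) (nat_lit 430) (nat_lit 296)) (XT.nd (nat_lit 78) (nat_lit 76) (nat_lit 0) (XT.lf (nat_lit 0) (nat_lit 2624839606) (nat_lit 380) (nat_lit 16880415209) (nat_lit 456) (nat_lit 1209229941) (nat_lit 209) (nat_lit 5) (nat_lit 214) (nat_lit 5) (nat_lit 215) (nat_lit 5) (nat_lit 475) (nat_lit 430) (nat_lit 295)) (XT.lf (nat_lit 0) (nat_lit 3037230976) (nat_lit 456) (nat_lit 5731573874) (nat_lit 76) (nat_lit 12309969296) (nat_lit 208) (nat_lit 5) (nat_lit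 214) (nat_lit 5) (nat_lit 209) (nat_lit 5) (nat_lit 476) (nat_lit 430) (nat_lit 294)))) (XT.nd (nat_lit 156) (nat_lit 608) (nat_lit 0) (XT.nd (nat_lit 78) (nat_lit 0) (nat_lit 0) (XT.lf (nat_lit 0) (nat_lit 7111221401) (nat_lit 380) (nat_lit 334746485) (nat_lit 456) (nat_lit 14005889836) (nat_lit 203) (nat_lit 5) (nat_lit 208) (nat_lit 5) (nat_lit 209) (nat_lit 5) (nat_lit 477) (nat_lit 430) (nat_lit 293)) (XT.lf (nat_lit 0) (nat_lit 12116644423) (nat_lit 456) (nat_lit 1471387449) (nat_lit 76) (nat_lit 8244211876) (nat_lit 203) (nat_lit 5) (nat_lit 209) (nat_lit 5) (nat_lit 204) (nat_lit 5) (nat_lit 478) (nat_lit 430) (nat_lit 292))) (XT.nd (nat_lit 78) (nat_lit 304) (nat_lit 0) (XT.lf (nat_lit 0) (nat_lit 12002287407) (nat_lit 304) (nat_lit 5035044482) (nat_lit 380) (nat_lit 5183413006) (nat_lit 199) (nat_lit 5) (nat_lit 203) (nat_lit 5) (nat_lit 204) (nat_lit 5) (nat_lit 479) (nat_lit 430) (nat_lit 291)) (XT.lf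 (nat_lit 0) (nat_lit 3305301360) (nat_lit 304) (nat_lit 18874703190) (nat_lit 380) (nat_lit 438665841) (nat_lit 195) (nat_lit 5) (nat_lit 199) (nat_lit 5) (nat_lit 200) (nat_lit 5) (nat_lit 480) (nat_lit 430) (nat_lit 290))))) (XT.nd (nat_lit 312) (nat_lit 912) (nat_lit 0) (XT.nd (nat_lit 156) (nat_lit 304) (nat_lit 0) (XT.nd (nat_lit 78) (nat_lit 304) (nat_lit 0) (XT.lf (nat_lit 0) (nat_lit 4507030461) (nat_lit 380) (nat_lit 5687525573) (nat_lit 76) (nat_lit 12828332683) (nat_lit 194) (nat_lit 5) (nat_lit 199) (nat_lit 5) (nat_lit 195) (nat_lit 5) (nat_lit 481) (nat_lit 430) (nat_lit 289)) (XT.lf (nat_lit 0) (nat_lit 8496217194) (nat_lit 304) (nat_lit 1169337979) (nat_lit 380) (nat_lit 13771350125) (nat_lit 190) (nat_lit 5) (nat_lit 194) (nat_lit 5) (nat_lit 195) (nat_lit 5) (nat_lit 482) (nat_lit 430) (nat_lit 288))) (XT.nd (nat_lit 78) (nat_lit 304) (nat_lit 0) (XT.lf (nat_lit 0) (nat_lit 15106648190) (nat_lit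 380) (nat_lit 730659515) (nat_lit 76) (nat_lit 8022200519) (nat_lit 190) (nat_lit 5) (nat_lit 195) (nat_lit 5) (nat_lit 191) (nat_lit 5) (nat_lit 483) (nat_lit 430) (nat_lit 287)) (XT.lf (nat_lit 0) (nat_lit 14158319495) (nat_lit 304) (nat_lit 6692265352) (nat_lit 380) (nat_lit 3440016283) (nat_lit 186) (nat_lit 5) (nat_lit 190) (nat_lit 5) (nat_lit 191) (nat_lit 5) (nat_lit 484) (nat_lit 430) (nat_lit 286)))) (XT.nd (nat_lit 156) (nat_lit 532) (nat_lit 0) (XT.nd (nat_lit 78) (nat_lit 0) (nat_lit 0) (XT.lf (nat_lit 0) (nat_lit 2065386082) (nat_lit 380) (nat_lit 19922336797) (nat_lit 76) (nat_lit 2744133230) (nat_lit 181) (nat_lit 5) (nat_lit 186) (nat_lit 5) (nat_lit 182) (nat_lit 5) (nat_lit 485) (nat_lit 430) (nat_lit 285)) (XT.lf (nat_lit 0) (nat_lit 7828454451) (nat_lit 380) (nat_lit 4889509808) (nat_lit 76) (nat_lit 12462513546) (nat_lit 181) (nat_lit 5) (nat_lit 186) (nat_lit 5) (nat_lit 182) (nat_lit 5) (nat_lit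 486) (nat_lit 430) (nat_lit 284))) (XT.nd (nat_lit 78) (nat_lit 228) (nat_lit 0) (XT.lf (nat_lit 0) (nat_lit 10793094695) (nat_lit 304) (nat_lit 3067356987) (nat_lit 380) (nat_lit 11779225558) (nat_lit 177) (nat_lit 5) (nat_lit 181) (nat_lit 5) (nat_lit 182) (nat_lit 5) (nat_lit 487) (nat_lit 430) (nat_lit 283)) (XT.lf (nat_lit 0) (nat_lit 873841400) (nat_lit 228) (nat_lit 19316255595) (nat_lit 304) (nat_lit 5919055205) (nat_lit 174) (nat_lit 5) (nat_lit 177) (nat_lit 5) (nat_lit 178) (nat_lit 5) (nat_lit 488) (nat_lit 430) (nat_lit 282)))))) (XT.nd (nat_lit 624) (nat_lit 1216) (nat_lit 0) (XT.nd (nat_lit 312) (nat_lit 532) (nat_lit 0) (XT.nd (nat_lit 156) (nat_lit 228) (nat_lit 0) (XT.nd (nat_lit 78) (nat_lit 304) (nat_lit 0) (XT.lf (nat_lit 0) (nat_lit 288808624) (nat_lit 304) (nat_lit 9262900771) (nat_lit 76) (nat_lit 17035743378) (nat_lit 173) (nat_lit 5) (nat_lit 177) (nat_lit 5) (nat_lit 174) (nat_lit 5) (nat_lit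 489) (nat_lit 430) (nat_lit 281)) (XT.lf (nat_lit 0) (nat_lit 6632438916) (nat_lit 380) (nat_lit 19822395744) (nat_lit 76) (nat_lit 621454808) (nat_lit 169) (nat_lit 5) (nat_lit 174) (nat_lit 5) (nat_lit 170) (nat_lit 5) (nat_lit 490) (nat_lit 430) (nat_lit 280))) (XT.nd (nat_lit 78) (nat_lit 228) (nat_lit 0) (XT.lf (nat_lit 0) (nat_lit 13348093159) (nat_lit 380) (nat_lit 3228054876) (nat_lit 76) (nat_lit 10998191945) (nat_lit 169) (nat_lit 5) (nat_lit 174) (nat_lit 5) (nat_lit 170) (nat_lit 5) (nat_lit 491) (nat_lit 430) (nat_lit 279)) (XT.lf (nat_lit 0) (nat_lit 14128508804) (nat_lit 228) (nat_lit 6265413704) (nat_lit 304) (nat_lit 7689548496) (nat_lit 166) (nat_lit 5) (nat_lit 169) (nat_lit 5) (nat_lit 170) (nat_lit 5) (nat_lit 492) (nat_lit 430) (nat_lit 278)))) (XT.nd (nat_lit 156) (nat_lit 228) (nat_lit 0) (XT.nd (nat_lit 78) (nat_lit 76) (nat_lit 0) (XT.lf (nat_lit 0) (nat_lit 3479391754) (nat_lit 228) (nat_lit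 24272913010) (nat_lit 304) (nat_lit 852536012) (nat_lit 163) (nat_lit 5) (nat_lit 166) (nat_lit 5) (nat_lit 167) (nat_lit 5) (nat_lit 493) (nat_lit 430) (nat_lit 277)) (XT.lf (nat_lit 0) (nat_lit 6266133342) (nat_lit 304) (nat_lit 7549105064) (nat_lit 76) (nat_lit 15318908612) (nat_lit 162) (nat_lit 5) (nat_lit 166) (nat_lit 5) (nat_lit 163) (nat_lit 5) (nat_lit 494) (nat_lit 430) (nat_lit 276))) (XT.nd (nat_lit 78) (nat_lit 0) (nat_lit 0) (XT.lf (nat_lit 0) (nat_lit 10744694586) (nat_lit 228) (nat_lit 2933002929) (nat_lit 304) (nat_lit 15998487751) (nat_lit 159) (nat_lit 5) (nat_lit 162) (nat_lit 5) (nat_lit 163) (nat_lit 5) (nat_lit 495) (nat_lit 430) (nat_lit 275)) (XT.lf (nat_lit 0) (nat_lit 21461383442) (nat_lit 304) (nat_lit 581560130) (nat_lit 76) (nat_lit 8187047984) (nat_lit 159) (nat_lit 5) (nat_lit 163) (nat_lit 5) (nat_lit 160) (nat_lit 5) (nat_lit 496) (nat_lit 430) (nat_lit 274))))) (XT.nd (nat_lit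 312) (nat_lit 456) (nat_lit 0) (XT.nd (nat_lit 156) (nat_lit 228) (nat_lit 0) (XT.nd (nat_lit 78) (nat_lit 304) (nat_lit 0) (XT.lf (nat_lit 0) (nat_lit 18642827085) (nat_lit 228) (nat_lit 11037433525) (nat_lit 304) (nat_lit 1114101141) (nat_lit 156) (nat_lit 5) (nat_lit 159) (nat_lit 5) (nat_lit 160) (nat_lit 5) (nat_lit 497) (nat_lit 430) (nat_lit 273)) (XT.lf (nat_lit 0) (nat_lit 6710202593) (nat_lit 304) (nat_lit 24232046213) (nat_lit 76) (nat_lit 429293957) (nat_lit 152) (nat_lit 5) (nat_lit 156) (nat_lit 5) (nat_lit 153) (nat_lit 5) (nat_lit 498) (nat_lit 430) (nat_lit 272))) (XT.nd (nat_lit 78) (nat_lit 228) (nat_lit 0) (XT.lf (nat_lit 0) (nat_lit 14973551923) (nat_lit 304) (nat_lit 4836393527) (nat_lit 76) (nat_lit 12148961694) (nat_lit 152) (nat_lit 5) (nat_lit 156) (nat_lit 5) (nat_lit 153) (nat_lit 5) (nat_lit 499) (nat_lit 430) (nat_lit 271)) (XT.lf (nat_lit 0) (nat_lit 15431711741) (nat_lit 228) (nat_lit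 8195123899) (nat_lit 304) (nat_lit 8932795920) (nat_lit 149) (nat_lit 5) (nat_lit 152) (nat_lit 5) (nat_lit 153) (nat_lit 5) (nat_lit 500) (nat_lit 430) (nat_lit 270)))) (XT.nd (nat_lit 156) (nat_lit 228) (nat_lit 0) (XT.nd (nat_lit 78) (nat_lit 76) (nat_lit 0) (XT.lf (nat_lit 0) (nat_lit 3246139468) (nat_lit 152) (nat_lit 29404063166) (nat_lit 228) (nat_lit 524860648) (nat_lit 147) (nat_lit 5) (nat_lit 149) (nat_lit 5) (nat_lit 150) (nat_lit 5) (nat_lit 501) (nat_lit 430) (nat_lit 269)) (XT.lf (nat_lit 0) (nat_lit 8226132007) (nat_lit 228) (nat_lit 9392905641) (nat_lit 76) (nat_lit 16180087313) (nat_lit 146) (nat_lit 5) (nat_lit 149) (nat_lit 5) (nat_lit 147) (nat_lit 5) (nat_lit 502) (nat_lit 430) (nat_lit 268))) (XT.nd (nat_lit 78) (nat_lit 0) (nat_lit 0) (XT.lf (nat_lit 0) (nat_lit 11977419385) (nat_lit 228) (nat_lit 5360759843) (nat_lit 304) (nat_lit 17100301251) (nat_lit 143) (nat_lit 5) (nat_lit 146) (nat_lit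 5) (nat_lit 147) (nat_lit 5) (nat_lit 503) (nat_lit 430) (nat_lit 267)) (XT.lf (nat_lit 0) (nat_lit 26883192714) (nat_lit 304) (nat_lit 993886630) (nat_lit 76) (nat_lit 7215149278) (nat_lit 143) (nat_lit 5) (nat_lit 147) (nat_lit 5) (nat_lit 144) (nat_lit 5) (nat_lit 504) (nat_lit 430) (nat_lit 266))))))) (XT.nd (nat_lit 1248) (nat_lit 1520) (nat_lit 0) (XT.nd (nat_lit 624) (nat_lit 1140) (nat_lit 0) (XT.nd (nat_lit 312) (nat_lit 456) (nat_lit 0) (XT.nd (nat_lit 156) (nat_lit 152) (nat_lit 0) (XT.nd (nat_lit 78) (nat_lit 228) (nat_lit 0) (XT.lf (nat_lit 0) (nat_lit 1186604334) (nat_lit 228) (nat_lit 14296404081) (nat_lit 76) (nat_lit 20274622588) (nat_lit 140) (nat_lit 5) (nat_lit 143) (nat_lit 5) (nat_lit 141) (nat_lit 5) (nat_lit 505) (nat_lit 430) (nat_lit 265)) (XT.lf (nat_lit 0) (nat_lit 8236975006) (nat_lit 228) (nat_lit 2545630359) (nat_lit 304) (nat_lit 25655447306) (nat_lit 137) (nat_lit 5) (nat_lit 140)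 (nat_lit 5) (nat_lit 141) (nat_lit 5) (nat_lit 506) (nat_lit 430) (nat_lit 264))) (XT.nd (nat_lit 78) (nat_lit 152) (nat_lit 0) (XT.lf (nat_lit 0) (nat_lit 20910108404) (nat_lit 304) (nat_lit 5510278459) (nat_lit 76) (nat_lit 10711191560) (nat_lit 137) (nat_lit 5) (nat_lit 141) (nat_lit 5) (nat_lit 138) (nat_lit 5) (nat_lit 507) (nat_lit 430) (nat_lit 263)) (XT.lf (nat_lit 0) (nat_lit 18181023430) (nat_lit 152) (nat_lit 13354757559) (nat_lit 228) (nat_lit 6304298713) (nat_lit 135) (nat_lit 5) (nat_lit 137) (nat_lit 5) (nat_lit 138) (nat_lit 5) (nat_lit 508) (nat_lit 430) (nat_lit 262)))) (XT.nd (nat_lit 156) (nat_lit 152) (nat_lit 0) (XT.nd (nat_lit 78) (nat_lit 0) (nat_lit 0) (XT.lf (nat_lit 0) (nat_lit 3926936384) (nat_lit 304) (nat_lit 34407162732) (nat_lit 76) (nat_lit 231823686) (nat_lit 131) (nat_lit 5) (nat_lit 135) (nat_lit 5) (nat_lit 132) (nat_lit 5) (nat_lit 509) (nat_lit 430) (nat_lit 261)) (XT.lf (nat_lit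 0) (nat_lit 14665525738) (nat_lit 304) (nat_lit 10419933076) (nat_lit 76) (nat_lit 14216396078) (nat_lit 131) (nat_lit 5) (nat_lit 135) (nat_lit 5) (nat_lit 132) (nat_lit 5) (nat_lit 510) (nat_lit 430) (nat_lit 260))) (XT.nd (nat_lit 78) (nat_lit 0) (nat_lit 0) (XT.lf (nat_lit 0) (nat_lit 14561507472) (nat_lit 152) (nat_lit 11299320579) (nat_lit 228) (nat_lit 14195000314) (nat_lit 129) (nat_lit 5) (nat_lit 131) (nat_lit 5) (nat_lit 132) (nat_lit 5) (nat_lit 511) (nat_lit 430) (nat_lit 259)) (XT.lf (nat_lit 0) (nat_lit 37520741127) (nat_lit 228) (nat_lit 361777937) (nat_lit 76) (nat_lit 2946039506) (nat_lit 129) (nat_lit 5) (nat_lit 132) (nat_lit 5) (nat_lit 130) (nat_lit 5) (nat_lit 512) (nat_lit 430) (nat_lit 258))))) (XT.nd (nat_lit 312) (nat_lit 532) (nat_lit 0) (XT.nd (nat_lit 156) (nat_lit 228) (nat_lit 0) (XT.nd (nat_lit 78) (nat_lit 152) (nat_lit 0) (XT.lf (nat_lit 0) (nat_lit 8110923027) (nat_lit 228) (nat_lit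 15784173056) (nat_lit 76) (nat_lit 17716318268) (nat_lit 126) (nat_lit 5) (nat_lit 129) (nat_lit 5) (nat_lit 127) (nat_lit 5) (nat_lit 513) (nat_lit 430) (nat_lit 257)) (XT.lf (nat_lit 0) (nat_lit 10555576789) (nat_lit 152) (nat_lit 9350099407) (nat_lit 228) (nat_lit 22508099132) (nat_lit 124) (nat_lit 5) (nat_lit 126) (nat_lit 5) (nat_lit 127) (nat_lit 5) (nat_lit 514) (nat_lit 430) (nat_lit 256))) (XT.nd (nat_lit 78) (nat_lit 228) (nat_lit 0) (XT.lf (nat_lit 0) (nat_lit 32264172874) (nat_lit 228) (nat_lit 5291394464) (nat_lit 76) (nat_lit 5678342836) (nat_lit 124) (nat_lit 5) (nat_lit 127) (nat_lit 5) (nat_lit 125) (nat_lit 5) (nat_lit 515) (nat_lit 430) (nat_lit 255)) (XT.lf (nat_lit 0) (nat_lit 1202853007) (nat_lit 228) (nat_lit 21673321112) (nat_lit 76) (nat_lit 21193033364) (nat_lit 121) (nat_lit 5) (nat_lit 124) (nat_lit 5) (nat_lit 122) (nat_lit 5) (nat_lit 516) (nat_lit 430) (nat_lit 254)))) (XT.nd (nat_lit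 156) (nat_lit 380) (nat_lit 0) (XT.nd (nat_lit 78) (nat_lit 0) (nat_lit 0) (XT.lf (nat_lit 0) (nat_lit 6095010139) (nat_lit 152) (nat_lit 7532645974) (nat_lit 228) (nat_lit 31295423845) (nat_lit 119) (nat_lit 5) (nat_lit 121) (nat_lit 5) (nat_lit 122) (nat_lit 5) (nat_lit 517) (nat_lit 430) (nat_lit 253)) (XT.lf (nat_lit 0) (nat_lit 26720722863) (nat_lit 228) (nat_lit 10746104498) (nat_lit 76) (nat_lit 8326875721) (nat_lit 119) (nat_lit 5) (nat_lit 122) (nat_lit 5) (nat_lit 120) (nat_lit 5) (nat_lit 518) (nat_lit 430) (nat_lit 252))) (XT.nd (nat_lit 78) (nat_lit 228) (nat_lit 0) (XT.lf (nat_lit 0) (nat_lit 18455028089) (nat_lit 152) (nat_lit 21998668085) (nat_lit 228) (nat_lit 6229335348) (nat_lit 117) (nat_lit 5) (nat_lit 119) (nat_lit 5) (nat_lit 120) (nat_lit 5) (nat_lit 519) (nat_lit 430) (nat_lit 251)) (XT.lf (nat_lit 0) (nat_lit 1100974628) (nat_lit 152) (nat_lit 5877371570) (nat_lit 228) (nat_lit 40615215682)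 (nat_lit 114) (nat_lit 5) (nat_lit 116) (nat_lit 5) (nat_lit 117) (nat_lit 5) (nat_lit 520) (nat_lit 430) (nat_lit 250)))))) (XT.nd (nat_lit 624) (nat_lit 684) (nat_lit 0) (XT.nd (nat_lit 312) (nat_lit 456) (nat_lit 0) (XT.nd (nat_lit 156) (nat_lit 228) (nat_lit 0) (XT.nd (nat_lit 78) (nat_lit 152) (nat_lit 0) (XT.lf (nat_lit 0) (nat_lit 20843206464) (nat_lit 228) (nat_lit 16810871534) (nat_lit 76) (nat_lit 10863895354) (nat_lit 114) (nat_lit 5) (nat_lit 117) (nat_lit 5) (nat_lit 115) (nat_lit 5) (nat_lit 521) (nat_lit 430) (nat_lit 249)) (XT.lf (nat_lit 0) (nat_lit 13967044906) (nat_lit 152) (nat_lit 21344722220) (nat_lit 228) (nat_lit 14152717458) (nat_lit 112) (nat_lit 5) (nat_lit 114) (nat_lit 5) (nat_lit 115) (nat_lit 5) (nat_lit 522) (nat_lit 430) (nat_lit 248))) (XT.nd (nat_lit 78) (nat_lit 228) (nat_lit 0) (XT.lf (nat_lit 0) (nat_lit 46004383297) (nat_lit 152) (nat_lit 4375116049) (nat_lit 228) (nat_lit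 54938415) (nat_lit 112) (nat_lit 5) (nat_lit 114) (nat_lit 5) (nat_lit 115) (nat_lit 5) (nat_lit 523) (nat_lit 430) (nat_lit 247)) (XT.lf (nat_lit 0) (nat_lit 14577747107) (nat_lit 228) (nat_lit 23583666435) (nat_lit 76) (nat_lit 13256076851) (nat_lit 109) (nat_lit 5) (nat_lit 112) (nat_lit 5) (nat_lit 110) (nat_lit 5) (nat_lit 524) (nat_lit 430) (nat_lit 246)))) (XT.nd (nat_lit 156) (nat_lit 304) (nat_lit 0) (XT.nd (nat_lit 78) (nat_lit 0) (nat_lit 0) (XT.lf (nat_lit 0) (nat_lit 8847702672) (nat_lit 152) (nat_lit 20969616627) (nat_lit 228) (nat_lit 22607628724) (nat_lit 107) (nat_lit 5) (nat_lit 109) (nat_lit 5) (nat_lit 110) (nat_lit 5) (nat_lit 525) (nat_lit 430) (nat_lit 245)) (XT.lf (nat_lit 0) (nat_lit 42727156081) (nat_lit 152) (nat_lit 3020588696) (nat_lit 228) (nat_lit 7707874666) (nat_lit 107) (nat_lit 5) (nat_lit 109) (nat_lit 5) (nat_lit 110) (nat_lit 5) (nat_lit 526) (nat_lit 430) (nat_lit 244))) (XT.nd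 (nat_lit 78) (nat_lit 152) (nat_lit 0) (XT.lf (nat_lit 0) (nat_lit 7862745706) (nat_lit 152) (nat_lit 31177536665) (nat_lit 76) (nat_lit 15463537724) (nat_lit 105) (nat_lit 5) (nat_lit 107) (nat_lit 5) (nat_lit 106) (nat_lit 5) (nat_lit 527) (nat_lit 430) (nat_lit 243)) (XT.lf (nat_lit 0) (nat_lit 2985176030) (nat_lit 152) (nat_lit 20924018743) (nat_lit 228) (nat_lit 31667073645) (nat_lit 103) (nat_lit 5) (nat_lit 105) (nat_lit 5) (nat_lit 106) (nat_lit 5) (nat_lit 528) (nat_lit 430) (nat_lit 242))))) (XT.nd (nat_lit 312) (nat_lit 380) (nat_lit 0) (XT.nd (nat_lit 156) (nat_lit 152) (nat_lit 0) (XT.nd (nat_lit 78) (nat_lit 152) (nat_lit 0) (XT.lf (nat_lit 0) (nat_lit 38803799644) (nat_lit 152) (nat_lit 1943739076) (nat_lit 228) (nat_lit 15924036470) (nat_lit 103) (nat_lit 5) (nat_lit 105) (nat_lit 5) (nat_lit 106) (nat_lit 5) (nat_lit 529) (nat_lit 430) (nat_lit 241)) (XT.lf (nat_lit 0) (nat_lit 627687208) (nat_lit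 152) (nat_lit 39723002773) (nat_lit 76) (nat_lit 17438704833) (nat_lit 101) (nat_lit 5) (nat_lit 103) (nat_lit 5) (nat_lit 102) (nat_lit 5) (nat_lit 530) (nat_lit 430) (nat_lit 240))) (XT.nd (nat_lit 78) (nat_lit 152) (nat_lit 0) (XT.lf (nat_lit 0) (nat_lit 17553133076) (nat_lit 152) (nat_lit 3677116452) (nat_lit 76) (nat_lit 37699852789) (nat_lit 101) (nat_lit 5) (nat_lit 103) (nat_lit 5) (nat_lit 102) (nat_lit 5) (nat_lit 531) (nat_lit 430) (nat_lit 239)) (XT.lf (nat_lit 0) (nat_lit 34108006073) (nat_lit 152) (nat_lit 1202093535) (nat_lit 228) (nat_lit 24785218754) (nat_lit 99) (nat_lit 5) (nat_lit 101) (nat_lit 5) (nat_lit 102) (nat_lit 5) (nat_lit 532) (nat_lit 430) (nat_lit 238)))) (XT.nd (nat_lit 156) (nat_lit 228) (nat_lit 0) (XT.nd (nat_lit 78) (nat_lit 76) (nat_lit 0) (XT.lf (nat_lit 0) (nat_lit 11843967682) (nat_lit 76) (nat_lit 42089803787) (nat_lit 152) (nat_lit 7351699564) (nat_lit 98) (nat_lit 5) (nat_lit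 99) (nat_lit 5) (nat_lit 100) (nat_lit 4) (nat_lit 533) (nat_lit 430) (nat_lit 237)) (XT.lf (nat_lit 0) (nat_lit 10670715848) (nat_lit 152) (nat_lit 11284723604) (nat_lit 76) (nat_lit 40544645794) (nat_lit 97) (nat_lit 5) (nat_lit 99) (nat_lit 5) (nat_lit 98) (nat_lit 5) (nat_lit 534) (nat_lit 430) (nat_lit 236))) (XT.nd (nat_lit 78) (nat_lit 76) (nat_lit 0) (XT.lf (nat_lit 0) (nat_lit 28492457789) (nat_lit 152) (nat_lit 863498115) (nat_lit 228) (nat_lit 34384900916) (nat_lit 95) (nat_lit 5) (nat_lit 97) (nat_lit 5) (nat_lit 98) (nat_lit 5) (nat_lit 535) (nat_lit 430) (nat_lit 235)) (XT.lf (nat_lit 0) (nat_lit 4558630073) (nat_lit 76) (nat_lit 44398593670) (nat_lit 152) (nat_lit 16050963715) (nat_lit 94) (nat_lit 5) (nat_lit 95) (nat_lit 5) (nat_lit 96) (nat_lit 4) (nat_lit 536) (nat_lit 430) (nat_lit 234))))))))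
noncomputable def xc162 : XT := (XT.nd (nat_lit 55536) (nat_lit 0) (nat_lit 9500) (XT.nd (nat_lit 54288) (nat_lit 0) (nat_lit 19304) (XT.nd (nat_lit 546) (nat_lit 608) (nat_lit 0) (XT.nd (nat_lit 234) (nat_lit 380) (nat_lit 0) (XT.nd (nat_lit 78) (nat_lit 152) (nat_lit 0) (XT.lf (nat_lit 0) (nat_lit 3141765922) (nat_lit 152) (nat_lit 20067257151) (nat_lit 76) (nat_lit 43092776311) (nat_lit 93) (nat_lit 5) (nat_lit 95) (nat_lit 5) (nat_lit 94) (nat_lit 5) (nat_lit 537) (nat_lit 430) (nat_lit 233)) (XT.nd (nat_lit 78) (nat_lit 0) (nat_lit 0) (XT.lf (nat_lit 0) (nat_lit 21785403430) (nat_lit 152) (nat_lit 1007838256) (nat_lit 228) (nat_lit 44830043214) (nat_lit 91) (nat_lit 5) (nat_lit 93) (nat_lit 5) (nat_lit 94) (nat_lit 5) (nat_lit 538) (nat_lit 430) (nat_lit 232)) (XT.lf (nat_lit 0) (nat_lit 43445201311) (nat_lit 228) (nat_lit 3892774348) (nat_lit 76) (nat_lit 21634111165) (nat_lit 91) (nat_lit 5) (nat_lit 94)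 (nat_lit 5) (nat_lit 92) (nat_lit 4) (nat_lit 539) (nat_lit 430) (nat_lit 231)))) (XT.nd (nat_lit 156) (nat_lit 76) (nat_lit 0) (XT.nd (nat_lit 78) (nat_lit 228) (nat_lit 0) (XT.lf (nat_lit 0) (nat_lit 40075630790) (nat_lit 76) (nat_lit 25032578182) (nat_lit 152) (nat_lit 5241399181) (nat_lit 90) (nat_lit 5) (nat_lit 91) (nat_lit 5) (nat_lit 92) (nat_lit 4) (nat_lit 540) (nat_lit 430) (nat_lit 230)) (XT.lf (nat_lit 0) (nat_lit 13786685197) (nat_lit 152) (nat_lit 1729035108) (nat_lit 228) (nat_lit 56243165712) (nat_lit 87) (nat_lit 5) (nat_lit 89) (nat_lit 5) (nat_lit 90) (nat_lit 5) (nat_lit 541) (nat_lit 430) (nat_lit 229))) (XT.nd (nat_lit 78) (nat_lit 76) (nat_lit 0) (XT.lf (nat_lit 0) (nat_lit 37309340610) (nat_lit 228) (nat_lit 13687655297) (nat_lit 76) (nat_lit 22196315457) (nat_lit 87) (nat_lit 5) (nat_lit 90) (nat_lit 5) (nat_lit 88) (nat_lit 4) (nat_lit 542) (nat_lit 430) (nat_lit 228)) (XT.lf (nat_lit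 0) (nat_lit 32536305667) (nat_lit 76) (nat_lit 27546741832) (nat_lit 152) (nat_lit 14577933657) (nat_lit 86) (nat_lit 5) (nat_lit 87) (nat_lit 5) (nat_lit 88) (nat_lit 4) (nat_lit 543) (nat_lit 430) (nat_lit 227))))) (XT.nd (nat_lit 312) (nat_lit 304) (nat_lit 0) (XT.nd (nat_lit 156) (nat_lit 76) (nat_lit 0) (XT.nd (nat_lit 78) (nat_lit 0) (nat_lit 0) (XT.lf (nat_lit 0) (nat_lit 4263129957) (nat_lit 152) (nat_lit 3137362949) (nat_lit 228) (nat_lit 68764754474) (nat_lit 83) (nat_lit 5) (nat_lit 85) (nat_lit 5) (nat_lit 86) (nat_lit 5) (nat_lit 544) (nat_lit 430) (nat_lit 226)) (XT.lf (nat_lit 0) (nat_lit 30382788564) (nat_lit 228) (nat_lit 25162776260) (nat_lit 76) (nat_lit 22145621161) (nat_lit 83) (nat_lit 5) (nat_lit 86) (nat_lit 5) (nat_lit 84) (nat_lit 4) (nat_lit 545) (nat_lit 430) (nat_lit 225))) (XT.nd (nat_lit 78) (nat_lit 0) (nat_lit 0) (XT.lf (nat_lit 0) (nat_lit 23397540099) (nat_lit 76) (nat_lit 30909503270)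 (nat_lit 152) (nat_lit 24948284690) (nat_lit 82) (nat_lit 5) (nat_lit 83) (nat_lit 5) (nat_lit 84) (nat_lit 4) (nat_lit 546) (nat_lit 430) (nat_lit 224)) (XT.lf (nat_lit 0) (nat_lit 73923831681) (nat_lit 76) (nat_lit 5275842243) (nat_lit 152) (nat_lit 1659201051) (nat_lit 82) (nat_lit 5) (nat_lit 83) (nat_lit 5) (nat_lit 84) (nat_lit 4) (nat_lit 547) (nat_lit 430) (nat_lit 223)))) (XT.nd (nat_lit 156) (nat_lit 0) (nat_lit 0) (XT.nd (nat_lit 78) (nat_lit 76) (nat_lit 0) (XT.lf (nat_lit 0) (nat_lit 22522705778) (nat_lit 228) (nat_lit 38606176588) (nat_lit 76) (nat_lit 21356311041) (nat_lit 79) (nat_lit 5) (nat_lit 82) (nat_lit 5) (nat_lit 80) (nat_lit 4) (nat_lit 548) (nat_lit 430) (nat_lit 222)) (XT.lf (nat_lit 0) (nat_lit 12366898756) (nat_lit 76) (nat_lit 35268287801) (nat_lit 152) (nat_lit 36517468070) (nat_lit 78) (nat_lit 5) (nat_lit 79) (nat_lit 5) (nat_lit 80) (nat_lit 4) (nat_lit 549) (nat_lit 430) (nat_lit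 221))) (XT.nd (nat_lit 53196) (nat_lit 0) (nat_lit 20216) (XT.lf (nat_lit 0) (nat_lit 65654092461) (nat_lit 76) (nat_lit 8233459181) (nat_lit 152) (nat_lit 11970992766) (nat_lit 78) (nat_lit 5) (nat_lit 79) (nat_lit 5) (nat_lit 80) (nat_lit 4) (nat_lit 550) (nat_lit 430) (nat_lit 220)) (XT.lf (nat_lit 0) (nat_lit 509108396) (nat_lit 0) (nat_lit 509108396) (nat_lit 1140) (nat_lit 4270448118) (nat_lit 344) (nat_lit 5) (nat_lit 344) (nat_lit 3) (nat_lit 359) (nat_lit 3) (nat_lit 431) (nat_lit 431) (nat_lit 338)))))) (XT.nd (nat_lit 624) (nat_lit 912) (nat_lit 0) (XT.nd (nat_lit 312) (nat_lit 0) (nat_lit 152) (XT.nd (nat_lit 156) (nat_lit 0) (nat_lit 76) (XT.nd (nat_lit 78) (nat_lit 0) (nat_lit 0) (XT.lf (nat_lit 0) (nat_lit 2729235742) (nat_lit 1140) (nat_lit 4320911894) (nat_lit 1216) (nat_lit 3665944394) (nat_lit 344) (nat_lit 5) (nat_lit 359) (nat_lit 3) (nat_lit 360) (nat_lit 5) (nat_lit 432) (nat_lit 431) (nat_lit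 337)) (XT.lf (nat_lit 76) (nat_lit 1072202841) (nat_lit 0) (nat_lit 2366681303) (nat_lit 1216) (nat_lit 7420252268) (nat_lit 345) (nat_lit 5) (nat_lit 344) (nat_lit 5) (nat_lit 360) (nat_lit 5) (nat_lit 433) (nat_lit 431) (nat_lit 336))) (XT.nd (nat_lit 78) (nat_lit 0) (nat_lit 0) (XT.lf (nat_lit 0) (nat_lit 4213869730) (nat_lit 1140) (nat_lit 4327293259) (nat_lit 1216) (nat_lit 2463988846) (nat_lit 345) (nat_lit 5) (nat_lit 360) (nat_lit 5) (nat_lit 361) (nat_lit 5) (nat_lit 434) (nat_lit 431) (nat_lit 335)) (XT.lf (nat_lit 76) (nat_lit 1284405386) (nat_lit 0) (nat_lit 3740528978) (nat_lit 1216) (nat_lit 6130229577) (nat_lit 346) (nat_lit 5) (nat_lit 345) (nat_lit 5) (nat_lit 361) (nat_lit 5) (nat_lit 435) (nat_lit 431) (nat_lit 334)))) (XT.nd (nat_lit 156) (nat_lit 0) (nat_lit 0) (XT.nd (nat_lit 78) (nat_lit 0) (nat_lit 0) (XT.lf (nat_lit 0) (nat_lit 5893715511) (nat_lit 1140) (nat_lit 4181204966) (nat_lit 1216)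 (nat_lit 1233755471) (nat_lit 346) (nat_lit 5) (nat_lit 361) (nat_lit 5) (nat_lit 362) (nat_lit 5) (nat_lit 436) (nat_lit 431) (nat_lit 333)) (XT.lf (nat_lit 76) (nat_lit 1660824188) (nat_lit 0) (nat_lit 5159065773) (nat_lit 1216) (nat_lit 4645964500) (nat_lit 347) (nat_lit 5) (nat_lit 346) (nat_lit 5) (nat_lit 362) (nat_lit 5) (nat_lit 437) (nat_lit 431) (nat_lit 332))) (XT.nd (nat_lit 78) (nat_lit 0) (nat_lit 76) (XT.lf (nat_lit 76) (nat_lit 7750373238) (nat_lit 0) (nat_lit 44530307) (nat_lit 1216) (nat_lit 3832214179) (nat_lit 347) (nat_lit 5) (nat_lit 346) (nat_lit 5) (nat_lit 362) (nat_lit 5) (nat_lit 438) (nat_lit 431) (nat_lit 331)) (XT.lf (nat_lit 76) (nat_lit 2208525925) (nat_lit 0) (nat_lit 6641602718) (nat_lit 1216) (nat_lit 2941562393) (nat_lit 348) (nat_lit 5) (nat_lit 347) (nat_lit 5) (nat_lit 363) (nat_lit 5) (nat_lit 439) (nat_lit 431) (nat_lit 330))))) (XT.nd (nat_lit 312) (nat_lit 0) (nat_lit 76)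 (XT.nd (nat_lit 156) (nat_lit 1140) (nat_lit 0) (XT.nd (nat_lit 78) (nat_lit 0) (nat_lit 76) (XT.lf (nat_lit 76) (nat_lit 8541759710) (nat_lit 0) (nat_lit 1414820983) (nat_lit 1216) (nat_lit 2004034702) (nat_lit 348) (nat_lit 5) (nat_lit 347) (nat_lit 5) (nat_lit 363) (nat_lit 5) (nat_lit 440) (nat_lit 431) (nat_lit 329)) (XT.lf (nat_lit 76) (nat_lit 2935656493) (nat_lit 0) (nat_lit 8207568087) (nat_lit 1216) (nat_lit 989973882) (nat_lit 349) (nat_lit 5) (nat_lit 348) (nat_lit 5) (nat_lit 364) (nat_lit 5) (nat_lit 441) (nat_lit 431) (nat_lit 328))) (XT.nd (nat_lit 78) (nat_lit 0) (nat_lit 76) (XT.lf (nat_lit 0) (nat_lit 83191422) (nat_lit 1216) (nat_lit 2788017222) (nat_lit 1292) (nat_lit 9438843142) (nat_lit 332) (nat_lit 5) (nat_lit 348) (nat_lit 5) (nat_lit 349) (nat_lit 5) (nat_lit 442) (nat_lit 431) (nat_lit 327)) (XT.lf (nat_lit 0) (nat_lit 1212990936) (nat_lit 1216) (nat_lit 8651377543) (nat_lit 1292) (nat_lit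 2626218925) (nat_lit 333) (nat_lit 5) (nat_lit 349) (nat_lit 5) (nat_lit 350) (nat_lit 5) (nat_lit 443) (nat_lit 431) (nat_lit 326)))) (XT.nd (nat_lit 156) (nat_lit 0) (nat_lit 76) (XT.nd (nat_lit 78) (nat_lit 0) (nat_lit 76) (XT.lf (nat_lit 0) (nat_lit 2415428953) (nat_lit 1216) (nat_lit 1996147526) (nat_lit 1292) (nat_lit 8263801098) (nat_lit 333) (nat_lit 5) (nat_lit 349) (nat_lit 5) (nat_lit 350) (nat_lit 5) (nat_lit 444) (nat_lit 431) (nat_lit 325)) (XT.lf (nat_lit 0) (nat_lit 3695940755) (nat_lit 1216) (nat_lit 7935478737) (nat_lit 1292) (nat_lit 1233032743) (nat_lit 334) (nat_lit 5) (nat_lit 350) (nat_lit 5) (nat_lit 351) (nat_lit 5) (nat_lit 445) (nat_lit 431) (nat_lit 324))) (XT.nd (nat_lit 78) (nat_lit 0) (nat_lit 0) (XT.lf (nat_lit 0) (nat_lit 5061731840) (nat_lit 1216) (nat_lit 1013862304) (nat_lit 1292) (nat_lit 6982199848) (nat_lit 334) (nat_lit 5) (nat_lit 350) (nat_lit 5) (nat_lit 351) (nat_lit 5)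 (nat_lit 446) (nat_lit 431) (nat_lit 323)) (XT.lf (nat_lit 76) (nat_lit 6223093355) (nat_lit 0) (nat_lit 288551831) (nat_lit 1292) (nat_lit 6743997112) (nat_lit 335) (nat_lit 5) (nat_lit 334) (nat_lit 5) (nat_lit 351) (nat_lit 5) (nat_lit 447) (nat_lit 431) (nat_lit 322))))))) (XT.nd (nat_lit 1248) (nat_lit 3952) (nat_lit 0) (XT.nd (nat_lit 624) (nat_lit 2736) (nat_lit 0) (XT.nd (nat_lit 312) (nat_lit 1292) (nat_lit 0) (XT.nd (nat_lit 156) (nat_lit 836) (nat_lit 0) (XT.nd (nat_lit 78) (nat_lit 0) (nat_lit 0) (XT.lf (nat_lit 0) (nat_lit 173455878) (nat_lit 1216) (nat_lit 7881839654) (nat_lit 1292) (nat_lit 5402624065) (nat_lit 319) (nat_lit 5) (nat_lit 335) (nat_lit 5) (nat_lit 336) (nat_lit 5) (nat_lit 448) (nat_lit 431) (nat_lit 321)) (XT.lf (nat_lit 0) (nat_lit 7722900138) (nat_lit 1216) (nat_lit 1980248317) (nat_lit 1292) (nat_lit 3961380678) (nat_lit 319) (nat_lit 5) (nat_lit 335) (nat_lit 5) (nat_lit 336) (nat_lit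 5) (nat_lit 449) (nat_lit 431) (nat_lit 320))) (XT.nd (nat_lit 78) (nat_lit 0) (nat_lit 0) (XT.lf (nat_lit 0) (nat_lit 1599237957) (nat_lit 836) (nat_lit 9840500185) (nat_lit 912) (nat_lit 2436420466) (nat_lit 308) (nat_lit 5) (nat_lit 319) (nat_lit 5) (nat_lit 320) (nat_lit 5) (nat_lit 450) (nat_lit 431) (nat_lit 319)) (XT.lf (nat_lit 0) (nat_lit 9454206276) (nat_lit 836) (nat_lit 3838480991) (nat_lit 912) (nat_lit 799522518) (nat_lit 308) (nat_lit 5) (nat_lit 319) (nat_lit 5) (nat_lit 320) (nat_lit 5) (nat_lit 451) (nat_lit 431) (nat_lit 318)))) (XT.nd (nat_lit 156) (nat_lit 608) (nat_lit 0) (XT.nd (nat_lit 78) (nat_lit 0) (nat_lit 0) (XT.lf (nat_lit 0) (nat_lit 908709975) (nat_lit 684) (nat_lit 11065339732) (nat_lit 76) (nat_lit 2339251998) (nat_lit 299) (nat_lit 5) (nat_lit 308) (nat_lit 5) (nat_lit 300) (nat_lit 5) (nat_lit 452) (nat_lit 431) (nat_lit 317)) (XT.lf (nat_lit 0) (nat_lit 2722876411) (nat_lit 684)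 (nat_lit 3134551430) (nat_lit 76) (nat_lit 8681238973) (nat_lit 299) (nat_lit 5) (nat_lit 308) (nat_lit 5) (nat_lit 300) (nat_lit 5) (nat_lit 453) (nat_lit 431) (nat_lit 316))) (XT.nd (nat_lit 78) (nat_lit 0) (nat_lit 0) (XT.lf (nat_lit 0) (nat_lit 4631311627) (nat_lit 684) (nat_lit 9654125059) (nat_lit 76) (nat_lit 484161471) (nat_lit 291) (nat_lit 5) (nat_lit 300) (nat_lit 5) (nat_lit 292) (nat_lit 5) (nat_lit 454) (nat_lit 431) (nat_lit 315)) (XT.lf (nat_lit 0) (nat_lit 6673120822) (nat_lit 684) (nat_lit 1401560935) (nat_lit 76) (nat_lit 6930492634) (nat_lit 291) (nat_lit 5) (nat_lit 300) (nat_lit 5) (nat_lit 292) (nat_lit 5) (nat_lit 455) (nat_lit 431) (nat_lit 314))))) (XT.nd (nat_lit 312) (nat_lit 988) (nat_lit 0) (XT.nd (nat_lit 156) (nat_lit 608) (nat_lit 0) (XT.nd (nat_lit 78) (nat_lit 608) (nat_lit 0) (XT.lf (nat_lit 0) (nat_lit 7225994077) (nat_lit 532) (nat_lit 1606214358) (nat_lit 608) (nat_lit 6413929313)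 (nat_lit 284) (nat_lit 5) (nat_lit 291) (nat_lit 5) (nat_lit 292) (nat_lit 5) (nat_lit 456) (nat_lit 431) (nat_lit 313)) (XT.lf (nat_lit 0) (nat_lit 596240282) (nat_lit 608) (nat_lit 10515280014) (nat_lit 684) (nat_lit 4381146705) (nat_lit 276) (nat_lit 5) (nat_lit 284) (nat_lit 5) (nat_lit 285) (nat_lit 5) (nat_lit 457) (nat_lit 431) (nat_lit 312))) (XT.nd (nat_lit 78) (nat_lit 608) (nat_lit 0) (XT.lf (nat_lit 0) (nat_lit 9605585999) (nat_lit 608) (nat_lit 3937435133) (nat_lit 684) (nat_lit 2201057238) (nat_lit 276) (nat_lit 5) (nat_lit 284) (nat_lit 5) (nat_lit 285) (nat_lit 5) (nat_lit 458) (nat_lit 431) (nat_lit 311)) (XT.lf (nat_lit 0) (nat_lit 86565872) (nat_lit 608) (nat_lit 13104841684) (nat_lit 76) (nat_lit 2810322268) (nat_lit 268) (nat_lit 5) (nat_lit 276) (nat_lit 5) (nat_lit 269) (nat_lit 5) (nat_lit 459) (nat_lit 431) (nat_lit 310)))) (XT.nd (nat_lit 156) (nat_lit 456) (nat_lit 0) (XT.nd (nat_lit 78)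 (nat_lit 532) (nat_lit 0) (XT.lf (nat_lit 0) (nat_lit 2487720345) (nat_lit 608) (nat_lit 4011278271) (nat_lit 76) (nat_lit 9764784659) (nat_lit 268) (nat_lit 5) (nat_lit 276) (nat_lit 5) (nat_lit 269) (nat_lit 5) (nat_lit 460) (nat_lit 431) (nat_lit 309)) (XT.lf (nat_lit 0) (nat_lit 5005493175) (nat_lit 608) (nat_lit 11088780264) (nat_lit 76) (nat_lit 438087846) (nat_lit 261) (nat_lit 5) (nat_lit 269) (nat_lit 5) (nat_lit 262) (nat_lit 5) (nat_lit 461) (nat_lit 431) (nat_lit 308))) (XT.nd (nat_lit 78) (nat_lit 456) (nat_lit 0) (XT.lf (nat_lit 0) (nat_lit 7692182794) (nat_lit 608) (nat_lit 1621824305) (nat_lit 76) (nat_lit 7492188485) (nat_lit 261) (nat_lit 5) (nat_lit 269) (nat_lit 5) (nat_lit 262) (nat_lit 5) (nat_lit 462) (nat_lit 431) (nat_lit 307)) (XT.lf (nat_lit 0) (nat_lit 8277450937) (nat_lit 456) (nat_lit 2250065801) (nat_lit 532) (nat_lit 6558687307) (nat_lit 255) (nat_lit 5) (nat_lit 261) (nat_lit 5)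 (nat_lit 262) (nat_lit 5) (nat_lit 463) (nat_lit 431) (nat_lit 306)))))) (XT.nd (nat_lit 624) (nat_lit 1596) (nat_lit 0) (XT.nd (nat_lit 312) (nat_lit 1368) (nat_lit 0) (XT.nd (nat_lit 156) (nat_lit 532) (nat_lit 0) (XT.nd (nat_lit 78) (nat_lit 0) (nat_lit 0) (XT.lf (nat_lit 0) (nat_lit 1092264045) (nat_lit 456) (nat_lit 12419665182) (nat_lit 532) (nat_lit 3860763406) (nat_lit 249) (nat_lit 5) (nat_lit 255) (nat_lit 5) (nat_lit 256) (nat_lit 5) (nat_lit 464) (nat_lit 431) (nat_lit 305)) (XT.lf (nat_lit 0) (nat_lit 11434887085) (nat_lit 456) (nat_lit 5250868667) (nat_lit 532) (nat_lit 979024095) (nat_lit 249) (nat_lit 5) (nat_lit 255) (nat_lit 5) (nat_lit 256) (nat_lit 5) (nat_lit 465) (nat_lit 431) (nat_lit 304))) (XT.nd (nat_lit 78) (nat_lit 0) (nat_lit 0) (XT.lf (nat_lit 0) (nat_lit 2000605645) (nat_lit 532) (nat_lit 13813919134) (nat_lit 76) (nat_lit 2149024036) (nat_lit 242) (nat_lit 5) (nat_lit 249) (nat_lit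 5) (nat_lit 243) (nat_lit 5) (nat_lit 466) (nat_lit 431) (nat_lit 303)) (XT.lf (nat_lit 0) (nat_lit 5154727447) (nat_lit 532) (nat_lit 3376730935) (nat_lit 76) (nat_lit 9736388635) (nat_lit 242) (nat_lit 5) (nat_lit 249) (nat_lit 5) (nat_lit 243) (nat_lit 5) (nat_lit 467) (nat_lit 431) (nat_lit 302)))) (XT.nd (nat_lit 156) (nat_lit 912) (nat_lit 0) (XT.nd (nat_lit 78) (nat_lit 0) (nat_lit 0) (XT.lf (nat_lit 0) (nat_lit 7507174742) (nat_lit 456) (nat_lit 958033771) (nat_lit 532) (nat_lit 10114213954) (nat_lit 236) (nat_lit 5) (nat_lit 242) (nat_lit 5) (nat_lit 243) (nat_lit 5) (nat_lit 468) (nat_lit 431) (nat_lit 301)) (XT.lf (nat_lit 0) (nat_lit 11964944069) (nat_lit 532) (nat_lit 191665153) (nat_lit 76) (nat_lit 6741038116) (nat_lit 236) (nat_lit 5) (nat_lit 243) (nat_lit 5) (nat_lit 237) (nat_lit 5) (nat_lit 469) (nat_lit 431) (nat_lit 300))) (XT.nd (nat_lit 78) (nat_lit 532) (nat_lit 0) (XT.lf (nat_lit 0) (nat_lit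 11211967926) (nat_lit 380) (nat_lit 4464993594) (nat_lit 456) (nat_lit 3545239091) (nat_lit 231) (nat_lit 5) (nat_lit 236) (nat_lit 5) (nat_lit 237) (nat_lit 5) (nat_lit 470) (nat_lit 431) (nat_lit 299)) (XT.lf (nat_lit 0) (nat_lit 3814853) (nat_lit 532) (nat_lit 16128784135) (nat_lit 76) (nat_lit 3422141911) (nat_lit 224) (nat_lit 5) (nat_lit 231) (nat_lit 5) (nat_lit 225) (nat_lit 5) (nat_lit 471) (nat_lit 431) (nat_lit 298))))) (XT.nd (nat_lit 312) (nat_lit 836) (nat_lit 0) (XT.nd (nat_lit 156) (nat_lit 380) (nat_lit 0) (XT.nd (nat_lit 78) (nat_lit 380) (nat_lit 0) (XT.lf (nat_lit 0) (nat_lit 3704220880) (nat_lit 532) (nat_lit 4618387245) (nat_lit 76) (nat_lit 11570112461) (nat_lit 224) (nat_lit 5) (nat_lit 231) (nat_lit 5) (nat_lit 225) (nat_lit 5) (nat_lit 472) (nat_lit 431) (nat_lit 297)) (XT.lf (nat_lit 0) (nat_lit 7368604525) (nat_lit 380) (nat_lit 208390262) (nat_lit 456) (nat_lit 12662004516) (nat_lit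 219) (nat_lit 5) (nat_lit 224) (nat_lit 5) (nat_lit 225) (nat_lit 5) (nat_lit 473) (nat_lit 431) (nat_lit 296))) (XT.nd (nat_lit 78) (nat_lit 380) (nat_lit 0) (XT.lf (nat_lit 0) (nat_lit 11682037618) (nat_lit 456) (nat_lit 875819047) (nat_lit 76) (nat_lit 8034327447) (nat_lit 219) (nat_lit 5) (nat_lit 225) (nat_lit 5) (nat_lit 220) (nat_lit 5) (nat_lit 474) (nat_lit 431) (nat_lit 295)) (XT.lf (nat_lit 0) (nat_lit 11692427141) (nat_lit 380) (nat_lit 4323186590) (nat_lit 456) (nat_lit 4937189568) (nat_lit 214) (nat_lit 5) (nat_lit 219) (nat_lit 5) (nat_lit 220) (nat_lit 5) (nat_lit 475) (nat_lit 431) (nat_lit 294)))) (XT.nd (nat_lit 156) (nat_lit 380) (nat_lit 0) (XT.nd (nat_lit 78) (nat_lit 76) (nat_lit 0) (XT.lf (nat_lit 0) (nat_lit 3344518280) (nat_lit 380) (nat_lit 17206774953) (nat_lit 456) (nat_lit 770785228) (nat_lit 209) (nat_lit 5) (nat_lit 214) (nat_lit 5) (nat_lit 215) (nat_lit 5) (nat_lit 476) (nat_lit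 431) (nat_lit 293)) (XT.lf (nat_lit 0) (nat_lit 3580248957) (nat_lit 456) (nat_lit 5272248267) (nat_lit 76) (nat_lit 12845069529) (nat_lit 208) (nat_lit 5) (nat_lit 214) (nat_lit 5) (nat_lit 209) (nat_lit 5) (nat_lit 477) (nat_lit 431) (nat_lit 292))) (XT.nd (nat_lit 78) (nat_lit 0) (nat_lit 0) (XT.lf (nat_lit 0) (nat_lit 7949641918) (nat_lit 380) (nat_lit 164452579) (nat_lit 456) (nat_lit 13967963340) (nat_lit 203) (nat_lit 5) (nat_lit 208) (nat_lit 5) (nat_lit 209) (nat_lit 5) (nat_lit 478) (nat_lit 431) (nat_lit 291)) (XT.lf (nat_lit 0) (nat_lit 12913620529) (nat_lit 456) (nat_lit 897367918) (nat_lit 76) (nat_lit 8663205504) (nat_lit 203) (nat_lit 5) (nat_lit 209) (nat_lit 5) (nat_lit 204) (nat_lit 5) (nat_lit 479) (nat_lit 431) (nat_lit 290))))))))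
noncomputable def xc163 : XT := (XT.nd (nat_lit 2418) (nat_lit 3344) (nat_lit 0) (XT.nd (nat_lit 1170) (nat_lit 2432) (nat_lit 0) (XT.nd (nat_lit 546) (nat_lit 1368) (nat_lit 0) (XT.nd (nat_lit 234) (nat_lit 988) (nat_lit 0) (XT.nd (nat_lit 78) (nat_lit 380) (nat_lit 0) (XT.lf (nat_lit 0) (nat_lit 12974456780) (nat_lit 304) (nat_lit 5000730188) (nat_lit 380) (nat_lit 4899365786) (nat_lit 199) (nat_lit 5) (nat_lit 203) (nat_lit 5) (nat_lit 204) (nat_lit 5) (nat_lit 480) (nat_lit 431) (nat_lit 289)) (XT.nd (nat_lit 78) (nat_lit 76) (nat_lit 0) (XT.lf (nat_lit 0) (nat_lit 4021484640) (nat_lit 304) (nat_lit 19245887155) (nat_lit 380) (nat_lit 17187624) (nat_lit 195) (nat_lit 5) (nat_lit 199) (nat_lit 5) (nat_lit 200) (nat_lit 5) (nat_lit 481) (nat_lit 431) (nat_lit 288)) (XT.lf (nat_lit 0) (nat_lit 5055985876) (nat_lit 380) (nat_lit 5250852976) (nat_lit 76) (nat_lit 13394312813) (nat_lit 194) (nat_lit 5) (nat_lit 199)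 (nat_lit 5) (nat_lit 195) (nat_lit 5) (nat_lit 482) (nat_lit 431) (nat_lit 287)))) (XT.nd (nat_lit 156) (nat_lit 684) (nat_lit 0) (XT.nd (nat_lit 78) (nat_lit 0) (nat_lit 0) (XT.lf (nat_lit 0) (nat_lit 9352448168) (nat_lit 304) (nat_lit 1010547840) (nat_lit 380) (nat_lit 13764781176) (nat_lit 190) (nat_lit 5) (nat_lit 194) (nat_lit 5) (nat_lit 195) (nat_lit 5) (nat_lit 483) (nat_lit 431) (nat_lit 286)) (XT.lf (nat_lit 0) (nat_lit 15957262957) (nat_lit 380) (nat_lit 158680144) (nat_lit 76) (nat_lit 8447417185) (nat_lit 190) (nat_lit 5) (nat_lit 195) (nat_lit 5) (nat_lit 191) (nat_lit 5) (nat_lit 484) (nat_lit 431) (nat_lit 285))) (XT.nd (nat_lit 78) (nat_lit 380) (nat_lit 0) (XT.lf (nat_lit 0) (nat_lit 15171145696) (nat_lit 304) (nat_lit 6696449767) (nat_lit 380) (nat_lit 3139968496) (nat_lit 186) (nat_lit 5) (nat_lit 190) (nat_lit 5) (nat_lit 191) (nat_lit 5) (nat_lit 485) (nat_lit 431) (nat_lit 284)) (XT.lf (nat_lit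 0) (nat_lit 2518811799) (nat_lit 380) (nat_lit 19920126221) (nat_lit 76) (nat_lit 3023120033) (nat_lit 181) (nat_lit 5) (nat_lit 186) (nat_lit 5) (nat_lit 182) (nat_lit 5) (nat_lit 486) (nat_lit 431) (nat_lit 283))))) (XT.nd (nat_lit 312) (nat_lit 760) (nat_lit 0) (XT.nd (nat_lit 156) (nat_lit 304) (nat_lit 0) (XT.nd (nat_lit 78) (nat_lit 304) (nat_lit 0) (XT.lf (nat_lit 0) (nat_lit 8443370351) (nat_lit 380) (nat_lit 4453786675) (nat_lit 76) (nat_lit 13027323716) (nat_lit 181) (nat_lit 5) (nat_lit 186) (nat_lit 5) (nat_lit 182) (nat_lit 5) (nat_lit 487) (nat_lit 431) (nat_lit 282)) (XT.lf (nat_lit 0) (nat_lit 11693586076) (nat_lit 304) (nat_lit 2957215227) (nat_lit 380) (nat_lit 11746820920) (nat_lit 177) (nat_lit 5) (nat_lit 181) (nat_lit 5) (nat_lit 182) (nat_lit 5) (nat_lit 488) (nat_lit 431) (nat_lit 281))) (XT.nd (nat_lit 78) (nat_lit 76) (nat_lit 0) (XT.lf (nat_lit 0) (nat_lit 1480312103) (nat_lit 228) (nat_lit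 19686579534) (nat_lit 304) (nat_lit 5714393396) (nat_lit 174) (nat_lit 5) (nat_lit 177) (nat_lit 5) (nat_lit 178) (nat_lit 5) (nat_lit 489) (nat_lit 431) (nat_lit 280)) (XT.lf (nat_lit 0) (nat_lit 661331828) (nat_lit 304) (nat_lit 8970183004) (nat_lit 76) (nat_lit 17742637289) (nat_lit 173) (nat_lit 5) (nat_lit 177) (nat_lit 5) (nat_lit 174) (nat_lit 5) (nat_lit 490) (nat_lit 431) (nat_lit 279)))) (XT.nd (nat_lit 156) (nat_lit 456) (nat_lit 0) (XT.nd (nat_lit 78) (nat_lit 0) (nat_lit 0) (XT.lf (nat_lit 0) (nat_lit 7192087681) (nat_lit 380) (nat_lit 19843271259) (nat_lit 76) (nat_lit 842390724) (nat_lit 169) (nat_lit 5) (nat_lit 174) (nat_lit 5) (nat_lit 170) (nat_lit 5) (nat_lit 491) (nat_lit 431) (nat_lit 278)) (XT.lf (nat_lit 0) (nat_lit 14098706437) (nat_lit 380) (nat_lit 2767812680) (nat_lit 76) (nat_lit 11524537967) (nat_lit 169) (nat_lit 5) (nat_lit 174) (nat_lit 5) (nat_lit 170) (nat_lit 5) (nat_lit 492)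 (nat_lit 431) (nat_lit 277))) (XT.nd (nat_lit 78) (nat_lit 228) (nat_lit 0) (XT.lf (nat_lit 0) (nat_lit 15103986304) (nat_lit 228) (nat_lit 6247027753) (nat_lit 304) (nat_lit 7564595113) (nat_lit 166) (nat_lit 5) (nat_lit 169) (nat_lit 5) (nat_lit 170) (nat_lit 5) (nat_lit 493) (nat_lit 431) (nat_lit 276)) (XT.lf (nat_lit 0) (nat_lit 4138287918) (nat_lit 228) (nat_lit 24789059447) (nat_lit 304) (nat_lit 525356909) (nat_lit 163) (nat_lit 5) (nat_lit 166) (nat_lit 5) (nat_lit 167) (nat_lit 5) (nat_lit 494) (nat_lit 431) (nat_lit 275)))))) (XT.nd (nat_lit 624) (nat_lit 1216) (nat_lit 0) (XT.nd (nat_lit 312) (nat_lit 684) (nat_lit 0) (XT.nd (nat_lit 156) (nat_lit 228) (nat_lit 0) (XT.nd (nat_lit 78) (nat_lit 228) (nat_lit 0) (XT.lf (nat_lit 0) (nat_lit 6789915070) (nat_lit 304) (nat_lit 7230524586) (nat_lit 76) (nat_lit 15977650750) (nat_lit 162) (nat_lit 5) (nat_lit 166) (nat_lit 5) (nat_lit 163) (nat_lit 5) (nat_lit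 495) (nat_lit 431) (nat_lit 274)) (XT.lf (nat_lit 0) (nat_lit 11606745391) (nat_lit 228) (nat_lit 2812488284) (nat_lit 304) (nat_lit 16137294108) (nat_lit 159) (nat_lit 5) (nat_lit 162) (nat_lit 5) (nat_lit 163) (nat_lit 5) (nat_lit 496) (nat_lit 431) (nat_lit 273))) (XT.nd (nat_lit 78) (nat_lit 228) (nat_lit 0) (XT.lf (nat_lit 0) (nat_lit 22428729323) (nat_lit 304) (nat_lit 67309135) (nat_lit 76) (nat_lit 8631141031) (nat_lit 159) (nat_lit 5) (nat_lit 163) (nat_lit 5) (nat_lit 160) (nat_lit 5) (nat_lit 497) (nat_lit 431) (nat_lit 272)) (XT.lf (nat_lit 0) (nat_lit 19728596973) (nat_lit 228) (nat_lit 11161214272) (nat_lit 304) (nat_lit 818800585) (nat_lit 156) (nat_lit 5) (nat_lit 159) (nat_lit 5) (nat_lit 160) (nat_lit 5) (nat_lit 498) (nat_lit 431) (nat_lit 271)))) (XT.nd (nat_lit 156) (nat_lit 380) (nat_lit 0) (XT.nd (nat_lit 78) (nat_lit 0) (nat_lit 0) (XT.lf (nat_lit 0) (nat_lit 7231518081) (nat_lit 304) (nat_lit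 24423795927) (nat_lit 76) (nat_lit 647768639) (nat_lit 152) (nat_lit 5) (nat_lit 156) (nat_lit 5) (nat_lit 153) (nat_lit 5) (nat_lit 499) (nat_lit 431) (nat_lit 270)) (XT.lf (nat_lit 0) (nat_lit 15733447228) (nat_lit 304) (nat_lit 4461862351) (nat_lit 76) (nat_lit 12713038180) (nat_lit 152) (nat_lit 5) (nat_lit 156) (nat_lit 5) (nat_lit 153) (nat_lit 5) (nat_lit 500) (nat_lit 431) (nat_lit 269))) (XT.nd (nat_lit 78) (nat_lit 152) (nat_lit 0) (XT.lf (nat_lit 0) (nat_lit 16409191733) (nat_lit 228) (nat_lit 8233034501) (nat_lit 304) (nat_lit 8884990942) (nat_lit 149) (nat_lit 5) (nat_lit 152) (nat_lit 5) (nat_lit 153) (nat_lit 5) (nat_lit 501) (nat_lit 431) (nat_lit 268)) (XT.lf (nat_lit 0) (nat_lit 3860141716) (nat_lit 152) (nat_lit 30074129552) (nat_lit 228) (nat_lit 226901439) (nat_lit 147) (nat_lit 5) (nat_lit 149) (nat_lit 5) (nat_lit 150) (nat_lit 5) (nat_lit 502) (nat_lit 431) (nat_lit 267))))) (XT.nd (nat_lit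 312) (nat_lit 684) (nat_lit 0) (XT.nd (nat_lit 156) (nat_lit 228) (nat_lit 0) (XT.nd (nat_lit 78) (nat_lit 228) (nat_lit 0) (XT.lf (nat_lit 0) (nat_lit 8771540738) (nat_lit 228) (nat_lit 9167173380) (nat_lit 76) (nat_lit 16865420573) (nat_lit 146) (nat_lit 5) (nat_lit 149) (nat_lit 5) (nat_lit 147) (nat_lit 5) (nat_lit 503) (nat_lit 431) (nat_lit 266)) (XT.lf (nat_lit 0) (nat_lit 12839285716) (nat_lit 228) (nat_lit 5313796608) (nat_lit 304) (nat_lit 17309704716) (nat_lit 143) (nat_lit 5) (nat_lit 146) (nat_lit 5) (nat_lit 147) (nat_lit 5) (nat_lit 504) (nat_lit 431) (nat_lit 265))) (XT.nd (nat_lit 78) (nat_lit 228) (nat_lit 0) (XT.lf (nat_lit 0) (nat_lit 27977800229) (nat_lit 304) (nat_lit 529145718) (nat_lit 76) (nat_lit 7629401208) (nat_lit 143) (nat_lit 5) (nat_lit 147) (nat_lit 5) (nat_lit 144) (nat_lit 5) (nat_lit 505) (nat_lit 431) (nat_lit 264)) (XT.lf (nat_lit 0) (nat_lit 1509450824) (nat_lit 228) (nat_lit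 14229865802) (nat_lit 76) (nat_lit 21082421169) (nat_lit 140) (nat_lit 5) (nat_lit 143) (nat_lit 5) (nat_lit 141) (nat_lit 5) (nat_lit 506) (nat_lit 431) (nat_lit 263)))) (XT.nd (nat_lit 156) (nat_lit 456) (nat_lit 0) (XT.nd (nat_lit 78) (nat_lit 0) (nat_lit 0) (XT.lf (nat_lit 0) (nat_lit 8974657497) (nat_lit 228) (nat_lit 2415023622) (nat_lit 304) (nat_lit 26133000654) (nat_lit 137) (nat_lit 5) (nat_lit 140) (nat_lit 5) (nat_lit 141) (nat_lit 5) (nat_lit 507) (nat_lit 431) (nat_lit 262)) (XT.lf (nat_lit 0) (nat_lit 21814680752) (nat_lit 304) (nat_lit 5192969198) (nat_lit 76) (nat_lit 11229553334) (nat_lit 137) (nat_lit 5) (nat_lit 141) (nat_lit 5) (nat_lit 138) (nat_lit 5) (nat_lit 508) (nat_lit 431) (nat_lit 261))) (XT.nd (nat_lit 78) (nat_lit 304) (nat_lit 0) (XT.lf (nat_lit 0) (nat_lit 19204340202) (nat_lit 152) (nat_lit 13551301247) (nat_lit 228) (nat_lit 6211422743) (nat_lit 135) (nat_lit 5) (nat_lit 137)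 (nat_lit 5) (nat_lit 138) (nat_lit 5) (nat_lit 509) (nat_lit 431) (nat_lit 260)) (XT.lf (nat_lit 0) (nat_lit 4319770529) (nat_lit 304) (nat_lit 34954504458) (nat_lit 76) (nat_lit 440370674) (nat_lit 131) (nat_lit 5) (nat_lit 135) (nat_lit 5) (nat_lit 132) (nat_lit 5) (nat_lit 510) (nat_lit 431) (nat_lit 259))))))) (XT.nd (nat_lit 1248) (nat_lit 1520) (nat_lit 0) (XT.nd (nat_lit 624) (nat_lit 912) (nat_lit 0) (XT.nd (nat_lit 312) (nat_lit 532) (nat_lit 0) (XT.nd (nat_lit 156) (nat_lit 228) (nat_lit 0) (XT.nd (nat_lit 78) (nat_lit 152) (nat_lit 0) (XT.lf (nat_lit 0) (nat_lit 15372507096) (nat_lit 304) (nat_lit 10261780431) (nat_lit 76) (nat_lit 14838608618) (nat_lit 131) (nat_lit 5) (nat_lit 135) (nat_lit 5) (nat_lit 132) (nat_lit 5) (nat_lit 511) (nat_lit 431) (nat_lit 258)) (XT.lf (nat_lit 0) (nat_lit 15464488131) (nat_lit 152) (nat_lit 11435883974) (nat_lit 228) (nat_lit 14349215724) (nat_lit 129) (nat_lit 5) (nat_lit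 131) (nat_lit 5) (nat_lit 132) (nat_lit 5) (nat_lit 512) (nat_lit 431) (nat_lit 257))) (XT.nd (nat_lit 78) (nat_lit 76) (nat_lit 0) (XT.lf (nat_lit 0) (nat_lit 87429224) (nat_lit 152) (nat_lit 38817701706) (nat_lit 228) (nat_lit 3140517670) (nat_lit 127) (nat_lit 5) (nat_lit 129) (nat_lit 5) (nat_lit 130) (nat_lit 5) (nat_lit 513) (nat_lit 431) (nat_lit 256)) (XT.lf (nat_lit 0) (nat_lit 8611554282) (nat_lit 228) (nat_lit 15798713145) (nat_lit 76) (nat_lit 18441766760) (nat_lit 126) (nat_lit 5) (nat_lit 129) (nat_lit 5) (nat_lit 127) (nat_lit 5) (nat_lit 514) (nat_lit 431) (nat_lit 255)))) (XT.nd (nat_lit 156) (nat_lit 380) (nat_lit 0) (XT.nd (nat_lit 78) (nat_lit 0) (nat_lit 0) (XT.lf (nat_lit 0) (nat_lit 11326729341) (nat_lit 152) (nat_lit 9430295216) (nat_lit 228) (nat_lit 22921535301) (nat_lit 124) (nat_lit 5) (nat_lit 126) (nat_lit 5) (nat_lit 127) (nat_lit 5) (nat_lit 515) (nat_lit 431) (nat_lit 254)) (XT.lf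 (nat_lit 0) (nat_lit 33480742284) (nat_lit 228) (nat_lit 5003351344) (nat_lit 76) (nat_lit 6039371236) (nat_lit 124) (nat_lit 5) (nat_lit 127) (nat_lit 5) (nat_lit 125) (nat_lit 5) (nat_lit 516) (nat_lit 431) (nat_lit 253))) (XT.nd (nat_lit 78) (nat_lit 152) (nat_lit 0) (XT.lf (nat_lit 0) (nat_lit 1487028777) (nat_lit 228) (nat_lit 21876175455) (nat_lit 76) (nat_lit 22020633670) (nat_lit 121) (nat_lit 5) (nat_lit 124) (nat_lit 5) (nat_lit 122) (nat_lit 5) (nat_lit 517) (nat_lit 431) (nat_lit 252)) (XT.lf (nat_lit 0) (nat_lit 6720819995) (nat_lit 152) (nat_lit 7560788052) (nat_lit 228) (nat_lit 31981807633) (nat_lit 119) (nat_lit 5) (nat_lit 121) (nat_lit 5) (nat_lit 122) (nat_lit 5) (nat_lit 518) (nat_lit 431) (nat_lit 251))))) (XT.nd (nat_lit 312) (nat_lit 532) (nat_lit 0) (XT.nd (nat_lit 156) (nat_lit 228) (nat_lit 0) (XT.nd (nat_lit 78) (nat_lit 152) (nat_lit 0) (XT.lf (nat_lit 0) (nat_lit 27762173659) (nat_lit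 228) (nat_lit 10633133754) (nat_lit 76) (nat_lit 8765008966) (nat_lit 119) (nat_lit 5) (nat_lit 122) (nat_lit 5) (nat_lit 120) (nat_lit 5) (nat_lit 519) (nat_lit 431) (nat_lit 250)) (XT.lf (nat_lit 0) (nat_lit 19439764635) (nat_lit 152) (nat_lit 22464530081) (nat_lit 228) (nat_lit 6172115286) (nat_lit 117) (nat_lit 5) (nat_lit 119) (nat_lit 5) (nat_lit 120) (nat_lit 5) (nat_lit 520) (nat_lit 431) (nat_lit 249))) (XT.nd (nat_lit 78) (nat_lit 0) (nat_lit 0) (XT.lf (nat_lit 0) (nat_lit 1565582540) (nat_lit 152) (nat_lit 5858628515) (nat_lit 228) (nat_lit 41590059574) (nat_lit 114) (nat_lit 5) (nat_lit 116) (nat_lit 5) (nat_lit 117) (nat_lit 5) (nat_lit 521) (nat_lit 431) (nat_lit 248)) (XT.lf (nat_lit 0) (nat_lit 21699948821) (nat_lit 228) (nat_lit 16891118356) (nat_lit 76) (nat_lit 11375499396) (nat_lit 114) (nat_lit 5) (nat_lit 117) (nat_lit 5) (nat_lit 115) (nat_lit 5) (nat_lit 522) (nat_lit 431) (nat_lit 247))))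 (XT.nd (nat_lit 156) (nat_lit 304) (nat_lit 0) (XT.nd (nat_lit 78) (nat_lit 76) (nat_lit 0) (XT.lf (nat_lit 0) (nat_lit 14805977937) (nat_lit 152) (nat_lit 21793883759) (nat_lit 228) (nat_lit 14341692659) (nat_lit 112) (nat_lit 5) (nat_lit 114) (nat_lit 5) (nat_lit 115) (nat_lit 5) (nat_lit 523) (nat_lit 431) (nat_lit 246)) (XT.lf (nat_lit 0) (nat_lit 168798023) (nat_lit 228) (nat_lit 4150255205) (nat_lit 76) (nat_lit 47621703199) (nat_lit 111) (nat_lit 5) (nat_lit 114) (nat_lit 5) (nat_lit 112) (nat_lit 5) (nat_lit 524) (nat_lit 431) (nat_lit 245))) (XT.nd (nat_lit 78) (nat_lit 152) (nat_lit 0) (XT.lf (nat_lit 0) (nat_lit 15238542753) (nat_lit 228) (nat_lit 23878200022) (nat_lit 76) (nat_lit 13836566127) (nat_lit 109) (nat_lit 5) (nat_lit 112) (nat_lit 5) (nat_lit 110) (nat_lit 5) (nat_lit 525) (nat_lit 431) (nat_lit 244)) (XT.lf (nat_lit 0) (nat_lit 9522061370) (nat_lit 152) (nat_lit 21410662965) (nat_lit 228)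 (nat_lit 23058343325) (nat_lit 107) (nat_lit 5) (nat_lit 109) (nat_lit 5) (nat_lit 110) (nat_lit 5) (nat_lit 526) (nat_lit 431) (nat_lit 243)))))) (XT.nd (nat_lit 624) (nat_lit 836) (nat_lit 0) (XT.nd (nat_lit 312) (nat_lit 380) (nat_lit 0) (XT.nd (nat_lit 156) (nat_lit 152) (nat_lit 0) (XT.nd (nat_lit 78) (nat_lit 152) (nat_lit 0) (XT.lf (nat_lit 0) (nat_lit 44405987868) (nat_lit 152) (nat_lit 2928641152) (nat_lit 228) (nat_lit 7718223275) (nat_lit 107) (nat_lit 5) (nat_lit 109) (nat_lit 5) (nat_lit 110) (nat_lit 5) (nat_lit 527) (nat_lit 431) (nat_lit 242)) (XT.lf (nat_lit 0) (nat_lit 8314479367) (nat_lit 152) (nat_lit 31710805160) (nat_lit 76) (nat_lit 16107172583) (nat_lit 105) (nat_lit 5) (nat_lit 107) (nat_lit 5) (nat_lit 106) (nat_lit 5) (nat_lit 528) (nat_lit 431) (nat_lit 241))) (XT.nd (nat_lit 78) (nat_lit 0) (nat_lit 0) (XT.lf (nat_lit 0) (nat_lit 3472847175) (nat_lit 152) (nat_lit 21367014734) (nat_lit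 228) (nat_lit 32397290834) (nat_lit 103) (nat_lit 5) (nat_lit 105) (nat_lit 5) (nat_lit 106) (nat_lit 5) (nat_lit 529) (nat_lit 431) (nat_lit 240)) (XT.lf (nat_lit 0) (nat_lit 40354433889) (nat_lit 152) (nat_lit 1822707004) (nat_lit 228) (nat_lit 16188364340) (nat_lit 103) (nat_lit 5) (nat_lit 105) (nat_lit 5) (nat_lit 106) (nat_lit 5) (nat_lit 530) (nat_lit 431) (nat_lit 239)))) (XT.nd (nat_lit 156) (nat_lit 228) (nat_lit 0) (XT.nd (nat_lit 78) (nat_lit 0) (nat_lit 0) (XT.lf (nat_lit 0) (nat_lit 855101911) (nat_lit 152) (nat_lit 40523359768) (nat_lit 76) (nat_lit 18138355636) (nat_lit 101) (nat_lit 5) (nat_lit 103) (nat_lit 5) (nat_lit 102) (nat_lit 5) (nat_lit 531) (nat_lit 431) (nat_lit 238)) (XT.lf (nat_lit 0) (nat_lit 18282235891) (nat_lit 152) (nat_lit 3407494908) (nat_lit 76) (nat_lit 39002197555) (nat_lit 101) (nat_lit 5) (nat_lit 103) (nat_lit 5) (nat_lit 102) (nat_lit 5) (nat_lit 532) (nat_lit 431) (nat_lit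 237))) (XT.nd (nat_lit 78) (nat_lit 76) (nat_lit 0) (XT.lf (nat_lit 0) (nat_lit 35507456439) (nat_lit 152) (nat_lit 1062173027) (nat_lit 228) (nat_lit 25322539925) (nat_lit 99) (nat_lit 5) (nat_lit 101) (nat_lit 5) (nat_lit 102) (nat_lit 5) (nat_lit 533) (nat_lit 431) (nat_lit 236)) (XT.lf (nat_lit 0) (nat_lit 12576083101) (nat_lit 76) (nat_lit 43175360916) (nat_lit 152) (nat_lit 7366599699) (nat_lit 98) (nat_lit 5) (nat_lit 99) (nat_lit 5) (nat_lit 100) (nat_lit 4) (nat_lit 534) (nat_lit 431) (nat_lit 235))))) (XT.nd (nat_lit 312) (nat_lit 456) (nat_lit 0) (XT.nd (nat_lit 156) (nat_lit 152) (nat_lit 0) (XT.nd (nat_lit 78) (nat_lit 152) (nat_lit 0) (XT.lf (nat_lit 0) (nat_lit 11186602239) (nat_lit 152) (nat_lit 11253545899) (nat_lit 76) (nat_lit 41929065147) (nat_lit 97) (nat_lit 5) (nat_lit 99) (nat_lit 5) (nat_lit 98) (nat_lit 5) (nat_lit 535) (nat_lit 431) (nat_lit 234)) (XT.lf (nat_lit 0) (nat_lit 29713326236)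 (nat_lit 152) (nat_lit 716890497) (nat_lit 228) (nat_lit 35217056804) (nat_lit 95) (nat_lit 5) (nat_lit 97) (nat_lit 5) (nat_lit 98) (nat_lit 5) (nat_lit 536) (nat_lit 431) (nat_lit 233))) (XT.nd (nat_lit 78) (nat_lit 76) (nat_lit 0) (XT.lf (nat_lit 0) (nat_lit 5062004524) (nat_lit 76) (nat_lit 45557013897) (nat_lit 152) (nat_lit 16333620842) (nat_lit 94) (nat_lit 5) (nat_lit 95) (nat_lit 5) (nat_lit 96) (nat_lit 4) (nat_lit 537) (nat_lit 431) (nat_lit 232)) (XT.lf (nat_lit 0) (nat_lit 3425330628) (nat_lit 152) (nat_lit 20309568370) (nat_lit 76) (nat_lit 44550273621) (nat_lit 93) (nat_lit 5) (nat_lit 95) (nat_lit 5) (nat_lit 94) (nat_lit 5) (nat_lit 538) (nat_lit 431) (nat_lit 231)))) (XT.nd (nat_lit 156) (nat_lit 304) (nat_lit 0) (XT.nd (nat_lit 78) (nat_lit 0) (nat_lit 0) (XT.lf (nat_lit 0) (nat_lit 22795145494) (nat_lit 152) (nat_lit 869115057) (nat_lit 228) (nat_lit 45982104894) (nat_lit 91) (nat_lit 5) (nat_lit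 93) (nat_lit 5) (nat_lit 94) (nat_lit 5) (nat_lit 539) (nat_lit 431) (nat_lit 230)) (XT.lf (nat_lit 0) (nat_lit 44931902734) (nat_lit 228) (nat_lit 3659874245) (nat_lit 76) (nat_lit 22443970773) (nat_lit 91) (nat_lit 5) (nat_lit 94) (nat_lit 5) (nat_lit 92) (nat_lit 4) (nat_lit 540) (nat_lit 431) (nat_lit 229))) (XT.nd (nat_lit 78) (nat_lit 228) (nat_lit 0) (XT.lf (nat_lit 0) (nat_lit 41624154779) (nat_lit 76) (nat_lit 25618634104) (nat_lit 152) (nat_lit 5211866229) (nat_lit 90) (nat_lit 5) (nat_lit 91) (nat_lit 5) (nat_lit 92) (nat_lit 4) (nat_lit 541) (nat_lit 431) (nat_lit 228)) (XT.lf (nat_lit 0) (nat_lit 14546756308) (nat_lit 152) (nat_lit 1615562478) (nat_lit 228) (nat_lit 57743898802) (nat_lit 87) (nat_lit 5) (nat_lit 89) (nat_lit 5) (nat_lit 90) (nat_lit 5) (nat_lit 542) (nat_lit 431) (nat_lit 227))))))))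
noncomputable def xc164 : XT := (XT.nd (nat_lit 55614) (nat_lit 0) (nat_lit 8208) (XT.nd (nat_lit 54366) (nat_lit 0) (nat_lit 16796) (XT.nd (nat_lit 546) (nat_lit 76) (nat_lit 0) (XT.nd (nat_lit 234) (nat_lit 304) (nat_lit 0) (XT.nd (nat_lit 78) (nat_lit 304) (nat_lit 0) (XT.lf (nat_lit 0) (nat_lit 38606015252) (nat_lit 228) (nat_lit 13758172159) (nat_lit 76) (nat_lit 23019600292) (nat_lit 87) (nat_lit 5) (nat_lit 90) (nat_lit 5) (nat_lit 88) (nat_lit 4) (nat_lit 543) (nat_lit 431) (nat_lit 226)) (XT.nd (nat_lit 78) (nat_lit 228) (nat_lit 0) (XT.lf (nat_lit 0) (nat_lit 33849173194) (nat_lit 76) (nat_lit 28211830645) (nat_lit 152) (nat_lit 14834541670) (nat_lit 86) (nat_lit 5) (nat_lit 87) (nat_lit 5) (nat_lit 88) (nat_lit 4) (nat_lit 544) (nat_lit 431) (nat_lit 225)) (XT.lf (nat_lit 0) (nat_lit 4727993673) (nat_lit 152) (nat_lit 3069795224) (nat_lit 228) (nat_lit 70647156400) (nat_lit 83) (nat_lit 5) (nat_lit 85)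 (nat_lit 5) (nat_lit 86) (nat_lit 5) (nat_lit 545) (nat_lit 431) (nat_lit 224)))) (XT.nd (nat_lit 156) (nat_lit 228) (nat_lit 0) (XT.nd (nat_lit 78) (nat_lit 76) (nat_lit 0) (XT.lf (nat_lit 0) (nat_lit 31465957127) (nat_lit 228) (nat_lit 25586907051) (nat_lit 76) (nat_lit 22963905802) (nat_lit 83) (nat_lit 5) (nat_lit 86) (nat_lit 5) (nat_lit 84) (nat_lit 4) (nat_lit 546) (nat_lit 431) (nat_lit 223)) (XT.lf (nat_lit 0) (nat_lit 24426976128) (nat_lit 76) (nat_lit 31679111142) (nat_lit 152) (nat_lit 25521804646) (nat_lit 82) (nat_lit 5) (nat_lit 83) (nat_lit 5) (nat_lit 84) (nat_lit 4) (nat_lit 547) (nat_lit 431) (nat_lit 222))) (XT.nd (nat_lit 78) (nat_lit 228) (nat_lit 0) (XT.lf (nat_lit 0) (nat_lit 76459517336) (nat_lit 76) (nat_lit 5281032824) (nat_lit 152) (nat_lit 1539143505) (nat_lit 82) (nat_lit 5) (nat_lit 83) (nat_lit 5) (nat_lit 84) (nat_lit 4) (nat_lit 548) (nat_lit 431) (nat_lit 221)) (XT.lf (nat_lit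 0) (nat_lit 23364589152) (nat_lit 228) (nat_lit 39442757932) (nat_lit 76) (nat_lit 22147415137) (nat_lit 79) (nat_lit 5) (nat_lit 82) (nat_lit 5) (nat_lit 80) (nat_lit 4) (nat_lit 549) (nat_lit 431) (nat_lit 220))))) (XT.nd (nat_lit 53508) (nat_lit 0) (nat_lit 20292) (XT.nd (nat_lit 53352) (nat_lit 0) (nat_lit 20216) (XT.nd (nat_lit 53274) (nat_lit 0) (nat_lit 20216) (XT.lf (nat_lit 0) (nat_lit 13056356693) (nat_lit 76) (nat_lit 36172307967) (nat_lit 152) (nat_lit 37443636036) (nat_lit 78) (nat_lit 5) (nat_lit 79) (nat_lit 5) (nat_lit 80) (nat_lit 4) (nat_lit 550) (nat_lit 431) (nat_lit 219)) (XT.lf (nat_lit 0) (nat_lit 834528897) (nat_lit 0) (nat_lit 834528897) (nat_lit 1140) (nat_lit 3759628448) (nat_lit 344) (nat_lit 5) (nat_lit 344) (nat_lit 3) (nat_lit 359) (nat_lit 3) (nat_lit 432) (nat_lit 432) (nat_lit 336))) (XT.nd (nat_lit 78) (nat_lit 0) (nat_lit 0) (XT.lf (nat_lit 0) (nat_lit 4009779169) (nat_lit 1140)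 (nat_lit 3806331117) (nat_lit 1216) (nat_lit 3185446688) (nat_lit 344) (nat_lit 5) (nat_lit 359) (nat_lit 3) (nat_lit 360) (nat_lit 5) (nat_lit 433) (nat_lit 432) (nat_lit 335)) (XT.lf (nat_lit 76) (nat_lit 1742261294) (nat_lit 0) (nat_lit 2969674929) (nat_lit 1216) (nat_lit 6437821574) (nat_lit 345) (nat_lit 5) (nat_lit 344) (nat_lit 5) (nat_lit 360) (nat_lit 5) (nat_lit 434) (nat_lit 432) (nat_lit 334)))) (XT.nd (nat_lit 156) (nat_lit 0) (nat_lit 76) (XT.nd (nat_lit 78) (nat_lit 0) (nat_lit 0) (XT.lf (nat_lit 0) (nat_lit 5471132143) (nat_lit 1140) (nat_lit 3798705339) (nat_lit 1216) (nat_lit 2031489013) (nat_lit 345) (nat_lit 5) (nat_lit 360) (nat_lit 5) (nat_lit 361) (nat_lit 5) (nat_lit 435) (nat_lit 432) (nat_lit 333)) (XT.lf (nat_lit 76) (nat_lit 1974889298) (nat_lit 0) (nat_lit 4304969106) (nat_lit 1216) (nat_lit 5176782258) (nat_lit 346) (nat_lit 5) (nat_lit 345) (nat_lit 5) (nat_lit 361) (nat_lit 5) (nat_lit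 436) (nat_lit 432) (nat_lit 332))) (XT.nd (nat_lit 78) (nat_lit 0) (nat_lit 0) (XT.lf (nat_lit 0) (nat_lit 7138322076) (nat_lit 1140) (nat_lit 3637245965) (nat_lit 1216) (nat_lit 840282956) (nat_lit 346) (nat_lit 5) (nat_lit 361) (nat_lit 5) (nat_lit 362) (nat_lit 5) (nat_lit 437) (nat_lit 432) (nat_lit 331)) (XT.lf (nat_lit 76) (nat_lit 2373481366) (nat_lit 0) (nat_lit 5694071116) (nat_lit 1216) (nat_lit 3710935757) (nat_lit 347) (nat_lit 5) (nat_lit 346) (nat_lit 5) (nat_lit 362) (nat_lit 5) (nat_lit 438) (nat_lit 432) (nat_lit 330)))))) (XT.nd (nat_lit 624) (nat_lit 2508) (nat_lit 0) (XT.nd (nat_lit 312) (nat_lit 1064) (nat_lit 0) (XT.nd (nat_lit 156) (nat_lit 0) (nat_lit 76) (XT.nd (nat_lit 78) (nat_lit 0) (nat_lit 76) (XT.lf (nat_lit 76) (nat_lit 8626411089) (nat_lit 0) (nat_lit 415024828) (nat_lit 1216) (nat_lit 2904066354) (nat_lit 347) (nat_lit 5) (nat_lit 346) (nat_lit 5) (nat_lit 362) (nat_lit 5) (nat_lit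 439) (nat_lit 432) (nat_lit 329)) (XT.lf (nat_lit 76) (nat_lit 2945643722) (nat_lit 0) (nat_lit 7156181872) (nat_lit 1216) (nat_lit 2013983363) (nat_lit 348) (nat_lit 5) (nat_lit 347) (nat_lit 5) (nat_lit 363) (nat_lit 5) (nat_lit 440) (nat_lit 432) (nat_lit 328))) (XT.nd (nat_lit 78) (nat_lit 0) (nat_lit 76) (XT.lf (nat_lit 76) (nat_lit 9449334849) (nat_lit 0) (nat_lit 1763412285) (nat_lit 1216) (nat_lit 1077917004) (nat_lit 348) (nat_lit 5) (nat_lit 347) (nat_lit 5) (nat_lit 363) (nat_lit 5) (nat_lit 441) (nat_lit 432) (nat_lit 327)) (XT.lf (nat_lit 76) (nat_lit 3700064702) (nat_lit 0) (nat_lit 8710682414) (nat_lit 1216) (nat_lit 58406208) (nat_lit 349) (nat_lit 5) (nat_lit 348) (nat_lit 5) (nat_lit 364) (nat_lit 5) (nat_lit 442) (nat_lit 432) (nat_lit 326)))) (XT.nd (nat_lit 156) (nat_lit 0) (nat_lit 76) (XT.nd (nat_lit 78) (nat_lit 0) (nat_lit 76) (XT.lf (nat_lit 0) (nat_lit 1000744554) (nat_lit 1216) (nat_lit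 2196765194) (nat_lit 1292) (nat_lit 9454350096) (nat_lit 332) (nat_lit 5) (nat_lit 348) (nat_lit 5) (nat_lit 349) (nat_lit 5) (nat_lit 443) (nat_lit 432) (nat_lit 325)) (XT.lf (nat_lit 0) (nat_lit 2142032006) (nat_lit 1216) (nat_lit 8213579719) (nat_lit 1292) (nat_lit 2482873202) (nat_lit 333) (nat_lit 5) (nat_lit 349) (nat_lit 5) (nat_lit 350) (nat_lit 5) (nat_lit 444) (nat_lit 432) (nat_lit 324))) (XT.nd (nat_lit 78) (nat_lit 0) (nat_lit 76) (XT.lf (nat_lit 0) (nat_lit 3354543610) (nat_lit 1216) (nat_lit 1379003651) (nat_lit 1292) (nat_lit 8296052714) (nat_lit 333) (nat_lit 5) (nat_lit 349) (nat_lit 5) (nat_lit 350) (nat_lit 5) (nat_lit 445) (nat_lit 432) (nat_lit 323)) (XT.lf (nat_lit 0) (nat_lit 4652966806) (nat_lit 1216) (nat_lit 7475972608) (nat_lit 1292) (nat_lit 1096023726) (nat_lit 334) (nat_lit 5) (nat_lit 350) (nat_lit 5) (nat_lit 351) (nat_lit 5) (nat_lit 446) (nat_lit 432) (nat_lit 322))))) (XT.nd (nat_lit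 312) (nat_lit 1520) (nat_lit 0) (XT.nd (nat_lit 156) (nat_lit 1140) (nat_lit 0) (XT.nd (nat_lit 78) (nat_lit 0) (nat_lit 0) (XT.lf (nat_lit 0) (nat_lit 6035086540) (nat_lit 1216) (nat_lit 367025269) (nat_lit 1292) (nat_lit 7022733804) (nat_lit 334) (nat_lit 5) (nat_lit 350) (nat_lit 5) (nat_lit 351) (nat_lit 5) (nat_lit 447) (nat_lit 432) (nat_lit 321)) (XT.lf (nat_lit 76) (nat_lit 7080399326) (nat_lit 0) (nat_lit 430617041) (nat_lit 1292) (nat_lit 6118138511) (nat_lit 335) (nat_lit 5) (nat_lit 334) (nat_lit 5) (nat_lit 351) (nat_lit 5) (nat_lit 448) (nat_lit 432) (nat_lit 320))) (XT.nd (nat_lit 78) (nat_lit 0) (nat_lit 0) (XT.lf (nat_lit 0) (nat_lit 867887778) (nat_lit 1216) (nat_lit 8215050563) (nat_lit 1292) (nat_lit 4755104341) (nat_lit 319) (nat_lit 5) (nat_lit 335) (nat_lit 5) (nat_lit 336) (nat_lit 5) (nat_lit 449) (nat_lit 432) (nat_lit 319)) (XT.lf (nat_lit 0) (nat_lit 8623740756) (nat_lit 1216) (nat_lit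 2133593359) (nat_lit 1292) (nat_lit 3294204189) (nat_lit 319) (nat_lit 5) (nat_lit 335) (nat_lit 5) (nat_lit 336) (nat_lit 5) (nat_lit 450) (nat_lit 432) (nat_lit 318)))) (XT.nd (nat_lit 156) (nat_lit 684) (nat_lit 0) (XT.nd (nat_lit 78) (nat_lit 0) (nat_lit 0) (XT.lf (nat_lit 0) (nat_lit 2333404445) (nat_lit 836) (nat_lit 10196110478) (nat_lit 912) (nat_lit 1740497929) (nat_lit 308) (nat_lit 5) (nat_lit 319) (nat_lit 5) (nat_lit 320) (nat_lit 5) (nat_lit 451) (nat_lit 432) (nat_lit 317)) (XT.lf (nat_lit 0) (nat_lit 10404035716) (nat_lit 836) (nat_lit 4012271622) (nat_lit 912) (nat_lit 76891542) (nat_lit 308) (nat_lit 5) (nat_lit 319) (nat_lit 5) (nat_lit 320) (nat_lit 5) (nat_lit 452) (nat_lit 432) (nat_lit 316))) (XT.nd (nat_lit 78) (nat_lit 0) (nat_lit 0) (XT.lf (nat_lit 0) (nat_lit 1652763034) (nat_lit 684) (nat_lit 10701210518) (nat_lit 76) (nat_lit 2367193273) (nat_lit 299) (nat_lit 5) (nat_lit 308) (nat_lit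 5) (nat_lit 300) (nat_lit 5) (nat_lit 453) (nat_lit 432) (nat_lit 315)) (XT.lf (nat_lit 0) (nat_lit 3500477033) (nat_lit 684) (nat_lit 2552773016) (nat_lit 76) (nat_lit 8900670040) (nat_lit 299) (nat_lit 5) (nat_lit 308) (nat_lit 5) (nat_lit 300) (nat_lit 5) (nat_lit 454) (nat_lit 432) (nat_lit 314))))))) (XT.nd (nat_lit 1170) (nat_lit 3800) (nat_lit 0) (XT.nd (nat_lit 546) (nat_lit 2432) (nat_lit 0) (XT.nd (nat_lit 234) (nat_lit 1216) (nat_lit 0) (XT.nd (nat_lit 78) (nat_lit 532) (nat_lit 0) (XT.lf (nat_lit 0) (nat_lit 5452204723) (nat_lit 684) (nat_lit 9253944825) (nat_lit 76) (nat_lit 486049496) (nat_lit 291) (nat_lit 5) (nat_lit 300) (nat_lit 5) (nat_lit 292) (nat_lit 5) (nat_lit 455) (nat_lit 432) (nat_lit 313)) (XT.nd (nat_lit 78) (nat_lit 532) (nat_lit 0) (XT.lf (nat_lit 0) (nat_lit 7535405464) (nat_lit 684) (nat_lit 773895155) (nat_lit 76) (nat_lit 7126138656) (nat_lit 291) (nat_lit 5) (nat_lit 300) (nat_lit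 5) (nat_lit 292) (nat_lit 5) (nat_lit 456) (nat_lit 432) (nat_lit 312)) (XT.lf (nat_lit 0) (nat_lit 8105920697) (nat_lit 532) (nat_lit 1640435376) (nat_lit 608) (nat_lit 5937663553) (nat_lit 284) (nat_lit 5) (nat_lit 291) (nat_lit 5) (nat_lit 292) (nat_lit 5) (nat_lit 457) (nat_lit 432) (nat_lit 311)))) (XT.nd (nat_lit 156) (nat_lit 608) (nat_lit 0) (XT.nd (nat_lit 78) (nat_lit 0) (nat_lit 0) (XT.lf (nat_lit 0) (nat_lit 1289950977) (nat_lit 608) (nat_lit 10791814879) (nat_lit 684) (nat_lit 3856548124) (nat_lit 276) (nat_lit 5) (nat_lit 284) (nat_lit 5) (nat_lit 285) (nat_lit 5) (nat_lit 458) (nat_lit 432) (nat_lit 310)) (XT.lf (nat_lit 0) (nat_lit 10549892887) (nat_lit 608) (nat_lit 4017768348) (nat_lit 684) (nat_lit 1630163729) (nat_lit 276) (nat_lit 5) (nat_lit 284) (nat_lit 5) (nat_lit 285) (nat_lit 5) (nat_lit 459) (nat_lit 432) (nat_lit 309))) (XT.nd (nat_lit 78) (nat_lit 0) (nat_lit 0) (XT.lf (nat_lit 0) (nat_lit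 702308603) (nat_lit 608) (nat_lit 12818019795) (nat_lit 76) (nat_lit 2943035126) (nat_lit 268) (nat_lit 5) (nat_lit 276) (nat_lit 5) (nat_lit 269) (nat_lit 5) (nat_lit 460) (nat_lit 432) (nat_lit 308)) (XT.lf (nat_lit 0) (nat_lit 3157639095) (nat_lit 608) (nat_lit 3471454347) (nat_lit 76) (nat_lit 10104721587) (nat_lit 268) (nat_lit 5) (nat_lit 276) (nat_lit 5) (nat_lit 269) (nat_lit 5) (nat_lit 461) (nat_lit 432) (nat_lit 307))))) (XT.nd (nat_lit 312) (nat_lit 988) (nat_lit 0) (XT.nd (nat_lit 156) (nat_lit 912) (nat_lit 0) (XT.nd (nat_lit 78) (nat_lit 0) (nat_lit 0) (XT.lf (nat_lit 0) (nat_lit 5740557990) (nat_lit 608) (nat_lit 10750871823) (nat_lit 76) (nat_lit 519332855) (nat_lit 261) (nat_lit 5) (nat_lit 269) (nat_lit 5) (nat_lit 262) (nat_lit 5) (nat_lit 462) (nat_lit 432) (nat_lit 306)) (XT.lf (nat_lit 0) (nat_lit 8490812374) (nat_lit 608) (nat_lit 1019438405) (nat_lit 76) (nat_lit 7783072948) (nat_lit 261)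 (nat_lit 5) (nat_lit 269) (nat_lit 5) (nat_lit 262) (nat_lit 5) (nat_lit 463) (nat_lit 432) (nat_lit 305))) (XT.nd (nat_lit 78) (nat_lit 456) (nat_lit 0) (XT.lf (nat_lit 0) (nat_lit 9170432343) (nat_lit 456) (nat_lit 2230431108) (nat_lit 532) (nat_lit 6181179912) (nat_lit 255) (nat_lit 5) (nat_lit 261) (nat_lit 5) (nat_lit 262) (nat_lit 5) (nat_lit 464) (nat_lit 432) (nat_lit 304)) (XT.lf (nat_lit 0) (nat_lit 1779122890) (nat_lit 456) (nat_lit 12686547681) (nat_lit 532) (nat_lit 3411730788) (nat_lit 249) (nat_lit 5) (nat_lit 255) (nat_lit 5) (nat_lit 256) (nat_lit 5) (nat_lit 465) (nat_lit 432) (nat_lit 303)))) (XT.nd (nat_lit 156) (nat_lit 456) (nat_lit 0) (XT.nd (nat_lit 78) (nat_lit 532) (nat_lit 0) (XT.lf (nat_lit 0) (nat_lit 12412973429) (nat_lit 456) (nat_lit 5305766128) (nat_lit 532) (nat_lit 459991400) (nat_lit 249) (nat_lit 5) (nat_lit 255) (nat_lit 5) (nat_lit 256) (nat_lit 5) (nat_lit 466) (nat_lit 432)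 (nat_lit 302)) (XT.lf (nat_lit 0) (nat_lit 2589880593) (nat_lit 532) (nat_lit 13574112162) (nat_lit 76) (nat_lit 2322566015) (nat_lit 242) (nat_lit 5) (nat_lit 249) (nat_lit 5) (nat_lit 243) (nat_lit 5) (nat_lit 467) (nat_lit 432) (nat_lit 301))) (XT.nd (nat_lit 78) (nat_lit 456) (nat_lit 0) (XT.lf (nat_lit 0) (nat_lit 5823210803) (nat_lit 532) (nat_lit 2842863401) (nat_lit 76) (nat_lit 10134374719) (nat_lit 242) (nat_lit 5) (nat_lit 249) (nat_lit 5) (nat_lit 243) (nat_lit 5) (nat_lit 468) (nat_lit 432) (nat_lit 300)) (XT.lf (nat_lit 0) (nat_lit 8361332295) (nat_lit 456) (nat_lit 862753525) (nat_lit 532) (nat_lit 9897553962) (nat_lit 236) (nat_lit 5) (nat_lit 242) (nat_lit 5) (nat_lit 243) (nat_lit 5) (nat_lit 469) (nat_lit 432) (nat_lit 299)))))) (XT.nd (nat_lit 624) (nat_lit 1748) (nat_lit 0) (XT.nd (nat_lit 312) (nat_lit 1140) (nat_lit 0) (XT.nd (nat_lit 156) (nat_lit 532) (nat_lit 0) (XT.nd (nat_lit 78) (nat_lit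 0) (nat_lit 0) (XT.lf (nat_lit 0) (nat_lit 435268351) (nat_lit 380) (nat_lit 12384180164) (nat_lit 456) (nat_lit 6630244349) (nat_lit 231) (nat_lit 5) (nat_lit 236) (nat_lit 5) (nat_lit 237) (nat_lit 5) (nat_lit 470) (nat_lit 432) (nat_lit 298)) (XT.lf (nat_lit 0) (nat_lit 12166397263) (nat_lit 380) (nat_lit 4463874624) (nat_lit 456) (nat_lit 3154087987) (nat_lit 231) (nat_lit 5) (nat_lit 236) (nat_lit 5) (nat_lit 237) (nat_lit 5) (nat_lit 471) (nat_lit 432) (nat_lit 297))) (XT.nd (nat_lit 78) (nat_lit 0) (nat_lit 0) (XT.lf (nat_lit 0) (nat_lit 484862891) (nat_lit 532) (nat_lit 15977970704) (nat_lit 76) (nat_lit 3664105772) (nat_lit 224) (nat_lit 5) (nat_lit 231) (nat_lit 5) (nat_lit 225) (nat_lit 5) (nat_lit 472) (nat_lit 432) (nat_lit 296)) (XT.lf (nat_lit 0) (nat_lit 4282273325) (nat_lit 532) (nat_lit 4140747645) (nat_lit 76) (nat_lit 12052458169) (nat_lit 224) (nat_lit 5) (nat_lit 231) (nat_lit 5) (nat_lit 225)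 (nat_lit 5) (nat_lit 473) (nat_lit 432) (nat_lit 295)))) (XT.nd (nat_lit 156) (nat_lit 760) (nat_lit 0) (XT.nd (nat_lit 78) (nat_lit 0) (nat_lit 0) (XT.lf (nat_lit 0) (nat_lit 8199812789) (nat_lit 380) (nat_lit 63683016) (nat_lit 456) (nat_lit 12568882897) (nat_lit 219) (nat_lit 5) (nat_lit 224) (nat_lit 5) (nat_lit 225) (nat_lit 5) (nat_lit 474) (nat_lit 432) (nat_lit 294)) (XT.lf (nat_lit 0) (nat_lit 12479724265) (nat_lit 456) (nat_lit 297734785) (nat_lit 76) (nat_lit 8419059408) (nat_lit 219) (nat_lit 5) (nat_lit 225) (nat_lit 5) (nat_lit 220) (nat_lit 5) (nat_lit 475) (nat_lit 432) (nat_lit 293))) (XT.nd (nat_lit 78) (nat_lit 380) (nat_lit 0) (XT.lf (nat_lit 0) (nat_lit 12641633703) (nat_lit 380) (nat_lit 4294400483) (nat_lit 456) (nat_lit 4632140657) (nat_lit 214) (nat_lit 5) (nat_lit 219) (nat_lit 5) (nat_lit 220) (nat_lit 5) (nat_lit 476) (nat_lit 432) (nat_lit 292)) (XT.lf (nat_lit 0) (nat_lit 4048995111)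 (nat_lit 380) (nat_lit 17553261253) (nat_lit 456) (nat_lit 346438136) (nat_lit 209) (nat_lit 5) (nat_lit 214) (nat_lit 5) (nat_lit 215) (nat_lit 5) (nat_lit 477) (nat_lit 432) (nat_lit 291))))) (XT.nd (nat_lit 312) (nat_lit 988) (nat_lit 0) (XT.nd (nat_lit 156) (nat_lit 304) (nat_lit 0) (XT.nd (nat_lit 78) (nat_lit 380) (nat_lit 0) (XT.lf (nat_lit 0) (nat_lit 4113616508) (nat_lit 456) (nat_lit 4835380534) (nat_lit 76) (nat_lit 13386705105) (nat_lit 208) (nat_lit 5) (nat_lit 214) (nat_lit 5) (nat_lit 209) (nat_lit 5) (nat_lit 478) (nat_lit 432) (nat_lit 290)) (XT.lf (nat_lit 0) (nat_lit 8776740325) (nat_lit 456) (nat_lit 13954603692) (nat_lit 76) (nat_lit 586431) (nat_lit 203) (nat_lit 5) (nat_lit 209) (nat_lit 5) (nat_lit 204) (nat_lit 5) (nat_lit 479) (nat_lit 432) (nat_lit 289))) (XT.nd (nat_lit 78) (nat_lit 304) (nat_lit 0) (XT.lf (nat_lit 0) (nat_lit 13709622578) (nat_lit 456) (nat_lit 341612780) (nat_lit 76)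 (nat_lit 9084914537) (nat_lit 203) (nat_lit 5) (nat_lit 209) (nat_lit 5) (nat_lit 204) (nat_lit 5) (nat_lit 480) (nat_lit 432) (nat_lit 288)) (XT.lf (nat_lit 0) (nat_lit 13940654147) (nat_lit 304) (nat_lit 4976027211) (nat_lit 380) (nat_lit 4632029096) (nat_lit 199) (nat_lit 5) (nat_lit 203) (nat_lit 5) (nat_lit 204) (nat_lit 5) (nat_lit 481) (nat_lit 432) (nat_lit 287)))) (XT.nd (nat_lit 156) (nat_lit 608) (nat_lit 0) (XT.nd (nat_lit 78) (nat_lit 0) (nat_lit 0) (XT.lf (nat_lit 0) (nat_lit 384335891) (nat_lit 380) (nat_lit 19251186785) (nat_lit 76) (nat_lit 4335516773) (nat_lit 194) (nat_lit 5) (nat_lit 199) (nat_lit 5) (nat_lit 195) (nat_lit 5) (nat_lit 482) (nat_lit 432) (nat_lit 286)) (XT.lf (nat_lit 0) (nat_lit 5597659326) (nat_lit 380) (nat_lit 4835941612) (nat_lit 76) (nat_lit 13966874736) (nat_lit 194) (nat_lit 5) (nat_lit 199) (nat_lit 5) (nat_lit 195) (nat_lit 5) (nat_lit 483) (nat_lit 432) (nat_lit 285)))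 (XT.nd (nat_lit 78) (nat_lit 304) (nat_lit 0) (XT.lf (nat_lit 0) (nat_lit 10199846440) (nat_lit 304) (nat_lit 858122945) (nat_lit 380) (nat_lit 13782108198) (nat_lit 190) (nat_lit 5) (nat_lit 194) (nat_lit 5) (nat_lit 195) (nat_lit 5) (nat_lit 484) (nat_lit 432) (nat_lit 284)) (XT.lf (nat_lit 0) (nat_lit 404254834) (nat_lit 304) (nat_lit 16410214012) (nat_lit 380) (nat_lit 8474427499) (nat_lit 186) (nat_lit 5) (nat_lit 190) (nat_lit 5) (nat_lit 191) (nat_lit 5) (nat_lit 485) (nat_lit 432) (nat_lit 283))))))))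
noncomputable def xc165 : XT := (XT.nd (nat_lit 2418) (nat_lit 3192) (nat_lit 0) (XT.nd (nat_lit 1170) (nat_lit 2128) (nat_lit 0) (XT.nd (nat_lit 546) (nat_lit 1292) (nat_lit 0) (XT.nd (nat_lit 234) (nat_lit 912) (nat_lit 0) (XT.nd (nat_lit 78) (nat_lit 380) (nat_lit 0) (XT.lf (nat_lit 0) (nat_lit 16180598679) (nat_lit 304) (nat_lit 6712044414) (nat_lit 380) (nat_lit 2854067377) (nat_lit 186) (nat_lit 5) (nat_lit 190) (nat_lit 5) (nat_lit 191) (nat_lit 5) (nat_lit 486) (nat_lit 432) (nat_lit 282)) (XT.nd (nat_lit 78) (nat_lit 0) (nat_lit 0) (XT.lf (nat_lit 0) (nat_lit 2963368645) (nat_lit 380) (nat_lit 19952284933) (nat_lit 76) (nat_lit 3299187191) (nat_lit 181) (nat_lit 5) (nat_lit 186) (nat_lit 5) (nat_lit 182) (nat_lit 5) (nat_lit 487) (nat_lit 432) (nat_lit 281)) (XT.lf (nat_lit 0) (nat_lit 9054916599) (nat_lit 380) (nat_lit 4038424474) (nat_lit 76) (nat_lit 13598117754) (nat_lit 181) (nat_lit 5) (nat_lit 186)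 (nat_lit 5) (nat_lit 182) (nat_lit 5) (nat_lit 488) (nat_lit 432) (nat_lit 280)))) (XT.nd (nat_lit 156) (nat_lit 380) (nat_lit 0) (XT.nd (nat_lit 78) (nat_lit 228) (nat_lit 0) (XT.lf (nat_lit 0) (nat_lit 12587987344) (nat_lit 304) (nat_lit 2855374167) (nat_lit 380) (nat_lit 11735589574) (nat_lit 177) (nat_lit 5) (nat_lit 181) (nat_lit 5) (nat_lit 182) (nat_lit 5) (nat_lit 489) (nat_lit 432) (nat_lit 279)) (XT.lf (nat_lit 0) (nat_lit 2071667890) (nat_lit 228) (nat_lit 20080020044) (nat_lit 304) (nat_lit 5525533496) (nat_lit 174) (nat_lit 5) (nat_lit 177) (nat_lit 5) (nat_lit 178) (nat_lit 5) (nat_lit 490) (nat_lit 432) (nat_lit 278))) (XT.nd (nat_lit 78) (nat_lit 304) (nat_lit 0) (XT.lf (nat_lit 0) (nat_lit 1024143737) (nat_lit 304) (nat_lit 8701438754) (nat_lit 76) (nat_lit 18459497055) (nat_lit 173) (nat_lit 5) (nat_lit 177) (nat_lit 5) (nat_lit 174) (nat_lit 5) (nat_lit 491) (nat_lit 432) (nat_lit 277)) (XT.lf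 (nat_lit 0) (nat_lit 7747821654) (nat_lit 380) (nat_lit 19897711298) (nat_lit 76) (nat_lit 1058342314) (nat_lit 169) (nat_lit 5) (nat_lit 174) (nat_lit 5) (nat_lit 170) (nat_lit 5) (nat_lit 492) (nat_lit 432) (nat_lit 276))))) (XT.nd (nat_lit 312) (nat_lit 760) (nat_lit 0) (XT.nd (nat_lit 156) (nat_lit 304) (nat_lit 0) (XT.nd (nat_lit 78) (nat_lit 228) (nat_lit 0) (XT.lf (nat_lit 0) (nat_lit 14851736895) (nat_lit 380) (nat_lit 2325742110) (nat_lit 76) (nat_lit 12055400192) (nat_lit 169) (nat_lit 5) (nat_lit 174) (nat_lit 5) (nat_lit 170) (nat_lit 5) (nat_lit 493) (nat_lit 432) (nat_lit 275)) (XT.lf (nat_lit 0) (nat_lit 16077062756) (nat_lit 228) (nat_lit 6239935463) (nat_lit 304) (nat_lit 7456308311) (nat_lit 166) (nat_lit 5) (nat_lit 169) (nat_lit 5) (nat_lit 170) (nat_lit 5) (nat_lit 494) (nat_lit 432) (nat_lit 274))) (XT.nd (nat_lit 78) (nat_lit 76) (nat_lit 0) (XT.lf (nat_lit 0) (nat_lit 4785119572) (nat_lit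 228) (nat_lit 25332862295) (nat_lit 304) (nat_lit 208612022) (nat_lit 163) (nat_lit 5) (nat_lit 166) (nat_lit 5) (nat_lit 167) (nat_lit 5) (nat_lit 495) (nat_lit 432) (nat_lit 273)) (XT.lf (nat_lit 0) (nat_lit 7310134087) (nat_lit 304) (nat_lit 6933675002) (nat_lit 76) (nat_lit 16644721700) (nat_lit 162) (nat_lit 5) (nat_lit 166) (nat_lit 5) (nat_lit 163) (nat_lit 5) (nat_lit 496) (nat_lit 432) (nat_lit 272)))) (XT.nd (nat_lit 156) (nat_lit 304) (nat_lit 0) (XT.nd (nat_lit 78) (nat_lit 228) (nat_lit 0) (XT.lf (nat_lit 0) (nat_lit 12463676160) (nat_lit 228) (nat_lit 2700327224) (nat_lit 304) (nat_lit 16299847963) (nat_lit 159) (nat_lit 5) (nat_lit 162) (nat_lit 5) (nat_lit 163) (nat_lit 5) (nat_lit 497) (nat_lit 432) (nat_lit 271)) (XT.lf (nat_lit 0) (nat_lit 440442377) (nat_lit 228) (nat_lit 22970316529) (nat_lit 304) (nat_lit 8640954636) (nat_lit 156) (nat_lit 5) (nat_lit 159) (nat_lit 5) (nat_lit 160) (nat_lit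 5) (nat_lit 498) (nat_lit 432) (nat_lit 270))) (XT.nd (nat_lit 78) (nat_lit 304) (nat_lit 0) (XT.lf (nat_lit 0) (nat_lit 20816717560) (nat_lit 228) (nat_lit 11300610735) (nat_lit 304) (nat_lit 533511092) (nat_lit 156) (nat_lit 5) (nat_lit 159) (nat_lit 5) (nat_lit 160) (nat_lit 5) (nat_lit 499) (nat_lit 432) (nat_lit 269)) (XT.lf (nat_lit 0) (nat_lit 7750103184) (nat_lit 304) (nat_lit 24652021473) (nat_lit 76) (nat_lit 860995519) (nat_lit 152) (nat_lit 5) (nat_lit 156) (nat_lit 5) (nat_lit 153) (nat_lit 5) (nat_lit 500) (nat_lit 432) (nat_lit 268)))))) (XT.nd (nat_lit 624) (nat_lit 988) (nat_lit 0) (XT.nd (nat_lit 312) (nat_lit 684) (nat_lit 0) (XT.nd (nat_lit 156) (nat_lit 228) (nat_lit 0) (XT.nd (nat_lit 78) (nat_lit 228) (nat_lit 0) (XT.lf (nat_lit 0) (nat_lit 16498304587) (nat_lit 304) (nat_lit 4105923724) (nat_lit 76) (nat_lit 13282578665) (nat_lit 152) (nat_lit 5) (nat_lit 156) (nat_lit 5) (nat_lit 153) (nat_lit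 5) (nat_lit 501) (nat_lit 432) (nat_lit 267)) (XT.lf (nat_lit 0) (nat_lit 17386460075) (nat_lit 228) (nat_lit 8284019207) (nat_lit 304) (nat_lit 8853879387) (nat_lit 149) (nat_lit 5) (nat_lit 152) (nat_lit 5) (nat_lit 153) (nat_lit 5) (nat_lit 502) (nat_lit 432) (nat_lit 266))) (XT.nd (nat_lit 78) (nat_lit 0) (nat_lit 0) (XT.lf (nat_lit 0) (nat_lit 60778972) (nat_lit 228) (nat_lit 30715078062) (nat_lit 76) (nat_lit 4401515319) (nat_lit 146) (nat_lit 5) (nat_lit 149) (nat_lit 5) (nat_lit 147) (nat_lit 5) (nat_lit 503) (nat_lit 432) (nat_lit 265)) (XT.lf (nat_lit 0) (nat_lit 9316169447) (nat_lit 228) (nat_lit 8963802844) (nat_lit 76) (nat_lit 17559836994) (nat_lit 146) (nat_lit 5) (nat_lit 149) (nat_lit 5) (nat_lit 147) (nat_lit 5) (nat_lit 504) (nat_lit 432) (nat_lit 264)))) (XT.nd (nat_lit 156) (nat_lit 456) (nat_lit 0) (XT.nd (nat_lit 78) (nat_lit 0) (nat_lit 0) (XT.lf (nat_lit 0) (nat_lit 13698159969) (nat_lit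 228) (nat_lit 5277352245) (nat_lit 304) (nat_lit 17542818486) (nat_lit 143) (nat_lit 5) (nat_lit 146) (nat_lit 5) (nat_lit 147) (nat_lit 5) (nat_lit 505) (nat_lit 432) (nat_lit 263)) (XT.lf (nat_lit 0) (nat_lit 29088707178) (nat_lit 304) (nat_lit 78852202) (nat_lit 76) (nat_lit 8044726314) (nat_lit 143) (nat_lit 5) (nat_lit 147) (nat_lit 5) (nat_lit 144) (nat_lit 5) (nat_lit 506) (nat_lit 432) (nat_lit 262))) (XT.nd (nat_lit 78) (nat_lit 228) (nat_lit 0) (XT.lf (nat_lit 0) (nat_lit 1825493477) (nat_lit 228) (nat_lit 14189771106) (nat_lit 76) (nat_lit 21902998153) (nat_lit 140) (nat_lit 5) (nat_lit 143) (nat_lit 5) (nat_lit 141) (nat_lit 5) (nat_lit 507) (nat_lit 432) (nat_lit 261)) (XT.lf (nat_lit 0) (nat_lit 9706309552) (nat_lit 228) (nat_lit 2292379931) (nat_lit 304) (nat_lit 26641648915) (nat_lit 137) (nat_lit 5) (nat_lit 140) (nat_lit 5) (nat_lit 141) (nat_lit 5) (nat_lit 508) (nat_lit 432) (nat_lit 260)))))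 (XT.nd (nat_lit 312) (nat_lit 532) (nat_lit 0) (XT.nd (nat_lit 156) (nat_lit 304) (nat_lit 0) (XT.nd (nat_lit 78) (nat_lit 152) (nat_lit 0) (XT.lf (nat_lit 0) (nat_lit 22730473891) (nat_lit 304) (nat_lit 4893844885) (nat_lit 76) (nat_lit 11752155861) (nat_lit 137) (nat_lit 5) (nat_lit 141) (nat_lit 5) (nat_lit 138) (nat_lit 5) (nat_lit 509) (nat_lit 432) (nat_lit 259)) (XT.lf (nat_lit 0) (nat_lit 20230923862) (nat_lit 152) (nat_lit 13765457366) (nat_lit 228) (nat_lit 6131948731) (nat_lit 135) (nat_lit 5) (nat_lit 137) (nat_lit 5) (nat_lit 138) (nat_lit 5) (nat_lit 510) (nat_lit 432) (nat_lit 258))) (XT.nd (nat_lit 78) (nat_lit 0) (nat_lit 0) (XT.lf (nat_lit 0) (nat_lit 4708602078) (nat_lit 304) (nat_lit 35546100138) (nat_lit 76) (nat_lit 643601851) (nat_lit 131) (nat_lit 5) (nat_lit 135) (nat_lit 5) (nat_lit 132) (nat_lit 5) (nat_lit 511) (nat_lit 432) (nat_lit 257)) (XT.lf (nat_lit 0) (nat_lit 16085370107) (nat_lit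 304) (nat_lit 10125906220) (nat_lit 76) (nat_lit 15468252368) (nat_lit 131) (nat_lit 5) (nat_lit 135) (nat_lit 5) (nat_lit 132) (nat_lit 5) (nat_lit 512) (nat_lit 432) (nat_lit 256)))) (XT.nd (nat_lit 156) (nat_lit 228) (nat_lit 0) (XT.nd (nat_lit 78) (nat_lit 152) (nat_lit 0) (XT.lf (nat_lit 0) (nat_lit 16367800128) (nat_lit 152) (nat_lit 11588163789) (nat_lit 228) (nat_lit 14523650534) (nat_lit 129) (nat_lit 5) (nat_lit 131) (nat_lit 5) (nat_lit 132) (nat_lit 5) (nat_lit 513) (nat_lit 432) (nat_lit 255)) (XT.lf (nat_lit 0) (nat_lit 530693624) (nat_lit 152) (nat_lit 39788948022) (nat_lit 228) (nat_lit 2979952220) (nat_lit 127) (nat_lit 5) (nat_lit 129) (nat_lit 5) (nat_lit 130) (nat_lit 5) (nat_lit 514) (nat_lit 432) (nat_lit 254))) (XT.nd (nat_lit 78) (nat_lit 152) (nat_lit 0) (XT.lf (nat_lit 0) (nat_lit 9112434197) (nat_lit 228) (nat_lit 15840037059) (nat_lit 76) (nat_lit 19177844670) (nat_lit 126) (nat_lit 5)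 (nat_lit 129) (nat_lit 5) (nat_lit 127) (nat_lit 5) (nat_lit 515) (nat_lit 432) (nat_lit 253)) (XT.lf (nat_lit 0) (nat_lit 12094927158) (nat_lit 152) (nat_lit 9524395350) (nat_lit 228) (nat_lit 23362403337) (nat_lit 124) (nat_lit 5) (nat_lit 126) (nat_lit 5) (nat_lit 127) (nat_lit 5) (nat_lit 516) (nat_lit 432) (nat_lit 252))))))) (XT.nd (nat_lit 1248) (nat_lit 1444) (nat_lit 0) (XT.nd (nat_lit 624) (nat_lit 836) (nat_lit 0) (XT.nd (nat_lit 312) (nat_lit 532) (nat_lit 0) (XT.nd (nat_lit 156) (nat_lit 152) (nat_lit 0) (XT.nd (nat_lit 78) (nat_lit 228) (nat_lit 0) (XT.lf (nat_lit 0) (nat_lit 34719535581) (nat_lit 228) (nat_lit 4732314214) (nat_lit 76) (nat_lit 6400284785) (nat_lit 124) (nat_lit 5) (nat_lit 127) (nat_lit 5) (nat_lit 125) (nat_lit 5) (nat_lit 517) (nat_lit 432) (nat_lit 251)) (XT.lf (nat_lit 0) (nat_lit 1765488429) (nat_lit 228) (nat_lit 22110794879) (nat_lit 76) (nat_lit 22862051346) (nat_lit 121)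 (nat_lit 5) (nat_lit 124) (nat_lit 5) (nat_lit 122) (nat_lit 5) (nat_lit 518) (nat_lit 432) (nat_lit 250))) (XT.nd (nat_lit 78) (nat_lit 0) (nat_lit 0) (XT.lf (nat_lit 0) (nat_lit 7339976455) (nat_lit 152) (nat_lit 7601131063) (nat_lit 228) (nat_lit 32703276259) (nat_lit 119) (nat_lit 5) (nat_lit 121) (nat_lit 5) (nat_lit 122) (nat_lit 5) (nat_lit 519) (nat_lit 432) (nat_lit 249)) (XT.lf (nat_lit 0) (nat_lit 28821100807) (nat_lit 228) (nat_lit 10541764982) (nat_lit 76) (nat_lit 9205475470) (nat_lit 119) (nat_lit 5) (nat_lit 122) (nat_lit 5) (nat_lit 120) (nat_lit 5) (nat_lit 520) (nat_lit 432) (nat_lit 248)))) (XT.nd (nat_lit 156) (nat_lit 152) (nat_lit 0) (XT.nd (nat_lit 78) (nat_lit 228) (nat_lit 0) (XT.lf (nat_lit 0) (nat_lit 20429297194) (nat_lit 152) (nat_lit 22955509958) (nat_lit 228) (nat_lit 6127190969) (nat_lit 117) (nat_lit 5) (nat_lit 119) (nat_lit 5) (nat_lit 120) (nat_lit 5) (nat_lit 521) (nat_lit 432)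 (nat_lit 247)) (XT.lf (nat_lit 0) (nat_lit 2019354307) (nat_lit 152) (nat_lit 5850520652) (nat_lit 228) (nat_lit 42608133141) (nat_lit 114) (nat_lit 5) (nat_lit 116) (nat_lit 5) (nat_lit 117) (nat_lit 5) (nat_lit 522) (nat_lit 432) (nat_lit 246))) (XT.nd (nat_lit 78) (nat_lit 152) (nat_lit 0) (XT.lf (nat_lit 0) (nat_lit 22569107491) (nat_lit 228) (nat_lit 16998116471) (nat_lit 76) (nat_lit 11891792355) (nat_lit 114) (nat_lit 5) (nat_lit 117) (nat_lit 5) (nat_lit 115) (nat_lit 5) (nat_lit 523) (nat_lit 432) (nat_lit 245)) (XT.lf (nat_lit 0) (nat_lit 15645973736) (nat_lit 152) (nat_lit 22267494666) (nat_lit 228) (nat_lit 14549861883) (nat_lit 112) (nat_lit 5) (nat_lit 114) (nat_lit 5) (nat_lit 115) (nat_lit 5) (nat_lit 524) (nat_lit 432) (nat_lit 244))))) (XT.nd (nat_lit 312) (nat_lit 456) (nat_lit 0) (XT.nd (nat_lit 156) (nat_lit 152) (nat_lit 0) (XT.nd (nat_lit 78) (nat_lit 152) (nat_lit 0) (XT.lf (nat_lit 0) (nat_lit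 385267735) (nat_lit 228) (nat_lit 3886265406) (nat_lit 76) (nat_lit 49221101566) (nat_lit 111) (nat_lit 5) (nat_lit 114) (nat_lit 5) (nat_lit 112) (nat_lit 5) (nat_lit 525) (nat_lit 432) (nat_lit 243)) (XT.lf (nat_lit 0) (nat_lit 15906334564) (nat_lit 228) (nat_lit 24205276152) (nat_lit 76) (nat_lit 14423976213) (nat_lit 109) (nat_lit 5) (nat_lit 112) (nat_lit 5) (nat_lit 110) (nat_lit 5) (nat_lit 526) (nat_lit 432) (nat_lit 242))) (XT.nd (nat_lit 78) (nat_lit 0) (nat_lit 0) (XT.lf (nat_lit 0) (nat_lit 10193176711) (nat_lit 152) (nat_lit 21875735083) (nat_lit 228) (nat_lit 23535639615) (nat_lit 107) (nat_lit 5) (nat_lit 109) (nat_lit 5) (nat_lit 110) (nat_lit 5) (nat_lit 527) (nat_lit 432) (nat_lit 241)) (XT.lf (nat_lit 0) (nat_lit 46112394203) (nat_lit 152) (nat_lit 2844415172) (nat_lit 228) (nat_lit 7741562196) (nat_lit 107) (nat_lit 5) (nat_lit 109) (nat_lit 5) (nat_lit 110) (nat_lit 5) (nat_lit 528) (nat_lit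 432) (nat_lit 240)))) (XT.nd (nat_lit 156) (nat_lit 152) (nat_lit 0) (XT.nd (nat_lit 78) (nat_lit 152) (nat_lit 0) (XT.lf (nat_lit 0) (nat_lit 8767374291) (nat_lit 152) (nat_lit 32283151461) (nat_lit 76) (nat_lit 16759799324) (nat_lit 105) (nat_lit 5) (nat_lit 107) (nat_lit 5) (nat_lit 106) (nat_lit 5) (nat_lit 529) (nat_lit 432) (nat_lit 239)) (XT.lf (nat_lit 0) (nat_lit 3952294975) (nat_lit 152) (nat_lit 21833904551) (nat_lit 228) (nat_lit 33162031672) (nat_lit 103) (nat_lit 5) (nat_lit 105) (nat_lit 5) (nat_lit 106) (nat_lit 5) (nat_lit 530) (nat_lit 432) (nat_lit 238))) (XT.nd (nat_lit 78) (nat_lit 152) (nat_lit 0) (XT.lf (nat_lit 0) (nat_lit 41929399318) (nat_lit 152) (nat_lit 1708339064) (nat_lit 228) (nat_lit 16472871691) (nat_lit 103) (nat_lit 5) (nat_lit 105) (nat_lit 5) (nat_lit 106) (nat_lit 5) (nat_lit 531) (nat_lit 432) (nat_lit 237)) (XT.lf (nat_lit 0) (nat_lit 1077365475) (nat_lit 152) (nat_lit 41370191594)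 (nat_lit 76) (nat_lit 18848864735) (nat_lit 101) (nat_lit 5) (nat_lit 103) (nat_lit 5) (nat_lit 102) (nat_lit 5) (nat_lit 532) (nat_lit 432) (nat_lit 236)))))) (XT.nd (nat_lit 624) (nat_lit 684) (nat_lit 0) (XT.nd (nat_lit 312) (nat_lit 456) (nat_lit 0) (XT.nd (nat_lit 156) (nat_lit 152) (nat_lit 0) (XT.nd (nat_lit 78) (nat_lit 152) (nat_lit 0) (XT.lf (nat_lit 0) (nat_lit 19021586955) (nat_lit 152) (nat_lit 3151594544) (nat_lit 76) (nat_lit 40333776520) (nat_lit 101) (nat_lit 5) (nat_lit 103) (nat_lit 5) (nat_lit 102) (nat_lit 5) (nat_lit 533) (nat_lit 432) (nat_lit 235)) (XT.lf (nat_lit 0) (nat_lit 36927294312) (nat_lit 152) (nat_lit 928157066) (nat_lit 228) (nat_lit 25887819486) (nat_lit 99) (nat_lit 5) (nat_lit 101) (nat_lit 5) (nat_lit 102) (nat_lit 5) (nat_lit 534) (nat_lit 432) (nat_lit 234))) (XT.nd (nat_lit 78) (nat_lit 76) (nat_lit 0) (XT.lf (nat_lit 0) (nat_lit 13308532329) (nat_lit 76) (nat_lit 44303653146)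 (nat_lit 152) (nat_lit 7393752038) (nat_lit 98) (nat_lit 5) (nat_lit 99) (nat_lit 5) (nat_lit 100) (nat_lit 4) (nat_lit 535) (nat_lit 432) (nat_lit 233)) (XT.lf (nat_lit 0) (nat_lit 11706727515) (nat_lit 152) (nat_lit 11242656270) (nat_lit 76) (nat_lit 43345368602) (nat_lit 97) (nat_lit 5) (nat_lit 99) (nat_lit 5) (nat_lit 98) (nat_lit 5) (nat_lit 536) (nat_lit 432) (nat_lit 232)))) (XT.nd (nat_lit 156) (nat_lit 228) (nat_lit 0) (XT.nd (nat_lit 78) (nat_lit 76) (nat_lit 0) (XT.lf (nat_lit 0) (nat_lit 30949805401) (nat_lit 152) (nat_lit 575787578) (nat_lit 228) (nat_lit 36085623234) (nat_lit 95) (nat_lit 5) (nat_lit 97) (nat_lit 5) (nat_lit 98) (nat_lit 5) (nat_lit 537) (nat_lit 432) (nat_lit 231)) (XT.lf (nat_lit 0) (nat_lit 5559434976) (nat_lit 76) (nat_lit 46760148498) (nat_lit 152) (nat_lit 16636173737) (nat_lit 94) (nat_lit 5) (nat_lit 95) (nat_lit 5) (nat_lit 96) (nat_lit 4) (nat_lit 538) (nat_lit 432) (nat_lit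 230))) (XT.nd (nat_lit 78) (nat_lit 152) (nat_lit 0) (XT.lf (nat_lit 0) (nat_lit 3706535007) (nat_lit 152) (nat_lit 20579797550) (nat_lit 76) (nat_lit 46042040591) (nat_lit 93) (nat_lit 5) (nat_lit 95) (nat_lit 5) (nat_lit 94) (nat_lit 5) (nat_lit 539) (nat_lit 432) (nat_lit 229)) (XT.lf (nat_lit 0) (nat_lit 23814733633) (nat_lit 152) (nat_lit 735929061) (nat_lit 228) (nat_lit 47179798207) (nat_lit 91) (nat_lit 5) (nat_lit 93) (nat_lit 5) (nat_lit 94) (nat_lit 5) (nat_lit 540) (nat_lit 432) (nat_lit 228))))) (XT.nd (nat_lit 312) (nat_lit 380) (nat_lit 0) (XT.nd (nat_lit 156) (nat_lit 228) (nat_lit 0) (XT.nd (nat_lit 78) (nat_lit 76) (nat_lit 0) (XT.lf (nat_lit 0) (nat_lit 46452680424) (nat_lit 228) (nat_lit 3440060393) (nat_lit 76) (nat_lit 23268893509) (nat_lit 91) (nat_lit 5) (nat_lit 94) (nat_lit 5) (nat_lit 92) (nat_lit 4) (nat_lit 541) (nat_lit 432) (nat_lit 227)) (XT.lf (nat_lit 0) (nat_lit 43199258030) (nat_lit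 76) (nat_lit 26231738868) (nat_lit 152) (nat_lit 5192168932) (nat_lit 90) (nat_lit 5) (nat_lit 91) (nat_lit 5) (nat_lit 92) (nat_lit 4) (nat_lit 542) (nat_lit 432) (nat_lit 226))) (XT.nd (nat_lit 78) (nat_lit 0) (nat_lit 0) (XT.lf (nat_lit 0) (nat_lit 15309740725) (nat_lit 152) (nat_lit 1508177073) (nat_lit 228) (nat_lit 59300363299) (nat_lit 87) (nat_lit 5) (nat_lit 89) (nat_lit 5) (nat_lit 90) (nat_lit 5) (nat_lit 543) (nat_lit 432) (nat_lit 225)) (XT.lf (nat_lit 0) (nat_lit 39931406968) (nat_lit 228) (nat_lit 13850328394) (nat_lit 76) (nat_lit 23858548534) (nat_lit 87) (nat_lit 5) (nat_lit 90) (nat_lit 5) (nat_lit 88) (nat_lit 4) (nat_lit 544) (nat_lit 432) (nat_lit 224)))) (XT.nd (nat_lit 156) (nat_lit 76) (nat_lit 0) (XT.nd (nat_lit 78) (nat_lit 228) (nat_lit 0) (XT.lf (nat_lit 0) (nat_lit 35182094291) (nat_lit 76) (nat_lit 28906132175) (nat_lit 152) (nat_lit 15109222564) (nat_lit 86) (nat_lit 5) (nat_lit 87)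 (nat_lit 5) (nat_lit 88) (nat_lit 4) (nat_lit 545) (nat_lit 432) (nat_lit 223)) (XT.lf (nat_lit 0) (nat_lit 5187459853) (nat_lit 152) (nat_lit 3009482055) (nat_lit 228) (nat_lit 72596394159) (nat_lit 83) (nat_lit 5) (nat_lit 85) (nat_lit 5) (nat_lit 86) (nat_lit 5) (nat_lit 546) (nat_lit 432) (nat_lit 222))) (XT.nd (nat_lit 78) (nat_lit 76) (nat_lit 0) (XT.lf (nat_lit 0) (nat_lit 32571765330) (nat_lit 228) (nat_lit 26042748312) (nat_lit 76) (nat_lit 23797903574) (nat_lit 83) (nat_lit 5) (nat_lit 86) (nat_lit 5) (nat_lit 84) (nat_lit 4) (nat_lit 547) (nat_lit 432) (nat_lit 221)) (XT.lf (nat_lit 0) (nat_lit 25468494833) (nat_lit 76) (nat_lit 32480858568) (nat_lit 152) (nat_lit 26122571817) (nat_lit 82) (nat_lit 5) (nat_lit 83) (nat_lit 5) (nat_lit 84) (nat_lit 4) (nat_lit 548) (nat_lit 432) (nat_lit 220))))))))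
noncomputable def xc166 : XT := (XT.nd (nat_lit 55692) (nat_lit 0) (nat_lit 6840) (XT.nd (nat_lit 54444) (nat_lit 0) (nat_lit 14364) (XT.nd (nat_lit 53820) (nat_lit 0) (nat_lit 19228) (XT.nd (nat_lit 53508) (nat_lit 0) (nat_lit 20140) (XT.nd (nat_lit 78) (nat_lit 228) (nat_lit 0) (XT.lf (nat_lit 0) (nat_lit 79053020741) (nat_lit 76) (nat_lit 5295166810) (nat_lit 152) (nat_lit 1425233374) (nat_lit 82) (nat_lit 5) (nat_lit 83) (nat_lit 5) (nat_lit 84) (nat_lit 4) (nat_lit 549) (nat_lit 432) (nat_lit 219)) (XT.nd (nat_lit 53352) (nat_lit 0) (nat_lit 20140) (XT.lf (nat_lit 0) (nat_lit 24222188341) (nat_lit 228) (nat_lit 40322898099) (nat_lit 76) (nat_lit 22953617932) (nat_lit 79) (nat_lit 5) (nat_lit 82) (nat_lit 5) (nat_lit 80) (nat_lit 4) (nat_lit 550) (nat_lit 432) (nat_lit 218)) (XT.lf (nat_lit 0) (nat_lit 1151908292) (nat_lit 0) (nat_lit 1151908292) (nat_lit 1140) (nat_lit 3270161563) (nat_lit 344) (nat_lit 5)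 (nat_lit 344) (nat_lit 3) (nat_lit 359) (nat_lit 3) (nat_lit 433) (nat_lit 433) (nat_lit 334)))) (XT.nd (nat_lit 156) (nat_lit 0) (nat_lit 76) (XT.nd (nat_lit 78) (nat_lit 0) (nat_lit 0) (XT.lf (nat_lit 0) (nat_lit 5259930547) (nat_lit 1140) (nat_lit 3313293099) (nat_lit 1216) (nat_lit 2724429792) (nat_lit 344) (nat_lit 5) (nat_lit 359) (nat_lit 3) (nat_lit 360) (nat_lit 5) (nat_lit 434) (nat_lit 433) (nat_lit 333)) (XT.lf (nat_lit 76) (nat_lit 2395803870) (nat_lit 0) (nat_lit 3560219779) (nat_lit 1216) (nat_lit 5495092085) (nat_lit 345) (nat_lit 5) (nat_lit 344) (nat_lit 5) (nat_lit 360) (nat_lit 5) (nat_lit 435) (nat_lit 433) (nat_lit 332))) (XT.nd (nat_lit 78) (nat_lit 0) (nat_lit 0) (XT.lf (nat_lit 0) (nat_lit 6701197223) (nat_lit 1140) (nat_lit 3292055020) (nat_lit 1216) (nat_lit 1615084736) (nat_lit 345) (nat_lit 5) (nat_lit 360) (nat_lit 5) (nat_lit 361) (nat_lit 5) (nat_lit 436) (nat_lit 433) (nat_lit 331))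 (XT.lf (nat_lit 76) (nat_lit 2648663029) (nat_lit 0) (nat_lit 4860382915) (nat_lit 1216) (nat_lit 4260020302) (nat_lit 346) (nat_lit 5) (nat_lit 345) (nat_lit 5) (nat_lit 361) (nat_lit 5) (nat_lit 437) (nat_lit 433) (nat_lit 330))))) (XT.nd (nat_lit 312) (nat_lit 1064) (nat_lit 0) (XT.nd (nat_lit 156) (nat_lit 0) (nat_lit 0) (XT.nd (nat_lit 78) (nat_lit 0) (nat_lit 0) (XT.lf (nat_lit 0) (nat_lit 8358971030) (nat_lit 1140) (nat_lit 3115394213) (nat_lit 1216) (nat_lit 459717876) (nat_lit 346) (nat_lit 5) (nat_lit 361) (nat_lit 5) (nat_lit 362) (nat_lit 5) (nat_lit 438) (nat_lit 433) (nat_lit 329)) (XT.lf (nat_lit 76) (nat_lit 3069468965) (nat_lit 0) (nat_lit 6223299668) (nat_lit 1216) (nat_lit 2809531549) (nat_lit 347) (nat_lit 5) (nat_lit 346) (nat_lit 5) (nat_lit 362) (nat_lit 5) (nat_lit 439) (nat_lit 433) (nat_lit 328))) (XT.nd (nat_lit 78) (nat_lit 0) (nat_lit 76) (XT.lf (nat_lit 76) (nat_lit 9491789012) (nat_lit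 0) (nat_lit 775442970) (nat_lit 1216) (nat_lit 2007953120) (nat_lit 347) (nat_lit 5) (nat_lit 346) (nat_lit 5) (nat_lit 362) (nat_lit 5) (nat_lit 440) (nat_lit 433) (nat_lit 327)) (XT.lf (nat_lit 76) (nat_lit 3666364828) (nat_lit 0) (nat_lit 7668097107) (nat_lit 1216) (nat_lit 1116889525) (nat_lit 348) (nat_lit 5) (nat_lit 347) (nat_lit 5) (nat_lit 363) (nat_lit 5) (nat_lit 441) (nat_lit 433) (nat_lit 326)))) (XT.nd (nat_lit 156) (nat_lit 0) (nat_lit 0) (XT.nd (nat_lit 78) (nat_lit 1140) (nat_lit 0) (XT.lf (nat_lit 76) (nat_lit 10346748676) (nat_lit 0) (nat_lit 2104887254) (nat_lit 1216) (nat_lit 180629913) (nat_lit 348) (nat_lit 5) (nat_lit 347) (nat_lit 5) (nat_lit 363) (nat_lit 5) (nat_lit 442) (nat_lit 433) (nat_lit 325)) (XT.lf (nat_lit 0) (nat_lit 829420744) (nat_lit 1216) (nat_lit 8376347521) (nat_lit 1292) (nat_lit 3610784292) (nat_lit 332) (nat_lit 5) (nat_lit 348) (nat_lit 5) (nat_lit 349) (nat_lit 5)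 (nat_lit 443) (nat_lit 433) (nat_lit 324))) (XT.nd (nat_lit 78) (nat_lit 0) (nat_lit 76) (XT.lf (nat_lit 0) (nat_lit 1893296243) (nat_lit 1216) (nat_lit 1626517197) (nat_lit 1292) (nat_lit 9485686943) (nat_lit 332) (nat_lit 5) (nat_lit 348) (nat_lit 5) (nat_lit 349) (nat_lit 5) (nat_lit 444) (nat_lit 433) (nat_lit 323)) (XT.lf (nat_lit 0) (nat_lit 3047702470) (nat_lit 1216) (nat_lit 7802678081) (nat_lit 1292) (nat_lit 2347978410) (nat_lit 333) (nat_lit 5) (nat_lit 349) (nat_lit 5) (nat_lit 350) (nat_lit 5) (nat_lit 445) (nat_lit 433) (nat_lit 322)))))) (XT.nd (nat_lit 624) (nat_lit 2964) (nat_lit 0) (XT.nd (nat_lit 312) (nat_lit 1976) (nat_lit 0) (XT.nd (nat_lit 156) (nat_lit 0) (nat_lit 76) (XT.nd (nat_lit 78) (nat_lit 0) (nat_lit 76) (XT.lf (nat_lit 0) (nat_lit 4272082349) (nat_lit 1216) (nat_lit 782209654) (nat_lit 1292) (nat_lit 8341651782) (nat_lit 333) (nat_lit 5) (nat_lit 349) (nat_lit 5) (nat_lit 350) (nat_lit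 5) (nat_lit 446) (nat_lit 433) (nat_lit 321)) (XT.lf (nat_lit 0) (nat_lit 5590131290) (nat_lit 1216) (nat_lit 7042724694) (nat_lit 1292) (nat_lit 964892749) (nat_lit 334) (nat_lit 5) (nat_lit 350) (nat_lit 5) (nat_lit 351) (nat_lit 5) (nat_lit 447) (nat_lit 433) (nat_lit 320))) (XT.nd (nat_lit 78) (nat_lit 0) (nat_lit 0) (XT.lf (nat_lit 76) (nat_lit 265521061) (nat_lit 0) (nat_lit 6727515553) (nat_lit 1292) (nat_lit 6811212459) (nat_lit 335) (nat_lit 5) (nat_lit 334) (nat_lit 5) (nat_lit 351) (nat_lit 5) (nat_lit 448) (nat_lit 433) (nat_lit 319)) (XT.lf (nat_lit 76) (nat_lit 7924928536) (nat_lit 0) (nat_lit 569286004) (nat_lit 1292) (nat_lit 5521044987) (nat_lit 335) (nat_lit 5) (nat_lit 334) (nat_lit 5) (nat_lit 351) (nat_lit 5) (nat_lit 449) (nat_lit 433) (nat_lit 318)))) (XT.nd (nat_lit 156) (nat_lit 912) (nat_lit 0) (XT.nd (nat_lit 78) (nat_lit 0) (nat_lit 0) (XT.lf (nat_lit 0) (nat_lit 1543588115) (nat_lit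 1216) (nat_lit 8552703626) (nat_lit 1292) (nat_lit 4134633288) (nat_lit 319) (nat_lit 5) (nat_lit 335) (nat_lit 5) (nat_lit 336) (nat_lit 5) (nat_lit 450) (nat_lit 433) (nat_lit 317)) (XT.lf (nat_lit 0) (nat_lit 9513194439) (nat_lit 1216) (nat_lit 2286146349) (nat_lit 1292) (nat_lit 2652133050) (nat_lit 319) (nat_lit 5) (nat_lit 335) (nat_lit 5) (nat_lit 336) (nat_lit 5) (nat_lit 451) (nat_lit 433) (nat_lit 316))) (XT.nd (nat_lit 78) (nat_lit 76) (nat_lit 0) (XT.lf (nat_lit 0) (nat_lit 3050205851) (nat_lit 836) (nat_lit 10558922143) (nat_lit 912) (nat_lit 1067842330) (nat_lit 308) (nat_lit 5) (nat_lit 319) (nat_lit 5) (nat_lit 320) (nat_lit 5) (nat_lit 452) (nat_lit 433) (nat_lit 315)) (XT.lf (nat_lit 0) (nat_lit 612372107) (nat_lit 912) (nat_lit 3569354149) (nat_lit 76) (nat_lit 10725561381) (nat_lit 307) (nat_lit 5) (nat_lit 319) (nat_lit 5) (nat_lit 308) (nat_lit 5) (nat_lit 453) (nat_lit 433) (nat_lit 314)))))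 (XT.nd (nat_lit 312) (nat_lit 1748) (nat_lit 0) (XT.nd (nat_lit 156) (nat_lit 608) (nat_lit 0) (XT.nd (nat_lit 78) (nat_lit 0) (nat_lit 0) (XT.lf (nat_lit 0) (nat_lit 2377990905) (nat_lit 684) (nat_lit 10366115807) (nat_lit 76) (nat_lit 2398397321) (nat_lit 299) (nat_lit 5) (nat_lit 308) (nat_lit 5) (nat_lit 300) (nat_lit 5) (nat_lit 454) (nat_lit 433) (nat_lit 313)) (XT.lf (nat_lit 0) (nat_lit 4261457344) (nat_lit 684) (nat_lit 1992335792) (nat_lit 76) (nat_lit 9129037957) (nat_lit 299) (nat_lit 5) (nat_lit 308) (nat_lit 5) (nat_lit 300) (nat_lit 5) (nat_lit 455) (nat_lit 433) (nat_lit 312))) (XT.nd (nat_lit 78) (nat_lit 0) (nat_lit 0) (XT.lf (nat_lit 0) (nat_lit 6258577677) (nat_lit 684) (nat_lit 8881356755) (nat_lit 76) (nat_lit 488719566) (nat_lit 291) (nat_lit 5) (nat_lit 300) (nat_lit 5) (nat_lit 292) (nat_lit 5) (nat_lit 456) (nat_lit 433) (nat_lit 311)) (XT.lf (nat_lit 0) (nat_lit 8385551911) (nat_lit 684)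 (nat_lit 165843645) (nat_lit 76) (nat_lit 7328358335) (nat_lit 291) (nat_lit 5) (nat_lit 300) (nat_lit 5) (nat_lit 292) (nat_lit 5) (nat_lit 457) (nat_lit 433) (nat_lit 310)))) (XT.nd (nat_lit 156) (nat_lit 608) (nat_lit 0) (XT.nd (nat_lit 78) (nat_lit 608) (nat_lit 0) (XT.lf (nat_lit 0) (nat_lit 8974177776) (nat_lit 532) (nat_lit 1676484696) (nat_lit 608) (nat_lit 5485494996) (nat_lit 284) (nat_lit 5) (nat_lit 291) (nat_lit 5) (nat_lit 292) (nat_lit 5) (nat_lit 458) (nat_lit 433) (nat_lit 309)) (XT.lf (nat_lit 0) (nat_lit 1965677960) (nat_lit 608) (nat_lit 11078880161) (nat_lit 684) (nat_lit 3353870561) (nat_lit 276) (nat_lit 5) (nat_lit 284) (nat_lit 5) (nat_lit 285) (nat_lit 5) (nat_lit 459) (nat_lit 433) (nat_lit 308))) (XT.nd (nat_lit 78) (nat_lit 608) (nat_lit 0) (XT.lf (nat_lit 0) (nat_lit 11484863901) (nat_lit 608) (nat_lit 4102680850) (nat_lit 684) (nat_lit 1078705529) (nat_lit 276) (nat_lit 5) (nat_lit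 284) (nat_lit 5) (nat_lit 285) (nat_lit 5) (nat_lit 460) (nat_lit 433) (nat_lit 307)) (XT.lf (nat_lit 0) (nat_lit 1301326541) (nat_lit 608) (nat_lit 12561626144) (nat_lit 76) (nat_lit 3076950829) (nat_lit 268) (nat_lit 5) (nat_lit 276) (nat_lit 5) (nat_lit 269) (nat_lit 5) (nat_lit 461) (nat_lit 433) (nat_lit 306))))))) (XT.nd (nat_lit 1248) (nat_lit 3420) (nat_lit 0) (XT.nd (nat_lit 624) (nat_lit 2128) (nat_lit 0) (XT.nd (nat_lit 312) (nat_lit 988) (nat_lit 0) (XT.nd (nat_lit 156) (nat_lit 456) (nat_lit 0) (XT.nd (nat_lit 78) (nat_lit 532) (nat_lit 0) (XT.lf (nat_lit 0) (nat_lit 3813483491) (nat_lit 608) (nat_lit 2953331720) (nat_lit 76) (nat_lit 10452159010) (nat_lit 268) (nat_lit 5) (nat_lit 276) (nat_lit 5) (nat_lit 269) (nat_lit 5) (nat_lit 462) (nat_lit 433) (nat_lit 305)) (XT.lf (nat_lit 0) (nat_lit 6464099095) (nat_lit 608) (nat_lit 10441319696) (nat_lit 76) (nat_lit 599105859) (nat_lit 261) (nat_lit 5)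 (nat_lit 269) (nat_lit 5) (nat_lit 262) (nat_lit 5) (nat_lit 463) (nat_lit 433) (nat_lit 304))) (XT.nd (nat_lit 78) (nat_lit 456) (nat_lit 0) (XT.lf (nat_lit 0) (nat_lit 9280803119) (nat_lit 608) (nat_lit 436353322) (nat_lit 76) (nat_lit 8078888456) (nat_lit 261) (nat_lit 5) (nat_lit 269) (nat_lit 5) (nat_lit 262) (nat_lit 5) (nat_lit 464) (nat_lit 433) (nat_lit 303)) (XT.lf (nat_lit 0) (nat_lit 10053197193) (nat_lit 456) (nat_lit 2215209375) (nat_lit 532) (nat_lit 5825312628) (nat_lit 255) (nat_lit 5) (nat_lit 261) (nat_lit 5) (nat_lit 262) (nat_lit 5) (nat_lit 465) (nat_lit 433) (nat_lit 302)))) (XT.nd (nat_lit 156) (nat_lit 456) (nat_lit 0) (XT.nd (nat_lit 78) (nat_lit 76) (nat_lit 0) (XT.lf (nat_lit 0) (nat_lit 2449040004) (nat_lit 456) (nat_lit 12967504695) (nat_lit 532) (nat_lit 2981652209) (nat_lit 249) (nat_lit 5) (nat_lit 255) (nat_lit 5) (nat_lit 256) (nat_lit 5) (nat_lit 466) (nat_lit 433) (nat_lit 301))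 (XT.lf (nat_lit 0) (nat_lit 42290021) (nat_lit 532) (nat_lit 5325484747) (nat_lit 76) (nat_lit 13341231417) (nat_lit 248) (nat_lit 5) (nat_lit 255) (nat_lit 5) (nat_lit 249) (nat_lit 5) (nat_lit 467) (nat_lit 433) (nat_lit 300))) (XT.nd (nat_lit 78) (nat_lit 0) (nat_lit 0) (XT.lf (nat_lit 0) (nat_lit 3166452285) (nat_lit 532) (nat_lit 13364666145) (nat_lit 76) (nat_lit 2495053117) (nat_lit 242) (nat_lit 5) (nat_lit 249) (nat_lit 5) (nat_lit 243) (nat_lit 5) (nat_lit 468) (nat_lit 433) (nat_lit 299)) (XT.lf (nat_lit 0) (nat_lit 6482252054) (nat_lit 532) (nat_lit 2329441166) (nat_lit 76) (nat_lit 10538221613) (nat_lit 242) (nat_lit 5) (nat_lit 249) (nat_lit 5) (nat_lit 243) (nat_lit 5) (nat_lit 469) (nat_lit 433) (nat_lit 298))))) (XT.nd (nat_lit 312) (nat_lit 760) (nat_lit 0) (XT.nd (nat_lit 156) (nat_lit 532) (nat_lit 0) (XT.nd (nat_lit 78) (nat_lit 380) (nat_lit 0) (XT.lf (nat_lit 0) (nat_lit 9205010714) (nat_lit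 456) (nat_lit 771734201) (nat_lit 532) (nat_lit 9704249257) (nat_lit 236) (nat_lit 5) (nat_lit 242) (nat_lit 5) (nat_lit 243) (nat_lit 5) (nat_lit 470) (nat_lit 433) (nat_lit 297)) (XT.lf (nat_lit 0) (nat_lit 1048394653) (nat_lit 380) (nat_lit 12624570834) (nat_lit 456) (nat_lit 6346133936) (nat_lit 231) (nat_lit 5) (nat_lit 236) (nat_lit 5) (nat_lit 237) (nat_lit 5) (nat_lit 471) (nat_lit 433) (nat_lit 296))) (XT.nd (nat_lit 78) (nat_lit 532) (nat_lit 0) (XT.lf (nat_lit 0) (nat_lit 13113979716) (nat_lit 380) (nat_lit 4470475586) (nat_lit 456) (nat_lit 2779761361) (nat_lit 231) (nat_lit 5) (nat_lit 236) (nat_lit 5) (nat_lit 237) (nat_lit 5) (nat_lit 472) (nat_lit 433) (nat_lit 295)) (XT.lf (nat_lit 0) (nat_lit 952734815) (nat_lit 532) (nat_lit 15859065925) (nat_lit 76) (nat_lit 3905332182) (nat_lit 224) (nat_lit 5) (nat_lit 231) (nat_lit 5) (nat_lit 225) (nat_lit 5) (nat_lit 473) (nat_lit 433) (nat_lit 294)))) (XT.nd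 (nat_lit 156) (nat_lit 380) (nat_lit 0) (XT.nd (nat_lit 78) (nat_lit 380) (nat_lit 0) (XT.lf (nat_lit 0) (nat_lit 4850863891) (nat_lit 532) (nat_lit 3684150753) (nat_lit 76) (nat_lit 12541510785) (nat_lit 224) (nat_lit 5) (nat_lit 231) (nat_lit 5) (nat_lit 225) (nat_lit 5) (nat_lit 474) (nat_lit 433) (nat_lit 293)) (XT.lf (nat_lit 0) (nat_lit 8944969686) (nat_lit 456) (nat_lit 12424156217) (nat_lit 76) (nat_lit 75203096) (nat_lit 219) (nat_lit 5) (nat_lit 225) (nat_lit 5) (nat_lit 220) (nat_lit 5) (nat_lit 475) (nat_lit 433) (nat_lit 292))) (XT.nd (nat_lit 78) (nat_lit 0) (nat_lit 0) (XT.lf (nat_lit 0) (nat_lit 268233538) (nat_lit 380) (nat_lit 13010013823) (nat_lit 456) (nat_lit 8541429124) (nat_lit 214) (nat_lit 5) (nat_lit 219) (nat_lit 5) (nat_lit 220) (nat_lit 5) (nat_lit 476) (nat_lit 433) (nat_lit 291)) (XT.lf (nat_lit 0) (nat_lit 13584963916) (nat_lit 380) (nat_lit 4273848292) (nat_lit 456) (nat_lit 4343953780)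 (nat_lit 214) (nat_lit 5) (nat_lit 219) (nat_lit 5) (nat_lit 220) (nat_lit 5) (nat_lit 477) (nat_lit 433) (nat_lit 290)))))) (XT.nd (nat_lit 624) (nat_lit 1596) (nat_lit 0) (XT.nd (nat_lit 312) (nat_lit 684) (nat_lit 0) (XT.nd (nat_lit 156) (nat_lit 684) (nat_lit 0) (XT.nd (nat_lit 78) (nat_lit 0) (nat_lit 0) (XT.lf (nat_lit 0) (nat_lit 63685261) (nat_lit 456) (nat_lit 17855556231) (nat_lit 76) (nat_lit 4675597708) (nat_lit 208) (nat_lit 5) (nat_lit 214) (nat_lit 5) (nat_lit 209) (nat_lit 5) (nat_lit 478) (nat_lit 433) (nat_lit 289)) (XT.lf (nat_lit 0) (nat_lit 4638533234) (nat_lit 456) (nat_lit 4419564222) (nat_lit 76) (nat_lit 13935618437) (nat_lit 208) (nat_lit 5) (nat_lit 214) (nat_lit 5) (nat_lit 209) (nat_lit 5) (nat_lit 479) (nat_lit 433) (nat_lit 288))) (XT.nd (nat_lit 78) (nat_lit 304) (nat_lit 0) (XT.lf (nat_lit 0) (nat_lit 9436735188) (nat_lit 456) (nat_lit 13807536778) (nat_lit 76) (nat_lit 157703896)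 (nat_lit 203) (nat_lit 5) (nat_lit 209) (nat_lit 5) (nat_lit 204) (nat_lit 5) (nat_lit 480) (nat_lit 433) (nat_lit 287)) (XT.lf (nat_lit 0) (nat_lit 201295006) (nat_lit 304) (nat_lit 14306689718) (nat_lit 380) (nat_lit 9310626086) (nat_lit 199) (nat_lit 5) (nat_lit 203) (nat_lit 5) (nat_lit 204) (nat_lit 5) (nat_lit 481) (nat_lit 433) (nat_lit 286)))) (XT.nd (nat_lit 156) (nat_lit 304) (nat_lit 0) (XT.nd (nat_lit 78) (nat_lit 380) (nat_lit 0) (XT.lf (nat_lit 0) (nat_lit 14902717361) (nat_lit 304) (nat_lit 4960613068) (nat_lit 380) (nat_lit 4380455833) (nat_lit 199) (nat_lit 5) (nat_lit 203) (nat_lit 5) (nat_lit 204) (nat_lit 5) (nat_lit 482) (nat_lit 433) (nat_lit 285)) (XT.lf (nat_lit 0) (nat_lit 774500797) (nat_lit 380) (nat_lit 19272958356) (nat_lit 76) (nat_lit 4631342022) (nat_lit 194) (nat_lit 5) (nat_lit 199) (nat_lit 5) (nat_lit 195) (nat_lit 5) (nat_lit 483) (nat_lit 433) (nat_lit 284))) (XT.nd (nat_lit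 78) (nat_lit 304) (nat_lit 0) (XT.lf (nat_lit 0) (nat_lit 6133195736) (nat_lit 380) (nat_lit 4441443129) (nat_lit 76) (nat_lit 14546812771) (nat_lit 194) (nat_lit 5) (nat_lit 199) (nat_lit 5) (nat_lit 195) (nat_lit 5) (nat_lit 484) (nat_lit 433) (nat_lit 283)) (XT.lf (nat_lit 0) (nat_lit 11040128596) (nat_lit 304) (nat_lit 711615403) (nat_lit 380) (nat_lit 13822665030) (nat_lit 190) (nat_lit 5) (nat_lit 194) (nat_lit 5) (nat_lit 195) (nat_lit 5) (nat_lit 485) (nat_lit 433) (nat_lit 282))))) (XT.nd (nat_lit 312) (nat_lit 912) (nat_lit 0) (XT.nd (nat_lit 156) (nat_lit 380) (nat_lit 0) (XT.nd (nat_lit 78) (nat_lit 0) (nat_lit 0) (XT.lf (nat_lit 0) (nat_lit 954555889) (nat_lit 304) (nat_lit 16722618639) (nat_lit 380) (nat_lit 8359631029) (nat_lit 186) (nat_lit 5) (nat_lit 190) (nat_lit 5) (nat_lit 191) (nat_lit 5) (nat_lit 486) (nat_lit 433) (nat_lit 281)) (XT.lf (nat_lit 0) (nat_lit 17188515095) (nat_lit 304) (nat_lit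 6738743812) (nat_lit 380) (nat_lit 2581408530) (nat_lit 186) (nat_lit 5) (nat_lit 190) (nat_lit 5) (nat_lit 191) (nat_lit 5) (nat_lit 487) (nat_lit 433) (nat_lit 280))) (XT.nd (nat_lit 78) (nat_lit 0) (nat_lit 0) (XT.lf (nat_lit 0) (nat_lit 3400080517) (nat_lit 380) (nat_lit 20017867266) (nat_lit 76) (nat_lit 3572895164) (nat_lit 181) (nat_lit 5) (nat_lit 186) (nat_lit 5) (nat_lit 182) (nat_lit 5) (nat_lit 488) (nat_lit 433) (nat_lit 279)) (XT.lf (nat_lit 0) (nat_lit 9664244498) (nat_lit 380) (nat_lit 3642114864) (nat_lit 76) (nat_lit 14175704352) (nat_lit 181) (nat_lit 5) (nat_lit 186) (nat_lit 5) (nat_lit 182) (nat_lit 5) (nat_lit 489) (nat_lit 433) (nat_lit 278)))) (XT.nd (nat_lit 156) (nat_lit 380) (nat_lit 0) (XT.nd (nat_lit 78) (nat_lit 228) (nat_lit 0) (XT.lf (nat_lit 0) (nat_lit 13478016148) (nat_lit 304) (nat_lit 2761416656) (nat_lit 380) (nat_lit 11744895480) (nat_lit 177) (nat_lit 5) (nat_lit 181) (nat_lit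 5) (nat_lit 182) (nat_lit 5) (nat_lit 490) (nat_lit 433) (nat_lit 277)) (XT.lf (nat_lit 0) (nat_lit 2649367389) (nat_lit 228) (nat_lit 20496581381) (nat_lit 304) (nat_lit 5351690018) (nat_lit 174) (nat_lit 5) (nat_lit 177) (nat_lit 5) (nat_lit 178) (nat_lit 5) (nat_lit 491) (nat_lit 433) (nat_lit 276))) (XT.nd (nat_lit 78) (nat_lit 304) (nat_lit 0) (XT.lf (nat_lit 0) (nat_lit 1378152010) (nat_lit 304) (nat_lit 8455506951) (nat_lit 76) (nat_lit 19187266930) (nat_lit 173) (nat_lit 5) (nat_lit 177) (nat_lit 5) (nat_lit 174) (nat_lit 5) (nat_lit 492) (nat_lit 433) (nat_lit 275)) (XT.lf (nat_lit 0) (nat_lit 8300711901) (nat_lit 380) (nat_lit 19984832005) (nat_lit 76) (nat_lit 1269826647) (nat_lit 169) (nat_lit 5) (nat_lit 174) (nat_lit 5) (nat_lit 170) (nat_lit 5) (nat_lit 493) (nat_lit 433) (nat_lit 274))))))))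
noncomputable def xc167 : XT := (XT.nd (nat_lit 2418) (nat_lit 2432) (nat_lit 0) (XT.nd (nat_lit 1170) (nat_lit 1976) (nat_lit 0) (XT.nd (nat_lit 546) (nat_lit 1216) (nat_lit 0) (XT.nd (nat_lit 234) (nat_lit 456) (nat_lit 0) (XT.nd (nat_lit 78) (nat_lit 532) (nat_lit 0) (XT.lf (nat_lit 0) (nat_lit 15608410941) (nat_lit 380) (nat_lit 1900552594) (nat_lit 76) (nat_lit 12591561288) (nat_lit 169) (nat_lit 5) (nat_lit 174) (nat_lit 5) (nat_lit 170) (nat_lit 5) (nat_lit 494) (nat_lit 433) (nat_lit 273)) (XT.nd (nat_lit 78) (nat_lit 304) (nat_lit 0) (XT.lf (nat_lit 0) (nat_lit 17049483851) (nat_lit 228) (nat_lit 6243795679) (nat_lit 304) (nat_lit 7364016171) (nat_lit 166) (nat_lit 5) (nat_lit 169) (nat_lit 5) (nat_lit 170) (nat_lit 5) (nat_lit 495) (nat_lit 433) (nat_lit 272)) (XT.lf (nat_lit 0) (nat_lit 96625001) (nat_lit 304) (nat_lit 25806851798) (nat_lit 76) (nat_lit 5323751307) (nat_lit 162) (nat_lit 5) (nat_lit 166)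 (nat_lit 5) (nat_lit 163) (nat_lit 5) (nat_lit 496) (nat_lit 433) (nat_lit 271)))) (XT.nd (nat_lit 156) (nat_lit 228) (nat_lit 0) (XT.nd (nat_lit 78) (nat_lit 228) (nat_lit 0) (XT.lf (nat_lit 0) (nat_lit 7827790041) (nat_lit 304) (nat_lit 6657412161) (nat_lit 76) (nat_lit 17321027652) (nat_lit 162) (nat_lit 5) (nat_lit 166) (nat_lit 5) (nat_lit 163) (nat_lit 5) (nat_lit 497) (nat_lit 433) (nat_lit 270)) (XT.lf (nat_lit 0) (nat_lit 13317111760) (nat_lit 228) (nat_lit 2596083286) (nat_lit 304) (nat_lit 16485737579) (nat_lit 159) (nat_lit 5) (nat_lit 162) (nat_lit 5) (nat_lit 163) (nat_lit 5) (nat_lit 498) (nat_lit 433) (nat_lit 269))) (XT.nd (nat_lit 78) (nat_lit 0) (nat_lit 0) (XT.lf (nat_lit 0) (nat_lit 935464074) (nat_lit 228) (nat_lit 23469678486) (nat_lit 304) (nat_lit 8599354623) (nat_lit 156) (nat_lit 5) (nat_lit 159) (nat_lit 5) (nat_lit 160) (nat_lit 5) (nat_lit 499) (nat_lit 433) (nat_lit 268)) (XT.lf (nat_lit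 0) (nat_lit 21908994258) (nat_lit 228) (nat_lit 11455408146) (nat_lit 304) (nat_lit 257449773) (nat_lit 156) (nat_lit 5) (nat_lit 159) (nat_lit 5) (nat_lit 160) (nat_lit 5) (nat_lit 500) (nat_lit 433) (nat_lit 267))))) (XT.nd (nat_lit 312) (nat_lit 456) (nat_lit 0) (XT.nd (nat_lit 156) (nat_lit 456) (nat_lit 0) (XT.nd (nat_lit 78) (nat_lit 0) (nat_lit 0) (XT.lf (nat_lit 0) (nat_lit 8266930495) (nat_lit 304) (nat_lit 24916053479) (nat_lit 76) (nat_lit 1069494646) (nat_lit 152) (nat_lit 5) (nat_lit 156) (nat_lit 5) (nat_lit 153) (nat_lit 5) (nat_lit 501) (nat_lit 433) (nat_lit 266)) (XT.lf (nat_lit 0) (nat_lit 17269296652) (nat_lit 304) (nat_lit 3767423146) (nat_lit 76) (nat_lit 13858404822) (nat_lit 152) (nat_lit 5) (nat_lit 156) (nat_lit 5) (nat_lit 153) (nat_lit 5) (nat_lit 502) (nat_lit 433) (nat_lit 265))) (XT.nd (nat_lit 78) (nat_lit 228) (nat_lit 0) (XT.lf (nat_lit 0) (nat_lit 18365205909) (nat_lit 228) (nat_lit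 8347785019) (nat_lit 304) (nat_lit 8838921461) (nat_lit 149) (nat_lit 5) (nat_lit 152) (nat_lit 5) (nat_lit 153) (nat_lit 5) (nat_lit 503) (nat_lit 433) (nat_lit 264)) (XT.lf (nat_lit 0) (nat_lit 335886310) (nat_lit 228) (nat_lit 31172078231) (nat_lit 76) (nat_lit 4716525637) (nat_lit 146) (nat_lit 5) (nat_lit 149) (nat_lit 5) (nat_lit 147) (nat_lit 5) (nat_lit 504) (nat_lit 433) (nat_lit 263)))) (XT.nd (nat_lit 156) (nat_lit 228) (nat_lit 0) (XT.nd (nat_lit 78) (nat_lit 228) (nat_lit 0) (XT.lf (nat_lit 0) (nat_lit 9860978771) (nat_lit 228) (nat_lit 8781792489) (nat_lit 76) (nat_lit 18264267888) (nat_lit 146) (nat_lit 5) (nat_lit 149) (nat_lit 5) (nat_lit 147) (nat_lit 5) (nat_lit 505) (nat_lit 433) (nat_lit 262)) (XT.lf (nat_lit 0) (nat_lit 14555608381) (nat_lit 228) (nat_lit 5251057616) (nat_lit 304) (nat_lit 17799353421) (nat_lit 143) (nat_lit 5) (nat_lit 146) (nat_lit 5) (nat_lit 147) (nat_lit 5) (nat_lit 506)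 (nat_lit 433) (nat_lit 261))) (XT.nd (nat_lit 78) (nat_lit 76) (nat_lit 0) (XT.lf (nat_lit 0) (nat_lit 365318861) (nat_lit 152) (nat_lit 29855544744) (nat_lit 228) (nat_lit 8100001385) (nat_lit 141) (nat_lit 5) (nat_lit 143) (nat_lit 5) (nat_lit 144) (nat_lit 5) (nat_lit 507) (nat_lit 433) (nat_lit 260)) (XT.lf (nat_lit 0) (nat_lit 2135474729) (nat_lit 228) (nat_lit 14175280744) (nat_lit 76) (nat_lit 22737394487) (nat_lit 140) (nat_lit 5) (nat_lit 143) (nat_lit 5) (nat_lit 141) (nat_lit 5) (nat_lit 508) (nat_lit 433) (nat_lit 259)))))) (XT.nd (nat_lit 624) (nat_lit 912) (nat_lit 0) (XT.nd (nat_lit 312) (nat_lit 380) (nat_lit 0) (XT.nd (nat_lit 156) (nat_lit 456) (nat_lit 0) (XT.nd (nat_lit 78) (nat_lit 0) (nat_lit 0) (XT.lf (nat_lit 0) (nat_lit 10433366809) (nat_lit 228) (nat_lit 2177256147) (nat_lit 304) (nat_lit 27181362368) (nat_lit 137) (nat_lit 5) (nat_lit 140) (nat_lit 5) (nat_lit 141) (nat_lit 5) (nat_lit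 509) (nat_lit 433) (nat_lit 258)) (XT.lf (nat_lit 0) (nat_lit 23658738108) (nat_lit 304) (nat_lit 4611860732) (nat_lit 76) (nat_lit 12279775610) (nat_lit 137) (nat_lit 5) (nat_lit 141) (nat_lit 5) (nat_lit 138) (nat_lit 5) (nat_lit 510) (nat_lit 433) (nat_lit 257))) (XT.nd (nat_lit 78) (nat_lit 304) (nat_lit 0) (XT.lf (nat_lit 0) (nat_lit 21262447161) (nat_lit 152) (nat_lit 13997081734) (nat_lit 228) (nat_lit 6065349464) (nat_lit 135) (nat_lit 5) (nat_lit 137) (nat_lit 5) (nat_lit 138) (nat_lit 5) (nat_lit 511) (nat_lit 433) (nat_lit 256)) (XT.lf (nat_lit 0) (nat_lit 5094217226) (nat_lit 304) (nat_lit 36181679624) (nat_lit 76) (nat_lit 842022034) (nat_lit 131) (nat_lit 5) (nat_lit 135) (nat_lit 5) (nat_lit 132) (nat_lit 5) (nat_lit 512) (nat_lit 433) (nat_lit 255)))) (XT.nd (nat_lit 156) (nat_lit 228) (nat_lit 0) (XT.nd (nat_lit 78) (nat_lit 152) (nat_lit 0) (XT.lf (nat_lit 0) (nat_lit 16805171100) (nat_lit 304)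 (nat_lit 10011427563) (nat_lit 76) (nat_lit 16106195208) (nat_lit 131) (nat_lit 5) (nat_lit 135) (nat_lit 5) (nat_lit 132) (nat_lit 5) (nat_lit 513) (nat_lit 433) (nat_lit 254)) (XT.lf (nat_lit 0) (nat_lit 17272989428) (nat_lit 152) (nat_lit 11755964511) (nat_lit 228) (nat_lit 14718016226) (nat_lit 129) (nat_lit 5) (nat_lit 131) (nat_lit 5) (nat_lit 132) (nat_lit 5) (nat_lit 514) (nat_lit 433) (nat_lit 253))) (XT.nd (nat_lit 78) (nat_lit 76) (nat_lit 0) (XT.lf (nat_lit 0) (nat_lit 961961331) (nat_lit 152) (nat_lit 40800427061) (nat_lit 228) (nat_lit 2829195277) (nat_lit 127) (nat_lit 5) (nat_lit 129) (nat_lit 5) (nat_lit 130) (nat_lit 5) (nat_lit 515) (nat_lit 433) (nat_lit 252)) (XT.lf (nat_lit 0) (nat_lit 9614418107) (nat_lit 228) (nat_lit 15907435852) (nat_lit 76) (nat_lit 19925510020) (nat_lit 126) (nat_lit 5) (nat_lit 129) (nat_lit 5) (nat_lit 127) (nat_lit 5) (nat_lit 516) (nat_lit 433) (nat_lit 251))))) (XT.nd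 (nat_lit 312) (nat_lit 380) (nat_lit 0) (XT.nd (nat_lit 156) (nat_lit 380) (nat_lit 0) (XT.nd (nat_lit 78) (nat_lit 0) (nat_lit 0) (XT.lf (nat_lit 0) (nat_lit 12861579230) (nat_lit 152) (nat_lit 9632156882) (nat_lit 228) (nat_lit 23830663483) (nat_lit 124) (nat_lit 5) (nat_lit 126) (nat_lit 5) (nat_lit 127) (nat_lit 5) (nat_lit 517) (nat_lit 433) (nat_lit 250)) (XT.lf (nat_lit 0) (nat_lit 35982038821) (nat_lit 228) (nat_lit 4477320996) (nat_lit 76) (nat_lit 6761708364) (nat_lit 124) (nat_lit 5) (nat_lit 127) (nat_lit 5) (nat_lit 125) (nat_lit 5) (nat_lit 518) (nat_lit 433) (nat_lit 249))) (XT.nd (nat_lit 78) (nat_lit 152) (nat_lit 0) (XT.lf (nat_lit 0) (nat_lit 2038877993) (nat_lit 228) (nat_lit 22376658230) (nat_lit 76) (nat_lit 23718332970) (nat_lit 121) (nat_lit 5) (nat_lit 124) (nat_lit 5) (nat_lit 122) (nat_lit 5) (nat_lit 519) (nat_lit 433) (nat_lit 248)) (XT.lf (nat_lit 0) (nat_lit 7953739573) (nat_lit 152)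 (nat_lit 7653389115) (nat_lit 228) (nat_lit 33460050291) (nat_lit 119) (nat_lit 5) (nat_lit 121) (nat_lit 5) (nat_lit 122) (nat_lit 5) (nat_lit 520) (nat_lit 433) (nat_lit 247)))) (XT.nd (nat_lit 156) (nat_lit 228) (nat_lit 0) (XT.nd (nat_lit 78) (nat_lit 152) (nat_lit 0) (XT.lf (nat_lit 0) (nat_lit 29898818889) (nat_lit 228) (nat_lit 10471211650) (nat_lit 76) (nat_lit 9648965811) (nat_lit 119) (nat_lit 5) (nat_lit 122) (nat_lit 5) (nat_lit 120) (nat_lit 5) (nat_lit 521) (nat_lit 433) (nat_lit 246)) (XT.lf (nat_lit 0) (nat_lit 21425190173) (nat_lit 152) (nat_lit 23471721656) (nat_lit 228) (nat_lit 6094126902) (nat_lit 117) (nat_lit 5) (nat_lit 119) (nat_lit 5) (nat_lit 120) (nat_lit 5) (nat_lit 522) (nat_lit 433) (nat_lit 245))) (XT.nd (nat_lit 78) (nat_lit 0) (nat_lit 0) (XT.lf (nat_lit 0) (nat_lit 2463386998) (nat_lit 152) (nat_lit 5852724255) (nat_lit 228) (nat_lit 43669930515) (nat_lit 114) (nat_lit 5) (nat_lit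 116) (nat_lit 5) (nat_lit 117) (nat_lit 5) (nat_lit 523) (nat_lit 433) (nat_lit 244)) (XT.lf (nat_lit 0) (nat_lit 23451817634) (nat_lit 228) (nat_lit 17131270978) (nat_lit 76) (nat_lit 12413526781) (nat_lit 114) (nat_lit 5) (nat_lit 117) (nat_lit 5) (nat_lit 115) (nat_lit 5) (nat_lit 524) (nat_lit 433) (nat_lit 243))))))) (XT.nd (nat_lit 1248) (nat_lit 836) (nat_lit 0) (XT.nd (nat_lit 624) (nat_lit 760) (nat_lit 0) (XT.nd (nat_lit 312) (nat_lit 304) (nat_lit 0) (XT.nd (nat_lit 156) (nat_lit 304) (nat_lit 0) (XT.nd (nat_lit 78) (nat_lit 76) (nat_lit 0) (XT.lf (nat_lit 0) (nat_lit 16488447925) (nat_lit 152) (nat_lit 22765658439) (nat_lit 228) (nat_lit 14777024573) (nat_lit 112) (nat_lit 5) (nat_lit 114) (nat_lit 5) (nat_lit 115) (nat_lit 5) (nat_lit 525) (nat_lit 433) (nat_lit 242)) (XT.lf (nat_lit 0) (nat_lit 596095983) (nat_lit 228) (nat_lit 3636657257) (nat_lit 76) (nat_lit 50858680292) (nat_lit 111) (nat_lit 5)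 (nat_lit 114) (nat_lit 5) (nat_lit 112) (nat_lit 5) (nat_lit 526) (nat_lit 433) (nat_lit 241))) (XT.nd (nat_lit 78) (nat_lit 152) (nat_lit 0) (XT.lf (nat_lit 0) (nat_lit 16582068789) (nat_lit 228) (nat_lit 24564510248) (nat_lit 76) (nat_lit 15019117125) (nat_lit 109) (nat_lit 5) (nat_lit 112) (nat_lit 5) (nat_lit 110) (nat_lit 5) (nat_lit 527) (nat_lit 433) (nat_lit 240)) (XT.lf (nat_lit 0) (nat_lit 10862298904) (nat_lit 152) (nat_lit 22364934111) (nat_lit 228) (nat_lit 24039565330) (nat_lit 107) (nat_lit 5) (nat_lit 109) (nat_lit 5) (nat_lit 110) (nat_lit 5) (nat_lit 528) (nat_lit 433) (nat_lit 239)))) (XT.nd (nat_lit 156) (nat_lit 152) (nat_lit 0) (XT.nd (nat_lit 78) (nat_lit 152) (nat_lit 0) (XT.lf (nat_lit 0) (nat_lit 47848510584) (nat_lit 152) (nat_lit 2767540807) (nat_lit 228) (nat_lit 7777553263) (nat_lit 107) (nat_lit 5) (nat_lit 109) (nat_lit 5) (nat_lit 110) (nat_lit 5) (nat_lit 529) (nat_lit 433) (nat_lit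 238)) (XT.lf (nat_lit 0) (nat_lit 9222176595) (nat_lit 152) (nat_lit 32894423030) (nat_lit 76) (nat_lit 17422279950) (nat_lit 105) (nat_lit 5) (nat_lit 107) (nat_lit 5) (nat_lit 106) (nat_lit 5) (nat_lit 530) (nat_lit 433) (nat_lit 237))) (XT.nd (nat_lit 78) (nat_lit 0) (nat_lit 0) (XT.lf (nat_lit 0) (nat_lit 4424584612) (nat_lit 152) (nat_lit 22324796299) (nat_lit 228) (nat_lit 33961607593) (nat_lit 103) (nat_lit 5) (nat_lit 105) (nat_lit 5) (nat_lit 106) (nat_lit 5) (nat_lit 531) (nat_lit 433) (nat_lit 236)) (XT.lf (nat_lit 0) (nat_lit 43530699539) (nat_lit 152) (nat_lit 1600244198) (nat_lit 228) (nat_lit 16777460726) (nat_lit 103) (nat_lit 5) (nat_lit 105) (nat_lit 5) (nat_lit 106) (nat_lit 5) (nat_lit 532) (nat_lit 433) (nat_lit 235))))) (XT.nd (nat_lit 312) (nat_lit 380) (nat_lit 0) (XT.nd (nat_lit 156) (nat_lit 228) (nat_lit 0) (XT.nd (nat_lit 78) (nat_lit 0) (nat_lit 0) (XT.lf (nat_lit 0) (nat_lit 1295010699)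 (nat_lit 152) (nat_lit 42263602961) (nat_lit 76) (nat_lit 19571139452) (nat_lit 101) (nat_lit 5) (nat_lit 103) (nat_lit 5) (nat_lit 102) (nat_lit 5) (nat_lit 533) (nat_lit 433) (nat_lit 234)) (XT.lf (nat_lit 0) (nat_lit 19772161029) (nat_lit 152) (nat_lit 2908575021) (nat_lit 76) (nat_lit 41696031345) (nat_lit 101) (nat_lit 5) (nat_lit 103) (nat_lit 5) (nat_lit 102) (nat_lit 5) (nat_lit 534) (nat_lit 433) (nat_lit 233))) (XT.nd (nat_lit 78) (nat_lit 76) (nat_lit 0) (XT.lf (nat_lit 0) (nat_lit 38369371017) (nat_lit 152) (nat_lit 799642882) (nat_lit 228) (nat_lit 26481216597) (nat_lit 99) (nat_lit 5) (nat_lit 101) (nat_lit 5) (nat_lit 102) (nat_lit 5) (nat_lit 535) (nat_lit 433) (nat_lit 232)) (XT.lf (nat_lit 0) (nat_lit 14042567010) (nat_lit 76) (nat_lit 45475378823) (nat_lit 152) (nat_lit 7432846481) (nat_lit 98) (nat_lit 5) (nat_lit 99) (nat_lit 5) (nat_lit 100) (nat_lit 4) (nat_lit 536) (nat_lit 433) (nat_lit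 231)))) (XT.nd (nat_lit 156) (nat_lit 152) (nat_lit 0) (XT.nd (nat_lit 78) (nat_lit 152) (nat_lit 0) (XT.lf (nat_lit 0) (nat_lit 12231863933) (nat_lit 152) (nat_lit 11251445048) (nat_lit 76) (nat_lit 44795066545) (nat_lit 97) (nat_lit 5) (nat_lit 99) (nat_lit 5) (nat_lit 98) (nat_lit 5) (nat_lit 537) (nat_lit 433) (nat_lit 230)) (XT.lf (nat_lit 0) (nat_lit 32203569974) (nat_lit 152) (nat_lit 439786029) (nat_lit 228) (nat_lit 36991035486) (nat_lit 95) (nat_lit 5) (nat_lit 97) (nat_lit 5) (nat_lit 98) (nat_lit 5) (nat_lit 538) (nat_lit 433) (nat_lit 229))) (XT.nd (nat_lit 78) (nat_lit 76) (nat_lit 0) (XT.lf (nat_lit 0) (nat_lit 6051951191) (nat_lit 76) (nat_lit 48008767058) (nat_lit 152) (nat_lit 16958563944) (nat_lit 94) (nat_lit 5) (nat_lit 95) (nat_lit 5) (nat_lit 96) (nat_lit 4) (nat_lit 539) (nat_lit 433) (nat_lit 228)) (XT.lf (nat_lit 0) (nat_lit 3985932075) (nat_lit 152) (nat_lit 20877596914) (nat_lit 76) (nat_lit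 47569648083) (nat_lit 93) (nat_lit 5) (nat_lit 95) (nat_lit 5) (nat_lit 94) (nat_lit 5) (nat_lit 540) (nat_lit 433) (nat_lit 227)))))) (XT.nd (nat_lit 624) (nat_lit 76) (nat_lit 0) (XT.nd (nat_lit 312) (nat_lit 304) (nat_lit 0) (XT.nd (nat_lit 156) (nat_lit 304) (nat_lit 0) (XT.nd (nat_lit 78) (nat_lit 0) (nat_lit 0) (XT.lf (nat_lit 0) (nat_lit 24845636925) (nat_lit 152) (nat_lit 607889630) (nat_lit 228) (nat_lit 48423856652) (nat_lit 91) (nat_lit 5) (nat_lit 93) (nat_lit 5) (nat_lit 94) (nat_lit 5) (nat_lit 541) (nat_lit 433) (nat_lit 226)) (XT.lf (nat_lit 0) (nat_lit 48009160835) (nat_lit 228) (nat_lit 3232573092) (nat_lit 76) (nat_lit 24109861260) (nat_lit 91) (nat_lit 5) (nat_lit 94) (nat_lit 5) (nat_lit 92) (nat_lit 4) (nat_lit 542) (nat_lit 433) (nat_lit 225))) (XT.nd (nat_lit 78) (nat_lit 228) (nat_lit 0) (XT.lf (nat_lit 0) (nat_lit 44802878912) (nat_lit 76) (nat_lit 26872160486) (nat_lit 152) (nat_lit 5181986896)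 (nat_lit 90) (nat_lit 5) (nat_lit 91) (nat_lit 5) (nat_lit 92) (nat_lit 4) (nat_lit 543) (nat_lit 433) (nat_lit 224)) (XT.lf (nat_lit 0) (nat_lit 16076867547) (nat_lit 152) (nat_lit 1406516665) (nat_lit 228) (nat_lit 60913616383) (nat_lit 87) (nat_lit 5) (nat_lit 89) (nat_lit 5) (nat_lit 90) (nat_lit 5) (nat_lit 544) (nat_lit 433) (nat_lit 223)))) (XT.nd (nat_lit 156) (nat_lit 228) (nat_lit 0) (XT.nd (nat_lit 78) (nat_lit 76) (nat_lit 0) (XT.lf (nat_lit 0) (nat_lit 41286961825) (nat_lit 228) (nat_lit 13963652432) (nat_lit 76) (nat_lit 24714148739) (nat_lit 87) (nat_lit 5) (nat_lit 90) (nat_lit 5) (nat_lit 88) (nat_lit 4) (nat_lit 545) (nat_lit 433) (nat_lit 222)) (XT.lf (nat_lit 0) (nat_lit 36536780328) (nat_lit 76) (nat_lit 29629991237) (nat_lit 152) (nat_lit 15401922979) (nat_lit 86) (nat_lit 5) (nat_lit 87) (nat_lit 5) (nat_lit 88) (nat_lit 4) (nat_lit 546) (nat_lit 433) (nat_lit 221))) (XT.nd (nat_lit 78) (nat_lit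 0) (nat_lit 0) (XT.lf (nat_lit 0) (nat_lit 5642476967) (nat_lit 152) (nat_lit 2956108278) (nat_lit 228) (nat_lit 74613877903) (nat_lit 83) (nat_lit 5) (nat_lit 85) (nat_lit 5) (nat_lit 86) (nat_lit 5) (nat_lit 547) (nat_lit 433) (nat_lit 220)) (XT.lf (nat_lit 0) (nat_lit 33701458105) (nat_lit 228) (nat_lit 26530161451) (nat_lit 76) (nat_lit 24648593059) (nat_lit 83) (nat_lit 5) (nat_lit 86) (nat_lit 5) (nat_lit 84) (nat_lit 4) (nat_lit 548) (nat_lit 433) (nat_lit 219))))) (XT.nd (nat_lit 53664) (nat_lit 0) (nat_lit 19912) (XT.nd (nat_lit 53508) (nat_lit 0) (nat_lit 19912) (XT.nd (nat_lit 78) (nat_lit 0) (nat_lit 0) (XT.lf (nat_lit 0) (nat_lit 26523537917) (nat_lit 76) (nat_lit 33315190151) (nat_lit 152) (nat_lit 26750827189) (nat_lit 82) (nat_lit 5) (nat_lit 83) (nat_lit 5) (nat_lit 84) (nat_lit 4) (nat_lit 549) (nat_lit 433) (nat_lit 218)) (XT.lf (nat_lit 0) (nat_lit 81707124216) (nat_lit 76) (nat_lit 5318008054)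 (nat_lit 152) (nat_lit 1317095442) (nat_lit 82) (nat_lit 5) (nat_lit 83) (nat_lit 5) (nat_lit 84) (nat_lit 4) (nat_lit 550) (nat_lit 433) (nat_lit 217))) (XT.nd (nat_lit 78) (nat_lit 0) (nat_lit 0) (XT.lf (nat_lit 0) (nat_lit 1462027355) (nat_lit 0) (nat_lit 1462027355) (nat_lit 1140) (nat_lit 2800582615) (nat_lit 344) (nat_lit 5) (nat_lit 344) (nat_lit 3) (nat_lit 359) (nat_lit 3) (nat_lit 434) (nat_lit 434) (nat_lit 332)) (XT.lf (nat_lit 0) (nat_lit 6482727995) (nat_lit 1140) (nat_lit 2840321309) (nat_lit 1216) (nat_lit 2281532375) (nat_lit 344) (nat_lit 5) (nat_lit 359) (nat_lit 3) (nat_lit 360) (nat_lit 5) (nat_lit 435) (nat_lit 434) (nat_lit 331)))) (XT.nd (nat_lit 156) (nat_lit 0) (nat_lit 76) (XT.nd (nat_lit 78) (nat_lit 0) (nat_lit 76) (XT.lf (nat_lit 76) (nat_lit 3034437093) (nat_lit 0) (nat_lit 4139695428) (nat_lit 1216) (nat_lit 4589283960) (nat_lit 345) (nat_lit 5) (nat_lit 344) (nat_lit 5) (nat_lit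 360) (nat_lit 5) (nat_lit 436) (nat_lit 434) (nat_lit 330)) (XT.lf (nat_lit 0) (nat_lit 7906975449) (nat_lit 1140) (nat_lit 2805830829) (nat_lit 1216) (nat_lit 1213590113) (nat_lit 345) (nat_lit 5) (nat_lit 360) (nat_lit 5) (nat_lit 361) (nat_lit 5) (nat_lit 437) (nat_lit 434) (nat_lit 329))) (XT.nd (nat_lit 78) (nat_lit 0) (nat_lit 76) (XT.lf (nat_lit 76) (nat_lit 3307373606) (nat_lit 0) (nat_lit 5407989799) (nat_lit 1216) (nat_lit 3377296430) (nat_lit 346) (nat_lit 5) (nat_lit 345) (nat_lit 5) (nat_lit 361) (nat_lit 5) (nat_lit 438) (nat_lit 434) (nat_lit 328)) (XT.lf (nat_lit 0) (nat_lit 9558462277) (nat_lit 1140) (nat_lit 2614107119) (nat_lit 1216) (nat_lit 91028906) (nat_lit 346) (nat_lit 5) (nat_lit 361) (nat_lit 5) (nat_lit 362) (nat_lit 5) (nat_lit 439) (nat_lit 434) (nat_lit 327))))))))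
noncomputable def xc168 : XT := (XT.nd (nat_lit 2418) (nat_lit 6612) (nat_lit 0) (XT.nd (nat_lit 1170) (nat_lit 4940) (nat_lit 0) (XT.nd (nat_lit 546) (nat_lit 1824) (nat_lit 0) (XT.nd (nat_lit 234) (nat_lit 1140) (nat_lit 0) (XT.nd (nat_lit 78) (nat_lit 0) (nat_lit 0) (XT.lf (nat_lit 76) (nat_lit 3750471083) (nat_lit 0) (nat_lit 6747831083) (nat_lit 1216) (nat_lit 1939220190) (nat_lit 347) (nat_lit 5) (nat_lit 346) (nat_lit 5) (nat_lit 362) (nat_lit 5) (nat_lit 440) (nat_lit 434) (nat_lit 326)) (XT.nd (nat_lit 78) (nat_lit 0) (nat_lit 76) (XT.lf (nat_lit 76) (nat_lit 10348307778) (nat_lit 0) (nat_lit 1126698903) (nat_lit 1216) (nat_lit 1141398213) (nat_lit 347) (nat_lit 5) (nat_lit 346) (nat_lit 5) (nat_lit 362) (nat_lit 5) (nat_lit 441) (nat_lit 434) (nat_lit 325)) (XT.lf (nat_lit 76) (nat_lit 4372407988) (nat_lit 0) (nat_lit 8178307594) (nat_lit 1216) (nat_lit 247848055) (nat_lit 348) (nat_lit 5) (nat_lit 347)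 (nat_lit 5) (nat_lit 363) (nat_lit 5) (nat_lit 442) (nat_lit 434) (nat_lit 324)))) (XT.nd (nat_lit 156) (nat_lit 0) (nat_lit 76) (XT.nd (nat_lit 78) (nat_lit 0) (nat_lit 76) (XT.lf (nat_lit 0) (nat_lit 676743021) (nat_lit 1216) (nat_lit 1756464426) (nat_lit 1292) (nat_lit 10552265808) (nat_lit 331) (nat_lit 5) (nat_lit 347) (nat_lit 5) (nat_lit 348) (nat_lit 5) (nat_lit 443) (nat_lit 434) (nat_lit 323)) (XT.lf (nat_lit 0) (nat_lit 1691710505) (nat_lit 1216) (nat_lit 8010015663) (nat_lit 1292) (nat_lit 3474162524) (nat_lit 332) (nat_lit 5) (nat_lit 348) (nat_lit 5) (nat_lit 349) (nat_lit 5) (nat_lit 444) (nat_lit 434) (nat_lit 322))) (XT.nd (nat_lit 78) (nat_lit 0) (nat_lit 76) (XT.lf (nat_lit 0) (nat_lit 2763111769) (nat_lit 1216) (nat_lit 1075679428) (nat_lit 1292) (nat_lit 9532446582) (nat_lit 332) (nat_lit 5) (nat_lit 348) (nat_lit 5) (nat_lit 349) (nat_lit 5) (nat_lit 445) (nat_lit 434) (nat_lit 321)) (XT.lf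 (nat_lit 0) (nat_lit 3932242700) (nat_lit 1216) (nat_lit 7417181621) (nat_lit 1292) (nat_lit 2221056100) (nat_lit 333) (nat_lit 5) (nat_lit 349) (nat_lit 5) (nat_lit 350) (nat_lit 5) (nat_lit 446) (nat_lit 434) (nat_lit 320))))) (XT.nd (nat_lit 312) (nat_lit 1976) (nat_lit 0) (XT.nd (nat_lit 156) (nat_lit 0) (nat_lit 76) (XT.nd (nat_lit 78) (nat_lit 0) (nat_lit 76) (XT.lf (nat_lit 0) (nat_lit 5170253709) (nat_lit 1216) (nat_lit 204145067) (nat_lit 1292) (nat_lit 8400288071) (nat_lit 333) (nat_lit 5) (nat_lit 349) (nat_lit 5) (nat_lit 350) (nat_lit 5) (nat_lit 447) (nat_lit 434) (nat_lit 319)) (XT.lf (nat_lit 0) (nat_lit 6509626614) (nat_lit 1216) (nat_lit 6634224089) (nat_lit 1292) (nat_lit 839242785) (nat_lit 334) (nat_lit 5) (nat_lit 350) (nat_lit 5) (nat_lit 351) (nat_lit 5) (nat_lit 448) (nat_lit 434) (nat_lit 318))) (XT.nd (nat_lit 78) (nat_lit 0) (nat_lit 0) (XT.lf (nat_lit 76) (nat_lit 887192742) (nat_lit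 0) (nat_lit 7051428837) (nat_lit 1292) (nat_lit 6257648173) (nat_lit 335) (nat_lit 5) (nat_lit 334) (nat_lit 5) (nat_lit 351) (nat_lit 5) (nat_lit 449) (nat_lit 434) (nat_lit 317)) (XT.lf (nat_lit 76) (nat_lit 8758507508) (nat_lit 0) (nat_lit 704896446) (nat_lit 1292) (nat_lit 4950850454) (nat_lit 335) (nat_lit 5) (nat_lit 334) (nat_lit 5) (nat_lit 351) (nat_lit 5) (nat_lit 450) (nat_lit 434) (nat_lit 316)))) (XT.nd (nat_lit 156) (nat_lit 912) (nat_lit 0) (XT.nd (nat_lit 78) (nat_lit 0) (nat_lit 0) (XT.lf (nat_lit 0) (nat_lit 2202266107) (nat_lit 1216) (nat_lit 8895250938) (nat_lit 1292) (nat_lit 3539354553) (nat_lit 319) (nat_lit 5) (nat_lit 335) (nat_lit 5) (nat_lit 336) (nat_lit 5) (nat_lit 451) (nat_lit 434) (nat_lit 315)) (XT.lf (nat_lit 0) (nat_lit 10393124592) (nat_lit 1216) (nat_lit 2438193073) (nat_lit 1292) (nat_lit 2033330310) (nat_lit 319) (nat_lit 5) (nat_lit 335) (nat_lit 5) (nat_lit 336) (nat_lit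 5) (nat_lit 452) (nat_lit 434) (nat_lit 314))) (XT.nd (nat_lit 78) (nat_lit 76) (nat_lit 0) (XT.lf (nat_lit 0) (nat_lit 3751382375) (nat_lit 836) (nat_lit 10929350237) (nat_lit 912) (nat_lit 416617598) (nat_lit 308) (nat_lit 5) (nat_lit 319) (nat_lit 5) (nat_lit 320) (nat_lit 5) (nat_lit 453) (nat_lit 434) (nat_lit 313)) (XT.lf (nat_lit 0) (nat_lit 1281157968) (nat_lit 912) (nat_lit 3071549668) (nat_lit 76) (nat_lit 10982258572) (nat_lit 307) (nat_lit 5) (nat_lit 319) (nat_lit 5) (nat_lit 308) (nat_lit 5) (nat_lit 454) (nat_lit 434) (nat_lit 312)))))) (XT.nd (nat_lit 624) (nat_lit 1976) (nat_lit 0) (XT.nd (nat_lit 312) (nat_lit 1216) (nat_lit 0) (XT.nd (nat_lit 156) (nat_lit 1140) (nat_lit 0) (XT.nd (nat_lit 78) (nat_lit 0) (nat_lit 0) (XT.lf (nat_lit 0) (nat_lit 3086190827) (nat_lit 684) (nat_lit 10058632860) (nat_lit 76) (nat_lit 2432822848) (nat_lit 299) (nat_lit 5) (nat_lit 308) (nat_lit 5) (nat_lit 300) (nat_lit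 5) (nat_lit 455) (nat_lit 434) (nat_lit 311)) (XT.lf (nat_lit 0) (nat_lit 5007611933) (nat_lit 684) (nat_lit 1451653030) (nat_lit 76) (nat_lit 9366475705) (nat_lit 299) (nat_lit 5) (nat_lit 308) (nat_lit 5) (nat_lit 300) (nat_lit 5) (nat_lit 456) (nat_lit 434) (nat_lit 310))) (XT.nd (nat_lit 78) (nat_lit 532) (nat_lit 0) (XT.lf (nat_lit 0) (nat_lit 7052242079) (nat_lit 684) (nat_lit 8534915550) (nat_lit 76) (nat_lit 492153502) (nat_lit 291) (nat_lit 5) (nat_lit 300) (nat_lit 5) (nat_lit 292) (nat_lit 5) (nat_lit 457) (nat_lit 434) (nat_lit 309)) (XT.lf (nat_lit 0) (nat_lit 432654673) (nat_lit 532) (nat_lit 8796882030) (nat_lit 608) (nat_lit 7108812721) (nat_lit 284) (nat_lit 5) (nat_lit 291) (nat_lit 5) (nat_lit 292) (nat_lit 5) (nat_lit 458) (nat_lit 434) (nat_lit 308)))) (XT.nd (nat_lit 156) (nat_lit 608) (nat_lit 0) (XT.nd (nat_lit 78) (nat_lit 608) (nat_lit 0) (XT.lf (nat_lit 0) (nat_lit 9832600450) (nat_lit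 532) (nat_lit 1714371149) (nat_lit 608) (nat_lit 5055943093) (nat_lit 284) (nat_lit 5) (nat_lit 291) (nat_lit 5) (nat_lit 292) (nat_lit 5) (nat_lit 459) (nat_lit 434) (nat_lit 307)) (XT.lf (nat_lit 0) (nat_lit 2625108714) (nat_lit 608) (nat_lit 11376663510) (nat_lit 684) (nat_lit 2871609870) (nat_lit 276) (nat_lit 5) (nat_lit 284) (nat_lit 5) (nat_lit 285) (nat_lit 5) (nat_lit 460) (nat_lit 434) (nat_lit 306))) (XT.nd (nat_lit 78) (nat_lit 608) (nat_lit 0) (XT.lf (nat_lit 0) (nat_lit 12412381094) (nat_lit 608) (nat_lit 4192185493) (nat_lit 684) (nat_lit 545166880) (nat_lit 276) (nat_lit 5) (nat_lit 284) (nat_lit 5) (nat_lit 285) (nat_lit 5) (nat_lit 461) (nat_lit 434) (nat_lit 305)) (XT.lf (nat_lit 0) (nat_lit 1885138399) (nat_lit 608) (nat_lit 12334332931) (nat_lit 76) (nat_lit 3212264961) (nat_lit 268) (nat_lit 5) (nat_lit 276) (nat_lit 5) (nat_lit 269) (nat_lit 5) (nat_lit 462) (nat_lit 434) (nat_lit 304)))))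 (XT.nd (nat_lit 312) (nat_lit 988) (nat_lit 0) (XT.nd (nat_lit 156) (nat_lit 456) (nat_lit 0) (XT.nd (nat_lit 78) (nat_lit 532) (nat_lit 0) (XT.lf (nat_lit 0) (nat_lit 4456792910) (nat_lit 608) (nat_lit 2455386043) (nat_lit 76) (nat_lit 10807476798) (nat_lit 268) (nat_lit 5) (nat_lit 276) (nat_lit 5) (nat_lit 269) (nat_lit 5) (nat_lit 463) (nat_lit 434) (nat_lit 303)) (XT.lf (nat_lit 0) (nat_lit 7177698159) (nat_lit 608) (nat_lit 10158764885) (nat_lit 76) (nat_lit 677587111) (nat_lit 261) (nat_lit 5) (nat_lit 269) (nat_lit 5) (nat_lit 262) (nat_lit 5) (nat_lit 464) (nat_lit 434) (nat_lit 302))) (XT.nd (nat_lit 78) (nat_lit 0) (nat_lit 0) (XT.lf (nat_lit 0) (nat_lit 131564542) (nat_lit 456) (nat_lit 9933467244) (nat_lit 532) (nat_lit 8249700951) (nat_lit 255) (nat_lit 5) (nat_lit 261) (nat_lit 5) (nat_lit 262) (nat_lit 5) (nat_lit 465) (nat_lit 434) (nat_lit 301)) (XT.lf (nat_lit 0) (nat_lit 10927563284) (nat_lit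 456) (nat_lit 2204245856) (nat_lit 532) (nat_lit 5489842314) (nat_lit 255) (nat_lit 5) (nat_lit 261) (nat_lit 5) (nat_lit 262) (nat_lit 5) (nat_lit 466) (nat_lit 434) (nat_lit 300)))) (XT.nd (nat_lit 156) (nat_lit 456) (nat_lit 0) (XT.nd (nat_lit 78) (nat_lit 76) (nat_lit 0) (XT.lf (nat_lit 0) (nat_lit 3103662518) (nat_lit 456) (nat_lit 13262610130) (nat_lit 532) (nat_lit 2569234961) (nat_lit 249) (nat_lit 5) (nat_lit 255) (nat_lit 5) (nat_lit 256) (nat_lit 5) (nat_lit 467) (nat_lit 434) (nat_lit 299)) (XT.lf (nat_lit 0) (nat_lit 521300066) (nat_lit 532) (nat_lit 4911499513) (nat_lit 76) (nat_lit 13823127340) (nat_lit 248) (nat_lit 5) (nat_lit 255) (nat_lit 5) (nat_lit 249) (nat_lit 5) (nat_lit 468) (nat_lit 434) (nat_lit 298))) (XT.nd (nat_lit 78) (nat_lit 0) (nat_lit 0) (XT.lf (nat_lit 0) (nat_lit 3731683647) (nat_lit 532) (nat_lit 13184336094) (nat_lit 76) (nat_lit 2666813111) (nat_lit 242) (nat_lit 5) (nat_lit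 249) (nat_lit 5) (nat_lit 243) (nat_lit 5) (nat_lit 469) (nat_lit 434) (nat_lit 297)) (XT.lf (nat_lit 0) (nat_lit 7133261162) (nat_lit 532) (nat_lit 1834984560) (nat_lit 76) (nat_lit 10948454086) (nat_lit 242) (nat_lit 5) (nat_lit 249) (nat_lit 5) (nat_lit 243) (nat_lit 5) (nat_lit 470) (nat_lit 434) (nat_lit 296))))))) (XT.nd (nat_lit 1170) (nat_lit 2964) (nat_lit 0) (XT.nd (nat_lit 546) (nat_lit 1520) (nat_lit 0) (XT.nd (nat_lit 234) (nat_lit 1292) (nat_lit 0) (XT.nd (nat_lit 78) (nat_lit 380) (nat_lit 0) (XT.lf (nat_lit 0) (nat_lit 10039968132) (nat_lit 456) (nat_lit 684694945) (nat_lit 532) (nat_lit 9533286695) (nat_lit 236) (nat_lit 5) (nat_lit 242) (nat_lit 5) (nat_lit 243) (nat_lit 5) (nat_lit 471) (nat_lit 434) (nat_lit 295)) (XT.nd (nat_lit 78) (nat_lit 0) (nat_lit 0) (XT.lf (nat_lit 0) (nat_lit 1645468372) (nat_lit 380) (nat_lit 12879700893) (nat_lit 456) (nat_lit 6081227404) (nat_lit 231) (nat_lit 5)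 (nat_lit 236) (nat_lit 5) (nat_lit 237) (nat_lit 5) (nat_lit 472) (nat_lit 434) (nat_lit 294)) (XT.lf (nat_lit 0) (nat_lit 14056546563) (nat_lit 380) (nat_lit 4484582994) (nat_lit 456) (nat_lit 2421124542) (nat_lit 231) (nat_lit 5) (nat_lit 236) (nat_lit 5) (nat_lit 237) (nat_lit 5) (nat_lit 473) (nat_lit 434) (nat_lit 293)))) (XT.nd (nat_lit 156) (nat_lit 760) (nat_lit 0) (XT.nd (nat_lit 78) (nat_lit 0) (nat_lit 0) (XT.lf (nat_lit 0) (nat_lit 1408620128) (nat_lit 532) (nat_lit 15770935648) (nat_lit 76) (nat_lit 4146258042) (nat_lit 224) (nat_lit 5) (nat_lit 231) (nat_lit 5) (nat_lit 225) (nat_lit 5) (nat_lit 474) (nat_lit 434) (nat_lit 292)) (XT.lf (nat_lit 0) (nat_lit 5411247349) (nat_lit 532) (nat_lit 3247197359) (nat_lit 76) (nat_lit 13037917170) (nat_lit 224) (nat_lit 5) (nat_lit 231) (nat_lit 5) (nat_lit 225) (nat_lit 5) (nat_lit 475) (nat_lit 434) (nat_lit 291))) (XT.nd (nat_lit 78) (nat_lit 380) (nat_lit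 0) (XT.lf (nat_lit 0) (nat_lit 9622593479) (nat_lit 456) (nat_lit 12243806957) (nat_lit 76) (nat_lit 208967001) (nat_lit 219) (nat_lit 5) (nat_lit 225) (nat_lit 5) (nat_lit 220) (nat_lit 5) (nat_lit 476) (nat_lit 434) (nat_lit 290)) (XT.lf (nat_lit 0) (nat_lit 823932196) (nat_lit 380) (nat_lit 13255281028) (nat_lit 456) (nat_lit 8382962195) (nat_lit 214) (nat_lit 5) (nat_lit 219) (nat_lit 5) (nat_lit 220) (nat_lit 5) (nat_lit 477) (nat_lit 434) (nat_lit 289))))) (XT.nd (nat_lit 312) (nat_lit 684) (nat_lit 0) (XT.nd (nat_lit 156) (nat_lit 380) (nat_lit 0) (XT.nd (nat_lit 78) (nat_lit 456) (nat_lit 0) (XT.lf (nat_lit 0) (nat_lit 14524213467) (nat_lit 380) (nat_lit 4261254799) (nat_lit 456) (nat_lit 4071641518) (nat_lit 214) (nat_lit 5) (nat_lit 219) (nat_lit 5) (nat_lit 220) (nat_lit 5) (nat_lit 478) (nat_lit 434) (nat_lit 288)) (XT.lf (nat_lit 0) (nat_lit 455409636) (nat_lit 456) (nat_lit 17846681434) (nat_lit 76)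 (nat_lit 4958887171) (nat_lit 208) (nat_lit 5) (nat_lit 214) (nat_lit 5) (nat_lit 209) (nat_lit 5) (nat_lit 479) (nat_lit 434) (nat_lit 287))) (XT.nd (nat_lit 78) (nat_lit 380) (nat_lit 0) (XT.lf (nat_lit 0) (nat_lit 5156149248) (nat_lit 456) (nat_lit 4023470097) (nat_lit 76) (nat_lit 14492542847) (nat_lit 208) (nat_lit 5) (nat_lit 214) (nat_lit 5) (nat_lit 209) (nat_lit 5) (nat_lit 480) (nat_lit 434) (nat_lit 286)) (XT.lf (nat_lit 0) (nat_lit 10093758116) (nat_lit 456) (nat_lit 13688531639) (nat_lit 76) (nat_lit 310516710) (nat_lit 203) (nat_lit 5) (nat_lit 209) (nat_lit 5) (nat_lit 204) (nat_lit 5) (nat_lit 481) (nat_lit 434) (nat_lit 285)))) (XT.nd (nat_lit 156) (nat_lit 380) (nat_lit 0) (XT.nd (nat_lit 78) (nat_lit 0) (nat_lit 0) (XT.lf (nat_lit 0) (nat_lit 735337341) (nat_lit 304) (nat_lit 14575992391) (nat_lit 380) (nat_lit 9210785514) (nat_lit 199) (nat_lit 5) (nat_lit 203) (nat_lit 5) (nat_lit 204) (nat_lit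 5) (nat_lit 482) (nat_lit 434) (nat_lit 284)) (XT.lf (nat_lit 0) (nat_lit 15862423625) (nat_lit 304) (nat_lit 4954190665) (nat_lit 380) (nat_lit 4143753630) (nat_lit 199) (nat_lit 5) (nat_lit 203) (nat_lit 5) (nat_lit 204) (nat_lit 5) (nat_lit 483) (nat_lit 434) (nat_lit 283))) (XT.nd (nat_lit 78) (nat_lit 0) (nat_lit 0) (XT.lf (nat_lit 0) (nat_lit 1154635462) (nat_lit 380) (nat_lit 19327286202) (nat_lit 76) (nat_lit 4926526741) (nat_lit 194) (nat_lit 5) (nat_lit 199) (nat_lit 5) (nat_lit 195) (nat_lit 5) (nat_lit 484) (nat_lit 434) (nat_lit 282)) (XT.lf (nat_lit 0) (nat_lit 6663696114) (nat_lit 380) (nat_lit 4066083604) (nat_lit 76) (nat_lit 15134910803) (nat_lit 194) (nat_lit 5) (nat_lit 199) (nat_lit 5) (nat_lit 195) (nat_lit 5) (nat_lit 485) (nat_lit 434) (nat_lit 281)))))) (XT.nd (nat_lit 624) (nat_lit 1368) (nat_lit 0) (XT.nd (nat_lit 312) (nat_lit 608) (nat_lit 0) (XT.nd (nat_lit 156) (nat_lit 380) (nat_lit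 0) (XT.nd (nat_lit 78) (nat_lit 304) (nat_lit 0) (XT.lf (nat_lit 0) (nat_lit 11874948972) (nat_lit 304) (nat_lit 570600559) (nat_lit 380) (nat_lit 13885844922) (nat_lit 190) (nat_lit 5) (nat_lit 194) (nat_lit 5) (nat_lit 195) (nat_lit 5) (nat_lit 486) (nat_lit 434) (nat_lit 280)) (XT.lf (nat_lit 0) (nat_lit 1490472621) (nat_lit 304) (nat_lit 17054722505) (nat_lit 380) (nat_lit 8262574456) (nat_lit 186) (nat_lit 5) (nat_lit 190) (nat_lit 5) (nat_lit 191) (nat_lit 5) (nat_lit 487) (nat_lit 434) (nat_lit 279))) (XT.nd (nat_lit 78) (nat_lit 380) (nat_lit 0) (XT.lf (nat_lit 0) (nat_lit 18196675456) (nat_lit 304) (nat_lit 6776270501) (nat_lit 380) (nat_lit 2321136704) (nat_lit 186) (nat_lit 5) (nat_lit 190) (nat_lit 5) (nat_lit 191) (nat_lit 5) (nat_lit 488) (nat_lit 434) (nat_lit 278)) (XT.lf (nat_lit 0) (nat_lit 3829927982) (nat_lit 380) (nat_lit 20116012659) (nat_lit 76) (nat_lit 3844784023) (nat_lit 181) (nat_lit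 5) (nat_lit 186) (nat_lit 5) (nat_lit 182) (nat_lit 5) (nat_lit 489) (nat_lit 434) (nat_lit 277)))) (XT.nd (nat_lit 156) (nat_lit 304) (nat_lit 0) (XT.nd (nat_lit 78) (nat_lit 304) (nat_lit 0) (XT.lf (nat_lit 0) (nat_lit 10272467998) (nat_lit 380) (nat_lit 3263620421) (nat_lit 76) (nat_lit 14760880341) (nat_lit 181) (nat_lit 5) (nat_lit 186) (nat_lit 5) (nat_lit 182) (nat_lit 5) (nat_lit 490) (nat_lit 434) (nat_lit 276)) (XT.lf (nat_lit 0) (nat_lit 14365332581) (nat_lit 304) (nat_lit 2674951270) (nat_lit 380) (nat_lit 11774156492) (nat_lit 177) (nat_lit 5) (nat_lit 181) (nat_lit 5) (nat_lit 182) (nat_lit 5) (nat_lit 491) (nat_lit 434) (nat_lit 275))) (XT.nd (nat_lit 78) (nat_lit 76) (nat_lit 0) (XT.lf (nat_lit 0) (nat_lit 3214803224) (nat_lit 228) (nat_lit 20936307492) (nat_lit 304) (nat_lit 5192126208) (nat_lit 174) (nat_lit 5) (nat_lit 177) (nat_lit 5) (nat_lit 178) (nat_lit 5) (nat_lit 492) (nat_lit 434) (nat_lit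 274)) (XT.lf (nat_lit 0) (nat_lit 1724222709) (nat_lit 304) (nat_lit 8231299632) (nat_lit 76) (nat_lit 19926882453) (nat_lit 173) (nat_lit 5) (nat_lit 177) (nat_lit 5) (nat_lit 174) (nat_lit 5) (nat_lit 493) (nat_lit 434) (nat_lit 273))))) (XT.nd (nat_lit 312) (nat_lit 532) (nat_lit 0) (XT.nd (nat_lit 156) (nat_lit 532) (nat_lit 0) (XT.nd (nat_lit 78) (nat_lit 0) (nat_lit 0) (XT.lf (nat_lit 0) (nat_lit 8851793393) (nat_lit 380) (nat_lit 20103831549) (nat_lit 76) (nat_lit 1477338040) (nat_lit 169) (nat_lit 5) (nat_lit 174) (nat_lit 5) (nat_lit 170) (nat_lit 5) (nat_lit 494) (nat_lit 434) (nat_lit 272)) (XT.lf (nat_lit 0) (nat_lit 16369925536) (nat_lit 380) (nat_lit 1491020225) (nat_lit 76) (nat_lit 13133790256) (nat_lit 169) (nat_lit 5) (nat_lit 174) (nat_lit 5) (nat_lit 170) (nat_lit 5) (nat_lit 495) (nat_lit 434) (nat_lit 271))) (XT.nd (nat_lit 78) (nat_lit 304) (nat_lit 0) (XT.lf (nat_lit 0) (nat_lit 18022943305)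 (nat_lit 228) (nat_lit 6258296045) (nat_lit 304) (nat_lit 7287093891) (nat_lit 166) (nat_lit 5) (nat_lit 169) (nat_lit 5) (nat_lit 170) (nat_lit 5) (nat_lit 496) (nat_lit 434) (nat_lit 270)) (XT.lf (nat_lit 0) (nat_lit 389185821) (nat_lit 304) (nat_lit 26110889303) (nat_lit 76) (nat_lit 5655273847) (nat_lit 162) (nat_lit 5) (nat_lit 166) (nat_lit 5) (nat_lit 163) (nat_lit 5) (nat_lit 497) (nat_lit 434) (nat_lit 269)))) (XT.nd (nat_lit 156) (nat_lit 304) (nat_lit 0) (XT.nd (nat_lit 78) (nat_lit 228) (nat_lit 0) (XT.lf (nat_lit 0) (nat_lit 8343849053) (nat_lit 304) (nat_lit 6400660692) (nat_lit 76) (nat_lit 18007464307) (nat_lit 162) (nat_lit 5) (nat_lit 166) (nat_lit 5) (nat_lit 163) (nat_lit 5) (nat_lit 498) (nat_lit 434) (nat_lit 268)) (XT.lf (nat_lit 0) (nat_lit 14168623713) (nat_lit 228) (nat_lit 2499346353) (nat_lit 304) (nat_lit 16694603397) (nat_lit 159) (nat_lit 5) (nat_lit 162) (nat_lit 5) (nat_lit 163)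 (nat_lit 5) (nat_lit 499) (nat_lit 434) (nat_lit 267))) (XT.nd (nat_lit 78) (nat_lit 76) (nat_lit 0) (XT.lf (nat_lit 0) (nat_lit 1417678647) (nat_lit 228) (nat_lit 23994913587) (nat_lit 304) (nat_lit 8573775406) (nat_lit 156) (nat_lit 5) (nat_lit 159) (nat_lit 5) (nat_lit 160) (nat_lit 5) (nat_lit 500) (nat_lit 434) (nat_lit 266)) (XT.lf (nat_lit 0) (nat_lit 9929939) (nat_lit 304) (nat_lit 11615394300) (nat_lit 76) (nat_lit 22997156835) (nat_lit 155) (nat_lit 5) (nat_lit 159) (nat_lit 5) (nat_lit 156) (nat_lit 5) (nat_lit 501) (nat_lit 434) (nat_lit 265))))))))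
noncomputable def xc169 : XT := (XT.nd (nat_lit 2418) (nat_lit 1596) (nat_lit 0) (XT.nd (nat_lit 1170) (nat_lit 1824) (nat_lit 0) (XT.nd (nat_lit 546) (nat_lit 1064) (nat_lit 0) (XT.nd (nat_lit 234) (nat_lit 608) (nat_lit 0) (XT.nd (nat_lit 78) (nat_lit 228) (nat_lit 0) (XT.lf (nat_lit 0) (nat_lit 8782941252) (nat_lit 304) (nat_lit 25215303734) (nat_lit 76) (nat_lit 1273762784) (nat_lit 152) (nat_lit 5) (nat_lit 156) (nat_lit 5) (nat_lit 153) (nat_lit 5) (nat_lit 502) (nat_lit 434) (nat_lit 264)) (XT.nd (nat_lit 78) (nat_lit 228) (nat_lit 0) (XT.lf (nat_lit 0) (nat_lit 18047572486) (nat_lit 304) (nat_lit 3445269774) (nat_lit 76) (nat_lit 14441325218) (nat_lit 152) (nat_lit 5) (nat_lit 156) (nat_lit 5) (nat_lit 153) (nat_lit 5) (nat_lit 503) (nat_lit 434) (nat_lit 263)) (XT.lf (nat_lit 0) (nat_lit 19347071722) (nat_lit 228) (nat_lit 8424069484) (nat_lit 304) (nat_lit 8839620910) (nat_lit 149) (nat_lit 5) (nat_lit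 152) (nat_lit 5) (nat_lit 153) (nat_lit 5) (nat_lit 504) (nat_lit 434) (nat_lit 262)))) (XT.nd (nat_lit 156) (nat_lit 380) (nat_lit 0) (XT.nd (nat_lit 78) (nat_lit 0) (nat_lit 0) (XT.lf (nat_lit 0) (nat_lit 603559249) (nat_lit 228) (nat_lit 31669449859) (nat_lit 76) (nat_lit 5030483332) (nat_lit 146) (nat_lit 5) (nat_lit 149) (nat_lit 5) (nat_lit 147) (nat_lit 5) (nat_lit 505) (nat_lit 434) (nat_lit 261)) (XT.lf (nat_lit 0) (nat_lit 10406901678) (nat_lit 228) (nat_lit 8620206731) (nat_lit 76) (nat_lit 18979634688) (nat_lit 146) (nat_lit 5) (nat_lit 149) (nat_lit 5) (nat_lit 147) (nat_lit 5) (nat_lit 506) (nat_lit 434) (nat_lit 260))) (XT.nd (nat_lit 78) (nat_lit 152) (nat_lit 0) (XT.lf (nat_lit 0) (nat_lit 15413149110) (nat_lit 228) (nat_lit 5234571816) (nat_lit 304) (nat_lit 18079069135) (nat_lit 143) (nat_lit 5) (nat_lit 146) (nat_lit 5) (nat_lit 147) (nat_lit 5) (nat_lit 507) (nat_lit 434) (nat_lit 259)) (XT.lf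 (nat_lit 0) (nat_lit 798705633) (nat_lit 152) (nat_lit 30574133551) (nat_lit 228) (nat_lit 8090287101) (nat_lit 141) (nat_lit 5) (nat_lit 143) (nat_lit 5) (nat_lit 144) (nat_lit 5) (nat_lit 508) (nat_lit 434) (nat_lit 258))))) (XT.nd (nat_lit 312) (nat_lit 608) (nat_lit 0) (XT.nd (nat_lit 156) (nat_lit 152) (nat_lit 0) (XT.nd (nat_lit 78) (nat_lit 228) (nat_lit 0) (XT.lf (nat_lit 0) (nat_lit 2440104950) (nat_lit 228) (nat_lit 14185624005) (nat_lit 76) (nat_lit 23586644599) (nat_lit 140) (nat_lit 5) (nat_lit 143) (nat_lit 5) (nat_lit 141) (nat_lit 5) (nat_lit 509) (nat_lit 434) (nat_lit 257)) (XT.lf (nat_lit 0) (nat_lit 11157215179) (nat_lit 228) (nat_lit 2069234984) (nat_lit 304) (nat_lit 27752165653) (nat_lit 137) (nat_lit 5) (nat_lit 140) (nat_lit 5) (nat_lit 141) (nat_lit 5) (nat_lit 510) (nat_lit 434) (nat_lit 256))) (XT.nd (nat_lit 78) (nat_lit 152) (nat_lit 0) (XT.lf (nat_lit 0) (nat_lit 24600708754) (nat_lit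 304) (nat_lit 4346031899) (nat_lit 76) (nat_lit 12813175074) (nat_lit 137) (nat_lit 5) (nat_lit 141) (nat_lit 5) (nat_lit 138) (nat_lit 5) (nat_lit 511) (nat_lit 434) (nat_lit 255)) (XT.lf (nat_lit 0) (nat_lit 22300542636) (nat_lit 152) (nat_lit 14246064455) (nat_lit 228) (nat_lit 6011135258) (nat_lit 135) (nat_lit 5) (nat_lit 137) (nat_lit 5) (nat_lit 138) (nat_lit 5) (nat_lit 512) (nat_lit 434) (nat_lit 254)))) (XT.nd (nat_lit 156) (nat_lit 304) (nat_lit 0) (XT.nd (nat_lit 78) (nat_lit 0) (nat_lit 0) (XT.lf (nat_lit 0) (nat_lit 5477373733) (nat_lit 304) (nat_lit 36861056378) (nat_lit 76) (nat_lit 1036113053) (nat_lit 131) (nat_lit 5) (nat_lit 135) (nat_lit 5) (nat_lit 132) (nat_lit 5) (nat_lit 513) (nat_lit 434) (nat_lit 253)) (XT.lf (nat_lit 0) (nat_lit 17532947582) (nat_lit 304) (nat_lit 9917524143) (nat_lit 76) (nat_lit 16753294034) (nat_lit 131) (nat_lit 5) (nat_lit 135) (nat_lit 5) (nat_lit 132) (nat_lit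 5) (nat_lit 514) (nat_lit 434) (nat_lit 252))) (XT.nd (nat_lit 78) (nat_lit 152) (nat_lit 0) (XT.lf (nat_lit 0) (nat_lit 18181560199) (nat_lit 152) (nat_lit 11939123046) (nat_lit 228) (nat_lit 14932067013) (nat_lit 129) (nat_lit 5) (nat_lit 131) (nat_lit 5) (nat_lit 132) (nat_lit 5) (nat_lit 515) (nat_lit 434) (nat_lit 251)) (XT.lf (nat_lit 0) (nat_lit 1382324457) (nat_lit 152) (nat_lit 41852708889) (nat_lit 228) (nat_lit 2687701535) (nat_lit 127) (nat_lit 5) (nat_lit 129) (nat_lit 5) (nat_lit 130) (nat_lit 5) (nat_lit 516) (nat_lit 434) (nat_lit 250)))))) (XT.nd (nat_lit 624) (nat_lit 836) (nat_lit 0) (XT.nd (nat_lit 312) (nat_lit 532) (nat_lit 0) (XT.nd (nat_lit 156) (nat_lit 228) (nat_lit 0) (XT.nd (nat_lit 78) (nat_lit 152) (nat_lit 0) (XT.lf (nat_lit 0) (nat_lit 10118338335) (nat_lit 228) (nat_lit 16000266129) (nat_lit 76) (nat_lit 20685712882) (nat_lit 126) (nat_lit 5) (nat_lit 129) (nat_lit 5) (nat_lit 127)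 (nat_lit 5) (nat_lit 517) (nat_lit 434) (nat_lit 249)) (XT.lf (nat_lit 0) (nat_lit 13628050848) (nat_lit 152) (nat_lit 9753367484) (nat_lit 228) (nat_lit 24326324310) (nat_lit 124) (nat_lit 5) (nat_lit 126) (nat_lit 5) (nat_lit 127) (nat_lit 5) (nat_lit 518) (nat_lit 434) (nat_lit 248))) (XT.nd (nat_lit 78) (nat_lit 228) (nat_lit 0) (XT.lf (nat_lit 0) (nat_lit 37269735609) (nat_lit 228) (nat_lit 4237465260) (nat_lit 76) (nat_lit 7124249535) (nat_lit 124) (nat_lit 5) (nat_lit 127) (nat_lit 5) (nat_lit 125) (nat_lit 5) (nat_lit 519) (nat_lit 434) (nat_lit 247)) (XT.lf (nat_lit 0) (nat_lit 2307815953) (nat_lit 228) (nat_lit 22673313340) (nat_lit 76) (nat_lit 24590520233) (nat_lit 121) (nat_lit 5) (nat_lit 124) (nat_lit 5) (nat_lit 122) (nat_lit 5) (nat_lit 520) (nat_lit 434) (nat_lit 246)))) (XT.nd (nat_lit 156) (nat_lit 380) (nat_lit 0) (XT.nd (nat_lit 78) (nat_lit 0) (nat_lit 0) (XT.lf (nat_lit 0) (nat_lit 8563323411)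 (nat_lit 152) (nat_lit 7717305164) (nat_lit 228) (nat_lit 34252404673) (nat_lit 119) (nat_lit 5) (nat_lit 121) (nat_lit 5) (nat_lit 122) (nat_lit 5) (nat_lit 521) (nat_lit 434) (nat_lit 245)) (XT.lf (nat_lit 0) (nat_lit 30996636560) (nat_lit 228) (nat_lit 10420745980) (nat_lit 76) (nat_lit 10096155660) (nat_lit 119) (nat_lit 5) (nat_lit 122) (nat_lit 5) (nat_lit 120) (nat_lit 5) (nat_lit 522) (nat_lit 434) (nat_lit 244))) (XT.nd (nat_lit 78) (nat_lit 228) (nat_lit 0) (XT.lf (nat_lit 0) (nat_lit 22428973368) (nat_lit 152) (nat_lit 24013319247) (nat_lit 228) (nat_lit 6072520700) (nat_lit 117) (nat_lit 5) (nat_lit 119) (nat_lit 5) (nat_lit 120) (nat_lit 5) (nat_lit 523) (nat_lit 434) (nat_lit 243)) (XT.lf (nat_lit 0) (nat_lit 2898728951) (nat_lit 152) (nat_lit 5864942784) (nat_lit 228) (nat_lit 44776006731) (nat_lit 114) (nat_lit 5) (nat_lit 116) (nat_lit 5) (nat_lit 117) (nat_lit 5) (nat_lit 524) (nat_lit 434) (nat_lit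 242))))) (XT.nd (nat_lit 312) (nat_lit 456) (nat_lit 0) (XT.nd (nat_lit 156) (nat_lit 228) (nat_lit 0) (XT.nd (nat_lit 78) (nat_lit 152) (nat_lit 0) (XT.lf (nat_lit 0) (nat_lit 24349204680) (nat_lit 228) (nat_lit 17290049350) (nat_lit 76) (nat_lit 12941442675) (nat_lit 114) (nat_lit 5) (nat_lit 117) (nat_lit 5) (nat_lit 115) (nat_lit 5) (nat_lit 525) (nat_lit 434) (nat_lit 241)) (XT.lf (nat_lit 0) (nat_lit 17334779162) (nat_lit 152) (nat_lit 23288517846) (nat_lit 228) (nat_lit 15023018724) (nat_lit 112) (nat_lit 5) (nat_lit 114) (nat_lit 5) (nat_lit 115) (nat_lit 5) (nat_lit 526) (nat_lit 434) (nat_lit 240))) (XT.nd (nat_lit 78) (nat_lit 152) (nat_lit 0) (XT.lf (nat_lit 0) (nat_lit 801810153) (nat_lit 228) (nat_lit 3400582018) (nat_lit 76) (nat_lit 52536147439) (nat_lit 111) (nat_lit 5) (nat_lit 114) (nat_lit 5) (nat_lit 112) (nat_lit 5) (nat_lit 527) (nat_lit 434) (nat_lit 239)) (XT.lf (nat_lit 0) (nat_lit 17266677792)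 (nat_lit 228) (nat_lit 24955584317) (nat_lit 76) (nat_lit 15622788599) (nat_lit 109) (nat_lit 5) (nat_lit 112) (nat_lit 5) (nat_lit 110) (nat_lit 5) (nat_lit 528) (nat_lit 434) (nat_lit 238)))) (XT.nd (nat_lit 156) (nat_lit 304) (nat_lit 0) (XT.nd (nat_lit 78) (nat_lit 0) (nat_lit 0) (XT.lf (nat_lit 0) (nat_lit 11530638314) (nat_lit 152) (nat_lit 22878399785) (nat_lit 228) (nat_lit 24570212679) (nat_lit 107) (nat_lit 5) (nat_lit 109) (nat_lit 5) (nat_lit 110) (nat_lit 5) (nat_lit 529) (nat_lit 434) (nat_lit 237)) (XT.lf (nat_lit 0) (nat_lit 49616461477) (nat_lit 152) (nat_lit 2697671547) (nat_lit 228) (nat_lit 7825889947) (nat_lit 107) (nat_lit 5) (nat_lit 109) (nat_lit 5) (nat_lit 110) (nat_lit 5) (nat_lit 530) (nat_lit 434) (nat_lit 236))) (XT.nd (nat_lit 78) (nat_lit 152) (nat_lit 0) (XT.lf (nat_lit 0) (nat_lit 9679613950) (nat_lit 152) (nat_lit 33544538807) (nat_lit 76) (nat_lit 18095468329) (nat_lit 105) (nat_lit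 5) (nat_lit 107) (nat_lit 5) (nat_lit 106) (nat_lit 5) (nat_lit 531) (nat_lit 434) (nat_lit 235)) (XT.lf (nat_lit 0) (nat_lit 4890737919) (nat_lit 152) (nat_lit 22839836267) (nat_lit 228) (nat_lit 34796380952) (nat_lit 103) (nat_lit 5) (nat_lit 105) (nat_lit 5) (nat_lit 106) (nat_lit 5) (nat_lit 532) (nat_lit 434) (nat_lit 234))))))) (XT.nd (nat_lit 1248) (nat_lit 76) (nat_lit 0) (XT.nd (nat_lit 624) (nat_lit 836) (nat_lit 0) (XT.nd (nat_lit 312) (nat_lit 380) (nat_lit 0) (XT.nd (nat_lit 156) (nat_lit 152) (nat_lit 0) (XT.nd (nat_lit 78) (nat_lit 152) (nat_lit 0) (XT.lf (nat_lit 0) (nat_lit 45160325154) (nat_lit 152) (nat_lit 1498053543) (nat_lit 228) (nat_lit 17102071083) (nat_lit 103) (nat_lit 5) (nat_lit 105) (nat_lit 5) (nat_lit 106) (nat_lit 5) (nat_lit 533) (nat_lit 434) (nat_lit 233)) (XT.lf (nat_lit 0) (nat_lit 1508546909) (nat_lit 152) (nat_lit 43203775750) (nat_lit 76) (nat_lit 20306080946) (nat_lit 101)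 (nat_lit 5) (nat_lit 103) (nat_lit 5) (nat_lit 102) (nat_lit 5) (nat_lit 534) (nat_lit 434) (nat_lit 232))) (XT.nd (nat_lit 78) (nat_lit 152) (nat_lit 0) (XT.lf (nat_lit 0) (nat_lit 20534923811) (nat_lit 152) (nat_lit 2677642660) (nat_lit 76) (nat_lit 43090414528) (nat_lit 101) (nat_lit 5) (nat_lit 103) (nat_lit 5) (nat_lit 102) (nat_lit 5) (nat_lit 535) (nat_lit 434) (nat_lit 231)) (XT.lf (nat_lit 0) (nat_lit 39835522254) (nat_lit 152) (nat_lit 676248914) (nat_lit 228) (nat_lit 27102934201) (nat_lit 99) (nat_lit 5) (nat_lit 101) (nat_lit 5) (nat_lit 102) (nat_lit 5) (nat_lit 536) (nat_lit 434) (nat_lit 230)))) (XT.nd (nat_lit 156) (nat_lit 228) (nat_lit 0) (XT.nd (nat_lit 78) (nat_lit 76) (nat_lit 0) (XT.lf (nat_lit 0) (nat_lit 14779405064) (nat_lit 76) (nat_lit 46691290752) (nat_lit 152) (nat_lit 7483602525) (nat_lit 98) (nat_lit 5) (nat_lit 99) (nat_lit 5) (nat_lit 100) (nat_lit 4) (nat_lit 537) (nat_lit 434)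 (nat_lit 229)) (XT.lf (nat_lit 0) (nat_lit 12762769886) (nat_lit 152) (nat_lit 11279354212) (nat_lit 76) (nat_lit 46279682878) (nat_lit 97) (nat_lit 5) (nat_lit 99) (nat_lit 5) (nat_lit 98) (nat_lit 5) (nat_lit 538) (nat_lit 434) (nat_lit 228))) (XT.nd (nat_lit 78) (nat_lit 76) (nat_lit 0) (XT.lf (nat_lit 0) (nat_lit 33476275632) (nat_lit 152) (nat_lit 308503055) (nat_lit 228) (nat_lit 37933779609) (nat_lit 95) (nat_lit 5) (nat_lit 97) (nat_lit 5) (nat_lit 98) (nat_lit 5) (nat_lit 539) (nat_lit 434) (nat_lit 227)) (XT.lf (nat_lit 0) (nat_lit 6540544477) (nat_lit 76) (nat_lit 49303695076) (nat_lit 152) (nat_lit 17300768874) (nat_lit 94) (nat_lit 5) (nat_lit 95) (nat_lit 5) (nat_lit 96) (nat_lit 4) (nat_lit 540) (nat_lit 434) (nat_lit 226))))) (XT.nd (nat_lit 312) (nat_lit 532) (nat_lit 0) (XT.nd (nat_lit 156) (nat_lit 76) (nat_lit 0) (XT.nd (nat_lit 78) (nat_lit 152) (nat_lit 0) (XT.lf (nat_lit 0) (nat_lit 4264055629)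 (nat_lit 152) (nat_lit 21202676294) (nat_lit 76) (nat_lit 49134682924) (nat_lit 93) (nat_lit 5) (nat_lit 95) (nat_lit 5) (nat_lit 94) (nat_lit 5) (nat_lit 541) (nat_lit 434) (nat_lit 225)) (XT.lf (nat_lit 0) (nat_lit 25889301143) (nat_lit 152) (nat_lit 484626362) (nat_lit 228) (nat_lit 49715072208) (nat_lit 91) (nat_lit 5) (nat_lit 93) (nat_lit 5) (nat_lit 94) (nat_lit 5) (nat_lit 542) (nat_lit 434) (nat_lit 224))) (XT.nd (nat_lit 78) (nat_lit 76) (nat_lit 0) (XT.lf (nat_lit 0) (nat_lit 49602984532) (nat_lit 228) (nat_lit 3036695999) (nat_lit 76) (nat_lit 24967854945) (nat_lit 91) (nat_lit 5) (nat_lit 94) (nat_lit 5) (nat_lit 92) (nat_lit 4) (nat_lit 543) (nat_lit 434) (nat_lit 223)) (XT.lf (nat_lit 0) (nat_lit 46436948445) (nat_lit 76) (nat_lit 27540206205) (nat_lit 152) (nat_lit 5181025441) (nat_lit 90) (nat_lit 5) (nat_lit 91) (nat_lit 5) (nat_lit 92) (nat_lit 4) (nat_lit 544) (nat_lit 434) (nat_lit 222)))) (XT.nd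 (nat_lit 156) (nat_lit 304) (nat_lit 0) (XT.nd (nat_lit 78) (nat_lit 0) (nat_lit 0) (XT.lf (nat_lit 0) (nat_lit 16849337208) (nat_lit 152) (nat_lit 1310239433) (nat_lit 228) (nat_lit 62584782236) (nat_lit 87) (nat_lit 5) (nat_lit 89) (nat_lit 5) (nat_lit 90) (nat_lit 5) (nat_lit 545) (nat_lit 434) (nat_lit 221)) (XT.lf (nat_lit 0) (nat_lit 42674135717) (nat_lit 228) (nat_lit 14097722893) (nat_lit 76) (nat_lit 25587389346) (nat_lit 87) (nat_lit 5) (nat_lit 90) (nat_lit 5) (nat_lit 88) (nat_lit 4) (nat_lit 546) (nat_lit 434) (nat_lit 220))) (XT.nd (nat_lit 78) (nat_lit 228) (nat_lit 0) (XT.lf (nat_lit 0) (nat_lit 37914930310) (nat_lit 76) (nat_lit 30383793506) (nat_lit 152) (nat_lit 15712622141) (nat_lit 86) (nat_lit 5) (nat_lit 87) (nat_lit 5) (nat_lit 88) (nat_lit 4) (nat_lit 547) (nat_lit 434) (nat_lit 219)) (XT.lf (nat_lit 0) (nat_lit 6093958192) (nat_lit 152) (nat_lit 2909379858) (nat_lit 228) (nat_lit 76701094239)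 (nat_lit 83) (nat_lit 5) (nat_lit 85) (nat_lit 5) (nat_lit 86) (nat_lit 5) (nat_lit 548) (nat_lit 434) (nat_lit 218)))))) (XT.nd (nat_lit 54054) (nat_lit 0) (nat_lit 18924) (XT.nd (nat_lit 53742) (nat_lit 0) (nat_lit 19912) (XT.nd (nat_lit 53586) (nat_lit 0) (nat_lit 19912) (XT.nd (nat_lit 78) (nat_lit 76) (nat_lit 0) (XT.lf (nat_lit 0) (nat_lit 34856285254) (nat_lit 228) (nat_lit 27049066286) (nat_lit 76) (nat_lit 25516953083) (nat_lit 83) (nat_lit 5) (nat_lit 86) (nat_lit 5) (nat_lit 84) (nat_lit 4) (nat_lit 549) (nat_lit 434) (nat_lit 217)) (XT.lf (nat_lit 0) (nat_lit 27593528377) (nat_lit 76) (nat_lit 34182593661) (nat_lit 152) (nat_lit 27406852069) (nat_lit 82) (nat_lit 5) (nat_lit 83) (nat_lit 5) (nat_lit 84) (nat_lit 4) (nat_lit 550) (nat_lit 434) (nat_lit 216))) (XT.nd (nat_lit 78) (nat_lit 0) (nat_lit 0) (XT.lf (nat_lit 0) (nat_lit 1765631613) (nat_lit 0) (nat_lit 1765631613) (nat_lit 1140) (nat_lit 2349503670)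 (nat_lit 344) (nat_lit 5) (nat_lit 344) (nat_lit 3) (nat_lit 359) (nat_lit 3) (nat_lit 435) (nat_lit 435) (nat_lit 330)) (XT.lf (nat_lit 0) (nat_lit 7681074037) (nat_lit 1140) (nat_lit 2386016778) (nat_lit 1216) (nat_lit 1855463961) (nat_lit 344) (nat_lit 5) (nat_lit 359) (nat_lit 3) (nat_lit 360) (nat_lit 5) (nat_lit 436) (nat_lit 435) (nat_lit 329)))) (XT.nd (nat_lit 156) (nat_lit 0) (nat_lit 76) (XT.nd (nat_lit 78) (nat_lit 0) (nat_lit 76) (XT.lf (nat_lit 76) (nat_lit 3659695021) (nat_lit 0) (nat_lit 4709422209) (nat_lit 1216) (nat_lit 3717761905) (nat_lit 345) (nat_lit 5) (nat_lit 344) (nat_lit 5) (nat_lit 360) (nat_lit 5) (nat_lit 437) (nat_lit 435) (nat_lit 328)) (XT.lf (nat_lit 0) (nat_lit 9091250703) (nat_lit 1140) (nat_lit 2338600494) (nat_lit 1216) (nat_lit 825879459) (nat_lit 345) (nat_lit 5) (nat_lit 360) (nat_lit 5) (nat_lit 361) (nat_lit 5) (nat_lit 438) (nat_lit 435) (nat_lit 327))) (XT.nd (nat_lit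 78) (nat_lit 0) (nat_lit 0) (XT.lf (nat_lit 76) (nat_lit 3952594141) (nat_lit 0) (nat_lit 5948960190) (nat_lit 1216) (nat_lit 2526099080) (nat_lit 346) (nat_lit 5) (nat_lit 345) (nat_lit 5) (nat_lit 361) (nat_lit 5) (nat_lit 439) (nat_lit 435) (nat_lit 326)) (XT.lf (nat_lit 76) (nat_lit 10470019143) (nat_lit 0) (nat_lit 272073928) (nat_lit 1216) (nat_lit 1862463845) (nat_lit 346) (nat_lit 5) (nat_lit 345) (nat_lit 5) (nat_lit 361) (nat_lit 5) (nat_lit 440) (nat_lit 435) (nat_lit 325))))) (XT.nd (nat_lit 312) (nat_lit 0) (nat_lit 76) (XT.nd (nat_lit 156) (nat_lit 1140) (nat_lit 0) (XT.nd (nat_lit 78) (nat_lit 0) (nat_lit 0) (XT.lf (nat_lit 76) (nat_lit 4418096960) (nat_lit 0) (nat_lit 7268705476) (nat_lit 1216) (nat_lit 1097597280) (nat_lit 347) (nat_lit 5) (nat_lit 346) (nat_lit 5) (nat_lit 362) (nat_lit 5) (nat_lit 441) (nat_lit 435) (nat_lit 324)) (XT.lf (nat_lit 76) (nat_lit 11197700453) (nat_lit 0) (nat_lit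 1469664396) (nat_lit 1216) (nat_lit 302048397) (nat_lit 347) (nat_lit 5) (nat_lit 346) (nat_lit 5) (nat_lit 362) (nat_lit 5) (nat_lit 442) (nat_lit 435) (nat_lit 323))) (XT.nd (nat_lit 78) (nat_lit 0) (nat_lit 0) (XT.lf (nat_lit 0) (nat_lit 583835237) (nat_lit 1216) (nat_lit 8098010803) (nat_lit 1292) (nat_lit 4475685778) (nat_lit 331) (nat_lit 5) (nat_lit 347) (nat_lit 5) (nat_lit 348) (nat_lit 5) (nat_lit 443) (nat_lit 435) (nat_lit 322)) (XT.lf (nat_lit 0) (nat_lit 1506887286) (nat_lit 1216) (nat_lit 1247531587) (nat_lit 1292) (nat_lit 10596286205) (nat_lit 331) (nat_lit 5) (nat_lit 347) (nat_lit 5) (nat_lit 348) (nat_lit 5) (nat_lit 444) (nat_lit 435) (nat_lit 321)))) (XT.nd (nat_lit 156) (nat_lit 0) (nat_lit 76) (XT.nd (nat_lit 78) (nat_lit 0) (nat_lit 0) (XT.lf (nat_lit 0) (nat_lit 2531798363) (nat_lit 1216) (nat_lit 7668147895) (nat_lit 1292) (nat_lit 3347502964) (nat_lit 332) (nat_lit 5) (nat_lit 348) (nat_lit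 5) (nat_lit 349) (nat_lit 5) (nat_lit 445) (nat_lit 435) (nat_lit 320)) (XT.lf (nat_lit 0) (nat_lit 3612351280) (nat_lit 1216) (nat_lit 542737929) (nat_lit 1292) (nat_lit 9594260334) (nat_lit 332) (nat_lit 5) (nat_lit 348) (nat_lit 5) (nat_lit 349) (nat_lit 5) (nat_lit 446) (nat_lit 435) (nat_lit 319))) (XT.nd (nat_lit 78) (nat_lit 0) (nat_lit 0) (XT.lf (nat_lit 0) (nat_lit 4797791427) (nat_lit 1216) (nat_lit 7055686510) (nat_lit 1292) (nat_lit 2101655487) (nat_lit 333) (nat_lit 5) (nat_lit 349) (nat_lit 5) (nat_lit 350) (nat_lit 5) (nat_lit 447) (nat_lit 435) (nat_lit 318)) (XT.lf (nat_lit 76) (nat_lit 363830772) (nat_lit 0) (nat_lit 5690835141) (nat_lit 1292) (nat_lit 8111349425) (nat_lit 334) (nat_lit 5) (nat_lit 333) (nat_lit 5) (nat_lit 350) (nat_lit 5) (nat_lit 448) (nat_lit 435) (nat_lit 317))))))))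
noncomputable def xc170 : XT := (XT.nd (nat_lit 2418) (nat_lit 5852) (nat_lit 0) (XT.nd (nat_lit 1170) (nat_lit 4104) (nat_lit 0) (XT.nd (nat_lit 546) (nat_lit 2964) (nat_lit 0) (XT.nd (nat_lit 234) (nat_lit 2052) (nat_lit 0) (XT.nd (nat_lit 78) (nat_lit 0) (nat_lit 0) (XT.lf (nat_lit 0) (nat_lit 7413550897) (nat_lit 1216) (nat_lit 6249046507) (nat_lit 1292) (nat_lit 718697808) (nat_lit 334) (nat_lit 5) (nat_lit 350) (nat_lit 5) (nat_lit 351) (nat_lit 5) (nat_lit 449) (nat_lit 435) (nat_lit 316)) (XT.nd (nat_lit 78) (nat_lit 0) (nat_lit 0) (XT.lf (nat_lit 76) (nat_lit 1492285335) (nat_lit 0) (nat_lit 7378051180) (nat_lit 1292) (nat_lit 5730983557) (nat_lit 335) (nat_lit 5) (nat_lit 334) (nat_lit 5) (nat_lit 351) (nat_lit 5) (nat_lit 450) (nat_lit 435) (nat_lit 315)) (XT.lf (nat_lit 76) (nat_lit 9582890705) (nat_lit 0) (nat_lit 837770988) (nat_lit 1292) (nat_lit 4405789500) (nat_lit 335) (nat_lit 5) (nat_lit 334)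 (nat_lit 5) (nat_lit 351) (nat_lit 5) (nat_lit 451) (nat_lit 435) (nat_lit 314)))) (XT.nd (nat_lit 156) (nat_lit 912) (nat_lit 0) (XT.nd (nat_lit 78) (nat_lit 0) (nat_lit 0) (XT.lf (nat_lit 0) (nat_lit 2845551877) (nat_lit 1216) (nat_lit 9243139858) (nat_lit 1292) (nat_lit 2967509237) (nat_lit 319) (nat_lit 5) (nat_lit 335) (nat_lit 5) (nat_lit 336) (nat_lit 5) (nat_lit 452) (nat_lit 435) (nat_lit 313)) (XT.lf (nat_lit 0) (nat_lit 11265323947) (nat_lit 1216) (nat_lit 2590010120) (nat_lit 1292) (nat_lit 1436052595) (nat_lit 319) (nat_lit 5) (nat_lit 335) (nat_lit 5) (nat_lit 336) (nat_lit 5) (nat_lit 453) (nat_lit 435) (nat_lit 312))) (XT.nd (nat_lit 78) (nat_lit 0) (nat_lit 0) (XT.lf (nat_lit 0) (nat_lit 210728054) (nat_lit 912) (nat_lit 11094954852) (nat_lit 76) (nat_lit 4225740629) (nat_lit 307) (nat_lit 5) (nat_lit 319) (nat_lit 5) (nat_lit 308) (nat_lit 5) (nat_lit 454) (nat_lit 435) (nat_lit 311)) (XT.lf (nat_lit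 0) (nat_lit 1932670940) (nat_lit 912) (nat_lit 2593533932) (nat_lit 76) (nat_lit 11250391943) (nat_lit 307) (nat_lit 5) (nat_lit 319) (nat_lit 5) (nat_lit 308) (nat_lit 5) (nat_lit 455) (nat_lit 435) (nat_lit 310))))) (XT.nd (nat_lit 312) (nat_lit 1216) (nat_lit 0) (XT.nd (nat_lit 156) (nat_lit 1140) (nat_lit 0) (XT.nd (nat_lit 78) (nat_lit 0) (nat_lit 0) (XT.lf (nat_lit 0) (nat_lit 3779078366) (nat_lit 684) (nat_lit 9777427928) (nat_lit 76) (nat_lit 2470435309) (nat_lit 299) (nat_lit 5) (nat_lit 308) (nat_lit 5) (nat_lit 300) (nat_lit 5) (nat_lit 456) (nat_lit 435) (nat_lit 309)) (XT.lf (nat_lit 0) (nat_lit 5740657587) (nat_lit 684) (nat_lit 929218234) (nat_lit 76) (nat_lit 9613128011) (nat_lit 299) (nat_lit 5) (nat_lit 308) (nat_lit 5) (nat_lit 300) (nat_lit 5) (nat_lit 457) (nat_lit 435) (nat_lit 308))) (XT.nd (nat_lit 78) (nat_lit 532) (nat_lit 0) (XT.lf (nat_lit 0) (nat_lit 7834934869) (nat_lit 684) (nat_lit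 8213263038) (nat_lit 76) (nat_lit 496334969) (nat_lit 291) (nat_lit 5) (nat_lit 300) (nat_lit 5) (nat_lit 292) (nat_lit 5) (nat_lit 458) (nat_lit 435) (nat_lit 307)) (XT.lf (nat_lit 0) (nat_lit 1017670566) (nat_lit 532) (nat_lit 9048741803) (nat_lit 608) (nat_lit 6745264721) (nat_lit 284) (nat_lit 5) (nat_lit 291) (nat_lit 5) (nat_lit 292) (nat_lit 5) (nat_lit 459) (nat_lit 435) (nat_lit 306)))) (XT.nd (nat_lit 156) (nat_lit 608) (nat_lit 0) (XT.nd (nat_lit 78) (nat_lit 608) (nat_lit 0) (XT.lf (nat_lit 0) (nat_lit 10682953467) (nat_lit 532) (nat_lit 1754106470) (nat_lit 608) (nat_lit 4647609365) (nat_lit 284) (nat_lit 5) (nat_lit 291) (nat_lit 5) (nat_lit 292) (nat_lit 5) (nat_lit 460) (nat_lit 435) (nat_lit 305)) (XT.lf (nat_lit 0) (nat_lit 3269853506) (nat_lit 608) (nat_lit 11685365568) (nat_lit 684) (nat_lit 2408340871) (nat_lit 276) (nat_lit 5) (nat_lit 284) (nat_lit 5) (nat_lit 285) (nat_lit 5) (nat_lit 461)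 (nat_lit 435) (nat_lit 304))) (XT.nd (nat_lit 78) (nat_lit 608) (nat_lit 0) (XT.lf (nat_lit 0) (nat_lit 13334258867) (nat_lit 608) (nat_lit 4286302662) (nat_lit 684) (nat_lit 28107037) (nat_lit 276) (nat_lit 5) (nat_lit 284) (nat_lit 5) (nat_lit 285) (nat_lit 5) (nat_lit 462) (nat_lit 435) (nat_lit 303)) (XT.lf (nat_lit 0) (nat_lit 2455192467) (nat_lit 608) (nat_lit 12134901144) (nat_lit 76) (nat_lit 3349169819) (nat_lit 268) (nat_lit 5) (nat_lit 276) (nat_lit 5) (nat_lit 269) (nat_lit 5) (nat_lit 463) (nat_lit 435) (nat_lit 302)))))) (XT.nd (nat_lit 624) (nat_lit 2128) (nat_lit 0) (XT.nd (nat_lit 312) (nat_lit 988) (nat_lit 0) (XT.nd (nat_lit 156) (nat_lit 456) (nat_lit 0) (XT.nd (nat_lit 78) (nat_lit 532) (nat_lit 0) (XT.lf (nat_lit 0) (nat_lit 5089040306) (nat_lit 608) (nat_lit 1976172115) (nat_lit 76) (nat_lit 11171057324) (nat_lit 268) (nat_lit 5) (nat_lit 276) (nat_lit 5) (nat_lit 269) (nat_lit 5) (nat_lit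 464) (nat_lit 435) (nat_lit 301)) (XT.lf (nat_lit 0) (nat_lit 7882873662) (nat_lit 608) (nat_lit 9901934465) (nat_lit 76) (nat_lit 754949390) (nat_lit 261) (nat_lit 5) (nat_lit 269) (nat_lit 5) (nat_lit 262) (nat_lit 5) (nat_lit 465) (nat_lit 435) (nat_lit 300))) (XT.nd (nat_lit 78) (nat_lit 0) (nat_lit 0) (XT.lf (nat_lit 0) (nat_lit 691599028) (nat_lit 456) (nat_lit 10156306406) (nat_lit 532) (nat_lit 8001823345) (nat_lit 255) (nat_lit 5) (nat_lit 261) (nat_lit 5) (nat_lit 262) (nat_lit 5) (nat_lit 466) (nat_lit 435) (nat_lit 299)) (XT.lf (nat_lit 0) (nat_lit 11795281007) (nat_lit 456) (nat_lit 2197397645) (nat_lit 532) (nat_lit 5173597163) (nat_lit 255) (nat_lit 5) (nat_lit 261) (nat_lit 5) (nat_lit 262) (nat_lit 5) (nat_lit 467) (nat_lit 435) (nat_lit 298)))) (XT.nd (nat_lit 156) (nat_lit 456) (nat_lit 0) (XT.nd (nat_lit 78) (nat_lit 76) (nat_lit 0) (XT.lf (nat_lit 0) (nat_lit 3744563243) (nat_lit 456) (nat_lit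 13571960103) (nat_lit 532) (nat_lit 2173254405) (nat_lit 249) (nat_lit 5) (nat_lit 255) (nat_lit 5) (nat_lit 256) (nat_lit 5) (nat_lit 468) (nat_lit 435) (nat_lit 297)) (XT.lf (nat_lit 0) (nat_lit 987256104) (nat_lit 532) (nat_lit 4518030307) (nat_lit 76) (nat_lit 14314792581) (nat_lit 248) (nat_lit 5) (nat_lit 255) (nat_lit 5) (nat_lit 249) (nat_lit 5) (nat_lit 469) (nat_lit 435) (nat_lit 296))) (XT.nd (nat_lit 78) (nat_lit 0) (nat_lit 0) (XT.lf (nat_lit 0) (nat_lit 4286878376) (nat_lit 532) (nat_lit 13031963419) (nat_lit 76) (nat_lit 2838162965) (nat_lit 242) (nat_lit 5) (nat_lit 249) (nat_lit 5) (nat_lit 243) (nat_lit 5) (nat_lit 470) (nat_lit 435) (nat_lit 295)) (XT.lf (nat_lit 0) (nat_lit 7777593191) (nat_lit 532) (nat_lit 1358089671) (nat_lit 76) (nat_lit 11365592623) (nat_lit 242) (nat_lit 5) (nat_lit 249) (nat_lit 5) (nat_lit 243) (nat_lit 5) (nat_lit 471) (nat_lit 435) (nat_lit 294))))) (XT.nd (nat_lit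 312) (nat_lit 760) (nat_lit 0) (XT.nd (nat_lit 156) (nat_lit 532) (nat_lit 0) (XT.nd (nat_lit 78) (nat_lit 380) (nat_lit 0) (XT.lf (nat_lit 0) (nat_lit 10867896460) (nat_lit 456) (nat_lit 601369942) (nat_lit 532) (nat_lit 9383721114) (nat_lit 236) (nat_lit 5) (nat_lit 242) (nat_lit 5) (nat_lit 243) (nat_lit 5) (nat_lit 472) (nat_lit 435) (nat_lit 293)) (XT.lf (nat_lit 0) (nat_lit 2227985292) (nat_lit 380) (nat_lit 13149580406) (nat_lit 456) (nat_lit 5834509217) (nat_lit 231) (nat_lit 5) (nat_lit 236) (nat_lit 5) (nat_lit 237) (nat_lit 5) (nat_lit 473) (nat_lit 435) (nat_lit 292))) (XT.nd (nat_lit 78) (nat_lit 532) (nat_lit 0) (XT.lf (nat_lit 0) (nat_lit 14995867105) (nat_lit 380) (nat_lit 4506002509) (nat_lit 456) (nat_lit 2077102929) (nat_lit 231) (nat_lit 5) (nat_lit 236) (nat_lit 5) (nat_lit 237) (nat_lit 5) (nat_lit 474) (nat_lit 435) (nat_lit 291)) (XT.lf (nat_lit 0) (nat_lit 1853653045) (nat_lit 532) (nat_lit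 15712531760) (nat_lit 76) (nat_lit 4387307008) (nat_lit 224) (nat_lit 5) (nat_lit 231) (nat_lit 5) (nat_lit 225) (nat_lit 5) (nat_lit 475) (nat_lit 435) (nat_lit 290)))) (XT.nd (nat_lit 156) (nat_lit 380) (nat_lit 0) (XT.nd (nat_lit 78) (nat_lit 380) (nat_lit 0) (XT.lf (nat_lit 0) (nat_lit 5964627792) (nat_lit 532) (nat_lit 2828562835) (nat_lit 76) (nat_lit 13542318011) (nat_lit 224) (nat_lit 5) (nat_lit 231) (nat_lit 5) (nat_lit 225) (nat_lit 5) (nat_lit 476) (nat_lit 435) (nat_lit 289)) (XT.lf (nat_lit 0) (nat_lit 10297051944) (nat_lit 456) (nat_lit 12089795927) (nat_lit 76) (nat_lit 339194737) (nat_lit 219) (nat_lit 5) (nat_lit 225) (nat_lit 5) (nat_lit 220) (nat_lit 5) (nat_lit 477) (nat_lit 435) (nat_lit 288))) (XT.nd (nat_lit 78) (nat_lit 0) (nat_lit 0) (XT.lf (nat_lit 0) (nat_lit 1364864369) (nat_lit 380) (nat_lit 13516231749) (nat_lit 456) (nat_lit 8243547298) (nat_lit 214) (nat_lit 5) (nat_lit 219) (nat_lit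 5) (nat_lit 220) (nat_lit 5) (nat_lit 478) (nat_lit 435) (nat_lit 287)) (XT.lf (nat_lit 0) (nat_lit 15461118713) (nat_lit 380) (nat_lit 4256366511) (nat_lit 456) (nat_lit 3814272547) (nat_lit 214) (nat_lit 5) (nat_lit 219) (nat_lit 5) (nat_lit 220) (nat_lit 5) (nat_lit 479) (nat_lit 435) (nat_lit 286))))))) (XT.nd (nat_lit 1248) (nat_lit 2432) (nat_lit 0) (XT.nd (nat_lit 624) (nat_lit 1596) (nat_lit 0) (XT.nd (nat_lit 312) (nat_lit 684) (nat_lit 0) (XT.nd (nat_lit 156) (nat_lit 684) (nat_lit 0) (XT.nd (nat_lit 78) (nat_lit 0) (nat_lit 0) (XT.lf (nat_lit 0) (nat_lit 836508834) (nat_lit 456) (nat_lit 17868799303) (nat_lit 76) (nat_lit 5242465298) (nat_lit 208) (nat_lit 5) (nat_lit 214) (nat_lit 5) (nat_lit 209) (nat_lit 5) (nat_lit 480) (nat_lit 435) (nat_lit 285)) (XT.lf (nat_lit 0) (nat_lit 5667568588) (nat_lit 456) (nat_lit 3645841604) (nat_lit 76) (nat_lit 15058204095) (nat_lit 208) (nat_lit 5) (nat_lit 214) (nat_lit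 5) (nat_lit 209) (nat_lit 5) (nat_lit 481) (nat_lit 435) (nat_lit 284))) (XT.nd (nat_lit 78) (nat_lit 304) (nat_lit 0) (XT.lf (nat_lit 0) (nat_lit 10749027144) (nat_lit 456) (nat_lit 13596566001) (nat_lit 76) (nat_lit 459413413) (nat_lit 203) (nat_lit 5) (nat_lit 209) (nat_lit 5) (nat_lit 204) (nat_lit 5) (nat_lit 482) (nat_lit 435) (nat_lit 283)) (XT.lf (nat_lit 0) (nat_lit 1255091386) (nat_lit 304) (nat_lit 14862552944) (nat_lit 380) (nat_lit 9129715023) (nat_lit 199) (nat_lit 5) (nat_lit 203) (nat_lit 5) (nat_lit 204) (nat_lit 5) (nat_lit 483) (nat_lit 435) (nat_lit 282)))) (XT.nd (nat_lit 156) (nat_lit 304) (nat_lit 0) (XT.nd (nat_lit 78) (nat_lit 380) (nat_lit 0) (XT.lf (nat_lit 0) (nat_lit 16821494319) (nat_lit 304) (nat_lit 4956487046) (nat_lit 380) (nat_lit 3921081718) (nat_lit 199) (nat_lit 5) (nat_lit 203) (nat_lit 5) (nat_lit 204) (nat_lit 5) (nat_lit 484) (nat_lit 435) (nat_lit 281)) (XT.lf (nat_lit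 0) (nat_lit 1525686668) (nat_lit 380) (nat_lit 19413315644) (nat_lit 76) (nat_lit 5221597931) (nat_lit 194) (nat_lit 5) (nat_lit 199) (nat_lit 5) (nat_lit 195) (nat_lit 5) (nat_lit 485) (nat_lit 435) (nat_lit 280))) (XT.nd (nat_lit 78) (nat_lit 304) (nat_lit 0) (XT.lf (nat_lit 0) (nat_lit 7190220727) (nat_lit 380) (nat_lit 3708659175) (nat_lit 76) (nat_lit 15731943940) (nat_lit 194) (nat_lit 5) (nat_lit 199) (nat_lit 5) (nat_lit 195) (nat_lit 5) (nat_lit 486) (nat_lit 435) (nat_lit 279)) (XT.lf (nat_lit 0) (nat_lit 12705904309) (nat_lit 304) (nat_lit 434675589) (nat_lit 380) (nat_lit 13971097751) (nat_lit 190) (nat_lit 5) (nat_lit 194) (nat_lit 5) (nat_lit 195) (nat_lit 5) (nat_lit 487) (nat_lit 435) (nat_lit 278))))) (XT.nd (nat_lit 312) (nat_lit 912) (nat_lit 0) (XT.nd (nat_lit 156) (nat_lit 380) (nat_lit 0) (XT.nd (nat_lit 78) (nat_lit 0) (nat_lit 0) (XT.lf (nat_lit 0) (nat_lit 2013346904) (nat_lit 304) (nat_lit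 17406523768) (nat_lit 380) (nat_lit 8182573941) (nat_lit 186) (nat_lit 5) (nat_lit 190) (nat_lit 5) (nat_lit 191) (nat_lit 5) (nat_lit 488) (nat_lit 435) (nat_lit 277)) (XT.lf (nat_lit 0) (nat_lit 19206808830) (nat_lit 304) (nat_lit 6824373750) (nat_lit 380) (nat_lit 2072442894) (nat_lit 186) (nat_lit 5) (nat_lit 190) (nat_lit 5) (nat_lit 191) (nat_lit 5) (nat_lit 489) (nat_lit 435) (nat_lit 276))) (XT.nd (nat_lit 78) (nat_lit 0) (nat_lit 0) (XT.lf (nat_lit 0) (nat_lit 4253851225) (nat_lit 380) (nat_lit 20245941691) (nat_lit 76) (nat_lit 4115374979) (nat_lit 181) (nat_lit 5) (nat_lit 186) (nat_lit 5) (nat_lit 182) (nat_lit 5) (nat_lit 490) (nat_lit 435) (nat_lit 275)) (XT.lf (nat_lit 0) (nat_lit 10880666701) (nat_lit 380) (nat_lit 2901770443) (nat_lit 76) (nat_lit 15354432417) (nat_lit 181) (nat_lit 5) (nat_lit 186) (nat_lit 5) (nat_lit 182) (nat_lit 5) (nat_lit 491) (nat_lit 435) (nat_lit 274)))) (XT.nd (nat_lit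 156) (nat_lit 380) (nat_lit 0) (XT.nd (nat_lit 78) (nat_lit 228) (nat_lit 0) (XT.lf (nat_lit 0) (nat_lit 15251543712) (nat_lit 304) (nat_lit 2595610887) (nat_lit 380) (nat_lit 11822841783) (nat_lit 177) (nat_lit 5) (nat_lit 181) (nat_lit 5) (nat_lit 182) (nat_lit 5) (nat_lit 492) (nat_lit 435) (nat_lit 273)) (XT.lf (nat_lit 0) (nat_lit 3769306340) (nat_lit 228) (nat_lit 21399280937) (nat_lit 304) (nat_lit 5046151367) (nat_lit 174) (nat_lit 5) (nat_lit 177) (nat_lit 5) (nat_lit 178) (nat_lit 5) (nat_lit 493) (nat_lit 435) (nat_lit 272))) (XT.nd (nat_lit 78) (nat_lit 304) (nat_lit 0) (XT.lf (nat_lit 0) (nat_lit 2063183002) (nat_lit 304) (nat_lit 8027797931) (nat_lit 76) (nat_lit 20679272313) (nat_lit 173) (nat_lit 5) (nat_lit 177) (nat_lit 5) (nat_lit 174) (nat_lit 5) (nat_lit 494) (nat_lit 435) (nat_lit 271)) (XT.lf (nat_lit 0) (nat_lit 9402067842) (nat_lit 380) (nat_lit 20253986352) (nat_lit 76) (nat_lit 1681349569)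 (nat_lit 169) (nat_lit 5) (nat_lit 174) (nat_lit 5) (nat_lit 170) (nat_lit 5) (nat_lit 495) (nat_lit 435) (nat_lit 270)))))) (XT.nd (nat_lit 624) (nat_lit 1140) (nat_lit 0) (XT.nd (nat_lit 312) (nat_lit 760) (nat_lit 0) (XT.nd (nat_lit 156) (nat_lit 304) (nat_lit 0) (XT.nd (nat_lit 78) (nat_lit 228) (nat_lit 0) (XT.lf (nat_lit 0) (nat_lit 17137451115) (nat_lit 380) (nat_lit 1095983702) (nat_lit 76) (nat_lit 13682844146) (nat_lit 169) (nat_lit 5) (nat_lit 174) (nat_lit 5) (nat_lit 170) (nat_lit 5) (nat_lit 496) (nat_lit 435) (nat_lit 269)) (XT.lf (nat_lit 0) (nat_lit 18999087291) (nat_lit 228) (nat_lit 6283151623) (nat_lit 304) (nat_lit 7224961336) (nat_lit 166) (nat_lit 5) (nat_lit 169) (nat_lit 5) (nat_lit 170) (nat_lit 5) (nat_lit 497) (nat_lit 435) (nat_lit 268))) (XT.nd (nat_lit 78) (nat_lit 0) (nat_lit 0) (XT.lf (nat_lit 0) (nat_lit 673895677) (nat_lit 304) (nat_lit 26451037502) (nat_lit 76) (nat_lit 5986879467)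 (nat_lit 162) (nat_lit 5) (nat_lit 166) (nat_lit 5) (nat_lit 163) (nat_lit 5) (nat_lit 498) (nat_lit 435) (nat_lit 267)) (XT.lf (nat_lit 0) (nat_lit 8859246352) (nat_lit 304) (nat_lit 6162410144) (nat_lit 76) (nat_lit 18704918726) (nat_lit 162) (nat_lit 5) (nat_lit 166) (nat_lit 5) (nat_lit 163) (nat_lit 5) (nat_lit 499) (nat_lit 435) (nat_lit 266)))) (XT.nd (nat_lit 156) (nat_lit 304) (nat_lit 0) (XT.nd (nat_lit 78) (nat_lit 228) (nat_lit 0) (XT.lf (nat_lit 0) (nat_lit 15019734457) (nat_lit 228) (nat_lit 2409731182) (nat_lit 304) (nat_lit 16926135900) (nat_lit 159) (nat_lit 5) (nat_lit 162) (nat_lit 5) (nat_lit 163) (nat_lit 5) (nat_lit 500) (nat_lit 435) (nat_lit 265)) (XT.lf (nat_lit 0) (nat_lit 1888289552) (nat_lit 228) (nat_lit 24546172764) (nat_lit 304) (nat_lit 8563706307) (nat_lit 156) (nat_lit 5) (nat_lit 159) (nat_lit 5) (nat_lit 160) (nat_lit 5) (nat_lit 501) (nat_lit 435) (nat_lit 264))) (XT.nd (nat_lit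 78) (nat_lit 228) (nat_lit 0) (XT.lf (nat_lit 0) (nat_lit 264661545) (nat_lit 304) (nat_lit 11543175246) (nat_lit 76) (nat_lit 23845680731) (nat_lit 155) (nat_lit 5) (nat_lit 159) (nat_lit 5) (nat_lit 156) (nat_lit 5) (nat_lit 502) (nat_lit 435) (nat_lit 263)) (XT.lf (nat_lit 0) (nat_lit 9299047873) (nat_lit 304) (nat_lit 25549261810) (nat_lit 76) (nat_lit 1474274941) (nat_lit 152) (nat_lit 5) (nat_lit 156) (nat_lit 5) (nat_lit 153) (nat_lit 5) (nat_lit 503) (nat_lit 435) (nat_lit 262))))) (XT.nd (nat_lit 312) (nat_lit 684) (nat_lit 0) (XT.nd (nat_lit 156) (nat_lit 228) (nat_lit 0) (XT.nd (nat_lit 78) (nat_lit 228) (nat_lit 0) (XT.lf (nat_lit 0) (nat_lit 18834260227) (nat_lit 304) (nat_lit 3138432686) (nat_lit 76) (nat_lit 15032137085) (nat_lit 152) (nat_lit 5) (nat_lit 156) (nat_lit 5) (nat_lit 153) (nat_lit 5) (nat_lit 504) (nat_lit 435) (nat_lit 261)) (XT.lf (nat_lit 0) (nat_lit 20333657533) (nat_lit 228) (nat_lit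 8512639354) (nat_lit 304) (nat_lit 8855522899) (nat_lit 149) (nat_lit 5) (nat_lit 152) (nat_lit 5) (nat_lit 153) (nat_lit 5) (nat_lit 505) (nat_lit 435) (nat_lit 260))) (XT.nd (nat_lit 78) (nat_lit 0) (nat_lit 0) (XT.lf (nat_lit 0) (nat_lit 864475292) (nat_lit 228) (nat_lit 32206873615) (nat_lit 76) (nat_lit 5343959739) (nat_lit 146) (nat_lit 5) (nat_lit 149) (nat_lit 5) (nat_lit 147) (nat_lit 5) (nat_lit 506) (nat_lit 435) (nat_lit 259)) (XT.lf (nat_lit 0) (nat_lit 10954845880) (nat_lit 228) (nat_lit 8478172409) (nat_lit 76) (nat_lit 19706850823) (nat_lit 146) (nat_lit 5) (nat_lit 149) (nat_lit 5) (nat_lit 147) (nat_lit 5) (nat_lit 507) (nat_lit 435) (nat_lit 258)))) (XT.nd (nat_lit 156) (nat_lit 304) (nat_lit 0) (XT.nd (nat_lit 78) (nat_lit 152) (nat_lit 0) (XT.lf (nat_lit 0) (nat_lit 16272256260) (nat_lit 228) (nat_lit 5227580760) (nat_lit 304) (nat_lit 18381772166) (nat_lit 143) (nat_lit 5) (nat_lit 146) (nat_lit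 5) (nat_lit 147) (nat_lit 5) (nat_lit 508) (nat_lit 435) (nat_lit 257)) (XT.lf (nat_lit 0) (nat_lit 1220844958) (nat_lit 152) (nat_lit 31324444996) (nat_lit 228) (nat_lit 8094788226) (nat_lit 141) (nat_lit 5) (nat_lit 143) (nat_lit 5) (nat_lit 144) (nat_lit 5) (nat_lit 509) (nat_lit 435) (nat_lit 256))) (XT.nd (nat_lit 78) (nat_lit 228) (nat_lit 0) (XT.lf (nat_lit 0) (nat_lit 2740064606) (nat_lit 228) (nat_lit 14220095392) (nat_lit 76) (nat_lit 24451778367) (nat_lit 140) (nat_lit 5) (nat_lit 143) (nat_lit 5) (nat_lit 141) (nat_lit 5) (nat_lit 510) (nat_lit 435) (nat_lit 255)) (XT.lf (nat_lit 0) (nat_lit 11879194680) (nat_lit 228) (nat_lit 1967923546) (nat_lit 304) (nat_lit 28354136234) (nat_lit 137) (nat_lit 5) (nat_lit 140) (nat_lit 5) (nat_lit 141) (nat_lit 5) (nat_lit 511) (nat_lit 435) (nat_lit 254))))))))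
noncomputable def xc171 : XT := (XT.nd (nat_lit 2418) (nat_lit 760) (nat_lit 0) (XT.nd (nat_lit 1170) (nat_lit 1596) (nat_lit 0) (XT.nd (nat_lit 546) (nat_lit 912) (nat_lit 0) (XT.nd (nat_lit 234) (nat_lit 380) (nat_lit 0) (XT.nd (nat_lit 78) (nat_lit 456) (nat_lit 0) (XT.lf (nat_lit 0) (nat_lit 25557608802) (nat_lit 304) (nat_lit 4095430055) (nat_lit 76) (nat_lit 13353104491) (nat_lit 137) (nat_lit 5) (nat_lit 141) (nat_lit 5) (nat_lit 138) (nat_lit 5) (nat_lit 512) (nat_lit 435) (nat_lit 253)) (XT.nd (nat_lit 78) (nat_lit 304) (nat_lit 0) (XT.lf (nat_lit 0) (nat_lit 23346806591) (nat_lit 152) (nat_lit 14512328723) (nat_lit 228) (nat_lit 5968852018) (nat_lit 135) (nat_lit 5) (nat_lit 137) (nat_lit 5) (nat_lit 138) (nat_lit 5) (nat_lit 513) (nat_lit 435) (nat_lit 252)) (XT.lf (nat_lit 0) (nat_lit 5858803051) (nat_lit 304) (nat_lit 37584124722) (nat_lit 76) (nat_lit 1226335250) (nat_lit 131) (nat_lit 5) (nat_lit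 135) (nat_lit 5) (nat_lit 132) (nat_lit 5) (nat_lit 514) (nat_lit 435) (nat_lit 251)))) (XT.nd (nat_lit 156) (nat_lit 228) (nat_lit 0) (XT.nd (nat_lit 78) (nat_lit 152) (nat_lit 0) (XT.lf (nat_lit 0) (nat_lit 18269720579) (nat_lit 304) (nat_lit 9843434967) (nat_lit 76) (nat_lit 17410396550) (nat_lit 131) (nat_lit 5) (nat_lit 135) (nat_lit 5) (nat_lit 132) (nat_lit 5) (nat_lit 515) (nat_lit 435) (nat_lit 250)) (XT.lf (nat_lit 0) (nat_lit 19094978621) (nat_lit 152) (nat_lit 12137507502) (nat_lit 228) (nat_lit 15165598162) (nat_lit 129) (nat_lit 5) (nat_lit 131) (nat_lit 5) (nat_lit 132) (nat_lit 5) (nat_lit 516) (nat_lit 435) (nat_lit 249))) (XT.nd (nat_lit 78) (nat_lit 76) (nat_lit 0) (XT.lf (nat_lit 0) (nat_lit 1792824530) (nat_lit 152) (nat_lit 42946417233) (nat_lit 228) (nat_lit 2554957521) (nat_lit 127) (nat_lit 5) (nat_lit 129) (nat_lit 5) (nat_lit 130) (nat_lit 5) (nat_lit 517) (nat_lit 435) (nat_lit 248))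 (XT.lf (nat_lit 0) (nat_lit 10625006294) (nat_lit 228) (nat_lit 16117947035) (nat_lit 76) (nat_lit 21459397250) (nat_lit 126) (nat_lit 5) (nat_lit 129) (nat_lit 5) (nat_lit 127) (nat_lit 5) (nat_lit 518) (nat_lit 435) (nat_lit 247))))) (XT.nd (nat_lit 312) (nat_lit 380) (nat_lit 0) (XT.nd (nat_lit 156) (nat_lit 380) (nat_lit 0) (XT.nd (nat_lit 78) (nat_lit 0) (nat_lit 0) (XT.lf (nat_lit 0) (nat_lit 14395667226) (nat_lit 152) (nat_lit 9887844176) (nat_lit 228) (nat_lit 24849441330) (nat_lit 124) (nat_lit 5) (nat_lit 126) (nat_lit 5) (nat_lit 127) (nat_lit 5) (nat_lit 519) (nat_lit 435) (nat_lit 246)) (XT.lf (nat_lit 0) (nat_lit 38584109724) (nat_lit 228) (nat_lit 4011893050) (nat_lit 76) (nat_lit 7488500086) (nat_lit 124) (nat_lit 5) (nat_lit 127) (nat_lit 5) (nat_lit 125) (nat_lit 5) (nat_lit 520) (nat_lit 435) (nat_lit 245))) (XT.nd (nat_lit 78) (nat_lit 152) (nat_lit 0) (XT.lf (nat_lit 0) (nat_lit 2572895110)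 (nat_lit 228) (nat_lit 23000374237) (nat_lit 76) (nat_lit 25479651877) (nat_lit 121) (nat_lit 5) (nat_lit 124) (nat_lit 5) (nat_lit 122) (nat_lit 5) (nat_lit 521) (nat_lit 435) (nat_lit 244)) (XT.lf (nat_lit 0) (nat_lit 9169899474) (nat_lit 152) (nat_lit 7792649727) (nat_lit 228) (nat_lit 35080667617) (nat_lit 119) (nat_lit 5) (nat_lit 121) (nat_lit 5) (nat_lit 122) (nat_lit 5) (nat_lit 522) (nat_lit 435) (nat_lit 243)))) (XT.nd (nat_lit 156) (nat_lit 228) (nat_lit 0) (XT.nd (nat_lit 78) (nat_lit 152) (nat_lit 0) (XT.lf (nat_lit 0) (nat_lit 32115858971) (nat_lit 228) (nat_lit 10389695988) (nat_lit 76) (nat_lit 10547707382) (nat_lit 119) (nat_lit 5) (nat_lit 122) (nat_lit 5) (nat_lit 120) (nat_lit 5) (nat_lit 523) (nat_lit 435) (nat_lit 242)) (XT.lf (nat_lit 0) (nat_lit 23442145603) (nat_lit 152) (nat_lit 24580496034) (nat_lit 228) (nat_lit 6062001431) (nat_lit 117) (nat_lit 5) (nat_lit 119) (nat_lit 5) (nat_lit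 120) (nat_lit 5) (nat_lit 524) (nat_lit 435) (nat_lit 241))) (XT.nd (nat_lit 78) (nat_lit 0) (nat_lit 0) (XT.lf (nat_lit 0) (nat_lit 3326383010) (nat_lit 152) (nat_lit 5886905586) (nat_lit 228) (nat_lit 45926976914) (nat_lit 114) (nat_lit 5) (nat_lit 116) (nat_lit 5) (nat_lit 117) (nat_lit 5) (nat_lit 525) (nat_lit 435) (nat_lit 240)) (XT.lf (nat_lit 0) (nat_lit 25262386559) (nat_lit 228) (nat_lit 17473978696) (nat_lit 76) (nat_lit 13476269131) (nat_lit 114) (nat_lit 5) (nat_lit 117) (nat_lit 5) (nat_lit 115) (nat_lit 5) (nat_lit 526) (nat_lit 435) (nat_lit 239)))))) (XT.nd (nat_lit 624) (nat_lit 760) (nat_lit 0) (XT.nd (nat_lit 312) (nat_lit 304) (nat_lit 0) (XT.nd (nat_lit 156) (nat_lit 304) (nat_lit 0) (XT.nd (nat_lit 78) (nat_lit 76) (nat_lit 0) (XT.lf (nat_lit 0) (nat_lit 18186312591) (nat_lit 152) (nat_lit 23836254023) (nat_lit 228) (nat_lit 15287719479) (nat_lit 112) (nat_lit 5) (nat_lit 114) (nat_lit 5)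 (nat_lit 115) (nat_lit 5) (nat_lit 527) (nat_lit 435) (nat_lit 238)) (XT.lf (nat_lit 0) (nat_lit 1002913463) (nat_lit 228) (nat_lit 3177238977) (nat_lit 76) (nat_lit 54255230013) (nat_lit 111) (nat_lit 5) (nat_lit 114) (nat_lit 5) (nat_lit 112) (nat_lit 5) (nat_lit 528) (nat_lit 435) (nat_lit 237))) (XT.nd (nat_lit 78) (nat_lit 152) (nat_lit 0) (XT.lf (nat_lit 0) (nat_lit 17961082066) (nat_lit 228) (nat_lit 25378244458) (nat_lit 76) (nat_lit 16235781767) (nat_lit 109) (nat_lit 5) (nat_lit 112) (nat_lit 5) (nat_lit 110) (nat_lit 5) (nat_lit 529) (nat_lit 435) (nat_lit 236)) (XT.lf (nat_lit 0) (nat_lit 12199368701) (nat_lit 152) (nat_lit 23416309561) (nat_lit 228) (nat_lit 25127717202) (nat_lit 107) (nat_lit 5) (nat_lit 109) (nat_lit 5) (nat_lit 110) (nat_lit 5) (nat_lit 530) (nat_lit 435) (nat_lit 235)))) (XT.nd (nat_lit 156) (nat_lit 152) (nat_lit 0) (XT.nd (nat_lit 78) (nat_lit 152) (nat_lit 0) (XT.lf (nat_lit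 0) (nat_lit 51418364289) (nat_lit 152) (nat_lit 2634483035) (nat_lit 228) (nat_lit 7886295910) (nat_lit 107) (nat_lit 5) (nat_lit 109) (nat_lit 5) (nat_lit 110) (nat_lit 5) (nat_lit 531) (nat_lit 435) (nat_lit 234)) (XT.lf (nat_lit 0) (nat_lit 10140397370) (nat_lit 152) (nat_lit 34233486985) (nat_lit 76) (nat_lit 18780211896) (nat_lit 105) (nat_lit 5) (nat_lit 107) (nat_lit 5) (nat_lit 106) (nat_lit 5) (nat_lit 532) (nat_lit 435) (nat_lit 233))) (XT.nd (nat_lit 78) (nat_lit 0) (nat_lit 0) (XT.lf (nat_lit 0) (nat_lit 5351736396) (nat_lit 152) (nat_lit 23379208073) (nat_lit 228) (nat_lit 35666764162) (nat_lit 103) (nat_lit 5) (nat_lit 105) (nat_lit 5) (nat_lit 106) (nat_lit 5) (nat_lit 533) (nat_lit 435) (nat_lit 232)) (XT.lf (nat_lit 0) (nat_lit 46820257568) (nat_lit 152) (nat_lit 1401419147) (nat_lit 228) (nat_lit 17446678634) (nat_lit 103) (nat_lit 5) (nat_lit 105) (nat_lit 5) (nat_lit 106) (nat_lit 5) (nat_lit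 534) (nat_lit 435) (nat_lit 231))))) (XT.nd (nat_lit 312) (nat_lit 380) (nat_lit 0) (XT.nd (nat_lit 156) (nat_lit 228) (nat_lit 0) (XT.nd (nat_lit 78) (nat_lit 0) (nat_lit 0) (XT.lf (nat_lit 0) (nat_lit 1718461521) (nat_lit 152) (nat_lit 44190967069) (nat_lit 76) (nat_lit 21054585940) (nat_lit 101) (nat_lit 5) (nat_lit 103) (nat_lit 5) (nat_lit 102) (nat_lit 5) (nat_lit 535) (nat_lit 435) (nat_lit 230)) (XT.lf (nat_lit 0) (nat_lit 21310833859) (nat_lit 152) (nat_lit 2458047713) (nat_lit 76) (nat_lit 44518391591) (nat_lit 101) (nat_lit 5) (nat_lit 103) (nat_lit 5) (nat_lit 102) (nat_lit 5) (nat_lit 536) (nat_lit 435) (nat_lit 229))) (XT.nd (nat_lit 78) (nat_lit 76) (nat_lit 0) (XT.lf (nat_lit 0) (nat_lit 41327571714) (nat_lit 152) (nat_lit 557613528) (nat_lit 228) (nat_lit 27753218105) (nat_lit 99) (nat_lit 5) (nat_lit 101) (nat_lit 5) (nat_lit 102) (nat_lit 5) (nat_lit 537) (nat_lit 435) (nat_lit 228)) (XT.lf (nat_lit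 0) (nat_lit 15520233765) (nat_lit 76) (nat_lit 47952195903) (nat_lit 152) (nat_lit 7545767919) (nat_lit 98) (nat_lit 5) (nat_lit 99) (nat_lit 5) (nat_lit 100) (nat_lit 4) (nat_lit 538) (nat_lit 435) (nat_lit 227)))) (XT.nd (nat_lit 156) (nat_lit 152) (nat_lit 0) (XT.nd (nat_lit 78) (nat_lit 152) (nat_lit 0) (XT.lf (nat_lit 0) (nat_lit 13300191614) (nat_lit 152) (nat_lit 11325874920) (nat_lit 76) (nat_lit 47800757252) (nat_lit 97) (nat_lit 5) (nat_lit 99) (nat_lit 5) (nat_lit 98) (nat_lit 5) (nat_lit 539) (nat_lit 435) (nat_lit 226)) (XT.lf (nat_lit 0) (nat_lit 34769562447) (nat_lit 152) (nat_lit 181575138) (nat_lit 228) (nat_lit 38914391790) (nat_lit 95) (nat_lit 5) (nat_lit 97) (nat_lit 5) (nat_lit 98) (nat_lit 5) (nat_lit 540) (nat_lit 435) (nat_lit 225))) (XT.nd (nat_lit 78) (nat_lit 76) (nat_lit 0) (XT.lf (nat_lit 0) (nat_lit 7026170511) (nat_lit 76) (nat_lit 50645813758) (nat_lit 152) (nat_lit 17662800717)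 (nat_lit 94) (nat_lit 5) (nat_lit 95) (nat_lit 5) (nat_lit 96) (nat_lit 4) (nat_lit 541) (nat_lit 435) (nat_lit 224)) (XT.lf (nat_lit 0) (nat_lit 4541421725) (nat_lit 152) (nat_lit 21554800954) (nat_lit 76) (nat_lit 50738750181) (nat_lit 93) (nat_lit 5) (nat_lit 95) (nat_lit 5) (nat_lit 94) (nat_lit 5) (nat_lit 542) (nat_lit 435) (nat_lit 223))))))) (XT.nd (nat_lit 54756) (nat_lit 0) (nat_lit 15808) (XT.nd (nat_lit 54132) (nat_lit 0) (nat_lit 18772) (XT.nd (nat_lit 312) (nat_lit 304) (nat_lit 0) (XT.nd (nat_lit 156) (nat_lit 304) (nat_lit 0) (XT.nd (nat_lit 78) (nat_lit 0) (nat_lit 0) (XT.lf (nat_lit 0) (nat_lit 26947151927) (nat_lit 152) (nat_lit 365787874) (nat_lit 228) (nat_lit 51054295000) (nat_lit 91) (nat_lit 5) (nat_lit 93) (nat_lit 5) (nat_lit 94) (nat_lit 5) (nat_lit 543) (nat_lit 435) (nat_lit 222)) (XT.lf (nat_lit 0) (nat_lit 51235808607) (nat_lit 228) (nat_lit 2851753626) (nat_lit 76) (nat_lit 25843856233)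 (nat_lit 91) (nat_lit 5) (nat_lit 94) (nat_lit 5) (nat_lit 92) (nat_lit 4) (nat_lit 544) (nat_lit 435) (nat_lit 221))) (XT.nd (nat_lit 78) (nat_lit 228) (nat_lit 0) (XT.lf (nat_lit 0) (nat_lit 48103393845) (nat_lit 76) (nat_lit 28236221897) (nat_lit 152) (nat_lit 5189014351) (nat_lit 90) (nat_lit 5) (nat_lit 91) (nat_lit 5) (nat_lit 92) (nat_lit 4) (nat_lit 545) (nat_lit 435) (nat_lit 220)) (XT.lf (nat_lit 0) (nat_lit 17628324380) (nat_lit 152) (nat_lit 1219022786) (nat_lit 228) (nat_lit 64315052031) (nat_lit 87) (nat_lit 5) (nat_lit 89) (nat_lit 5) (nat_lit 90) (nat_lit 5) (nat_lit 546) (nat_lit 435) (nat_lit 219)))) (XT.nd (nat_lit 156) (nat_lit 228) (nat_lit 0) (XT.nd (nat_lit 78) (nat_lit 76) (nat_lit 0) (XT.lf (nat_lit 0) (nat_lit 44094396585) (nat_lit 228) (nat_lit 14252166398) (nat_lit 76) (nat_lit 26479260386) (nat_lit 87) (nat_lit 5) (nat_lit 90) (nat_lit 5) (nat_lit 88) (nat_lit 4) (nat_lit 547) (nat_lit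 435) (nat_lit 218)) (XT.lf (nat_lit 0) (nat_lit 39318234164) (nat_lit 76) (nat_lit 31167964991) (nat_lit 152) (nat_lit 16041330876) (nat_lit 86) (nat_lit 5) (nat_lit 87) (nat_lit 5) (nat_lit 88) (nat_lit 4) (nat_lit 548) (nat_lit 435) (nat_lit 217))) (XT.nd (nat_lit 78) (nat_lit 0) (nat_lit 0) (XT.lf (nat_lit 0) (nat_lit 6542784023) (nat_lit 152) (nat_lit 2869022769) (nat_lit 228) (nat_lit 78859606564) (nat_lit 83) (nat_lit 5) (nat_lit 85) (nat_lit 5) (nat_lit 86) (nat_lit 5) (nat_lit 549) (nat_lit 435) (nat_lit 216)) (XT.lf (nat_lit 0) (nat_lit 36037503461) (nat_lit 228) (nat_lit 27599439199) (nat_lit 76) (nat_lit 26403964392) (nat_lit 83) (nat_lit 5) (nat_lit 86) (nat_lit 5) (nat_lit 84) (nat_lit 4) (nat_lit 550) (nat_lit 435) (nat_lit 215))))) (XT.nd (nat_lit 312) (nat_lit 1064) (nat_lit 0) (XT.nd (nat_lit 156) (nat_lit 0) (nat_lit 0) (XT.nd (nat_lit 78) (nat_lit 0) (nat_lit 0) (XT.lf (nat_lit 0) (nat_lit 2063433664)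 (nat_lit 0) (nat_lit 2063433664) (nat_lit 1140) (nat_lit 1915609081) (nat_lit 344) (nat_lit 5) (nat_lit 344) (nat_lit 3) (nat_lit 359) (nat_lit 3) (nat_lit 436) (nat_lit 436) (nat_lit 328)) (XT.lf (nat_lit 0) (nat_lit 8857744547) (nat_lit 1140) (nat_lit 1949053431) (nat_lit 1216) (nat_lit 1445000644) (nat_lit 344) (nat_lit 5) (nat_lit 359) (nat_lit 3) (nat_lit 360) (nat_lit 5) (nat_lit 437) (nat_lit 436) (nat_lit 327))) (XT.nd (nat_lit 78) (nat_lit 0) (nat_lit 76) (XT.lf (nat_lit 76) (nat_lit 4273043997) (nat_lit 0) (nat_lit 5270665210) (nat_lit 1216) (nat_lit 2878026431) (nat_lit 345) (nat_lit 5) (nat_lit 344) (nat_lit 5) (nat_lit 360) (nat_lit 5) (nat_lit 438) (nat_lit 436) (nat_lit 326)) (XT.lf (nat_lit 0) (nat_lit 10256688753) (nat_lit 1140) (nat_lit 1889006165) (nat_lit 1216) (nat_lit 450883614) (nat_lit 345) (nat_lit 5) (nat_lit 360) (nat_lit 5) (nat_lit 361) (nat_lit 5) (nat_lit 439) (nat_lit 436) (nat_lit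 325)))) (XT.nd (nat_lit 156) (nat_lit 1140) (nat_lit 0) (XT.nd (nat_lit 78) (nat_lit 0) (nat_lit 0) (XT.lf (nat_lit 76) (nat_lit 4585828697) (nat_lit 0) (nat_lit 6484419002) (nat_lit 1216) (nat_lit 1704044139) (nat_lit 346) (nat_lit 5) (nat_lit 345) (nat_lit 5) (nat_lit 361) (nat_lit 5) (nat_lit 440) (nat_lit 436) (nat_lit 324)) (XT.lf (nat_lit 76) (nat_lit 11283786447) (nat_lit 0) (nat_lit 626828384) (nat_lit 1216) (nat_lit 1046650466) (nat_lit 346) (nat_lit 5) (nat_lit 345) (nat_lit 5) (nat_lit 361) (nat_lit 5) (nat_lit 441) (nat_lit 436) (nat_lit 323))) (XT.nd (nat_lit 78) (nat_lit 1216) (nat_lit 0) (XT.lf (nat_lit 76) (nat_lit 5073885927) (nat_lit 0) (nat_lit 7786926373) (nat_lit 1216) (nat_lit 282377857) (nat_lit 347) (nat_lit 5) (nat_lit 346) (nat_lit 5) (nat_lit 362) (nat_lit 5) (nat_lit 442) (nat_lit 436) (nat_lit 322)) (XT.lf (nat_lit 0) (nat_lit 502336686) (nat_lit 1216) (nat_lit 1297762242) (nat_lit 1292)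 (nat_lit 11534228046) (nat_lit 330) (nat_lit 5) (nat_lit 346) (nat_lit 5) (nat_lit 347) (nat_lit 5) (nat_lit 443) (nat_lit 436) (nat_lit 321)))))) (XT.nd (nat_lit 624) (nat_lit 3040) (nat_lit 0) (XT.nd (nat_lit 312) (nat_lit 0) (nat_lit 152) (XT.nd (nat_lit 156) (nat_lit 0) (nat_lit 76) (XT.nd (nat_lit 78) (nat_lit 0) (nat_lit 0) (XT.lf (nat_lit 0) (nat_lit 1387604637) (nat_lit 1216) (nat_lit 7795682416) (nat_lit 1292) (nat_lit 4345347053) (nat_lit 331) (nat_lit 5) (nat_lit 347) (nat_lit 5) (nat_lit 348) (nat_lit 5) (nat_lit 444) (nat_lit 436) (nat_lit 320)) (XT.lf (nat_lit 0) (nat_lit 2315447636) (nat_lit 1216) (nat_lit 755570437) (nat_lit 1292) (nat_lit 10657272559) (nat_lit 331) (nat_lit 5) (nat_lit 347) (nat_lit 5) (nat_lit 348) (nat_lit 5) (nat_lit 445) (nat_lit 436) (nat_lit 319))) (XT.nd (nat_lit 78) (nat_lit 0) (nat_lit 0) (XT.lf (nat_lit 0) (nat_lit 3351777709) (nat_lit 1216) (nat_lit 7349442932) (nat_lit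 1292) (nat_lit 3230297328) (nat_lit 332) (nat_lit 5) (nat_lit 348) (nat_lit 5) (nat_lit 349) (nat_lit 5) (nat_lit 446) (nat_lit 436) (nat_lit 318)) (XT.lf (nat_lit 0) (nat_lit 4443076572) (nat_lit 1216) (nat_lit 26253660) (nat_lit 1292) (nat_lit 9670796178) (nat_lit 332) (nat_lit 5) (nat_lit 348) (nat_lit 5) (nat_lit 349) (nat_lit 5) (nat_lit 447) (nat_lit 436) (nat_lit 317)))) (XT.nd (nat_lit 156) (nat_lit 0) (nat_lit 76) (XT.nd (nat_lit 78) (nat_lit 0) (nat_lit 0) (XT.lf (nat_lit 0) (nat_lit 5646392383) (nat_lit 1216) (nat_lit 6716871141) (nat_lit 1292) (nat_lit 1989351870) (nat_lit 333) (nat_lit 5) (nat_lit 349) (nat_lit 5) (nat_lit 350) (nat_lit 5) (nat_lit 448) (nat_lit 436) (nat_lit 316)) (XT.lf (nat_lit 76) (nat_lit 919834738) (nat_lit 0) (nat_lit 6005853806) (nat_lit 1292) (nat_lit 7644594690) (nat_lit 334) (nat_lit 5) (nat_lit 333) (nat_lit 5) (nat_lit 350) (nat_lit 5) (nat_lit 449) (nat_lit 436) (nat_lit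 315))) (XT.nd (nat_lit 78) (nat_lit 0) (nat_lit 0) (XT.lf (nat_lit 0) (nat_lit 8303914333) (nat_lit 1216) (nat_lit 5885849315) (nat_lit 1292) (nat_lit 602901535) (nat_lit 334) (nat_lit 5) (nat_lit 350) (nat_lit 5) (nat_lit 351) (nat_lit 5) (nat_lit 450) (nat_lit 436) (nat_lit 314)) (XT.lf (nat_lit 76) (nat_lit 2082323771) (nat_lit 0) (nat_lit 7707866160) (nat_lit 1292) (nat_lit 5229528144) (nat_lit 335) (nat_lit 5) (nat_lit 334) (nat_lit 5) (nat_lit 351) (nat_lit 5) (nat_lit 451) (nat_lit 436) (nat_lit 313))))) (XT.nd (nat_lit 312) (nat_lit 1216) (nat_lit 0) (XT.nd (nat_lit 156) (nat_lit 912) (nat_lit 0) (XT.nd (nat_lit 78) (nat_lit 1140) (nat_lit 0) (XT.lf (nat_lit 76) (nat_lit 10399765655) (nat_lit 0) (nat_lit 968218142) (nat_lit 1292) (nat_lit 3884191418) (nat_lit 335) (nat_lit 5) (nat_lit 334) (nat_lit 5) (nat_lit 351) (nat_lit 5) (nat_lit 452) (nat_lit 436) (nat_lit 312)) (XT.lf (nat_lit 0) (nat_lit 3475001557)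 (nat_lit 1216) (nat_lit 9596813912) (nat_lit 1292) (nat_lit 2417430024) (nat_lit 319) (nat_lit 5) (nat_lit 335) (nat_lit 5) (nat_lit 336) (nat_lit 5) (nat_lit 453) (nat_lit 436) (nat_lit 311))) (XT.nd (nat_lit 78) (nat_lit 912) (nat_lit 0) (XT.lf (nat_lit 0) (nat_lit 12131519708) (nat_lit 1216) (nat_lit 2741865626) (nat_lit 1292) (nat_lit 858644377) (nat_lit 319) (nat_lit 5) (nat_lit 335) (nat_lit 5) (nat_lit 336) (nat_lit 5) (nat_lit 454) (nat_lit 436) (nat_lit 310)) (XT.lf (nat_lit 0) (nat_lit 812271481) (nat_lit 912) (nat_lit 10874247939) (nat_lit 76) (nat_lit 4292964899) (nat_lit 307) (nat_lit 5) (nat_lit 319) (nat_lit 5) (nat_lit 308) (nat_lit 5) (nat_lit 455) (nat_lit 436) (nat_lit 309)))) (XT.nd (nat_lit 156) (nat_lit 608) (nat_lit 0) (XT.nd (nat_lit 78) (nat_lit 608) (nat_lit 0) (XT.lf (nat_lit 0) (nat_lit 2568536102) (nat_lit 912) (nat_lit 2133907368) (nat_lit 76) (nat_lit 11530090159) (nat_lit 307) (nat_lit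 5) (nat_lit 319) (nat_lit 5) (nat_lit 308) (nat_lit 5) (nat_lit 456) (nat_lit 436) (nat_lit 308)) (XT.lf (nat_lit 0) (nat_lit 4458292751) (nat_lit 684) (nat_lit 9521251361) (nat_lit 76) (nat_lit 2511206655) (nat_lit 299) (nat_lit 5) (nat_lit 308) (nat_lit 5) (nat_lit 300) (nat_lit 5) (nat_lit 457) (nat_lit 436) (nat_lit 307))) (XT.nd (nat_lit 78) (nat_lit 608) (nat_lit 0) (XT.lf (nat_lit 0) (nat_lit 6462238513) (nat_lit 684) (nat_lit 423600213) (nat_lit 76) (nat_lit 9869151256) (nat_lit 299) (nat_lit 5) (nat_lit 308) (nat_lit 5) (nat_lit 300) (nat_lit 5) (nat_lit 458) (nat_lit 436) (nat_lit 306)) (XT.lf (nat_lit 0) (nat_lit 8608323500) (nat_lit 684) (nat_lit 7915123293) (nat_lit 76) (nat_lit 501249396) (nat_lit 291) (nat_lit 5) (nat_lit 300) (nat_lit 5) (nat_lit 292) (nat_lit 5) (nat_lit 459) (nat_lit 436) (nat_lit 305))))))))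
noncomputable def xc172 : XT := (XT.nd (nat_lit 2418) (nat_lit 4712) (nat_lit 0) (XT.nd (nat_lit 1170) (nat_lit 3420) (nat_lit 0) (XT.nd (nat_lit 546) (nat_lit 2280) (nat_lit 0) (XT.nd (nat_lit 234) (nat_lit 1140) (nat_lit 0) (XT.nd (nat_lit 78) (nat_lit 608) (nat_lit 0) (XT.lf (nat_lit 0) (nat_lit 1587399715) (nat_lit 532) (nat_lit 9308848899) (nat_lit 608) (nat_lit 6403921672) (nat_lit 284) (nat_lit 5) (nat_lit 291) (nat_lit 5) (nat_lit 292) (nat_lit 5) (nat_lit 460) (nat_lit 436) (nat_lit 304)) (XT.nd (nat_lit 78) (nat_lit 608) (nat_lit 0) (XT.lf (nat_lit 0) (nat_lit 11526936277) (nat_lit 532) (nat_lit 1795705238) (nat_lit 608) (nat_lit 4259172605) (nat_lit 284) (nat_lit 5) (nat_lit 291) (nat_lit 5) (nat_lit 292) (nat_lit 5) (nat_lit 461) (nat_lit 436) (nat_lit 303)) (XT.lf (nat_lit 0) (nat_lit 3901450412) (nat_lit 608) (nat_lit 12005199937) (nat_lit 684) (nat_lit 1962712602) (nat_lit 276) (nat_lit 5) (nat_lit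 284) (nat_lit 5) (nat_lit 285) (nat_lit 5) (nat_lit 462) (nat_lit 436) (nat_lit 302)))) (XT.nd (nat_lit 156) (nat_lit 532) (nat_lit 0) (XT.nd (nat_lit 78) (nat_lit 532) (nat_lit 0) (XT.lf (nat_lit 0) (nat_lit 464597995) (nat_lit 684) (nat_lit 3915770570) (nat_lit 76) (nat_lit 13782959538) (nat_lit 275) (nat_lit 5) (nat_lit 284) (nat_lit 5) (nat_lit 276) (nat_lit 5) (nat_lit 463) (nat_lit 436) (nat_lit 301)) (XT.lf (nat_lit 0) (nat_lit 3012871162) (nat_lit 608) (nat_lit 11962175839) (nat_lit 76) (nat_lit 3487854839) (nat_lit 268) (nat_lit 5) (nat_lit 276) (nat_lit 5) (nat_lit 269) (nat_lit 5) (nat_lit 464) (nat_lit 436) (nat_lit 300))) (XT.nd (nat_lit 78) (nat_lit 532) (nat_lit 0) (XT.lf (nat_lit 0) (nat_lit 5711636681) (nat_lit 608) (nat_lit 1514319085) (nat_lit 76) (nat_lit 11543286059) (nat_lit 268) (nat_lit 5) (nat_lit 276) (nat_lit 5) (nat_lit 269) (nat_lit 5) (nat_lit 465) (nat_lit 436) (nat_lit 299)) (XT.lf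 (nat_lit 0) (nat_lit 8581085348) (nat_lit 608) (nat_lit 9669636890) (nat_lit 76) (nat_lit 831358514) (nat_lit 261) (nat_lit 5) (nat_lit 269) (nat_lit 5) (nat_lit 262) (nat_lit 5) (nat_lit 466) (nat_lit 436) (nat_lit 298))))) (XT.nd (nat_lit 312) (nat_lit 1292) (nat_lit 0) (XT.nd (nat_lit 156) (nat_lit 532) (nat_lit 0) (XT.nd (nat_lit 78) (nat_lit 0) (nat_lit 0) (XT.lf (nat_lit 0) (nat_lit 1236512847) (nat_lit 456) (nat_lit 10390145514) (nat_lit 532) (nat_lit 7774945598) (nat_lit 255) (nat_lit 5) (nat_lit 261) (nat_lit 5) (nat_lit 262) (nat_lit 5) (nat_lit 467) (nat_lit 436) (nat_lit 297)) (XT.lf (nat_lit 0) (nat_lit 12658038319) (nat_lit 456) (nat_lit 2194533085) (nat_lit 532) (nat_lit 4875472604) (nat_lit 255) (nat_lit 5) (nat_lit 261) (nat_lit 5) (nat_lit 262) (nat_lit 5) (nat_lit 468) (nat_lit 436) (nat_lit 296))) (XT.nd (nat_lit 78) (nat_lit 76) (nat_lit 0) (XT.lf (nat_lit 0) (nat_lit 4373245555) (nat_lit 456)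 (nat_lit 13895672464) (nat_lit 532) (nat_lit 1792549873) (nat_lit 249) (nat_lit 5) (nat_lit 255) (nat_lit 5) (nat_lit 256) (nat_lit 5) (nat_lit 469) (nat_lit 436) (nat_lit 295)) (XT.lf (nat_lit 0) (nat_lit 1441340784) (nat_lit 532) (nat_lit 4143801972) (nat_lit 76) (nat_lit 14816789306) (nat_lit 248) (nat_lit 5) (nat_lit 255) (nat_lit 5) (nat_lit 249) (nat_lit 5) (nat_lit 470) (nat_lit 436) (nat_lit 294)))) (XT.nd (nat_lit 156) (nat_lit 836) (nat_lit 0) (XT.nd (nat_lit 78) (nat_lit 0) (nat_lit 0) (XT.lf (nat_lit 0) (nat_lit 4833284916) (nat_lit 532) (nat_lit 12906471423) (nat_lit 76) (nat_lit 3009409713) (nat_lit 242) (nat_lit 5) (nat_lit 249) (nat_lit 5) (nat_lit 243) (nat_lit 5) (nat_lit 471) (nat_lit 436) (nat_lit 293)) (XT.lf (nat_lit 0) (nat_lit 8416552238) (nat_lit 532) (nat_lit 897423722) (nat_lit 76) (nat_lit 11790154439) (nat_lit 242) (nat_lit 5) (nat_lit 249) (nat_lit 5) (nat_lit 243) (nat_lit 5) (nat_lit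 472) (nat_lit 436) (nat_lit 292))) (XT.nd (nat_lit 78) (nat_lit 380) (nat_lit 0) (XT.lf (nat_lit 0) (nat_lit 11690426222) (nat_lit 456) (nat_lit 521507514) (nat_lit 532) (nat_lit 9254671732) (nat_lit 236) (nat_lit 5) (nat_lit 242) (nat_lit 5) (nat_lit 243) (nat_lit 5) (nat_lit 473) (nat_lit 436) (nat_lit 291)) (XT.lf (nat_lit 0) (nat_lit 2797372565) (nat_lit 380) (nat_lit 13434244542) (nat_lit 456) (nat_lit 5605024737) (nat_lit 231) (nat_lit 5) (nat_lit 236) (nat_lit 5) (nat_lit 237) (nat_lit 5) (nat_lit 474) (nat_lit 436) (nat_lit 290)))))) (XT.nd (nat_lit 624) (nat_lit 1672) (nat_lit 0) (XT.nd (nat_lit 312) (nat_lit 836) (nat_lit 0) (XT.nd (nat_lit 156) (nat_lit 380) (nat_lit 0) (XT.nd (nat_lit 78) (nat_lit 532) (nat_lit 0) (XT.lf (nat_lit 0) (nat_lit 15933653520) (nat_lit 380) (nat_lit 4534558044) (nat_lit 456) (nat_lit 1746678390) (nat_lit 231) (nat_lit 5) (nat_lit 236) (nat_lit 5) (nat_lit 237) (nat_lit 5)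 (nat_lit 475) (nat_lit 436) (nat_lit 289)) (XT.lf (nat_lit 0) (nat_lit 2288916055) (nat_lit 532) (nat_lit 15682887864) (nat_lit 76) (nat_lit 4628890612) (nat_lit 224) (nat_lit 5) (nat_lit 231) (nat_lit 5) (nat_lit 225) (nat_lit 5) (nat_lit 476) (nat_lit 436) (nat_lit 288))) (XT.nd (nat_lit 78) (nat_lit 380) (nat_lit 0) (XT.lf (nat_lit 0) (nat_lit 6512162178) (nat_lit 532) (nat_lit 2426992683) (nat_lit 76) (nat_lit 14055349099) (nat_lit 224) (nat_lit 5) (nat_lit 231) (nat_lit 5) (nat_lit 225) (nat_lit 5) (nat_lit 477) (nat_lit 436) (nat_lit 287)) (XT.lf (nat_lit 0) (nat_lit 10969598775) (nat_lit 456) (nat_lit 11961090767) (nat_lit 76) (nat_lit 466213567) (nat_lit 219) (nat_lit 5) (nat_lit 225) (nat_lit 5) (nat_lit 220) (nat_lit 5) (nat_lit 478) (nat_lit 436) (nat_lit 286)))) (XT.nd (nat_lit 156) (nat_lit 456) (nat_lit 0) (XT.nd (nat_lit 78) (nat_lit 0) (nat_lit 0) (XT.lf (nat_lit 0) (nat_lit 1892391701) (nat_lit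 380) (nat_lit 13792858573) (nat_lit 456) (nat_lit 8122389429) (nat_lit 214) (nat_lit 5) (nat_lit 219) (nat_lit 5) (nat_lit 220) (nat_lit 5) (nat_lit 479) (nat_lit 436) (nat_lit 285)) (XT.lf (nat_lit 0) (nat_lit 16397361401) (nat_lit 380) (nat_lit 4258950585) (nat_lit 456) (nat_lit 3570968405) (nat_lit 214) (nat_lit 5) (nat_lit 219) (nat_lit 5) (nat_lit 220) (nat_lit 5) (nat_lit 480) (nat_lit 436) (nat_lit 284))) (XT.nd (nat_lit 78) (nat_lit 0) (nat_lit 0) (XT.lf (nat_lit 0) (nat_lit 1207948626) (nat_lit 456) (nat_lit 17921045227) (nat_lit 76) (nat_lit 5526812036) (nat_lit 208) (nat_lit 5) (nat_lit 214) (nat_lit 5) (nat_lit 209) (nat_lit 5) (nat_lit 481) (nat_lit 436) (nat_lit 283)) (XT.lf (nat_lit 0) (nat_lit 6173852468) (nat_lit 456) (nat_lit 3285490585) (nat_lit 76) (nat_lit 15633321848) (nat_lit 208) (nat_lit 5) (nat_lit 214) (nat_lit 5) (nat_lit 209) (nat_lit 5) (nat_lit 482) (nat_lit 436) (nat_lit 282)))))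 (XT.nd (nat_lit 312) (nat_lit 608) (nat_lit 0) (XT.nd (nat_lit 156) (nat_lit 380) (nat_lit 0) (XT.nd (nat_lit 78) (nat_lit 304) (nat_lit 0) (XT.lf (nat_lit 0) (nat_lit 11403721811) (nat_lit 456) (nat_lit 13530693929) (nat_lit 76) (nat_lit 604764485) (nat_lit 203) (nat_lit 5) (nat_lit 209) (nat_lit 5) (nat_lit 204) (nat_lit 5) (nat_lit 483) (nat_lit 436) (nat_lit 281)) (XT.lf (nat_lit 0) (nat_lit 1761868385) (nat_lit 304) (nat_lit 15166362213) (nat_lit 380) (nat_lit 9066728298) (nat_lit 199) (nat_lit 5) (nat_lit 203) (nat_lit 5) (nat_lit 204) (nat_lit 5) (nat_lit 484) (nat_lit 436) (nat_lit 280))) (XT.nd (nat_lit 78) (nat_lit 380) (nat_lit 0) (XT.lf (nat_lit 0) (nat_lit 17781599592) (nat_lit 304) (nat_lit 4967252222) (nat_lit 380) (nat_lit 3711647979) (nat_lit 199) (nat_lit 5) (nat_lit 203) (nat_lit 5) (nat_lit 204) (nat_lit 5) (nat_lit 485) (nat_lit 436) (nat_lit 279)) (XT.lf (nat_lit 0) (nat_lit 1888557977) (nat_lit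 380) (nat_lit 19530271485) (nat_lit 76) (nat_lit 5517067047) (nat_lit 194) (nat_lit 5) (nat_lit 199) (nat_lit 5) (nat_lit 195) (nat_lit 5) (nat_lit 486) (nat_lit 436) (nat_lit 278)))) (XT.nd (nat_lit 156) (nat_lit 304) (nat_lit 0) (XT.nd (nat_lit 78) (nat_lit 304) (nat_lit 0) (XT.lf (nat_lit 0) (nat_lit 7713792115) (nat_lit 380) (nat_lit 3368031933) (nat_lit 76) (nat_lit 16338680101) (nat_lit 194) (nat_lit 5) (nat_lit 199) (nat_lit 5) (nat_lit 195) (nat_lit 5) (nat_lit 487) (nat_lit 436) (nat_lit 277)) (XT.lf (nat_lit 0) (nat_lit 13534538191) (nat_lit 304) (nat_lit 303458162) (nat_lit 380) (nat_lit 14077927434) (nat_lit 190) (nat_lit 5) (nat_lit 194) (nat_lit 5) (nat_lit 195) (nat_lit 5) (nat_lit 488) (nat_lit 436) (nat_lit 276))) (XT.nd (nat_lit 78) (nat_lit 0) (nat_lit 0) (XT.lf (nat_lit 0) (nat_lit 2524459069) (nat_lit 304) (nat_lit 17778054562) (nat_lit 380) (nat_lit 8118994934) (nat_lit 186) (nat_lit 5) (nat_lit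 190) (nat_lit 5) (nat_lit 191) (nat_lit 5) (nat_lit 489) (nat_lit 436) (nat_lit 275)) (XT.lf (nat_lit 0) (nat_lit 20220597327) (nat_lit 304) (nat_lit 6882828342) (nat_lit 380) (nat_lit 1834561593) (nat_lit 186) (nat_lit 5) (nat_lit 190) (nat_lit 5) (nat_lit 191) (nat_lit 5) (nat_lit 490) (nat_lit 436) (nat_lit 274))))))) (XT.nd (nat_lit 1170) (nat_lit 2128) (nat_lit 0) (XT.nd (nat_lit 546) (nat_lit 1292) (nat_lit 0) (XT.nd (nat_lit 234) (nat_lit 608) (nat_lit 0) (XT.nd (nat_lit 78) (nat_lit 304) (nat_lit 0) (XT.lf (nat_lit 0) (nat_lit 4672752842) (nat_lit 380) (nat_lit 20406952378) (nat_lit 76) (nat_lit 4385171826) (nat_lit 181) (nat_lit 5) (nat_lit 186) (nat_lit 5) (nat_lit 182) (nat_lit 5) (nat_lit 491) (nat_lit 436) (nat_lit 273)) (XT.nd (nat_lit 78) (nat_lit 304) (nat_lit 0) (XT.lf (nat_lit 0) (nat_lit 11489888721) (nat_lit 380) (nat_lit 2555456990) (nat_lit 76) (nat_lit 15957138785) (nat_lit 181) (nat_lit 5)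 (nat_lit 186) (nat_lit 5) (nat_lit 182) (nat_lit 5) (nat_lit 492) (nat_lit 436) (nat_lit 272)) (XT.lf (nat_lit 0) (nat_lit 16138207898) (nat_lit 304) (nat_lit 2523051350) (nat_lit 380) (nat_lit 11890469441) (nat_lit 177) (nat_lit 5) (nat_lit 181) (nat_lit 5) (nat_lit 182) (nat_lit 5) (nat_lit 493) (nat_lit 436) (nat_lit 271)))) (XT.nd (nat_lit 156) (nat_lit 304) (nat_lit 0) (XT.nd (nat_lit 78) (nat_lit 76) (nat_lit 0) (XT.lf (nat_lit 0) (nat_lit 4314150088) (nat_lit 228) (nat_lit 21885621907) (nat_lit 304) (nat_lit 4913118312) (nat_lit 174) (nat_lit 5) (nat_lit 177) (nat_lit 5) (nat_lit 178) (nat_lit 5) (nat_lit 494) (nat_lit 436) (nat_lit 270)) (XT.lf (nat_lit 0) (nat_lit 2395823719) (nat_lit 304) (nat_lit 7844048317) (nat_lit 76) (nat_lit 21445360150) (nat_lit 173) (nat_lit 5) (nat_lit 177) (nat_lit 5) (nat_lit 174) (nat_lit 5) (nat_lit 495) (nat_lit 436) (nat_lit 269))) (XT.nd (nat_lit 78) (nat_lit 0) (nat_lit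 0) (XT.lf (nat_lit 0) (nat_lit 9952506395) (nat_lit 380) (nat_lit 20434647565) (nat_lit 76) (nat_lit 1882314504) (nat_lit 169) (nat_lit 5) (nat_lit 174) (nat_lit 5) (nat_lit 170) (nat_lit 5) (nat_lit 496) (nat_lit 436) (nat_lit 268)) (XT.lf (nat_lit 0) (nat_lit 17912134375) (nat_lit 380) (nat_lit 714340516) (nat_lit 76) (nat_lit 14239469712) (nat_lit 169) (nat_lit 5) (nat_lit 174) (nat_lit 5) (nat_lit 170) (nat_lit 5) (nat_lit 497) (nat_lit 436) (nat_lit 267))))) (XT.nd (nat_lit 312) (nat_lit 532) (nat_lit 0) (XT.nd (nat_lit 156) (nat_lit 228) (nat_lit 0) (XT.nd (nat_lit 78) (nat_lit 304) (nat_lit 0) (XT.lf (nat_lit 0) (nat_lit 19979518658) (nat_lit 228) (nat_lit 6318103611) (nat_lit 304) (nat_lit 7177080738) (nat_lit 166) (nat_lit 5) (nat_lit 169) (nat_lit 5) (nat_lit 170) (nat_lit 5) (nat_lit 498) (nat_lit 436) (nat_lit 266)) (XT.lf (nat_lit 0) (nat_lit 951473545) (nat_lit 304) (nat_lit 26826830405) (nat_lit 76)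 (nat_lit 6319136812) (nat_lit 162) (nat_lit 5) (nat_lit 166) (nat_lit 5) (nat_lit 163) (nat_lit 5) (nat_lit 499) (nat_lit 436) (nat_lit 265))) (XT.nd (nat_lit 78) (nat_lit 228) (nat_lit 0) (XT.lf (nat_lit 0) (nat_lit 9374888788) (nat_lit 304) (nat_lit 5941711359) (nat_lit 76) (nat_lit 19414271104) (nat_lit 162) (nat_lit 5) (nat_lit 166) (nat_lit 5) (nat_lit 163) (nat_lit 5) (nat_lit 500) (nat_lit 436) (nat_lit 264)) (XT.lf (nat_lit 0) (nat_lit 15871921393) (nat_lit 228) (nat_lit 2326876014) (nat_lit 304) (nat_lit 17180073622) (nat_lit 159) (nat_lit 5) (nat_lit 162) (nat_lit 5) (nat_lit 163) (nat_lit 5) (nat_lit 501) (nat_lit 436) (nat_lit 263)))) (XT.nd (nat_lit 156) (nat_lit 228) (nat_lit 0) (XT.nd (nat_lit 78) (nat_lit 76) (nat_lit 0) (XT.lf (nat_lit 0) (nat_lit 2348445210) (nat_lit 228) (nat_lit 25123647371) (nat_lit 304) (nat_lit 8568678237) (nat_lit 156) (nat_lit 5) (nat_lit 159) (nat_lit 5) (nat_lit 160) (nat_lit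 5) (nat_lit 502) (nat_lit 436) (nat_lit 262)) (XT.lf (nat_lit 0) (nat_lit 512429564) (nat_lit 304) (nat_lit 11492938424) (nat_lit 76) (nat_lit 24710555527) (nat_lit 155) (nat_lit 5) (nat_lit 159) (nat_lit 5) (nat_lit 156) (nat_lit 5) (nat_lit 503) (nat_lit 436) (nat_lit 261))) (XT.nd (nat_lit 78) (nat_lit 0) (nat_lit 0) (XT.lf (nat_lit 0) (nat_lit 9816136364) (nat_lit 304) (nat_lit 25917491916) (nat_lit 76) (nat_lit 1671485820) (nat_lit 152) (nat_lit 5) (nat_lit 156) (nat_lit 5) (nat_lit 153) (nat_lit 5) (nat_lit 504) (nat_lit 436) (nat_lit 260)) (XT.lf (nat_lit 0) (nat_lit 19630469640) (nat_lit 304) (nat_lit 2845937368) (nat_lit 76) (nat_lit 15631628024) (nat_lit 152) (nat_lit 5) (nat_lit 156) (nat_lit 5) (nat_lit 153) (nat_lit 5) (nat_lit 505) (nat_lit 436) (nat_lit 259)))))) (XT.nd (nat_lit 624) (nat_lit 988) (nat_lit 0) (XT.nd (nat_lit 312) (nat_lit 456) (nat_lit 0) (XT.nd (nat_lit 156) (nat_lit 228) (nat_lit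 0) (XT.nd (nat_lit 78) (nat_lit 228) (nat_lit 0) (XT.lf (nat_lit 0) (nat_lit 21326524888) (nat_lit 228) (nat_lit 8613289328) (nat_lit 304) (nat_lit 8886212020) (nat_lit 149) (nat_lit 5) (nat_lit 152) (nat_lit 5) (nat_lit 153) (nat_lit 5) (nat_lit 506) (nat_lit 436) (nat_lit 258)) (XT.lf (nat_lit 0) (nat_lit 1119280572) (nat_lit 228) (nat_lit 32784108440) (nat_lit 76) (nat_lit 5657508719) (nat_lit 146) (nat_lit 5) (nat_lit 149) (nat_lit 5) (nat_lit 147) (nat_lit 5) (nat_lit 507) (nat_lit 436) (nat_lit 257))) (XT.nd (nat_lit 78) (nat_lit 228) (nat_lit 0) (XT.lf (nat_lit 0) (nat_lit 11505696130) (nat_lit 228) (nat_lit 8354875461) (nat_lit 76) (nat_lit 20446823520) (nat_lit 146) (nat_lit 5) (nat_lit 149) (nat_lit 5) (nat_lit 147) (nat_lit 5) (nat_lit 508) (nat_lit 436) (nat_lit 256)) (XT.lf (nat_lit 0) (nat_lit 17134363693) (nat_lit 228) (nat_lit 5229795863) (nat_lit 304) (nat_lit 18707314272) (nat_lit 143) (nat_lit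 5) (nat_lit 146) (nat_lit 5) (nat_lit 147) (nat_lit 5) (nat_lit 509) (nat_lit 436) (nat_lit 255)))) (XT.nd (nat_lit 156) (nat_lit 228) (nat_lit 0) (XT.nd (nat_lit 78) (nat_lit 76) (nat_lit 0) (XT.lf (nat_lit 0) (nat_lit 1632791408) (nat_lit 152) (nat_lit 32106847249) (nat_lit 228) (nat_lit 8113098468) (nat_lit 141) (nat_lit 5) (nat_lit 143) (nat_lit 5) (nat_lit 144) (nat_lit 5) (nat_lit 510) (nat_lit 436) (nat_lit 254)) (XT.lf (nat_lit 0) (nat_lit 3036006300) (nat_lit 228) (nat_lit 14278051506) (nat_lit 76) (nat_lit 25333823028) (nat_lit 140) (nat_lit 5) (nat_lit 143) (nat_lit 5) (nat_lit 141) (nat_lit 5) (nat_lit 511) (nat_lit 436) (nat_lit 253))) (XT.nd (nat_lit 78) (nat_lit 0) (nat_lit 0) (XT.lf (nat_lit 0) (nat_lit 12600603084) (nat_lit 228) (nat_lit 1872951932) (nat_lit 304) (nat_lit 28987402995) (nat_lit 137) (nat_lit 5) (nat_lit 140) (nat_lit 5) (nat_lit 141) (nat_lit 5) (nat_lit 512) (nat_lit 436) (nat_lit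 252)) (XT.lf (nat_lit 0) (nat_lit 26530651313) (nat_lit 304) (nat_lit 3859180126) (nat_lit 76) (nat_lit 13900303493) (nat_lit 137) (nat_lit 5) (nat_lit 141) (nat_lit 5) (nat_lit 138) (nat_lit 5) (nat_lit 513) (nat_lit 436) (nat_lit 251))))) (XT.nd (nat_lit 312) (nat_lit 380) (nat_lit 0) (XT.nd (nat_lit 156) (nat_lit 152) (nat_lit 0) (XT.nd (nat_lit 78) (nat_lit 304) (nat_lit 0) (XT.lf (nat_lit 0) (nat_lit 24402802905) (nat_lit 152) (nat_lit 14795829732) (nat_lit 228) (nat_lit 5938079426) (nat_lit 135) (nat_lit 5) (nat_lit 137) (nat_lit 5) (nat_lit 138) (nat_lit 5) (nat_lit 514) (nat_lit 436) (nat_lit 250)) (XT.lf (nat_lit 0) (nat_lit 6239212355) (nat_lit 304) (nat_lit 38350857299) (nat_lit 76) (nat_lit 1413128895) (nat_lit 131) (nat_lit 5) (nat_lit 135) (nat_lit 5) (nat_lit 132) (nat_lit 5) (nat_lit 515) (nat_lit 436) (nat_lit 249))) (XT.nd (nat_lit 78) (nat_lit 152) (nat_lit 0) (XT.lf (nat_lit 0) (nat_lit 19016496869)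 (nat_lit 304) (nat_lit 9788455332) (nat_lit 76) (nat_lit 18078342997) (nat_lit 131) (nat_lit 5) (nat_lit 135) (nat_lit 5) (nat_lit 132) (nat_lit 5) (nat_lit 516) (nat_lit 436) (nat_lit 248)) (XT.lf (nat_lit 0) (nat_lit 20014676520) (nat_lit 152) (nat_lit 12351016048) (nat_lit 228) (nat_lit 15418444454) (nat_lit 129) (nat_lit 5) (nat_lit 131) (nat_lit 5) (nat_lit 132) (nat_lit 5) (nat_lit 517) (nat_lit 436) (nat_lit 247)))) (XT.nd (nat_lit 156) (nat_lit 152) (nat_lit 0) (XT.nd (nat_lit 78) (nat_lit 76) (nat_lit 0) (XT.lf (nat_lit 0) (nat_lit 2194455754) (nat_lit 152) (nat_lit 44082228995) (nat_lit 228) (nat_lit 2430479788) (nat_lit 127) (nat_lit 5) (nat_lit 129) (nat_lit 5) (nat_lit 130) (nat_lit 5) (nat_lit 518) (nat_lit 436) (nat_lit 246)) (XT.lf (nat_lit 0) (nat_lit 11135214499) (nat_lit 228) (nat_lit 16259957423) (nat_lit 76) (nat_lit 22247502838) (nat_lit 126) (nat_lit 5) (nat_lit 129) (nat_lit 5) (nat_lit 127)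 (nat_lit 5) (nat_lit 519) (nat_lit 436) (nat_lit 245))) (XT.nd (nat_lit 78) (nat_lit 0) (nat_lit 0) (XT.lf (nat_lit 0) (nat_lit 15165716951) (nat_lit 152) (nat_lit 10035432153) (nat_lit 228) (nat_lit 25400115720) (nat_lit 124) (nat_lit 5) (nat_lit 126) (nat_lit 5) (nat_lit 127) (nat_lit 5) (nat_lit 520) (nat_lit 436) (nat_lit 244)) (XT.lf (nat_lit 0) (nat_lit 39926647669) (nat_lit 228) (nat_lit 3799799876) (nat_lit 76) (nat_lit 7855037514) (nat_lit 124) (nat_lit 5) (nat_lit 127) (nat_lit 5) (nat_lit 125) (nat_lit 5) (nat_lit 521) (nat_lit 436) (nat_lit 243))))))))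
noncomputable def xc173 : XT := (XT.nd (nat_lit 56004) (nat_lit 0) (nat_lit 12616) (XT.nd (nat_lit 1170) (nat_lit 1368) (nat_lit 0) (XT.nd (nat_lit 546) (nat_lit 836) (nat_lit 0) (XT.nd (nat_lit 234) (nat_lit 532) (nat_lit 0) (XT.nd (nat_lit 78) (nat_lit 152) (nat_lit 0) (XT.lf (nat_lit 0) (nat_lit 2834684357) (nat_lit 228) (nat_lit 23357518557) (nat_lit 76) (nat_lit 26386765570) (nat_lit 121) (nat_lit 5) (nat_lit 124) (nat_lit 5) (nat_lit 122) (nat_lit 5) (nat_lit 522) (nat_lit 436) (nat_lit 242)) (XT.nd (nat_lit 78) (nat_lit 0) (nat_lit 0) (XT.lf (nat_lit 0) (nat_lit 9774599965) (nat_lit 152) (nat_lit 7879219687) (nat_lit 228) (nat_lit 35945219613) (nat_lit 119) (nat_lit 5) (nat_lit 121) (nat_lit 5) (nat_lit 122) (nat_lit 5) (nat_lit 523) (nat_lit 436) (nat_lit 241)) (XT.lf (nat_lit 0) (nat_lit 33257790122) (nat_lit 228) (nat_lit 10377442696) (nat_lit 76) (nat_lit 11004271559) (nat_lit 119) (nat_lit 5) (nat_lit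 122) (nat_lit 5) (nat_lit 120) (nat_lit 5) (nat_lit 524) (nat_lit 436) (nat_lit 240)))) (XT.nd (nat_lit 156) (nat_lit 152) (nat_lit 0) (XT.nd (nat_lit 78) (nat_lit 228) (nat_lit 0) (XT.lf (nat_lit 0) (nat_lit 24466178220) (nat_lit 152) (nat_lit 25173483739) (nat_lit 228) (nat_lit 6062228059) (nat_lit 117) (nat_lit 5) (nat_lit 119) (nat_lit 5) (nat_lit 120) (nat_lit 5) (nat_lit 525) (nat_lit 436) (nat_lit 239)) (XT.lf (nat_lit 0) (nat_lit 3747309564) (nat_lit 152) (nat_lit 5918366668) (nat_lit 228) (nat_lit 47123515584) (nat_lit 114) (nat_lit 5) (nat_lit 116) (nat_lit 5) (nat_lit 117) (nat_lit 5) (nat_lit 526) (nat_lit 436) (nat_lit 238))) (XT.nd (nat_lit 78) (nat_lit 152) (nat_lit 0) (XT.lf (nat_lit 0) (nat_lit 26192475837) (nat_lit 228) (nat_lit 17682643213) (nat_lit 76) (nat_lit 14018725906) (nat_lit 114) (nat_lit 5) (nat_lit 117) (nat_lit 5) (nat_lit 115) (nat_lit 5) (nat_lit 527) (nat_lit 436) (nat_lit 237))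 (XT.lf (nat_lit 0) (nat_lit 19044363139) (nat_lit 152) (nat_lit 24409085675) (nat_lit 228) (nat_lit 15571037832) (nat_lit 112) (nat_lit 5) (nat_lit 114) (nat_lit 5) (nat_lit 115) (nat_lit 5) (nat_lit 528) (nat_lit 436) (nat_lit 236))))) (XT.nd (nat_lit 312) (nat_lit 456) (nat_lit 0) (XT.nd (nat_lit 156) (nat_lit 152) (nat_lit 0) (XT.nd (nat_lit 78) (nat_lit 152) (nat_lit 0) (XT.lf (nat_lit 0) (nat_lit 1199886535) (nat_lit 228) (nat_lit 2965872668) (nat_lit 76) (nat_lit 56017676386) (nat_lit 111) (nat_lit 5) (nat_lit 114) (nat_lit 5) (nat_lit 112) (nat_lit 5) (nat_lit 529) (nat_lit 436) (nat_lit 235)) (XT.lf (nat_lit 0) (nat_lit 18666192159) (nat_lit 228) (nat_lit 25832298561) (nat_lit 76) (nat_lit 16858880775) (nat_lit 109) (nat_lit 5) (nat_lit 112) (nat_lit 5) (nat_lit 110) (nat_lit 5) (nat_lit 530) (nat_lit 436) (nat_lit 234))) (XT.nd (nat_lit 78) (nat_lit 0) (nat_lit 0) (XT.lf (nat_lit 0) (nat_lit 12869630314)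 (nat_lit 152) (nat_lit 23978877820) (nat_lit 228) (nat_lit 25712256741) (nat_lit 107) (nat_lit 5) (nat_lit 109) (nat_lit 5) (nat_lit 110) (nat_lit 5) (nat_lit 531) (nat_lit 436) (nat_lit 233)) (XT.lf (nat_lit 0) (nat_lit 53256333230) (nat_lit 152) (nat_lit 2577671869) (nat_lit 228) (nat_lit 7958523645) (nat_lit 107) (nat_lit 5) (nat_lit 109) (nat_lit 5) (nat_lit 110) (nat_lit 5) (nat_lit 532) (nat_lit 436) (nat_lit 232)))) (XT.nd (nat_lit 156) (nat_lit 152) (nat_lit 0) (XT.nd (nat_lit 78) (nat_lit 152) (nat_lit 0) (XT.lf (nat_lit 0) (nat_lit 10605222922) (nat_lit 152) (nat_lit 34961322977) (nat_lit 76) (nat_lit 19477353305) (nat_lit 105) (nat_lit 5) (nat_lit 107) (nat_lit 5) (nat_lit 106) (nat_lit 5) (nat_lit 533) (nat_lit 436) (nat_lit 231)) (XT.lf (nat_lit 0) (nat_lit 5808524079) (nat_lit 152) (nat_lit 23943131886) (nat_lit 228) (nat_lit 36573218949) (nat_lit 103) (nat_lit 5) (nat_lit 105) (nat_lit 5) (nat_lit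 106) (nat_lit 5) (nat_lit 534) (nat_lit 436) (nat_lit 230))) (XT.nd (nat_lit 78) (nat_lit 152) (nat_lit 0) (XT.lf (nat_lit 0) (nat_lit 48512472666) (nat_lit 152) (nat_lit 1310012761) (nat_lit 228) (nat_lit 17811294394) (nat_lit 103) (nat_lit 5) (nat_lit 105) (nat_lit 5) (nat_lit 106) (nat_lit 5) (nat_lit 535) (nat_lit 436) (nat_lit 229)) (XT.lf (nat_lit 0) (nat_lit 1925221517) (nat_lit 152) (nat_lit 45225507512) (nat_lit 76) (nat_lit 21817548399) (nat_lit 101) (nat_lit 5) (nat_lit 103) (nat_lit 5) (nat_lit 102) (nat_lit 5) (nat_lit 536) (nat_lit 436) (nat_lit 228)))))) (XT.nd (nat_lit 624) (nat_lit 608) (nat_lit 0) (XT.nd (nat_lit 312) (nat_lit 456) (nat_lit 0) (XT.nd (nat_lit 156) (nat_lit 152) (nat_lit 0) (XT.nd (nat_lit 78) (nat_lit 152) (nat_lit 0) (XT.lf (nat_lit 0) (nat_lit 22100844458) (nat_lit 152) (nat_lit 2249081795) (nat_lit 76) (nat_lit 45981443223) (nat_lit 101) (nat_lit 5) (nat_lit 103) (nat_lit 5)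 (nat_lit 102) (nat_lit 5) (nat_lit 537) (nat_lit 436) (nat_lit 227)) (XT.lf (nat_lit 0) (nat_lit 42847334574) (nat_lit 152) (nat_lit 443393821) (nat_lit 228) (nat_lit 28432356148) (nat_lit 99) (nat_lit 5) (nat_lit 101) (nat_lit 5) (nat_lit 102) (nat_lit 5) (nat_lit 538) (nat_lit 436) (nat_lit 226))) (XT.nd (nat_lit 78) (nat_lit 76) (nat_lit 0) (XT.lf (nat_lit 0) (nat_lit 16266212678) (nat_lit 76) (nat_lit 49258955227) (nat_lit 152) (nat_lit 7619117409) (nat_lit 98) (nat_lit 5) (nat_lit 99) (nat_lit 5) (nat_lit 100) (nat_lit 4) (nat_lit 539) (nat_lit 436) (nat_lit 225)) (XT.lf (nat_lit 0) (nat_lit 13844864845) (nat_lit 152) (nat_lit 11390545202) (nat_lit 76) (nat_lit 49359847260) (nat_lit 97) (nat_lit 5) (nat_lit 99) (nat_lit 5) (nat_lit 98) (nat_lit 5) (nat_lit 540) (nat_lit 436) (nat_lit 224)))) (XT.nd (nat_lit 156) (nat_lit 228) (nat_lit 0) (XT.nd (nat_lit 78) (nat_lit 76) (nat_lit 0) (XT.lf (nat_lit 0) (nat_lit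 36085058169) (nat_lit 152) (nat_lit 58656845) (nat_lit 228) (nat_lit 39933457810) (nat_lit 95) (nat_lit 5) (nat_lit 97) (nat_lit 5) (nat_lit 98) (nat_lit 5) (nat_lit 541) (nat_lit 436) (nat_lit 223)) (XT.lf (nat_lit 0) (nat_lit 7509752025) (nat_lit 76) (nat_lit 52036059911) (nat_lit 152) (nat_lit 18044705453) (nat_lit 94) (nat_lit 5) (nat_lit 95) (nat_lit 5) (nat_lit 96) (nat_lit 4) (nat_lit 542) (nat_lit 436) (nat_lit 222))) (XT.nd (nat_lit 78) (nat_lit 152) (nat_lit 0) (XT.lf (nat_lit 0) (nat_lit 4818530081) (nat_lit 152) (nat_lit 21933789568) (nat_lit 76) (nat_lit 52383475387) (nat_lit 93) (nat_lit 5) (nat_lit 95) (nat_lit 5) (nat_lit 94) (nat_lit 5) (nat_lit 543) (nat_lit 436) (nat_lit 221)) (XT.lf (nat_lit 0) (nat_lit 28020597827) (nat_lit 152) (nat_lit 251040632) (nat_lit 228) (nat_lit 52442433065) (nat_lit 91) (nat_lit 5) (nat_lit 93) (nat_lit 5) (nat_lit 94) (nat_lit 5) (nat_lit 544) (nat_lit 436) (nat_lit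 220))))) (XT.nd (nat_lit 312) (nat_lit 304) (nat_lit 0) (XT.nd (nat_lit 156) (nat_lit 228) (nat_lit 0) (XT.nd (nat_lit 78) (nat_lit 76) (nat_lit 0) (XT.lf (nat_lit 0) (nat_lit 52909309049) (nat_lit 228) (nat_lit 2677108995) (nat_lit 76) (nat_lit 26738849212) (nat_lit 91) (nat_lit 5) (nat_lit 94) (nat_lit 5) (nat_lit 92) (nat_lit 4) (nat_lit 545) (nat_lit 436) (nat_lit 219)) (XT.lf (nat_lit 0) (nat_lit 49804141947) (nat_lit 76) (nat_lit 28960591526) (nat_lit 152) (nat_lit 5205706695) (nat_lit 90) (nat_lit 5) (nat_lit 91) (nat_lit 5) (nat_lit 92) (nat_lit 4) (nat_lit 546) (nat_lit 436) (nat_lit 218))) (XT.nd (nat_lit 78) (nat_lit 0) (nat_lit 0) (XT.lf (nat_lit 0) (nat_lit 18414980743) (nat_lit 152) (nat_lit 1132562241) (nat_lit 228) (nat_lit 66105684031) (nat_lit 87) (nat_lit 5) (nat_lit 89) (nat_lit 5) (nat_lit 90) (nat_lit 5) (nat_lit 547) (nat_lit 436) (nat_lit 217)) (XT.lf (nat_lit 0) (nat_lit 45549226593) (nat_lit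 228) (nat_lit 14426655528) (nat_lit 76) (nat_lit 27390755135) (nat_lit 87) (nat_lit 5) (nat_lit 90) (nat_lit 5) (nat_lit 88) (nat_lit 4) (nat_lit 548) (nat_lit 436) (nat_lit 216)))) (XT.nd (nat_lit 53742) (nat_lit 0) (nat_lit 19836) (XT.nd (nat_lit 78) (nat_lit 228) (nat_lit 0) (XT.lf (nat_lit 0) (nat_lit 40748375915) (nat_lit 76) (nat_lit 31982971591) (nat_lit 152) (nat_lit 16388090711) (nat_lit 86) (nat_lit 5) (nat_lit 87) (nat_lit 5) (nat_lit 88) (nat_lit 4) (nat_lit 549) (nat_lit 436) (nat_lit 215)) (XT.lf (nat_lit 0) (nat_lit 6989804733) (nat_lit 152) (nat_lit 2834781938) (nat_lit 228) (nat_lit 81091055519) (nat_lit 83) (nat_lit 5) (nat_lit 85) (nat_lit 5) (nat_lit 86) (nat_lit 5) (nat_lit 550) (nat_lit 436) (nat_lit 214))) (XT.nd (nat_lit 78) (nat_lit 0) (nat_lit 0) (XT.lf (nat_lit 0) (nat_lit 2356115355) (nat_lit 0) (nat_lit 2356115355) (nat_lit 1140) (nat_lit 1497651112) (nat_lit 344) (nat_lit 5) (nat_lit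 344) (nat_lit 3) (nat_lit 359) (nat_lit 3) (nat_lit 437) (nat_lit 437) (nat_lit 326)) (XT.lf (nat_lit 0) (nat_lit 10015397225) (nat_lit 1140) (nat_lit 1528173682) (nat_lit 1216) (nat_lit 1048981037) (nat_lit 344) (nat_lit 5) (nat_lit 359) (nat_lit 3) (nat_lit 360) (nat_lit 5) (nat_lit 438) (nat_lit 437) (nat_lit 325))))))) (XT.nd (nat_lit 1248) (nat_lit 5320) (nat_lit 0) (XT.nd (nat_lit 624) (nat_lit 836) (nat_lit 0) (XT.nd (nat_lit 312) (nat_lit 1064) (nat_lit 0) (XT.nd (nat_lit 156) (nat_lit 0) (nat_lit 76) (XT.nd (nat_lit 78) (nat_lit 0) (nat_lit 76) (XT.lf (nat_lit 76) (nat_lit 4875887147) (nat_lit 0) (nat_lit 5824638059) (nat_lit 1216) (nat_lit 2067705585) (nat_lit 345) (nat_lit 5) (nat_lit 344) (nat_lit 5) (nat_lit 360) (nat_lit 5) (nat_lit 439) (nat_lit 437) (nat_lit 324)) (XT.lf (nat_lit 0) (nat_lit 11405845282) (nat_lit 1140) (nat_lit 1455759918) (nat_lit 1216) (nat_lit 87586456) (nat_lit 345) (nat_lit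 5) (nat_lit 360) (nat_lit 5) (nat_lit 361) (nat_lit 5) (nat_lit 440) (nat_lit 437) (nat_lit 323))) (XT.nd (nat_lit 78) (nat_lit 0) (nat_lit 0) (XT.lf (nat_lit 76) (nat_lit 5208516888) (nat_lit 0) (nat_lit 7015448891) (nat_lit 1216) (nat_lit 908867118) (nat_lit 346) (nat_lit 5) (nat_lit 345) (nat_lit 5) (nat_lit 361) (nat_lit 5) (nat_lit 441) (nat_lit 437) (nat_lit 322)) (XT.lf (nat_lit 76) (nat_lit 12093283856) (nat_lit 0) (nat_lit 972329662) (nat_lit 1216) (nat_lit 256401102) (nat_lit 346) (nat_lit 5) (nat_lit 345) (nat_lit 5) (nat_lit 361) (nat_lit 5) (nat_lit 442) (nat_lit 437) (nat_lit 321)))) (XT.nd (nat_lit 156) (nat_lit 0) (nat_lit 76) (XT.nd (nat_lit 78) (nat_lit 0) (nat_lit 0) (XT.lf (nat_lit 0) (nat_lit 498686188) (nat_lit 1216) (nat_lit 7799741559) (nat_lit 1292) (nat_lit 5215590158) (nat_lit 330) (nat_lit 5) (nat_lit 346) (nat_lit 5) (nat_lit 347) (nat_lit 5) (nat_lit 443) (nat_lit 437) (nat_lit 320))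 (XT.lf (nat_lit 0) (nat_lit 1278435783) (nat_lit 1216) (nat_lit 842669888) (nat_lit 1292) (nat_lit 11590385257) (nat_lit 330) (nat_lit 5) (nat_lit 346) (nat_lit 5) (nat_lit 347) (nat_lit 5) (nat_lit 444) (nat_lit 437) (nat_lit 319))) (XT.nd (nat_lit 78) (nat_lit 0) (nat_lit 0) (XT.lf (nat_lit 0) (nat_lit 2170352905) (nat_lit 1216) (nat_lit 7515584833) (nat_lit 1292) (nat_lit 4226287823) (nat_lit 331) (nat_lit 5) (nat_lit 347) (nat_lit 5) (nat_lit 348) (nat_lit 5) (nat_lit 445) (nat_lit 437) (nat_lit 318)) (XT.lf (nat_lit 0) (nat_lit 3104445170) (nat_lit 1216) (nat_lit 279239438) (nat_lit 1292) (nat_lit 10734835744) (nat_lit 331) (nat_lit 5) (nat_lit 347) (nat_lit 5) (nat_lit 348) (nat_lit 5) (nat_lit 446) (nat_lit 437) (nat_lit 317))))) (XT.nd (nat_lit 312) (nat_lit 988) (nat_lit 0) (XT.nd (nat_lit 156) (nat_lit 0) (nat_lit 76) (XT.nd (nat_lit 78) (nat_lit 0) (nat_lit 0) (XT.lf (nat_lit 0) (nat_lit 4153646335) (nat_lit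 1216) (nat_lit 7052677281) (nat_lit 1292) (nat_lit 3122068417) (nat_lit 332) (nat_lit 5) (nat_lit 348) (nat_lit 5) (nat_lit 349) (nat_lit 5) (nat_lit 447) (nat_lit 437) (nat_lit 316)) (XT.lf (nat_lit 76) (nat_lit 484598426) (nat_lit 0) (nat_lit 4777317334) (nat_lit 1292) (nat_lit 9281816951) (nat_lit 333) (nat_lit 5) (nat_lit 332) (nat_lit 5) (nat_lit 349) (nat_lit 5) (nat_lit 448) (nat_lit 437) (nat_lit 315))) (XT.nd (nat_lit 78) (nat_lit 0) (nat_lit 0) (XT.lf (nat_lit 0) (nat_lit 6480000587) (nat_lit 1216) (nat_lit 6399491457) (nat_lit 1292) (nat_lit 1883745141) (nat_lit 333) (nat_lit 5) (nat_lit 349) (nat_lit 5) (nat_lit 350) (nat_lit 5) (nat_lit 449) (nat_lit 437) (nat_lit 314)) (XT.lf (nat_lit 76) (nat_lit 1461228483) (nat_lit 0) (nat_lit 6322039988) (nat_lit 1292) (nat_lit 7204599683) (nat_lit 334) (nat_lit 5) (nat_lit 333) (nat_lit 5) (nat_lit 350) (nat_lit 5) (nat_lit 450) (nat_lit 437) (nat_lit 313))))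 (XT.nd (nat_lit 156) (nat_lit 1140) (nat_lit 0) (XT.nd (nat_lit 78) (nat_lit 0) (nat_lit 0) (XT.lf (nat_lit 0) (nat_lit 9182645212) (nat_lit 1216) (nat_lit 5543366836) (nat_lit 1292) (nat_lit 491516240) (nat_lit 334) (nat_lit 5) (nat_lit 350) (nat_lit 5) (nat_lit 351) (nat_lit 5) (nat_lit 451) (nat_lit 437) (nat_lit 312)) (XT.lf (nat_lit 76) (nat_lit 2658762639) (nat_lit 0) (nat_lit 8041348770) (nat_lit 1292) (nat_lit 4751684118) (nat_lit 335) (nat_lit 5) (nat_lit 334) (nat_lit 5) (nat_lit 351) (nat_lit 5) (nat_lit 452) (nat_lit 437) (nat_lit 311))) (XT.nd (nat_lit 78) (nat_lit 1140) (nat_lit 0) (XT.lf (nat_lit 76) (nat_lit 11210757804) (nat_lit 0) (nat_lit 1096533254) (nat_lit 1292) (nat_lit 3384474568) (nat_lit 335) (nat_lit 5) (nat_lit 334) (nat_lit 5) (nat_lit 351) (nat_lit 5) (nat_lit 453) (nat_lit 437) (nat_lit 310)) (XT.lf (nat_lit 0) (nat_lit 4092102130) (nat_lit 1216) (nat_lit 9956713672) (nat_lit 1292)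 (nat_lit 1887535648) (nat_lit 319) (nat_lit 5) (nat_lit 335) (nat_lit 5) (nat_lit 336) (nat_lit 5) (nat_lit 454) (nat_lit 437) (nat_lit 309)))))) (XT.nd (nat_lit 624) (nat_lit 2660) (nat_lit 0) (XT.nd (nat_lit 312) (nat_lit 1140) (nat_lit 0) (XT.nd (nat_lit 156) (nat_lit 608) (nat_lit 0) (XT.nd (nat_lit 78) (nat_lit 912) (nat_lit 0) (XT.lf (nat_lit 0) (nat_lit 12993378432) (nat_lit 1216) (nat_lit 2894019985) (nat_lit 1292) (nat_lit 299532566) (nat_lit 319) (nat_lit 5) (nat_lit 335) (nat_lit 5) (nat_lit 336) (nat_lit 5) (nat_lit 455) (nat_lit 437) (nat_lit 308)) (XT.lf (nat_lit 0) (nat_lit 1397693057) (nat_lit 912) (nat_lit 10678696172) (nat_lit 76) (nat_lit 4365624194) (nat_lit 307) (nat_lit 5) (nat_lit 319) (nat_lit 5) (nat_lit 308) (nat_lit 5) (nat_lit 456) (nat_lit 437) (nat_lit 307))) (XT.nd (nat_lit 78) (nat_lit 608) (nat_lit 0) (XT.lf (nat_lit 0) (nat_lit 3190304255) (nat_lit 912) (nat_lit 1691342837) (nat_lit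 76) (nat_lit 11821498056) (nat_lit 307) (nat_lit 5) (nat_lit 319) (nat_lit 5) (nat_lit 308) (nat_lit 5) (nat_lit 457) (nat_lit 437) (nat_lit 306)) (XT.lf (nat_lit 0) (nat_lit 5125401921) (nat_lit 684) (nat_lit 9288933010) (nat_lit 76) (nat_lit 2555115092) (nat_lit 299) (nat_lit 5) (nat_lit 308) (nat_lit 5) (nat_lit 300) (nat_lit 5) (nat_lit 458) (nat_lit 437) (nat_lit 305)))) (XT.nd (nat_lit 156) (nat_lit 532) (nat_lit 0) (XT.nd (nat_lit 78) (nat_lit 0) (nat_lit 0) (XT.lf (nat_lit 0) (nat_lit 67886283) (nat_lit 608) (nat_lit 7106697568) (nat_lit 684) (nat_lit 10067479684) (nat_lit 291) (nat_lit 5) (nat_lit 299) (nat_lit 5) (nat_lit 300) (nat_lit 5) (nat_lit 459) (nat_lit 437) (nat_lit 304)) (XT.lf (nat_lit 0) (nat_lit 9374010839) (nat_lit 684) (nat_lit 7639298044) (nat_lit 76) (nat_lit 506883897) (nat_lit 291) (nat_lit 5) (nat_lit 300) (nat_lit 5) (nat_lit 292) (nat_lit 5) (nat_lit 460) (nat_lit 437) (nat_lit 303)))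 (XT.nd (nat_lit 78) (nat_lit 0) (nat_lit 0) (XT.lf (nat_lit 0) (nat_lit 2143268508) (nat_lit 532) (nat_lit 9577411040) (nat_lit 608) (nat_lit 6083548992) (nat_lit 284) (nat_lit 5) (nat_lit 291) (nat_lit 5) (nat_lit 292) (nat_lit 5) (nat_lit 461) (nat_lit 437) (nat_lit 302)) (XT.lf (nat_lit 0) (nat_lit 12366187862) (nat_lit 532) (nat_lit 1839184817) (nat_lit 608) (nat_lit 3889384356) (nat_lit 284) (nat_lit 5) (nat_lit 291) (nat_lit 5) (nat_lit 292) (nat_lit 5) (nat_lit 462) (nat_lit 437) (nat_lit 301))))) (XT.nd (nat_lit 312) (nat_lit 1444) (nat_lit 0) (XT.nd (nat_lit 156) (nat_lit 532) (nat_lit 0) (XT.nd (nat_lit 78) (nat_lit 76) (nat_lit 0) (XT.lf (nat_lit 0) (nat_lit 4521370068) (nat_lit 608) (nat_lit 12336393170) (nat_lit 684) (nat_lit 1533443829) (nat_lit 276) (nat_lit 5) (nat_lit 284) (nat_lit 5) (nat_lit 285) (nat_lit 5) (nat_lit 463) (nat_lit 437) (nat_lit 300)) (XT.lf (nat_lit 0) (nat_lit 943219996) (nat_lit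 684) (nat_lit 3535748039) (nat_lit 76) (nat_lit 14215301131) (nat_lit 275) (nat_lit 5) (nat_lit 284) (nat_lit 5) (nat_lit 276) (nat_lit 5) (nat_lit 464) (nat_lit 437) (nat_lit 299))) (XT.nd (nat_lit 78) (nat_lit 0) (nat_lit 0) (XT.lf (nat_lit 0) (nat_lit 3559495322) (nat_lit 608) (nat_lit 11815081702) (nat_lit 76) (nat_lit 3628507003) (nat_lit 268) (nat_lit 5) (nat_lit 276) (nat_lit 5) (nat_lit 269) (nat_lit 5) (nat_lit 465) (nat_lit 437) (nat_lit 298)) (XT.lf (nat_lit 0) (nat_lit 6325935320) (nat_lit 608) (nat_lit 1068525928) (nat_lit 76) (nat_lit 11924552135) (nat_lit 268) (nat_lit 5) (nat_lit 276) (nat_lit 5) (nat_lit 269) (nat_lit 5) (nat_lit 466) (nat_lit 437) (nat_lit 297)))) (XT.nd (nat_lit 156) (nat_lit 456) (nat_lit 0) (XT.nd (nat_lit 78) (nat_lit 456) (nat_lit 0) (XT.lf (nat_lit 0) (nat_lit 9273738454) (nat_lit 608) (nat_lit 9460757564) (nat_lit 76) (nat_lit 906973831) (nat_lit 261) (nat_lit 5) (nat_lit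 269) (nat_lit 5) (nat_lit 262) (nat_lit 5) (nat_lit 467) (nat_lit 437) (nat_lit 296)) (XT.lf (nat_lit 0) (nat_lit 1767684818) (nat_lit 456) (nat_lit 10635066880) (nat_lit 532) (nat_lit 7568065351) (nat_lit 255) (nat_lit 5) (nat_lit 261) (nat_lit 5) (nat_lit 262) (nat_lit 5) (nat_lit 468) (nat_lit 437) (nat_lit 295))) (XT.nd (nat_lit 78) (nat_lit 456) (nat_lit 0) (XT.lf (nat_lit 0) (nat_lit 13517465474) (nat_lit 456) (nat_lit 2195531213) (nat_lit 532) (nat_lit 4594427447) (nat_lit 255) (nat_lit 5) (nat_lit 261) (nat_lit 5) (nat_lit 262) (nat_lit 5) (nat_lit 469) (nat_lit 437) (nat_lit 294)) (XT.lf (nat_lit 0) (nat_lit 4991147997) (nat_lit 456) (nat_lit 14233886362) (nat_lit 532) (nat_lit 1426020814) (nat_lit 249) (nat_lit 5) (nat_lit 255) (nat_lit 5) (nat_lit 256) (nat_lit 5) (nat_lit 470) (nat_lit 437) (nat_lit 293))))))))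
noncomputable def xc174 : XT := (XT.nd (nat_lit 2418) (nat_lit 4180) (nat_lit 0) (XT.nd (nat_lit 1170) (nat_lit 2812) (nat_lit 0) (XT.nd (nat_lit 546) (nat_lit 1900) (nat_lit 0) (XT.nd (nat_lit 234) (nat_lit 1368) (nat_lit 0) (XT.nd (nat_lit 78) (nat_lit 456) (nat_lit 0) (XT.lf (nat_lit 0) (nat_lit 1884681862) (nat_lit 532) (nat_lit 3787609627) (nat_lit 76) (nat_lit 15329681096) (nat_lit 248) (nat_lit 5) (nat_lit 255) (nat_lit 5) (nat_lit 249) (nat_lit 5) (nat_lit 471) (nat_lit 437) (nat_lit 292)) (XT.nd (nat_lit 78) (nat_lit 0) (nat_lit 0) (XT.lf (nat_lit 0) (nat_lit 5372100212) (nat_lit 532) (nat_lit 12806861062) (nat_lit 76) (nat_lit 3180851263) (nat_lit 242) (nat_lit 5) (nat_lit 249) (nat_lit 5) (nat_lit 243) (nat_lit 5) (nat_lit 472) (nat_lit 437) (nat_lit 291)) (XT.lf (nat_lit 0) (nat_lit 9051395163) (nat_lit 532) (nat_lit 451720702) (nat_lit 76) (nat_lit 12222654470) (nat_lit 242) (nat_lit 5) (nat_lit 249)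 (nat_lit 5) (nat_lit 243) (nat_lit 5) (nat_lit 473) (nat_lit 437) (nat_lit 290)))) (XT.nd (nat_lit 156) (nat_lit 532) (nat_lit 0) (XT.nd (nat_lit 78) (nat_lit 380) (nat_lit 0) (XT.lf (nat_lit 0) (nat_lit 12509131155) (nat_lit 456) (nat_lit 444869276) (nat_lit 532) (nat_lit 9145318750) (nat_lit 236) (nat_lit 5) (nat_lit 242) (nat_lit 5) (nat_lit 243) (nat_lit 5) (nat_lit 474) (nat_lit 437) (nat_lit 289)) (XT.lf (nat_lit 0) (nat_lit 3354993160) (nat_lit 380) (nat_lit 13733752907) (nat_lit 456) (nat_lit 5391876812) (nat_lit 231) (nat_lit 5) (nat_lit 236) (nat_lit 5) (nat_lit 237) (nat_lit 5) (nat_lit 475) (nat_lit 437) (nat_lit 288))) (XT.nd (nat_lit 78) (nat_lit 532) (nat_lit 0) (XT.lf (nat_lit 0) (nat_lit 16871565474) (nat_lit 380) (nat_lit 4570090930) (nat_lit 456) (nat_lit 1428885860) (nat_lit 231) (nat_lit 5) (nat_lit 236) (nat_lit 5) (nat_lit 237) (nat_lit 5) (nat_lit 476) (nat_lit 437) (nat_lit 287)) (XT.lf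 (nat_lit 0) (nat_lit 2715443297) (nat_lit 532) (nat_lit 15681115240) (nat_lit 76) (nat_lit 4871409318) (nat_lit 224) (nat_lit 5) (nat_lit 231) (nat_lit 5) (nat_lit 225) (nat_lit 5) (nat_lit 477) (nat_lit 437) (nat_lit 286))))) (XT.nd (nat_lit 312) (nat_lit 1140) (nat_lit 0) (XT.nd (nat_lit 156) (nat_lit 380) (nat_lit 0) (XT.nd (nat_lit 78) (nat_lit 380) (nat_lit 0) (XT.lf (nat_lit 0) (nat_lit 7054963704) (nat_lit 532) (nat_lit 2041298327) (nat_lit 76) (nat_lit 14577642570) (nat_lit 224) (nat_lit 5) (nat_lit 231) (nat_lit 5) (nat_lit 225) (nat_lit 5) (nat_lit 478) (nat_lit 437) (nat_lit 285)) (XT.lf (nat_lit 0) (nat_lit 11641447858) (nat_lit 456) (nat_lit 11856732767) (nat_lit 76) (nat_lit 590335697) (nat_lit 219) (nat_lit 5) (nat_lit 225) (nat_lit 5) (nat_lit 220) (nat_lit 5) (nat_lit 479) (nat_lit 437) (nat_lit 284))) (XT.nd (nat_lit 78) (nat_lit 0) (nat_lit 0) (XT.lf (nat_lit 0) (nat_lit 2407813089) (nat_lit 380)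 (nat_lit 14085181300) (nat_lit 456) (nat_lit 8018748182) (nat_lit 214) (nat_lit 5) (nat_lit 219) (nat_lit 5) (nat_lit 220) (nat_lit 5) (nat_lit 480) (nat_lit 437) (nat_lit 283)) (XT.lf (nat_lit 0) (nat_lit 17334573153) (nat_lit 380) (nat_lit 4268793831) (nat_lit 456) (nat_lit 3340900437) (nat_lit 214) (nat_lit 5) (nat_lit 219) (nat_lit 5) (nat_lit 220) (nat_lit 5) (nat_lit 481) (nat_lit 437) (nat_lit 282)))) (XT.nd (nat_lit 156) (nat_lit 684) (nat_lit 0) (XT.nd (nat_lit 78) (nat_lit 0) (nat_lit 0) (XT.lf (nat_lit 0) (nat_lit 1570650019) (nat_lit 456) (nat_lit 18002631665) (nat_lit 76) (nat_lit 5812394679) (nat_lit 208) (nat_lit 5) (nat_lit 214) (nat_lit 5) (nat_lit 209) (nat_lit 5) (nat_lit 482) (nat_lit 437) (nat_lit 281)) (XT.lf (nat_lit 0) (nat_lit 6676022348) (nat_lit 456) (nat_lit 2941293245) (nat_lit 76) (nat_lit 16218611097) (nat_lit 208) (nat_lit 5) (nat_lit 214) (nat_lit 5) (nat_lit 209) (nat_lit 5) (nat_lit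 483) (nat_lit 437) (nat_lit 280))) (XT.nd (nat_lit 78) (nat_lit 304) (nat_lit 0) (XT.lf (nat_lit 0) (nat_lit 12058986309) (nat_lit 456) (nat_lit 13490041977) (nat_lit 76) (nat_lit 746923509) (nat_lit 203) (nat_lit 5) (nat_lit 209) (nat_lit 5) (nat_lit 204) (nat_lit 5) (nat_lit 484) (nat_lit 437) (nat_lit 279)) (XT.lf (nat_lit 0) (nat_lit 2256919042) (nat_lit 304) (nat_lit 15487441006) (nat_lit 380) (nat_lit 9021190156) (nat_lit 199) (nat_lit 5) (nat_lit 203) (nat_lit 5) (nat_lit 204) (nat_lit 5) (nat_lit 485) (nat_lit 437) (nat_lit 278)))))) (XT.nd (nat_lit 624) (nat_lit 1444) (nat_lit 0) (XT.nd (nat_lit 312) (nat_lit 684) (nat_lit 0) (XT.nd (nat_lit 156) (nat_lit 304) (nat_lit 0) (XT.nd (nat_lit 78) (nat_lit 380) (nat_lit 0) (XT.lf (nat_lit 0) (nat_lit 18744362732) (nat_lit 304) (nat_lit 4986258066) (nat_lit 380) (nat_lit 3514706166) (nat_lit 199) (nat_lit 5) (nat_lit 203) (nat_lit 5) (nat_lit 204) (nat_lit 5)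 (nat_lit 486) (nat_lit 437) (nat_lit 277)) (XT.lf (nat_lit 0) (nat_lit 2244112547) (nat_lit 380) (nat_lit 19677454370) (nat_lit 76) (nat_lit 5813431333) (nat_lit 194) (nat_lit 5) (nat_lit 199) (nat_lit 5) (nat_lit 195) (nat_lit 5) (nat_lit 487) (nat_lit 437) (nat_lit 276))) (XT.nd (nat_lit 78) (nat_lit 304) (nat_lit 0) (XT.lf (nat_lit 0) (nat_lit 8235397947) (nat_lit 380) (nat_lit 3043126037) (nat_lit 76) (nat_lit 16955881547) (nat_lit 194) (nat_lit 5) (nat_lit 199) (nat_lit 5) (nat_lit 195) (nat_lit 5) (nat_lit 488) (nat_lit 437) (nat_lit 275)) (XT.lf (nat_lit 0) (nat_lit 14362345242) (nat_lit 304) (nat_lit 176585195) (nat_lit 380) (nat_lit 14205889491) (nat_lit 190) (nat_lit 5) (nat_lit 194) (nat_lit 5) (nat_lit 195) (nat_lit 5) (nat_lit 489) (nat_lit 437) (nat_lit 274)))) (XT.nd (nat_lit 156) (nat_lit 380) (nat_lit 0) (XT.nd (nat_lit 78) (nat_lit 0) (nat_lit 0) (XT.lf (nat_lit 0) (nat_lit 3025031901) (nat_lit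 304) (nat_lit 18169380063) (nat_lit 380) (nat_lit 8071249649) (nat_lit 186) (nat_lit 5) (nat_lit 190) (nat_lit 5) (nat_lit 191) (nat_lit 5) (nat_lit 490) (nat_lit 437) (nat_lit 273)) (XT.lf (nat_lit 0) (nat_lit 21239680353) (nat_lit 304) (nat_lit 6951433448) (nat_lit 380) (nat_lit 1606768214) (nat_lit 186) (nat_lit 5) (nat_lit 190) (nat_lit 5) (nat_lit 191) (nat_lit 5) (nat_lit 491) (nat_lit 437) (nat_lit 272))) (XT.nd (nat_lit 78) (nat_lit 0) (nat_lit 0) (XT.lf (nat_lit 0) (nat_lit 5087500495) (nat_lit 380) (nat_lit 20598416709) (nat_lit 76) (nat_lit 4654662317) (nat_lit 181) (nat_lit 5) (nat_lit 186) (nat_lit 5) (nat_lit 182) (nat_lit 5) (nat_lit 492) (nat_lit 437) (nat_lit 271)) (XT.lf (nat_lit 0) (nat_lit 12101153410) (nat_lit 380) (nat_lit 2223631147) (nat_lit 76) (nat_lit 16569770751) (nat_lit 181) (nat_lit 5) (nat_lit 186) (nat_lit 5) (nat_lit 182) (nat_lit 5) (nat_lit 493) (nat_lit 437) (nat_lit 270)))))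 (XT.nd (nat_lit 312) (nat_lit 532) (nat_lit 0) (XT.nd (nat_lit 156) (nat_lit 380) (nat_lit 0) (XT.nd (nat_lit 78) (nat_lit 228) (nat_lit 0) (XT.lf (nat_lit 0) (nat_lit 17026838889) (nat_lit 304) (nat_lit 2456950202) (nat_lit 380) (nat_lit 11976604209) (nat_lit 177) (nat_lit 5) (nat_lit 181) (nat_lit 5) (nat_lit 182) (nat_lit 5) (nat_lit 494) (nat_lit 437) (nat_lit 269)) (XT.lf (nat_lit 0) (nat_lit 4850554097) (nat_lit 228) (nat_lit 22395487332) (nat_lit 304) (nat_lit 4792420999) (nat_lit 174) (nat_lit 5) (nat_lit 177) (nat_lit 5) (nat_lit 178) (nat_lit 5) (nat_lit 495) (nat_lit 437) (nat_lit 268))) (XT.nd (nat_lit 78) (nat_lit 304) (nat_lit 0) (XT.lf (nat_lit 0) (nat_lit 2722901774) (nat_lit 304) (nat_lit 7679159047) (nat_lit 76) (nat_lit 22226066292) (nat_lit 173) (nat_lit 5) (nat_lit 177) (nat_lit 5) (nat_lit 174) (nat_lit 5) (nat_lit 496) (nat_lit 437) (nat_lit 267)) (XT.lf (nat_lit 0) (nat_lit 10504052194) (nat_lit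 380) (nat_lit 20645237772) (nat_lit 76) (nat_lit 2080667669) (nat_lit 169) (nat_lit 5) (nat_lit 174) (nat_lit 5) (nat_lit 170) (nat_lit 5) (nat_lit 497) (nat_lit 437) (nat_lit 266)))) (XT.nd (nat_lit 156) (nat_lit 304) (nat_lit 0) (XT.nd (nat_lit 78) (nat_lit 228) (nat_lit 0) (XT.lf (nat_lit 0) (nat_lit 18695100937) (nat_lit 380) (nat_lit 345043333) (nat_lit 76) (nat_lit 14804404997) (nat_lit 169) (nat_lit 5) (nat_lit 174) (nat_lit 5) (nat_lit 170) (nat_lit 5) (nat_lit 498) (nat_lit 437) (nat_lit 265)) (XT.lf (nat_lit 0) (nat_lit 20965800956) (nat_lit 228) (nat_lit 6362918129) (nat_lit 304) (nat_lit 7142954533) (nat_lit 166) (nat_lit 5) (nat_lit 169) (nat_lit 5) (nat_lit 170) (nat_lit 5) (nat_lit 499) (nat_lit 437) (nat_lit 264))) (XT.nd (nat_lit 78) (nat_lit 0) (nat_lit 0) (XT.lf (nat_lit 0) (nat_lit 1222605175) (nat_lit 304) (nat_lit 27237876978) (nat_lit 76) (nat_lit 6652599087) (nat_lit 162) (nat_lit 5) (nat_lit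 166) (nat_lit 5) (nat_lit 163) (nat_lit 5) (nat_lit 500) (nat_lit 437) (nat_lit 263)) (XT.lf (nat_lit 0) (nat_lit 9891657222) (nat_lit 304) (nat_lit 5737673050) (nat_lit 76) (nat_lit 20136396491) (nat_lit 162) (nat_lit 5) (nat_lit 166) (nat_lit 5) (nat_lit 163) (nat_lit 5) (nat_lit 501) (nat_lit 437) (nat_lit 262))))))) (XT.nd (nat_lit 1248) (nat_lit 1824) (nat_lit 0) (XT.nd (nat_lit 624) (nat_lit 1140) (nat_lit 0) (XT.nd (nat_lit 312) (nat_lit 456) (nat_lit 0) (XT.nd (nat_lit 156) (nat_lit 304) (nat_lit 0) (XT.nd (nat_lit 78) (nat_lit 228) (nat_lit 0) (XT.lf (nat_lit 0) (nat_lit 16726620746) (nat_lit 228) (nat_lit 2250441270) (nat_lit 304) (nat_lit 17456201294) (nat_lit 159) (nat_lit 5) (nat_lit 162) (nat_lit 5) (nat_lit 163) (nat_lit 5) (nat_lit 502) (nat_lit 437) (nat_lit 261)) (XT.lf (nat_lit 0) (nat_lit 2799242587) (nat_lit 228) (nat_lit 25727568332) (nat_lit 304) (nat_lit 8588261668) (nat_lit 156) (nat_lit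 5) (nat_lit 159) (nat_lit 5) (nat_lit 160) (nat_lit 5) (nat_lit 503) (nat_lit 437) (nat_lit 260))) (XT.nd (nat_lit 78) (nat_lit 228) (nat_lit 0) (XT.lf (nat_lit 0) (nat_lit 753863504) (nat_lit 304) (nat_lit 11463957061) (nat_lit 76) (nat_lit 25592794405) (nat_lit 155) (nat_lit 5) (nat_lit 159) (nat_lit 5) (nat_lit 156) (nat_lit 5) (nat_lit 504) (nat_lit 437) (nat_lit 259)) (XT.lf (nat_lit 0) (nat_lit 10335068616) (nat_lit 304) (nat_lit 26319629976) (nat_lit 76) (nat_lit 1865831197) (nat_lit 152) (nat_lit 5) (nat_lit 156) (nat_lit 5) (nat_lit 153) (nat_lit 5) (nat_lit 505) (nat_lit 437) (nat_lit 258)))) (XT.nd (nat_lit 156) (nat_lit 228) (nat_lit 0) (XT.nd (nat_lit 78) (nat_lit 228) (nat_lit 0) (XT.lf (nat_lit 0) (nat_lit 20437294566) (nat_lit 304) (nat_lit 2566862384) (nat_lit 76) (nat_lit 16240577643) (nat_lit 152) (nat_lit 5) (nat_lit 156) (nat_lit 5) (nat_lit 153) (nat_lit 5) (nat_lit 506) (nat_lit 437) (nat_lit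 257)) (XT.lf (nat_lit 0) (nat_lit 22327200670) (nat_lit 228) (nat_lit 8725840891) (nat_lit 304) (nat_lit 8931310431) (nat_lit 149) (nat_lit 5) (nat_lit 152) (nat_lit 5) (nat_lit 153) (nat_lit 5) (nat_lit 507) (nat_lit 437) (nat_lit 256))) (XT.nd (nat_lit 78) (nat_lit 0) (nat_lit 0) (XT.lf (nat_lit 0) (nat_lit 1368591877) (nat_lit 228) (nat_lit 33400988859) (nat_lit 76) (nat_lit 5971668129) (nat_lit 146) (nat_lit 5) (nat_lit 149) (nat_lit 5) (nat_lit 147) (nat_lit 5) (nat_lit 508) (nat_lit 437) (nat_lit 255)) (XT.lf (nat_lit 0) (nat_lit 12060316420) (nat_lit 228) (nat_lit 8249557808) (nat_lit 76) (nat_lit 21200455555) (nat_lit 146) (nat_lit 5) (nat_lit 149) (nat_lit 5) (nat_lit 147) (nat_lit 5) (nat_lit 509) (nat_lit 437) (nat_lit 254))))) (XT.nd (nat_lit 312) (nat_lit 456) (nat_lit 0) (XT.nd (nat_lit 156) (nat_lit 304) (nat_lit 0) (XT.nd (nat_lit 78) (nat_lit 152) (nat_lit 0) (XT.lf (nat_lit 0) (nat_lit 18000868679)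 (nat_lit 228) (nat_lit 5240952798) (nat_lit 304) (nat_lit 19055590859) (nat_lit 143) (nat_lit 5) (nat_lit 146) (nat_lit 5) (nat_lit 147) (nat_lit 5) (nat_lit 510) (nat_lit 437) (nat_lit 253)) (XT.lf (nat_lit 0) (nat_lit 2035551285) (nat_lit 152) (nat_lit 32921753018) (nat_lit 228) (nat_lit 8144847153) (nat_lit 141) (nat_lit 5) (nat_lit 143) (nat_lit 5) (nat_lit 144) (nat_lit 5) (nat_lit 511) (nat_lit 437) (nat_lit 252))) (XT.nd (nat_lit 78) (nat_lit 228) (nat_lit 0) (XT.lf (nat_lit 0) (nat_lit 3328556709) (nat_lit 228) (nat_lit 14358908136) (nat_lit 76) (nat_lit 26233805020) (nat_lit 140) (nat_lit 5) (nat_lit 143) (nat_lit 5) (nat_lit 141) (nat_lit 5) (nat_lit 512) (nat_lit 437) (nat_lit 251)) (XT.lf (nat_lit 0) (nat_lit 13322699377) (nat_lit 228) (nat_lit 1783971935) (nat_lit 304) (nat_lit 29652144958) (nat_lit 137) (nat_lit 5) (nat_lit 140) (nat_lit 5) (nat_lit 141) (nat_lit 5) (nat_lit 513) (nat_lit 437) (nat_lit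 250)))) (XT.nd (nat_lit 156) (nat_lit 304) (nat_lit 0) (XT.nd (nat_lit 78) (nat_lit 152) (nat_lit 0) (XT.lf (nat_lit 0) (nat_lit 27521041818) (nat_lit 304) (nat_lit 3636457246) (nat_lit 76) (nat_lit 14455502689) (nat_lit 137) (nat_lit 5) (nat_lit 141) (nat_lit 5) (nat_lit 138) (nat_lit 5) (nat_lit 514) (nat_lit 437) (nat_lit 249)) (XT.lf (nat_lit 0) (nat_lit 25470066666) (nat_lit 152) (nat_lit 15096553664) (nat_lit 228) (nat_lit 5918429223) (nat_lit 135) (nat_lit 5) (nat_lit 137) (nat_lit 5) (nat_lit 138) (nat_lit 5) (nat_lit 515) (nat_lit 437) (nat_lit 248))) (XT.nd (nat_lit 78) (nat_lit 0) (nat_lit 0) (XT.lf (nat_lit 0) (nat_lit 6619286466) (nat_lit 304) (nat_lit 39161302742) (nat_lit 76) (nat_lit 1596915529) (nat_lit 131) (nat_lit 5) (nat_lit 135) (nat_lit 5) (nat_lit 132) (nat_lit 5) (nat_lit 516) (nat_lit 437) (nat_lit 247)) (XT.lf (nat_lit 0) (nat_lit 19774271134) (nat_lit 304) (nat_lit 9751933967) (nat_lit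 76) (nat_lit 18757967818) (nat_lit 131) (nat_lit 5) (nat_lit 135) (nat_lit 5) (nat_lit 132) (nat_lit 5) (nat_lit 517) (nat_lit 437) (nat_lit 246)))))) (XT.nd (nat_lit 624) (nat_lit 912) (nat_lit 0) (XT.nd (nat_lit 312) (nat_lit 380) (nat_lit 0) (XT.nd (nat_lit 156) (nat_lit 228) (nat_lit 0) (XT.nd (nat_lit 78) (nat_lit 152) (nat_lit 0) (XT.lf (nat_lit 0) (nat_lit 20942054831) (nat_lit 152) (nat_lit 12579575863) (nat_lit 228) (nat_lit 15690478745) (nat_lit 129) (nat_lit 5) (nat_lit 131) (nat_lit 5) (nat_lit 132) (nat_lit 5) (nat_lit 518) (nat_lit 437) (nat_lit 245)) (XT.lf (nat_lit 0) (nat_lit 2588168103) (nat_lit 152) (nat_lit 45260873870) (nat_lit 228) (nat_lit 2313813205) (nat_lit 127) (nat_lit 5) (nat_lit 129) (nat_lit 5) (nat_lit 130) (nat_lit 5) (nat_lit 519) (nat_lit 437) (nat_lit 244))) (XT.nd (nat_lit 78) (nat_lit 152) (nat_lit 0) (XT.lf (nat_lit 0) (nat_lit 11649738477) (nat_lit 228) (nat_lit 16425833230)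 (nat_lit 76) (nat_lit 23050966824) (nat_lit 126) (nat_lit 5) (nat_lit 129) (nat_lit 5) (nat_lit 127) (nat_lit 5) (nat_lit 520) (nat_lit 437) (nat_lit 243)) (XT.lf (nat_lit 0) (nat_lit 15939455269) (nat_lit 152) (nat_lit 10196003696) (nat_lit 228) (nat_lit 25978493167) (nat_lit 124) (nat_lit 5) (nat_lit 126) (nat_lit 5) (nat_lit 127) (nat_lit 5) (nat_lit 521) (nat_lit 437) (nat_lit 242)))) (XT.nd (nat_lit 156) (nat_lit 152) (nat_lit 0) (XT.nd (nat_lit 78) (nat_lit 228) (nat_lit 0) (XT.lf (nat_lit 0) (nat_lit 41298841156) (nat_lit 228) (nat_lit 3600427895) (nat_lit 76) (nat_lit 8224426433) (nat_lit 124) (nat_lit 5) (nat_lit 127) (nat_lit 5) (nat_lit 125) (nat_lit 5) (nat_lit 522) (nat_lit 437) (nat_lit 241)) (XT.lf (nat_lit 0) (nat_lit 3093730348) (nat_lit 228) (nat_lit 23744485128) (nat_lit 76) (nat_lit 27312899724) (nat_lit 121) (nat_lit 5) (nat_lit 124) (nat_lit 5) (nat_lit 122) (nat_lit 5) (nat_lit 523) (nat_lit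 437) (nat_lit 240))) (XT.nd (nat_lit 78) (nat_lit 0) (nat_lit 0) (XT.lf (nat_lit 0) (nat_lit 10378520881) (nat_lit 152) (nat_lit 7976837175) (nat_lit 228) (nat_lit 36846492562) (nat_lit 119) (nat_lit 5) (nat_lit 121) (nat_lit 5) (nat_lit 122) (nat_lit 5) (nat_lit 524) (nat_lit 437) (nat_lit 239)) (XT.lf (nat_lit 0) (nat_lit 34423735138) (nat_lit 228) (nat_lit 10383417526) (nat_lit 76) (nat_lit 11466488455) (nat_lit 119) (nat_lit 5) (nat_lit 122) (nat_lit 5) (nat_lit 120) (nat_lit 5) (nat_lit 525) (nat_lit 437) (nat_lit 238))))) (XT.nd (nat_lit 312) (nat_lit 380) (nat_lit 0) (XT.nd (nat_lit 156) (nat_lit 152) (nat_lit 0) (XT.nd (nat_lit 78) (nat_lit 228) (nat_lit 0) (XT.lf (nat_lit 0) (nat_lit 25502518405) (nat_lit 152) (nat_lit 25792551786) (nat_lit 228) (nat_lit 6072887986) (nat_lit 117) (nat_lit 5) (nat_lit 119) (nat_lit 5) (nat_lit 120) (nat_lit 5) (nat_lit 526) (nat_lit 437) (nat_lit 237)) (XT.lf (nat_lit 0)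 (nat_lit 4162429449) (nat_lit 152) (nat_lit 5959103561) (nat_lit 228) (nat_lit 48366356091) (nat_lit 114) (nat_lit 5) (nat_lit 116) (nat_lit 5) (nat_lit 117) (nat_lit 5) (nat_lit 527) (nat_lit 437) (nat_lit 236))) (XT.nd (nat_lit 78) (nat_lit 152) (nat_lit 0) (XT.lf (nat_lit 0) (nat_lit 27140581793) (nat_lit 228) (nat_lit 17915681804) (nat_lit 76) (nat_lit 14569524937) (nat_lit 114) (nat_lit 5) (nat_lit 117) (nat_lit 5) (nat_lit 115) (nat_lit 5) (nat_lit 528) (nat_lit 437) (nat_lit 235)) (XT.lf (nat_lit 0) (nat_lit 19910218653) (nat_lit 152) (nat_lit 25007268350) (nat_lit 228) (nat_lit 15872919432) (nat_lit 112) (nat_lit 5) (nat_lit 114) (nat_lit 5) (nat_lit 115) (nat_lit 5) (nat_lit 529) (nat_lit 437) (nat_lit 234)))) (XT.nd (nat_lit 156) (nat_lit 152) (nat_lit 0) (XT.nd (nat_lit 78) (nat_lit 152) (nat_lit 0) (XT.lf (nat_lit 0) (nat_lit 1393188880) (nat_lit 228) (nat_lit 2765770256) (nat_lit 76) (nat_lit 57825258682)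 (nat_lit 111) (nat_lit 5) (nat_lit 114) (nat_lit 5) (nat_lit 112) (nat_lit 5) (nat_lit 530) (nat_lit 437) (nat_lit 233)) (XT.lf (nat_lit 0) (nat_lit 19382910540) (nat_lit 228) (nat_lit 26317614176) (nat_lit 76) (nat_lit 17492864329) (nat_lit 109) (nat_lit 5) (nat_lit 112) (nat_lit 5) (nat_lit 110) (nat_lit 5) (nat_lit 531) (nat_lit 437) (nat_lit 232))) (XT.nd (nat_lit 78) (nat_lit 0) (nat_lit 0) (XT.lf (nat_lit 0) (nat_lit 13542532827) (nat_lit 152) (nat_lit 24566355167) (nat_lit 228) (nat_lit 26324050519) (nat_lit 107) (nat_lit 5) (nat_lit 109) (nat_lit 5) (nat_lit 110) (nat_lit 5) (nat_lit 532) (nat_lit 437) (nat_lit 231)) (XT.lf (nat_lit 0) (nat_lit 55132483036) (nat_lit 152) (nat_lit 2526954464) (nat_lit 228) (nat_lit 8042353215) (nat_lit 107) (nat_lit 5) (nat_lit 109) (nat_lit 5) (nat_lit 110) (nat_lit 5) (nat_lit 533) (nat_lit 437) (nat_lit 230))))))))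
noncomputable def xc175 : XT := (XT.nd (nat_lit 56082) (nat_lit 0) (nat_lit 9272) (XT.nd (nat_lit 1170) (nat_lit 76) (nat_lit 0) (XT.nd (nat_lit 546) (nat_lit 836) (nat_lit 0) (XT.nd (nat_lit 234) (nat_lit 380) (nat_lit 0) (XT.nd (nat_lit 78) (nat_lit 152) (nat_lit 0) (XT.lf (nat_lit 0) (nat_lit 11074773362) (nat_lit 152) (nat_lit 35728167552) (nat_lit 76) (nat_lit 20187732017) (nat_lit 105) (nat_lit 5) (nat_lit 107) (nat_lit 5) (nat_lit 106) (nat_lit 5) (nat_lit 534) (nat_lit 437) (nat_lit 229)) (XT.nd (nat_lit 78) (nat_lit 0) (nat_lit 0) (XT.lf (nat_lit 0) (nat_lit 6262010258) (nat_lit 152) (nat_lit 24531863745) (nat_lit 228) (nat_lit 37516255713) (nat_lit 103) (nat_lit 5) (nat_lit 105) (nat_lit 5) (nat_lit 106) (nat_lit 5) (nat_lit 535) (nat_lit 437) (nat_lit 228)) (XT.lf (nat_lit 0) (nat_lit 50238944376) (nat_lit 152) (nat_lit 1223524699) (nat_lit 228) (nat_lit 18195963512) (nat_lit 103) (nat_lit 5) (nat_lit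 105) (nat_lit 5) (nat_lit 106) (nat_lit 5) (nat_lit 536) (nat_lit 437) (nat_lit 227)))) (XT.nd (nat_lit 156) (nat_lit 228) (nat_lit 0) (XT.nd (nat_lit 78) (nat_lit 0) (nat_lit 0) (XT.lf (nat_lit 0) (nat_lit 2129274844) (nat_lit 152) (nat_lit 46307799583) (nat_lit 76) (nat_lit 22595861146) (nat_lit 101) (nat_lit 5) (nat_lit 103) (nat_lit 5) (nat_lit 102) (nat_lit 5) (nat_lit 537) (nat_lit 437) (nat_lit 226)) (XT.lf (nat_lit 0) (nat_lit 22905905405) (nat_lit 152) (nat_lit 2050075459) (nat_lit 76) (nat_lit 47481067389) (nat_lit 101) (nat_lit 5) (nat_lit 103) (nat_lit 5) (nat_lit 102) (nat_lit 5) (nat_lit 538) (nat_lit 437) (nat_lit 225))) (XT.nd (nat_lit 78) (nat_lit 76) (nat_lit 0) (XT.lf (nat_lit 0) (nat_lit 44396620865) (nat_lit 152) (nat_lit 333264480) (nat_lit 228) (nat_lit 29140677478) (nat_lit 99) (nat_lit 5) (nat_lit 101) (nat_lit 5) (nat_lit 102) (nat_lit 5) (nat_lit 539) (nat_lit 437) (nat_lit 224)) (XT.lf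 (nat_lit 0) (nat_lit 17018476465) (nat_lit 76) (nat_lit 50612483567) (nat_lit 152) (nat_lit 7703451561) (nat_lit 98) (nat_lit 5) (nat_lit 99) (nat_lit 5) (nat_lit 100) (nat_lit 4) (nat_lit 540) (nat_lit 437) (nat_lit 223))))) (XT.nd (nat_lit 312) (nat_lit 456) (nat_lit 0) (XT.nd (nat_lit 156) (nat_lit 152) (nat_lit 0) (XT.nd (nat_lit 78) (nat_lit 152) (nat_lit 0) (XT.lf (nat_lit 0) (nat_lit 14397516364) (nat_lit 152) (nat_lit 11472947801) (nat_lit 76) (nat_lit 50958530593) (nat_lit 97) (nat_lit 5) (nat_lit 99) (nat_lit 5) (nat_lit 98) (nat_lit 5) (nat_lit 541) (nat_lit 437) (nat_lit 222)) (XT.lf (nat_lit 0) (nat_lit 37364383425) (nat_lit 228) (nat_lit 40931614656) (nat_lit 76) (nat_lit 59398149) (nat_lit 95) (nat_lit 5) (nat_lit 98) (nat_lit 5) (nat_lit 96) (nat_lit 4) (nat_lit 542) (nat_lit 437) (nat_lit 221))) (XT.nd (nat_lit 78) (nat_lit 76) (nat_lit 0) (XT.lf (nat_lit 0) (nat_lit 7992181356) (nat_lit 76) (nat_lit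 53475425939) (nat_lit 152) (nat_lit 18446561949) (nat_lit 94) (nat_lit 5) (nat_lit 95) (nat_lit 5) (nat_lit 96) (nat_lit 4) (nat_lit 543) (nat_lit 437) (nat_lit 220)) (XT.lf (nat_lit 0) (nat_lit 5095865421) (nat_lit 152) (nat_lit 22339512356) (nat_lit 76) (nat_lit 54070506749) (nat_lit 93) (nat_lit 5) (nat_lit 95) (nat_lit 5) (nat_lit 94) (nat_lit 5) (nat_lit 544) (nat_lit 437) (nat_lit 219)))) (XT.nd (nat_lit 156) (nat_lit 304) (nat_lit 0) (XT.nd (nat_lit 78) (nat_lit 0) (nat_lit 0) (XT.lf (nat_lit 0) (nat_lit 29111033220) (nat_lit 152) (nat_lit 140067865) (nat_lit 228) (nat_lit 53880452229) (nat_lit 91) (nat_lit 5) (nat_lit 93) (nat_lit 5) (nat_lit 94) (nat_lit 5) (nat_lit 545) (nat_lit 437) (nat_lit 218)) (XT.lf (nat_lit 0) (nat_lit 54625183084) (nat_lit 228) (nat_lit 2512161410) (nat_lit 76) (nat_lit 27653822015) (nat_lit 91) (nat_lit 5) (nat_lit 94) (nat_lit 5) (nat_lit 92) (nat_lit 4) (nat_lit 546) (nat_lit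 437) (nat_lit 217))) (XT.nd (nat_lit 78) (nat_lit 228) (nat_lit 0) (XT.lf (nat_lit 0) (nat_lit 51541122542) (nat_lit 76) (nat_lit 29713736704) (nat_lit 152) (nat_lit 5230877719) (nat_lit 90) (nat_lit 5) (nat_lit 91) (nat_lit 5) (nat_lit 92) (nat_lit 4) (nat_lit 547) (nat_lit 437) (nat_lit 216)) (XT.lf (nat_lit 0) (nat_lit 19210437642) (nat_lit 152) (nat_lit 1050570376) (nat_lit 228) (nat_lit 67958003802) (nat_lit 87) (nat_lit 5) (nat_lit 89) (nat_lit 5) (nat_lit 90) (nat_lit 5) (nat_lit 548) (nat_lit 437) (nat_lit 215)))))) (XT.nd (nat_lit 54288) (nat_lit 0) (nat_lit 18544) (XT.nd (nat_lit 53976) (nat_lit 0) (nat_lit 18468) (XT.nd (nat_lit 53820) (nat_lit 0) (nat_lit 19608) (XT.nd (nat_lit 78) (nat_lit 76) (nat_lit 0) (XT.lf (nat_lit 0) (nat_lit 47040124271) (nat_lit 228) (nat_lit 14620906921) (nat_lit 76) (nat_lit 28322871736) (nat_lit 87) (nat_lit 5) (nat_lit 90) (nat_lit 5) (nat_lit 88) (nat_lit 4) (nat_lit 549)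 (nat_lit 437) (nat_lit 214)) (XT.lf (nat_lit 0) (nat_lit 42207036756) (nat_lit 76) (nat_lit 32829318736) (nat_lit 152) (nat_lit 16752973049) (nat_lit 86) (nat_lit 5) (nat_lit 87) (nat_lit 5) (nat_lit 88) (nat_lit 4) (nat_lit 550) (nat_lit 437) (nat_lit 213))) (XT.nd (nat_lit 78) (nat_lit 0) (nat_lit 0) (XT.lf (nat_lit 0) (nat_lit 2644329856) (nat_lit 0) (nat_lit 2644329856) (nat_lit 1140) (nat_lit 1094445815) (nat_lit 344) (nat_lit 5) (nat_lit 344) (nat_lit 3) (nat_lit 359) (nat_lit 3) (nat_lit 438) (nat_lit 438) (nat_lit 324)) (XT.lf (nat_lit 0) (nat_lit 11156579606) (nat_lit 1140) (nat_lit 1122184269) (nat_lit 1216) (nat_lit 666302456) (nat_lit 344) (nat_lit 5) (nat_lit 359) (nat_lit 3) (nat_lit 360) (nat_lit 5) (nat_lit 439) (nat_lit 438) (nat_lit 323)))) (XT.nd (nat_lit 156) (nat_lit 1140) (nat_lit 0) (XT.nd (nat_lit 78) (nat_lit 0) (nat_lit 0) (XT.lf (nat_lit 76) (nat_lit 5469568634) (nat_lit 0) (nat_lit 6372506518)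 (nat_lit 1216) (nat_lit 1284547161) (nat_lit 345) (nat_lit 5) (nat_lit 344) (nat_lit 5) (nat_lit 360) (nat_lit 5) (nat_lit 440) (nat_lit 438) (nat_lit 322)) (XT.lf (nat_lit 76) (nat_lit 12273519338) (nat_lit 0) (nat_lit 270251986) (nat_lit 1216) (nat_lit 769985331) (nat_lit 345) (nat_lit 5) (nat_lit 344) (nat_lit 5) (nat_lit 360) (nat_lit 5) (nat_lit 441) (nat_lit 438) (nat_lit 321))) (XT.nd (nat_lit 78) (nat_lit 1216) (nat_lit 0) (XT.lf (nat_lit 76) (nat_lit 5822038235) (nat_lit 0) (nat_lit 7543093354) (nat_lit 1216) (nat_lit 138415774) (nat_lit 346) (nat_lit 5) (nat_lit 345) (nat_lit 5) (nat_lit 361) (nat_lit 5) (nat_lit 442) (nat_lit 438) (nat_lit 320)) (XT.lf (nat_lit 0) (nat_lit 500430194) (nat_lit 1216) (nat_lit 803958709) (nat_lit 1292) (nat_lit 12394546232) (nat_lit 329) (nat_lit 5) (nat_lit 345) (nat_lit 5) (nat_lit 346) (nat_lit 5) (nat_lit 443) (nat_lit 438) (nat_lit 319))))) (XT.nd (nat_lit 312) (nat_lit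 0) (nat_lit 152) (XT.nd (nat_lit 156) (nat_lit 0) (nat_lit 76) (XT.nd (nat_lit 78) (nat_lit 0) (nat_lit 0) (XT.lf (nat_lit 0) (nat_lit 1252509878) (nat_lit 1216) (nat_lit 7554097669) (nat_lit 1292) (nat_lit 5090631037) (nat_lit 330) (nat_lit 5) (nat_lit 346) (nat_lit 5) (nat_lit 347) (nat_lit 5) (nat_lit 444) (nat_lit 438) (nat_lit 318)) (XT.lf (nat_lit 0) (nat_lit 2034131676) (nat_lit 1216) (nat_lit 402283833) (nat_lit 1292) (nat_lit 11664866887) (nat_lit 330) (nat_lit 5) (nat_lit 346) (nat_lit 5) (nat_lit 347) (nat_lit 5) (nat_lit 445) (nat_lit 438) (nat_lit 317))) (XT.nd (nat_lit 78) (nat_lit 0) (nat_lit 0) (XT.lf (nat_lit 0) (nat_lit 2934040293) (nat_lit 1216) (nat_lit 7256588191) (nat_lit 1292) (nat_lit 4117974523) (nat_lit 331) (nat_lit 5) (nat_lit 347) (nat_lit 5) (nat_lit 348) (nat_lit 5) (nat_lit 446) (nat_lit 438) (nat_lit 316)) (XT.lf (nat_lit 76) (nat_lit 186373781) (nat_lit 0) (nat_lit 3691226186) (nat_lit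 1292) (nat_lit 10644044268) (nat_lit 332) (nat_lit 5) (nat_lit 331) (nat_lit 5) (nat_lit 348) (nat_lit 5) (nat_lit 447) (nat_lit 438) (nat_lit 315)))) (XT.nd (nat_lit 156) (nat_lit 0) (nat_lit 76) (XT.nd (nat_lit 78) (nat_lit 0) (nat_lit 0) (XT.lf (nat_lit 0) (nat_lit 4939312653) (nat_lit 1216) (nat_lit 6776700865) (nat_lit 1292) (nat_lit 3022368390) (nat_lit 332) (nat_lit 5) (nat_lit 348) (nat_lit 5) (nat_lit 349) (nat_lit 5) (nat_lit 448) (nat_lit 438) (nat_lit 314)) (XT.lf (nat_lit 76) (nat_lit 981913145) (nat_lit 0) (nat_lit 5084303676) (nat_lit 1292) (nat_lit 8894405265) (nat_lit 333) (nat_lit 5) (nat_lit 332) (nat_lit 5) (nat_lit 349) (nat_lit 5) (nat_lit 449) (nat_lit 438) (nat_lit 313))) (XT.nd (nat_lit 78) (nat_lit 0) (nat_lit 0) (XT.lf (nat_lit 0) (nat_lit 7300488296) (nat_lit 1216) (nat_lit 6102376551) (nat_lit 1292) (nat_lit 1784458376) (nat_lit 333) (nat_lit 5) (nat_lit 349) (nat_lit 5) (nat_lit 350)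 (nat_lit 5) (nat_lit 450) (nat_lit 438) (nat_lit 312)) (XT.lf (nat_lit 76) (nat_lit 1989369892) (nat_lit 0) (nat_lit 6639904192) (nat_lit 1292) (nat_lit 6789827270) (nat_lit 334) (nat_lit 5) (nat_lit 333) (nat_lit 5) (nat_lit 350) (nat_lit 5) (nat_lit 451) (nat_lit 438) (nat_lit 311))))))) (XT.nd (nat_lit 1248) (nat_lit 4560) (nat_lit 0) (XT.nd (nat_lit 624) (nat_lit 2356) (nat_lit 0) (XT.nd (nat_lit 312) (nat_lit 1520) (nat_lit 0) (XT.nd (nat_lit 156) (nat_lit 1140) (nat_lit 0) (XT.nd (nat_lit 78) (nat_lit 0) (nat_lit 0) (XT.lf (nat_lit 0) (nat_lit 10051595631) (nat_lit 1216) (nat_lit 5220405934) (nat_lit 1292) (nat_lit 384221628) (nat_lit 334) (nat_lit 5) (nat_lit 350) (nat_lit 5) (nat_lit 351) (nat_lit 5) (nat_lit 452) (nat_lit 438) (nat_lit 310)) (XT.lf (nat_lit 76) (nat_lit 3222990740) (nat_lit 0) (nat_lit 8378966484) (nat_lit 1292) (nat_lit 4295940862) (nat_lit 335) (nat_lit 5) (nat_lit 334) (nat_lit 5) (nat_lit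 351) (nat_lit 5) (nat_lit 453) (nat_lit 438) (nat_lit 309))) (XT.nd (nat_lit 78) (nat_lit 1140) (nat_lit 0) (XT.lf (nat_lit 76) (nat_lit 12017435123) (nat_lit 0) (nat_lit 1222999398) (nat_lit 1292) (nat_lit 2905141058) (nat_lit 335) (nat_lit 5) (nat_lit 334) (nat_lit 5) (nat_lit 351) (nat_lit 5) (nat_lit 454) (nat_lit 438) (nat_lit 308)) (XT.lf (nat_lit 0) (nat_lit 4698276003) (nat_lit 1216) (nat_lit 10323277597) (nat_lit 1292) (nat_lit 1376325656) (nat_lit 319) (nat_lit 5) (nat_lit 335) (nat_lit 5) (nat_lit 336) (nat_lit 5) (nat_lit 455) (nat_lit 438) (nat_lit 307)))) (XT.nd (nat_lit 156) (nat_lit 608) (nat_lit 0) (XT.nd (nat_lit 78) (nat_lit 836) (nat_lit 0) (XT.lf (nat_lit 0) (nat_lit 238041118) (nat_lit 1292) (nat_lit 2806281655) (nat_lit 76) (nat_lit 13612065800) (nat_lit 318) (nat_lit 5) (nat_lit 335) (nat_lit 5) (nat_lit 319) (nat_lit 5) (nat_lit 456) (nat_lit 438) (nat_lit 306)) (XT.lf (nat_lit 0) (nat_lit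 1968470518) (nat_lit 912) (nat_lit 10507230112) (nat_lit 76) (nat_lit 4443685340) (nat_lit 307) (nat_lit 5) (nat_lit 319) (nat_lit 5) (nat_lit 308) (nat_lit 5) (nat_lit 457) (nat_lit 438) (nat_lit 305))) (XT.nd (nat_lit 78) (nat_lit 608) (nat_lit 0) (XT.lf (nat_lit 0) (nat_lit 3799456751) (nat_lit 912) (nat_lit 1264581234) (nat_lit 76) (nat_lit 12124776415) (nat_lit 307) (nat_lit 5) (nat_lit 319) (nat_lit 5) (nat_lit 308) (nat_lit 5) (nat_lit 458) (nat_lit 438) (nat_lit 304)) (XT.lf (nat_lit 0) (nat_lit 5781907297) (nat_lit 684) (nat_lit 9079377897) (nat_lit 76) (nat_lit 2602144864) (nat_lit 299) (nat_lit 5) (nat_lit 308) (nat_lit 5) (nat_lit 300) (nat_lit 5) (nat_lit 459) (nat_lit 438) (nat_lit 303))))) (XT.nd (nat_lit 312) (nat_lit 1216) (nat_lit 0) (XT.nd (nat_lit 156) (nat_lit 532) (nat_lit 0) (XT.nd (nat_lit 78) (nat_lit 0) (nat_lit 0) (XT.lf (nat_lit 0) (nat_lit 553359474) (nat_lit 608) (nat_lit 7329209289)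 (nat_lit 684) (nat_lit 9861953705) (nat_lit 291) (nat_lit 5) (nat_lit 299) (nat_lit 5) (nat_lit 300) (nat_lit 5) (nat_lit 460) (nat_lit 438) (nat_lit 302)) (XT.lf (nat_lit 0) (nat_lit 10133539801) (nat_lit 684) (nat_lit 7384662348) (nat_lit 76) (nat_lit 513227203) (nat_lit 291) (nat_lit 5) (nat_lit 300) (nat_lit 5) (nat_lit 292) (nat_lit 5) (nat_lit 461) (nat_lit 438) (nat_lit 301))) (XT.nd (nat_lit 78) (nat_lit 0) (nat_lit 0) (XT.lf (nat_lit 0) (nat_lit 2686637920) (nat_lit 532) (nat_lit 9854644460) (nat_lit 608) (nat_lit 5782984173) (nat_lit 284) (nat_lit 5) (nat_lit 291) (nat_lit 5) (nat_lit 292) (nat_lit 5) (nat_lit 462) (nat_lit 438) (nat_lit 300)) (XT.lf (nat_lit 0) (nat_lit 13202291319) (nat_lit 532) (nat_lit 1884565302) (nat_lit 608) (nat_lit 3537064636) (nat_lit 284) (nat_lit 5) (nat_lit 291) (nat_lit 5) (nat_lit 292) (nat_lit 5) (nat_lit 463) (nat_lit 438) (nat_lit 299)))) (XT.nd (nat_lit 156) (nat_lit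 532) (nat_lit 0) (XT.nd (nat_lit 78) (nat_lit 76) (nat_lit 0) (XT.lf (nat_lit 0) (nat_lit 5131020167) (nat_lit 608) (nat_lit 12679184782) (nat_lit 684) (nat_lit 1119318809) (nat_lit 276) (nat_lit 5) (nat_lit 284) (nat_lit 5) (nat_lit 285) (nat_lit 5) (nat_lit 464) (nat_lit 438) (nat_lit 298)) (XT.lf (nat_lit 0) (nat_lit 1409525891) (nat_lit 684) (nat_lit 3172883117) (nat_lit 76) (nat_lit 14659530743) (nat_lit 275) (nat_lit 5) (nat_lit 284) (nat_lit 5) (nat_lit 276) (nat_lit 5) (nat_lit 465) (nat_lit 438) (nat_lit 297))) (XT.nd (nat_lit 78) (nat_lit 0) (nat_lit 0) (XT.lf (nat_lit 0) (nat_lit 4096328277) (nat_lit 608) (nat_lit 11692618882) (nat_lit 76) (nat_lit 3771311237) (nat_lit 268) (nat_lit 5) (nat_lit 276) (nat_lit 5) (nat_lit 269) (nat_lit 5) (nat_lit 466) (nat_lit 438) (nat_lit 296)) (XT.lf (nat_lit 0) (nat_lit 6933235803) (nat_lit 608) (nat_lit 637557170) (nat_lit 76) (nat_lit 12315248916) (nat_lit 268) (nat_lit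 5) (nat_lit 276) (nat_lit 5) (nat_lit 269) (nat_lit 5) (nat_lit 467) (nat_lit 438) (nat_lit 295)))))) (XT.nd (nat_lit 624) (nat_lit 2128) (nat_lit 0) (XT.nd (nat_lit 312) (nat_lit 988) (nat_lit 0) (XT.nd (nat_lit 156) (nat_lit 456) (nat_lit 0) (XT.nd (nat_lit 78) (nat_lit 456) (nat_lit 0) (XT.lf (nat_lit 0) (nat_lit 9962187713) (nat_lit 608) (nat_lit 9274254688) (nat_lit 76) (nat_lit 981948680) (nat_lit 261) (nat_lit 5) (nat_lit 269) (nat_lit 5) (nat_lit 262) (nat_lit 5) (nat_lit 468) (nat_lit 438) (nat_lit 294)) (XT.lf (nat_lit 0) (nat_lit 2286429930) (nat_lit 456) (nat_lit 10891169504) (nat_lit 532) (nat_lit 7380243880) (nat_lit 255) (nat_lit 5) (nat_lit 261) (nat_lit 5) (nat_lit 262) (nat_lit 5) (nat_lit 469) (nat_lit 438) (nat_lit 293))) (XT.nd (nat_lit 78) (nat_lit 456) (nat_lit 0) (XT.lf (nat_lit 0) (nat_lit 14375139504) (nat_lit 456) (nat_lit 2200281245) (nat_lit 532) (nat_lit 4329480239) (nat_lit 255) (nat_lit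 5) (nat_lit 261) (nat_lit 5) (nat_lit 262) (nat_lit 5) (nat_lit 470) (nat_lit 438) (nat_lit 292)) (XT.lf (nat_lit 0) (nat_lit 5599648650) (nat_lit 456) (nat_lit 14586761870) (nat_lit 532) (nat_lit 1072623141) (nat_lit 249) (nat_lit 5) (nat_lit 255) (nat_lit 5) (nat_lit 256) (nat_lit 5) (nat_lit 471) (nat_lit 438) (nat_lit 291)))) (XT.nd (nat_lit 156) (nat_lit 456) (nat_lit 0) (XT.nd (nat_lit 78) (nat_lit 456) (nat_lit 0) (XT.lf (nat_lit 0) (nat_lit 2318355746) (nat_lit 532) (nat_lit 3448314545) (nat_lit 76) (nat_lit 15854033882) (nat_lit 248) (nat_lit 5) (nat_lit 255) (nat_lit 5) (nat_lit 249) (nat_lit 5) (nat_lit 472) (nat_lit 438) (nat_lit 290)) (XT.lf (nat_lit 0) (nat_lit 5904473275) (nat_lit 532) (nat_lit 12732206959) (nat_lit 76) (nat_lit 3352777187) (nat_lit 242) (nat_lit 5) (nat_lit 249) (nat_lit 5) (nat_lit 243) (nat_lit 5) (nat_lit 473) (nat_lit 438) (nat_lit 289))) (XT.nd (nat_lit 78) (nat_lit 456) (nat_lit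 0) (XT.lf (nat_lit 0) (nat_lit 9683335130) (nat_lit 532) (nat_lit 19777242) (nat_lit 76) (nat_lit 12663606323) (nat_lit 242) (nat_lit 5) (nat_lit 249) (nat_lit 5) (nat_lit 243) (nat_lit 5) (nat_lit 474) (nat_lit 438) (nat_lit 288)) (XT.lf (nat_lit 0) (nat_lit 13325532572) (nat_lit 456) (nat_lit 371229339) (nat_lit 532) (nat_lit 9054900168) (nat_lit 236) (nat_lit 5) (nat_lit 242) (nat_lit 5) (nat_lit 243) (nat_lit 5) (nat_lit 475) (nat_lit 438) (nat_lit 287))))) (XT.nd (nat_lit 312) (nat_lit 1216) (nat_lit 0) (XT.nd (nat_lit 156) (nat_lit 532) (nat_lit 0) (XT.nd (nat_lit 78) (nat_lit 0) (nat_lit 0) (XT.lf (nat_lit 0) (nat_lit 3902150090) (nat_lit 380) (nat_lit 14048188936) (nat_lit 456) (nat_lit 5194222552) (nat_lit 231) (nat_lit 5) (nat_lit 236) (nat_lit 5) (nat_lit 237) (nat_lit 5) (nat_lit 476) (nat_lit 438) (nat_lit 286)) (XT.lf (nat_lit 0) (nat_lit 17811214510) (nat_lit 380) (nat_lit 4612459135) (nat_lit 456)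 (nat_lit 1122810141) (nat_lit 231) (nat_lit 5) (nat_lit 236) (nat_lit 5) (nat_lit 237) (nat_lit 5) (nat_lit 477) (nat_lit 438) (nat_lit 285))) (XT.nd (nat_lit 78) (nat_lit 0) (nat_lit 0) (XT.lf (nat_lit 0) (nat_lit 3134223742) (nat_lit 532) (nat_lit 15706399051) (nat_lit 76) (nat_lit 5115253538) (nat_lit 224) (nat_lit 5) (nat_lit 231) (nat_lit 5) (nat_lit 225) (nat_lit 5) (nat_lit 478) (nat_lit 438) (nat_lit 284)) (XT.lf (nat_lit 0) (nat_lit 7594104990) (nat_lit 532) (nat_lit 1670353155) (nat_lit 76) (nat_lit 15109828099) (nat_lit 224) (nat_lit 5) (nat_lit 231) (nat_lit 5) (nat_lit 225) (nat_lit 5) (nat_lit 479) (nat_lit 438) (nat_lit 283)))) (XT.nd (nat_lit 156) (nat_lit 456) (nat_lit 0) (XT.nd (nat_lit 78) (nat_lit 380) (nat_lit 0) (XT.lf (nat_lit 0) (nat_lit 12313776523) (nat_lit 456) (nat_lit 11775833070) (nat_lit 76) (nat_lit 711859249) (nat_lit 219) (nat_lit 5) (nat_lit 225) (nat_lit 5) (nat_lit 220) (nat_lit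 5) (nat_lit 480) (nat_lit 438) (nat_lit 282)) (XT.lf (nat_lit 0) (nat_lit 2912368753) (nat_lit 380) (nat_lit 14393246184) (nat_lit 456) (nat_lit 7931934880) (nat_lit 214) (nat_lit 5) (nat_lit 219) (nat_lit 5) (nat_lit 220) (nat_lit 5) (nat_lit 481) (nat_lit 438) (nat_lit 281))) (XT.nd (nat_lit 78) (nat_lit 456) (nat_lit 0) (XT.lf (nat_lit 0) (nat_lit 18274339737) (nat_lit 380) (nat_lit 4285701768) (nat_lit 456) (nat_lit 3123286919) (nat_lit 214) (nat_lit 5) (nat_lit 219) (nat_lit 5) (nat_lit 220) (nat_lit 5) (nat_lit 482) (nat_lit 438) (nat_lit 280)) (XT.lf (nat_lit 0) (nat_lit 1925492147) (nat_lit 456) (nat_lit 18112844540) (nat_lit 76) (nat_lit 6099669038) (nat_lit 208) (nat_lit 5) (nat_lit 214) (nat_lit 5) (nat_lit 209) (nat_lit 5) (nat_lit 483) (nat_lit 438) (nat_lit 279))))))))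
noncomputable def xc176 : XT := (XT.nd (nat_lit 2418) (nat_lit 3344) (nat_lit 0) (XT.nd (nat_lit 1170) (nat_lit 2432) (nat_lit 0) (XT.nd (nat_lit 546) (nat_lit 1596) (nat_lit 0) (XT.nd (nat_lit 234) (nat_lit 684) (nat_lit 0) (XT.nd (nat_lit 78) (nat_lit 684) (nat_lit 0) (XT.lf (nat_lit 0) (nat_lit 7175062850) (nat_lit 456) (nat_lit 2612186338) (nat_lit 76) (nat_lit 16814783526) (nat_lit 208) (nat_lit 5) (nat_lit 214) (nat_lit 5) (nat_lit 209) (nat_lit 5) (nat_lit 484) (nat_lit 438) (nat_lit 278)) (XT.nd (nat_lit 78) (nat_lit 304) (nat_lit 0) (XT.lf (nat_lit 0) (nat_lit 12715932488) (nat_lit 456) (nat_lit 13473805569) (nat_lit 76) (nat_lit 886228274) (nat_lit 203) (nat_lit 5) (nat_lit 209) (nat_lit 5) (nat_lit 204) (nat_lit 5) (nat_lit 485) (nat_lit 438) (nat_lit 277)) (XT.lf (nat_lit 0) (nat_lit 2741437440) (nat_lit 304) (nat_lit 15825839263) (nat_lit 380) (nat_lit 8992513965) (nat_lit 199) (nat_lit 5) (nat_lit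 203) (nat_lit 5) (nat_lit 204) (nat_lit 5) (nat_lit 486) (nat_lit 438) (nat_lit 276)))) (XT.nd (nat_lit 156) (nat_lit 304) (nat_lit 0) (XT.nd (nat_lit 78) (nat_lit 380) (nat_lit 0) (XT.lf (nat_lit 0) (nat_lit 19711364319) (nat_lit 304) (nat_lit 5013297291) (nat_lit 380) (nat_lit 3329553278) (nat_lit 199) (nat_lit 5) (nat_lit 203) (nat_lit 5) (nat_lit 204) (nat_lit 5) (nat_lit 487) (nat_lit 438) (nat_lit 275)) (XT.lf (nat_lit 0) (nat_lit 2593175795) (nat_lit 380) (nat_lit 19854237366) (nat_lit 76) (nat_lit 6111175091) (nat_lit 194) (nat_lit 5) (nat_lit 199) (nat_lit 5) (nat_lit 195) (nat_lit 5) (nat_lit 488) (nat_lit 438) (nat_lit 274))) (XT.nd (nat_lit 78) (nat_lit 304) (nat_lit 0) (XT.lf (nat_lit 0) (nat_lit 8755993742) (nat_lit 380) (nat_lit 2732924056) (nat_lit 76) (nat_lit 17584306361) (nat_lit 194) (nat_lit 5) (nat_lit 199) (nat_lit 5) (nat_lit 195) (nat_lit 5) (nat_lit 489) (nat_lit 438) (nat_lit 273)) (XT.lf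 (nat_lit 0) (nat_lit 15190775128) (nat_lit 304) (nat_lit 53711658) (nat_lit 380) (nat_lit 14354588782) (nat_lit 190) (nat_lit 5) (nat_lit 194) (nat_lit 5) (nat_lit 195) (nat_lit 5) (nat_lit 490) (nat_lit 438) (nat_lit 272))))) (XT.nd (nat_lit 312) (nat_lit 912) (nat_lit 0) (XT.nd (nat_lit 156) (nat_lit 380) (nat_lit 0) (XT.nd (nat_lit 78) (nat_lit 0) (nat_lit 0) (XT.lf (nat_lit 0) (nat_lit 3516234417) (nat_lit 304) (nat_lit 18580597636) (nat_lit 380) (nat_lit 8038794686) (nat_lit 186) (nat_lit 5) (nat_lit 190) (nat_lit 5) (nat_lit 191) (nat_lit 5) (nat_lit 491) (nat_lit 438) (nat_lit 271)) (XT.lf (nat_lit 0) (nat_lit 22265658685) (nat_lit 304) (nat_lit 7030011569) (nat_lit 380) (nat_lit 1388376646) (nat_lit 186) (nat_lit 5) (nat_lit 190) (nat_lit 5) (nat_lit 191) (nat_lit 5) (nat_lit 492) (nat_lit 438) (nat_lit 270))) (XT.nd (nat_lit 78) (nat_lit 0) (nat_lit 0) (XT.lf (nat_lit 0) (nat_lit 5498929419) (nat_lit 380)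 (nat_lit 20819777412) (nat_lit 76) (nat_lit 4924319470) (nat_lit 181) (nat_lit 5) (nat_lit 186) (nat_lit 5) (nat_lit 182) (nat_lit 5) (nat_lit 493) (nat_lit 438) (nat_lit 269)) (XT.lf (nat_lit 0) (nat_lit 12715453944) (nat_lit 380) (nat_lit 1905299500) (nat_lit 76) (nat_lit 17193094245) (nat_lit 181) (nat_lit 5) (nat_lit 186) (nat_lit 5) (nat_lit 182) (nat_lit 5) (nat_lit 494) (nat_lit 438) (nat_lit 268)))) (XT.nd (nat_lit 156) (nat_lit 380) (nat_lit 0) (XT.nd (nat_lit 78) (nat_lit 228) (nat_lit 0) (XT.lf (nat_lit 0) (nat_lit 17918909729) (nat_lit 304) (nat_lit 2397005500) (nat_lit 380) (nat_lit 12080855380) (nat_lit 177) (nat_lit 5) (nat_lit 181) (nat_lit 5) (nat_lit 182) (nat_lit 5) (nat_lit 495) (nat_lit 438) (nat_lit 267)) (XT.lf (nat_lit 0) (nat_lit 5379687937) (nat_lit 228) (nat_lit 22929070087) (nat_lit 304) (nat_lit 4683492279) (nat_lit 174) (nat_lit 5) (nat_lit 177) (nat_lit 5) (nat_lit 178) (nat_lit 5)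 (nat_lit 496) (nat_lit 438) (nat_lit 266))) (XT.nd (nat_lit 78) (nat_lit 304) (nat_lit 0) (XT.lf (nat_lit 0) (nat_lit 3045142456) (nat_lit 304) (nat_lit 7532296832) (nat_lit 76) (nat_lit 23022309433) (nat_lit 173) (nat_lit 5) (nat_lit 177) (nat_lit 5) (nat_lit 174) (nat_lit 5) (nat_lit 497) (nat_lit 438) (nat_lit 265)) (XT.lf (nat_lit 0) (nat_lit 11057622820) (nat_lit 380) (nat_lit 20885247916) (nat_lit 76) (nat_lit 2276826722) (nat_lit 169) (nat_lit 5) (nat_lit 174) (nat_lit 5) (nat_lit 170) (nat_lit 5) (nat_lit 498) (nat_lit 438) (nat_lit 264)))))) (XT.nd (nat_lit 624) (nat_lit 1140) (nat_lit 0) (XT.nd (nat_lit 312) (nat_lit 760) (nat_lit 0) (XT.nd (nat_lit 156) (nat_lit 304) (nat_lit 0) (XT.nd (nat_lit 78) (nat_lit 0) (nat_lit 0) (XT.lf (nat_lit 0) (nat_lit 13160216) (nat_lit 228) (nat_lit 19474424194) (nat_lit 304) (nat_lit 15365347146) (nat_lit 166) (nat_lit 5) (nat_lit 169) (nat_lit 5) (nat_lit 170) (nat_lit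 5) (nat_lit 499) (nat_lit 438) (nat_lit 263)) (XT.lf (nat_lit 0) (nat_lit 21959462267) (nat_lit 228) (nat_lit 6417385097) (nat_lit 304) (nat_lit 7122123340) (nat_lit 166) (nat_lit 5) (nat_lit 169) (nat_lit 5) (nat_lit 170) (nat_lit 5) (nat_lit 500) (nat_lit 438) (nat_lit 262))) (XT.nd (nat_lit 78) (nat_lit 0) (nat_lit 0) (XT.lf (nat_lit 0) (nat_lit 1487945243) (nat_lit 304) (nat_lit 27683858288) (nat_lit 76) (nat_lit 6987805461) (nat_lit 162) (nat_lit 5) (nat_lit 166) (nat_lit 5) (nat_lit 163) (nat_lit 5) (nat_lit 501) (nat_lit 438) (nat_lit 261)) (XT.lf (nat_lit 0) (nat_lit 10410408796) (nat_lit 304) (nat_lit 5549458581) (nat_lit 76) (nat_lit 20872166445) (nat_lit 162) (nat_lit 5) (nat_lit 166) (nat_lit 5) (nat_lit 163) (nat_lit 5) (nat_lit 502) (nat_lit 438) (nat_lit 260)))) (XT.nd (nat_lit 156) (nat_lit 304) (nat_lit 0) (XT.nd (nat_lit 78) (nat_lit 228) (nat_lit 0) (XT.lf (nat_lit 0) (nat_lit 17585231238) (nat_lit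 228) (nat_lit 2180108316) (nat_lit 304) (nat_lit 17754348134) (nat_lit 159) (nat_lit 5) (nat_lit 162) (nat_lit 5) (nat_lit 163) (nat_lit 5) (nat_lit 503) (nat_lit 438) (nat_lit 259)) (XT.lf (nat_lit 0) (nat_lit 3241730582) (nat_lit 228) (nat_lit 26358205394) (nat_lit 304) (nat_lit 8622064749) (nat_lit 156) (nat_lit 5) (nat_lit 159) (nat_lit 5) (nat_lit 160) (nat_lit 5) (nat_lit 504) (nat_lit 438) (nat_lit 258))) (XT.nd (nat_lit 78) (nat_lit 228) (nat_lit 0) (XT.lf (nat_lit 0) (nat_lit 989563634) (nat_lit 304) (nat_lit 11455562156) (nat_lit 76) (nat_lit 26493410938) (nat_lit 155) (nat_lit 5) (nat_lit 159) (nat_lit 5) (nat_lit 156) (nat_lit 5) (nat_lit 505) (nat_lit 438) (nat_lit 257)) (XT.lf (nat_lit 0) (nat_lit 10856684593) (nat_lit 304) (nat_lit 26755380909) (nat_lit 76) (nat_lit 2057729219) (nat_lit 152) (nat_lit 5) (nat_lit 156) (nat_lit 5) (nat_lit 153) (nat_lit 5) (nat_lit 506) (nat_lit 438) (nat_lit 256)))))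 (XT.nd (nat_lit 312) (nat_lit 684) (nat_lit 0) (XT.nd (nat_lit 156) (nat_lit 228) (nat_lit 0) (XT.nd (nat_lit 78) (nat_lit 228) (nat_lit 0) (XT.lf (nat_lit 0) (nat_lit 21255815266) (nat_lit 304) (nat_lit 2300336249) (nat_lit 76) (nat_lit 16859759134) (nat_lit 152) (nat_lit 5) (nat_lit 156) (nat_lit 5) (nat_lit 153) (nat_lit 5) (nat_lit 507) (nat_lit 438) (nat_lit 255)) (XT.lf (nat_lit 0) (nat_lit 23337180735) (nat_lit 228) (nat_lit 8850141222) (nat_lit 304) (nat_lit 8990476109) (nat_lit 149) (nat_lit 5) (nat_lit 152) (nat_lit 5) (nat_lit 153) (nat_lit 5) (nat_lit 508) (nat_lit 438) (nat_lit 254))) (XT.nd (nat_lit 78) (nat_lit 0) (nat_lit 0) (XT.lf (nat_lit 0) (nat_lit 1612998571) (nat_lit 228) (nat_lit 34057422489) (nat_lit 76) (nat_lit 6286961211) (nat_lit 146) (nat_lit 5) (nat_lit 149) (nat_lit 5) (nat_lit 147) (nat_lit 5) (nat_lit 509) (nat_lit 438) (nat_lit 253)) (XT.lf (nat_lit 0) (nat_lit 12619552066) (nat_lit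 228) (nat_lit 8161514411) (nat_lit 76) (nat_lit 21968646928) (nat_lit 146) (nat_lit 5) (nat_lit 149) (nat_lit 5) (nat_lit 147) (nat_lit 5) (nat_lit 510) (nat_lit 438) (nat_lit 252)))) (XT.nd (nat_lit 156) (nat_lit 304) (nat_lit 0) (XT.nd (nat_lit 78) (nat_lit 152) (nat_lit 0) (XT.lf (nat_lit 0) (nat_lit 18873135360) (nat_lit 228) (nat_lit 5260810338) (nat_lit 304) (nat_lit 19426539535) (nat_lit 143) (nat_lit 5) (nat_lit 146) (nat_lit 5) (nat_lit 147) (nat_lit 5) (nat_lit 511) (nat_lit 438) (nat_lit 251)) (XT.lf (nat_lit 0) (nat_lit 2430085760) (nat_lit 152) (nat_lit 33769618966) (nat_lit 228) (nat_lit 8189697546) (nat_lit 141) (nat_lit 5) (nat_lit 143) (nat_lit 5) (nat_lit 144) (nat_lit 5) (nat_lit 512) (nat_lit 438) (nat_lit 250))) (XT.nd (nat_lit 78) (nat_lit 228) (nat_lit 0) (XT.lf (nat_lit 0) (nat_lit 3618318416) (nat_lit 228) (nat_lit 14462137520) (nat_lit 76) (nat_lit 27152751776) (nat_lit 140) (nat_lit 5)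 (nat_lit 143) (nat_lit 5) (nat_lit 141) (nat_lit 5) (nat_lit 513) (nat_lit 438) (nat_lit 249)) (XT.lf (nat_lit 0) (nat_lit 14046707063) (nat_lit 228) (nat_lit 1700655807) (nat_lit 304) (nat_lit 30348590137) (nat_lit 137) (nat_lit 5) (nat_lit 140) (nat_lit 5) (nat_lit 141) (nat_lit 5) (nat_lit 514) (nat_lit 438) (nat_lit 248))))))) (XT.nd (nat_lit 1170) (nat_lit 1596) (nat_lit 0) (XT.nd (nat_lit 546) (nat_lit 912) (nat_lit 0) (XT.nd (nat_lit 234) (nat_lit 380) (nat_lit 0) (XT.nd (nat_lit 78) (nat_lit 456) (nat_lit 0) (XT.lf (nat_lit 0) (nat_lit 28529980609) (nat_lit 304) (nat_lit 3426483865) (nat_lit 76) (nat_lit 15019425184) (nat_lit 137) (nat_lit 5) (nat_lit 141) (nat_lit 5) (nat_lit 138) (nat_lit 5) (nat_lit 515) (nat_lit 438) (nat_lit 247)) (XT.nd (nat_lit 78) (nat_lit 304) (nat_lit 0) (XT.lf (nat_lit 0) (nat_lit 26550107655) (nat_lit 152) (nat_lit 15414516766) (nat_lit 228) (nat_lit 5909543619) (nat_lit 135)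 (nat_lit 5) (nat_lit 137) (nat_lit 5) (nat_lit 138) (nat_lit 5) (nat_lit 516) (nat_lit 438) (nat_lit 246)) (XT.lf (nat_lit 0) (nat_lit 6999689681) (nat_lit 304) (nat_lit 40015583548) (nat_lit 76) (nat_lit 1778099239) (nat_lit 131) (nat_lit 5) (nat_lit 135) (nat_lit 5) (nat_lit 132) (nat_lit 5) (nat_lit 517) (nat_lit 438) (nat_lit 245)))) (XT.nd (nat_lit 156) (nat_lit 228) (nat_lit 0) (XT.nd (nat_lit 78) (nat_lit 152) (nat_lit 0) (XT.lf (nat_lit 0) (nat_lit 20544028026) (nat_lit 304) (nat_lit 9733270358) (nat_lit 76) (nat_lit 19450101265) (nat_lit 131) (nat_lit 5) (nat_lit 135) (nat_lit 5) (nat_lit 132) (nat_lit 5) (nat_lit 518) (nat_lit 438) (nat_lit 244)) (XT.lf (nat_lit 0) (nat_lit 21878486912) (nat_lit 152) (nat_lit 12823142170) (nat_lit 228) (nat_lit 15981610637) (nat_lit 129) (nat_lit 5) (nat_lit 131) (nat_lit 5) (nat_lit 132) (nat_lit 5) (nat_lit 519) (nat_lit 438) (nat_lit 243))) (XT.nd (nat_lit 78) (nat_lit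 76) (nat_lit 0) (XT.lf (nat_lit 0) (nat_lit 2974870245) (nat_lit 152) (nat_lit 46483134061) (nat_lit 228) (nat_lit 2204529348) (nat_lit 127) (nat_lit 5) (nat_lit 129) (nat_lit 5) (nat_lit 130) (nat_lit 5) (nat_lit 520) (nat_lit 438) (nat_lit 242)) (XT.lf (nat_lit 0) (nat_lit 12169338599) (nat_lit 228) (nat_lit 16615165002) (nat_lit 76) (nat_lit 23870725540) (nat_lit 126) (nat_lit 5) (nat_lit 129) (nat_lit 5) (nat_lit 127) (nat_lit 5) (nat_lit 521) (nat_lit 438) (nat_lit 241))))) (XT.nd (nat_lit 312) (nat_lit 380) (nat_lit 0) (XT.nd (nat_lit 156) (nat_lit 380) (nat_lit 0) (XT.nd (nat_lit 78) (nat_lit 0) (nat_lit 0) (XT.lf (nat_lit 0) (nat_lit 16718107217) (nat_lit 152) (nat_lit 10369457168) (nat_lit 228) (nat_lit 26584762822) (nat_lit 124) (nat_lit 5) (nat_lit 126) (nat_lit 5) (nat_lit 127) (nat_lit 5) (nat_lit 522) (nat_lit 438) (nat_lit 240)) (XT.lf (nat_lit 0) (nat_lit 42702189514) (nat_lit 228) (nat_lit 3413063243)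 (nat_lit 76) (nat_lit 8597219924) (nat_lit 124) (nat_lit 5) (nat_lit 127) (nat_lit 5) (nat_lit 125) (nat_lit 5) (nat_lit 523) (nat_lit 438) (nat_lit 239))) (XT.nd (nat_lit 78) (nat_lit 152) (nat_lit 0) (XT.lf (nat_lit 0) (nat_lit 3350559094) (nat_lit 228) (nat_lit 24161071746) (nat_lit 76) (nat_lit 28259095263) (nat_lit 121) (nat_lit 5) (nat_lit 124) (nat_lit 5) (nat_lit 122) (nat_lit 5) (nat_lit 524) (nat_lit 438) (nat_lit 238)) (XT.lf (nat_lit 0) (nat_lit 10982724954) (nat_lit 152) (nat_lit 8085348528) (nat_lit 228) (nat_lit 37784969025) (nat_lit 119) (nat_lit 5) (nat_lit 121) (nat_lit 5) (nat_lit 122) (nat_lit 5) (nat_lit 525) (nat_lit 438) (nat_lit 237)))) (XT.nd (nat_lit 156) (nat_lit 228) (nat_lit 0) (XT.nd (nat_lit 78) (nat_lit 152) (nat_lit 0) (XT.lf (nat_lit 0) (nat_lit 35615002488) (nat_lit 228) (nat_lit 10407099852) (nat_lit 76) (nat_lit 11934989425) (nat_lit 119) (nat_lit 5) (nat_lit 122) (nat_lit 5)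 (nat_lit 120) (nat_lit 5) (nat_lit 526) (nat_lit 438) (nat_lit 236)) (XT.lf (nat_lit 0) (nat_lit 26552592391) (nat_lit 152) (nat_lit 26438006665) (nat_lit 228) (nat_lit 6093695689) (nat_lit 117) (nat_lit 5) (nat_lit 119) (nat_lit 5) (nat_lit 120) (nat_lit 5) (nat_lit 527) (nat_lit 438) (nat_lit 235))) (XT.nd (nat_lit 78) (nat_lit 0) (nat_lit 0) (XT.lf (nat_lit 0) (nat_lit 4572626678) (nat_lit 152) (nat_lit 6008916251) (nat_lit 228) (nat_lit 49656290160) (nat_lit 114) (nat_lit 5) (nat_lit 116) (nat_lit 5) (nat_lit 117) (nat_lit 5) (nat_lit 528) (nat_lit 438) (nat_lit 234)) (XT.lf (nat_lit 0) (nat_lit 28107812426) (nat_lit 228) (nat_lit 18172785866) (nat_lit 76) (nat_lit 15129371786) (nat_lit 114) (nat_lit 5) (nat_lit 117) (nat_lit 5) (nat_lit 115) (nat_lit 5) (nat_lit 529) (nat_lit 438) (nat_lit 233)))))) (XT.nd (nat_lit 624) (nat_lit 760) (nat_lit 0) (XT.nd (nat_lit 312) (nat_lit 304) (nat_lit 0) (XT.nd (nat_lit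 156) (nat_lit 304) (nat_lit 0) (XT.nd (nat_lit 78) (nat_lit 76) (nat_lit 0) (XT.lf (nat_lit 0) (nat_lit 20785142915) (nat_lit 152) (nat_lit 25631093815) (nat_lit 228) (nat_lit 16193343480) (nat_lit 112) (nat_lit 5) (nat_lit 114) (nat_lit 5) (nat_lit 115) (nat_lit 5) (nat_lit 530) (nat_lit 438) (nat_lit 232)) (XT.lf (nat_lit 0) (nat_lit 1583260301) (nat_lit 228) (nat_lit 2576259066) (nat_lit 76) (nat_lit 59679775143) (nat_lit 111) (nat_lit 5) (nat_lit 114) (nat_lit 5) (nat_lit 112) (nat_lit 5) (nat_lit 531) (nat_lit 438) (nat_lit 231))) (XT.nd (nat_lit 78) (nat_lit 152) (nat_lit 0) (XT.lf (nat_lit 0) (nat_lit 20112133378) (nat_lit 228) (nat_lit 26834116546) (nat_lit 76) (nat_lit 18138507202) (nat_lit 109) (nat_lit 5) (nat_lit 112) (nat_lit 5) (nat_lit 110) (nat_lit 5) (nat_lit 532) (nat_lit 438) (nat_lit 230)) (XT.lf (nat_lit 0) (nat_lit 14219158141) (nat_lit 152) (nat_lit 25179027802) (nat_lit 228) (nat_lit 26963358307)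 (nat_lit 107) (nat_lit 5) (nat_lit 109) (nat_lit 5) (nat_lit 110) (nat_lit 5) (nat_lit 533) (nat_lit 438) (nat_lit 229)))) (XT.nd (nat_lit 156) (nat_lit 152) (nat_lit 0) (XT.nd (nat_lit 78) (nat_lit 152) (nat_lit 0) (XT.lf (nat_lit 0) (nat_lit 57048932604) (nat_lit 152) (nat_lit 2482065990) (nat_lit 228) (nat_lit 8137591065) (nat_lit 107) (nat_lit 5) (nat_lit 109) (nat_lit 5) (nat_lit 110) (nat_lit 5) (nat_lit 534) (nat_lit 438) (nat_lit 228)) (XT.lf (nat_lit 0) (nat_lit 11549719694) (nat_lit 152) (nat_lit 36534205137) (nat_lit 76) (nat_lit 20912185840) (nat_lit 105) (nat_lit 5) (nat_lit 107) (nat_lit 5) (nat_lit 106) (nat_lit 5) (nat_lit 535) (nat_lit 438) (nat_lit 227))) (XT.nd (nat_lit 78) (nat_lit 0) (nat_lit 0) (XT.lf (nat_lit 0) (nat_lit 6713072052) (nat_lit 152) (nat_lit 25145694954) (nat_lit 228) (nat_lit 38496432983) (nat_lit 103) (nat_lit 5) (nat_lit 105) (nat_lit 5) (nat_lit 106) (nat_lit 5) (nat_lit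 536) (nat_lit 438) (nat_lit 226)) (XT.lf (nat_lit 0) (nat_lit 52001648131) (nat_lit 152) (nat_lit 1141662767) (nat_lit 228) (nat_lit 18600764358) (nat_lit 103) (nat_lit 5) (nat_lit 105) (nat_lit 5) (nat_lit 106) (nat_lit 5) (nat_lit 537) (nat_lit 438) (nat_lit 225))))) (XT.nd (nat_lit 312) (nat_lit 380) (nat_lit 0) (XT.nd (nat_lit 156) (nat_lit 228) (nat_lit 0) (XT.nd (nat_lit 78) (nat_lit 0) (nat_lit 0) (XT.lf (nat_lit 0) (nat_lit 2331051743) (nat_lit 152) (nat_lit 47438316298) (nat_lit 76) (nat_lit 23390417436) (nat_lit 101) (nat_lit 5) (nat_lit 103) (nat_lit 5) (nat_lit 102) (nat_lit 5) (nat_lit 538) (nat_lit 438) (nat_lit 224)) (XT.lf (nat_lit 0) (nat_lit 23726964755) (nat_lit 152) (nat_lit 1860395905) (nat_lit 76) (nat_lit 49018781406) (nat_lit 101) (nat_lit 5) (nat_lit 103) (nat_lit 5) (nat_lit 102) (nat_lit 5) (nat_lit 539) (nat_lit 438) (nat_lit 223))) (XT.nd (nat_lit 78) (nat_lit 76) (nat_lit 0) (XT.lf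 (nat_lit 0) (nat_lit 45977238742) (nat_lit 152) (nat_lit 226916712) (nat_lit 228) (nat_lit 29878551913) (nat_lit 99) (nat_lit 5) (nat_lit 101) (nat_lit 5) (nat_lit 102) (nat_lit 5) (nat_lit 540) (nat_lit 438) (nat_lit 222)) (XT.lf (nat_lit 0) (nat_lit 17778137561) (nat_lit 76) (nat_lit 52013749659) (nat_lit 152) (nat_lit 7798595668) (nat_lit 98) (nat_lit 5) (nat_lit 99) (nat_lit 5) (nat_lit 100) (nat_lit 4) (nat_lit 541) (nat_lit 438) (nat_lit 221)))) (XT.nd (nat_lit 156) (nat_lit 152) (nat_lit 0) (XT.nd (nat_lit 78) (nat_lit 152) (nat_lit 0) (XT.lf (nat_lit 0) (nat_lit 14958865526) (nat_lit 152) (nat_lit 11572708148) (nat_lit 76) (nat_lit 52598407178) (nat_lit 97) (nat_lit 5) (nat_lit 99) (nat_lit 5) (nat_lit 98) (nat_lit 5) (nat_lit 542) (nat_lit 438) (nat_lit 220)) (XT.lf (nat_lit 0) (nat_lit 38614391865) (nat_lit 228) (nat_lit 41914787266) (nat_lit 76) (nat_lit 173005671) (nat_lit 95) (nat_lit 5) (nat_lit 98)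 (nat_lit 5) (nat_lit 96) (nat_lit 4) (nat_lit 543) (nat_lit 438) (nat_lit 219))) (XT.nd (nat_lit 78) (nat_lit 76) (nat_lit 0) (XT.lf (nat_lit 0) (nat_lit 8474322863) (nat_lit 76) (nat_lit 54964959931) (nat_lit 152) (nat_lit 18868481129) (nat_lit 94) (nat_lit 5) (nat_lit 95) (nat_lit 5) (nat_lit 96) (nat_lit 4) (nat_lit 544) (nat_lit 438) (nat_lit 218)) (XT.lf (nat_lit 0) (nat_lit 5373898737) (nat_lit 152) (nat_lit 22771889358) (nat_lit 76) (nat_lit 55801517323) (nat_lit 93) (nat_lit 5) (nat_lit 95) (nat_lit 5) (nat_lit 94) (nat_lit 5) (nat_lit 545) (nat_lit 438) (nat_lit 217))))))))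
noncomputable def xc177 : XT := (XT.nd (nat_lit 56238) (nat_lit 0) (nat_lit 6612) (XT.nd (nat_lit 54990) (nat_lit 0) (nat_lit 14364) (XT.nd (nat_lit 54366) (nat_lit 0) (nat_lit 18392) (XT.nd (nat_lit 234) (nat_lit 228) (nat_lit 0) (XT.nd (nat_lit 78) (nat_lit 76) (nat_lit 0) (XT.lf (nat_lit 0) (nat_lit 30219841132) (nat_lit 152) (nat_lit 32568529) (nat_lit 228) (nat_lit 55369376092) (nat_lit 91) (nat_lit 5) (nat_lit 93) (nat_lit 5) (nat_lit 94) (nat_lit 5) (nat_lit 546) (nat_lit 438) (nat_lit 216)) (XT.nd (nat_lit 78) (nat_lit 76) (nat_lit 0) (XT.lf (nat_lit 0) (nat_lit 56385151474) (nat_lit 228) (nat_lit 2356344375) (nat_lit 76) (nat_lit 28589768399) (nat_lit 91) (nat_lit 5) (nat_lit 94) (nat_lit 5) (nat_lit 92) (nat_lit 4) (nat_lit 547) (nat_lit 438) (nat_lit 215)) (XT.lf (nat_lit 0) (nat_lit 53316271607) (nat_lit 76) (nat_lit 30496116316) (nat_lit 152) (nat_lit 5264323820) (nat_lit 90) (nat_lit 5) (nat_lit 91)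 (nat_lit 5) (nat_lit 92) (nat_lit 4) (nat_lit 548) (nat_lit 438) (nat_lit 214)))) (XT.nd (nat_lit 53976) (nat_lit 0) (nat_lit 19532) (XT.nd (nat_lit 53898) (nat_lit 0) (nat_lit 19532) (XT.lf (nat_lit 0) (nat_lit 20015808624) (nat_lit 152) (nat_lit 972775834) (nat_lit 228) (nat_lit 69873404534) (nat_lit 87) (nat_lit 5) (nat_lit 89) (nat_lit 5) (nat_lit 90) (nat_lit 5) (nat_lit 549) (nat_lit 438) (nat_lit 213)) (XT.lf (nat_lit 0) (nat_lit 2928703620) (nat_lit 0) (nat_lit 2928703620) (nat_lit 1140) (nat_lit 704869132) (nat_lit 344) (nat_lit 5) (nat_lit 344) (nat_lit 3) (nat_lit 359) (nat_lit 3) (nat_lit 439) (nat_lit 439) (nat_lit 322))) (XT.nd (nat_lit 78) (nat_lit 0) (nat_lit 0) (XT.lf (nat_lit 0) (nat_lit 12283736665) (nat_lit 1140) (nat_lit 729952329) (nat_lit 1216) (nat_lit 295917308) (nat_lit 344) (nat_lit 5) (nat_lit 359) (nat_lit 3) (nat_lit 360) (nat_lit 5) (nat_lit 440) (nat_lit 439) (nat_lit 321)) (XT.lf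 (nat_lit 76) (nat_lit 6055377695) (nat_lit 0) (nat_lit 6915391882) (nat_lit 1216) (nat_lit 526411324) (nat_lit 345) (nat_lit 5) (nat_lit 344) (nat_lit 5) (nat_lit 360) (nat_lit 5) (nat_lit 441) (nat_lit 439) (nat_lit 320))))) (XT.nd (nat_lit 312) (nat_lit 0) (nat_lit 76) (XT.nd (nat_lit 156) (nat_lit 0) (nat_lit 0) (XT.nd (nat_lit 78) (nat_lit 1140) (nat_lit 0) (XT.lf (nat_lit 76) (nat_lit 13051163755) (nat_lit 0) (nat_lit 619825729) (nat_lit 1216) (nat_lit 19616685) (nat_lit 345) (nat_lit 5) (nat_lit 344) (nat_lit 5) (nat_lit 360) (nat_lit 5) (nat_lit 442) (nat_lit 439) (nat_lit 319)) (XT.lf (nat_lit 0) (nat_lit 597466122) (nat_lit 1216) (nat_lit 7464860305) (nat_lit 1292) (nat_lit 5824216934) (nat_lit 329) (nat_lit 5) (nat_lit 345) (nat_lit 5) (nat_lit 346) (nat_lit 5) (nat_lit 443) (nat_lit 439) (nat_lit 318))) (XT.nd (nat_lit 78) (nat_lit 0) (nat_lit 76) (XT.lf (nat_lit 0) (nat_lit 1231222080) (nat_lit 1216)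 (nat_lit 395336068) (nat_lit 1292) (nat_lit 12461838694) (nat_lit 329) (nat_lit 5) (nat_lit 345) (nat_lit 5) (nat_lit 346) (nat_lit 5) (nat_lit 444) (nat_lit 439) (nat_lit 317)) (XT.lf (nat_lit 0) (nat_lit 1986534513) (nat_lit 1216) (nat_lit 7328617539) (nat_lit 1292) (nat_lit 4978078193) (nat_lit 330) (nat_lit 5) (nat_lit 346) (nat_lit 5) (nat_lit 347) (nat_lit 5) (nat_lit 445) (nat_lit 439) (nat_lit 316)))) (XT.nd (nat_lit 156) (nat_lit 0) (nat_lit 76) (XT.nd (nat_lit 78) (nat_lit 0) (nat_lit 76) (XT.lf (nat_lit 76) (nat_lit 25071905) (nat_lit 0) (nat_lit 2746489134) (nat_lit 1292) (nat_lit 11732436582) (nat_lit 331) (nat_lit 5) (nat_lit 330) (nat_lit 5) (nat_lit 347) (nat_lit 5) (nat_lit 446) (nat_lit 439) (nat_lit 315)) (XT.lf (nat_lit 0) (nat_lit 3680537136) (nat_lit 1216) (nat_lit 7017631876) (nat_lit 1292) (nat_lit 4019907637) (nat_lit 331) (nat_lit 5) (nat_lit 347) (nat_lit 5) (nat_lit 348) (nat_lit 5) (nat_lit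 447) (nat_lit 439) (nat_lit 314))) (XT.nd (nat_lit 78) (nat_lit 0) (nat_lit 76) (XT.lf (nat_lit 76) (nat_lit 644141956) (nat_lit 0) (nat_lit 3993429345) (nat_lit 1292) (nat_lit 10300383662) (nat_lit 332) (nat_lit 5) (nat_lit 331) (nat_lit 5) (nat_lit 348) (nat_lit 5) (nat_lit 448) (nat_lit 439) (nat_lit 313)) (XT.lf (nat_lit 0) (nat_lit 5710601588) (nat_lit 1216) (nat_lit 6520432908) (nat_lit 1292) (nat_lit 2930777136) (nat_lit 332) (nat_lit 5) (nat_lit 348) (nat_lit 5) (nat_lit 349) (nat_lit 5) (nat_lit 449) (nat_lit 439) (nat_lit 312)))))) (XT.nd (nat_lit 624) (nat_lit 3192) (nat_lit 0) (XT.nd (nat_lit 312) (nat_lit 1064) (nat_lit 0) (XT.nd (nat_lit 156) (nat_lit 0) (nat_lit 76) (XT.nd (nat_lit 78) (nat_lit 0) (nat_lit 76) (XT.lf (nat_lit 76) (nat_lit 1466433944) (nat_lit 0) (nat_lit 5391104463) (nat_lit 1292) (nat_lit 8533594671) (nat_lit 333) (nat_lit 5) (nat_lit 332) (nat_lit 5) (nat_lit 349) (nat_lit 5) (nat_lit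 450) (nat_lit 439) (nat_lit 311)) (XT.lf (nat_lit 0) (nat_lit 8109650641) (nat_lit 1216) (nat_lit 5824424519) (nat_lit 1292) (nat_lit 1691136515) (nat_lit 333) (nat_lit 5) (nat_lit 349) (nat_lit 5) (nat_lit 350) (nat_lit 5) (nat_lit 451) (nat_lit 439) (nat_lit 310))) (XT.nd (nat_lit 78) (nat_lit 0) (nat_lit 76) (XT.lf (nat_lit 76) (nat_lit 2505554481) (nat_lit 0) (nat_lit 6959944946) (nat_lit 1292) (nat_lit 6398828522) (nat_lit 334) (nat_lit 5) (nat_lit 333) (nat_lit 5) (nat_lit 350) (nat_lit 5) (nat_lit 452) (nat_lit 439) (nat_lit 309)) (XT.lf (nat_lit 0) (nat_lit 10912546895) (nat_lit 1216) (nat_lit 4915841839) (nat_lit 1292) (nat_lit 280713778) (nat_lit 334) (nat_lit 5) (nat_lit 350) (nat_lit 5) (nat_lit 351) (nat_lit 5) (nat_lit 453) (nat_lit 439) (nat_lit 308)))) (XT.nd (nat_lit 156) (nat_lit 1216) (nat_lit 0) (XT.nd (nat_lit 78) (nat_lit 0) (nat_lit 0) (XT.lf (nat_lit 76) (nat_lit 3776335399) (nat_lit 0) (nat_lit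 8721180281) (nat_lit 1292) (nat_lit 3860869819) (nat_lit 335) (nat_lit 5) (nat_lit 334) (nat_lit 5) (nat_lit 351) (nat_lit 5) (nat_lit 454) (nat_lit 439) (nat_lit 307)) (XT.lf (nat_lit 76) (nat_lit 12821312484) (nat_lit 0) (nat_lit 1347888217) (nat_lit 1292) (nat_lit 2444771727) (nat_lit 335) (nat_lit 5) (nat_lit 334) (nat_lit 5) (nat_lit 351) (nat_lit 5) (nat_lit 455) (nat_lit 439) (nat_lit 306))) (XT.nd (nat_lit 78) (nat_lit 76) (nat_lit 0) (XT.lf (nat_lit 0) (nat_lit 5294885333) (nat_lit 1216) (nat_lit 10696942854) (nat_lit 1292) (nat_lit 882375478) (nat_lit 319) (nat_lit 5) (nat_lit 335) (nat_lit 5) (nat_lit 336) (nat_lit 5) (nat_lit 456) (nat_lit 439) (nat_lit 305)) (XT.lf (nat_lit 0) (nat_lit 754692535) (nat_lit 1292) (nat_lit 2437918681) (nat_lit 76) (nat_lit 13948161906) (nat_lit 318) (nat_lit 5) (nat_lit 335) (nat_lit 5) (nat_lit 319) (nat_lit 5) (nat_lit 457) (nat_lit 439) (nat_lit 304))))) (XT.nd (nat_lit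 312) (nat_lit 1140) (nat_lit 0) (XT.nd (nat_lit 156) (nat_lit 1216) (nat_lit 0) (XT.nd (nat_lit 78) (nat_lit 0) (nat_lit 0) (XT.lf (nat_lit 0) (nat_lit 2526013340) (nat_lit 912) (nat_lit 10358852950) (nat_lit 76) (nat_lit 4527125431) (nat_lit 307) (nat_lit 5) (nat_lit 319) (nat_lit 5) (nat_lit 308) (nat_lit 5) (nat_lit 458) (nat_lit 439) (nat_lit 303)) (XT.lf (nat_lit 0) (nat_lit 4397410072) (nat_lit 912) (nat_lit 852427345) (nat_lit 76) (nat_lit 12440101776) (nat_lit 307) (nat_lit 5) (nat_lit 319) (nat_lit 5) (nat_lit 308) (nat_lit 5) (nat_lit 459) (nat_lit 439) (nat_lit 302))) (XT.nd (nat_lit 78) (nat_lit 608) (nat_lit 0) (XT.lf (nat_lit 0) (nat_lit 6429248311) (nat_lit 684) (nat_lit 8891562133) (nat_lit 76) (nat_lit 2652286049) (nat_lit 299) (nat_lit 5) (nat_lit 308) (nat_lit 5) (nat_lit 300) (nat_lit 5) (nat_lit 460) (nat_lit 439) (nat_lit 301)) (XT.lf (nat_lit 0) (nat_lit 1025645623) (nat_lit 608) (nat_lit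 7557861885) (nat_lit 684) (nat_lit 9679397414) (nat_lit 291) (nat_lit 5) (nat_lit 299) (nat_lit 5) (nat_lit 300) (nat_lit 5) (nat_lit 461) (nat_lit 439) (nat_lit 300)))) (XT.nd (nat_lit 156) (nat_lit 608) (nat_lit 0) (XT.nd (nat_lit 78) (nat_lit 532) (nat_lit 0) (XT.lf (nat_lit 0) (nat_lit 10888397761) (nat_lit 684) (nat_lit 7150160521) (nat_lit 76) (nat_lit 520269592) (nat_lit 291) (nat_lit 5) (nat_lit 300) (nat_lit 5) (nat_lit 292) (nat_lit 5) (nat_lit 462) (nat_lit 439) (nat_lit 299)) (XT.lf (nat_lit 0) (nat_lit 3218807758) (nat_lit 532) (nat_lit 10140774027) (nat_lit 608) (nat_lit 5501132677) (nat_lit 284) (nat_lit 5) (nat_lit 291) (nat_lit 5) (nat_lit 292) (nat_lit 5) (nat_lit 463) (nat_lit 439) (nat_lit 298))) (XT.nd (nat_lit 78) (nat_lit 608) (nat_lit 0) (XT.lf (nat_lit 0) (nat_lit 14036778215) (nat_lit 532) (nat_lit 1931869478) (nat_lit 608) (nat_lit 3201097914) (nat_lit 284) (nat_lit 5) (nat_lit 291) (nat_lit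 5) (nat_lit 292) (nat_lit 5) (nat_lit 464) (nat_lit 439) (nat_lit 297)) (XT.lf (nat_lit 0) (nat_lit 5731749712) (nat_lit 608) (nat_lit 13033827283) (nat_lit 684) (nat_lit 719183287) (nat_lit 276) (nat_lit 5) (nat_lit 284) (nat_lit 5) (nat_lit 285) (nat_lit 5) (nat_lit 465) (nat_lit 439) (nat_lit 296))))))) (XT.nd (nat_lit 1248) (nat_lit 3420) (nat_lit 0) (XT.nd (nat_lit 624) (nat_lit 2204) (nat_lit 0) (XT.nd (nat_lit 312) (nat_lit 988) (nat_lit 0) (XT.nd (nat_lit 156) (nat_lit 532) (nat_lit 0) (XT.nd (nat_lit 78) (nat_lit 532) (nat_lit 0) (XT.lf (nat_lit 0) (nat_lit 1864677437) (nat_lit 684) (nat_lit 2826051170) (nat_lit 76) (nat_lit 15116067141) (nat_lit 275) (nat_lit 5) (nat_lit 284) (nat_lit 5) (nat_lit 276) (nat_lit 5) (nat_lit 466) (nat_lit 439) (nat_lit 295)) (XT.lf (nat_lit 0) (nat_lit 4624579702) (nat_lit 608) (nat_lit 11593859065) (nat_lit 76) (nat_lit 3916450785) (nat_lit 268) (nat_lit 5) (nat_lit 276)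 (nat_lit 5) (nat_lit 269) (nat_lit 5) (nat_lit 467) (nat_lit 439) (nat_lit 294))) (XT.nd (nat_lit 78) (nat_lit 532) (nat_lit 0) (XT.lf (nat_lit 0) (nat_lit 7534787805) (nat_lit 608) (nat_lit 220238853) (nat_lit 76) (nat_lit 12715774549) (nat_lit 268) (nat_lit 5) (nat_lit 276) (nat_lit 5) (nat_lit 269) (nat_lit 5) (nat_lit 468) (nat_lit 439) (nat_lit 293)) (XT.lf (nat_lit 0) (nat_lit 10647741162) (nat_lit 608) (nat_lit 9109155340) (nat_lit 76) (nat_lit 1056430832) (nat_lit 261) (nat_lit 5) (nat_lit 269) (nat_lit 5) (nat_lit 262) (nat_lit 5) (nat_lit 469) (nat_lit 439) (nat_lit 292)))) (XT.nd (nat_lit 156) (nat_lit 532) (nat_lit 0) (XT.nd (nat_lit 78) (nat_lit 0) (nat_lit 0) (XT.lf (nat_lit 0) (nat_lit 2794003474) (nat_lit 456) (nat_lit 11158568759) (nat_lit 532) (nat_lit 7210602622) (nat_lit 255) (nat_lit 5) (nat_lit 261) (nat_lit 5) (nat_lit 262) (nat_lit 5) (nat_lit 470) (nat_lit 439) (nat_lit 291)) (XT.lf (nat_lit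 0) (nat_lit 15232588491) (nat_lit 456) (nat_lit 2208682080) (nat_lit 532) (nat_lit 4079705837) (nat_lit 255) (nat_lit 5) (nat_lit 261) (nat_lit 5) (nat_lit 262) (nat_lit 5) (nat_lit 471) (nat_lit 439) (nat_lit 290))) (XT.nd (nat_lit 78) (nat_lit 76) (nat_lit 0) (XT.lf (nat_lit 0) (nat_lit 6200069266) (nat_lit 456) (nat_lit 14954479644) (nat_lit 532) (nat_lit 731365794) (nat_lit 249) (nat_lit 5) (nat_lit 255) (nat_lit 5) (nat_lit 256) (nat_lit 5) (nat_lit 472) (nat_lit 439) (nat_lit 289)) (XT.lf (nat_lit 0) (nat_lit 2743390846) (nat_lit 532) (nat_lit 3124840264) (nat_lit 76) (nat_lit 16390416849) (nat_lit 248) (nat_lit 5) (nat_lit 255) (nat_lit 5) (nat_lit 249) (nat_lit 5) (nat_lit 473) (nat_lit 439) (nat_lit 288))))) (XT.nd (nat_lit 312) (nat_lit 912) (nat_lit 0) (XT.nd (nat_lit 156) (nat_lit 380) (nat_lit 0) (XT.nd (nat_lit 78) (nat_lit 456) (nat_lit 0) (XT.lf (nat_lit 0) (nat_lit 6431508553) (nat_lit 532) (nat_lit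 12681653671) (nat_lit 76) (nat_lit 3525469454) (nat_lit 242) (nat_lit 5) (nat_lit 249) (nat_lit 5) (nat_lit 243) (nat_lit 5) (nat_lit 474) (nat_lit 439) (nat_lit 287)) (XT.lf (nat_lit 0) (nat_lit 407503135) (nat_lit 456) (nat_lit 9909959004) (nat_lit 532) (nat_lit 12709937236) (nat_lit 236) (nat_lit 5) (nat_lit 242) (nat_lit 5) (nat_lit 243) (nat_lit 5) (nat_lit 475) (nat_lit 439) (nat_lit 286))) (XT.nd (nat_lit 78) (nat_lit 380) (nat_lit 0) (XT.lf (nat_lit 0) (nat_lit 14141103510) (nat_lit 456) (nat_lit 300373557) (nat_lit 532) (nat_lit 8982708786) (nat_lit 236) (nat_lit 5) (nat_lit 242) (nat_lit 5) (nat_lit 243) (nat_lit 5) (nat_lit 476) (nat_lit 439) (nat_lit 285)) (XT.lf (nat_lit 0) (nat_lit 4440090391) (nat_lit 380) (nat_lit 14377659339) (nat_lit 456) (nat_lit 5011270301) (nat_lit 231) (nat_lit 5) (nat_lit 236) (nat_lit 5) (nat_lit 237) (nat_lit 5) (nat_lit 477) (nat_lit 439) (nat_lit 284)))) (XT.nd (nat_lit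 156) (nat_lit 380) (nat_lit 0) (XT.nd (nat_lit 78) (nat_lit 532) (nat_lit 0) (XT.lf (nat_lit 0) (nat_lit 18754168225) (nat_lit 380) (nat_lit 4661536535) (nat_lit 456) (nat_lit 827582865) (nat_lit 231) (nat_lit 5) (nat_lit 236) (nat_lit 5) (nat_lit 237) (nat_lit 5) (nat_lit 478) (nat_lit 439) (nat_lit 283)) (XT.lf (nat_lit 0) (nat_lit 3546204216) (nat_lit 532) (nat_lit 15757994787) (nat_lit 76) (nat_lit 5360804592) (nat_lit 224) (nat_lit 5) (nat_lit 231) (nat_lit 5) (nat_lit 225) (nat_lit 5) (nat_lit 479) (nat_lit 439) (nat_lit 282))) (XT.nd (nat_lit 78) (nat_lit 380) (nat_lit 0) (XT.lf (nat_lit 0) (nat_lit 8130621112) (nat_lit 532) (nat_lit 1313088763) (nat_lit 76) (nat_lit 15652534057) (nat_lit 224) (nat_lit 5) (nat_lit 231) (nat_lit 5) (nat_lit 225) (nat_lit 5) (nat_lit 480) (nat_lit 439) (nat_lit 281)) (XT.lf (nat_lit 0) (nat_lit 12987728634) (nat_lit 456) (nat_lit 11717569104) (nat_lit 76) (nat_lit 831069189)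 (nat_lit 219) (nat_lit 5) (nat_lit 225) (nat_lit 5) (nat_lit 220) (nat_lit 5) (nat_lit 481) (nat_lit 439) (nat_lit 280)))))) (XT.nd (nat_lit 624) (nat_lit 1520) (nat_lit 0) (XT.nd (nat_lit 312) (nat_lit 1064) (nat_lit 0) (XT.nd (nat_lit 156) (nat_lit 456) (nat_lit 0) (XT.nd (nat_lit 78) (nat_lit 0) (nat_lit 0) (XT.lf (nat_lit 0) (nat_lit 3407244078) (nat_lit 380) (nat_lit 14717125241) (nat_lit 456) (nat_lit 7861309886) (nat_lit 214) (nat_lit 5) (nat_lit 219) (nat_lit 5) (nat_lit 220) (nat_lit 5) (nat_lit 482) (nat_lit 439) (nat_lit 279)) (XT.lf (nat_lit 0) (nat_lit 19218205135) (nat_lit 380) (nat_lit 4309497744) (nat_lit 456) (nat_lit 2917390342) (nat_lit 214) (nat_lit 5) (nat_lit 219) (nat_lit 5) (nat_lit 220) (nat_lit 5) (nat_lit 483) (nat_lit 439) (nat_lit 278))) (XT.nd (nat_lit 78) (nat_lit 0) (nat_lit 0) (XT.lf (nat_lit 0) (nat_lit 2273315000) (nat_lit 456) (nat_lit 18251039872) (nat_lit 76) (nat_lit 6389080561)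 (nat_lit 208) (nat_lit 5) (nat_lit 214) (nat_lit 5) (nat_lit 209) (nat_lit 5) (nat_lit 484) (nat_lit 439) (nat_lit 277)) (XT.lf (nat_lit 0) (nat_lit 7671924531) (nat_lit 456) (nat_lit 2297163575) (nat_lit 76) (nat_lit 17422548830) (nat_lit 208) (nat_lit 5) (nat_lit 214) (nat_lit 5) (nat_lit 209) (nat_lit 5) (nat_lit 485) (nat_lit 439) (nat_lit 276)))) (XT.nd (nat_lit 156) (nat_lit 380) (nat_lit 0) (XT.nd (nat_lit 78) (nat_lit 304) (nat_lit 0) (XT.lf (nat_lit 0) (nat_lit 13375642708) (nat_lit 456) (nat_lit 13481245614) (nat_lit 76) (nat_lit 1023001811) (nat_lit 203) (nat_lit 5) (nat_lit 209) (nat_lit 5) (nat_lit 204) (nat_lit 5) (nat_lit 486) (nat_lit 439) (nat_lit 275)) (XT.lf (nat_lit 0) (nat_lit 3216564744) (nat_lit 304) (nat_lit 16181635298) (nat_lit 380) (nat_lit 8980159215) (nat_lit 199) (nat_lit 5) (nat_lit 203) (nat_lit 5) (nat_lit 204) (nat_lit 5) (nat_lit 487) (nat_lit 439) (nat_lit 274))) (XT.nd (nat_lit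 78) (nat_lit 380) (nat_lit 0) (XT.lf (nat_lit 0) (nat_lit 20684146200) (nat_lit 304) (nat_lit 5048182479) (nat_lit 380) (nat_lit 3155527091) (nat_lit 199) (nat_lit 5) (nat_lit 203) (nat_lit 5) (nat_lit 204) (nat_lit 5) (nat_lit 488) (nat_lit 439) (nat_lit 273)) (XT.lf (nat_lit 0) (nat_lit 2936537920) (nat_lit 380) (nat_lit 20060062776) (nat_lit 76) (nat_lit 6410770895) (nat_lit 194) (nat_lit 5) (nat_lit 199) (nat_lit 5) (nat_lit 195) (nat_lit 5) (nat_lit 489) (nat_lit 439) (nat_lit 272))))) (XT.nd (nat_lit 312) (nat_lit 912) (nat_lit 0) (XT.nd (nat_lit 156) (nat_lit 304) (nat_lit 0) (XT.nd (nat_lit 78) (nat_lit 304) (nat_lit 0) (XT.lf (nat_lit 0) (nat_lit 9276505449) (nat_lit 380) (nat_lit 2436463514) (nat_lit 76) (nat_lit 18224709873) (nat_lit 194) (nat_lit 5) (nat_lit 199) (nat_lit 5) (nat_lit 195) (nat_lit 5) (nat_lit 490) (nat_lit 439) (nat_lit 271)) (XT.lf (nat_lit 0) (nat_lit 15956375364) (nat_lit 380) (nat_lit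 14458816387) (nat_lit 76) (nat_lit 64212582) (nat_lit 190) (nat_lit 5) (nat_lit 195) (nat_lit 5) (nat_lit 191) (nat_lit 5) (nat_lit 491) (nat_lit 439) (nat_lit 270))) (XT.nd (nat_lit 78) (nat_lit 0) (nat_lit 0) (XT.lf (nat_lit 0) (nat_lit 3999185452) (nat_lit 304) (nat_lit 19011836067) (nat_lit 380) (nat_lit 8021128803) (nat_lit 186) (nat_lit 5) (nat_lit 190) (nat_lit 5) (nat_lit 191) (nat_lit 5) (nat_lit 492) (nat_lit 439) (nat_lit 269)) (XT.lf (nat_lit 0) (nat_lit 23300098351) (nat_lit 304) (nat_lit 7118407550) (nat_lit 380) (nat_lit 1178736953) (nat_lit 186) (nat_lit 5) (nat_lit 190) (nat_lit 5) (nat_lit 191) (nat_lit 5) (nat_lit 493) (nat_lit 439) (nat_lit 268)))) (XT.nd (nat_lit 156) (nat_lit 532) (nat_lit 0) (XT.nd (nat_lit 78) (nat_lit 0) (nat_lit 0) (XT.lf (nat_lit 0) (nat_lit 5907844808) (nat_lit 380) (nat_lit 21070544927) (nat_lit 76) (nat_lit 5194602813) (nat_lit 181) (nat_lit 5) (nat_lit 186) (nat_lit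 5) (nat_lit 182) (nat_lit 5) (nat_lit 494) (nat_lit 439) (nat_lit 267)) (XT.lf (nat_lit 0) (nat_lit 13333759802) (nat_lit 380) (nat_lit 1599520808) (nat_lit 76) (nat_lit 17827871305) (nat_lit 181) (nat_lit 5) (nat_lit 186) (nat_lit 5) (nat_lit 182) (nat_lit 5) (nat_lit 495) (nat_lit 439) (nat_lit 266))) (XT.nd (nat_lit 78) (nat_lit 228) (nat_lit 0) (XT.lf (nat_lit 0) (nat_lit 18815856485) (nat_lit 304) (nat_lit 2342934697) (nat_lit 380) (nat_lit 12202874824) (nat_lit 177) (nat_lit 5) (nat_lit 181) (nat_lit 5) (nat_lit 182) (nat_lit 5) (nat_lit 496) (nat_lit 439) (nat_lit 265)) (XT.lf (nat_lit 0) (nat_lit 5902674595) (nat_lit 228) (nat_lit 23486598268) (nat_lit 304) (nat_lit 4585801788) (nat_lit 174) (nat_lit 5) (nat_lit 177) (nat_lit 5) (nat_lit 178) (nat_lit 5) (nat_lit 497) (nat_lit 439) (nat_lit 264))))))))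
noncomputable def xc178 : XT := (XT.nd (nat_lit 2418) (nat_lit 2052) (nat_lit 0) (XT.nd (nat_lit 1170) (nat_lit 1976) (nat_lit 0) (XT.nd (nat_lit 546) (nat_lit 1216) (nat_lit 0) (XT.nd (nat_lit 234) (nat_lit 532) (nat_lit 0) (XT.nd (nat_lit 78) (nat_lit 532) (nat_lit 0) (XT.lf (nat_lit 0) (nat_lit 3363241595) (nat_lit 304) (nat_lit 7402683697) (nat_lit 76) (nat_lit 23835008269) (nat_lit 173) (nat_lit 5) (nat_lit 177) (nat_lit 5) (nat_lit 174) (nat_lit 5) (nat_lit 498) (nat_lit 439) (nat_lit 263)) (XT.nd (nat_lit 78) (nat_lit 228) (nat_lit 0) (XT.lf (nat_lit 0) (nat_lit 11614112613) (nat_lit 380) (nat_lit 21154234434) (nat_lit 76) (nat_lit 2471193380) (nat_lit 169) (nat_lit 5) (nat_lit 174) (nat_lit 5) (nat_lit 170) (nat_lit 5) (nat_lit 499) (nat_lit 439) (nat_lit 262)) (XT.lf (nat_lit 0) (nat_lit 367620345) (nat_lit 228) (nat_lit 19926209758) (nat_lit 304) (nat_lit 15598035882) (nat_lit 166) (nat_lit 5) (nat_lit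 169) (nat_lit 5) (nat_lit 170) (nat_lit 5) (nat_lit 500) (nat_lit 439) (nat_lit 261)))) (XT.nd (nat_lit 156) (nat_lit 228) (nat_lit 0) (XT.nd (nat_lit 78) (nat_lit 304) (nat_lit 0) (XT.lf (nat_lit 0) (nat_lit 22961998875) (nat_lit 228) (nat_lit 6481317172) (nat_lit 304) (nat_lit 7114164051) (nat_lit 166) (nat_lit 5) (nat_lit 169) (nat_lit 5) (nat_lit 170) (nat_lit 5) (nat_lit 501) (nat_lit 439) (nat_lit 260)) (XT.lf (nat_lit 0) (nat_lit 1748119384) (nat_lit 304) (nat_lit 28164524852) (nat_lit 76) (nat_lit 7325282401) (nat_lit 162) (nat_lit 5) (nat_lit 166) (nat_lit 5) (nat_lit 163) (nat_lit 5) (nat_lit 502) (nat_lit 439) (nat_lit 259))) (XT.nd (nat_lit 78) (nat_lit 228) (nat_lit 0) (XT.lf (nat_lit 0) (nat_lit 10931979102) (nat_lit 304) (nat_lit 5376282936) (nat_lit 76) (nat_lit 21622450638) (nat_lit 162) (nat_lit 5) (nat_lit 166) (nat_lit 5) (nat_lit 163) (nat_lit 5) (nat_lit 503) (nat_lit 439) (nat_lit 258)) (XT.lf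 (nat_lit 0) (nat_lit 18449117583) (nat_lit 228) (nat_lit 2115578309) (nat_lit 304) (nat_lit 18074386252) (nat_lit 159) (nat_lit 5) (nat_lit 162) (nat_lit 5) (nat_lit 163) (nat_lit 5) (nat_lit 504) (nat_lit 439) (nat_lit 257))))) (XT.nd (nat_lit 312) (nat_lit 684) (nat_lit 0) (XT.nd (nat_lit 156) (nat_lit 228) (nat_lit 0) (XT.nd (nat_lit 78) (nat_lit 76) (nat_lit 0) (XT.lf (nat_lit 0) (nat_lit 3676913235) (nat_lit 228) (nat_lit 27015866449) (nat_lit 304) (nat_lit 8669731528) (nat_lit 156) (nat_lit 5) (nat_lit 159) (nat_lit 5) (nat_lit 160) (nat_lit 5) (nat_lit 505) (nat_lit 439) (nat_lit 256)) (XT.lf (nat_lit 0) (nat_lit 1220102862) (nat_lit 304) (nat_lit 11467139647) (nat_lit 76) (nat_lit 27413420826) (nat_lit 155) (nat_lit 5) (nat_lit 159) (nat_lit 5) (nat_lit 156) (nat_lit 5) (nat_lit 506) (nat_lit 439) (nat_lit 255))) (XT.nd (nat_lit 78) (nat_lit 0) (nat_lit 0) (XT.lf (nat_lit 0) (nat_lit 11381804416) (nat_lit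 304) (nat_lit 27224516117) (nat_lit 76) (nat_lit 2247581640) (nat_lit 152) (nat_lit 5) (nat_lit 156) (nat_lit 5) (nat_lit 153) (nat_lit 5) (nat_lit 507) (nat_lit 439) (nat_lit 254)) (XT.lf (nat_lit 0) (nat_lit 22087100679) (nat_lit 304) (nat_lit 2045534473) (nat_lit 76) (nat_lit 17489940786) (nat_lit 152) (nat_lit 5) (nat_lit 156) (nat_lit 5) (nat_lit 153) (nat_lit 5) (nat_lit 508) (nat_lit 439) (nat_lit 253)))) (XT.nd (nat_lit 156) (nat_lit 228) (nat_lit 0) (XT.nd (nat_lit 78) (nat_lit 228) (nat_lit 0) (XT.lf (nat_lit 0) (nat_lit 24357933395) (nat_lit 228) (nat_lit 8986062184) (nat_lit 304) (nat_lit 9063401218) (nat_lit 149) (nat_lit 5) (nat_lit 152) (nat_lit 5) (nat_lit 153) (nat_lit 5) (nat_lit 509) (nat_lit 439) (nat_lit 252)) (XT.lf (nat_lit 0) (nat_lit 1853064404) (nat_lit 228) (nat_lit 34753387754) (nat_lit 76) (nat_lit 6603897917) (nat_lit 146) (nat_lit 5) (nat_lit 149) (nat_lit 5) (nat_lit 147) (nat_lit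 5) (nat_lit 510) (nat_lit 439) (nat_lit 251))) (XT.nd (nat_lit 78) (nat_lit 228) (nat_lit 0) (XT.lf (nat_lit 0) (nat_lit 13184231712) (nat_lit 228) (nat_lit 8090090513) (nat_lit 76) (nat_lit 22752296501) (nat_lit 146) (nat_lit 5) (nat_lit 149) (nat_lit 5) (nat_lit 147) (nat_lit 5) (nat_lit 511) (nat_lit 439) (nat_lit 250)) (XT.lf (nat_lit 0) (nat_lit 19752498071) (nat_lit 228) (nat_lit 5289149264) (nat_lit 304) (nat_lit 19820138765) (nat_lit 143) (nat_lit 5) (nat_lit 146) (nat_lit 5) (nat_lit 147) (nat_lit 5) (nat_lit 512) (nat_lit 439) (nat_lit 249)))))) (XT.nd (nat_lit 624) (nat_lit 912) (nat_lit 0) (XT.nd (nat_lit 312) (nat_lit 608) (nat_lit 0) (XT.nd (nat_lit 156) (nat_lit 228) (nat_lit 0) (XT.nd (nat_lit 78) (nat_lit 76) (nat_lit 0) (XT.lf (nat_lit 0) (nat_lit 2817313847) (nat_lit 152) (nat_lit 34650945218) (nat_lit 228) (nat_lit 8247345281) (nat_lit 141) (nat_lit 5) (nat_lit 143) (nat_lit 5) (nat_lit 144)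 (nat_lit 5) (nat_lit 513) (nat_lit 439) (nat_lit 248)) (XT.lf (nat_lit 0) (nat_lit 3905871649) (nat_lit 228) (nat_lit 14587265799) (nat_lit 76) (nat_lit 28091693464) (nat_lit 140) (nat_lit 5) (nat_lit 143) (nat_lit 5) (nat_lit 141) (nat_lit 5) (nat_lit 514) (nat_lit 439) (nat_lit 247))) (XT.nd (nat_lit 78) (nat_lit 0) (nat_lit 0) (XT.lf (nat_lit 0) (nat_lit 14773817299) (nat_lit 228) (nat_lit 1622695100) (nat_lit 304) (nat_lit 31077014502) (nat_lit 137) (nat_lit 5) (nat_lit 140) (nat_lit 5) (nat_lit 141) (nat_lit 5) (nat_lit 515) (nat_lit 439) (nat_lit 246)) (XT.lf (nat_lit 0) (nat_lit 29558664962) (nat_lit 304) (nat_lit 3228527039) (nat_lit 76) (nat_lit 15592788046) (nat_lit 137) (nat_lit 5) (nat_lit 141) (nat_lit 5) (nat_lit 138) (nat_lit 5) (nat_lit 516) (nat_lit 439) (nat_lit 245)))) (XT.nd (nat_lit 156) (nat_lit 152) (nat_lit 0) (XT.nd (nat_lit 78) (nat_lit 304) (nat_lit 0) (XT.lf (nat_lit 0) (nat_lit 27644413684)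 (nat_lit 152) (nat_lit 15749764495) (nat_lit 228) (nat_lit 5911093777) (nat_lit 135) (nat_lit 5) (nat_lit 137) (nat_lit 5) (nat_lit 138) (nat_lit 5) (nat_lit 517) (nat_lit 439) (nat_lit 244)) (XT.lf (nat_lit 0) (nat_lit 7381067515) (nat_lit 304) (nat_lit 40913894134) (nat_lit 76) (nat_lit 1957067859) (nat_lit 131) (nat_lit 5) (nat_lit 135) (nat_lit 5) (nat_lit 132) (nat_lit 5) (nat_lit 518) (nat_lit 439) (nat_lit 243))) (XT.nd (nat_lit 78) (nat_lit 152) (nat_lit 0) (XT.lf (nat_lit 0) (nat_lit 21326744152) (nat_lit 304) (nat_lit 9731912235) (nat_lit 76) (nat_lit 20155570946) (nat_lit 131) (nat_lit 5) (nat_lit 135) (nat_lit 5) (nat_lit 132) (nat_lit 5) (nat_lit 519) (nat_lit 439) (nat_lit 242)) (XT.lf (nat_lit 0) (nat_lit 22825321711) (nat_lit 152) (nat_lit 13081697337) (nat_lit 228) (nat_lit 16291785254) (nat_lit 129) (nat_lit 5) (nat_lit 131) (nat_lit 5) (nat_lit 132) (nat_lit 5) (nat_lit 520) (nat_lit 439) (nat_lit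 241))))) (XT.nd (nat_lit 312) (nat_lit 532) (nat_lit 0) (XT.nd (nat_lit 156) (nat_lit 152) (nat_lit 0) (XT.nd (nat_lit 78) (nat_lit 76) (nat_lit 0) (XT.lf (nat_lit 0) (nat_lit 3355432310) (nat_lit 152) (nat_lit 47749844103) (nat_lit 228) (nat_lit 2102224986) (nat_lit 127) (nat_lit 5) (nat_lit 129) (nat_lit 5) (nat_lit 130) (nat_lit 5) (nat_lit 521) (nat_lit 439) (nat_lit 240)) (XT.lf (nat_lit 0) (nat_lit 12694761832) (nat_lit 228) (nat_lit 16827595611) (nat_lit 76) (nat_lit 24707716108) (nat_lit 126) (nat_lit 5) (nat_lit 129) (nat_lit 5) (nat_lit 127) (nat_lit 5) (nat_lit 522) (nat_lit 439) (nat_lit 239))) (XT.nd (nat_lit 78) (nat_lit 0) (nat_lit 0) (XT.lf (nat_lit 0) (nat_lit 17502870615) (nat_lit 152) (nat_lit 10555716075) (nat_lit 228) (nat_lit 27219156362) (nat_lit 124) (nat_lit 5) (nat_lit 126) (nat_lit 5) (nat_lit 127) (nat_lit 5) (nat_lit 523) (nat_lit 439) (nat_lit 238)) (XT.lf (nat_lit 0) (nat_lit 44138202060)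 (nat_lit 228) (nat_lit 3237033528) (nat_lit 76) (nat_lit 8973960819) (nat_lit 124) (nat_lit 5) (nat_lit 127) (nat_lit 5) (nat_lit 125) (nat_lit 5) (nat_lit 524) (nat_lit 439) (nat_lit 237)))) (XT.nd (nat_lit 156) (nat_lit 152) (nat_lit 0) (XT.nd (nat_lit 78) (nat_lit 152) (nat_lit 0) (XT.lf (nat_lit 0) (nat_lit 3605677464) (nat_lit 228) (nat_lit 24607133103) (nat_lit 76) (nat_lit 29226397339) (nat_lit 121) (nat_lit 5) (nat_lit 124) (nat_lit 5) (nat_lit 122) (nat_lit 5) (nat_lit 525) (nat_lit 439) (nat_lit 236)) (XT.lf (nat_lit 0) (nat_lit 11588244450) (nat_lit 152) (nat_lit 8204623318) (nat_lit 228) (nat_lit 38761181575) (nat_lit 119) (nat_lit 5) (nat_lit 121) (nat_lit 5) (nat_lit 122) (nat_lit 5) (nat_lit 526) (nat_lit 439) (nat_lit 235))) (XT.nd (nat_lit 78) (nat_lit 152) (nat_lit 0) (XT.lf (nat_lit 0) (nat_lit 36832906135) (nat_lit 228) (nat_lit 10448014703) (nat_lit 76) (nat_lit 12410398251) (nat_lit 119) (nat_lit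 5) (nat_lit 122) (nat_lit 5) (nat_lit 120) (nat_lit 5) (nat_lit 527) (nat_lit 439) (nat_lit 234)) (XT.lf (nat_lit 0) (nat_lit 27617808521) (nat_lit 152) (nat_lit 27110191379) (nat_lit 228) (nat_lit 6124391434) (nat_lit 117) (nat_lit 5) (nat_lit 119) (nat_lit 5) (nat_lit 120) (nat_lit 5) (nat_lit 528) (nat_lit 439) (nat_lit 233))))))) (XT.nd (nat_lit 1248) (nat_lit 380) (nat_lit 0) (XT.nd (nat_lit 624) (nat_lit 760) (nat_lit 0) (XT.nd (nat_lit 312) (nat_lit 456) (nat_lit 0) (XT.nd (nat_lit 156) (nat_lit 228) (nat_lit 0) (XT.nd (nat_lit 78) (nat_lit 0) (nat_lit 0) (XT.lf (nat_lit 0) (nat_lit 4978751038) (nat_lit 152) (nat_lit 6067626177) (nat_lit 228) (nat_lit 50994167560) (nat_lit 114) (nat_lit 5) (nat_lit 116) (nat_lit 5) (nat_lit 117) (nat_lit 5) (nat_lit 529) (nat_lit 439) (nat_lit 232)) (XT.lf (nat_lit 0) (nat_lit 29095276396) (nat_lit 228) (nat_lit 18453697227) (nat_lit 76) (nat_lit 15698967052) (nat_lit 114)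 (nat_lit 5) (nat_lit 117) (nat_lit 5) (nat_lit 115) (nat_lit 5) (nat_lit 530) (nat_lit 439) (nat_lit 231))) (XT.nd (nat_lit 78) (nat_lit 76) (nat_lit 0) (XT.lf (nat_lit 0) (nat_lit 21670378512) (nat_lit 152) (nat_lit 26280889494) (nat_lit 228) (nat_lit 16532321714) (nat_lit 112) (nat_lit 5) (nat_lit 114) (nat_lit 5) (nat_lit 115) (nat_lit 5) (nat_lit 531) (nat_lit 439) (nat_lit 230)) (XT.lf (nat_lit 0) (nat_lit 1770522230) (nat_lit 228) (nat_lit 2396704253) (nat_lit 76) (nat_lit 61583052458) (nat_lit 111) (nat_lit 5) (nat_lit 114) (nat_lit 5) (nat_lit 112) (nat_lit 5) (nat_lit 532) (nat_lit 439) (nat_lit 229)))) (XT.nd (nat_lit 156) (nat_lit 152) (nat_lit 0) (XT.nd (nat_lit 78) (nat_lit 152) (nat_lit 0) (XT.lf (nat_lit 0) (nat_lit 20854752278) (nat_lit 228) (nat_lit 27381786799) (nat_lit 76) (nat_lit 18796581678) (nat_lit 109) (nat_lit 5) (nat_lit 112) (nat_lit 5) (nat_lit 110) (nat_lit 5) (nat_lit 533) (nat_lit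 439) (nat_lit 228)) (XT.lf (nat_lit 0) (nat_lit 14900563057) (nat_lit 152) (nat_lit 25817216978) (nat_lit 228) (nat_lit 27630479691) (nat_lit 107) (nat_lit 5) (nat_lit 109) (nat_lit 5) (nat_lit 110) (nat_lit 5) (nat_lit 534) (nat_lit 439) (nat_lit 227))) (XT.nd (nat_lit 78) (nat_lit 152) (nat_lit 0) (XT.lf (nat_lit 0) (nat_lit 59007808516) (nat_lit 152) (nat_lit 2442759370) (nat_lit 228) (nat_lit 8244068928) (nat_lit 107) (nat_lit 5) (nat_lit 109) (nat_lit 5) (nat_lit 110) (nat_lit 5) (nat_lit 535) (nat_lit 439) (nat_lit 226)) (XT.lf (nat_lit 0) (nat_lit 12030722672) (nat_lit 152) (nat_lit 37379682284) (nat_lit 76) (nat_lit 21651552416) (nat_lit 105) (nat_lit 5) (nat_lit 107) (nat_lit 5) (nat_lit 106) (nat_lit 5) (nat_lit 536) (nat_lit 439) (nat_lit 225))))) (XT.nd (nat_lit 312) (nat_lit 456) (nat_lit 0) (XT.nd (nat_lit 156) (nat_lit 152) (nat_lit 0) (XT.nd (nat_lit 78) (nat_lit 0) (nat_lit 0) (XT.lf (nat_lit 0)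 (nat_lit 7162556858) (nat_lit 152) (nat_lit 25784951557) (nat_lit 228) (nat_lit 39514356982) (nat_lit 103) (nat_lit 5) (nat_lit 105) (nat_lit 5) (nat_lit 106) (nat_lit 5) (nat_lit 537) (nat_lit 439) (nat_lit 224)) (XT.lf (nat_lit 0) (nat_lit 53802564220) (nat_lit 152) (nat_lit 1064151247) (nat_lit 228) (nat_lit 19025807687) (nat_lit 103) (nat_lit 5) (nat_lit 105) (nat_lit 5) (nat_lit 106) (nat_lit 5) (nat_lit 538) (nat_lit 439) (nat_lit 223))) (XT.nd (nat_lit 78) (nat_lit 0) (nat_lit 0) (XT.lf (nat_lit 0) (nat_lit 2530966003) (nat_lit 152) (nat_lit 48617599944) (nat_lit 76) (nat_lit 24202112479) (nat_lit 101) (nat_lit 5) (nat_lit 103) (nat_lit 5) (nat_lit 102) (nat_lit 5) (nat_lit 539) (nat_lit 439) (nat_lit 222)) (XT.lf (nat_lit 0) (nat_lit 24564970501) (nat_lit 152) (nat_lit 1679444828) (nat_lit 76) (nat_lit 50596123994) (nat_lit 101) (nat_lit 5) (nat_lit 103) (nat_lit 5) (nat_lit 102) (nat_lit 5) (nat_lit 540)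 (nat_lit 439) (nat_lit 221)))) (XT.nd (nat_lit 156) (nat_lit 228) (nat_lit 0) (XT.nd (nat_lit 78) (nat_lit 76) (nat_lit 0) (XT.lf (nat_lit 0) (nat_lit 47590997653) (nat_lit 152) (nat_lit 124057230) (nat_lit 228) (nat_lit 30646389393) (nat_lit 99) (nat_lit 5) (nat_lit 101) (nat_lit 5) (nat_lit 102) (nat_lit 5) (nat_lit 541) (nat_lit 439) (nat_lit 220)) (XT.lf (nat_lit 0) (nat_lit 18546288740) (nat_lit 76) (nat_lit 53463776236) (nat_lit 152) (nat_lit 7904398726) (nat_lit 98) (nat_lit 5) (nat_lit 99) (nat_lit 5) (nat_lit 100) (nat_lit 4) (nat_lit 542) (nat_lit 439) (nat_lit 219))) (XT.nd (nat_lit 78) (nat_lit 152) (nat_lit 0) (XT.lf (nat_lit 0) (nat_lit 15529625715) (nat_lit 152) (nat_lit 11689492478) (nat_lit 76) (nat_lit 54281101280) (nat_lit 97) (nat_lit 5) (nat_lit 99) (nat_lit 5) (nat_lit 98) (nat_lit 5) (nat_lit 543) (nat_lit 439) (nat_lit 218)) (XT.lf (nat_lit 0) (nat_lit 39894491013) (nat_lit 228) (nat_lit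 42941506187) (nat_lit 76) (nat_lit 283602173) (nat_lit 95) (nat_lit 5) (nat_lit 98) (nat_lit 5) (nat_lit 96) (nat_lit 4) (nat_lit 544) (nat_lit 439) (nat_lit 217)))))) (XT.nd (nat_lit 54522) (nat_lit 0) (nat_lit 18088) (XT.nd (nat_lit 312) (nat_lit 76) (nat_lit 0) (XT.nd (nat_lit 156) (nat_lit 152) (nat_lit 0) (XT.nd (nat_lit 78) (nat_lit 76) (nat_lit 0) (XT.lf (nat_lit 0) (nat_lit 8957015239) (nat_lit 76) (nat_lit 56505765844) (nat_lit 152) (nat_lit 19310605242) (nat_lit 94) (nat_lit 5) (nat_lit 95) (nat_lit 5) (nat_lit 96) (nat_lit 4) (nat_lit 545) (nat_lit 439) (nat_lit 216)) (XT.lf (nat_lit 0) (nat_lit 5653088510) (nat_lit 152) (nat_lit 23230888843) (nat_lit 76) (nat_lit 57578207175) (nat_lit 93) (nat_lit 5) (nat_lit 95) (nat_lit 5) (nat_lit 94) (nat_lit 5) (nat_lit 546) (nat_lit 439) (nat_lit 215))) (XT.nd (nat_lit 78) (nat_lit 0) (nat_lit 0) (XT.lf (nat_lit 0) (nat_lit 31277341915) (nat_lit 228) (nat_lit 56839232074)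 (nat_lit 76) (nat_lit 70343693) (nat_lit 91) (nat_lit 5) (nat_lit 94) (nat_lit 5) (nat_lit 92) (nat_lit 4) (nat_lit 547) (nat_lit 439) (nat_lit 214)) (XT.lf (nat_lit 0) (nat_lit 58190960799) (nat_lit 228) (nat_lit 2209123613) (nat_lit 76) (nat_lit 29547689299) (nat_lit 91) (nat_lit 5) (nat_lit 94) (nat_lit 5) (nat_lit 92) (nat_lit 4) (nat_lit 548) (nat_lit 439) (nat_lit 213)))) (XT.nd (nat_lit 54054) (nat_lit 0) (nat_lit 18088) (XT.nd (nat_lit 53976) (nat_lit 0) (nat_lit 19304) (XT.lf (nat_lit 0) (nat_lit 55131534464) (nat_lit 76) (nat_lit 31308226227) (nat_lit 152) (nat_lit 5305861574) (nat_lit 90) (nat_lit 5) (nat_lit 91) (nat_lit 5) (nat_lit 92) (nat_lit 4) (nat_lit 549) (nat_lit 439) (nat_lit 212)) (XT.lf (nat_lit 0) (nat_lit 3209838241) (nat_lit 0) (nat_lit 3209838241) (nat_lit 1140) (nat_lit 327853214) (nat_lit 344) (nat_lit 5) (nat_lit 344) (nat_lit 3) (nat_lit 359) (nat_lit 3) (nat_lit 440) (nat_lit 440)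 (nat_lit 320))) (XT.nd (nat_lit 78) (nat_lit 1216) (nat_lit 0) (XT.lf (nat_lit 0) (nat_lit 13335409795) (nat_lit 0) (nat_lit 64427530) (nat_lit 1140) (nat_lit 286593474) (nat_lit 344) (nat_lit 5) (nat_lit 344) (nat_lit 3) (nat_lit 359) (nat_lit 3) (nat_lit 441) (nat_lit 440) (nat_lit 319)) (XT.lf (nat_lit 0) (nat_lit 204663143) (nat_lit 1216) (nat_lit 7247644365) (nat_lit 1292) (nat_lit 6427822621) (nat_lit 328) (nat_lit 5) (nat_lit 344) (nat_lit 5) (nat_lit 345) (nat_lit 5) (nat_lit 442) (nat_lit 440) (nat_lit 318))))) (XT.nd (nat_lit 312) (nat_lit 0) (nat_lit 152) (XT.nd (nat_lit 156) (nat_lit 0) (nat_lit 76) (XT.nd (nat_lit 78) (nat_lit 0) (nat_lit 76) (XT.lf (nat_lit 0) (nat_lit 695030313) (nat_lit 1216) (nat_lit 258236371) (nat_lit 1292) (nat_lit 13126585284) (nat_lit 328) (nat_lit 5) (nat_lit 344) (nat_lit 5) (nat_lit 345) (nat_lit 5) (nat_lit 443) (nat_lit 440) (nat_lit 317)) (XT.lf (nat_lit 0) (nat_lit 1310321155)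 (nat_lit 1216) (nat_lit 7268668831) (nat_lit 1292) (nat_lit 5703269728) (nat_lit 329) (nat_lit 5) (nat_lit 345) (nat_lit 5) (nat_lit 346) (nat_lit 5) (nat_lit 444) (nat_lit 440) (nat_lit 316))) (XT.nd (nat_lit 78) (nat_lit 0) (nat_lit 76) (XT.lf (nat_lit 76) (nat_lit 718137) (nat_lit 0) (nat_lit 1942137848) (nat_lit 1292) (nat_lit 12547920762) (nat_lit 330) (nat_lit 5) (nat_lit 329) (nat_lit 5) (nat_lit 346) (nat_lit 5) (nat_lit 445) (nat_lit 440) (nat_lit 315)) (XT.lf (nat_lit 0) (nat_lit 2702600846) (nat_lit 1216) (nat_lit 7122325570) (nat_lit 1292) (nat_lit 4877376449) (nat_lit 330) (nat_lit 5) (nat_lit 346) (nat_lit 5) (nat_lit 347) (nat_lit 5) (nat_lit 446) (nat_lit 440) (nat_lit 314)))) (XT.nd (nat_lit 156) (nat_lit 0) (nat_lit 76) (XT.nd (nat_lit 78) (nat_lit 0) (nat_lit 76) (XT.lf (nat_lit 76) (nat_lit 447796611) (nat_lit 0) (nat_lit 3048317321) (nat_lit 1292) (nat_lit 11423732137) (nat_lit 331) (nat_lit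 5) (nat_lit 330) (nat_lit 5) (nat_lit 347) (nat_lit 5) (nat_lit 447) (nat_lit 440) (nat_lit 313)) (XT.lf (nat_lit 0) (nat_lit 4411629690) (nat_lit 1216) (nat_lit 6797720677) (nat_lit 1292) (nat_lit 3931619843) (nat_lit 331) (nat_lit 5) (nat_lit 347) (nat_lit 5) (nat_lit 348) (nat_lit 5) (nat_lit 448) (nat_lit 440) (nat_lit 312))) (XT.nd (nat_lit 78) (nat_lit 0) (nat_lit 76) (XT.lf (nat_lit 76) (nat_lit 1089686368) (nat_lit 0) (nat_lit 4293707645) (nat_lit 1292) (nat_lit 9984471113) (nat_lit 332) (nat_lit 5) (nat_lit 331) (nat_lit 5) (nat_lit 348) (nat_lit 5) (nat_lit 449) (nat_lit 440) (nat_lit 311)) (XT.lf (nat_lit 0) (nat_lit 6469260154) (nat_lit 1216) (nat_lit 6282858052) (nat_lit 1292) (nat_lit 2846900747) (nat_lit 332) (nat_lit 5) (nat_lit 348) (nat_lit 5) (nat_lit 349) (nat_lit 5) (nat_lit 450) (nat_lit 440) (nat_lit 310))))))))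
noncomputable def xc179 : XT := (XT.nd (nat_lit 2418) (nat_lit 6156) (nat_lit 0) (XT.nd (nat_lit 1170) (nat_lit 4560) (nat_lit 0) (XT.nd (nat_lit 546) (nat_lit 2660) (nat_lit 0) (XT.nd (nat_lit 234) (nat_lit 988) (nat_lit 0) (XT.nd (nat_lit 78) (nat_lit 0) (nat_lit 76) (XT.lf (nat_lit 76) (nat_lit 1939367866) (nat_lit 0) (nat_lit 5698253448) (nat_lit 1292) (nat_lit 8197989021) (nat_lit 333) (nat_lit 5) (nat_lit 332) (nat_lit 5) (nat_lit 349) (nat_lit 5) (nat_lit 451) (nat_lit 440) (nat_lit 309)) (XT.nd (nat_lit 78) (nat_lit 0) (nat_lit 0) (XT.lf (nat_lit 0) (nat_lit 8909210966) (nat_lit 1216) (nat_lit 5564598551) (nat_lit 1292) (nat_lit 1603445111) (nat_lit 333) (nat_lit 5) (nat_lit 349) (nat_lit 5) (nat_lit 350) (nat_lit 5) (nat_lit 452) (nat_lit 440) (nat_lit 308)) (XT.lf (nat_lit 76) (nat_lit 3011019440) (nat_lit 0) (nat_lit 7282650004) (nat_lit 1292) (nat_lit 6030237656) (nat_lit 334) (nat_lit 5) (nat_lit 333)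 (nat_lit 5) (nat_lit 350) (nat_lit 5) (nat_lit 453) (nat_lit 440) (nat_lit 307)))) (XT.nd (nat_lit 156) (nat_lit 1140) (nat_lit 0) (XT.nd (nat_lit 78) (nat_lit 0) (nat_lit 0) (XT.lf (nat_lit 0) (nat_lit 11767214653) (nat_lit 1216) (nat_lit 4628614226) (nat_lit 1292) (nat_lit 180704144) (nat_lit 334) (nat_lit 5) (nat_lit 350) (nat_lit 5) (nat_lit 351) (nat_lit 5) (nat_lit 454) (nat_lit 440) (nat_lit 306)) (XT.lf (nat_lit 76) (nat_lit 4320066536) (nat_lit 0) (nat_lit 9068445628) (nat_lit 1292) (nat_lit 3445119640) (nat_lit 335) (nat_lit 5) (nat_lit 334) (nat_lit 5) (nat_lit 351) (nat_lit 5) (nat_lit 455) (nat_lit 440) (nat_lit 305))) (XT.nd (nat_lit 78) (nat_lit 1140) (nat_lit 0) (XT.lf (nat_lit 76) (nat_lit 13623855815) (nat_lit 0) (nat_lit 1471460727) (nat_lit 1292) (nat_lit 2002021409) (nat_lit 335) (nat_lit 5) (nat_lit 334) (nat_lit 5) (nat_lit 351) (nat_lit 5) (nat_lit 456) (nat_lit 440) (nat_lit 304)) (XT.lf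 (nat_lit 0) (nat_lit 5883236136) (nat_lit 1216) (nat_lit 11078146105) (nat_lit 1292) (nat_lit 404331756) (nat_lit 319) (nat_lit 5) (nat_lit 335) (nat_lit 5) (nat_lit 336) (nat_lit 5) (nat_lit 457) (nat_lit 440) (nat_lit 303))))) (XT.nd (nat_lit 312) (nat_lit 1140) (nat_lit 0) (XT.nd (nat_lit 156) (nat_lit 608) (nat_lit 0) (XT.nd (nat_lit 78) (nat_lit 836) (nat_lit 0) (XT.lf (nat_lit 0) (nat_lit 1257595526) (nat_lit 1292) (nat_lit 2084483122) (nat_lit 76) (nat_lit 14298489252) (nat_lit 318) (nat_lit 5) (nat_lit 335) (nat_lit 5) (nat_lit 319) (nat_lit 5) (nat_lit 458) (nat_lit 440) (nat_lit 302)) (XT.lf (nat_lit 0) (nat_lit 3071667157) (nat_lit 912) (nat_lit 10232636668) (nat_lit 76) (nat_lit 4615931494) (nat_lit 307) (nat_lit 5) (nat_lit 319) (nat_lit 5) (nat_lit 308) (nat_lit 5) (nat_lit 459) (nat_lit 440) (nat_lit 301))) (XT.nd (nat_lit 78) (nat_lit 608) (nat_lit 0) (XT.lf (nat_lit 0) (nat_lit 4985520156) (nat_lit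 912) (nat_lit 453745923) (nat_lit 76) (nat_lit 12767666286) (nat_lit 307) (nat_lit 5) (nat_lit 319) (nat_lit 5) (nat_lit 308) (nat_lit 5) (nat_lit 460) (nat_lit 440) (nat_lit 300)) (XT.lf (nat_lit 0) (nat_lit 7068806688) (nat_lit 684) (nat_lit 8724529093) (nat_lit 76) (nat_lit 2705534374) (nat_lit 299) (nat_lit 5) (nat_lit 308) (nat_lit 5) (nat_lit 300) (nat_lit 5) (nat_lit 461) (nat_lit 440) (nat_lit 299)))) (XT.nd (nat_lit 156) (nat_lit 532) (nat_lit 0) (XT.nd (nat_lit 78) (nat_lit 0) (nat_lit 0) (XT.lf (nat_lit 0) (nat_lit 1485942151) (nat_lit 608) (nat_lit 7792870262) (nat_lit 684) (nat_lit 9518827406) (nat_lit 291) (nat_lit 5) (nat_lit 299) (nat_lit 5) (nat_lit 300) (nat_lit 5) (nat_lit 462) (nat_lit 440) (nat_lit 298)) (XT.lf (nat_lit 0) (nat_lit 11640020723) (nat_lit 684) (nat_lit 6934802298) (nat_lit 76) (nat_lit 528002831) (nat_lit 291) (nat_lit 5) (nat_lit 300) (nat_lit 5) (nat_lit 292) (nat_lit 5) (nat_lit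 463) (nat_lit 440) (nat_lit 297))) (XT.nd (nat_lit 78) (nat_lit 0) (nat_lit 0) (XT.lf (nat_lit 0) (nat_lit 3741020686) (nat_lit 532) (nat_lit 10436033381) (nat_lit 608) (nat_lit 5236964074) (nat_lit 284) (nat_lit 5) (nat_lit 291) (nat_lit 5) (nat_lit 292) (nat_lit 5) (nat_lit 464) (nat_lit 440) (nat_lit 296)) (XT.lf (nat_lit 0) (nat_lit 14871132721) (nat_lit 532) (nat_lit 1981122779) (nat_lit 608) (nat_lit 2880429314) (nat_lit 284) (nat_lit 5) (nat_lit 291) (nat_lit 5) (nat_lit 292) (nat_lit 5) (nat_lit 465) (nat_lit 440) (nat_lit 295)))))) (XT.nd (nat_lit 624) (nat_lit 1900) (nat_lit 0) (XT.nd (nat_lit 312) (nat_lit 912) (nat_lit 0) (XT.nd (nat_lit 156) (nat_lit 1064) (nat_lit 0) (XT.nd (nat_lit 78) (nat_lit 76) (nat_lit 0) (XT.lf (nat_lit 0) (nat_lit 6324853057) (nat_lit 608) (nat_lit 13400586242) (nat_lit 684) (nat_lit 331940720) (nat_lit 276) (nat_lit 5) (nat_lit 284) (nat_lit 5) (nat_lit 285) (nat_lit 5) (nat_lit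 466) (nat_lit 440) (nat_lit 294)) (XT.lf (nat_lit 0) (nat_lit 2309783346) (nat_lit 684) (nat_lit 2494187932) (nat_lit 76) (nat_lit 15585338084) (nat_lit 275) (nat_lit 5) (nat_lit 284) (nat_lit 5) (nat_lit 276) (nat_lit 5) (nat_lit 467) (nat_lit 440) (nat_lit 293))) (XT.nd (nat_lit 78) (nat_lit 532) (nat_lit 0) (XT.lf (nat_lit 0) (nat_lit 5145409256) (nat_lit 608) (nat_lit 11517941795) (nat_lit 76) (nat_lit 4064107576) (nat_lit 268) (nat_lit 5) (nat_lit 276) (nat_lit 5) (nat_lit 269) (nat_lit 5) (nat_lit 468) (nat_lit 440) (nat_lit 292)) (XT.lf (nat_lit 0) (nat_lit 188218096) (nat_lit 532) (nat_lit 7945385875) (nat_lit 608) (nat_lit 12940123682) (nat_lit 261) (nat_lit 5) (nat_lit 268) (nat_lit 5) (nat_lit 269) (nat_lit 5) (nat_lit 469) (nat_lit 440) (nat_lit 291)))) (XT.nd (nat_lit 156) (nat_lit 456) (nat_lit 0) (XT.nd (nat_lit 78) (nat_lit 456) (nat_lit 0) (XT.lf (nat_lit 0) (nat_lit 11331663752) (nat_lit 608) (nat_lit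 8964551793) (nat_lit 76) (nat_lit 1130562904) (nat_lit 261) (nat_lit 5) (nat_lit 269) (nat_lit 5) (nat_lit 262) (nat_lit 5) (nat_lit 470) (nat_lit 440) (nat_lit 290)) (XT.lf (nat_lit 0) (nat_lit 3291604939) (nat_lit 456) (nat_lit 11437396111) (nat_lit 532) (nat_lit 7058319915) (nat_lit 255) (nat_lit 5) (nat_lit 261) (nat_lit 5) (nat_lit 262) (nat_lit 5) (nat_lit 471) (nat_lit 440) (nat_lit 289))) (XT.nd (nat_lit 78) (nat_lit 456) (nat_lit 0) (XT.lf (nat_lit 0) (nat_lit 16091295623) (nat_lit 456) (nat_lit 2220641852) (nat_lit 532) (nat_lit 3844232171) (nat_lit 255) (nat_lit 5) (nat_lit 261) (nat_lit 5) (nat_lit 262) (nat_lit 5) (nat_lit 472) (nat_lit 440) (nat_lit 288)) (XT.lf (nat_lit 0) (nat_lit 6793679182) (nat_lit 456) (nat_lit 15337240641) (nat_lit 532) (nat_lit 401307482) (nat_lit 249) (nat_lit 5) (nat_lit 255) (nat_lit 5) (nat_lit 256) (nat_lit 5) (nat_lit 473) (nat_lit 440) (nat_lit 287))))) (XT.nd (nat_lit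 312) (nat_lit 912) (nat_lit 0) (XT.nd (nat_lit 156) (nat_lit 456) (nat_lit 0) (XT.nd (nat_lit 78) (nat_lit 456) (nat_lit 0) (XT.lf (nat_lit 0) (nat_lit 3160770738) (nat_lit 532) (nat_lit 2816168923) (nat_lit 76) (nat_lit 16939403321) (nat_lit 248) (nat_lit 5) (nat_lit 255) (nat_lit 5) (nat_lit 249) (nat_lit 5) (nat_lit 474) (nat_lit 440) (nat_lit 286)) (XT.lf (nat_lit 0) (nat_lit 6954269137) (nat_lit 532) (nat_lit 12654412173) (nat_lit 76) (nat_lit 3699203139) (nat_lit 242) (nat_lit 5) (nat_lit 249) (nat_lit 5) (nat_lit 243) (nat_lit 5) (nat_lit 475) (nat_lit 440) (nat_lit 285))) (XT.nd (nat_lit 78) (nat_lit 0) (nat_lit 0) (XT.lf (nat_lit 0) (nat_lit 823422366) (nat_lit 456) (nat_lit 10127653248) (nat_lit 532) (nat_lit 12757411677) (nat_lit 236) (nat_lit 5) (nat_lit 242) (nat_lit 5) (nat_lit 243) (nat_lit 5) (nat_lit 476) (nat_lit 440) (nat_lit 284)) (XT.lf (nat_lit 0) (nat_lit 14957272670) (nat_lit 456) (nat_lit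 232098816) (nat_lit 532) (nat_lit 8928089393) (nat_lit 236) (nat_lit 5) (nat_lit 242) (nat_lit 5) (nat_lit 243) (nat_lit 5) (nat_lit 477) (nat_lit 440) (nat_lit 283)))) (XT.nd (nat_lit 156) (nat_lit 532) (nat_lit 0) (XT.nd (nat_lit 78) (nat_lit 0) (nat_lit 0) (XT.lf (nat_lit 0) (nat_lit 4970008908) (nat_lit 380) (nat_lit 14722293611) (nat_lit 456) (nat_lit 4842276780) (nat_lit 231) (nat_lit 5) (nat_lit 236) (nat_lit 5) (nat_lit 237) (nat_lit 5) (nat_lit 478) (nat_lit 440) (nat_lit 282)) (XT.lf (nat_lit 0) (nat_lit 19701954248) (nat_lit 380) (nat_lit 4717212235) (nat_lit 456) (nat_lit 542379642) (nat_lit 231) (nat_lit 5) (nat_lit 236) (nat_lit 5) (nat_lit 237) (nat_lit 5) (nat_lit 479) (nat_lit 440) (nat_lit 281))) (XT.nd (nat_lit 78) (nat_lit 0) (nat_lit 0) (XT.lf (nat_lit 0) (nat_lit 3952292257) (nat_lit 532) (nat_lit 15835224936) (nat_lit 76) (nat_lit 5608435638) (nat_lit 224) (nat_lit 5) (nat_lit 231) (nat_lit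 5) (nat_lit 225) (nat_lit 5) (nat_lit 480) (nat_lit 440) (nat_lit 280)) (XT.lf (nat_lit 0) (nat_lit 8665512478) (nat_lit 532) (nat_lit 968491431) (nat_lit 76) (nat_lit 16206388630) (nat_lit 224) (nat_lit 5) (nat_lit 231) (nat_lit 5) (nat_lit 225) (nat_lit 5) (nat_lit 481) (nat_lit 440) (nat_lit 279))))))) (XT.nd (nat_lit 1248) (nat_lit 2584) (nat_lit 0) (XT.nd (nat_lit 624) (nat_lit 1672) (nat_lit 0) (XT.nd (nat_lit 312) (nat_lit 684) (nat_lit 0) (XT.nd (nat_lit 156) (nat_lit 456) (nat_lit 0) (XT.nd (nat_lit 78) (nat_lit 380) (nat_lit 0) (XT.lf (nat_lit 0) (nat_lit 13664417535) (nat_lit 456) (nat_lit 11681181239) (nat_lit 76) (nat_lit 948238199) (nat_lit 219) (nat_lit 5) (nat_lit 225) (nat_lit 5) (nat_lit 220) (nat_lit 5) (nat_lit 482) (nat_lit 440) (nat_lit 278)) (XT.lf (nat_lit 0) (nat_lit 3893573251) (nat_lit 380) (nat_lit 15056915623) (nat_lit 456) (nat_lit 7806280071) (nat_lit 214) (nat_lit 5) (nat_lit 219)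 (nat_lit 5) (nat_lit 220) (nat_lit 5) (nat_lit 483) (nat_lit 440) (nat_lit 277))) (XT.nd (nat_lit 78) (nat_lit 456) (nat_lit 0) (XT.lf (nat_lit 0) (nat_lit 20167675416) (nat_lit 380) (nat_lit 4340022118) (nat_lit 456) (nat_lit 2722514857) (nat_lit 214) (nat_lit 5) (nat_lit 219) (nat_lit 5) (nat_lit 220) (nat_lit 5) (nat_lit 484) (nat_lit 440) (nat_lit 276)) (XT.lf (nat_lit 0) (nat_lit 2614922018) (nat_lit 456) (nat_lit 18416640628) (nat_lit 76) (nat_lit 6681065403) (nat_lit 208) (nat_lit 5) (nat_lit 214) (nat_lit 5) (nat_lit 209) (nat_lit 5) (nat_lit 485) (nat_lit 440) (nat_lit 275)))) (XT.nd (nat_lit 156) (nat_lit 304) (nat_lit 0) (XT.nd (nat_lit 78) (nat_lit 380) (nat_lit 0) (XT.lf (nat_lit 0) (nat_lit 8167526507) (nat_lit 456) (nat_lit 1995272230) (nat_lit 76) (nat_lit 18042615999) (nat_lit 208) (nat_lit 5) (nat_lit 214) (nat_lit 5) (nat_lit 209) (nat_lit 5) (nat_lit 486) (nat_lit 440) (nat_lit 274)) (XT.lf (nat_lit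 0) (nat_lit 14039172566) (nat_lit 456) (nat_lit 13511685318) (nat_lit 76) (nat_lit 1157553389) (nat_lit 203) (nat_lit 5) (nat_lit 209) (nat_lit 5) (nat_lit 204) (nat_lit 5) (nat_lit 487) (nat_lit 440) (nat_lit 273))) (XT.nd (nat_lit 78) (nat_lit 0) (nat_lit 0) (XT.lf (nat_lit 0) (nat_lit 3683392707) (nat_lit 304) (nat_lit 16554935104) (nat_lit 380) (nat_lit 8983629249) (nat_lit 199) (nat_lit 5) (nat_lit 203) (nat_lit 5) (nat_lit 204) (nat_lit 5) (nat_lit 488) (nat_lit 440) (nat_lit 272)) (XT.lf (nat_lit 0) (nat_lit 21664215267) (nat_lit 304) (nat_lit 5090745183) (nat_lit 380) (nat_lit 2992003833) (nat_lit 199) (nat_lit 5) (nat_lit 203) (nat_lit 5) (nat_lit 204) (nat_lit 5) (nat_lit 489) (nat_lit 440) (nat_lit 271))))) (XT.nd (nat_lit 312) (nat_lit 684) (nat_lit 0) (XT.nd (nat_lit 156) (nat_lit 608) (nat_lit 0) (XT.nd (nat_lit 78) (nat_lit 0) (nat_lit 0) (XT.lf (nat_lit 0) (nat_lit 3274956286) (nat_lit 380) (nat_lit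 20294439162) (nat_lit 76) (nat_lit 6712680741) (nat_lit 194) (nat_lit 5) (nat_lit 199) (nat_lit 5) (nat_lit 195) (nat_lit 5) (nat_lit 490) (nat_lit 440) (nat_lit 270)) (XT.lf (nat_lit 0) (nat_lit 9797831901) (nat_lit 380) (nat_lit 2152833635) (nat_lit 76) (nat_lit 18877846043) (nat_lit 194) (nat_lit 5) (nat_lit 199) (nat_lit 5) (nat_lit 195) (nat_lit 5) (nat_lit 491) (nat_lit 440) (nat_lit 269))) (XT.nd (nat_lit 78) (nat_lit 304) (nat_lit 0) (XT.lf (nat_lit 0) (nat_lit 16675509430) (nat_lit 380) (nat_lit 14533262122) (nat_lit 76) (nat_lit 177795138) (nat_lit 190) (nat_lit 5) (nat_lit 195) (nat_lit 5) (nat_lit 191) (nat_lit 5) (nat_lit 492) (nat_lit 440) (nat_lit 268)) (XT.lf (nat_lit 0) (nat_lit 4474957039) (nat_lit 304) (nat_lit 19463254871) (nat_lit 380) (nat_lit 8017790830) (nat_lit 186) (nat_lit 5) (nat_lit 190) (nat_lit 5) (nat_lit 191) (nat_lit 5) (nat_lit 493) (nat_lit 440) (nat_lit 267)))) (XT.nd (nat_lit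 156) (nat_lit 304) (nat_lit 0) (XT.nd (nat_lit 78) (nat_lit 380) (nat_lit 0) (XT.lf (nat_lit 0) (nat_lit 24344534334) (nat_lit 304) (nat_lit 7216487662) (nat_lit 380) (nat_lit 977233199) (nat_lit 186) (nat_lit 5) (nat_lit 190) (nat_lit 5) (nat_lit 191) (nat_lit 5) (nat_lit 494) (nat_lit 440) (nat_lit 266)) (XT.lf (nat_lit 0) (nat_lit 6315024074) (nat_lit 380) (nat_lit 21350294598) (nat_lit 76) (nat_lit 5465959570) (nat_lit 181) (nat_lit 5) (nat_lit 186) (nat_lit 5) (nat_lit 182) (nat_lit 5) (nat_lit 495) (nat_lit 440) (nat_lit 265))) (XT.nd (nat_lit 78) (nat_lit 304) (nat_lit 0) (XT.lf (nat_lit 0) (nat_lit 13957019122) (nat_lit 380) (nat_lit 1305402863) (nat_lit 76) (nat_lit 18474861495) (nat_lit 181) (nat_lit 5) (nat_lit 186) (nat_lit 5) (nat_lit 182) (nat_lit 5) (nat_lit 496) (nat_lit 440) (nat_lit 264)) (XT.lf (nat_lit 0) (nat_lit 19719081793) (nat_lit 304) (nat_lit 2294473593) (nat_lit 380) (nat_lit 12342355152)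 (nat_lit 177) (nat_lit 5) (nat_lit 181) (nat_lit 5) (nat_lit 182) (nat_lit 5) (nat_lit 497) (nat_lit 440) (nat_lit 263)))))) (XT.nd (nat_lit 624) (nat_lit 1216) (nat_lit 0) (XT.nd (nat_lit 312) (nat_lit 532) (nat_lit 0) (XT.nd (nat_lit 156) (nat_lit 532) (nat_lit 0) (XT.nd (nat_lit 78) (nat_lit 76) (nat_lit 0) (XT.lf (nat_lit 0) (nat_lit 6420593762) (nat_lit 228) (nat_lit 24068334569) (nat_lit 304) (nat_lit 4498853965) (nat_lit 174) (nat_lit 5) (nat_lit 177) (nat_lit 5) (nat_lit 178) (nat_lit 5) (nat_lit 498) (nat_lit 440) (nat_lit 262)) (XT.lf (nat_lit 0) (nat_lit 3677867625) (nat_lit 304) (nat_lit 7289594031) (nat_lit 76) (nat_lit 24665083074) (nat_lit 173) (nat_lit 5) (nat_lit 177) (nat_lit 5) (nat_lit 174) (nat_lit 5) (nat_lit 499) (nat_lit 440) (nat_lit 261))) (XT.nd (nat_lit 78) (nat_lit 228) (nat_lit 0) (XT.lf (nat_lit 0) (nat_lit 12174394892) (nat_lit 380) (nat_lit 21451816580) (nat_lit 76) (nat_lit 2664154571)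 (nat_lit 169) (nat_lit 5) (nat_lit 174) (nat_lit 5) (nat_lit 170) (nat_lit 5) (nat_lit 500) (nat_lit 440) (nat_lit 260)) (XT.lf (nat_lit 0) (nat_lit 712389480) (nat_lit 228) (nat_lit 20399151898) (nat_lit 304) (nat_lit 15850809008) (nat_lit 166) (nat_lit 5) (nat_lit 169) (nat_lit 5) (nat_lit 170) (nat_lit 5) (nat_lit 501) (nat_lit 440) (nat_lit 259)))) (XT.nd (nat_lit 156) (nat_lit 228) (nat_lit 0) (XT.nd (nat_lit 78) (nat_lit 304) (nat_lit 0) (XT.lf (nat_lit 0) (nat_lit 23974878768) (nat_lit 228) (nat_lit 6554548772) (nat_lit 304) (nat_lit 7118688050) (nat_lit 166) (nat_lit 5) (nat_lit 169) (nat_lit 5) (nat_lit 170) (nat_lit 5) (nat_lit 502) (nat_lit 440) (nat_lit 258)) (XT.lf (nat_lit 0) (nat_lit 2003726113) (nat_lit 304) (nat_lit 28679694187) (nat_lit 76) (nat_lit 7665544951) (nat_lit 162) (nat_lit 5) (nat_lit 166) (nat_lit 5) (nat_lit 163) (nat_lit 5) (nat_lit 503) (nat_lit 440) (nat_lit 257))) (XT.nd (nat_lit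 78) (nat_lit 228) (nat_lit 0) (XT.lf (nat_lit 0) (nat_lit 11457184250) (nat_lit 304) (nat_lit 5217409861) (nat_lit 76) (nat_lit 22388118408) (nat_lit 162) (nat_lit 5) (nat_lit 166) (nat_lit 5) (nat_lit 163) (nat_lit 5) (nat_lit 504) (nat_lit 440) (nat_lit 256)) (XT.lf (nat_lit 0) (nat_lit 19319613835) (nat_lit 228) (nat_lit 2056571103) (nat_lit 304) (nat_lit 18416229182) (nat_lit 159) (nat_lit 5) (nat_lit 162) (nat_lit 5) (nat_lit 163) (nat_lit 5) (nat_lit 505) (nat_lit 440) (nat_lit 255))))) (XT.nd (nat_lit 312) (nat_lit 684) (nat_lit 0) (XT.nd (nat_lit 156) (nat_lit 228) (nat_lit 0) (XT.nd (nat_lit 78) (nat_lit 76) (nat_lit 0) (XT.lf (nat_lit 0) (nat_lit 4105752762) (nat_lit 228) (nat_lit 27700896966) (nat_lit 304) (nat_lit 8730940296) (nat_lit 156) (nat_lit 5) (nat_lit 159) (nat_lit 5) (nat_lit 160) (nat_lit 5) (nat_lit 506) (nat_lit 440) (nat_lit 254)) (XT.lf (nat_lit 0) (nat_lit 1446028521) (nat_lit 304) (nat_lit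 11498127752) (nat_lit 76) (nat_lit 28353843584) (nat_lit 155) (nat_lit 5) (nat_lit 159) (nat_lit 5) (nat_lit 156) (nat_lit 5) (nat_lit 507) (nat_lit 440) (nat_lit 253))) (XT.nd (nat_lit 78) (nat_lit 0) (nat_lit 0) (XT.lf (nat_lit 0) (nat_lit 11911230350) (nat_lit 304) (nat_lit 27726871150) (nat_lit 76) (nat_lit 2435774991) (nat_lit 152) (nat_lit 5) (nat_lit 156) (nat_lit 5) (nat_lit 153) (nat_lit 5) (nat_lit 508) (nat_lit 440) (nat_lit 252)) (XT.lf (nat_lit 0) (nat_lit 22932210594) (nat_lit 304) (nat_lit 1801676770) (nat_lit 76) (nat_lit 18131887458) (nat_lit 152) (nat_lit 5) (nat_lit 156) (nat_lit 5) (nat_lit 153) (nat_lit 5) (nat_lit 509) (nat_lit 440) (nat_lit 251)))) (XT.nd (nat_lit 156) (nat_lit 228) (nat_lit 0) (XT.nd (nat_lit 78) (nat_lit 228) (nat_lit 0) (XT.lf (nat_lit 0) (nat_lit 25390902745) (nat_lit 228) (nat_lit 9133499385) (nat_lit 304) (nat_lit 9149810584) (nat_lit 149) (nat_lit 5) (nat_lit 152) (nat_lit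 5) (nat_lit 153) (nat_lit 5) (nat_lit 510) (nat_lit 440) (nat_lit 250)) (XT.lf (nat_lit 0) (nat_lit 2089329234) (nat_lit 228) (nat_lit 35488931785) (nat_lit 76) (nat_lit 6922976180) (nat_lit 146) (nat_lit 5) (nat_lit 149) (nat_lit 5) (nat_lit 147) (nat_lit 5) (nat_lit 511) (nat_lit 440) (nat_lit 249))) (XT.nd (nat_lit 78) (nat_lit 228) (nat_lit 0) (XT.lf (nat_lit 0) (nat_lit 13755169243) (nat_lit 228) (nat_lit 8034679053) (nat_lit 76) (nat_lit 23552303576) (nat_lit 146) (nat_lit 5) (nat_lit 149) (nat_lit 5) (nat_lit 147) (nat_lit 5) (nat_lit 512) (nat_lit 440) (nat_lit 248)) (XT.lf (nat_lit 0) (nat_lit 20640264501) (nat_lit 228) (nat_lit 5325771349) (nat_lit 304) (nat_lit 20236406651) (nat_lit 143) (nat_lit 5) (nat_lit 146) (nat_lit 5) (nat_lit 147) (nat_lit 5) (nat_lit 513) (nat_lit 440) (nat_lit 247))))))))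
noncomputable def xc180 : XT := (XT.nd (nat_lit 2418) (nat_lit 456) (nat_lit 0) (XT.nd (nat_lit 1170) (nat_lit 1672) (nat_lit 0) (XT.nd (nat_lit 546) (nat_lit 912) (nat_lit 0) (XT.nd (nat_lit 234) (nat_lit 456) (nat_lit 0) (XT.nd (nat_lit 78) (nat_lit 304) (nat_lit 0) (XT.lf (nat_lit 0) (nat_lit 3198115205) (nat_lit 152) (nat_lit 35566274954) (nat_lit 228) (nat_lit 8317516896) (nat_lit 141) (nat_lit 5) (nat_lit 143) (nat_lit 5) (nat_lit 144) (nat_lit 5) (nat_lit 514) (nat_lit 440) (nat_lit 246)) (XT.nd (nat_lit 78) (nat_lit 228) (nat_lit 0) (XT.lf (nat_lit 0) (nat_lit 4191775936) (nat_lit 228) (nat_lit 14733870627) (nat_lit 76) (nat_lit 29051664679) (nat_lit 140) (nat_lit 5) (nat_lit 143) (nat_lit 5) (nat_lit 141) (nat_lit 5) (nat_lit 515) (nat_lit 440) (nat_lit 245)) (XT.lf (nat_lit 0) (nat_lit 15505191895) (nat_lit 228) (nat_lit 1549799573) (nat_lit 304) (nat_lit 31837741056) (nat_lit 137) (nat_lit 5) (nat_lit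 140) (nat_lit 5) (nat_lit 141) (nat_lit 5) (nat_lit 516) (nat_lit 440) (nat_lit 244)))) (XT.nd (nat_lit 156) (nat_lit 304) (nat_lit 0) (XT.nd (nat_lit 78) (nat_lit 152) (nat_lit 0) (XT.lf (nat_lit 0) (nat_lit 30608291283) (nat_lit 304) (nat_lit 3041895866) (nat_lit 76) (nat_lit 16176303713) (nat_lit 137) (nat_lit 5) (nat_lit 141) (nat_lit 5) (nat_lit 138) (nat_lit 5) (nat_lit 517) (nat_lit 440) (nat_lit 243)) (XT.lf (nat_lit 0) (nat_lit 28754453795) (nat_lit 152) (nat_lit 16102370755) (nat_lit 228) (nat_lit 5922778415) (nat_lit 135) (nat_lit 5) (nat_lit 137) (nat_lit 5) (nat_lit 138) (nat_lit 5) (nat_lit 518) (nat_lit 440) (nat_lit 242))) (XT.nd (nat_lit 78) (nat_lit 0) (nat_lit 0) (XT.lf (nat_lit 0) (nat_lit 7764048361) (nat_lit 304) (nat_lit 41856499081) (nat_lit 76) (nat_lit 2134194111) (nat_lit 131) (nat_lit 5) (nat_lit 135) (nat_lit 5) (nat_lit 132) (nat_lit 5) (nat_lit 519) (nat_lit 440) (nat_lit 241)) (XT.lf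 (nat_lit 0) (nat_lit 22123389992) (nat_lit 304) (nat_lit 9747353217) (nat_lit 76) (nat_lit 20875203333) (nat_lit 131) (nat_lit 5) (nat_lit 135) (nat_lit 5) (nat_lit 132) (nat_lit 5) (nat_lit 520) (nat_lit 440) (nat_lit 240))))) (XT.nd (nat_lit 312) (nat_lit 380) (nat_lit 0) (XT.nd (nat_lit 156) (nat_lit 228) (nat_lit 0) (XT.nd (nat_lit 78) (nat_lit 152) (nat_lit 0) (XT.lf (nat_lit 0) (nat_lit 23783886803) (nat_lit 152) (nat_lit 13355250059) (nat_lit 228) (nat_lit 16620982113) (nat_lit 129) (nat_lit 5) (nat_lit 131) (nat_lit 5) (nat_lit 132) (nat_lit 5) (nat_lit 521) (nat_lit 440) (nat_lit 239)) (XT.lf (nat_lit 0) (nat_lit 3730688509) (nat_lit 152) (nat_lit 49061890769) (nat_lit 228) (nat_lit 2006520652) (nat_lit 127) (nat_lit 5) (nat_lit 129) (nat_lit 5) (nat_lit 130) (nat_lit 5) (nat_lit 522) (nat_lit 440) (nat_lit 238))) (XT.nd (nat_lit 78) (nat_lit 152) (nat_lit 0) (XT.lf (nat_lit 0) (nat_lit 13226743413) (nat_lit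 228) (nat_lit 17062818105) (nat_lit 76) (nat_lit 25562878029) (nat_lit 126) (nat_lit 5) (nat_lit 129) (nat_lit 5) (nat_lit 127) (nat_lit 5) (nat_lit 523) (nat_lit 440) (nat_lit 237)) (XT.lf (nat_lit 0) (nat_lit 18294918918) (nat_lit 152) (nat_lit 10754728204) (nat_lit 228) (nat_lit 27881947147) (nat_lit 124) (nat_lit 5) (nat_lit 126) (nat_lit 5) (nat_lit 127) (nat_lit 5) (nat_lit 524) (nat_lit 440) (nat_lit 236)))) (XT.nd (nat_lit 156) (nat_lit 152) (nat_lit 0) (XT.nd (nat_lit 78) (nat_lit 228) (nat_lit 0) (XT.lf (nat_lit 0) (nat_lit 45608400398) (nat_lit 228) (nat_lit 3071705461) (nat_lit 76) (nat_lit 9355182940) (nat_lit 124) (nat_lit 5) (nat_lit 127) (nat_lit 5) (nat_lit 125) (nat_lit 5) (nat_lit 525) (nat_lit 440) (nat_lit 235)) (XT.lf (nat_lit 0) (nat_lit 3859574622) (nat_lit 228) (nat_lit 25082578886) (nat_lit 76) (nat_lit 30215857011) (nat_lit 121) (nat_lit 5) (nat_lit 124) (nat_lit 5) (nat_lit 122) (nat_lit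 5) (nat_lit 526) (nat_lit 440) (nat_lit 234))) (XT.nd (nat_lit 78) (nat_lit 0) (nat_lit 0) (XT.lf (nat_lit 0) (nat_lit 12196083835) (nat_lit 152) (nat_lit 8334553454) (nat_lit 228) (nat_lit 39775712263) (nat_lit 119) (nat_lit 5) (nat_lit 121) (nat_lit 5) (nat_lit 122) (nat_lit 5) (nat_lit 527) (nat_lit 440) (nat_lit 233)) (XT.lf (nat_lit 0) (nat_lit 38078767645) (nat_lit 228) (nat_lit 10505730624) (nat_lit 76) (nat_lit 12893332447) (nat_lit 119) (nat_lit 5) (nat_lit 122) (nat_lit 5) (nat_lit 120) (nat_lit 5) (nat_lit 528) (nat_lit 440) (nat_lit 232)))))) (XT.nd (nat_lit 624) (nat_lit 760) (nat_lit 0) (XT.nd (nat_lit 312) (nat_lit 380) (nat_lit 0) (XT.nd (nat_lit 156) (nat_lit 152) (nat_lit 0) (XT.nd (nat_lit 78) (nat_lit 228) (nat_lit 0) (XT.lf (nat_lit 0) (nat_lit 28699560194) (nat_lit 152) (nat_lit 27809484974) (nat_lit 228) (nat_lit 6164740082) (nat_lit 117) (nat_lit 5) (nat_lit 119) (nat_lit 5) (nat_lit 120)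 (nat_lit 5) (nat_lit 529) (nat_lit 440) (nat_lit 231)) (XT.lf (nat_lit 0) (nat_lit 5381620555) (nat_lit 152) (nat_lit 6135075302) (nat_lit 228) (nat_lit 52380895872) (nat_lit 114) (nat_lit 5) (nat_lit 116) (nat_lit 5) (nat_lit 117) (nat_lit 5) (nat_lit 530) (nat_lit 440) (nat_lit 230))) (XT.nd (nat_lit 78) (nat_lit 152) (nat_lit 0) (XT.lf (nat_lit 0) (nat_lit 30104084916) (nat_lit 228) (nat_lit 18758206236) (nat_lit 76) (nat_lit 16279007713) (nat_lit 114) (nat_lit 5) (nat_lit 117) (nat_lit 5) (nat_lit 115) (nat_lit 5) (nat_lit 531) (nat_lit 440) (nat_lit 229)) (XT.lf (nat_lit 0) (nat_lit 22567149600) (nat_lit 152) (nat_lit 26957018003) (nat_lit 228) (nat_lit 16889897481) (nat_lit 112) (nat_lit 5) (nat_lit 114) (nat_lit 5) (nat_lit 115) (nat_lit 5) (nat_lit 532) (nat_lit 440) (nat_lit 228)))) (XT.nd (nat_lit 156) (nat_lit 152) (nat_lit 0) (XT.nd (nat_lit 78) (nat_lit 152) (nat_lit 0) (XT.lf (nat_lit 0) (nat_lit 1955378985)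 (nat_lit 228) (nat_lit 2226506611) (nat_lit 76) (nat_lit 63536948086) (nat_lit 111) (nat_lit 5) (nat_lit 114) (nat_lit 5) (nat_lit 112) (nat_lit 5) (nat_lit 533) (nat_lit 440) (nat_lit 227)) (XT.lf (nat_lit 0) (nat_lit 21611655944) (nat_lit 228) (nat_lit 27960660289) (nat_lit 76) (nat_lit 19467858957) (nat_lit 109) (nat_lit 5) (nat_lit 112) (nat_lit 5) (nat_lit 110) (nat_lit 5) (nat_lit 534) (nat_lit 440) (nat_lit 226))) (XT.nd (nat_lit 78) (nat_lit 0) (nat_lit 0) (XT.lf (nat_lit 0) (nat_lit 15587781827) (nat_lit 152) (nat_lit 26481278536) (nat_lit 228) (nat_lit 28325753432) (nat_lit 107) (nat_lit 5) (nat_lit 109) (nat_lit 5) (nat_lit 110) (nat_lit 5) (nat_lit 535) (nat_lit 440) (nat_lit 225)) (XT.lf (nat_lit 0) (nat_lit 61011248478) (nat_lit 152) (nat_lit 2408804335) (nat_lit 228) (nat_lit 8361642793) (nat_lit 107) (nat_lit 5) (nat_lit 109) (nat_lit 5) (nat_lit 110) (nat_lit 5) (nat_lit 536) (nat_lit 440) (nat_lit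 224))))) (XT.nd (nat_lit 312) (nat_lit 304) (nat_lit 0) (XT.nd (nat_lit 156) (nat_lit 152) (nat_lit 0) (XT.nd (nat_lit 78) (nat_lit 152) (nat_lit 0) (XT.lf (nat_lit 0) (nat_lit 12518434236) (nat_lit 152) (nat_lit 38264906283) (nat_lit 76) (nat_lit 22406670674) (nat_lit 105) (nat_lit 5) (nat_lit 107) (nat_lit 5) (nat_lit 106) (nat_lit 5) (nat_lit 537) (nat_lit 440) (nat_lit 223)) (XT.lf (nat_lit 0) (nat_lit 7611284675) (nat_lit 152) (nat_lit 26449993886) (nat_lit 228) (nat_lit 40570681282) (nat_lit 103) (nat_lit 5) (nat_lit 105) (nat_lit 5) (nat_lit 106) (nat_lit 5) (nat_lit 538) (nat_lit 440) (nat_lit 222))) (XT.nd (nat_lit 78) (nat_lit 152) (nat_lit 0) (XT.lf (nat_lit 0) (nat_lit 55643681061) (nat_lit 152) (nat_lit 990729942) (nat_lit 228) (nat_lit 19471235888) (nat_lit 103) (nat_lit 5) (nat_lit 105) (nat_lit 5) (nat_lit 106) (nat_lit 5) (nat_lit 539) (nat_lit 440) (nat_lit 221)) (XT.lf (nat_lit 0) (nat_lit 2729416151)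 (nat_lit 152) (nat_lit 49846260997) (nat_lit 76) (nat_lit 25031844927) (nat_lit 101) (nat_lit 5) (nat_lit 103) (nat_lit 5) (nat_lit 102) (nat_lit 5) (nat_lit 540) (nat_lit 440) (nat_lit 220)))) (XT.nd (nat_lit 156) (nat_lit 152) (nat_lit 0) (XT.nd (nat_lit 78) (nat_lit 152) (nat_lit 0) (XT.lf (nat_lit 0) (nat_lit 25420872206) (nat_lit 152) (nat_lit 1506656381) (nat_lit 76) (nat_lit 52214657300) (nat_lit 101) (nat_lit 5) (nat_lit 103) (nat_lit 5) (nat_lit 102) (nat_lit 5) (nat_lit 541) (nat_lit 440) (nat_lit 219)) (XT.lf (nat_lit 0) (nat_lit 49239711415) (nat_lit 152) (nat_lit 24407297) (nat_lit 228) (nat_lit 31444639518) (nat_lit 99) (nat_lit 5) (nat_lit 101) (nat_lit 5) (nat_lit 102) (nat_lit 5) (nat_lit 542) (nat_lit 440) (nat_lit 218))) (XT.nd (nat_lit 78) (nat_lit 76) (nat_lit 0) (XT.lf (nat_lit 0) (nat_lit 19324005569) (nat_lit 76) (nat_lit 54963640213) (nat_lit 152) (nat_lit 8020732486) (nat_lit 98) (nat_lit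 5) (nat_lit 99) (nat_lit 5) (nat_lit 100) (nat_lit 4) (nat_lit 543) (nat_lit 440) (nat_lit 217)) (XT.lf (nat_lit 0) (nat_lit 16110505743) (nat_lit 152) (nat_lit 11823006063) (nat_lit 76) (nat_lit 56008263592) (nat_lit 97) (nat_lit 5) (nat_lit 99) (nat_lit 5) (nat_lit 98) (nat_lit 5) (nat_lit 544) (nat_lit 440) (nat_lit 216))))))) (XT.nd (nat_lit 55146) (nat_lit 0) (nat_lit 14668) (XT.nd (nat_lit 54522) (nat_lit 0) (nat_lit 18012) (XT.nd (nat_lit 234) (nat_lit 152) (nat_lit 0) (XT.nd (nat_lit 78) (nat_lit 152) (nat_lit 0) (XT.lf (nat_lit 0) (nat_lit 41206008929) (nat_lit 228) (nat_lit 44012271218) (nat_lit 76) (nat_lit 391465816) (nat_lit 95) (nat_lit 5) (nat_lit 98) (nat_lit 5) (nat_lit 96) (nat_lit 4) (nat_lit 545) (nat_lit 440) (nat_lit 215)) (XT.nd (nat_lit 78) (nat_lit 76) (nat_lit 0) (XT.lf (nat_lit 0) (nat_lit 9441073692) (nat_lit 76) (nat_lit 58099003779) (nat_lit 152) (nat_lit 19773107185) (nat_lit 94) (nat_lit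 5) (nat_lit 95) (nat_lit 5) (nat_lit 96) (nat_lit 4) (nat_lit 546) (nat_lit 440) (nat_lit 214)) (XT.lf (nat_lit 0) (nat_lit 5933881853) (nat_lit 152) (nat_lit 23716525852) (nat_lit 76) (nat_lit 59402305517) (nat_lit 93) (nat_lit 5) (nat_lit 95) (nat_lit 5) (nat_lit 94) (nat_lit 5) (nat_lit 547) (nat_lit 440) (nat_lit 213)))) (XT.nd (nat_lit 54132) (nat_lit 0) (nat_lit 17936) (XT.nd (nat_lit 78) (nat_lit 0) (nat_lit 0) (XT.lf (nat_lit 0) (nat_lit 32326589145) (nat_lit 228) (nat_lit 58332844869) (nat_lit 76) (nat_lit 169762594) (nat_lit 91) (nat_lit 5) (nat_lit 94) (nat_lit 5) (nat_lit 92) (nat_lit 4) (nat_lit 548) (nat_lit 440) (nat_lit 212)) (XT.lf (nat_lit 0) (nat_lit 60044385713) (nat_lit 228) (nat_lit 2069995218) (nat_lit 76) (nat_lit 30528594338) (nat_lit 91) (nat_lit 5) (nat_lit 94) (nat_lit 5) (nat_lit 92) (nat_lit 4) (nat_lit 549) (nat_lit 440) (nat_lit 211))) (XT.nd (nat_lit 78) (nat_lit 0) (nat_lit 0) (XT.lf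 (nat_lit 0) (nat_lit 36883010) (nat_lit 1292) (nat_lit 3451056753) (nat_lit 1292) (nat_lit 3451056753) (nat_lit 327) (nat_lit 3) (nat_lit 344) (nat_lit 3) (nat_lit 344) (nat_lit 5) (nat_lit 441) (nat_lit 441) (nat_lit 318)) (XT.lf (nat_lit 76) (nat_lit 9469492) (nat_lit 0) (nat_lit 415719230) (nat_lit 1292) (nat_lit 13650448558) (nat_lit 328) (nat_lit 5) (nat_lit 327) (nat_lit 3) (nat_lit 344) (nat_lit 5) (nat_lit 442) (nat_lit 441) (nat_lit 317))))) (XT.nd (nat_lit 312) (nat_lit 0) (nat_lit 152) (XT.nd (nat_lit 156) (nat_lit 0) (nat_lit 76) (XT.nd (nat_lit 78) (nat_lit 0) (nat_lit 0) (XT.lf (nat_lit 0) (nat_lit 904823643) (nat_lit 1216) (nat_lit 7076534771) (nat_lit 1292) (nat_lit 6294322983) (nat_lit 328) (nat_lit 5) (nat_lit 344) (nat_lit 5) (nat_lit 345) (nat_lit 5) (nat_lit 443) (nat_lit 441) (nat_lit 316)) (XT.lf (nat_lit 76) (nat_lit 113452664) (nat_lit 0) (nat_lit 1277325548) (nat_lit 1292) (nat_lit 13091191321)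 (nat_lit 329) (nat_lit 5) (nat_lit 328) (nat_lit 5) (nat_lit 345) (nat_lit 5) (nat_lit 444) (nat_lit 441) (nat_lit 315))) (XT.nd (nat_lit 78) (nat_lit 0) (nat_lit 0) (XT.lf (nat_lit 0) (nat_lit 2004669954) (nat_lit 1216) (nat_lit 7090709211) (nat_lit 1292) (nat_lit 5595666987) (nat_lit 329) (nat_lit 5) (nat_lit 345) (nat_lit 5) (nat_lit 346) (nat_lit 5) (nat_lit 445) (nat_lit 441) (nat_lit 314)) (XT.lf (nat_lit 76) (nat_lit 392876820) (nat_lit 0) (nat_lit 2247994660) (nat_lit 1292) (nat_lit 12265407375) (nat_lit 330) (nat_lit 5) (nat_lit 329) (nat_lit 5) (nat_lit 346) (nat_lit 5) (nat_lit 446) (nat_lit 441) (nat_lit 313)))) (XT.nd (nat_lit 156) (nat_lit 0) (nat_lit 76) (XT.nd (nat_lit 78) (nat_lit 0) (nat_lit 0) (XT.lf (nat_lit 0) (nat_lit 3402465088) (nat_lit 1216) (nat_lit 6934307623) (nat_lit 1292) (nat_lit 4788007207) (nat_lit 330) (nat_lit 5) (nat_lit 346) (nat_lit 5) (nat_lit 347) (nat_lit 5) (nat_lit 447)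 (nat_lit 441) (nat_lit 312)) (XT.lf (nat_lit 76) (nat_lit 858980108) (nat_lit 0) (nat_lit 3346603971) (nat_lit 1292) (nat_lit 11143692151) (nat_lit 331) (nat_lit 5) (nat_lit 330) (nat_lit 5) (nat_lit 347) (nat_lit 5) (nat_lit 448) (nat_lit 441) (nat_lit 311))) (XT.nd (nat_lit 78) (nat_lit 0) (nat_lit 0) (XT.lf (nat_lit 0) (nat_lit 5129025653) (nat_lit 1216) (nat_lit 6595921168) (nat_lit 1292) (nat_lit 3852674269) (nat_lit 331) (nat_lit 5) (nat_lit 347) (nat_lit 5) (nat_lit 348) (nat_lit 5) (nat_lit 449) (nat_lit 441) (nat_lit 310)) (XT.lf (nat_lit 76) (nat_lit 1524130333) (nat_lit 0) (nat_lit 4592634267) (nat_lit 1292) (nat_lit 9694954385) (nat_lit 332) (nat_lit 5) (nat_lit 331) (nat_lit 5) (nat_lit 348) (nat_lit 5) (nat_lit 450) (nat_lit 441) (nat_lit 309)))))) (XT.nd (nat_lit 624) (nat_lit 2584) (nat_lit 0) (XT.nd (nat_lit 312) (nat_lit 1064) (nat_lit 0) (XT.nd (nat_lit 156) (nat_lit 0) (nat_lit 76) (XT.nd (nat_lit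 78) (nat_lit 0) (nat_lit 0) (XT.lf (nat_lit 0) (nat_lit 7216962728) (nat_lit 1216) (nat_lit 6063022704) (nat_lit 1292) (nat_lit 2770370072) (nat_lit 332) (nat_lit 5) (nat_lit 348) (nat_lit 5) (nat_lit 349) (nat_lit 5) (nat_lit 451) (nat_lit 441) (nat_lit 308)) (XT.lf (nat_lit 76) (nat_lit 2401866843) (nat_lit 0) (nat_lit 6006269438) (nat_lit 1292) (nat_lit 7886276236) (nat_lit 333) (nat_lit 5) (nat_lit 332) (nat_lit 5) (nat_lit 349) (nat_lit 5) (nat_lit 452) (nat_lit 441) (nat_lit 307))) (XT.nd (nat_lit 78) (nat_lit 0) (nat_lit 0) (XT.lf (nat_lit 0) (nat_lit 9700825880) (nat_lit 1216) (nat_lit 5321923251) (nat_lit 1292) (nat_lit 1521069155) (nat_lit 333) (nat_lit 5) (nat_lit 349) (nat_lit 5) (nat_lit 350) (nat_lit 5) (nat_lit 453) (nat_lit 441) (nat_lit 306)) (XT.lf (nat_lit 76) (nat_lit 3506947463) (nat_lit 0) (nat_lit 7608497502) (nat_lit 1292) (nat_lit 5682767255) (nat_lit 334) (nat_lit 5) (nat_lit 333) (nat_lit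 5) (nat_lit 350) (nat_lit 5) (nat_lit 454) (nat_lit 441) (nat_lit 305)))) (XT.nd (nat_lit 156) (nat_lit 1216) (nat_lit 0) (XT.nd (nat_lit 78) (nat_lit 0) (nat_lit 0) (XT.lf (nat_lit 0) (nat_lit 12617253764) (nat_lit 1216) (nat_lit 4357723508) (nat_lit 1292) (nat_lit 83918607) (nat_lit 334) (nat_lit 5) (nat_lit 350) (nat_lit 5) (nat_lit 351) (nat_lit 5) (nat_lit 455) (nat_lit 441) (nat_lit 304)) (XT.lf (nat_lit 76) (nat_lit 4855400529) (nat_lit 0) (nat_lit 9421213427) (nat_lit 1292) (nat_lit 3047411608) (nat_lit 335) (nat_lit 5) (nat_lit 334) (nat_lit 5) (nat_lit 351) (nat_lit 5) (nat_lit 456) (nat_lit 441) (nat_lit 303))) (XT.nd (nat_lit 78) (nat_lit 1216) (nat_lit 0) (XT.lf (nat_lit 76) (nat_lit 14426486049) (nat_lit 0) (nat_lit 1593968073) (nat_lit 1292) (nat_lit 1575614458) (nat_lit 335) (nat_lit 5) (nat_lit 334) (nat_lit 5) (nat_lit 351) (nat_lit 5) (nat_lit 457) (nat_lit 441) (nat_lit 302)) (XT.lf (nat_lit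 0) (nat_lit 57938953) (nat_lit 1292) (nat_lit 11408800253) (nat_lit 76) (nat_lit 6406058138) (nat_lit 318) (nat_lit 5) (nat_lit 335) (nat_lit 5) (nat_lit 319) (nat_lit 5) (nat_lit 458) (nat_lit 441) (nat_lit 301))))) (XT.nd (nat_lit 312) (nat_lit 1140) (nat_lit 0) (XT.nd (nat_lit 156) (nat_lit 608) (nat_lit 0) (XT.nd (nat_lit 78) (nat_lit 836) (nat_lit 0) (XT.lf (nat_lit 0) (nat_lit 1748016590) (nat_lit 1292) (nat_lit 1744931538) (nat_lit 76) (nat_lit 14663236642) (nat_lit 318) (nat_lit 5) (nat_lit 335) (nat_lit 5) (nat_lit 319) (nat_lit 5) (nat_lit 459) (nat_lit 441) (nat_lit 300)) (XT.lf (nat_lit 0) (nat_lit 3606717931) (nat_lit 912) (nat_lit 10127718445) (nat_lit 76) (nat_lit 4710100173) (nat_lit 307) (nat_lit 5) (nat_lit 319) (nat_lit 5) (nat_lit 308) (nat_lit 5) (nat_lit 460) (nat_lit 441) (nat_lit 299))) (XT.nd (nat_lit 78) (nat_lit 608) (nat_lit 0) (XT.lf (nat_lit 0) (nat_lit 5565086499) (nat_lit 912) (nat_lit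 67457987) (nat_lit 76) (nat_lit 13107677570) (nat_lit 307) (nat_lit 5) (nat_lit 319) (nat_lit 5) (nat_lit 308) (nat_lit 5) (nat_lit 461) (nat_lit 441) (nat_lit 298)) (XT.lf (nat_lit 0) (nat_lit 7701910503) (nat_lit 684) (nat_lit 8577385802) (nat_lit 76) (nat_lit 2761891039) (nat_lit 299) (nat_lit 5) (nat_lit 308) (nat_lit 5) (nat_lit 300) (nat_lit 5) (nat_lit 462) (nat_lit 441) (nat_lit 297)))) (XT.nd (nat_lit 156) (nat_lit 532) (nat_lit 0) (XT.nd (nat_lit 78) (nat_lit 0) (nat_lit 0) (XT.lf (nat_lit 0) (nat_lit 1935390960) (nat_lit 608) (nat_lit 8034454014) (nat_lit 684) (nat_lit 9379326784) (nat_lit 291) (nat_lit 5) (nat_lit 299) (nat_lit 5) (nat_lit 300) (nat_lit 5) (nat_lit 463) (nat_lit 441) (nat_lit 296)) (XT.lf (nat_lit 0) (nat_lit 12389797298) (nat_lit 684) (nat_lit 6737659225) (nat_lit 76) (nat_lit 536420116) (nat_lit 291) (nat_lit 5) (nat_lit 300) (nat_lit 5) (nat_lit 292) (nat_lit 5) (nat_lit 464) (nat_lit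 441) (nat_lit 295))) (XT.nd (nat_lit 78) (nat_lit 0) (nat_lit 0) (XT.lf (nat_lit 0) (nat_lit 4254466025) (nat_lit 532) (nat_lit 10740665078) (nat_lit 608) (nat_lit 4989508397) (nat_lit 284) (nat_lit 5) (nat_lit 291) (nat_lit 5) (nat_lit 292) (nat_lit 5) (nat_lit 465) (nat_lit 441) (nat_lit 294)) (XT.lf (nat_lit 0) (nat_lit 15706795556) (nat_lit 532) (nat_lit 2032353254) (nat_lit 608) (nat_lit 2574061030) (nat_lit 284) (nat_lit 5) (nat_lit 291) (nat_lit 5) (nat_lit 292) (nat_lit 5) (nat_lit 466) (nat_lit 441) (nat_lit 293))))))))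
noncomputable def xc181 : XT := (XT.nd (nat_lit 2418) (nat_lit 4712) (nat_lit 0) (XT.nd (nat_lit 1170) (nat_lit 3268) (nat_lit 0) (XT.nd (nat_lit 546) (nat_lit 2356) (nat_lit 0) (XT.nd (nat_lit 234) (nat_lit 988) (nat_lit 0) (XT.nd (nat_lit 78) (nat_lit 532) (nat_lit 0) (XT.lf (nat_lit 0) (nat_lit 42603403) (nat_lit 684) (nat_lit 13736706740) (nat_lit 76) (nat_lit 6868540107) (nat_lit 275) (nat_lit 5) (nat_lit 284) (nat_lit 5) (nat_lit 276) (nat_lit 5) (nat_lit 467) (nat_lit 441) (nat_lit 292)) (XT.nd (nat_lit 78) (nat_lit 532) (nat_lit 0) (XT.lf (nat_lit 0) (nat_lit 2745902735) (nat_lit 684) (nat_lit 2176285911) (nat_lit 76) (nat_lit 16067780806) (nat_lit 275) (nat_lit 5) (nat_lit 284) (nat_lit 5) (nat_lit 276) (nat_lit 5) (nat_lit 468) (nat_lit 441) (nat_lit 291)) (XT.lf (nat_lit 0) (nat_lit 5659930044) (nat_lit 608) (nat_lit 11464071017) (nat_lit 76) (nat_lit 4214462576) (nat_lit 268) (nat_lit 5) (nat_lit 276)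 (nat_lit 5) (nat_lit 269) (nat_lit 5) (nat_lit 469) (nat_lit 441) (nat_lit 290)))) (XT.nd (nat_lit 156) (nat_lit 456) (nat_lit 0) (XT.nd (nat_lit 78) (nat_lit 0) (nat_lit 0) (XT.lf (nat_lit 0) (nat_lit 589357896) (nat_lit 532) (nat_lit 8141724374) (nat_lit 608) (nat_lit 12964239521) (nat_lit 261) (nat_lit 5) (nat_lit 268) (nat_lit 5) (nat_lit 269) (nat_lit 5) (nat_lit 470) (nat_lit 441) (nat_lit 289)) (XT.lf (nat_lit 0) (nat_lit 12015180782) (nat_lit 608) (nat_lit 8839598059) (nat_lit 76) (nat_lit 1204482758) (nat_lit 261) (nat_lit 5) (nat_lit 269) (nat_lit 5) (nat_lit 262) (nat_lit 5) (nat_lit 471) (nat_lit 441) (nat_lit 288))) (XT.nd (nat_lit 78) (nat_lit 0) (nat_lit 0) (XT.lf (nat_lit 0) (nat_lit 3780381706) (nat_lit 456) (nat_lit 11727798877) (nat_lit 532) (nat_lit 6922627919) (nat_lit 255) (nat_lit 5) (nat_lit 261) (nat_lit 5) (nat_lit 262) (nat_lit 5) (nat_lit 472) (nat_lit 441) (nat_lit 287)) (XT.lf (nat_lit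 0) (nat_lit 16952703053) (nat_lit 456) (nat_lit 2236077499) (nat_lit 532) (nat_lit 3622237202) (nat_lit 255) (nat_lit 5) (nat_lit 261) (nat_lit 5) (nat_lit 262) (nat_lit 5) (nat_lit 473) (nat_lit 441) (nat_lit 286))))) (XT.nd (nat_lit 312) (nat_lit 912) (nat_lit 0) (XT.nd (nat_lit 156) (nat_lit 912) (nat_lit 0) (XT.nd (nat_lit 78) (nat_lit 76) (nat_lit 0) (XT.lf (nat_lit 0) (nat_lit 7381699038) (nat_lit 456) (nat_lit 15735265870) (nat_lit 532) (nat_lit 81553620) (nat_lit 249) (nat_lit 5) (nat_lit 255) (nat_lit 5) (nat_lit 256) (nat_lit 5) (nat_lit 474) (nat_lit 441) (nat_lit 285)) (XT.lf (nat_lit 0) (nat_lit 3571437169) (nat_lit 532) (nat_lit 2521337798) (nat_lit 76) (nat_lit 17501571627) (nat_lit 248) (nat_lit 5) (nat_lit 255) (nat_lit 5) (nat_lit 249) (nat_lit 5) (nat_lit 475) (nat_lit 441) (nat_lit 284))) (XT.nd (nat_lit 78) (nat_lit 456) (nat_lit 0) (XT.lf (nat_lit 0) (nat_lit 7473779789) (nat_lit 532) (nat_lit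 12649756568) (nat_lit 76) (nat_lit 3874247102) (nat_lit 242) (nat_lit 5) (nat_lit 249) (nat_lit 5) (nat_lit 243) (nat_lit 5) (nat_lit 476) (nat_lit 441) (nat_lit 283)) (XT.lf (nat_lit 0) (nat_lit 1228645479) (nat_lit 456) (nat_lit 10356447945) (nat_lit 532) (nat_lit 12825473195) (nat_lit 236) (nat_lit 5) (nat_lit 242) (nat_lit 5) (nat_lit 243) (nat_lit 5) (nat_lit 477) (nat_lit 441) (nat_lit 282)))) (XT.nd (nat_lit 156) (nat_lit 532) (nat_lit 0) (XT.nd (nat_lit 78) (nat_lit 380) (nat_lit 0) (XT.lf (nat_lit 0) (nat_lit 15775428172) (nat_lit 456) (nat_lit 166212362) (nat_lit 532) (nat_lit 8890436121) (nat_lit 236) (nat_lit 5) (nat_lit 242) (nat_lit 5) (nat_lit 243) (nat_lit 5) (nat_lit 478) (nat_lit 441) (nat_lit 281)) (XT.lf (nat_lit 0) (nat_lit 5493051871) (nat_lit 380) (nat_lit 15082243587) (nat_lit 456) (nat_lit 4686544394) (nat_lit 231) (nat_lit 5) (nat_lit 236) (nat_lit 5) (nat_lit 237) (nat_lit 5) (nat_lit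 479) (nat_lit 441) (nat_lit 280))) (XT.nd (nat_lit 78) (nat_lit 532) (nat_lit 0) (XT.lf (nat_lit 0) (nat_lit 20656064037) (nat_lit 380) (nat_lit 4779389930) (nat_lit 456) (nat_lit 266417352) (nat_lit 231) (nat_lit 5) (nat_lit 236) (nat_lit 5) (nat_lit 237) (nat_lit 5) (nat_lit 480) (nat_lit 441) (nat_lit 279)) (XT.lf (nat_lit 0) (nat_lit 4353358824) (nat_lit 532) (nat_lit 15937475863) (nat_lit 76) (nat_lit 5858512543) (nat_lit 224) (nat_lit 5) (nat_lit 231) (nat_lit 5) (nat_lit 225) (nat_lit 5) (nat_lit 481) (nat_lit 441) (nat_lit 278)))))) (XT.nd (nat_lit 624) (nat_lit 1368) (nat_lit 0) (XT.nd (nat_lit 312) (nat_lit 1140) (nat_lit 0) (XT.nd (nat_lit 156) (nat_lit 380) (nat_lit 0) (XT.nd (nat_lit 78) (nat_lit 380) (nat_lit 0) (XT.lf (nat_lit 0) (nat_lit 9199747560) (nat_lit 532) (nat_lit 635598775) (nat_lit 76) (nat_lit 16772020906) (nat_lit 224) (nat_lit 5) (nat_lit 231) (nat_lit 5) (nat_lit 225) (nat_lit 5) (nat_lit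 482) (nat_lit 441) (nat_lit 277)) (XT.lf (nat_lit 0) (nat_lit 14344928855) (nat_lit 456) (nat_lit 11665969643) (nat_lit 76) (nat_lit 1063627501) (nat_lit 219) (nat_lit 5) (nat_lit 225) (nat_lit 5) (nat_lit 220) (nat_lit 5) (nat_lit 483) (nat_lit 441) (nat_lit 276))) (XT.nd (nat_lit 78) (nat_lit 0) (nat_lit 0) (XT.lf (nat_lit 0) (nat_lit 4372442707) (nat_lit 380) (nat_lit 15412739054) (nat_lit 456) (nat_lit 7766296439) (nat_lit 214) (nat_lit 5) (nat_lit 219) (nat_lit 5) (nat_lit 220) (nat_lit 5) (nat_lit 484) (nat_lit 441) (nat_lit 275)) (XT.lf (nat_lit 0) (nat_lit 21124222435) (nat_lit 380) (nat_lit 4377131483) (nat_lit 456) (nat_lit 2538003861) (nat_lit 214) (nat_lit 5) (nat_lit 219) (nat_lit 5) (nat_lit 220) (nat_lit 5) (nat_lit 485) (nat_lit 441) (nat_lit 274)))) (XT.nd (nat_lit 156) (nat_lit 684) (nat_lit 0) (XT.nd (nat_lit 78) (nat_lit 0) (nat_lit 0) (XT.lf (nat_lit 0) (nat_lit 2951082534) (nat_lit 456) (nat_lit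 18609133776) (nat_lit 76) (nat_lit 6976051447) (nat_lit 208) (nat_lit 5) (nat_lit 214) (nat_lit 5) (nat_lit 209) (nat_lit 5) (nat_lit 486) (nat_lit 441) (nat_lit 273)) (XT.lf (nat_lit 0) (nat_lit 8662758958) (nat_lit 456) (nat_lit 1705609940) (nat_lit 76) (nat_lit 18675694558) (nat_lit 208) (nat_lit 5) (nat_lit 214) (nat_lit 5) (nat_lit 209) (nat_lit 5) (nat_lit 487) (nat_lit 441) (nat_lit 272))) (XT.nd (nat_lit 78) (nat_lit 304) (nat_lit 0) (XT.lf (nat_lit 0) (nat_lit 14707553490) (nat_lit 456) (nat_lit 13564507209) (nat_lit 76) (nat_lit 1290179437) (nat_lit 203) (nat_lit 5) (nat_lit 209) (nat_lit 5) (nat_lit 204) (nat_lit 5) (nat_lit 488) (nat_lit 441) (nat_lit 271)) (XT.lf (nat_lit 0) (nat_lit 4142966993) (nat_lit 304) (nat_lit 16945871729) (nat_lit 380) (nat_lit 9002469126) (nat_lit 199) (nat_lit 5) (nat_lit 203) (nat_lit 5) (nat_lit 204) (nat_lit 5) (nat_lit 489) (nat_lit 441) (nat_lit 270))))) (XT.nd (nat_lit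 312) (nat_lit 684) (nat_lit 0) (XT.nd (nat_lit 156) (nat_lit 304) (nat_lit 0) (XT.nd (nat_lit 78) (nat_lit 380) (nat_lit 0) (XT.lf (nat_lit 0) (nat_lit 22653047070) (nat_lit 304) (nat_lit 5140835084) (nat_lit 380) (nat_lit 2838395986) (nat_lit 199) (nat_lit 5) (nat_lit 203) (nat_lit 5) (nat_lit 204) (nat_lit 5) (nat_lit 490) (nat_lit 441) (nat_lit 269)) (XT.lf (nat_lit 0) (nat_lit 3609157682) (nat_lit 380) (nat_lit 20556938565) (nat_lit 76) (nat_lit 7017357157) (nat_lit 194) (nat_lit 5) (nat_lit 199) (nat_lit 5) (nat_lit 195) (nat_lit 5) (nat_lit 491) (nat_lit 441) (nat_lit 268))) (XT.nd (nat_lit 78) (nat_lit 304) (nat_lit 0) (XT.lf (nat_lit 0) (nat_lit 10320847157) (nat_lit 380) (nat_lit 1881172265) (nat_lit 76) (nat_lit 19544468797) (nat_lit 194) (nat_lit 5) (nat_lit 199) (nat_lit 5) (nat_lit 195) (nat_lit 5) (nat_lit 492) (nat_lit 441) (nat_lit 267)) (XT.lf (nat_lit 0) (nat_lit 17402415118) (nat_lit 380) (nat_lit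 14630567595) (nat_lit 76) (nat_lit 288375650) (nat_lit 190) (nat_lit 5) (nat_lit 195) (nat_lit 5) (nat_lit 191) (nat_lit 5) (nat_lit 493) (nat_lit 441) (nat_lit 266)))) (XT.nd (nat_lit 156) (nat_lit 380) (nat_lit 0) (XT.nd (nat_lit 78) (nat_lit 0) (nat_lit 0) (XT.lf (nat_lit 0) (nat_lit 4944577627) (nat_lit 304) (nat_lit 19935043668) (nat_lit 380) (nat_lit 8028357698) (nat_lit 186) (nat_lit 5) (nat_lit 190) (nat_lit 5) (nat_lit 191) (nat_lit 5) (nat_lit 494) (nat_lit 441) (nat_lit 265)) (XT.lf (nat_lit 0) (nat_lit 25400474128) (nat_lit 304) (nat_lit 7324138748) (nat_lit 380) (nat_lit 783281403) (nat_lit 186) (nat_lit 5) (nat_lit 190) (nat_lit 5) (nat_lit 191) (nat_lit 5) (nat_lit 495) (nat_lit 441) (nat_lit 264))) (XT.nd (nat_lit 78) (nat_lit 0) (nat_lit 0) (XT.lf (nat_lit 0) (nat_lit 6721218996) (nat_lit 380) (nat_lit 21658664048) (nat_lit 76) (nat_lit 5738825785) (nat_lit 181) (nat_lit 5) (nat_lit 186) (nat_lit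 5) (nat_lit 182) (nat_lit 5) (nat_lit 496) (nat_lit 441) (nat_lit 263)) (XT.lf (nat_lit 0) (nat_lit 14586160957) (nat_lit 380) (nat_lit 1022099523) (nat_lit 76) (nat_lit 19134823289) (nat_lit 181) (nat_lit 5) (nat_lit 186) (nat_lit 5) (nat_lit 182) (nat_lit 5) (nat_lit 497) (nat_lit 441) (nat_lit 262))))))) (XT.nd (nat_lit 1248) (nat_lit 2052) (nat_lit 0) (XT.nd (nat_lit 624) (nat_lit 1216) (nat_lit 0) (XT.nd (nat_lit 312) (nat_lit 532) (nat_lit 0) (XT.nd (nat_lit 156) (nat_lit 380) (nat_lit 0) (XT.nd (nat_lit 78) (nat_lit 228) (nat_lit 0) (XT.lf (nat_lit 0) (nat_lit 20629958246) (nat_lit 304) (nat_lit 2251375343) (nat_lit 380) (nat_lit 12499027997) (nat_lit 177) (nat_lit 5) (nat_lit 181) (nat_lit 5) (nat_lit 182) (nat_lit 5) (nat_lit 498) (nat_lit 441) (nat_lit 261)) (XT.lf (nat_lit 0) (nat_lit 6934484955) (nat_lit 228) (nat_lit 24674575721) (nat_lit 304) (nat_lit 4422186182) (nat_lit 174) (nat_lit 5) (nat_lit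 177) (nat_lit 5) (nat_lit 178) (nat_lit 5) (nat_lit 499) (nat_lit 441) (nat_lit 260))) (XT.nd (nat_lit 78) (nat_lit 304) (nat_lit 0) (XT.lf (nat_lit 0) (nat_lit 3989663530) (nat_lit 304) (nat_lit 7192351815) (nat_lit 76) (nat_lit 25513457244) (nat_lit 173) (nat_lit 5) (nat_lit 177) (nat_lit 5) (nat_lit 174) (nat_lit 5) (nat_lit 500) (nat_lit 441) (nat_lit 259)) (XT.lf (nat_lit 0) (nat_lit 12739324073) (nat_lit 380) (nat_lit 21777673947) (nat_lit 76) (nat_lit 2856083534) (nat_lit 169) (nat_lit 5) (nat_lit 174) (nat_lit 5) (nat_lit 170) (nat_lit 5) (nat_lit 501) (nat_lit 441) (nat_lit 258)))) (XT.nd (nat_lit 156) (nat_lit 304) (nat_lit 0) (XT.nd (nat_lit 78) (nat_lit 0) (nat_lit 0) (XT.lf (nat_lit 0) (nat_lit 1048343618) (nat_lit 228) (nat_lit 20893448867) (nat_lit 304) (nat_lit 16123516848) (nat_lit 166) (nat_lit 5) (nat_lit 169) (nat_lit 5) (nat_lit 170) (nat_lit 5) (nat_lit 502) (nat_lit 441) (nat_lit 257)) (XT.lf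 (nat_lit 0) (nat_lit 24999544989) (nat_lit 228) (nat_lit 6636935150) (nat_lit 304) (nat_lit 7135339537) (nat_lit 166) (nat_lit 5) (nat_lit 169) (nat_lit 5) (nat_lit 170) (nat_lit 5) (nat_lit 503) (nat_lit 441) (nat_lit 256))) (XT.nd (nat_lit 78) (nat_lit 0) (nat_lit 0) (XT.lf (nat_lit 0) (nat_lit 2255338649) (nat_lit 304) (nat_lit 29229248544) (nat_lit 76) (nat_lit 8009097950) (nat_lit 162) (nat_lit 5) (nat_lit 166) (nat_lit 5) (nat_lit 163) (nat_lit 5) (nat_lit 504) (nat_lit 441) (nat_lit 255)) (XT.lf (nat_lit 0) (nat_lit 11986822838) (nat_lit 304) (nat_lit 5072149177) (nat_lit 76) (nat_lit 23170040262) (nat_lit 162) (nat_lit 5) (nat_lit 166) (nat_lit 5) (nat_lit 163) (nat_lit 5) (nat_lit 505) (nat_lit 441) (nat_lit 254))))) (XT.nd (nat_lit 312) (nat_lit 456) (nat_lit 0) (XT.nd (nat_lit 156) (nat_lit 304) (nat_lit 0) (XT.nd (nat_lit 78) (nat_lit 228) (nat_lit 0) (XT.lf (nat_lit 0) (nat_lit 20198026573) (nat_lit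 228) (nat_lit 2002824220) (nat_lit 304) (nat_lit 18779830529) (nat_lit 159) (nat_lit 5) (nat_lit 162) (nat_lit 5) (nat_lit 163) (nat_lit 5) (nat_lit 506) (nat_lit 441) (nat_lit 253)) (XT.lf (nat_lit 0) (nat_lit 4529172426) (nat_lit 228) (nat_lit 28413679482) (nat_lit 304) (nat_lit 8805402035) (nat_lit 156) (nat_lit 5) (nat_lit 159) (nat_lit 5) (nat_lit 160) (nat_lit 5) (nat_lit 507) (nat_lit 441) (nat_lit 252))) (XT.nd (nat_lit 78) (nat_lit 228) (nat_lit 0) (XT.lf (nat_lit 0) (nat_lit 1667864060) (nat_lit 304) (nat_lit 11548014477) (nat_lit 76) (nat_lit 29315704187) (nat_lit 155) (nat_lit 5) (nat_lit 159) (nat_lit 5) (nat_lit 156) (nat_lit 5) (nat_lit 508) (nat_lit 441) (nat_lit 251)) (XT.lf (nat_lit 0) (nat_lit 12445748711) (nat_lit 304) (nat_lit 28262343559) (nat_lit 76) (nat_lit 2622681686) (nat_lit 152) (nat_lit 5) (nat_lit 156) (nat_lit 5) (nat_lit 153) (nat_lit 5) (nat_lit 509) (nat_lit 441) (nat_lit 250))))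 (XT.nd (nat_lit 156) (nat_lit 228) (nat_lit 0) (XT.nd (nat_lit 78) (nat_lit 228) (nat_lit 0) (XT.lf (nat_lit 0) (nat_lit 23792197739) (nat_lit 304) (nat_lit 1568024426) (nat_lit 76) (nat_lit 18786361989) (nat_lit 152) (nat_lit 5) (nat_lit 156) (nat_lit 5) (nat_lit 153) (nat_lit 5) (nat_lit 510) (nat_lit 441) (nat_lit 249)) (XT.lf (nat_lit 0) (nat_lit 26437511859) (nat_lit 228) (nat_lit 9292371306) (nat_lit 304) (nat_lit 9249460268) (nat_lit 149) (nat_lit 5) (nat_lit 152) (nat_lit 5) (nat_lit 153) (nat_lit 5) (nat_lit 511) (nat_lit 441) (nat_lit 248))) (XT.nd (nat_lit 78) (nat_lit 0) (nat_lit 0) (XT.lf (nat_lit 0) (nat_lit 2322310645) (nat_lit 228) (nat_lit 36264168500) (nat_lit 76) (nat_lit 7244683116) (nat_lit 146) (nat_lit 5) (nat_lit 149) (nat_lit 5) (nat_lit 147) (nat_lit 5) (nat_lit 512) (nat_lit 441) (nat_lit 247)) (XT.lf (nat_lit 0) (nat_lit 14333165615) (nat_lit 228) (nat_lit 7994718221) (nat_lit 76) (nat_lit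 24369569431) (nat_lit 146) (nat_lit 5) (nat_lit 149) (nat_lit 5) (nat_lit 147) (nat_lit 5) (nat_lit 513) (nat_lit 441) (nat_lit 246)))))) (XT.nd (nat_lit 624) (nat_lit 912) (nat_lit 0) (XT.nd (nat_lit 312) (nat_lit 456) (nat_lit 0) (XT.nd (nat_lit 156) (nat_lit 304) (nat_lit 0) (XT.nd (nat_lit 78) (nat_lit 152) (nat_lit 0) (XT.lf (nat_lit 0) (nat_lit 21537718725) (nat_lit 228) (nat_lit 5370498402) (nat_lit 304) (nat_lit 20675399806) (nat_lit 143) (nat_lit 5) (nat_lit 146) (nat_lit 5) (nat_lit 147) (nat_lit 5) (nat_lit 514) (nat_lit 441) (nat_lit 245)) (XT.lf (nat_lit 0) (nat_lit 3573332809) (nat_lit 152) (nat_lit 36516194090) (nat_lit 228) (nat_lit 8399968463) (nat_lit 141) (nat_lit 5) (nat_lit 143) (nat_lit 5) (nat_lit 144) (nat_lit 5) (nat_lit 515) (nat_lit 441) (nat_lit 244))) (XT.nd (nat_lit 78) (nat_lit 228) (nat_lit 0) (XT.lf (nat_lit 0) (nat_lit 4476571667) (nat_lit 228) (nat_lit 14901578944) (nat_lit 76)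 (nat_lit 30033706099) (nat_lit 140) (nat_lit 5) (nat_lit 143) (nat_lit 5) (nat_lit 141) (nat_lit 5) (nat_lit 516) (nat_lit 441) (nat_lit 243)) (XT.lf (nat_lit 0) (nat_lit 16241966160) (nat_lit 228) (nat_lit 1481696163) (nat_lit 304) (nat_lit 32631139024) (nat_lit 137) (nat_lit 5) (nat_lit 140) (nat_lit 5) (nat_lit 141) (nat_lit 5) (nat_lit 517) (nat_lit 441) (nat_lit 242)))) (XT.nd (nat_lit 156) (nat_lit 304) (nat_lit 0) (XT.nd (nat_lit 78) (nat_lit 152) (nat_lit 0) (XT.lf (nat_lit 0) (nat_lit 31680057197) (nat_lit 304) (nat_lit 2865939070) (nat_lit 76) (nat_lit 16770681358) (nat_lit 137) (nat_lit 5) (nat_lit 141) (nat_lit 5) (nat_lit 138) (nat_lit 5) (nat_lit 518) (nat_lit 441) (nat_lit 241)) (XT.lf (nat_lit 0) (nat_lit 29881681338) (nat_lit 152) (nat_lit 16472437189) (nat_lit 228) (nat_lit 5944322474) (nat_lit 135) (nat_lit 5) (nat_lit 137) (nat_lit 5) (nat_lit 138) (nat_lit 5) (nat_lit 519) (nat_lit 441) (nat_lit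 240))) (XT.nd (nat_lit 78) (nat_lit 0) (nat_lit 0) (XT.lf (nat_lit 0) (nat_lit 8149245069) (nat_lit 304) (nat_lit 42843731543) (nat_lit 76) (nat_lit 2309836691) (nat_lit 131) (nat_lit 5) (nat_lit 135) (nat_lit 5) (nat_lit 132) (nat_lit 5) (nat_lit 520) (nat_lit 441) (nat_lit 239)) (XT.lf (nat_lit 0) (nat_lit 22934931748) (nat_lit 304) (nat_lit 9779130599) (nat_lit 76) (nat_lit 21609825216) (nat_lit 131) (nat_lit 5) (nat_lit 135) (nat_lit 5) (nat_lit 132) (nat_lit 5) (nat_lit 521) (nat_lit 441) (nat_lit 238))))) (XT.nd (nat_lit 312) (nat_lit 380) (nat_lit 0) (XT.nd (nat_lit 156) (nat_lit 228) (nat_lit 0) (XT.nd (nat_lit 78) (nat_lit 152) (nat_lit 0) (XT.lf (nat_lit 0) (nat_lit 24755491295) (nat_lit 152) (nat_lit 13643834606) (nat_lit 228) (nat_lit 16969214085) (nat_lit 129) (nat_lit 5) (nat_lit 131) (nat_lit 5) (nat_lit 132) (nat_lit 5) (nat_lit 522) (nat_lit 441) (nat_lit 237)) (XT.lf (nat_lit 0) (nat_lit 4101439619)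 (nat_lit 152) (nat_lit 50420213081) (nat_lit 228) (nat_lit 1917059298) (nat_lit 127) (nat_lit 5) (nat_lit 129) (nat_lit 5) (nat_lit 130) (nat_lit 5) (nat_lit 523) (nat_lit 441) (nat_lit 236))) (XT.nd (nat_lit 78) (nat_lit 152) (nat_lit 0) (XT.lf (nat_lit 0) (nat_lit 13766008460) (nat_lit 228) (nat_lit 17320573725) (nat_lit 76) (nat_lit 26437154734) (nat_lit 126) (nat_lit 5) (nat_lit 129) (nat_lit 5) (nat_lit 127) (nat_lit 5) (nat_lit 524) (nat_lit 441) (nat_lit 235)) (XT.lf (nat_lit 0) (nat_lit 19095403949) (nat_lit 152) (nat_lit 10966464825) (nat_lit 228) (nat_lit 28573449482) (nat_lit 124) (nat_lit 5) (nat_lit 126) (nat_lit 5) (nat_lit 127) (nat_lit 5) (nat_lit 525) (nat_lit 441) (nat_lit 234)))) (XT.nd (nat_lit 156) (nat_lit 152) (nat_lit 0) (XT.nd (nat_lit 78) (nat_lit 228) (nat_lit 0) (XT.lf (nat_lit 0) (nat_lit 47114320688) (nat_lit 228) (nat_lit 2916482629) (nat_lit 76) (nat_lit 9741412278) (nat_lit 124)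 (nat_lit 5) (nat_lit 127) (nat_lit 5) (nat_lit 125) (nat_lit 5) (nat_lit 526) (nat_lit 441) (nat_lit 233)) (XT.lf (nat_lit 0) (nat_lit 4112723378) (nat_lit 228) (nat_lit 25587372012) (nat_lit 76) (nat_lit 31228532883) (nat_lit 121) (nat_lit 5) (nat_lit 124) (nat_lit 5) (nat_lit 122) (nat_lit 5) (nat_lit 527) (nat_lit 441) (nat_lit 232))) (XT.nd (nat_lit 78) (nat_lit 0) (nat_lit 0) (XT.lf (nat_lit 0) (nat_lit 12807222314) (nat_lit 152) (nat_lit 8475052341) (nat_lit 228) (nat_lit 40829192170) (nat_lit 119) (nat_lit 5) (nat_lit 121) (nat_lit 5) (nat_lit 122) (nat_lit 5) (nat_lit 528) (nat_lit 441) (nat_lit 231)) (XT.lf (nat_lit 0) (nat_lit 39353918238) (nat_lit 228) (nat_lit 10579857656) (nat_lit 76) (nat_lit 13384404500) (nat_lit 119) (nat_lit 5) (nat_lit 122) (nat_lit 5) (nat_lit 120) (nat_lit 5) (nat_lit 529) (nat_lit 441) (nat_lit 230))))))))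
noncomputable def xc182 : XT := (XT.nd (nat_lit 56472) (nat_lit 0) (nat_lit 9728) (XT.nd (nat_lit 1170) (nat_lit 532) (nat_lit 0) (XT.nd (nat_lit 546) (nat_lit 684) (nat_lit 0) (XT.nd (nat_lit 234) (nat_lit 532) (nat_lit 0) (XT.nd (nat_lit 78) (nat_lit 228) (nat_lit 0) (XT.lf (nat_lit 0) (nat_lit 29799228701) (nat_lit 152) (nat_lit 28536302141) (nat_lit 228) (nat_lit 6214529966) (nat_lit 117) (nat_lit 5) (nat_lit 119) (nat_lit 5) (nat_lit 120) (nat_lit 5) (nat_lit 530) (nat_lit 441) (nat_lit 229)) (XT.nd (nat_lit 78) (nat_lit 0) (nat_lit 0) (XT.lf (nat_lit 0) (nat_lit 5782023818) (nat_lit 152) (nat_lit 6211125242) (nat_lit 228) (nat_lit 53817440370) (nat_lit 114) (nat_lit 5) (nat_lit 116) (nat_lit 5) (nat_lit 117) (nat_lit 5) (nat_lit 531) (nat_lit 441) (nat_lit 228)) (XT.lf (nat_lit 0) (nat_lit 31135353592) (nat_lit 228) (nat_lit 19086149984) (nat_lit 76) (nat_lit 16870188434) (nat_lit 114) (nat_lit 5) (nat_lit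 117) (nat_lit 5) (nat_lit 115) (nat_lit 5) (nat_lit 532) (nat_lit 441) (nat_lit 227)))) (XT.nd (nat_lit 156) (nat_lit 304) (nat_lit 0) (XT.nd (nat_lit 78) (nat_lit 76) (nat_lit 0) (XT.lf (nat_lit 0) (nat_lit 23476664543) (nat_lit 152) (nat_lit 27659876742) (nat_lit 228) (nat_lit 17266144897) (nat_lit 112) (nat_lit 5) (nat_lit 114) (nat_lit 5) (nat_lit 115) (nat_lit 5) (nat_lit 533) (nat_lit 441) (nat_lit 226)) (XT.lf (nat_lit 0) (nat_lit 2138218965) (nat_lit 228) (nat_lit 2065100500) (nat_lit 76) (nat_lit 65543352555) (nat_lit 111) (nat_lit 5) (nat_lit 114) (nat_lit 5) (nat_lit 112) (nat_lit 5) (nat_lit 534) (nat_lit 441) (nat_lit 225))) (XT.nd (nat_lit 78) (nat_lit 152) (nat_lit 0) (XT.lf (nat_lit 0) (nat_lit 22383731797) (nat_lit 228) (nat_lit 28570825075) (nat_lit 76) (nat_lit 20153110513) (nat_lit 109) (nat_lit 5) (nat_lit 112) (nat_lit 5) (nat_lit 110) (nat_lit 5) (nat_lit 535) (nat_lit 441) (nat_lit 224))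 (XT.lf (nat_lit 0) (nat_lit 16281828589) (nat_lit 152) (nat_lit 27171602507) (nat_lit 228) (nat_lit 29049556906) (nat_lit 107) (nat_lit 5) (nat_lit 109) (nat_lit 5) (nat_lit 110) (nat_lit 5) (nat_lit 536) (nat_lit 441) (nat_lit 223))))) (XT.nd (nat_lit 312) (nat_lit 380) (nat_lit 0) (XT.nd (nat_lit 156) (nat_lit 152) (nat_lit 0) (XT.nd (nat_lit 78) (nat_lit 152) (nat_lit 0) (XT.lf (nat_lit 0) (nat_lit 63061404678) (nat_lit 152) (nat_lit 2379986538) (nat_lit 228) (nat_lit 8490191951) (nat_lit 107) (nat_lit 5) (nat_lit 109) (nat_lit 5) (nat_lit 110) (nat_lit 5) (nat_lit 537) (nat_lit 441) (nat_lit 222)) (XT.lf (nat_lit 0) (nat_lit 13013498889) (nat_lit 152) (nat_lit 39190243924) (nat_lit 76) (nat_lit 23178382233) (nat_lit 105) (nat_lit 5) (nat_lit 107) (nat_lit 5) (nat_lit 106) (nat_lit 5) (nat_lit 538) (nat_lit 441) (nat_lit 221))) (XT.nd (nat_lit 78) (nat_lit 0) (nat_lit 0) (XT.lf (nat_lit 0) (nat_lit 8060050317)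 (nat_lit 152) (nat_lit 27141216187) (nat_lit 228) (nat_lit 41666106547) (nat_lit 103) (nat_lit 5) (nat_lit 105) (nat_lit 5) (nat_lit 106) (nat_lit 5) (nat_lit 539) (nat_lit 441) (nat_lit 220)) (XT.lf (nat_lit 0) (nat_lit 57526998387) (nat_lit 152) (nat_lit 921153281) (nat_lit 228) (nat_lit 19937222311) (nat_lit 103) (nat_lit 5) (nat_lit 105) (nat_lit 5) (nat_lit 106) (nat_lit 5) (nat_lit 540) (nat_lit 441) (nat_lit 219)))) (XT.nd (nat_lit 156) (nat_lit 228) (nat_lit 0) (XT.nd (nat_lit 78) (nat_lit 0) (nat_lit 0) (XT.lf (nat_lit 0) (nat_lit 2926786587) (nat_lit 152) (nat_lit 51124977184) (nat_lit 76) (nat_lit 25880518319) (nat_lit 101) (nat_lit 5) (nat_lit 103) (nat_lit 5) (nat_lit 102) (nat_lit 5) (nat_lit 541) (nat_lit 441) (nat_lit 218)) (XT.lf (nat_lit 0) (nat_lit 26295622597) (nat_lit 152) (nat_lit 1341495254) (nat_lit 76) (nat_lit 53875968907) (nat_lit 101) (nat_lit 5) (nat_lit 103) (nat_lit 5) (nat_lit 102)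 (nat_lit 5) (nat_lit 542) (nat_lit 441) (nat_lit 217))) (XT.nd (nat_lit 78) (nat_lit 76) (nat_lit 0) (XT.lf (nat_lit 0) (nat_lit 50853598012) (nat_lit 228) (nat_lit 32202187964) (nat_lit 76) (nat_lit 70887379) (nat_lit 99) (nat_lit 5) (nat_lit 102) (nat_lit 5) (nat_lit 100) (nat_lit 4) (nat_lit 543) (nat_lit 441) (nat_lit 216)) (XT.lf (nat_lit 0) (nat_lit 20112348761) (nat_lit 76) (nat_lit 56514472966) (nat_lit 152) (nat_lit 8147490570) (nat_lit 98) (nat_lit 5) (nat_lit 99) (nat_lit 5) (nat_lit 100) (nat_lit 4) (nat_lit 544) (nat_lit 441) (nat_lit 215)))))) (XT.nd (nat_lit 54678) (nat_lit 0) (nat_lit 18012) (XT.nd (nat_lit 312) (nat_lit 152) (nat_lit 0) (XT.nd (nat_lit 156) (nat_lit 152) (nat_lit 0) (XT.nd (nat_lit 78) (nat_lit 152) (nat_lit 0) (XT.lf (nat_lit 0) (nat_lit 16702211202) (nat_lit 152) (nat_lit 11972991570) (nat_lit 76) (nat_lit 57781573309) (nat_lit 97) (nat_lit 5) (nat_lit 99) (nat_lit 5) (nat_lit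 98) (nat_lit 5) (nat_lit 545) (nat_lit 441) (nat_lit 214)) (XT.lf (nat_lit 0) (nat_lit 42550289099) (nat_lit 228) (nat_lit 45127643451) (nat_lit 76) (nat_lit 496861952) (nat_lit 95) (nat_lit 5) (nat_lit 98) (nat_lit 5) (nat_lit 96) (nat_lit 4) (nat_lit 546) (nat_lit 441) (nat_lit 213))) (XT.nd (nat_lit 78) (nat_lit 76) (nat_lit 0) (XT.lf (nat_lit 0) (nat_lit 9927292043) (nat_lit 76) (nat_lit 59745890340) (nat_lit 152) (nat_lit 20256189915) (nat_lit 94) (nat_lit 5) (nat_lit 95) (nat_lit 5) (nat_lit 96) (nat_lit 4) (nat_lit 547) (nat_lit 441) (nat_lit 212)) (XT.lf (nat_lit 0) (nat_lit 6216715622) (nat_lit 152) (nat_lit 24228860863) (nat_lit 76) (nat_lit 61275572843) (nat_lit 93) (nat_lit 5) (nat_lit 95) (nat_lit 5) (nat_lit 94) (nat_lit 5) (nat_lit 548) (nat_lit 441) (nat_lit 211)))) (XT.nd (nat_lit 54210) (nat_lit 0) (nat_lit 17936) (XT.nd (nat_lit 54132) (nat_lit 0) (nat_lit 17936) (XT.lf (nat_lit 0) (nat_lit 33400946129)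 (nat_lit 228) (nat_lit 59883410697) (nat_lit 76) (nat_lit 266578151) (nat_lit 91) (nat_lit 5) (nat_lit 94) (nat_lit 5) (nat_lit 92) (nat_lit 4) (nat_lit 549) (nat_lit 441) (nat_lit 210)) (XT.lf (nat_lit 0) (nat_lit 384848107) (nat_lit 1292) (nat_lit 3375948269) (nat_lit 1292) (nat_lit 3375948269) (nat_lit 327) (nat_lit 3) (nat_lit 344) (nat_lit 3) (nat_lit 344) (nat_lit 5) (nat_lit 442) (nat_lit 442) (nat_lit 316))) (XT.nd (nat_lit 78) (nat_lit 0) (nat_lit 76) (XT.lf (nat_lit 76) (nat_lit 363531201) (nat_lit 0) (nat_lit 751325767) (nat_lit 1292) (nat_lit 13362710969) (nat_lit 328) (nat_lit 5) (nat_lit 327) (nat_lit 3) (nat_lit 344) (nat_lit 5) (nat_lit 443) (nat_lit 442) (nat_lit 315)) (XT.lf (nat_lit 0) (nat_lit 1586149337) (nat_lit 1216) (nat_lit 6922595614) (nat_lit 1292) (nat_lit 6175551281) (nat_lit 328) (nat_lit 5) (nat_lit 344) (nat_lit 5) (nat_lit 345) (nat_lit 5) (nat_lit 444) (nat_lit 442) (nat_lit 314)))))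 (XT.nd (nat_lit 312) (nat_lit 0) (nat_lit 152) (XT.nd (nat_lit 156) (nat_lit 0) (nat_lit 76) (XT.nd (nat_lit 78) (nat_lit 0) (nat_lit 76) (XT.lf (nat_lit 76) (nat_lit 479500904) (nat_lit 0) (nat_lit 1591613787) (nat_lit 1292) (nat_lit 12826126236) (nat_lit 329) (nat_lit 5) (nat_lit 328) (nat_lit 5) (nat_lit 345) (nat_lit 5) (nat_lit 445) (nat_lit 442) (nat_lit 313)) (XT.lf (nat_lit 0) (nat_lit 2682247289) (nat_lit 1216) (nat_lit 6930143953) (nat_lit 1292) (nat_lit 5500834731) (nat_lit 329) (nat_lit 5) (nat_lit 345) (nat_lit 5) (nat_lit 346) (nat_lit 5) (nat_lit 446) (nat_lit 442) (nat_lit 312))) (XT.nd (nat_lit 78) (nat_lit 0) (nat_lit 76) (XT.lf (nat_lit 76) (nat_lit 774289988) (nat_lit 0) (nat_lit 2548814344) (nat_lit 1292) (nat_lit 12012245070) (nat_lit 330) (nat_lit 5) (nat_lit 329) (nat_lit 5) (nat_lit 346) (nat_lit 5) (nat_lit 447) (nat_lit 442) (nat_lit 311)) (XT.lf (nat_lit 0) (nat_lit 4087804398) (nat_lit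 1216) (nat_lit 6763707656) (nat_lit 1292) (nat_lit 4709486488) (nat_lit 330) (nat_lit 5) (nat_lit 346) (nat_lit 5) (nat_lit 347) (nat_lit 5) (nat_lit 448) (nat_lit 442) (nat_lit 310)))) (XT.nd (nat_lit 156) (nat_lit 0) (nat_lit 76) (XT.nd (nat_lit 78) (nat_lit 0) (nat_lit 76) (XT.lf (nat_lit 76) (nat_lit 1259666656) (nat_lit 0) (nat_lit 3641965924) (nat_lit 1292) (nat_lit 10890999476) (nat_lit 331) (nat_lit 5) (nat_lit 330) (nat_lit 5) (nat_lit 347) (nat_lit 5) (nat_lit 449) (nat_lit 442) (nat_lit 309)) (XT.lf (nat_lit 0) (nat_lit 5834359400) (nat_lit 1216) (nat_lit 6411358300) (nat_lit 1292) (nat_lit 3782662860) (nat_lit 331) (nat_lit 5) (nat_lit 347) (nat_lit 5) (nat_lit 348) (nat_lit 5) (nat_lit 450) (nat_lit 442) (nat_lit 308))) (XT.nd (nat_lit 78) (nat_lit 0) (nat_lit 76) (XT.lf (nat_lit 76) (nat_lit 1948545329) (nat_lit 0) (nat_lit 4890763369) (nat_lit 1292) (nat_lit 9430566085) (nat_lit 332) (nat_lit 5) (nat_lit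 331) (nat_lit 5) (nat_lit 348) (nat_lit 5) (nat_lit 451) (nat_lit 442) (nat_lit 307)) (XT.lf (nat_lit 0) (nat_lit 7955316053) (nat_lit 1216) (nat_lit 5860031597) (nat_lit 1292) (nat_lit 2700839362) (nat_lit 332) (nat_lit 5) (nat_lit 348) (nat_lit 5) (nat_lit 349) (nat_lit 5) (nat_lit 452) (nat_lit 442) (nat_lit 306))))))) (XT.nd (nat_lit 1248) (nat_lit 4256) (nat_lit 0) (XT.nd (nat_lit 624) (nat_lit 3268) (nat_lit 0) (XT.nd (nat_lit 312) (nat_lit 1064) (nat_lit 0) (XT.nd (nat_lit 156) (nat_lit 0) (nat_lit 76) (XT.nd (nat_lit 78) (nat_lit 0) (nat_lit 76) (XT.lf (nat_lit 76) (nat_lit 2855031286) (nat_lit 0) (nat_lit 6315657622) (nat_lit 1292) (nat_lit 7597223600) (nat_lit 333) (nat_lit 5) (nat_lit 332) (nat_lit 5) (nat_lit 349) (nat_lit 5) (nat_lit 453) (nat_lit 442) (nat_lit 305)) (XT.lf (nat_lit 0) (nat_lit 10486090061) (nat_lit 1216) (nat_lit 5095481169) (nat_lit 1292) (nat_lit 1443711967) (nat_lit 333) (nat_lit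 5) (nat_lit 349) (nat_lit 5) (nat_lit 350) (nat_lit 5) (nat_lit 454) (nat_lit 442) (nat_lit 304))) (XT.nd (nat_lit 78) (nat_lit 0) (nat_lit 0) (XT.lf (nat_lit 76) (nat_lit 3994470374) (nat_lit 0) (nat_lit 7937957063) (nat_lit 1292) (nat_lit 5355203774) (nat_lit 334) (nat_lit 5) (nat_lit 333) (nat_lit 5) (nat_lit 350) (nat_lit 5) (nat_lit 455) (nat_lit 442) (nat_lit 303)) (XT.lf (nat_lit 76) (nat_lit 13454259492) (nat_lit 0) (nat_lit 10100513) (nat_lit 1292) (nat_lit 4092223924) (nat_lit 334) (nat_lit 5) (nat_lit 333) (nat_lit 5) (nat_lit 350) (nat_lit 5) (nat_lit 456) (nat_lit 442) (nat_lit 302)))) (XT.nd (nat_lit 156) (nat_lit 1216) (nat_lit 0) (XT.nd (nat_lit 78) (nat_lit 0) (nat_lit 0) (XT.lf (nat_lit 76) (nat_lit 5383503865) (nat_lit 0) (nat_lit 9779930922) (nat_lit 1292) (nat_lit 2666535321) (nat_lit 335) (nat_lit 5) (nat_lit 334) (nat_lit 5) (nat_lit 351) (nat_lit 5) (nat_lit 457) (nat_lit 442) (nat_lit 301))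 (XT.lf (nat_lit 76) (nat_lit 15230582883) (nat_lit 0) (nat_lit 1715652253) (nat_lit 1292) (nat_lit 1164340529) (nat_lit 335) (nat_lit 5) (nat_lit 334) (nat_lit 5) (nat_lit 351) (nat_lit 5) (nat_lit 458) (nat_lit 442) (nat_lit 300))) (XT.nd (nat_lit 78) (nat_lit 0) (nat_lit 0) (XT.lf (nat_lit 0) (nat_lit 499185081) (nat_lit 1292) (nat_lit 11360689428) (nat_lit 76) (nat_lit 6535902710) (nat_lit 318) (nat_lit 5) (nat_lit 335) (nat_lit 5) (nat_lit 319) (nat_lit 5) (nat_lit 459) (nat_lit 442) (nat_lit 299)) (XT.lf (nat_lit 0) (nat_lit 2227163846) (nat_lit 1292) (nat_lit 1418274793) (nat_lit 76) (nat_lit 15042612215) (nat_lit 318) (nat_lit 5) (nat_lit 335) (nat_lit 5) (nat_lit 319) (nat_lit 5) (nat_lit 460) (nat_lit 442) (nat_lit 298))))) (XT.nd (nat_lit 312) (nat_lit 1216) (nat_lit 0) (XT.nd (nat_lit 156) (nat_lit 608) (nat_lit 0) (XT.nd (nat_lit 78) (nat_lit 608) (nat_lit 0) (XT.lf (nat_lit 0) (nat_lit 4132395913) (nat_lit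 912) (nat_lit 10043297267) (nat_lit 76) (nat_lit 4809637445) (nat_lit 307) (nat_lit 5) (nat_lit 319) (nat_lit 5) (nat_lit 308) (nat_lit 5) (nat_lit 461) (nat_lit 442) (nat_lit 297)) (XT.lf (nat_lit 0) (nat_lit 313581782) (nat_lit 608) (nat_lit 5826788587) (nat_lit 684) (nat_lit 13149791199) (nat_lit 299) (nat_lit 5) (nat_lit 307) (nat_lit 5) (nat_lit 308) (nat_lit 5) (nat_lit 462) (nat_lit 442) (nat_lit 296))) (XT.nd (nat_lit 78) (nat_lit 608) (nat_lit 0) (XT.lf (nat_lit 0) (nat_lit 8329838036) (nat_lit 684) (nat_lit 8449299549) (nat_lit 76) (nat_lit 2821362563) (nat_lit 299) (nat_lit 5) (nat_lit 308) (nat_lit 5) (nat_lit 300) (nat_lit 5) (nat_lit 463) (nat_lit 442) (nat_lit 295)) (XT.lf (nat_lit 0) (nat_lit 2375082008) (nat_lit 608) (nat_lit 8282837662) (nat_lit 684) (nat_lit 9260041639) (nat_lit 291) (nat_lit 5) (nat_lit 299) (nat_lit 5) (nat_lit 300) (nat_lit 5) (nat_lit 464) (nat_lit 442) (nat_lit 294)))) (XT.nd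 (nat_lit 156) (nat_lit 684) (nat_lit 0) (XT.nd (nat_lit 78) (nat_lit 532) (nat_lit 0) (XT.lf (nat_lit 0) (nat_lit 13139072473) (nat_lit 684) (nat_lit 6557861260) (nat_lit 76) (nat_lit 545516019) (nat_lit 291) (nat_lit 5) (nat_lit 300) (nat_lit 5) (nat_lit 292) (nat_lit 5) (nat_lit 465) (nat_lit 442) (nat_lit 293)) (XT.lf (nat_lit 0) (nat_lit 4760283358) (nat_lit 532) (nat_lit 11054920750) (nat_lit 608) (nat_lit 4757852713) (nat_lit 284) (nat_lit 5) (nat_lit 291) (nat_lit 5) (nat_lit 292) (nat_lit 5) (nat_lit 466) (nat_lit 442) (nat_lit 292))) (XT.nd (nat_lit 78) (nat_lit 684) (nat_lit 0) (XT.lf (nat_lit 0) (nat_lit 16545167726) (nat_lit 532) (nat_lit 2085591542) (nat_lit 608) (nat_lit 2281048942) (nat_lit 284) (nat_lit 5) (nat_lit 291) (nat_lit 5) (nat_lit 292) (nat_lit 5) (nat_lit 467) (nat_lit 442) (nat_lit 291)) (XT.lf (nat_lit 0) (nat_lit 400023145) (nat_lit 684) (nat_lit 13767518953) (nat_lit 76) (nat_lit 7089045416)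 (nat_lit 275) (nat_lit 5) (nat_lit 284) (nat_lit 5) (nat_lit 276) (nat_lit 5) (nat_lit 468) (nat_lit 442) (nat_lit 290)))))) (XT.nd (nat_lit 624) (nat_lit 2204) (nat_lit 0) (XT.nd (nat_lit 312) (nat_lit 988) (nat_lit 0) (XT.nd (nat_lit 156) (nat_lit 532) (nat_lit 0) (XT.nd (nat_lit 78) (nat_lit 532) (nat_lit 0) (XT.lf (nat_lit 0) (nat_lit 3174048400) (nat_lit 684) (nat_lit 1871391003) (nat_lit 76) (nat_lit 16563842490) (nat_lit 275) (nat_lit 5) (nat_lit 284) (nat_lit 5) (nat_lit 276) (nat_lit 5) (nat_lit 469) (nat_lit 442) (nat_lit 289)) (XT.lf (nat_lit 0) (nat_lit 6169211883) (nat_lit 608) (nat_lit 11431511829) (nat_lit 76) (nat_lit 4367696126) (nat_lit 268) (nat_lit 5) (nat_lit 276) (nat_lit 5) (nat_lit 269) (nat_lit 5) (nat_lit 470) (nat_lit 442) (nat_lit 288))) (XT.nd (nat_lit 78) (nat_lit 0) (nat_lit 0) (XT.lf (nat_lit 0) (nat_lit 979828959) (nat_lit 532) (nat_lit 8346365324) (nat_lit 608) (nat_lit 13009978970)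 (nat_lit 261) (nat_lit 5) (nat_lit 268) (nat_lit 5) (nat_lit 269) (nat_lit 5) (nat_lit 471) (nat_lit 442) (nat_lit 287)) (XT.lf (nat_lit 0) (nat_lit 12699481165) (nat_lit 608) (nat_lit 8733506627) (nat_lit 76) (nat_lit 1278323874) (nat_lit 261) (nat_lit 5) (nat_lit 269) (nat_lit 5) (nat_lit 262) (nat_lit 5) (nat_lit 472) (nat_lit 442) (nat_lit 286)))) (XT.nd (nat_lit 156) (nat_lit 532) (nat_lit 0) (XT.nd (nat_lit 78) (nat_lit 0) (nat_lit 0) (XT.lf (nat_lit 0) (nat_lit 4261432538) (nat_lit 456) (nat_lit 12029940020) (nat_lit 532) (nat_lit 6802809733) (nat_lit 255) (nat_lit 5) (nat_lit 261) (nat_lit 5) (nat_lit 262) (nat_lit 5) (nat_lit 473) (nat_lit 442) (nat_lit 285)) (XT.lf (nat_lit 0) (nat_lit 17818215582) (nat_lit 456) (nat_lit 2254914364) (nat_lit 532) (nat_lit 3412946042) (nat_lit 255) (nat_lit 5) (nat_lit 261) (nat_lit 5) (nat_lit 262) (nat_lit 5) (nat_lit 474) (nat_lit 442) (nat_lit 284))) (XT.nd (nat_lit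 78) (nat_lit 0) (nat_lit 0) (XT.lf (nat_lit 0) (nat_lit 224282907) (nat_lit 532) (nat_lit 15922248465) (nat_lit 76) (nat_lit 7738756569) (nat_lit 248) (nat_lit 5) (nat_lit 255) (nat_lit 5) (nat_lit 249) (nat_lit 5) (nat_lit 475) (nat_lit 442) (nat_lit 283)) (XT.lf (nat_lit 0) (nat_lit 3976292896) (nat_lit 532) (nat_lit 2239436041) (nat_lit 76) (nat_lit 18077505953) (nat_lit 248) (nat_lit 5) (nat_lit 255) (nat_lit 5) (nat_lit 249) (nat_lit 5) (nat_lit 476) (nat_lit 442) (nat_lit 282))))) (XT.nd (nat_lit 312) (nat_lit 912) (nat_lit 0) (XT.nd (nat_lit 156) (nat_lit 380) (nat_lit 0) (XT.nd (nat_lit 78) (nat_lit 456) (nat_lit 0) (XT.lf (nat_lit 0) (nat_lit 7991029829) (nat_lit 532) (nat_lit 12667020996) (nat_lit 76) (nat_lit 4050864627) (nat_lit 242) (nat_lit 5) (nat_lit 249) (nat_lit 5) (nat_lit 243) (nat_lit 5) (nat_lit 477) (nat_lit 442) (nat_lit 281)) (XT.lf (nat_lit 0) (nat_lit 1624181855) (nat_lit 456) (nat_lit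 10596413793) (nat_lit 532) (nat_lit 12913639378) (nat_lit 236) (nat_lit 5) (nat_lit 242) (nat_lit 5) (nat_lit 243) (nat_lit 5) (nat_lit 478) (nat_lit 442) (nat_lit 280))) (XT.nd (nat_lit 78) (nat_lit 380) (nat_lit 0) (XT.lf (nat_lit 0) (nat_lit 16596921126) (nat_lit 456) (nat_lit 102531170) (nat_lit 532) (nat_lit 8869189969) (nat_lit 236) (nat_lit 5) (nat_lit 242) (nat_lit 5) (nat_lit 243) (nat_lit 5) (nat_lit 479) (nat_lit 442) (nat_lit 279)) (XT.lf (nat_lit 0) (nat_lit 6010320282) (nat_lit 380) (nat_lit 15457683059) (nat_lit 456) (nat_lit 4543418707) (nat_lit 231) (nat_lit 5) (nat_lit 236) (nat_lit 5) (nat_lit 237) (nat_lit 5) (nat_lit 480) (nat_lit 442) (nat_lit 278)))) (XT.nd (nat_lit 156) (nat_lit 380) (nat_lit 0) (XT.nd (nat_lit 78) (nat_lit 456) (nat_lit 0) (XT.lf (nat_lit 0) (nat_lit 1027938) (nat_lit 456) (nat_lit 4846949002) (nat_lit 76) (nat_lit 21616918178) (nat_lit 230) (nat_lit 5) (nat_lit 236) (nat_lit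 5) (nat_lit 231) (nat_lit 5) (nat_lit 481) (nat_lit 442) (nat_lit 277)) (XT.lf (nat_lit 0) (nat_lit 4750240858) (nat_lit 532) (nat_lit 16064194897) (nat_lit 76) (nat_lit 6111394733) (nat_lit 224) (nat_lit 5) (nat_lit 231) (nat_lit 5) (nat_lit 225) (nat_lit 5) (nat_lit 482) (nat_lit 442) (nat_lit 276))) (XT.nd (nat_lit 78) (nat_lit 380) (nat_lit 0) (XT.lf (nat_lit 0) (nat_lit 9734265492) (nat_lit 532) (nat_lit 313496601) (nat_lit 76) (nat_lit 17350061935) (nat_lit 224) (nat_lit 5) (nat_lit 231) (nat_lit 5) (nat_lit 225) (nat_lit 5) (nat_lit 483) (nat_lit 442) (nat_lit 275)) (XT.lf (nat_lit 0) (nat_lit 15030323184) (nat_lit 456) (nat_lit 11671291334) (nat_lit 76) (nat_lit 1177487647) (nat_lit 219) (nat_lit 5) (nat_lit 225) (nat_lit 5) (nat_lit 220) (nat_lit 5) (nat_lit 484) (nat_lit 442) (nat_lit 274))))))))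
noncomputable def xc183 : XT := (XT.nd (nat_lit 2418) (nat_lit 3648) (nat_lit 0) (XT.nd (nat_lit 1170) (nat_lit 2584) (nat_lit 0) (XT.nd (nat_lit 546) (nat_lit 1672) (nat_lit 0) (XT.nd (nat_lit 234) (nat_lit 684) (nat_lit 0) (XT.nd (nat_lit 78) (nat_lit 456) (nat_lit 0) (XT.lf (nat_lit 0) (nat_lit 4844894392) (nat_lit 380) (nat_lit 15784741324) (nat_lit 456) (nat_lit 7740851894) (nat_lit 214) (nat_lit 5) (nat_lit 219) (nat_lit 5) (nat_lit 220) (nat_lit 5) (nat_lit 485) (nat_lit 442) (nat_lit 273)) (XT.nd (nat_lit 78) (nat_lit 456) (nat_lit 0) (XT.lf (nat_lit 0) (nat_lit 22089287364) (nat_lit 380) (nat_lit 4420697950) (nat_lit 456) (nat_lit 2363237726) (nat_lit 214) (nat_lit 5) (nat_lit 219) (nat_lit 5) (nat_lit 220) (nat_lit 5) (nat_lit 486) (nat_lit 442) (nat_lit 272)) (XT.lf (nat_lit 0) (nat_lit 3282534093) (nat_lit 456) (nat_lit 18828067540) (nat_lit 76) (nat_lit 7274459281) (nat_lit 208) (nat_lit 5) (nat_lit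 214) (nat_lit 5) (nat_lit 209) (nat_lit 5) (nat_lit 487) (nat_lit 442) (nat_lit 271)))) (XT.nd (nat_lit 156) (nat_lit 304) (nat_lit 0) (XT.nd (nat_lit 78) (nat_lit 380) (nat_lit 0) (XT.lf (nat_lit 0) (nat_lit 9158485497) (nat_lit 456) (nat_lit 1427321685) (nat_lit 76) (nat_lit 19322495774) (nat_lit 208) (nat_lit 5) (nat_lit 214) (nat_lit 5) (nat_lit 209) (nat_lit 5) (nat_lit 488) (nat_lit 442) (nat_lit 270)) (XT.lf (nat_lit 0) (nat_lit 15381795220) (nat_lit 456) (nat_lit 13639150344) (nat_lit 76) (nat_lit 1421164438) (nat_lit 203) (nat_lit 5) (nat_lit 209) (nat_lit 5) (nat_lit 204) (nat_lit 5) (nat_lit 489) (nat_lit 442) (nat_lit 269))) (XT.nd (nat_lit 78) (nat_lit 0) (nat_lit 0) (XT.lf (nat_lit 0) (nat_lit 4596290319) (nat_lit 304) (nat_lit 17354604722) (nat_lit 380) (nat_lit 9036263625) (nat_lit 199) (nat_lit 5) (nat_lit 203) (nat_lit 5) (nat_lit 204) (nat_lit 5) (nat_lit 490) (nat_lit 442) (nat_lit 268)) (XT.lf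 (nat_lit 0) (nat_lit 23652089274) (nat_lit 304) (nat_lit 5198319206) (nat_lit 380) (nat_lit 2694150221) (nat_lit 199) (nat_lit 5) (nat_lit 203) (nat_lit 5) (nat_lit 204) (nat_lit 5) (nat_lit 491) (nat_lit 442) (nat_lit 267))))) (XT.nd (nat_lit 312) (nat_lit 684) (nat_lit 0) (XT.nd (nat_lit 156) (nat_lit 608) (nat_lit 0) (XT.nd (nat_lit 78) (nat_lit 0) (nat_lit 0) (XT.lf (nat_lit 0) (nat_lit 3939840469) (nat_lit 380) (nat_lit 20847193926) (nat_lit 76) (nat_lit 7325244253) (nat_lit 194) (nat_lit 5) (nat_lit 199) (nat_lit 5) (nat_lit 195) (nat_lit 5) (nat_lit 492) (nat_lit 442) (nat_lit 266)) (XT.lf (nat_lit 0) (nat_lit 10846402724) (nat_lit 380) (nat_lit 1620662970) (nat_lit 76) (nat_lit 20225333328) (nat_lit 194) (nat_lit 5) (nat_lit 199) (nat_lit 5) (nat_lit 195) (nat_lit 5) (nat_lit 493) (nat_lit 442) (nat_lit 265))) (XT.nd (nat_lit 78) (nat_lit 304) (nat_lit 0) (XT.lf (nat_lit 0) (nat_lit 18138117889) (nat_lit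 380) (nat_lit 14750234561) (nat_lit 76) (nat_lit 396231988) (nat_lit 190) (nat_lit 5) (nat_lit 195) (nat_lit 5) (nat_lit 191) (nat_lit 5) (nat_lit 494) (nat_lit 442) (nat_lit 264)) (XT.lf (nat_lit 0) (nat_lit 5409035115) (nat_lit 304) (nat_lit 20427421635) (nat_lit 380) (nat_lit 8052442611) (nat_lit 186) (nat_lit 5) (nat_lit 190) (nat_lit 5) (nat_lit 191) (nat_lit 5) (nat_lit 495) (nat_lit 442) (nat_lit 263)))) (XT.nd (nat_lit 156) (nat_lit 304) (nat_lit 0) (XT.nd (nat_lit 78) (nat_lit 380) (nat_lit 0) (XT.lf (nat_lit 0) (nat_lit 26469401128) (nat_lit 304) (nat_lit 7441267433) (nat_lit 380) (nat_lit 596327595) (nat_lit 186) (nat_lit 5) (nat_lit 190) (nat_lit 5) (nat_lit 191) (nat_lit 5) (nat_lit 496) (nat_lit 442) (nat_lit 262)) (XT.lf (nat_lit 0) (nat_lit 7127157762) (nat_lit 380) (nat_lit 21995350741) (nat_lit 76) (nat_lit 6013627402) (nat_lit 181) (nat_lit 5) (nat_lit 186) (nat_lit 5) (nat_lit 182) (nat_lit 5)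 (nat_lit 497) (nat_lit 442) (nat_lit 261))) (XT.nd (nat_lit 78) (nat_lit 304) (nat_lit 0) (XT.lf (nat_lit 0) (nat_lit 15222097433) (nat_lit 380) (nat_lit 748807918) (nat_lit 76) (nat_lit 19808515409) (nat_lit 181) (nat_lit 5) (nat_lit 186) (nat_lit 5) (nat_lit 182) (nat_lit 5) (nat_lit 498) (nat_lit 442) (nat_lit 260)) (XT.lf (nat_lit 0) (nat_lit 21549831637) (nat_lit 304) (nat_lit 2213409527) (nat_lit 380) (nat_lit 12672662415) (nat_lit 177) (nat_lit 5) (nat_lit 181) (nat_lit 5) (nat_lit 182) (nat_lit 5) (nat_lit 499) (nat_lit 442) (nat_lit 259)))))) (XT.nd (nat_lit 624) (nat_lit 1216) (nat_lit 0) (XT.nd (nat_lit 312) (nat_lit 532) (nat_lit 0) (XT.nd (nat_lit 156) (nat_lit 532) (nat_lit 0) (XT.nd (nat_lit 78) (nat_lit 76) (nat_lit 0) (XT.lf (nat_lit 0) (nat_lit 7445350478) (nat_lit 228) (nat_lit 25305652011) (nat_lit 304) (nat_lit 4355366988) (nat_lit 174) (nat_lit 5) (nat_lit 177) (nat_lit 5) (nat_lit 178) (nat_lit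 5) (nat_lit 500) (nat_lit 442) (nat_lit 258)) (XT.lf (nat_lit 0) (nat_lit 4299248691) (nat_lit 304) (nat_lit 7110328009) (nat_lit 76) (nat_lit 26381058790) (nat_lit 173) (nat_lit 5) (nat_lit 177) (nat_lit 5) (nat_lit 174) (nat_lit 5) (nat_lit 501) (nat_lit 442) (nat_lit 257))) (XT.nd (nat_lit 78) (nat_lit 228) (nat_lit 0) (XT.lf (nat_lit 0) (nat_lit 13309737685) (nat_lit 380) (nat_lit 22131544149) (nat_lit 76) (nat_lit 3047340860) (nat_lit 169) (nat_lit 5) (nat_lit 174) (nat_lit 5) (nat_lit 170) (nat_lit 5) (nat_lit 502) (nat_lit 442) (nat_lit 256)) (XT.lf (nat_lit 0) (nat_lit 1376318060) (nat_lit 228) (nat_lit 21409329921) (nat_lit 304) (nat_lit 16416048416) (nat_lit 166) (nat_lit 5) (nat_lit 169) (nat_lit 5) (nat_lit 170) (nat_lit 5) (nat_lit 503) (nat_lit 442) (nat_lit 255)))) (XT.nd (nat_lit 156) (nat_lit 228) (nat_lit 0) (XT.nd (nat_lit 78) (nat_lit 304) (nat_lit 0) (XT.lf (nat_lit 0) (nat_lit 26037418847)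 (nat_lit 228) (nat_lit 6728351541) (nat_lit 304) (nat_lit 7163793959) (nat_lit 166) (nat_lit 5) (nat_lit 169) (nat_lit 5) (nat_lit 170) (nat_lit 5) (nat_lit 504) (nat_lit 442) (nat_lit 254)) (XT.lf (nat_lit 0) (nat_lit 2503506634) (nat_lit 304) (nat_lit 29813132816) (nat_lit 76) (nat_lit 8356437201) (nat_lit 162) (nat_lit 5) (nat_lit 166) (nat_lit 5) (nat_lit 163) (nat_lit 5) (nat_lit 505) (nat_lit 442) (nat_lit 253))) (XT.nd (nat_lit 78) (nat_lit 228) (nat_lit 0) (XT.lf (nat_lit 0) (nat_lit 12521677839) (nat_lit 304) (nat_lit 4939854251) (nat_lit 76) (nat_lit 23969089346) (nat_lit 162) (nat_lit 5) (nat_lit 166) (nat_lit 5) (nat_lit 163) (nat_lit 5) (nat_lit 506) (nat_lit 442) (nat_lit 252)) (XT.lf (nat_lit 0) (nat_lit 21085637955) (nat_lit 228) (nat_lit 1954091890) (nat_lit 304) (nat_lit 19165182719) (nat_lit 159) (nat_lit 5) (nat_lit 162) (nat_lit 5) (nat_lit 163) (nat_lit 5) (nat_lit 507) (nat_lit 442) (nat_lit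 251))))) (XT.nd (nat_lit 312) (nat_lit 684) (nat_lit 0) (XT.nd (nat_lit 156) (nat_lit 228) (nat_lit 0) (XT.nd (nat_lit 78) (nat_lit 76) (nat_lit 0) (XT.lf (nat_lit 0) (nat_lit 4948059270) (nat_lit 228) (nat_lit 29154633186) (nat_lit 304) (nat_lit 8892858968) (nat_lit 156) (nat_lit 5) (nat_lit 159) (nat_lit 5) (nat_lit 160) (nat_lit 5) (nat_lit 508) (nat_lit 442) (nat_lit 250)) (XT.lf (nat_lit 0) (nat_lit 1886110637) (nat_lit 304) (nat_lit 11616335289) (nat_lit 76) (nat_lit 30300034673) (nat_lit 155) (nat_lit 5) (nat_lit 159) (nat_lit 5) (nat_lit 156) (nat_lit 5) (nat_lit 509) (nat_lit 442) (nat_lit 249))) (XT.nd (nat_lit 78) (nat_lit 0) (nat_lit 0) (XT.lf (nat_lit 0) (nat_lit 12986131684) (nat_lit 304) (nat_lit 28830890908) (nat_lit 76) (nat_lit 2808661076) (nat_lit 152) (nat_lit 5) (nat_lit 156) (nat_lit 5) (nat_lit 153) (nat_lit 5) (nat_lit 510) (nat_lit 442) (nat_lit 248)) (XT.lf (nat_lit 0) (nat_lit 24668109798)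 (nat_lit 304) (nat_lit 1343877821) (nat_lit 76) (nat_lit 19454126577) (nat_lit 152) (nat_lit 5) (nat_lit 156) (nat_lit 5) (nat_lit 153) (nat_lit 5) (nat_lit 511) (nat_lit 442) (nat_lit 247)))) (XT.nd (nat_lit 156) (nat_lit 228) (nat_lit 0) (XT.nd (nat_lit 78) (nat_lit 228) (nat_lit 0) (XT.lf (nat_lit 0) (nat_lit 27499165854) (nat_lit 228) (nat_lit 9462618493) (nat_lit 304) (nat_lit 9362136241) (nat_lit 149) (nat_lit 5) (nat_lit 152) (nat_lit 5) (nat_lit 153) (nat_lit 5) (nat_lit 512) (nat_lit 442) (nat_lit 246)) (XT.lf (nat_lit 0) (nat_lit 2552505493) (nat_lit 228) (nat_lit 37079276853) (nat_lit 76) (nat_lit 7569496181) (nat_lit 146) (nat_lit 5) (nat_lit 149) (nat_lit 5) (nat_lit 147) (nat_lit 5) (nat_lit 513) (nat_lit 442) (nat_lit 245))) (XT.nd (nat_lit 78) (nat_lit 228) (nat_lit 0) (XT.lf (nat_lit 0) (nat_lit 14919010612) (nat_lit 228) (nat_lit 7969689183) (nat_lit 76) (nat_lit 25204998816) (nat_lit 146) (nat_lit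 5) (nat_lit 149) (nat_lit 5) (nat_lit 147) (nat_lit 5) (nat_lit 514) (nat_lit 442) (nat_lit 244)) (XT.lf (nat_lit 0) (nat_lit 22446124101) (nat_lit 228) (nat_lit 5423171384) (nat_lit 304) (nat_lit 21137212328) (nat_lit 143) (nat_lit 5) (nat_lit 146) (nat_lit 5) (nat_lit 147) (nat_lit 5) (nat_lit 515) (nat_lit 442) (nat_lit 243))))))) (XT.nd (nat_lit 1248) (nat_lit 1672) (nat_lit 0) (XT.nd (nat_lit 624) (nat_lit 912) (nat_lit 0) (XT.nd (nat_lit 312) (nat_lit 608) (nat_lit 0) (XT.nd (nat_lit 156) (nat_lit 228) (nat_lit 0) (XT.nd (nat_lit 78) (nat_lit 76) (nat_lit 0) (XT.lf (nat_lit 0) (nat_lit 3943775462) (nat_lit 152) (nat_lit 37501331047) (nat_lit 228) (nat_lit 8494484305) (nat_lit 141) (nat_lit 5) (nat_lit 143) (nat_lit 5) (nat_lit 144) (nat_lit 5) (nat_lit 516) (nat_lit 442) (nat_lit 242)) (XT.lf (nat_lit 0) (nat_lit 4760781581) (nat_lit 228) (nat_lit 15090064902) (nat_lit 76) (nat_lit 31038866099) (nat_lit 140)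 (nat_lit 5) (nat_lit 143) (nat_lit 5) (nat_lit 141) (nat_lit 5) (nat_lit 517) (nat_lit 442) (nat_lit 241))) (XT.nd (nat_lit 78) (nat_lit 0) (nat_lit 0) (XT.lf (nat_lit 0) (nat_lit 16985251641) (nat_lit 228) (nat_lit 1418128009) (nat_lit 304) (nat_lit 33457623139) (nat_lit 137) (nat_lit 5) (nat_lit 140) (nat_lit 5) (nat_lit 141) (nat_lit 5) (nat_lit 518) (nat_lit 442) (nat_lit 240)) (XT.lf (nat_lit 0) (nat_lit 32775163575) (nat_lit 304) (nat_lit 2700042728) (nat_lit 76) (nat_lit 17376628205) (nat_lit 137) (nat_lit 5) (nat_lit 141) (nat_lit 5) (nat_lit 138) (nat_lit 5) (nat_lit 519) (nat_lit 442) (nat_lit 239)))) (XT.nd (nat_lit 156) (nat_lit 152) (nat_lit 0) (XT.nd (nat_lit 78) (nat_lit 304) (nat_lit 0) (XT.lf (nat_lit 0) (nat_lit 31027536934) (nat_lit 152) (nat_lit 16860092547) (nat_lit 228) (nat_lit 5975475889) (nat_lit 135) (nat_lit 5) (nat_lit 137) (nat_lit 5) (nat_lit 138) (nat_lit 5) (nat_lit 520) (nat_lit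 442) (nat_lit 238)) (XT.lf (nat_lit 0) (nat_lit 8537256456) (nat_lit 304) (nat_lit 43875991825) (nat_lit 76) (nat_lit 2484341289) (nat_lit 131) (nat_lit 5) (nat_lit 135) (nat_lit 5) (nat_lit 132) (nat_lit 5) (nat_lit 521) (nat_lit 442) (nat_lit 237))) (XT.nd (nat_lit 78) (nat_lit 152) (nat_lit 0) (XT.lf (nat_lit 0) (nat_lit 23762333132) (nat_lit 304) (nat_lit 9826823290) (nat_lit 76) (nat_lit 22360265116) (nat_lit 131) (nat_lit 5) (nat_lit 135) (nat_lit 5) (nat_lit 132) (nat_lit 5) (nat_lit 522) (nat_lit 442) (nat_lit 236)) (XT.lf (nat_lit 0) (nat_lit 25741428622) (nat_lit 152) (nat_lit 13947510136) (nat_lit 228) (nat_lit 17336526447) (nat_lit 129) (nat_lit 5) (nat_lit 131) (nat_lit 5) (nat_lit 132) (nat_lit 5) (nat_lit 523) (nat_lit 442) (nat_lit 235))))) (XT.nd (nat_lit 312) (nat_lit 532) (nat_lit 0) (XT.nd (nat_lit 156) (nat_lit 152) (nat_lit 0) (XT.nd (nat_lit 78) (nat_lit 76) (nat_lit 0) (XT.lf (nat_lit 0)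 (nat_lit 4468455336) (nat_lit 152) (nat_lit 51825802401) (nat_lit 228) (nat_lit 1833505026) (nat_lit 127) (nat_lit 5) (nat_lit 129) (nat_lit 5) (nat_lit 130) (nat_lit 5) (nat_lit 524) (nat_lit 442) (nat_lit 234)) (XT.lf (nat_lit 0) (nat_lit 14313273514) (nat_lit 228) (nat_lit 17600650053) (nat_lit 76) (nat_lit 27331495095) (nat_lit 126) (nat_lit 5) (nat_lit 129) (nat_lit 5) (nat_lit 127) (nat_lit 5) (nat_lit 525) (nat_lit 442) (nat_lit 233))) (XT.nd (nat_lit 78) (nat_lit 0) (nat_lit 0) (XT.lf (nat_lit 0) (nat_lit 19905458511) (nat_lit 152) (nat_lit 11190919958) (nat_lit 228) (nat_lit 29294017958) (nat_lit 124) (nat_lit 5) (nat_lit 126) (nat_lit 5) (nat_lit 127) (nat_lit 5) (nat_lit 526) (nat_lit 442) (nat_lit 232)) (XT.lf (nat_lit 0) (nat_lit 48657515865) (nat_lit 228) (nat_lit 2770803390) (nat_lit 76) (nat_lit 10133168125) (nat_lit 124) (nat_lit 5) (nat_lit 127) (nat_lit 5) (nat_lit 125) (nat_lit 5) (nat_lit 527)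 (nat_lit 442) (nat_lit 231)))) (XT.nd (nat_lit 156) (nat_lit 152) (nat_lit 0) (XT.nd (nat_lit 78) (nat_lit 152) (nat_lit 0) (XT.lf (nat_lit 0) (nat_lit 4365581484) (nat_lit 228) (nat_lit 26121527020) (nat_lit 76) (nat_lit 32265492707) (nat_lit 121) (nat_lit 5) (nat_lit 124) (nat_lit 5) (nat_lit 122) (nat_lit 5) (nat_lit 528) (nat_lit 442) (nat_lit 230)) (XT.lf (nat_lit 0) (nat_lit 13422616252) (nat_lit 152) (nat_lit 8626054107) (nat_lit 228) (nat_lit 41922301077) (nat_lit 119) (nat_lit 5) (nat_lit 121) (nat_lit 5) (nat_lit 122) (nat_lit 5) (nat_lit 529) (nat_lit 442) (nat_lit 229))) (XT.nd (nat_lit 78) (nat_lit 152) (nat_lit 0) (XT.lf (nat_lit 0) (nat_lit 40659700799) (nat_lit 228) (nat_lit 10670045461) (nat_lit 76) (nat_lit 13884223070) (nat_lit 119) (nat_lit 5) (nat_lit 122) (nat_lit 5) (nat_lit 120) (nat_lit 5) (nat_lit 530) (nat_lit 442) (nat_lit 228)) (XT.lf (nat_lit 0) (nat_lit 30918185958) (nat_lit 152) (nat_lit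 29291092890) (nat_lit 228) (nat_lit 6273571842) (nat_lit 117) (nat_lit 5) (nat_lit 119) (nat_lit 5) (nat_lit 120) (nat_lit 5) (nat_lit 531) (nat_lit 442) (nat_lit 227)))))) (XT.nd (nat_lit 624) (nat_lit 760) (nat_lit 0) (XT.nd (nat_lit 312) (nat_lit 456) (nat_lit 0) (XT.nd (nat_lit 156) (nat_lit 228) (nat_lit 0) (XT.nd (nat_lit 78) (nat_lit 0) (nat_lit 0) (XT.lf (nat_lit 0) (nat_lit 6180722206) (nat_lit 152) (nat_lit 6295656456) (nat_lit 228) (nat_lit 55304824003) (nat_lit 114) (nat_lit 5) (nat_lit 116) (nat_lit 5) (nat_lit 117) (nat_lit 5) (nat_lit 532) (nat_lit 442) (nat_lit 226)) (XT.lf (nat_lit 0) (nat_lit 32190204216) (nat_lit 228) (nat_lit 19437410664) (nat_lit 76) (nat_lit 17473202835) (nat_lit 114) (nat_lit 5) (nat_lit 117) (nat_lit 5) (nat_lit 115) (nat_lit 5) (nat_lit 533) (nat_lit 442) (nat_lit 225))) (XT.nd (nat_lit 78) (nat_lit 76) (nat_lit 0) (XT.lf (nat_lit 0) (nat_lit 24400118457) (nat_lit 152) (nat_lit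 28389897570) (nat_lit 228) (nat_lit 17661168071) (nat_lit 112) (nat_lit 5) (nat_lit 114) (nat_lit 5) (nat_lit 115) (nat_lit 5) (nat_lit 534) (nat_lit 442) (nat_lit 224)) (XT.lf (nat_lit 0) (nat_lit 2319415784) (nat_lit 228) (nat_lit 1911951893) (nat_lit 76) (nat_lit 67604191755) (nat_lit 111) (nat_lit 5) (nat_lit 114) (nat_lit 5) (nat_lit 112) (nat_lit 5) (nat_lit 535) (nat_lit 442) (nat_lit 223)))) (XT.nd (nat_lit 156) (nat_lit 152) (nat_lit 0) (XT.nd (nat_lit 78) (nat_lit 152) (nat_lit 0) (XT.lf (nat_lit 0) (nat_lit 23171867536) (nat_lit 228) (nat_lit 29212420537) (nat_lit 76) (nat_lit 20853109415) (nat_lit 109) (nat_lit 5) (nat_lit 112) (nat_lit 5) (nat_lit 110) (nat_lit 5) (nat_lit 536) (nat_lit 442) (nat_lit 222)) (XT.lf (nat_lit 0) (nat_lit 16983699703) (nat_lit 152) (nat_lit 27888612789) (nat_lit 228) (nat_lit 29802305627) (nat_lit 107) (nat_lit 5) (nat_lit 109) (nat_lit 5) (nat_lit 110) (nat_lit 5) (nat_lit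 537) (nat_lit 442) (nat_lit 221))) (XT.nd (nat_lit 78) (nat_lit 152) (nat_lit 0) (XT.lf (nat_lit 0) (nat_lit 65160447068) (nat_lit 152) (nat_lit 2356106723) (nat_lit 228) (nat_lit 8629618111) (nat_lit 107) (nat_lit 5) (nat_lit 109) (nat_lit 5) (nat_lit 110) (nat_lit 5) (nat_lit 538) (nat_lit 442) (nat_lit 220)) (XT.lf (nat_lit 0) (nat_lit 13516555025) (nat_lit 152) (nat_lit 40156120393) (nat_lit 76) (nat_lit 23967532775) (nat_lit 105) (nat_lit 5) (nat_lit 107) (nat_lit 5) (nat_lit 106) (nat_lit 5) (nat_lit 539) (nat_lit 442) (nat_lit 219))))) (XT.nd (nat_lit 312) (nat_lit 456) (nat_lit 0) (XT.nd (nat_lit 156) (nat_lit 152) (nat_lit 0) (XT.nd (nat_lit 78) (nat_lit 0) (nat_lit 0) (XT.lf (nat_lit 0) (nat_lit 8509625510) (nat_lit 152) (nat_lit 27859046304) (nat_lit 228) (nat_lit 42801380370) (nat_lit 103) (nat_lit 5) (nat_lit 105) (nat_lit 5) (nat_lit 106) (nat_lit 5) (nat_lit 540) (nat_lit 442) (nat_lit 218)) (XT.lf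 (nat_lit 0) (nat_lit 59454530362) (nat_lit 152) (nat_lit 855189463) (nat_lit 228) (nat_lit 20423970657) (nat_lit 103) (nat_lit 5) (nat_lit 105) (nat_lit 5) (nat_lit 106) (nat_lit 5) (nat_lit 541) (nat_lit 442) (nat_lit 217))) (XT.nd (nat_lit 78) (nat_lit 0) (nat_lit 0) (XT.lf (nat_lit 0) (nat_lit 3123448655) (nat_lit 152) (nat_lit 52454492696) (nat_lit 76) (nat_lit 26749042498) (nat_lit 101) (nat_lit 5) (nat_lit 103) (nat_lit 5) (nat_lit 102) (nat_lit 5) (nat_lit 542) (nat_lit 442) (nat_lit 216)) (XT.lf (nat_lit 0) (nat_lit 27190179111) (nat_lit 152) (nat_lit 1183454865) (nat_lit 76) (nat_lit 55581673827) (nat_lit 101) (nat_lit 5) (nat_lit 103) (nat_lit 5) (nat_lit 102) (nat_lit 5) (nat_lit 543) (nat_lit 442) (nat_lit 215)))) (XT.nd (nat_lit 156) (nat_lit 228) (nat_lit 0) (XT.nd (nat_lit 78) (nat_lit 76) (nat_lit 0) (XT.lf (nat_lit 0) (nat_lit 52484585718) (nat_lit 228) (nat_lit 32969659391) (nat_lit 76) (nat_lit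 163066158) (nat_lit 99) (nat_lit 5) (nat_lit 102) (nat_lit 5) (nat_lit 100) (nat_lit 4) (nat_lit 544) (nat_lit 442) (nat_lit 214)) (XT.lf (nat_lit 0) (nat_lit 20912366434) (nat_lit 76) (nat_lit 58117460691) (nat_lit 152) (nat_lit 8284587650) (nat_lit 98) (nat_lit 5) (nat_lit 99) (nat_lit 5) (nat_lit 100) (nat_lit 4) (nat_lit 545) (nat_lit 442) (nat_lit 213))) (XT.nd (nat_lit 78) (nat_lit 152) (nat_lit 0) (XT.lf (nat_lit 0) (nat_lit 17305445780) (nat_lit 152) (nat_lit 12139227528) (nat_lit 76) (nat_lit 59602740189) (nat_lit 97) (nat_lit 5) (nat_lit 99) (nat_lit 5) (nat_lit 98) (nat_lit 5) (nat_lit 546) (nat_lit 442) (nat_lit 212)) (XT.lf (nat_lit 0) (nat_lit 43928692297) (nat_lit 228) (nat_lit 46288244454) (nat_lit 76) (nat_lit 600043954) (nat_lit 95) (nat_lit 5) (nat_lit 98) (nat_lit 5) (nat_lit 96) (nat_lit 4) (nat_lit 547) (nat_lit 442) (nat_lit 211))))))))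
noncomputable def xc184 : XT := (XT.nd (nat_lit 56550) (nat_lit 0) (nat_lit 6080) (XT.nd (nat_lit 55302) (nat_lit 0) (nat_lit 13300) (XT.nd (nat_lit 54678) (nat_lit 0) (nat_lit 17936) (XT.nd (nat_lit 54366) (nat_lit 0) (nat_lit 17784) (XT.nd (nat_lit 78) (nat_lit 76) (nat_lit 0) (XT.lf (nat_lit 0) (nat_lit 10416444710) (nat_lit 76) (nat_lit 61447699087) (nat_lit 152) (nat_lit 20760085920) (nat_lit 94) (nat_lit 5) (nat_lit 95) (nat_lit 5) (nat_lit 96) (nat_lit 4) (nat_lit 548) (nat_lit 442) (nat_lit 210)) (XT.nd (nat_lit 54210) (nat_lit 0) (nat_lit 17784) (XT.lf (nat_lit 0) (nat_lit 6502017462) (nat_lit 152) (nat_lit 24767998566) (nat_lit 76) (nat_lit 63199803040) (nat_lit 93) (nat_lit 5) (nat_lit 95) (nat_lit 5) (nat_lit 94) (nat_lit 5) (nat_lit 549) (nat_lit 442) (nat_lit 209)) (XT.lf (nat_lit 0) (nat_lit 723341054) (nat_lit 1292) (nat_lit 3308841208) (nat_lit 1292) (nat_lit 3308841208) (nat_lit 327) (nat_lit 3)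 (nat_lit 344) (nat_lit 3) (nat_lit 344) (nat_lit 5) (nat_lit 443) (nat_lit 443) (nat_lit 314)))) (XT.nd (nat_lit 156) (nat_lit 0) (nat_lit 76) (XT.nd (nat_lit 78) (nat_lit 0) (nat_lit 76) (XT.lf (nat_lit 76) (nat_lit 707906479) (nat_lit 0) (nat_lit 1078451232) (nat_lit 1292) (nat_lit 13106366314) (nat_lit 328) (nat_lit 5) (nat_lit 327) (nat_lit 3) (nat_lit 344) (nat_lit 5) (nat_lit 444) (nat_lit 443) (nat_lit 313)) (XT.lf (nat_lit 0) (nat_lit 2250362137) (nat_lit 1216) (nat_lit 6785061680) (nat_lit 1292) (nat_lit 6070874006) (nat_lit 328) (nat_lit 5) (nat_lit 344) (nat_lit 5) (nat_lit 345) (nat_lit 5) (nat_lit 445) (nat_lit 443) (nat_lit 312))) (XT.nd (nat_lit 78) (nat_lit 0) (nat_lit 76) (XT.lf (nat_lit 76) (nat_lit 835713303) (nat_lit 0) (nat_lit 1899488953) (nat_lit 1292) (nat_lit 12590869656) (nat_lit 329) (nat_lit 5) (nat_lit 328) (nat_lit 5) (nat_lit 345) (nat_lit 5) (nat_lit 446) (nat_lit 443) (nat_lit 311))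 (XT.lf (nat_lit 0) (nat_lit 3344708521) (nat_lit 1216) (nat_lit 6786189911) (nat_lit 1292) (nat_lit 5418237692) (nat_lit 329) (nat_lit 5) (nat_lit 345) (nat_lit 5) (nat_lit 346) (nat_lit 5) (nat_lit 447) (nat_lit 443) (nat_lit 310))))) (XT.nd (nat_lit 312) (nat_lit 0) (nat_lit 152) (XT.nd (nat_lit 156) (nat_lit 0) (nat_lit 76) (XT.nd (nat_lit 78) (nat_lit 0) (nat_lit 76) (XT.lf (nat_lit 76) (nat_lit 1145927456) (nat_lit 0) (nat_lit 2845261662) (nat_lit 1292) (nat_lit 11787142984) (nat_lit 330) (nat_lit 5) (nat_lit 329) (nat_lit 5) (nat_lit 346) (nat_lit 5) (nat_lit 448) (nat_lit 443) (nat_lit 309)) (XT.lf (nat_lit 0) (nat_lit 4760222069) (nat_lit 1216) (nat_lit 6609724555) (nat_lit 1292) (nat_lit 4641363094) (nat_lit 330) (nat_lit 5) (nat_lit 346) (nat_lit 5) (nat_lit 347) (nat_lit 5) (nat_lit 449) (nat_lit 443) (nat_lit 308))) (XT.nd (nat_lit 78) (nat_lit 0) (nat_lit 76) (XT.lf (nat_lit 76) (nat_lit 1650852023)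 (nat_lit 0) (nat_lit 3934997014) (nat_lit 1292) (nat_lit 10664422419) (nat_lit 331) (nat_lit 5) (nat_lit 330) (nat_lit 5) (nat_lit 347) (nat_lit 5) (nat_lit 450) (nat_lit 443) (nat_lit 307)) (XT.lf (nat_lit 0) (nat_lit 6529196929) (nat_lit 1216) (nat_lit 6243212196) (nat_lit 1292) (nat_lit 3721204827) (nat_lit 331) (nat_lit 5) (nat_lit 347) (nat_lit 5) (nat_lit 348) (nat_lit 5) (nat_lit 451) (nat_lit 443) (nat_lit 306)))) (XT.nd (nat_lit 156) (nat_lit 0) (nat_lit 76) (XT.nd (nat_lit 78) (nat_lit 0) (nat_lit 76) (XT.lf (nat_lit 76) (nat_lit 2363954357) (nat_lit 0) (nat_lit 5188631593) (nat_lit 1292) (nat_lit 9190119007) (nat_lit 332) (nat_lit 5) (nat_lit 331) (nat_lit 5) (nat_lit 348) (nat_lit 5) (nat_lit 452) (nat_lit 443) (nat_lit 305)) (XT.lf (nat_lit 0) (nat_lit 8685863972) (nat_lit 1216) (nat_lit 5673044546) (nat_lit 1292) (nat_lit 2637984996) (nat_lit 332) (nat_lit 5) (nat_lit 348) (nat_lit 5) (nat_lit 349)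 (nat_lit 5) (nat_lit 453) (nat_lit 443) (nat_lit 304))) (XT.nd (nat_lit 78) (nat_lit 0) (nat_lit 76) (XT.lf (nat_lit 76) (nat_lit 3299913478) (nat_lit 0) (nat_lit 6626910837) (nat_lit 1292) (nat_lit 7329673324) (nat_lit 333) (nat_lit 5) (nat_lit 332) (nat_lit 5) (nat_lit 349) (nat_lit 5) (nat_lit 454) (nat_lit 443) (nat_lit 303)) (XT.lf (nat_lit 0) (nat_lit 11266540805) (nat_lit 1216) (nat_lit 4884409532) (nat_lit 1292) (nat_lit 1371094149) (nat_lit 333) (nat_lit 5) (nat_lit 349) (nat_lit 5) (nat_lit 350) (nat_lit 5) (nat_lit 455) (nat_lit 443) (nat_lit 302)))))) (XT.nd (nat_lit 624) (nat_lit 2356) (nat_lit 0) (XT.nd (nat_lit 312) (nat_lit 2584) (nat_lit 0) (XT.nd (nat_lit 156) (nat_lit 0) (nat_lit 76) (XT.nd (nat_lit 78) (nat_lit 0) (nat_lit 0) (XT.lf (nat_lit 76) (nat_lit 4474672558) (nat_lit 0) (nat_lit 8271490850) (nat_lit 1292) (nat_lit 5046403295) (nat_lit 334) (nat_lit 5) (nat_lit 333) (nat_lit 5) (nat_lit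 350) (nat_lit 5) (nat_lit 456) (nat_lit 443) (nat_lit 301)) (XT.lf (nat_lit 76) (nat_lit 14207759192) (nat_lit 0) (nat_lit 103020107) (nat_lit 1292) (nat_lit 3759207543) (nat_lit 334) (nat_lit 5) (nat_lit 333) (nat_lit 5) (nat_lit 350) (nat_lit 5) (nat_lit 457) (nat_lit 443) (nat_lit 300))) (XT.nd (nat_lit 78) (nat_lit 0) (nat_lit 0) (XT.lf (nat_lit 76) (nat_lit 5905496604) (nat_lit 0) (nat_lit 10145042575) (nat_lit 1292) (nat_lit 2301344620) (nat_lit 335) (nat_lit 5) (nat_lit 334) (nat_lit 5) (nat_lit 351) (nat_lit 5) (nat_lit 458) (nat_lit 443) (nat_lit 299)) (XT.lf (nat_lit 76) (nat_lit 16037488354) (nat_lit 0) (nat_lit 1836746797) (nat_lit 1292) (nat_lit 767050589) (nat_lit 335) (nat_lit 5) (nat_lit 334) (nat_lit 5) (nat_lit 351) (nat_lit 5) (nat_lit 459) (nat_lit 443) (nat_lit 298)))) (XT.nd (nat_lit 156) (nat_lit 1444) (nat_lit 0) (XT.nd (nat_lit 78) (nat_lit 0) (nat_lit 0) (XT.lf (nat_lit 0) (nat_lit 928439039)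 (nat_lit 1292) (nat_lit 11333544391) (nat_lit 76) (nat_lit 6673221028) (nat_lit 318) (nat_lit 5) (nat_lit 335) (nat_lit 5) (nat_lit 319) (nat_lit 5) (nat_lit 460) (nat_lit 443) (nat_lit 297)) (XT.lf (nat_lit 0) (nat_lit 2696190805) (nat_lit 1292) (nat_lit 1103574764) (nat_lit 76) (nat_lit 15436843238) (nat_lit 318) (nat_lit 5) (nat_lit 335) (nat_lit 5) (nat_lit 319) (nat_lit 5) (nat_lit 461) (nat_lit 443) (nat_lit 296))) (XT.nd (nat_lit 78) (nat_lit 608) (nat_lit 0) (XT.lf (nat_lit 0) (nat_lit 4649879379) (nat_lit 912) (nat_lit 9978630749) (nat_lit 76) (nat_lit 4914558360) (nat_lit 307) (nat_lit 5) (nat_lit 319) (nat_lit 5) (nat_lit 308) (nat_lit 5) (nat_lit 462) (nat_lit 443) (nat_lit 295)) (XT.lf (nat_lit 0) (nat_lit 685366776) (nat_lit 608) (nat_lit 6024748185) (nat_lit 684) (nat_lit 13147169227) (nat_lit 299) (nat_lit 5) (nat_lit 307) (nat_lit 5) (nat_lit 308) (nat_lit 5) (nat_lit 463) (nat_lit 443) (nat_lit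 294))))) (XT.nd (nat_lit 312) (nat_lit 1216) (nat_lit 0) (XT.nd (nat_lit 156) (nat_lit 532) (nat_lit 0) (XT.nd (nat_lit 78) (nat_lit 608) (nat_lit 0) (XT.lf (nat_lit 0) (nat_lit 8953821422) (nat_lit 684) (nat_lit 8339494695) (nat_lit 76) (nat_lit 2883960639) (nat_lit 299) (nat_lit 5) (nat_lit 308) (nat_lit 5) (nat_lit 300) (nat_lit 5) (nat_lit 464) (nat_lit 443) (nat_lit 293)) (XT.lf (nat_lit 0) (nat_lit 2806056702) (nat_lit 608) (nat_lit 8538250898) (nat_lit 684) (nat_lit 9160177747) (nat_lit 291) (nat_lit 5) (nat_lit 299) (nat_lit 5) (nat_lit 300) (nat_lit 5) (nat_lit 465) (nat_lit 443) (nat_lit 292))) (XT.nd (nat_lit 78) (nat_lit 532) (nat_lit 0) (XT.lf (nat_lit 0) (nat_lit 13889151193) (nat_lit 684) (nat_lit 6394593571) (nat_lit 76) (nat_lit 555286438) (nat_lit 291) (nat_lit 5) (nat_lit 300) (nat_lit 5) (nat_lit 292) (nat_lit 5) (nat_lit 466) (nat_lit 443) (nat_lit 291)) (XT.lf (nat_lit 0) (nat_lit 5259565940)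 (nat_lit 532) (nat_lit 11379061276) (nat_lit 608) (nat_lit 4541137888) (nat_lit 284) (nat_lit 5) (nat_lit 291) (nat_lit 5) (nat_lit 292) (nat_lit 5) (nat_lit 467) (nat_lit 443) (nat_lit 290)))) (XT.nd (nat_lit 156) (nat_lit 532) (nat_lit 0) (XT.nd (nat_lit 78) (nat_lit 684) (nat_lit 0) (XT.lf (nat_lit 0) (nat_lit 17387614099) (nat_lit 532) (nat_lit 2140870844) (nat_lit 608) (nat_lit 2000499433) (nat_lit 284) (nat_lit 5) (nat_lit 291) (nat_lit 5) (nat_lit 292) (nat_lit 5) (nat_lit 468) (nat_lit 443) (nat_lit 289)) (XT.lf (nat_lit 0) (nat_lit 747721492) (nat_lit 684) (nat_lit 13821143081) (nat_lit 76) (nat_lit 7315336448) (nat_lit 275) (nat_lit 5) (nat_lit 284) (nat_lit 5) (nat_lit 276) (nat_lit 5) (nat_lit 469) (nat_lit 443) (nat_lit 288))) (XT.nd (nat_lit 78) (nat_lit 532) (nat_lit 0) (XT.lf (nat_lit 0) (nat_lit 3595189903) (nat_lit 684) (nat_lit 1578599295) (nat_lit 76) (nat_lit 17073980744) (nat_lit 275) (nat_lit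 5) (nat_lit 284) (nat_lit 5) (nat_lit 276) (nat_lit 5) (nat_lit 470) (nat_lit 443) (nat_lit 287)) (XT.lf (nat_lit 0) (nat_lit 6674284411) (nat_lit 608) (nat_lit 11419587432) (nat_lit 76) (nat_lit 4523988271) (nat_lit 268) (nat_lit 5) (nat_lit 276) (nat_lit 5) (nat_lit 269) (nat_lit 5) (nat_lit 471) (nat_lit 443) (nat_lit 286))))))) (XT.nd (nat_lit 1170) (nat_lit 3116) (nat_lit 0) (XT.nd (nat_lit 546) (nat_lit 2128) (nat_lit 0) (XT.nd (nat_lit 234) (nat_lit 988) (nat_lit 0) (XT.nd (nat_lit 78) (nat_lit 456) (nat_lit 0) (XT.lf (nat_lit 0) (nat_lit 1360614464) (nat_lit 532) (nat_lit 8559419324) (nat_lit 608) (nat_lit 13076790981) (nat_lit 261) (nat_lit 5) (nat_lit 268) (nat_lit 5) (nat_lit 269) (nat_lit 5) (nat_lit 472) (nat_lit 443) (nat_lit 285)) (XT.nd (nat_lit 78) (nat_lit 456) (nat_lit 0) (XT.lf (nat_lit 0) (nat_lit 13385720533) (nat_lit 608) (nat_lit 8645545406) (nat_lit 76) (nat_lit 1352215708) (nat_lit 261)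 (nat_lit 5) (nat_lit 269) (nat_lit 5) (nat_lit 262) (nat_lit 5) (nat_lit 473) (nat_lit 443) (nat_lit 284)) (XT.lf (nat_lit 0) (nat_lit 4735810890) (nat_lit 456) (nat_lit 12343997968) (nat_lit 532) (nat_lit 6698196669) (nat_lit 255) (nat_lit 5) (nat_lit 261) (nat_lit 5) (nat_lit 262) (nat_lit 5) (nat_lit 474) (nat_lit 443) (nat_lit 283)))) (XT.nd (nat_lit 156) (nat_lit 456) (nat_lit 0) (XT.nd (nat_lit 78) (nat_lit 532) (nat_lit 0) (XT.lf (nat_lit 0) (nat_lit 18689204162) (nat_lit 456) (nat_lit 2277085822) (nat_lit 532) (nat_lit 3215628253) (nat_lit 255) (nat_lit 5) (nat_lit 261) (nat_lit 5) (nat_lit 262) (nat_lit 5) (nat_lit 475) (nat_lit 443) (nat_lit 282)) (XT.lf (nat_lit 0) (nat_lit 520052765) (nat_lit 532) (nat_lit 16052787869) (nat_lit 76) (nat_lit 8020324293) (nat_lit 248) (nat_lit 5) (nat_lit 255) (nat_lit 5) (nat_lit 249) (nat_lit 5) (nat_lit 476) (nat_lit 443) (nat_lit 281))) (XT.nd (nat_lit 78) (nat_lit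 456) (nat_lit 0) (XT.lf (nat_lit 0) (nat_lit 4376204372) (nat_lit 532) (nat_lit 1969601597) (nat_lit 76) (nat_lit 18667797177) (nat_lit 248) (nat_lit 5) (nat_lit 255) (nat_lit 5) (nat_lit 249) (nat_lit 5) (nat_lit 477) (nat_lit 443) (nat_lit 280)) (XT.lf (nat_lit 0) (nat_lit 8506975867) (nat_lit 532) (nat_lit 12705596741) (nat_lit 76) (nat_lit 4229314037) (nat_lit 242) (nat_lit 5) (nat_lit 249) (nat_lit 5) (nat_lit 243) (nat_lit 5) (nat_lit 478) (nat_lit 443) (nat_lit 279))))) (XT.nd (nat_lit 312) (nat_lit 1216) (nat_lit 0) (XT.nd (nat_lit 156) (nat_lit 456) (nat_lit 0) (XT.nd (nat_lit 78) (nat_lit 0) (nat_lit 0) (XT.lf (nat_lit 0) (nat_lit 2010994794) (nat_lit 456) (nat_lit 10847638669) (nat_lit 532) (nat_lit 13021476486) (nat_lit 236) (nat_lit 5) (nat_lit 242) (nat_lit 5) (nat_lit 243) (nat_lit 5) (nat_lit 479) (nat_lit 443) (nat_lit 278)) (XT.lf (nat_lit 0) (nat_lit 17423069035) (nat_lit 456) (nat_lit 40881340)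 (nat_lit 532) (nat_lit 8863836470) (nat_lit 236) (nat_lit 5) (nat_lit 242) (nat_lit 5) (nat_lit 243) (nat_lit 5) (nat_lit 480) (nat_lit 443) (nat_lit 277))) (XT.nd (nat_lit 78) (nat_lit 76) (nat_lit 0) (XT.lf (nat_lit 0) (nat_lit 6522873132) (nat_lit 380) (nat_lit 15848807427) (nat_lit 456) (nat_lit 4412286055) (nat_lit 231) (nat_lit 5) (nat_lit 236) (nat_lit 5) (nat_lit 237) (nat_lit 5) (nat_lit 481) (nat_lit 443) (nat_lit 276)) (XT.lf (nat_lit 0) (nat_lit 255637989) (nat_lit 456) (nat_lit 4664716126) (nat_lit 76) (nat_lit 22330842013) (nat_lit 230) (nat_lit 5) (nat_lit 236) (nat_lit 5) (nat_lit 231) (nat_lit 5) (nat_lit 482) (nat_lit 443) (nat_lit 275)))) (XT.nd (nat_lit 156) (nat_lit 760) (nat_lit 0) (XT.nd (nat_lit 78) (nat_lit 0) (nat_lit 0) (XT.lf (nat_lit 0) (nat_lit 5143743720) (nat_lit 532) (nat_lit 16214887601) (nat_lit 76) (nat_lit 6367435994) (nat_lit 224) (nat_lit 5) (nat_lit 231) (nat_lit 5) (nat_lit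 225) (nat_lit 5) (nat_lit 483) (nat_lit 443) (nat_lit 274)) (XT.lf (nat_lit 0) (nat_lit 10269978540) (nat_lit 532) (nat_lit 1315923) (nat_lit 76) (nat_lit 17941145753) (nat_lit 224) (nat_lit 5) (nat_lit 231) (nat_lit 5) (nat_lit 225) (nat_lit 5) (nat_lit 484) (nat_lit 443) (nat_lit 273))) (XT.nd (nat_lit 78) (nat_lit 380) (nat_lit 0) (XT.lf (nat_lit 0) (nat_lit 15721638633) (nat_lit 456) (nat_lit 11696557421) (nat_lit 76) (nat_lit 1290059256) (nat_lit 219) (nat_lit 5) (nat_lit 225) (nat_lit 5) (nat_lit 220) (nat_lit 5) (nat_lit 485) (nat_lit 443) (nat_lit 272)) (XT.lf (nat_lit 0) (nat_lit 5311928852) (nat_lit 380) (nat_lit 16173091839) (nat_lit 456) (nat_lit 7729479149) (nat_lit 214) (nat_lit 5) (nat_lit 219) (nat_lit 5) (nat_lit 220) (nat_lit 5) (nat_lit 486) (nat_lit 443) (nat_lit 271)))))) (XT.nd (nat_lit 624) (nat_lit 1596) (nat_lit 0) (XT.nd (nat_lit 312) (nat_lit 684) (nat_lit 0) (XT.nd (nat_lit 156) (nat_lit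 380) (nat_lit 0) (XT.nd (nat_lit 78) (nat_lit 456) (nat_lit 0) (XT.lf (nat_lit 0) (nat_lit 23064284070) (nat_lit 380) (nat_lit 4470608476) (nat_lit 456) (nat_lit 2197631653) (nat_lit 214) (nat_lit 5) (nat_lit 219) (nat_lit 5) (nat_lit 220) (nat_lit 5) (nat_lit 487) (nat_lit 443) (nat_lit 270)) (XT.lf (nat_lit 0) (nat_lit 3609984650) (nat_lit 456) (nat_lit 19073048836) (nat_lit 76) (nat_lit 7576703136) (nat_lit 208) (nat_lit 5) (nat_lit 214) (nat_lit 5) (nat_lit 209) (nat_lit 5) (nat_lit 488) (nat_lit 443) (nat_lit 269))) (XT.nd (nat_lit 78) (nat_lit 380) (nat_lit 0) (XT.lf (nat_lit 0) (nat_lit 9655545435) (nat_lit 456) (nat_lit 1159596937) (nat_lit 76) (nat_lit 19983733829) (nat_lit 208) (nat_lit 5) (nat_lit 214) (nat_lit 5) (nat_lit 209) (nat_lit 5) (nat_lit 489) (nat_lit 443) (nat_lit 268)) (XT.lf (nat_lit 0) (nat_lit 16062888181) (nat_lit 456) (nat_lit 13735107698) (nat_lit 76) (nat_lit 1550781761) (nat_lit 203)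 (nat_lit 5) (nat_lit 209) (nat_lit 5) (nat_lit 204) (nat_lit 5) (nat_lit 490) (nat_lit 443) (nat_lit 267)))) (XT.nd (nat_lit 156) (nat_lit 380) (nat_lit 0) (XT.nd (nat_lit 78) (nat_lit 0) (nat_lit 0) (XT.lf (nat_lit 0) (nat_lit 5044325428) (nat_lit 304) (nat_lit 17781319630) (nat_lit 380) (nat_lit 9084635374) (nat_lit 199) (nat_lit 5) (nat_lit 203) (nat_lit 5) (nat_lit 204) (nat_lit 5) (nat_lit 491) (nat_lit 443) (nat_lit 266)) (XT.lf (nat_lit 0) (nat_lit 24662764961) (nat_lit 304) (nat_lit 5263081176) (nat_lit 380) (nat_lit 2558745445) (nat_lit 199) (nat_lit 5) (nat_lit 203) (nat_lit 5) (nat_lit 204) (nat_lit 5) (nat_lit 492) (nat_lit 443) (nat_lit 265))) (XT.nd (nat_lit 78) (nat_lit 0) (nat_lit 0) (XT.lf (nat_lit 0) (nat_lit 4267676608) (nat_lit 380) (nat_lit 21164896674) (nat_lit 76) (nat_lit 7636778733) (nat_lit 194) (nat_lit 5) (nat_lit 199) (nat_lit 5) (nat_lit 195) (nat_lit 5) (nat_lit 493) (nat_lit 443)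 (nat_lit 264)) (XT.lf (nat_lit 0) (nat_lit 11375329684) (nat_lit 380) (nat_lit 1370532306) (nat_lit 76) (nat_lit 20921197359) (nat_lit 194) (nat_lit 5) (nat_lit 199) (nat_lit 5) (nat_lit 195) (nat_lit 5) (nat_lit 494) (nat_lit 443) (nat_lit 263))))) (XT.nd (nat_lit 312) (nat_lit 608) (nat_lit 0) (XT.nd (nat_lit 156) (nat_lit 380) (nat_lit 0) (XT.nd (nat_lit 78) (nat_lit 304) (nat_lit 0) (XT.lf (nat_lit 0) (nat_lit 18883628490) (nat_lit 380) (nat_lit 14891817796) (nat_lit 76) (nat_lit 501629239) (nat_lit 190) (nat_lit 5) (nat_lit 195) (nat_lit 5) (nat_lit 191) (nat_lit 5) (nat_lit 495) (nat_lit 443) (nat_lit 262)) (XT.lf (nat_lit 0) (nat_lit 5869279737) (nat_lit 304) (nat_lit 20940637023) (nat_lit 380) (nat_lit 8089693316) (nat_lit 186) (nat_lit 5) (nat_lit 190) (nat_lit 5) (nat_lit 191) (nat_lit 5) (nat_lit 496) (nat_lit 443) (nat_lit 261))) (XT.nd (nat_lit 78) (nat_lit 380) (nat_lit 0) (XT.lf (nat_lit 0) (nat_lit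 27552777888) (nat_lit 304) (nat_lit 7567799377) (nat_lit 380) (nat_lit 415845992) (nat_lit 186) (nat_lit 5) (nat_lit 190) (nat_lit 5) (nat_lit 191) (nat_lit 5) (nat_lit 497) (nat_lit 443) (nat_lit 260)) (XT.lf (nat_lit 0) (nat_lit 7533546909) (nat_lit 380) (nat_lit 22360109719) (nat_lit 76) (nat_lit 6290781294) (nat_lit 181) (nat_lit 5) (nat_lit 186) (nat_lit 5) (nat_lit 182) (nat_lit 5) (nat_lit 498) (nat_lit 443) (nat_lit 259)))) (XT.nd (nat_lit 156) (nat_lit 304) (nat_lit 0) (XT.nd (nat_lit 78) (nat_lit 304) (nat_lit 0) (XT.lf (nat_lit 0) (nat_lit 15865725806) (nat_lit 380) (nat_lit 484765802) (nat_lit 76) (nat_lit 20496698123) (nat_lit 181) (nat_lit 5) (nat_lit 186) (nat_lit 5) (nat_lit 182) (nat_lit 5) (nat_lit 499) (nat_lit 443) (nat_lit 258)) (XT.lf (nat_lit 0) (nat_lit 22480024054) (nat_lit 304) (nat_lit 2180361273) (nat_lit 380) (nat_lit 12863063400) (nat_lit 177) (nat_lit 5) (nat_lit 181) (nat_lit 5) (nat_lit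 182) (nat_lit 5) (nat_lit 500) (nat_lit 443) (nat_lit 257))) (XT.nd (nat_lit 78) (nat_lit 76) (nat_lit 0) (XT.lf (nat_lit 0) (nat_lit 7954158229) (nat_lit 228) (nat_lit 25961926876) (nat_lit 304) (nat_lit 4297994461) (nat_lit 174) (nat_lit 5) (nat_lit 177) (nat_lit 5) (nat_lit 178) (nat_lit 5) (nat_lit 501) (nat_lit 443) (nat_lit 256)) (XT.lf (nat_lit 0) (nat_lit 4607220643) (nat_lit 304) (nat_lit 7042938103) (nat_lit 76) (nat_lit 27268821810) (nat_lit 173) (nat_lit 5) (nat_lit 177) (nat_lit 5) (nat_lit 174) (nat_lit 5) (nat_lit 502) (nat_lit 443) (nat_lit 255))))))))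
noncomputable def xc185 : XT := (XT.nd (nat_lit 2418) (nat_lit 1520) (nat_lit 0) (XT.nd (nat_lit 1170) (nat_lit 2052) (nat_lit 0) (XT.nd (nat_lit 546) (nat_lit 1140) (nat_lit 0) (XT.nd (nat_lit 234) (nat_lit 760) (nat_lit 0) (XT.nd (nat_lit 78) (nat_lit 228) (nat_lit 0) (XT.lf (nat_lit 0) (nat_lit 13886458309) (nat_lit 380) (nat_lit 22513220688) (nat_lit 76) (nat_lit 3238275479) (nat_lit 169) (nat_lit 5) (nat_lit 174) (nat_lit 5) (nat_lit 170) (nat_lit 5) (nat_lit 503) (nat_lit 443) (nat_lit 254)) (XT.nd (nat_lit 78) (nat_lit 0) (nat_lit 0) (XT.lf (nat_lit 0) (nat_lit 1697110037) (nat_lit 228) (nat_lit 21947054806) (nat_lit 304) (nat_lit 16728330098) (nat_lit 166) (nat_lit 5) (nat_lit 169) (nat_lit 5) (nat_lit 170) (nat_lit 5) (nat_lit 504) (nat_lit 443) (nat_lit 253)) (XT.lf (nat_lit 0) (nat_lit 27089902999) (nat_lit 228) (nat_lit 6828692366) (nat_lit 304) (nat_lit 7203756543) (nat_lit 166) (nat_lit 5) (nat_lit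 169) (nat_lit 5) (nat_lit 170) (nat_lit 5) (nat_lit 505) (nat_lit 443) (nat_lit 252)))) (XT.nd (nat_lit 156) (nat_lit 456) (nat_lit 0) (XT.nd (nat_lit 78) (nat_lit 0) (nat_lit 0) (XT.lf (nat_lit 0) (nat_lit 2748757770) (nat_lit 304) (nat_lit 30431352624) (nat_lit 76) (nat_lit 8708050586) (nat_lit 162) (nat_lit 5) (nat_lit 166) (nat_lit 5) (nat_lit 163) (nat_lit 5) (nat_lit 506) (nat_lit 443) (nat_lit 251)) (XT.lf (nat_lit 0) (nat_lit 13062518405) (nat_lit 304) (nat_lit 4819919609) (nat_lit 76) (nat_lit 24786142869) (nat_lit 162) (nat_lit 5) (nat_lit 166) (nat_lit 5) (nat_lit 163) (nat_lit 5) (nat_lit 507) (nat_lit 443) (nat_lit 250))) (XT.nd (nat_lit 78) (nat_lit 228) (nat_lit 0) (XT.lf (nat_lit 0) (nat_lit 21983708634) (nat_lit 228) (nat_lit 1910144135) (nat_lit 304) (nat_lit 19572315855) (nat_lit 159) (nat_lit 5) (nat_lit 162) (nat_lit 5) (nat_lit 163) (nat_lit 5) (nat_lit 508) (nat_lit 443) (nat_lit 249)) (XT.lf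 (nat_lit 0) (nat_lit 5363266692) (nat_lit 228) (nat_lit 29924213570) (nat_lit 304) (nat_lit 8993083207) (nat_lit 156) (nat_lit 5) (nat_lit 159) (nat_lit 5) (nat_lit 160) (nat_lit 5) (nat_lit 509) (nat_lit 443) (nat_lit 248))))) (XT.nd (nat_lit 312) (nat_lit 608) (nat_lit 0) (XT.nd (nat_lit 156) (nat_lit 228) (nat_lit 0) (XT.nd (nat_lit 78) (nat_lit 228) (nat_lit 0) (XT.lf (nat_lit 0) (nat_lit 2101248631) (nat_lit 304) (nat_lit 11702670929) (nat_lit 76) (nat_lit 31307875717) (nat_lit 155) (nat_lit 5) (nat_lit 159) (nat_lit 5) (nat_lit 156) (nat_lit 5) (nat_lit 510) (nat_lit 443) (nat_lit 247)) (XT.lf (nat_lit 0) (nat_lit 13533139059) (nat_lit 304) (nat_lit 29432528958) (nat_lit 76) (nat_lit 2994060449) (nat_lit 152) (nat_lit 5) (nat_lit 156) (nat_lit 5) (nat_lit 153) (nat_lit 5) (nat_lit 511) (nat_lit 443) (nat_lit 246))) (XT.nd (nat_lit 78) (nat_lit 228) (nat_lit 0) (XT.lf (nat_lit 0) (nat_lit 25560991368) (nat_lit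 304) (nat_lit 1128574081) (nat_lit 76) (nat_lit 20135944103) (nat_lit 152) (nat_lit 5) (nat_lit 156) (nat_lit 5) (nat_lit 153) (nat_lit 5) (nat_lit 512) (nat_lit 443) (nat_lit 245)) (XT.lf (nat_lit 0) (nat_lit 28577254825) (nat_lit 228) (nat_lit 9644202814) (nat_lit 304) (nat_lit 9487653137) (nat_lit 149) (nat_lit 5) (nat_lit 152) (nat_lit 5) (nat_lit 153) (nat_lit 5) (nat_lit 513) (nat_lit 443) (nat_lit 244)))) (XT.nd (nat_lit 156) (nat_lit 380) (nat_lit 0) (XT.nd (nat_lit 78) (nat_lit 0) (nat_lit 0) (XT.lf (nat_lit 0) (nat_lit 2780391365) (nat_lit 228) (nat_lit 37934499251) (nat_lit 76) (nat_lit 7897884272) (nat_lit 146) (nat_lit 5) (nat_lit 149) (nat_lit 5) (nat_lit 147) (nat_lit 5) (nat_lit 514) (nat_lit 443) (nat_lit 243)) (XT.lf (nat_lit 0) (nat_lit 15513484529) (nat_lit 228) (nat_lit 7959113929) (nat_lit 76) (nat_lit 26059501407) (nat_lit 146) (nat_lit 5) (nat_lit 149) (nat_lit 5) (nat_lit 147) (nat_lit 5)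 (nat_lit 515) (nat_lit 443) (nat_lit 242))) (XT.nd (nat_lit 78) (nat_lit 152) (nat_lit 0) (XT.lf (nat_lit 0) (nat_lit 23366726049) (nat_lit 228) (nat_lit 5483649567) (nat_lit 304) (nat_lit 21621974874) (nat_lit 143) (nat_lit 5) (nat_lit 146) (nat_lit 5) (nat_lit 147) (nat_lit 5) (nat_lit 516) (nat_lit 443) (nat_lit 241)) (XT.lf (nat_lit 0) (nat_lit 4310220189) (nat_lit 152) (nat_lit 38522356589) (nat_lit 228) (nat_lit 8600875802) (nat_lit 141) (nat_lit 5) (nat_lit 143) (nat_lit 5) (nat_lit 144) (nat_lit 5) (nat_lit 517) (nat_lit 443) (nat_lit 240)))))) (XT.nd (nat_lit 624) (nat_lit 988) (nat_lit 0) (XT.nd (nat_lit 312) (nat_lit 608) (nat_lit 0) (XT.nd (nat_lit 156) (nat_lit 152) (nat_lit 0) (XT.nd (nat_lit 78) (nat_lit 228) (nat_lit 0) (XT.lf (nat_lit 0) (nat_lit 5044912188) (nat_lit 228) (nat_lit 15299047920) (nat_lit 76) (nat_lit 32068202331) (nat_lit 140) (nat_lit 5) (nat_lit 143) (nat_lit 5) (nat_lit 141) (nat_lit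 5) (nat_lit 518) (nat_lit 443) (nat_lit 239)) (XT.lf (nat_lit 0) (nat_lit 17736138717) (nat_lit 228) (nat_lit 1358853545) (nat_lit 304) (nat_lit 34317653034) (nat_lit 137) (nat_lit 5) (nat_lit 140) (nat_lit 5) (nat_lit 141) (nat_lit 5) (nat_lit 519) (nat_lit 443) (nat_lit 238))) (XT.nd (nat_lit 78) (nat_lit 152) (nat_lit 0) (XT.lf (nat_lit 0) (nat_lit 33894816505) (nat_lit 304) (nat_lit 2543628124) (nat_lit 76) (nat_lit 17994850801) (nat_lit 137) (nat_lit 5) (nat_lit 141) (nat_lit 5) (nat_lit 138) (nat_lit 5) (nat_lit 520) (nat_lit 443) (nat_lit 237)) (XT.lf (nat_lit 0) (nat_lit 32193451322) (nat_lit 152) (nat_lit 17265492121) (nat_lit 228) (nat_lit 6016012427) (nat_lit 135) (nat_lit 5) (nat_lit 137) (nat_lit 5) (nat_lit 138) (nat_lit 5) (nat_lit 521) (nat_lit 443) (nat_lit 236)))) (XT.nd (nat_lit 156) (nat_lit 304) (nat_lit 0) (XT.nd (nat_lit 78) (nat_lit 0) (nat_lit 0) (XT.lf (nat_lit 0) (nat_lit 8928668744) (nat_lit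 304) (nat_lit 44953746117) (nat_lit 76) (nat_lit 2658041570) (nat_lit 131) (nat_lit 5) (nat_lit 135) (nat_lit 5) (nat_lit 132) (nat_lit 5) (nat_lit 522) (nat_lit 443) (nat_lit 235)) (XT.lf (nat_lit 0) (nat_lit 24606557101) (nat_lit 304) (nat_lit 9890049869) (nat_lit 76) (nat_lit 23127354664) (nat_lit 131) (nat_lit 5) (nat_lit 135) (nat_lit 5) (nat_lit 132) (nat_lit 5) (nat_lit 523) (nat_lit 443) (nat_lit 234))) (XT.nd (nat_lit 78) (nat_lit 152) (nat_lit 0) (XT.lf (nat_lit 0) (nat_lit 26742979226) (nat_lit 152) (nat_lit 14266360071) (nat_lit 228) (nat_lit 17722996017) (nat_lit 129) (nat_lit 5) (nat_lit 131) (nat_lit 5) (nat_lit 132) (nat_lit 5) (nat_lit 524) (nat_lit 443) (nat_lit 233)) (XT.lf (nat_lit 0) (nat_lit 4832476503) (nat_lit 152) (nat_lit 53279702620) (nat_lit 228) (nat_lit 1755541894) (nat_lit 127) (nat_lit 5) (nat_lit 129) (nat_lit 5) (nat_lit 130) (nat_lit 5) (nat_lit 525) (nat_lit 443) (nat_lit 232)))))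 (XT.nd (nat_lit 312) (nat_lit 532) (nat_lit 0) (XT.nd (nat_lit 156) (nat_lit 228) (nat_lit 0) (XT.nd (nat_lit 78) (nat_lit 152) (nat_lit 0) (XT.lf (nat_lit 0) (nat_lit 14869248023) (nat_lit 228) (nat_lit 17902879298) (nat_lit 76) (nat_lit 28246854896) (nat_lit 126) (nat_lit 5) (nat_lit 129) (nat_lit 5) (nat_lit 127) (nat_lit 5) (nat_lit 526) (nat_lit 443) (nat_lit 231)) (XT.lf (nat_lit 0) (nat_lit 20726198893) (nat_lit 152) (nat_lit 11428109700) (nat_lit 228) (nat_lit 30044046898) (nat_lit 124) (nat_lit 5) (nat_lit 126) (nat_lit 5) (nat_lit 127) (nat_lit 5) (nat_lit 527) (nat_lit 443) (nat_lit 230))) (XT.nd (nat_lit 78) (nat_lit 228) (nat_lit 0) (XT.lf (nat_lit 0) (nat_lit 50239557823) (nat_lit 228) (nat_lit 2634138900) (nat_lit 76) (nat_lit 10530964166) (nat_lit 124) (nat_lit 5) (nat_lit 127) (nat_lit 5) (nat_lit 125) (nat_lit 5) (nat_lit 528) (nat_lit 443) (nat_lit 229)) (XT.lf (nat_lit 0) (nat_lit 4618592858)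 (nat_lit 228) (nat_lit 26685108591) (nat_lit 76) (nat_lit 33327814957) (nat_lit 121) (nat_lit 5) (nat_lit 124) (nat_lit 5) (nat_lit 122) (nat_lit 5) (nat_lit 529) (nat_lit 443) (nat_lit 228)))) (XT.nd (nat_lit 156) (nat_lit 380) (nat_lit 0) (XT.nd (nat_lit 78) (nat_lit 0) (nat_lit 0) (XT.lf (nat_lit 0) (nat_lit 14043201486) (nat_lit 152) (nat_lit 8787512888) (nat_lit 228) (nat_lit 43055767208) (nat_lit 119) (nat_lit 5) (nat_lit 121) (nat_lit 5) (nat_lit 122) (nat_lit 5) (nat_lit 530) (nat_lit 443) (nat_lit 227)) (XT.lf (nat_lit 0) (nat_lit 41997471853) (nat_lit 228) (nat_lit 10775981565) (nat_lit 76) (nat_lit 14393394154) (nat_lit 119) (nat_lit 5) (nat_lit 122) (nat_lit 5) (nat_lit 120) (nat_lit 5) (nat_lit 531) (nat_lit 443) (nat_lit 226))) (XT.nd (nat_lit 78) (nat_lit 228) (nat_lit 0) (XT.lf (nat_lit 0) (nat_lit 32057797137) (nat_lit 152) (nat_lit 30074342299) (nat_lit 228) (nat_lit 6341697912) (nat_lit 117) (nat_lit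 5) (nat_lit 119) (nat_lit 5) (nat_lit 120) (nat_lit 5) (nat_lit 532) (nat_lit 443) (nat_lit 225)) (XT.lf (nat_lit 0) (nat_lit 6578451981) (nat_lit 152) (nat_lit 6388567488) (nat_lit 228) (nat_lit 56844127477) (nat_lit 114) (nat_lit 5) (nat_lit 116) (nat_lit 5) (nat_lit 117) (nat_lit 5) (nat_lit 533) (nat_lit 443) (nat_lit 224))))))) (XT.nd (nat_lit 55458) (nat_lit 0) (nat_lit 17708) (XT.nd (nat_lit 624) (nat_lit 684) (nat_lit 0) (XT.nd (nat_lit 312) (nat_lit 456) (nat_lit 0) (XT.nd (nat_lit 156) (nat_lit 228) (nat_lit 0) (XT.nd (nat_lit 78) (nat_lit 152) (nat_lit 0) (XT.lf (nat_lit 0) (nat_lit 33269766518) (nat_lit 228) (nat_lit 19811914058) (nat_lit 76) (nat_lit 18088744709) (nat_lit 114) (nat_lit 5) (nat_lit 117) (nat_lit 5) (nat_lit 115) (nat_lit 5) (nat_lit 534) (nat_lit 443) (nat_lit 223)) (XT.lf (nat_lit 0) (nat_lit 25338695654) (nat_lit 152) (nat_lit 29147546542) (nat_lit 228) (nat_lit 18075100415) (nat_lit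 112) (nat_lit 5) (nat_lit 114) (nat_lit 5) (nat_lit 115) (nat_lit 5) (nat_lit 535) (nat_lit 443) (nat_lit 222))) (XT.nd (nat_lit 78) (nat_lit 152) (nat_lit 0) (XT.lf (nat_lit 0) (nat_lit 2499329345) (nat_lit 228) (nat_lit 1766556542) (nat_lit 76) (nat_lit 69721429228) (nat_lit 111) (nat_lit 5) (nat_lit 114) (nat_lit 5) (nat_lit 112) (nat_lit 5) (nat_lit 536) (nat_lit 443) (nat_lit 221)) (XT.lf (nat_lit 0) (nat_lit 23976952665) (nat_lit 228) (nat_lit 29885636127) (nat_lit 76) (nat_lit 21568631614) (nat_lit 109) (nat_lit 5) (nat_lit 112) (nat_lit 5) (nat_lit 110) (nat_lit 5) (nat_lit 537) (nat_lit 443) (nat_lit 220)))) (XT.nd (nat_lit 156) (nat_lit 304) (nat_lit 0) (XT.nd (nat_lit 78) (nat_lit 0) (nat_lit 0) (XT.lf (nat_lit 0) (nat_lit 17694375986) (nat_lit 152) (nat_lit 28632766890) (nat_lit 228) (nat_lit 30584452856) (nat_lit 107) (nat_lit 5) (nat_lit 109) (nat_lit 5) (nat_lit 110) (nat_lit 5) (nat_lit 538) (nat_lit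 443) (nat_lit 219)) (XT.lf (nat_lit 0) (nat_lit 67310566587) (nat_lit 152) (nat_lit 2336979941) (nat_lit 228) (nat_lit 8779844577) (nat_lit 107) (nat_lit 5) (nat_lit 109) (nat_lit 5) (nat_lit 110) (nat_lit 5) (nat_lit 539) (nat_lit 443) (nat_lit 218))) (XT.nd (nat_lit 78) (nat_lit 152) (nat_lit 0) (XT.lf (nat_lit 0) (nat_lit 14028236208) (nat_lit 152) (nat_lit 41163018305) (nat_lit 76) (nat_lit 24774973382) (nat_lit 105) (nat_lit 5) (nat_lit 107) (nat_lit 5) (nat_lit 106) (nat_lit 5) (nat_lit 540) (nat_lit 443) (nat_lit 217)) (XT.lf (nat_lit 0) (nat_lit 8960760899) (nat_lit 152) (nat_lit 28603945444) (nat_lit 228) (nat_lit 43977297196) (nat_lit 103) (nat_lit 5) (nat_lit 105) (nat_lit 5) (nat_lit 106) (nat_lit 5) (nat_lit 541) (nat_lit 443) (nat_lit 216))))) (XT.nd (nat_lit 312) (nat_lit 380) (nat_lit 0) (XT.nd (nat_lit 156) (nat_lit 152) (nat_lit 0) (XT.nd (nat_lit 78) (nat_lit 152) (nat_lit 0) (XT.lf (nat_lit 0)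 (nat_lit 61428308626) (nat_lit 152) (nat_lit 792619663) (nat_lit 228) (nat_lit 20931714451) (nat_lit 103) (nat_lit 5) (nat_lit 105) (nat_lit 5) (nat_lit 106) (nat_lit 5) (nat_lit 542) (nat_lit 443) (nat_lit 215)) (XT.lf (nat_lit 0) (nat_lit 3319761664) (nat_lit 152) (nat_lit 53835617528) (nat_lit 76) (nat_lit 27638334990) (nat_lit 101) (nat_lit 5) (nat_lit 103) (nat_lit 5) (nat_lit 102) (nat_lit 5) (nat_lit 543) (nat_lit 443) (nat_lit 214))) (XT.nd (nat_lit 78) (nat_lit 152) (nat_lit 0) (XT.lf (nat_lit 0) (nat_lit 28105505406) (nat_lit 152) (nat_lit 1032055649) (nat_lit 76) (nat_lit 57333416486) (nat_lit 101) (nat_lit 5) (nat_lit 103) (nat_lit 5) (nat_lit 102) (nat_lit 5) (nat_lit 544) (nat_lit 443) (nat_lit 213)) (XT.lf (nat_lit 0) (nat_lit 54158453826) (nat_lit 228) (nat_lit 33771555081) (nat_lit 76) (nat_lit 252840938) (nat_lit 99) (nat_lit 5) (nat_lit 102) (nat_lit 5) (nat_lit 100) (nat_lit 4) (nat_lit 545)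 (nat_lit 443) (nat_lit 212)))) (XT.nd (nat_lit 156) (nat_lit 228) (nat_lit 0) (XT.nd (nat_lit 78) (nat_lit 76) (nat_lit 0) (XT.lf (nat_lit 0) (nat_lit 21725096282) (nat_lit 76) (nat_lit 59773844852) (nat_lit 152) (nat_lit 8431958687) (nat_lit 98) (nat_lit 5) (nat_lit 99) (nat_lit 5) (nat_lit 100) (nat_lit 4) (nat_lit 546) (nat_lit 443) (nat_lit 211)) (XT.lf (nat_lit 0) (nat_lit 17920912520) (nat_lit 152) (nat_lit 12321526902) (nat_lit 76) (nat_lit 61473506607) (nat_lit 97) (nat_lit 5) (nat_lit 99) (nat_lit 5) (nat_lit 98) (nat_lit 5) (nat_lit 547) (nat_lit 443) (nat_lit 210))) (XT.nd (nat_lit 78) (nat_lit 76) (nat_lit 0) (XT.lf (nat_lit 0) (nat_lit 45342598429) (nat_lit 228) (nat_lit 47494755582) (nat_lit 76) (nat_lit 701254004) (nat_lit 95) (nat_lit 5) (nat_lit 98) (nat_lit 5) (nat_lit 96) (nat_lit 4) (nat_lit 548) (nat_lit 443) (nat_lit 209)) (XT.lf (nat_lit 0) (nat_lit 10909288608) (nat_lit 76) (nat_lit 63205761068)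 (nat_lit 152) (nat_lit 21285056757) (nat_lit 94) (nat_lit 5) (nat_lit 95) (nat_lit 5) (nat_lit 96) (nat_lit 4) (nat_lit 549) (nat_lit 443) (nat_lit 208)))))) (XT.nd (nat_lit 624) (nat_lit 0) (nat_lit 304) (XT.nd (nat_lit 312) (nat_lit 0) (nat_lit 152) (XT.nd (nat_lit 156) (nat_lit 0) (nat_lit 76) (XT.nd (nat_lit 78) (nat_lit 0) (nat_lit 0) (XT.lf (nat_lit 0) (nat_lit 1053220665) (nat_lit 1292) (nat_lit 3249386953) (nat_lit 1292) (nat_lit 3249386953) (nat_lit 327) (nat_lit 3) (nat_lit 344) (nat_lit 3) (nat_lit 344) (nat_lit 5) (nat_lit 444) (nat_lit 444) (nat_lit 312)) (XT.lf (nat_lit 76) (nat_lit 1043470510) (nat_lit 0) (nat_lit 1397905996) (nat_lit 1292) (nat_lit 12880058780) (nat_lit 328) (nat_lit 5) (nat_lit 327) (nat_lit 3) (nat_lit 344) (nat_lit 5) (nat_lit 445) (nat_lit 444) (nat_lit 311))) (XT.nd (nat_lit 78) (nat_lit 0) (nat_lit 0) (XT.lf (nat_lit 0) (nat_lit 2899104332) (nat_lit 1216) (nat_lit 6663218298)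 (nat_lit 1292) (nat_lit 5979700374) (nat_lit 328) (nat_lit 5) (nat_lit 344) (nat_lit 5) (nat_lit 345) (nat_lit 5) (nat_lit 446) (nat_lit 444) (nat_lit 310)) (XT.lf (nat_lit 76) (nat_lit 1182989785) (nat_lit 0) (nat_lit 2201668035) (nat_lit 1292) (nat_lit 12384148233) (nat_lit 329) (nat_lit 5) (nat_lit 328) (nat_lit 5) (nat_lit 345) (nat_lit 5) (nat_lit 447) (nat_lit 444) (nat_lit 309)))) (XT.nd (nat_lit 156) (nat_lit 0) (nat_lit 76) (XT.nd (nat_lit 78) (nat_lit 0) (nat_lit 0) (XT.lf (nat_lit 0) (nat_lit 3993634765) (nat_lit 1216) (nat_lit 6658115357) (nat_lit 1292) (nat_lit 5347377263) (nat_lit 329) (nat_lit 5) (nat_lit 345) (nat_lit 5) (nat_lit 346) (nat_lit 5) (nat_lit 448) (nat_lit 444) (nat_lit 308)) (XT.lf (nat_lit 76) (nat_lit 1508713960) (nat_lit 0) (nat_lit 3137974481) (nat_lit 1292) (nat_lit 11588896177) (nat_lit 330) (nat_lit 5) (nat_lit 329) (nat_lit 5) (nat_lit 346) (nat_lit 5) (nat_lit 449) (nat_lit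 444) (nat_lit 307))) (XT.nd (nat_lit 78) (nat_lit 0) (nat_lit 0) (XT.lf (nat_lit 0) (nat_lit 5421252446) (nat_lit 1216) (nat_lit 6471609156) (nat_lit 1292) (nat_lit 4583216873) (nat_lit 330) (nat_lit 5) (nat_lit 346) (nat_lit 5) (nat_lit 347) (nat_lit 5) (nat_lit 450) (nat_lit 444) (nat_lit 306)) (XT.lf (nat_lit 76) (nat_lit 2033486611) (nat_lit 0) (nat_lit 4226269766) (nat_lit 1292) (nat_lit 10462810138) (nat_lit 331) (nat_lit 5) (nat_lit 330) (nat_lit 5) (nat_lit 347) (nat_lit 5) (nat_lit 451) (nat_lit 444) (nat_lit 305))))) (XT.nd (nat_lit 312) (nat_lit 0) (nat_lit 152) (XT.nd (nat_lit 156) (nat_lit 0) (nat_lit 76) (XT.nd (nat_lit 78) (nat_lit 0) (nat_lit 0) (XT.lf (nat_lit 0) (nat_lit 7215040550) (nat_lit 1216) (nat_lit 6090715129) (nat_lit 1292) (nat_lit 3667945205) (nat_lit 331) (nat_lit 5) (nat_lit 347) (nat_lit 5) (nat_lit 348) (nat_lit 5) (nat_lit 452) (nat_lit 444) (nat_lit 304)) (XT.lf (nat_lit 76) (nat_lit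 2771335113) (nat_lit 0) (nat_lit 5486759504) (nat_lit 1292) (nat_lit 8972501754) (nat_lit 332) (nat_lit 5) (nat_lit 331) (nat_lit 5) (nat_lit 348) (nat_lit 5) (nat_lit 453) (nat_lit 444) (nat_lit 303))) (XT.nd (nat_lit 78) (nat_lit 0) (nat_lit 0) (XT.lf (nat_lit 0) (nat_lit 9410091920) (nat_lit 1216) (nat_lit 5501273399) (nat_lit 1292) (nat_lit 2581504274) (nat_lit 332) (nat_lit 5) (nat_lit 348) (nat_lit 5) (nat_lit 349) (nat_lit 5) (nat_lit 454) (nat_lit 444) (nat_lit 302)) (XT.lf (nat_lit 76) (nat_lit 3737520793) (nat_lit 0) (nat_lit 6940510778) (nat_lit 1292) (nat_lit 7082538372) (nat_lit 333) (nat_lit 5) (nat_lit 332) (nat_lit 5) (nat_lit 349) (nat_lit 5) (nat_lit 455) (nat_lit 444) (nat_lit 301)))) (XT.nd (nat_lit 156) (nat_lit 0) (nat_lit 0) (XT.nd (nat_lit 78) (nat_lit 0) (nat_lit 0) (XT.lf (nat_lit 0) (nat_lit 12043662339) (nat_lit 1216) (nat_lit 4687897164) (nat_lit 1292) (nat_lit 1302952606) (nat_lit 333)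 (nat_lit 5) (nat_lit 349) (nat_lit 5) (nat_lit 350) (nat_lit 5) (nat_lit 456) (nat_lit 444) (nat_lit 300)) (XT.lf (nat_lit 76) (nat_lit 4948594205) (nat_lit 0) (nat_lit 8609554584) (nat_lit 1292) (nat_lit 4755287530) (nat_lit 334) (nat_lit 5) (nat_lit 333) (nat_lit 5) (nat_lit 350) (nat_lit 5) (nat_lit 457) (nat_lit 444) (nat_lit 299))) (XT.nd (nat_lit 78) (nat_lit 0) (nat_lit 76) (XT.lf (nat_lit 76) (nat_lit 14963779803) (nat_lit 0) (nat_lit 193410718) (nat_lit 1292) (nat_lit 3442364484) (nat_lit 334) (nat_lit 5) (nat_lit 333) (nat_lit 5) (nat_lit 350) (nat_lit 5) (nat_lit 458) (nat_lit 444) (nat_lit 298)) (XT.lf (nat_lit 76) (nat_lit 6422455662) (nat_lit 0) (nat_lit 10516990917) (nat_lit 1292) (nat_lit 1950753740) (nat_lit 335) (nat_lit 5) (nat_lit 334) (nat_lit 5) (nat_lit 351) (nat_lit 5) (nat_lit 459) (nat_lit 444) (nat_lit 297))))))))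
noncomputable def xc186 : XT := (XT.nd (nat_lit 2418) (nat_lit 5548) (nat_lit 0) (XT.nd (nat_lit 1170) (nat_lit 4028) (nat_lit 0) (XT.nd (nat_lit 546) (nat_lit 2280) (nat_lit 0) (XT.nd (nat_lit 234) (nat_lit 2052) (nat_lit 0) (XT.nd (nat_lit 78) (nat_lit 1216) (nat_lit 0) (XT.lf (nat_lit 76) (nat_lit 16848510247) (nat_lit 0) (nat_lit 1957477419) (nat_lit 1292) (nat_lit 382653155) (nat_lit 335) (nat_lit 5) (nat_lit 334) (nat_lit 5) (nat_lit 351) (nat_lit 5) (nat_lit 460) (nat_lit 444) (nat_lit 296)) (XT.nd (nat_lit 78) (nat_lit 0) (nat_lit 0) (XT.lf (nat_lit 0) (nat_lit 1346789340) (nat_lit 1292) (nat_lit 11326707740) (nat_lit 76) (nat_lit 6818031888) (nat_lit 318) (nat_lit 5) (nat_lit 335) (nat_lit 5) (nat_lit 319) (nat_lit 5) (nat_lit 461) (nat_lit 444) (nat_lit 295)) (XT.lf (nat_lit 0) (nat_lit 3156199956) (nat_lit 1292) (nat_lit 799941247) (nat_lit 76) (nat_lit 15846175942) (nat_lit 318) (nat_lit 5) (nat_lit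 335) (nat_lit 5) (nat_lit 319) (nat_lit 5) (nat_lit 462) (nat_lit 444) (nat_lit 294)))) (XT.nd (nat_lit 156) (nat_lit 608) (nat_lit 0) (XT.nd (nat_lit 78) (nat_lit 608) (nat_lit 0) (XT.lf (nat_lit 0) (nat_lit 5160298174) (nat_lit 912) (nat_lit 9933032148) (nat_lit 76) (nat_lit 5024886798) (nat_lit 307) (nat_lit 5) (nat_lit 319) (nat_lit 5) (nat_lit 308) (nat_lit 5) (nat_lit 463) (nat_lit 444) (nat_lit 293)) (XT.lf (nat_lit 0) (nat_lit 1047503366) (nat_lit 608) (nat_lit 6227317325) (nat_lit 684) (nat_lit 13167264663) (nat_lit 299) (nat_lit 5) (nat_lit 307) (nat_lit 5) (nat_lit 308) (nat_lit 5) (nat_lit 464) (nat_lit 444) (nat_lit 292))) (XT.nd (nat_lit 78) (nat_lit 608) (nat_lit 0) (XT.lf (nat_lit 0) (nat_lit 9575050113) (nat_lit 684) (nat_lit 8247249674) (nat_lit 76) (nat_lit 2949702005) (nat_lit 299) (nat_lit 5) (nat_lit 308) (nat_lit 5) (nat_lit 300) (nat_lit 5) (nat_lit 465) (nat_lit 444) (nat_lit 291)) (XT.lf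 (nat_lit 0) (nat_lit 3229311110) (nat_lit 608) (nat_lit 8800928829) (nat_lit 684) (nat_lit 9078997462) (nat_lit 291) (nat_lit 5) (nat_lit 299) (nat_lit 5) (nat_lit 300) (nat_lit 5) (nat_lit 466) (nat_lit 444) (nat_lit 290))))) (XT.nd (nat_lit 312) (nat_lit 1064) (nat_lit 0) (XT.nd (nat_lit 156) (nat_lit 684) (nat_lit 0) (XT.nd (nat_lit 78) (nat_lit 532) (nat_lit 0) (XT.lf (nat_lit 0) (nat_lit 14641301784) (nat_lit 684) (nat_lit 6247093526) (nat_lit 76) (nat_lit 565728553) (nat_lit 291) (nat_lit 5) (nat_lit 300) (nat_lit 5) (nat_lit 292) (nat_lit 5) (nat_lit 467) (nat_lit 444) (nat_lit 289)) (XT.lf (nat_lit 0) (nat_lit 5753363929) (nat_lit 532) (nat_lit 11713356954) (nat_lit 608) (nat_lit 4338555542) (nat_lit 284) (nat_lit 5) (nat_lit 291) (nat_lit 5) (nat_lit 292) (nat_lit 5) (nat_lit 468) (nat_lit 444) (nat_lit 288))) (XT.nd (nat_lit 78) (nat_lit 684) (nat_lit 0) (XT.lf (nat_lit 0) (nat_lit 18235466804) (nat_lit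 532) (nat_lit 2198226911) (nat_lit 608) (nat_lit 1731566375) (nat_lit 284) (nat_lit 5) (nat_lit 291) (nat_lit 5) (nat_lit 292) (nat_lit 5) (nat_lit 469) (nat_lit 444) (nat_lit 287)) (XT.lf (nat_lit 0) (nat_lit 1086580371) (nat_lit 684) (nat_lit 13897007044) (nat_lit 76) (nat_lit 7547634386) (nat_lit 275) (nat_lit 5) (nat_lit 284) (nat_lit 5) (nat_lit 276) (nat_lit 5) (nat_lit 470) (nat_lit 444) (nat_lit 286)))) (XT.nd (nat_lit 156) (nat_lit 532) (nat_lit 0) (XT.nd (nat_lit 78) (nat_lit 532) (nat_lit 0) (XT.lf (nat_lit 0) (nat_lit 4010256507) (nat_lit 684) (nat_lit 1297054043) (nat_lit 76) (nat_lit 17598664093) (nat_lit 275) (nat_lit 5) (nat_lit 284) (nat_lit 5) (nat_lit 276) (nat_lit 5) (nat_lit 471) (nat_lit 444) (nat_lit 285)) (XT.lf (nat_lit 0) (nat_lit 7176140025) (nat_lit 608) (nat_lit 11427676279) (nat_lit 76) (nat_lit 4683519082) (nat_lit 268) (nat_lit 5) (nat_lit 276) (nat_lit 5) (nat_lit 269) (nat_lit 5)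 (nat_lit 472) (nat_lit 444) (nat_lit 284))) (XT.nd (nat_lit 78) (nat_lit 0) (nat_lit 0) (XT.lf (nat_lit 0) (nat_lit 1732652274) (nat_lit 532) (nat_lit 8781008238) (nat_lit 608) (nat_lit 13164176851) (nat_lit 261) (nat_lit 5) (nat_lit 268) (nat_lit 5) (nat_lit 269) (nat_lit 5) (nat_lit 473) (nat_lit 444) (nat_lit 283)) (XT.lf (nat_lit 0) (nat_lit 14075024201) (nat_lit 608) (nat_lit 8575034854) (nat_lit 76) (nat_lit 1426284034) (nat_lit 261) (nat_lit 5) (nat_lit 269) (nat_lit 5) (nat_lit 262) (nat_lit 5) (nat_lit 474) (nat_lit 444) (nat_lit 282)))))) (XT.nd (nat_lit 624) (nat_lit 1748) (nat_lit 0) (XT.nd (nat_lit 312) (nat_lit 1292) (nat_lit 0) (XT.nd (nat_lit 156) (nat_lit 532) (nat_lit 0) (XT.nd (nat_lit 78) (nat_lit 0) (nat_lit 0) (XT.lf (nat_lit 0) (nat_lit 5204528044) (nat_lit 456) (nat_lit 12670166477) (nat_lit 532) (nat_lit 6608165705) (nat_lit 255) (nat_lit 5) (nat_lit 261) (nat_lit 5) (nat_lit 262) (nat_lit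 5) (nat_lit 475) (nat_lit 444) (nat_lit 281)) (XT.lf (nat_lit 0) (nat_lit 19567009245) (nat_lit 456) (nat_lit 2302532930) (nat_lit 532) (nat_lit 3029595290) (nat_lit 255) (nat_lit 5) (nat_lit 261) (nat_lit 5) (nat_lit 262) (nat_lit 5) (nat_lit 476) (nat_lit 444) (nat_lit 280))) (XT.nd (nat_lit 78) (nat_lit 0) (nat_lit 0) (XT.lf (nat_lit 0) (nat_lit 808103561) (nat_lit 532) (nat_lit 16207170025) (nat_lit 76) (nat_lit 8307502997) (nat_lit 248) (nat_lit 5) (nat_lit 255) (nat_lit 5) (nat_lit 249) (nat_lit 5) (nat_lit 477) (nat_lit 444) (nat_lit 279)) (XT.lf (nat_lit 0) (nat_lit 4772004302) (nat_lit 532) (nat_lit 1711018306) (nat_lit 76) (nat_lit 19273043690) (nat_lit 248) (nat_lit 5) (nat_lit 255) (nat_lit 5) (nat_lit 249) (nat_lit 5) (nat_lit 478) (nat_lit 444) (nat_lit 278)))) (XT.nd (nat_lit 156) (nat_lit 380) (nat_lit 0) (XT.nd (nat_lit 78) (nat_lit 456) (nat_lit 0) (XT.lf (nat_lit 0) (nat_lit 9022544408) (nat_lit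 532) (nat_lit 12764929518) (nat_lit 76) (nat_lit 4409849290) (nat_lit 242) (nat_lit 5) (nat_lit 249) (nat_lit 5) (nat_lit 243) (nat_lit 5) (nat_lit 479) (nat_lit 444) (nat_lit 277)) (XT.lf (nat_lit 0) (nat_lit 2390004517) (nat_lit 456) (nat_lit 11110227281) (nat_lit 532) (nat_lit 13148597287) (nat_lit 236) (nat_lit 5) (nat_lit 242) (nat_lit 5) (nat_lit 243) (nat_lit 5) (nat_lit 480) (nat_lit 444) (nat_lit 276))) (XT.nd (nat_lit 78) (nat_lit 380) (nat_lit 0) (XT.lf (nat_lit 0) (nat_lit 18236438289) (nat_lit 532) (nat_lit 8855182755) (nat_lit 76) (nat_lit 18533604) (nat_lit 236) (nat_lit 5) (nat_lit 243) (nat_lit 5) (nat_lit 237) (nat_lit 5) (nat_lit 481) (nat_lit 444) (nat_lit 275)) (XT.lf (nat_lit 0) (nat_lit 7031730446) (nat_lit 380) (nat_lit 16255833415) (nat_lit 456) (nat_lit 4292571298) (nat_lit 231) (nat_lit 5) (nat_lit 236) (nat_lit 5) (nat_lit 237) (nat_lit 5) (nat_lit 482) (nat_lit 444) (nat_lit 274)))))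 (XT.nd (nat_lit 312) (nat_lit 836) (nat_lit 0) (XT.nd (nat_lit 156) (nat_lit 380) (nat_lit 0) (XT.nd (nat_lit 78) (nat_lit 456) (nat_lit 0) (XT.lf (nat_lit 0) (nat_lit 503272454) (nat_lit 456) (nat_lit 4495824218) (nat_lit 76) (nat_lit 23062428401) (nat_lit 230) (nat_lit 5) (nat_lit 236) (nat_lit 5) (nat_lit 231) (nat_lit 5) (nat_lit 483) (nat_lit 444) (nat_lit 273)) (XT.lf (nat_lit 0) (nat_lit 5534643491) (nat_lit 532) (nat_lit 16389115224) (nat_lit 76) (nat_lit 6626985248) (nat_lit 224) (nat_lit 5) (nat_lit 231) (nat_lit 5) (nat_lit 225) (nat_lit 5) (nat_lit 484) (nat_lit 444) (nat_lit 272))) (XT.nd (nat_lit 78) (nat_lit 0) (nat_lit 0) (XT.lf (nat_lit 0) (nat_lit 307775658) (nat_lit 380) (nat_lit 10502957327) (nat_lit 456) (nat_lit 18241093261) (nat_lit 219) (nat_lit 5) (nat_lit 224) (nat_lit 5) (nat_lit 225) (nat_lit 5) (nat_lit 485) (nat_lit 444) (nat_lit 271)) (XT.lf (nat_lit 0) (nat_lit 16419893271) (nat_lit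 456) (nat_lit 11741230509) (nat_lit 76) (nat_lit 1401573721) (nat_lit 219) (nat_lit 5) (nat_lit 225) (nat_lit 5) (nat_lit 220) (nat_lit 5) (nat_lit 486) (nat_lit 444) (nat_lit 270)))) (XT.nd (nat_lit 156) (nat_lit 456) (nat_lit 0) (XT.nd (nat_lit 78) (nat_lit 0) (nat_lit 0) (XT.lf (nat_lit 0) (nat_lit 5774508159) (nat_lit 380) (nat_lit 16577983222) (nat_lit 456) (nat_lit 7731748761) (nat_lit 214) (nat_lit 5) (nat_lit 219) (nat_lit 5) (nat_lit 220) (nat_lit 5) (nat_lit 487) (nat_lit 444) (nat_lit 269)) (XT.lf (nat_lit 0) (nat_lit 24050602342) (nat_lit 380) (nat_lit 4526764233) (nat_lit 456) (nat_lit 2040633649) (nat_lit 214) (nat_lit 5) (nat_lit 219) (nat_lit 5) (nat_lit 220) (nat_lit 5) (nat_lit 488) (nat_lit 444) (nat_lit 268))) (XT.nd (nat_lit 78) (nat_lit 0) (nat_lit 0) (XT.lf (nat_lit 0) (nat_lit 3934114648) (nat_lit 456) (nat_lit 19343740884) (nat_lit 76) (nat_lit 7883191785) (nat_lit 208) (nat_lit 5) (nat_lit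 214) (nat_lit 5) (nat_lit 209) (nat_lit 5) (nat_lit 489) (nat_lit 444) (nat_lit 267)) (XT.lf (nat_lit 0) (nat_lit 10154755933) (nat_lit 456) (nat_lit 901666965) (nat_lit 76) (nat_lit 20660126965) (nat_lit 208) (nat_lit 5) (nat_lit 214) (nat_lit 5) (nat_lit 209) (nat_lit 5) (nat_lit 490) (nat_lit 444) (nat_lit 266))))))) (XT.nd (nat_lit 1248) (nat_lit 2356) (nat_lit 0) (XT.nd (nat_lit 624) (nat_lit 1520) (nat_lit 0) (XT.nd (nat_lit 312) (nat_lit 608) (nat_lit 0) (XT.nd (nat_lit 156) (nat_lit 380) (nat_lit 0) (XT.nd (nat_lit 78) (nat_lit 304) (nat_lit 0) (XT.lf (nat_lit 0) (nat_lit 16751805748) (nat_lit 456) (nat_lit 13851923719) (nat_lit 76) (nat_lit 1679294459) (nat_lit 203) (nat_lit 5) (nat_lit 209) (nat_lit 5) (nat_lit 204) (nat_lit 5) (nat_lit 491) (nat_lit 444) (nat_lit 265)) (XT.lf (nat_lit 0) (nat_lit 5487997919) (nat_lit 304) (nat_lit 18226227562) (nat_lit 380) (nat_lit 9147243093) (nat_lit 199) (nat_lit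 5) (nat_lit 203) (nat_lit 5) (nat_lit 204) (nat_lit 5) (nat_lit 492) (nat_lit 444) (nat_lit 264))) (XT.nd (nat_lit 78) (nat_lit 380) (nat_lit 0) (XT.lf (nat_lit 0) (nat_lit 25686475801) (nat_lit 304) (nat_lit 5335020547) (nat_lit 380) (nat_lit 2431690972) (nat_lit 199) (nat_lit 5) (nat_lit 203) (nat_lit 5) (nat_lit 204) (nat_lit 5) (nat_lit 493) (nat_lit 444) (nat_lit 263)) (XT.lf (nat_lit 0) (nat_lit 4593313584) (nat_lit 380) (nat_lit 21509794493) (nat_lit 76) (nat_lit 7952390864) (nat_lit 194) (nat_lit 5) (nat_lit 199) (nat_lit 5) (nat_lit 195) (nat_lit 5) (nat_lit 494) (nat_lit 444) (nat_lit 262)))) (XT.nd (nat_lit 156) (nat_lit 304) (nat_lit 0) (XT.nd (nat_lit 78) (nat_lit 304) (nat_lit 0) (XT.lf (nat_lit 0) (nat_lit 11908440718) (nat_lit 380) (nat_lit 1130047226) (nat_lit 76) (nat_lit 21632822375) (nat_lit 194) (nat_lit 5) (nat_lit 199) (nat_lit 5) (nat_lit 195) (nat_lit 5) (nat_lit 495) (nat_lit 444) (nat_lit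 261)) (XT.lf (nat_lit 0) (nat_lit 19639945115) (nat_lit 380) (nat_lit 15054922785) (nat_lit 76) (nat_lit 604820535) (nat_lit 190) (nat_lit 5) (nat_lit 195) (nat_lit 5) (nat_lit 191) (nat_lit 5) (nat_lit 496) (nat_lit 444) (nat_lit 260))) (XT.nd (nat_lit 78) (nat_lit 0) (nat_lit 0) (XT.lf (nat_lit 0) (nat_lit 6326226796) (nat_lit 304) (nat_lit 21474966738) (nat_lit 380) (nat_lit 8139790494) (nat_lit 186) (nat_lit 5) (nat_lit 190) (nat_lit 5) (nat_lit 191) (nat_lit 5) (nat_lit 497) (nat_lit 444) (nat_lit 259)) (XT.lf (nat_lit 0) (nat_lit 28652049251) (nat_lit 304) (nat_lit 7703678605) (nat_lit 380) (nat_lit 241337273) (nat_lit 186) (nat_lit 5) (nat_lit 190) (nat_lit 5) (nat_lit 191) (nat_lit 5) (nat_lit 498) (nat_lit 444) (nat_lit 258))))) (XT.nd (nat_lit 312) (nat_lit 608) (nat_lit 0) (XT.nd (nat_lit 156) (nat_lit 532) (nat_lit 0) (XT.nd (nat_lit 78) (nat_lit 0) (nat_lit 0) (XT.lf (nat_lit 0) (nat_lit 7941073172)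 (nat_lit 380) (nat_lit 22752751502) (nat_lit 76) (nat_lit 6570696239) (nat_lit 181) (nat_lit 5) (nat_lit 186) (nat_lit 5) (nat_lit 182) (nat_lit 5) (nat_lit 499) (nat_lit 444) (nat_lit 257)) (XT.lf (nat_lit 0) (nat_lit 16517930450) (nat_lit 380) (nat_lit 229249059) (nat_lit 76) (nat_lit 21200134510) (nat_lit 181) (nat_lit 5) (nat_lit 186) (nat_lit 5) (nat_lit 182) (nat_lit 5) (nat_lit 500) (nat_lit 444) (nat_lit 256))) (XT.nd (nat_lit 78) (nat_lit 228) (nat_lit 0) (XT.lf (nat_lit 0) (nat_lit 23421836848) (nat_lit 304) (nat_lit 2152030440) (nat_lit 380) (nat_lit 13070070498) (nat_lit 177) (nat_lit 5) (nat_lit 181) (nat_lit 5) (nat_lit 182) (nat_lit 5) (nat_lit 501) (nat_lit 444) (nat_lit 255)) (XT.lf (nat_lit 0) (nat_lit 8461844374) (nat_lit 228) (nat_lit 26643796564) (nat_lit 304) (nat_lit 4249694652) (nat_lit 174) (nat_lit 5) (nat_lit 177) (nat_lit 5) (nat_lit 178) (nat_lit 5) (nat_lit 502) (nat_lit 444) (nat_lit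 254)))) (XT.nd (nat_lit 156) (nat_lit 228) (nat_lit 0) (XT.nd (nat_lit 78) (nat_lit 304) (nat_lit 0) (XT.lf (nat_lit 0) (nat_lit 4914156737) (nat_lit 304) (nat_lit 6989639814) (nat_lit 76) (nat_lit 28177687912) (nat_lit 173) (nat_lit 5) (nat_lit 177) (nat_lit 5) (nat_lit 174) (nat_lit 5) (nat_lit 503) (nat_lit 444) (nat_lit 253)) (XT.lf (nat_lit 0) (nat_lit 14470295432) (nat_lit 380) (nat_lit 22922550963) (nat_lit 76) (nat_lit 3429225604) (nat_lit 169) (nat_lit 5) (nat_lit 174) (nat_lit 5) (nat_lit 170) (nat_lit 5) (nat_lit 504) (nat_lit 444) (nat_lit 252))) (XT.nd (nat_lit 78) (nat_lit 0) (nat_lit 0) (XT.lf (nat_lit 0) (nat_lit 2011481190) (nat_lit 228) (nat_lit 22506913323) (nat_lit 304) (nat_lit 17060324434) (nat_lit 166) (nat_lit 5) (nat_lit 169) (nat_lit 5) (nat_lit 170) (nat_lit 5) (nat_lit 505) (nat_lit 444) (nat_lit 251)) (XT.lf (nat_lit 0) (nat_lit 28158384412) (nat_lit 228) (nat_lit 6937870490) (nat_lit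 304) (nat_lit 7254960922) (nat_lit 166) (nat_lit 5) (nat_lit 169) (nat_lit 5) (nat_lit 170) (nat_lit 5) (nat_lit 506) (nat_lit 444) (nat_lit 250)))))) (XT.nd (nat_lit 624) (nat_lit 1064) (nat_lit 0) (XT.nd (nat_lit 312) (nat_lit 532) (nat_lit 0) (XT.nd (nat_lit 156) (nat_lit 456) (nat_lit 0) (XT.nd (nat_lit 78) (nat_lit 0) (nat_lit 0) (XT.lf (nat_lit 0) (nat_lit 2991599369) (nat_lit 304) (nat_lit 31083972553) (nat_lit 76) (nat_lit 9064419135) (nat_lit 162) (nat_lit 5) (nat_lit 166) (nat_lit 5) (nat_lit 163) (nat_lit 5) (nat_lit 507) (nat_lit 444) (nat_lit 249)) (XT.lf (nat_lit 0) (nat_lit 13610101593) (nat_lit 304) (nat_lit 4711778703) (nat_lit 76) (nat_lit 25622083497) (nat_lit 162) (nat_lit 5) (nat_lit 166) (nat_lit 5) (nat_lit 163) (nat_lit 5) (nat_lit 508) (nat_lit 444) (nat_lit 248))) (XT.nd (nat_lit 78) (nat_lit 228) (nat_lit 0) (XT.lf (nat_lit 0) (nat_lit 22893480559) (nat_lit 228) (nat_lit 1870765913) (nat_lit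 304) (nat_lit 20001296674) (nat_lit 159) (nat_lit 5) (nat_lit 162) (nat_lit 5) (nat_lit 163) (nat_lit 5) (nat_lit 509) (nat_lit 444) (nat_lit 247)) (XT.lf (nat_lit 0) (nat_lit 5775616897) (nat_lit 228) (nat_lit 30722912159) (nat_lit 304) (nat_lit 9105875486) (nat_lit 156) (nat_lit 5) (nat_lit 159) (nat_lit 5) (nat_lit 160) (nat_lit 5) (nat_lit 510) (nat_lit 444) (nat_lit 246)))) (XT.nd (nat_lit 156) (nat_lit 228) (nat_lit 0) (XT.nd (nat_lit 78) (nat_lit 228) (nat_lit 0) (XT.lf (nat_lit 0) (nat_lit 2313739078) (nat_lit 304) (nat_lit 11806645375) (nat_lit 76) (nat_lit 32340278172) (nat_lit 155) (nat_lit 5) (nat_lit 159) (nat_lit 5) (nat_lit 156) (nat_lit 5) (nat_lit 511) (nat_lit 444) (nat_lit 245)) (XT.lf (nat_lit 0) (nat_lit 14087519907) (nat_lit 304) (nat_lit 30067329996) (nat_lit 76) (nat_lit 3179215981) (nat_lit 152) (nat_lit 5) (nat_lit 156) (nat_lit 5) (nat_lit 153) (nat_lit 5) (nat_lit 512) (nat_lit 444) (nat_lit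 244))) (XT.nd (nat_lit 78) (nat_lit 228) (nat_lit 0) (XT.lf (nat_lit 0) (nat_lit 26471885843) (nat_lit 304) (nat_lit 921484866) (nat_lit 76) (nat_lit 20832579434) (nat_lit 152) (nat_lit 5) (nat_lit 156) (nat_lit 5) (nat_lit 153) (nat_lit 5) (nat_lit 513) (nat_lit 444) (nat_lit 243)) (XT.lf (nat_lit 0) (nat_lit 29673156687) (nat_lit 228) (nat_lit 9837106773) (nat_lit 304) (nat_lit 9625853104) (nat_lit 149) (nat_lit 5) (nat_lit 152) (nat_lit 5) (nat_lit 153) (nat_lit 5) (nat_lit 514) (nat_lit 444) (nat_lit 242))))) (XT.nd (nat_lit 312) (nat_lit 456) (nat_lit 0) (XT.nd (nat_lit 156) (nat_lit 380) (nat_lit 0) (XT.nd (nat_lit 78) (nat_lit 0) (nat_lit 0) (XT.lf (nat_lit 0) (nat_lit 3006427959) (nat_lit 228) (nat_lit 38830140122) (nat_lit 76) (nat_lit 8230308787) (nat_lit 146) (nat_lit 5) (nat_lit 149) (nat_lit 5) (nat_lit 147) (nat_lit 5) (nat_lit 515) (nat_lit 444) (nat_lit 241)) (XT.lf (nat_lit 0) (nat_lit 16117359797)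 (nat_lit 228) (nat_lit 7962553264) (nat_lit 76) (nat_lit 26933993234) (nat_lit 146) (nat_lit 5) (nat_lit 149) (nat_lit 5) (nat_lit 147) (nat_lit 5) (nat_lit 516) (nat_lit 444) (nat_lit 240))) (XT.nd (nat_lit 78) (nat_lit 152) (nat_lit 0) (XT.lf (nat_lit 0) (nat_lit 24300754717) (nat_lit 228) (nat_lit 5551809768) (nat_lit 304) (nat_lit 22129853816) (nat_lit 143) (nat_lit 5) (nat_lit 146) (nat_lit 5) (nat_lit 147) (nat_lit 5) (nat_lit 517) (nat_lit 444) (nat_lit 239)) (XT.lf (nat_lit 0) (nat_lit 4673414497) (nat_lit 152) (nat_lit 39579983748) (nat_lit 228) (nat_lit 8718980282) (nat_lit 141) (nat_lit 5) (nat_lit 143) (nat_lit 5) (nat_lit 144) (nat_lit 5) (nat_lit 518) (nat_lit 444) (nat_lit 238)))) (XT.nd (nat_lit 156) (nat_lit 152) (nat_lit 0) (XT.nd (nat_lit 78) (nat_lit 228) (nat_lit 0) (XT.lf (nat_lit 0) (nat_lit 5329455103) (nat_lit 228) (nat_lit 15528290893) (nat_lit 76) (nat_lit 33122783276) (nat_lit 140) (nat_lit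 5) (nat_lit 143) (nat_lit 5) (nat_lit 141) (nat_lit 5) (nat_lit 519) (nat_lit 444) (nat_lit 237)) (XT.lf (nat_lit 0) (nat_lit 18495699104) (nat_lit 228) (nat_lit 1303645635) (nat_lit 304) (nat_lit 35211732725) (nat_lit 137) (nat_lit 5) (nat_lit 140) (nat_lit 5) (nat_lit 141) (nat_lit 5) (nat_lit 520) (nat_lit 444) (nat_lit 236))) (XT.nd (nat_lit 78) (nat_lit 152) (nat_lit 0) (XT.lf (nat_lit 0) (nat_lit 35040229218) (nat_lit 304) (nat_lit 2396149725) (nat_lit 76) (nat_lit 18626056254) (nat_lit 137) (nat_lit 5) (nat_lit 141) (nat_lit 5) (nat_lit 138) (nat_lit 5) (nat_lit 521) (nat_lit 444) (nat_lit 235)) (XT.lf (nat_lit 0) (nat_lit 33380848112) (nat_lit 152) (nat_lit 17688817236) (nat_lit 228) (nat_lit 6065728600) (nat_lit 135) (nat_lit 5) (nat_lit 137) (nat_lit 5) (nat_lit 138) (nat_lit 5) (nat_lit 522) (nat_lit 444) (nat_lit 234))))))))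
noncomputable def xc187 : XT := (XT.nd (nat_lit 56706) (nat_lit 0) (nat_lit 11172) (XT.nd (nat_lit 1170) (nat_lit 1216) (nat_lit 0) (XT.nd (nat_lit 546) (nat_lit 988) (nat_lit 0) (XT.nd (nat_lit 234) (nat_lit 380) (nat_lit 0) (XT.nd (nat_lit 78) (nat_lit 152) (nat_lit 0) (XT.lf (nat_lit 0) (nat_lit 9324056937) (nat_lit 304) (nat_lit 46077525374) (nat_lit 76) (nat_lit 2831260094) (nat_lit 131) (nat_lit 5) (nat_lit 135) (nat_lit 5) (nat_lit 132) (nat_lit 5) (nat_lit 523) (nat_lit 444) (nat_lit 233)) (XT.nd (nat_lit 78) (nat_lit 152) (nat_lit 0) (XT.lf (nat_lit 0) (nat_lit 25468567533) (nat_lit 304) (nat_lit 9968466777) (nat_lit 76) (nat_lit 23911929941) (nat_lit 131) (nat_lit 5) (nat_lit 135) (nat_lit 5) (nat_lit 132) (nat_lit 5) (nat_lit 524) (nat_lit 444) (nat_lit 232)) (XT.lf (nat_lit 0) (nat_lit 27761413146) (nat_lit 152) (nat_lit 14600491538) (nat_lit 228) (nat_lit 18128730366) (nat_lit 129) (nat_lit 5) (nat_lit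 131) (nat_lit 5) (nat_lit 132) (nat_lit 5) (nat_lit 525) (nat_lit 444) (nat_lit 231)))) (XT.nd (nat_lit 156) (nat_lit 152) (nat_lit 0) (XT.nd (nat_lit 78) (nat_lit 76) (nat_lit 0) (XT.lf (nat_lit 0) (nat_lit 5194217229) (nat_lit 152) (nat_lit 54783010416) (nat_lit 228) (nat_lit 1682872791) (nat_lit 127) (nat_lit 5) (nat_lit 129) (nat_lit 5) (nat_lit 130) (nat_lit 5) (nat_lit 526) (nat_lit 444) (nat_lit 230)) (XT.lf (nat_lit 0) (nat_lit 15434635770) (nat_lit 228) (nat_lit 18227136705) (nat_lit 76) (nat_lit 29184198282) (nat_lit 126) (nat_lit 5) (nat_lit 129) (nat_lit 5) (nat_lit 127) (nat_lit 5) (nat_lit 527) (nat_lit 444) (nat_lit 229))) (XT.nd (nat_lit 78) (nat_lit 0) (nat_lit 0) (XT.lf (nat_lit 0) (nat_lit 21558727273) (nat_lit 152) (nat_lit 11678071611) (nat_lit 228) (nat_lit 30823969870) (nat_lit 124) (nat_lit 5) (nat_lit 126) (nat_lit 5) (nat_lit 127) (nat_lit 5) (nat_lit 528) (nat_lit 444) (nat_lit 228)) (XT.lf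 (nat_lit 0) (nat_lit 51862039573) (nat_lit 228) (nat_lit 2505991240) (nat_lit 76) (nat_lit 10935309528) (nat_lit 124) (nat_lit 5) (nat_lit 127) (nat_lit 5) (nat_lit 125) (nat_lit 5) (nat_lit 529) (nat_lit 444) (nat_lit 227))))) (XT.nd (nat_lit 312) (nat_lit 456) (nat_lit 0) (XT.nd (nat_lit 156) (nat_lit 152) (nat_lit 0) (XT.nd (nat_lit 78) (nat_lit 152) (nat_lit 0) (XT.lf (nat_lit 0) (nat_lit 4872188752) (nat_lit 228) (nat_lit 27278230197) (nat_lit 76) (nat_lit 34416590369) (nat_lit 121) (nat_lit 5) (nat_lit 124) (nat_lit 5) (nat_lit 122) (nat_lit 5) (nat_lit 530) (nat_lit 444) (nat_lit 226)) (XT.lf (nat_lit 0) (nat_lit 14669895539) (nat_lit 152) (nat_lit 8959402161) (nat_lit 228) (nat_lit 44230367077) (nat_lit 119) (nat_lit 5) (nat_lit 121) (nat_lit 5) (nat_lit 122) (nat_lit 5) (nat_lit 531) (nat_lit 444) (nat_lit 225))) (XT.nd (nat_lit 78) (nat_lit 152) (nat_lit 0) (XT.lf (nat_lit 0) (nat_lit 43368603503) (nat_lit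 228) (nat_lit 10897389715) (nat_lit 76) (nat_lit 14912522203) (nat_lit 119) (nat_lit 5) (nat_lit 122) (nat_lit 5) (nat_lit 120) (nat_lit 5) (nat_lit 532) (nat_lit 444) (nat_lit 224)) (XT.lf (nat_lit 0) (nat_lit 33219423219) (nat_lit 152) (nat_lit 30886570327) (nat_lit 228) (nat_lit 6418760910) (nat_lit 117) (nat_lit 5) (nat_lit 119) (nat_lit 5) (nat_lit 120) (nat_lit 5) (nat_lit 533) (nat_lit 444) (nat_lit 223)))) (XT.nd (nat_lit 156) (nat_lit 228) (nat_lit 0) (XT.nd (nat_lit 78) (nat_lit 0) (nat_lit 0) (XT.lf (nat_lit 0) (nat_lit 6975926296) (nat_lit 152) (nat_lit 6489774270) (nat_lit 228) (nat_lit 58436489434) (nat_lit 114) (nat_lit 5) (nat_lit 116) (nat_lit 5) (nat_lit 117) (nat_lit 5) (nat_lit 534) (nat_lit 444) (nat_lit 222)) (XT.lf (nat_lit 0) (nat_lit 34375179879) (nat_lit 228) (nat_lit 20209628133) (nat_lit 76) (nat_lit 18717509217) (nat_lit 114) (nat_lit 5) (nat_lit 117) (nat_lit 5) (nat_lit 115) (nat_lit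 5) (nat_lit 535) (nat_lit 444) (nat_lit 221))) (XT.nd (nat_lit 78) (nat_lit 76) (nat_lit 0) (XT.lf (nat_lit 0) (nat_lit 26293571994) (nat_lit 152) (nat_lit 29933323722) (nat_lit 228) (nat_lit 18508104018) (nat_lit 112) (nat_lit 5) (nat_lit 114) (nat_lit 5) (nat_lit 115) (nat_lit 5) (nat_lit 536) (nat_lit 444) (nat_lit 220)) (XT.lf (nat_lit 0) (nat_lit 2678306856) (nat_lit 228) (nat_lit 1628438234) (nat_lit 76) (nat_lit 71897068448) (nat_lit 111) (nat_lit 5) (nat_lit 114) (nat_lit 5) (nat_lit 112) (nat_lit 5) (nat_lit 537) (nat_lit 444) (nat_lit 219)))))) (XT.nd (nat_lit 624) (nat_lit 456) (nat_lit 0) (XT.nd (nat_lit 312) (nat_lit 304) (nat_lit 0) (XT.nd (nat_lit 156) (nat_lit 152) (nat_lit 0) (XT.nd (nat_lit 78) (nat_lit 152) (nat_lit 0) (XT.lf (nat_lit 0) (nat_lit 24799879968) (nat_lit 228) (nat_lit 30590710229) (nat_lit 76) (nat_lit 22300457191) (nat_lit 109) (nat_lit 5) (nat_lit 112) (nat_lit 5) (nat_lit 110)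 (nat_lit 5) (nat_lit 538) (nat_lit 444) (nat_lit 218)) (XT.lf (nat_lit 0) (nat_lit 18414824845) (nat_lit 152) (nat_lit 29404555739) (nat_lit 228) (nat_lit 31396489279) (nat_lit 107) (nat_lit 5) (nat_lit 109) (nat_lit 5) (nat_lit 110) (nat_lit 5) (nat_lit 539) (nat_lit 444) (nat_lit 217))) (XT.nd (nat_lit 78) (nat_lit 152) (nat_lit 0) (XT.lf (nat_lit 0) (nat_lit 69513978323) (nat_lit 152) (nat_lit 2322434817) (nat_lit 228) (nat_lit 8940815485) (nat_lit 107) (nat_lit 5) (nat_lit 109) (nat_lit 5) (nat_lit 110) (nat_lit 5) (nat_lit 540) (nat_lit 444) (nat_lit 216)) (XT.lf (nat_lit 0) (nat_lit 14549172399) (nat_lit 152) (nat_lit 42211476863) (nat_lit 76) (nat_lit 25601561847) (nat_lit 105) (nat_lit 5) (nat_lit 107) (nat_lit 5) (nat_lit 106) (nat_lit 5) (nat_lit 541) (nat_lit 444) (nat_lit 215)))) (XT.nd (nat_lit 156) (nat_lit 152) (nat_lit 0) (XT.nd (nat_lit 78) (nat_lit 0) (nat_lit 0) (XT.lf (nat_lit 0) (nat_lit 9414187953)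 (nat_lit 152) (nat_lit 29376407998) (nat_lit 228) (nat_lit 45194698320) (nat_lit 103) (nat_lit 5) (nat_lit 105) (nat_lit 5) (nat_lit 106) (nat_lit 5) (nat_lit 542) (nat_lit 444) (nat_lit 214)) (XT.lf (nat_lit 0) (nat_lit 63450385290) (nat_lit 152) (nat_lit 733237273) (nat_lit 228) (nat_lit 21460716572) (nat_lit 103) (nat_lit 5) (nat_lit 105) (nat_lit 5) (nat_lit 106) (nat_lit 5) (nat_lit 543) (nat_lit 444) (nat_lit 213))) (XT.nd (nat_lit 78) (nat_lit 0) (nat_lit 0) (XT.lf (nat_lit 0) (nat_lit 3516073855) (nat_lit 152) (nat_lit 55269226965) (nat_lit 76) (nat_lit 28549322363) (nat_lit 101) (nat_lit 5) (nat_lit 103) (nat_lit 5) (nat_lit 102) (nat_lit 5) (nat_lit 544) (nat_lit 444) (nat_lit 212)) (XT.lf (nat_lit 0) (nat_lit 29042572841) (nat_lit 152) (nat_lit 886843445) (nat_lit 76) (nat_lit 59132872693) (nat_lit 101) (nat_lit 5) (nat_lit 103) (nat_lit 5) (nat_lit 102) (nat_lit 5) (nat_lit 545) (nat_lit 444) (nat_lit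 211))))) (XT.nd (nat_lit 54600) (nat_lit 0) (nat_lit 17632) (XT.nd (nat_lit 156) (nat_lit 228) (nat_lit 0) (XT.nd (nat_lit 78) (nat_lit 76) (nat_lit 0) (XT.lf (nat_lit 0) (nat_lit 55876835998) (nat_lit 228) (nat_lit 34608253349) (nat_lit 76) (nat_lit 340436342) (nat_lit 99) (nat_lit 5) (nat_lit 102) (nat_lit 5) (nat_lit 100) (nat_lit 4) (nat_lit 546) (nat_lit 444) (nat_lit 210)) (XT.lf (nat_lit 0) (nat_lit 22551567669) (nat_lit 76) (nat_lit 61484922712) (nat_lit 152) (nat_lit 8589558232) (nat_lit 98) (nat_lit 5) (nat_lit 99) (nat_lit 5) (nat_lit 100) (nat_lit 4) (nat_lit 547) (nat_lit 444) (nat_lit 209))) (XT.nd (nat_lit 78) (nat_lit 152) (nat_lit 0) (XT.lf (nat_lit 0) (nat_lit 18549315054) (nat_lit 152) (nat_lit 12519735766) (nat_lit 76) (nat_lit 63395649605) (nat_lit 97) (nat_lit 5) (nat_lit 99) (nat_lit 5) (nat_lit 98) (nat_lit 5) (nat_lit 548) (nat_lit 444) (nat_lit 208)) (XT.lf (nat_lit 0) (nat_lit 46793408348)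 (nat_lit 228) (nat_lit 48747917407) (nat_lit 76) (nat_lit 800723835) (nat_lit 95) (nat_lit 5) (nat_lit 98) (nat_lit 5) (nat_lit 96) (nat_lit 4) (nat_lit 549) (nat_lit 444) (nat_lit 207)))) (XT.nd (nat_lit 156) (nat_lit 0) (nat_lit 76) (XT.nd (nat_lit 78) (nat_lit 0) (nat_lit 0) (XT.lf (nat_lit 0) (nat_lit 1375305908) (nat_lit 1292) (nat_lit 3197260217) (nat_lit 1292) (nat_lit 3197260217) (nat_lit 327) (nat_lit 3) (nat_lit 344) (nat_lit 3) (nat_lit 344) (nat_lit 5) (nat_lit 445) (nat_lit 445) (nat_lit 310)) (XT.lf (nat_lit 76) (nat_lit 1371057816) (nat_lit 0) (nat_lit 1710463618) (nat_lit 1292) (nat_lit 12682523769) (nat_lit 328) (nat_lit 5) (nat_lit 327) (nat_lit 3) (nat_lit 344) (nat_lit 5) (nat_lit 446) (nat_lit 445) (nat_lit 309))) (XT.nd (nat_lit 78) (nat_lit 0) (nat_lit 0) (XT.lf (nat_lit 0) (nat_lit 3533943738) (nat_lit 1216) (nat_lit 6556398632) (nat_lit 1292) (nat_lit 5901480062) (nat_lit 328) (nat_lit 5)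 (nat_lit 344) (nat_lit 5) (nat_lit 345) (nat_lit 5) (nat_lit 447) (nat_lit 445) (nat_lit 308)) (XT.lf (nat_lit 76) (nat_lit 1522188672) (nat_lit 0) (nat_lit 2498837327) (nat_lit 1292) (nat_lit 12204774845) (nat_lit 329) (nat_lit 5) (nat_lit 328) (nat_lit 5) (nat_lit 345) (nat_lit 5) (nat_lit 448) (nat_lit 445) (nat_lit 307))))))) (XT.nd (nat_lit 1248) (nat_lit 4940) (nat_lit 0) (XT.nd (nat_lit 624) (nat_lit 1672) (nat_lit 0) (XT.nd (nat_lit 312) (nat_lit 0) (nat_lit 152) (XT.nd (nat_lit 156) (nat_lit 0) (nat_lit 76) (XT.nd (nat_lit 78) (nat_lit 0) (nat_lit 0) (XT.lf (nat_lit 0) (nat_lit 4630537773) (nat_lit 1216) (nat_lit 6545237222) (nat_lit 1292) (nat_lit 5287789570) (nat_lit 329) (nat_lit 5) (nat_lit 345) (nat_lit 5) (nat_lit 346) (nat_lit 5) (nat_lit 449) (nat_lit 445) (nat_lit 306)) (XT.lf (nat_lit 76) (nat_lit 1863532057) (nat_lit 0) (nat_lit 3427565661) (nat_lit 1292) (nat_lit 11416381050) (nat_lit 330) (nat_lit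 5) (nat_lit 329) (nat_lit 5) (nat_lit 346) (nat_lit 5) (nat_lit 450) (nat_lit 445) (nat_lit 305))) (XT.nd (nat_lit 78) (nat_lit 0) (nat_lit 0) (XT.lf (nat_lit 0) (nat_lit 6072365573) (nat_lit 1216) (nat_lit 6348661440) (nat_lit 1292) (nat_lit 4534657094) (nat_lit 330) (nat_lit 5) (nat_lit 346) (nat_lit 5) (nat_lit 347) (nat_lit 5) (nat_lit 451) (nat_lit 445) (nat_lit 304)) (XT.lf (nat_lit 76) (nat_lit 2408478415) (nat_lit 0) (nat_lit 4516337000) (nat_lit 1292) (nat_lit 10285088302) (nat_lit 331) (nat_lit 5) (nat_lit 330) (nat_lit 5) (nat_lit 347) (nat_lit 5) (nat_lit 452) (nat_lit 445) (nat_lit 303)))) (XT.nd (nat_lit 156) (nat_lit 0) (nat_lit 76) (XT.nd (nat_lit 78) (nat_lit 0) (nat_lit 0) (XT.lf (nat_lit 0) (nat_lit 7893333328) (nat_lit 1216) (nat_lit 5953148682) (nat_lit 1292) (nat_lit 3622553486) (nat_lit 331) (nat_lit 5) (nat_lit 347) (nat_lit 5) (nat_lit 348) (nat_lit 5) (nat_lit 453) (nat_lit 445) (nat_lit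 302)) (XT.lf (nat_lit 76) (nat_lit 3171622989) (nat_lit 0) (nat_lit 5785652951) (nat_lit 1292) (nat_lit 8776674618) (nat_lit 332) (nat_lit 5) (nat_lit 331) (nat_lit 5) (nat_lit 348) (nat_lit 5) (nat_lit 454) (nat_lit 445) (nat_lit 301))) (XT.nd (nat_lit 78) (nat_lit 0) (nat_lit 0) (XT.lf (nat_lit 0) (nat_lit 10129431183) (nat_lit 1216) (nat_lit 5343979163) (nat_lit 1292) (nat_lit 2531114288) (nat_lit 332) (nat_lit 5) (nat_lit 348) (nat_lit 5) (nat_lit 349) (nat_lit 5) (nat_lit 455) (nat_lit 445) (nat_lit 300)) (XT.lf (nat_lit 76) (nat_lit 4168818733) (nat_lit 0) (nat_lit 7256929152) (nat_lit 1292) (nat_lit 6854798525) (nat_lit 333) (nat_lit 5) (nat_lit 332) (nat_lit 5) (nat_lit 349) (nat_lit 5) (nat_lit 456) (nat_lit 445) (nat_lit 299))))) (XT.nd (nat_lit 312) (nat_lit 1976) (nat_lit 0) (XT.nd (nat_lit 156) (nat_lit 0) (nat_lit 0) (XT.nd (nat_lit 78) (nat_lit 0) (nat_lit 0) (XT.lf (nat_lit 0) (nat_lit 12818889930)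 (nat_lit 1216) (nat_lit 4505181592) (nat_lit 1292) (nat_lit 1239039613) (nat_lit 333) (nat_lit 5) (nat_lit 349) (nat_lit 5) (nat_lit 350) (nat_lit 5) (nat_lit 457) (nat_lit 445) (nat_lit 298)) (XT.lf (nat_lit 76) (nat_lit 5417234396) (nat_lit 0) (nat_lit 8952598510) (nat_lit 1292) (nat_lit 4480840054) (nat_lit 334) (nat_lit 5) (nat_lit 333) (nat_lit 5) (nat_lit 350) (nat_lit 5) (nat_lit 458) (nat_lit 445) (nat_lit 297))) (XT.nd (nat_lit 78) (nat_lit 0) (nat_lit 76) (XT.lf (nat_lit 76) (nat_lit 15723549862) (nat_lit 0) (nat_lit 281501669) (nat_lit 1292) (nat_lit 3140678038) (nat_lit 334) (nat_lit 5) (nat_lit 333) (nat_lit 5) (nat_lit 350) (nat_lit 5) (nat_lit 459) (nat_lit 445) (nat_lit 296)) (XT.lf (nat_lit 76) (nat_lit 6935417917) (nat_lit 0) (nat_lit 10896217361) (nat_lit 1292) (nat_lit 1613733681) (nat_lit 335) (nat_lit 5) (nat_lit 334) (nat_lit 5) (nat_lit 351) (nat_lit 5) (nat_lit 460) (nat_lit 445) (nat_lit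 295)))) (XT.nd (nat_lit 156) (nat_lit 836) (nat_lit 0) (XT.nd (nat_lit 78) (nat_lit 1216) (nat_lit 0) (XT.lf (nat_lit 76) (nat_lit 17664925345) (nat_lit 0) (nat_lit 2078062632) (nat_lit 1292) (nat_lit 10110740) (nat_lit 335) (nat_lit 5) (nat_lit 334) (nat_lit 5) (nat_lit 351) (nat_lit 5) (nat_lit 461) (nat_lit 445) (nat_lit 294)) (XT.lf (nat_lit 0) (nat_lit 1755274018) (nat_lit 1292) (nat_lit 11339576196) (nat_lit 76) (nat_lit 6970366444) (nat_lit 318) (nat_lit 5) (nat_lit 335) (nat_lit 5) (nat_lit 319) (nat_lit 5) (nat_lit 462) (nat_lit 445) (nat_lit 293))) (XT.nd (nat_lit 78) (nat_lit 836) (nat_lit 0) (XT.lf (nat_lit 0) (nat_lit 3608246146) (nat_lit 1292) (nat_lit 506529022) (nat_lit 76) (nat_lit 16270875395) (nat_lit 318) (nat_lit 5) (nat_lit 335) (nat_lit 5) (nat_lit 319) (nat_lit 5) (nat_lit 463) (nat_lit 445) (nat_lit 292)) (XT.lf (nat_lit 0) (nat_lit 5664737069) (nat_lit 912) (nat_lit 9905867562) (nat_lit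 76) (nat_lit 5140655259) (nat_lit 307) (nat_lit 5) (nat_lit 319) (nat_lit 5) (nat_lit 308) (nat_lit 5) (nat_lit 464) (nat_lit 445) (nat_lit 291)))))) (XT.nd (nat_lit 624) (nat_lit 2508) (nat_lit 0) (XT.nd (nat_lit 312) (nat_lit 1216) (nat_lit 0) (XT.nd (nat_lit 156) (nat_lit 608) (nat_lit 0) (XT.nd (nat_lit 78) (nat_lit 0) (nat_lit 0) (XT.lf (nat_lit 0) (nat_lit 1400896218) (nat_lit 608) (nat_lit 6434710598) (nat_lit 684) (nat_lit 13209450440) (nat_lit 299) (nat_lit 5) (nat_lit 307) (nat_lit 5) (nat_lit 308) (nat_lit 5) (nat_lit 465) (nat_lit 445) (nat_lit 290)) (XT.lf (nat_lit 0) (nat_lit 10194674176) (nat_lit 684) (nat_lit 8171894177) (nat_lit 76) (nat_lit 3018608322) (nat_lit 299) (nat_lit 5) (nat_lit 308) (nat_lit 5) (nat_lit 300) (nat_lit 5) (nat_lit 466) (nat_lit 445) (nat_lit 289))) (XT.nd (nat_lit 78) (nat_lit 0) (nat_lit 0) (XT.lf (nat_lit 0) (nat_lit 3645798990) (nat_lit 608) (nat_lit 9071112226) (nat_lit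 684) (nat_lit 9015816799) (nat_lit 291) (nat_lit 5) (nat_lit 299) (nat_lit 5) (nat_lit 300) (nat_lit 5) (nat_lit 467) (nat_lit 445) (nat_lit 288)) (XT.lf (nat_lit 0) (nat_lit 15396759195) (nat_lit 684) (nat_lit 6114647860) (nat_lit 76) (nat_lit 576840783) (nat_lit 291) (nat_lit 5) (nat_lit 300) (nat_lit 5) (nat_lit 292) (nat_lit 5) (nat_lit 468) (nat_lit 445) (nat_lit 287)))) (XT.nd (nat_lit 156) (nat_lit 684) (nat_lit 0) (XT.nd (nat_lit 78) (nat_lit 0) (nat_lit 0) (XT.lf (nat_lit 0) (nat_lit 6242687450) (nat_lit 532) (nat_lit 12058087704) (nat_lit 608) (nat_lit 4149345178) (nat_lit 284) (nat_lit 5) (nat_lit 291) (nat_lit 5) (nat_lit 292) (nat_lit 5) (nat_lit 469) (nat_lit 445) (nat_lit 286)) (XT.lf (nat_lit 0) (nat_lit 19090028481) (nat_lit 532) (nat_lit 2257698031) (nat_lit 608) (nat_lit 1473448288) (nat_lit 284) (nat_lit 5) (nat_lit 291) (nat_lit 5) (nat_lit 292) (nat_lit 5) (nat_lit 470) (nat_lit 445) (nat_lit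 285))) (XT.nd (nat_lit 78) (nat_lit 0) (nat_lit 0) (XT.lf (nat_lit 0) (nat_lit 1417440798) (nat_lit 684) (nat_lit 13994593730) (nat_lit 76) (nat_lit 7786164317) (nat_lit 275) (nat_lit 5) (nat_lit 284) (nat_lit 5) (nat_lit 276) (nat_lit 5) (nat_lit 471) (nat_lit 445) (nat_lit 284)) (XT.lf (nat_lit 0) (nat_lit 4420139946) (nat_lit 684) (nat_lit 1025942823) (nat_lit 76) (nat_lit 18138372462) (nat_lit 275) (nat_lit 5) (nat_lit 284) (nat_lit 5) (nat_lit 276) (nat_lit 5) (nat_lit 472) (nat_lit 445) (nat_lit 283))))) (XT.nd (nat_lit 312) (nat_lit 988) (nat_lit 0) (XT.nd (nat_lit 156) (nat_lit 456) (nat_lit 0) (XT.nd (nat_lit 78) (nat_lit 532) (nat_lit 0) (XT.lf (nat_lit 0) (nat_lit 7675736679) (nat_lit 608) (nat_lit 11455209390) (nat_lit 76) (nat_lit 4846468958) (nat_lit 268) (nat_lit 5) (nat_lit 276) (nat_lit 5) (nat_lit 269) (nat_lit 5) (nat_lit 473) (nat_lit 445) (nat_lit 282)) (XT.lf (nat_lit 0) (nat_lit 2096837871)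 (nat_lit 532) (nat_lit 9011265080) (nat_lit 608) (nat_lit 13271687829) (nat_lit 261) (nat_lit 5) (nat_lit 268) (nat_lit 5) (nat_lit 269) (nat_lit 5) (nat_lit 474) (nat_lit 445) (nat_lit 281))) (XT.nd (nat_lit 78) (nat_lit 456) (nat_lit 0) (XT.lf (nat_lit 0) (nat_lit 14768489983) (nat_lit 608) (nat_lit 8521345269) (nat_lit 76) (nat_lit 1500651266) (nat_lit 261) (nat_lit 5) (nat_lit 269) (nat_lit 5) (nat_lit 262) (nat_lit 5) (nat_lit 475) (nat_lit 445) (nat_lit 280)) (XT.lf (nat_lit 0) (nat_lit 5668556078) (nat_lit 456) (nat_lit 13008654514) (nat_lit 532) (nat_lit 6532137074) (nat_lit 255) (nat_lit 5) (nat_lit 261) (nat_lit 5) (nat_lit 262) (nat_lit 5) (nat_lit 476) (nat_lit 445) (nat_lit 279)))) (XT.nd (nat_lit 156) (nat_lit 456) (nat_lit 0) (XT.nd (nat_lit 78) (nat_lit 532) (nat_lit 0) (XT.lf (nat_lit 0) (nat_lit 20452943982) (nat_lit 456) (nat_lit 2331204105) (nat_lit 532) (nat_lit 2854198099) (nat_lit 255) (nat_lit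 5) (nat_lit 261) (nat_lit 5) (nat_lit 262) (nat_lit 5) (nat_lit 477) (nat_lit 445) (nat_lit 278)) (XT.lf (nat_lit 0) (nat_lit 1089156181) (nat_lit 532) (nat_lit 16384966350) (nat_lit 76) (nat_lit 8600623813) (nat_lit 248) (nat_lit 5) (nat_lit 255) (nat_lit 5) (nat_lit 249) (nat_lit 5) (nat_lit 478) (nat_lit 445) (nat_lit 277))) (XT.nd (nat_lit 78) (nat_lit 456) (nat_lit 0) (XT.lf (nat_lit 0) (nat_lit 5164494056) (nat_lit 532) (nat_lit 1462913149) (nat_lit 76) (nat_lit 19893852210) (nat_lit 248) (nat_lit 5) (nat_lit 255) (nat_lit 5) (nat_lit 249) (nat_lit 5) (nat_lit 479) (nat_lit 445) (nat_lit 276)) (XT.lf (nat_lit 0) (nat_lit 9538634318) (nat_lit 532) (nat_lit 12844516931) (nat_lit 76) (nat_lit 4592720536) (nat_lit 242) (nat_lit 5) (nat_lit 249) (nat_lit 5) (nat_lit 243) (nat_lit 5) (nat_lit 480) (nat_lit 445) (nat_lit 275))))))))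
noncomputable def xc188 : XT := (XT.nd (nat_lit 2418) (nat_lit 3876) (nat_lit 0) (XT.nd (nat_lit 1170) (nat_lit 2888) (nat_lit 0) (XT.nd (nat_lit 546) (nat_lit 1900) (nat_lit 0) (XT.nd (nat_lit 234) (nat_lit 912) (nat_lit 0) (XT.nd (nat_lit 78) (nat_lit 380) (nat_lit 0) (XT.lf (nat_lit 0) (nat_lit 2762091003) (nat_lit 456) (nat_lit 11384300856) (nat_lit 532) (nat_lit 13294659039) (nat_lit 236) (nat_lit 5) (nat_lit 242) (nat_lit 5) (nat_lit 243) (nat_lit 5) (nat_lit 481) (nat_lit 445) (nat_lit 274)) (XT.nd (nat_lit 78) (nat_lit 380) (nat_lit 0) (XT.lf (nat_lit 0) (nat_lit 19018213470) (nat_lit 532) (nat_lit 8822721710) (nat_lit 76) (nat_lit 75475428) (nat_lit 236) (nat_lit 5) (nat_lit 243) (nat_lit 5) (nat_lit 237) (nat_lit 5) (nat_lit 482) (nat_lit 445) (nat_lit 273)) (XT.lf (nat_lit 0) (nat_lit 7537876177) (nat_lit 380) (nat_lit 16678998817) (nat_lit 456) (nat_lit 4183735714) (nat_lit 231) (nat_lit 5) (nat_lit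 236) (nat_lit 5) (nat_lit 237) (nat_lit 5) (nat_lit 483) (nat_lit 445) (nat_lit 272)))) (XT.nd (nat_lit 156) (nat_lit 380) (nat_lit 0) (XT.nd (nat_lit 78) (nat_lit 456) (nat_lit 0) (XT.lf (nat_lit 0) (nat_lit 744560961) (nat_lit 456) (nat_lit 4339593852) (nat_lit 76) (nat_lit 23812422780) (nat_lit 230) (nat_lit 5) (nat_lit 236) (nat_lit 5) (nat_lit 231) (nat_lit 5) (nat_lit 484) (nat_lit 445) (nat_lit 271)) (XT.lf (nat_lit 0) (nat_lit 5923689167) (nat_lit 532) (nat_lit 16586492323) (nat_lit 76) (nat_lit 6890387298) (nat_lit 224) (nat_lit 5) (nat_lit 231) (nat_lit 5) (nat_lit 225) (nat_lit 5) (nat_lit 485) (nat_lit 445) (nat_lit 270))) (XT.nd (nat_lit 78) (nat_lit 0) (nat_lit 0) (XT.lf (nat_lit 0) (nat_lit 608420027) (nat_lit 380) (nat_lit 10745947210) (nat_lit 456) (nat_lit 18562427339) (nat_lit 219) (nat_lit 5) (nat_lit 224) (nat_lit 5) (nat_lit 225) (nat_lit 5) (nat_lit 486) (nat_lit 445) (nat_lit 269)) (XT.lf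 (nat_lit 0) (nat_lit 17126087467) (nat_lit 456) (nat_lit 11804822279) (nat_lit 76) (nat_lit 1512253874) (nat_lit 219) (nat_lit 5) (nat_lit 225) (nat_lit 5) (nat_lit 220) (nat_lit 5) (nat_lit 487) (nat_lit 445) (nat_lit 268))))) (XT.nd (nat_lit 312) (nat_lit 1064) (nat_lit 0) (XT.nd (nat_lit 156) (nat_lit 456) (nat_lit 0) (XT.nd (nat_lit 78) (nat_lit 0) (nat_lit 0) (XT.lf (nat_lit 0) (nat_lit 6233558694) (nat_lit 380) (nat_lit 16999630974) (nat_lit 456) (nat_lit 7747267288) (nat_lit 214) (nat_lit 5) (nat_lit 219) (nat_lit 5) (nat_lit 220) (nat_lit 5) (nat_lit 488) (nat_lit 445) (nat_lit 267)) (XT.lf (nat_lit 0) (nat_lit 25049610985) (nat_lit 380) (nat_lit 4589080030) (nat_lit 456) (nat_lit 1891722623) (nat_lit 214) (nat_lit 5) (nat_lit 219) (nat_lit 5) (nat_lit 220) (nat_lit 5) (nat_lit 489) (nat_lit 445) (nat_lit 266))) (XT.nd (nat_lit 78) (nat_lit 0) (nat_lit 0) (XT.lf (nat_lit 0) (nat_lit 4255578995) (nat_lit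 456) (nat_lit 19639860994) (nat_lit 76) (nat_lit 8194329404) (nat_lit 208) (nat_lit 5) (nat_lit 214) (nat_lit 5) (nat_lit 209) (nat_lit 5) (nat_lit 490) (nat_lit 445) (nat_lit 265)) (XT.lf (nat_lit 0) (nat_lit 10656914055) (nat_lit 456) (nat_lit 652802298) (nat_lit 76) (nat_lit 21352398604) (nat_lit 208) (nat_lit 5) (nat_lit 214) (nat_lit 5) (nat_lit 209) (nat_lit 5) (nat_lit 491) (nat_lit 445) (nat_lit 264)))) (XT.nd (nat_lit 156) (nat_lit 380) (nat_lit 0) (XT.nd (nat_lit 78) (nat_lit 304) (nat_lit 0) (XT.lf (nat_lit 0) (nat_lit 17449506419) (nat_lit 456) (nat_lit 13989192044) (nat_lit 76) (nat_lit 1806956020) (nat_lit 203) (nat_lit 5) (nat_lit 209) (nat_lit 5) (nat_lit 204) (nat_lit 5) (nat_lit 492) (nat_lit 445) (nat_lit 263)) (XT.lf (nat_lit 0) (nat_lit 5928198915) (nat_lit 304) (nat_lit 18689564812) (nat_lit 380) (nat_lit 9223779962) (nat_lit 199) (nat_lit 5) (nat_lit 203) (nat_lit 5) (nat_lit 204) (nat_lit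 5) (nat_lit 493) (nat_lit 445) (nat_lit 262))) (XT.nd (nat_lit 78) (nat_lit 380) (nat_lit 0) (XT.lf (nat_lit 0) (nat_lit 26724605084) (nat_lit 304) (nat_lit 5414052156) (nat_lit 380) (nat_lit 2312524785) (nat_lit 199) (nat_lit 5) (nat_lit 203) (nat_lit 5) (nat_lit 204) (nat_lit 5) (nat_lit 494) (nat_lit 445) (nat_lit 261)) (XT.lf (nat_lit 0) (nat_lit 4917376238) (nat_lit 380) (nat_lit 21881689251) (nat_lit 76) (nat_lit 8272505401) (nat_lit 194) (nat_lit 5) (nat_lit 199) (nat_lit 5) (nat_lit 195) (nat_lit 5) (nat_lit 495) (nat_lit 445) (nat_lit 260)))))) (XT.nd (nat_lit 624) (nat_lit 1368) (nat_lit 0) (XT.nd (nat_lit 312) (nat_lit 912) (nat_lit 0) (XT.nd (nat_lit 156) (nat_lit 304) (nat_lit 0) (XT.nd (nat_lit 78) (nat_lit 304) (nat_lit 0) (XT.lf (nat_lit 0) (nat_lit 12446532043) (nat_lit 380) (nat_lit 898512645) (nat_lit 76) (nat_lit 22360974825) (nat_lit 194) (nat_lit 5) (nat_lit 199) (nat_lit 5) (nat_lit 195) (nat_lit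 5) (nat_lit 496) (nat_lit 445) (nat_lit 259)) (XT.lf (nat_lit 0) (nat_lit 20408055497) (nat_lit 380) (nat_lit 15239203568) (nat_lit 76) (nat_lit 706047835) (nat_lit 190) (nat_lit 5) (nat_lit 195) (nat_lit 5) (nat_lit 191) (nat_lit 5) (nat_lit 497) (nat_lit 445) (nat_lit 258))) (XT.nd (nat_lit 78) (nat_lit 0) (nat_lit 0) (XT.lf (nat_lit 0) (nat_lit 6780759256) (nat_lit 304) (nat_lit 22030715979) (nat_lit 380) (nat_lit 8202446249) (nat_lit 186) (nat_lit 5) (nat_lit 190) (nat_lit 5) (nat_lit 191) (nat_lit 5) (nat_lit 498) (nat_lit 445) (nat_lit 257)) (XT.lf (nat_lit 0) (nat_lit 29768645346) (nat_lit 304) (nat_lit 7848866865) (nat_lit 380) (nat_lit 72326945) (nat_lit 186) (nat_lit 5) (nat_lit 190) (nat_lit 5) (nat_lit 191) (nat_lit 5) (nat_lit 499) (nat_lit 445) (nat_lit 256)))) (XT.nd (nat_lit 156) (nat_lit 228) (nat_lit 0) (XT.nd (nat_lit 78) (nat_lit 304) (nat_lit 0) (XT.lf (nat_lit 0) (nat_lit 8350405240) (nat_lit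 380) (nat_lit 23173140148) (nat_lit 76) (nat_lit 6853773867) (nat_lit 181) (nat_lit 5) (nat_lit 186) (nat_lit 5) (nat_lit 182) (nat_lit 5) (nat_lit 500) (nat_lit 445) (nat_lit 255)) (XT.lf (nat_lit 0) (nat_lit 18797458) (nat_lit 304) (nat_lit 17160967979) (nat_lit 380) (nat_lit 21900974926) (nat_lit 177) (nat_lit 5) (nat_lit 181) (nat_lit 5) (nat_lit 182) (nat_lit 5) (nat_lit 501) (nat_lit 445) (nat_lit 254))) (XT.nd (nat_lit 78) (nat_lit 228) (nat_lit 0) (XT.lf (nat_lit 0) (nat_lit 24376553480) (nat_lit 304) (nat_lit 2128230838) (nat_lit 380) (nat_lit 13293556530) (nat_lit 177) (nat_lit 5) (nat_lit 181) (nat_lit 5) (nat_lit 182) (nat_lit 5) (nat_lit 502) (nat_lit 445) (nat_lit 253)) (XT.lf (nat_lit 0) (nat_lit 8969315878) (nat_lit 228) (nat_lit 27351689857) (nat_lit 304) (nat_lit 4210120129) (nat_lit 174) (nat_lit 5) (nat_lit 177) (nat_lit 5) (nat_lit 178) (nat_lit 5) (nat_lit 503) (nat_lit 445) (nat_lit 252)))))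 (XT.nd (nat_lit 312) (nat_lit 760) (nat_lit 0) (XT.nd (nat_lit 156) (nat_lit 228) (nat_lit 0) (XT.nd (nat_lit 78) (nat_lit 304) (nat_lit 0) (XT.lf (nat_lit 0) (nat_lit 5220615725) (nat_lit 304) (nat_lit 6949930919) (nat_lit 76) (nat_lit 29108607622) (nat_lit 173) (nat_lit 5) (nat_lit 177) (nat_lit 5) (nat_lit 174) (nat_lit 5) (nat_lit 504) (nat_lit 445) (nat_lit 251)) (XT.lf (nat_lit 0) (nat_lit 15062047214) (nat_lit 380) (nat_lit 23359434443) (nat_lit 76) (nat_lit 3620519621) (nat_lit 169) (nat_lit 5) (nat_lit 174) (nat_lit 5) (nat_lit 170) (nat_lit 5) (nat_lit 505) (nat_lit 445) (nat_lit 250))) (XT.nd (nat_lit 78) (nat_lit 0) (nat_lit 0) (XT.lf (nat_lit 0) (nat_lit 2320159919) (nat_lit 228) (nat_lit 23089224948) (nat_lit 304) (nat_lit 17412029004) (nat_lit 166) (nat_lit 5) (nat_lit 169) (nat_lit 5) (nat_lit 170) (nat_lit 5) (nat_lit 506) (nat_lit 445) (nat_lit 249)) (XT.lf (nat_lit 0) (nat_lit 29244237200) (nat_lit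 228) (nat_lit 7055816532) (nat_lit 304) (nat_lit 7317167844) (nat_lit 166) (nat_lit 5) (nat_lit 169) (nat_lit 5) (nat_lit 170) (nat_lit 5) (nat_lit 507) (nat_lit 445) (nat_lit 248)))) (XT.nd (nat_lit 156) (nat_lit 456) (nat_lit 0) (XT.nd (nat_lit 78) (nat_lit 0) (nat_lit 0) (XT.lf (nat_lit 0) (nat_lit 3232519812) (nat_lit 304) (nat_lit 31771114551) (nat_lit 76) (nat_lit 9426018060) (nat_lit 162) (nat_lit 5) (nat_lit 166) (nat_lit 5) (nat_lit 163) (nat_lit 5) (nat_lit 508) (nat_lit 445) (nat_lit 247)) (XT.lf (nat_lit 0) (nat_lit 14165174021) (nat_lit 304) (nat_lit 4614901794) (nat_lit 76) (nat_lit 26477800712) (nat_lit 162) (nat_lit 5) (nat_lit 166) (nat_lit 5) (nat_lit 163) (nat_lit 5) (nat_lit 509) (nat_lit 445) (nat_lit 246))) (XT.nd (nat_lit 78) (nat_lit 228) (nat_lit 0) (XT.lf (nat_lit 0) (nat_lit 23816179656) (nat_lit 228) (nat_lit 1835756319) (nat_lit 304) (nat_lit 20452227594) (nat_lit 159) (nat_lit 5) (nat_lit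 162) (nat_lit 5) (nat_lit 163) (nat_lit 5) (nat_lit 510) (nat_lit 445) (nat_lit 245)) (XT.lf (nat_lit 0) (nat_lit 6185903222) (nat_lit 228) (nat_lit 31551256308) (nat_lit 304) (nat_lit 9231063988) (nat_lit 156) (nat_lit 5) (nat_lit 159) (nat_lit 5) (nat_lit 160) (nat_lit 5) (nat_lit 511) (nat_lit 445) (nat_lit 244))))))) (XT.nd (nat_lit 1170) (nat_lit 1824) (nat_lit 0) (XT.nd (nat_lit 546) (nat_lit 1064) (nat_lit 0) (XT.nd (nat_lit 234) (nat_lit 684) (nat_lit 0) (XT.nd (nat_lit 78) (nat_lit 228) (nat_lit 0) (XT.lf (nat_lit 0) (nat_lit 2524025025) (nat_lit 304) (nat_lit 11927923931) (nat_lit 76) (nat_lit 33398304581) (nat_lit 155) (nat_lit 5) (nat_lit 159) (nat_lit 5) (nat_lit 156) (nat_lit 5) (nat_lit 512) (nat_lit 445) (nat_lit 243)) (XT.nd (nat_lit 78) (nat_lit 0) (nat_lit 0) (XT.lf (nat_lit 0) (nat_lit 14650014178) (nat_lit 304) (nat_lit 30735421316) (nat_lit 76) (nat_lit 3364453633) (nat_lit 152) (nat_lit 5)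 (nat_lit 156) (nat_lit 5) (nat_lit 153) (nat_lit 5) (nat_lit 513) (nat_lit 445) (nat_lit 242)) (XT.lf (nat_lit 0) (nat_lit 27401837248) (nat_lit 304) (nat_lit 722014286) (nat_lit 76) (nat_lit 21544800674) (nat_lit 152) (nat_lit 5) (nat_lit 156) (nat_lit 5) (nat_lit 153) (nat_lit 5) (nat_lit 514) (nat_lit 445) (nat_lit 241)))) (XT.nd (nat_lit 156) (nat_lit 228) (nat_lit 0) (XT.nd (nat_lit 78) (nat_lit 228) (nat_lit 0) (XT.lf (nat_lit 0) (nat_lit 30788239895) (nat_lit 228) (nat_lit 10041332875) (nat_lit 304) (nat_lit 9776604729) (nat_lit 149) (nat_lit 5) (nat_lit 152) (nat_lit 5) (nat_lit 153) (nat_lit 5) (nat_lit 515) (nat_lit 445) (nat_lit 240)) (XT.lf (nat_lit 0) (nat_lit 3231058402) (nat_lit 228) (nat_lit 39766564633) (nat_lit 76) (nat_lit 8567224637) (nat_lit 146) (nat_lit 5) (nat_lit 149) (nat_lit 5) (nat_lit 147) (nat_lit 5) (nat_lit 516) (nat_lit 445) (nat_lit 239))) (XT.nd (nat_lit 78) (nat_lit 228) (nat_lit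 0) (XT.lf (nat_lit 0) (nat_lit 16731402536) (nat_lit 228) (nat_lit 7979604917) (nat_lit 76) (nat_lit 27829398066) (nat_lit 146) (nat_lit 5) (nat_lit 149) (nat_lit 5) (nat_lit 147) (nat_lit 5) (nat_lit 517) (nat_lit 445) (nat_lit 238)) (XT.lf (nat_lit 0) (nat_lit 25249427549) (nat_lit 228) (nat_lit 5627545618) (nat_lit 304) (nat_lit 22661050493) (nat_lit 143) (nat_lit 5) (nat_lit 146) (nat_lit 5) (nat_lit 147) (nat_lit 5) (nat_lit 518) (nat_lit 445) (nat_lit 237))))) (XT.nd (nat_lit 312) (nat_lit 608) (nat_lit 0) (XT.nd (nat_lit 156) (nat_lit 228) (nat_lit 0) (XT.nd (nat_lit 78) (nat_lit 76) (nat_lit 0) (XT.lf (nat_lit 0) (nat_lit 5034078523) (nat_lit 152) (nat_lit 40674967822) (nat_lit 228) (nat_lit 8848659979) (nat_lit 141) (nat_lit 5) (nat_lit 143) (nat_lit 5) (nat_lit 144) (nat_lit 5) (nat_lit 519) (nat_lit 445) (nat_lit 236)) (XT.lf (nat_lit 0) (nat_lit 5614888337) (nat_lit 228) (nat_lit 15777598508) (nat_lit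 76) (nat_lit 34203689769) (nat_lit 140) (nat_lit 5) (nat_lit 143) (nat_lit 5) (nat_lit 141) (nat_lit 5) (nat_lit 520) (nat_lit 445) (nat_lit 235))) (XT.nd (nat_lit 78) (nat_lit 0) (nat_lit 0) (XT.lf (nat_lit 0) (nat_lit 19264988236) (nat_lit 228) (nat_lit 1252290760) (nat_lit 304) (nat_lit 36140410185) (nat_lit 137) (nat_lit 5) (nat_lit 140) (nat_lit 5) (nat_lit 141) (nat_lit 5) (nat_lit 521) (nat_lit 445) (nat_lit 234)) (XT.lf (nat_lit 0) (nat_lit 36212623971) (nat_lit 304) (nat_lit 2257093276) (nat_lit 76) (nat_lit 19270953438) (nat_lit 137) (nat_lit 5) (nat_lit 141) (nat_lit 5) (nat_lit 138) (nat_lit 5) (nat_lit 522) (nat_lit 445) (nat_lit 233)))) (XT.nd (nat_lit 156) (nat_lit 152) (nat_lit 0) (XT.nd (nat_lit 78) (nat_lit 304) (nat_lit 0) (XT.lf (nat_lit 0) (nat_lit 34591146447) (nat_lit 152) (nat_lit 18130274808) (nat_lit 228) (nat_lit 6124442658) (nat_lit 135) (nat_lit 5) (nat_lit 137) (nat_lit 5) (nat_lit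 138) (nat_lit 5) (nat_lit 523) (nat_lit 445) (nat_lit 232)) (XT.lf (nat_lit 0) (nat_lit 9723986139) (nat_lit 304) (nat_lit 47247924351) (nat_lit 76) (nat_lit 3004309195) (nat_lit 131) (nat_lit 5) (nat_lit 135) (nat_lit 5) (nat_lit 132) (nat_lit 5) (nat_lit 524) (nat_lit 445) (nat_lit 231))) (XT.nd (nat_lit 78) (nat_lit 152) (nat_lit 0) (XT.lf (nat_lit 0) (nat_lit 26349330864) (nat_lit 304) (nat_lit 10061766621) (nat_lit 76) (nat_lit 24714832789) (nat_lit 131) (nat_lit 5) (nat_lit 135) (nat_lit 5) (nat_lit 132) (nat_lit 5) (nat_lit 525) (nat_lit 445) (nat_lit 230)) (XT.lf (nat_lit 0) (nat_lit 28797992503) (nat_lit 152) (nat_lit 14950034858) (nat_lit 228) (nat_lit 18553867108) (nat_lit 129) (nat_lit 5) (nat_lit 131) (nat_lit 5) (nat_lit 132) (nat_lit 5) (nat_lit 526) (nat_lit 445) (nat_lit 229)))))) (XT.nd (nat_lit 624) (nat_lit 912) (nat_lit 0) (XT.nd (nat_lit 312) (nat_lit 532) (nat_lit 0) (XT.nd (nat_lit 156) (nat_lit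 152) (nat_lit 0) (XT.nd (nat_lit 78) (nat_lit 76) (nat_lit 0) (XT.lf (nat_lit 0) (nat_lit 5554366897) (nat_lit 152) (nat_lit 56336875616) (nat_lit 228) (nat_lit 1615218377) (nat_lit 127) (nat_lit 5) (nat_lit 129) (nat_lit 5) (nat_lit 130) (nat_lit 5) (nat_lit 527) (nat_lit 445) (nat_lit 228)) (XT.lf (nat_lit 0) (nat_lit 16010136249) (nat_lit 228) (nat_lit 18573339087) (nat_lit 76) (nat_lit 30144499176) (nat_lit 126) (nat_lit 5) (nat_lit 129) (nat_lit 5) (nat_lit 127) (nat_lit 5) (nat_lit 528) (nat_lit 445) (nat_lit 227))) (XT.nd (nat_lit 78) (nat_lit 0) (nat_lit 0) (XT.lf (nat_lit 0) (nat_lit 22404134028) (nat_lit 152) (nat_lit 11940864151) (nat_lit 228) (nat_lit 31634259298) (nat_lit 124) (nat_lit 5) (nat_lit 126) (nat_lit 5) (nat_lit 127) (nat_lit 5) (nat_lit 529) (nat_lit 445) (nat_lit 226)) (XT.lf (nat_lit 0) (nat_lit 53526577371) (nat_lit 228) (nat_lit 2385891660) (nat_lit 76) (nat_lit 11346709786) (nat_lit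 124) (nat_lit 5) (nat_lit 127) (nat_lit 5) (nat_lit 125) (nat_lit 5) (nat_lit 530) (nat_lit 445) (nat_lit 225)))) (XT.nd (nat_lit 156) (nat_lit 152) (nat_lit 0) (XT.nd (nat_lit 78) (nat_lit 152) (nat_lit 0) (XT.lf (nat_lit 0) (nat_lit 5126788864) (nat_lit 228) (nat_lit 27901052876) (nat_lit 76) (nat_lit 35532923468) (nat_lit 121) (nat_lit 5) (nat_lit 124) (nat_lit 5) (nat_lit 122) (nat_lit 5) (nat_lit 531) (nat_lit 445) (nat_lit 224)) (XT.lf (nat_lit 0) (nat_lit 15303599728) (nat_lit 152) (nat_lit 9141714141) (nat_lit 228) (nat_lit 45446925419) (nat_lit 119) (nat_lit 5) (nat_lit 121) (nat_lit 5) (nat_lit 122) (nat_lit 5) (nat_lit 532) (nat_lit 445) (nat_lit 223))) (XT.nd (nat_lit 78) (nat_lit 152) (nat_lit 0) (XT.lf (nat_lit 0) (nat_lit 44774485337) (nat_lit 228) (nat_lit 11034028346) (nat_lit 76) (nat_lit 15442211211) (nat_lit 119) (nat_lit 5) (nat_lit 122) (nat_lit 5) (nat_lit 120) (nat_lit 5) (nat_lit 533) (nat_lit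 445) (nat_lit 222)) (XT.lf (nat_lit 0) (nat_lit 34404423455) (nat_lit 152) (nat_lit 31728331693) (nat_lit 228) (nat_lit 6504633249) (nat_lit 117) (nat_lit 5) (nat_lit 119) (nat_lit 5) (nat_lit 120) (nat_lit 5) (nat_lit 534) (nat_lit 445) (nat_lit 221))))) (XT.nd (nat_lit 312) (nat_lit 456) (nat_lit 0) (XT.nd (nat_lit 156) (nat_lit 228) (nat_lit 0) (XT.nd (nat_lit 78) (nat_lit 0) (nat_lit 0) (XT.lf (nat_lit 0) (nat_lit 7373837090) (nat_lit 152) (nat_lit 6599209471) (nat_lit 228) (nat_lit 60083106722) (nat_lit 114) (nat_lit 5) (nat_lit 116) (nat_lit 5) (nat_lit 117) (nat_lit 5) (nat_lit 535) (nat_lit 445) (nat_lit 220)) (XT.lf (nat_lit 0) (nat_lit 35507595013) (nat_lit 228) (nat_lit 20630561763) (nat_lit 76) (nat_lit 19360194043) (nat_lit 114) (nat_lit 5) (nat_lit 117) (nat_lit 5) (nat_lit 115) (nat_lit 5) (nat_lit 536) (nat_lit 445) (nat_lit 219))) (XT.nd (nat_lit 78) (nat_lit 76) (nat_lit 0) (XT.lf (nat_lit 0) (nat_lit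 27265917160) (nat_lit 152) (nat_lit 30747763044) (nat_lit 228) (nat_lit 18960369091) (nat_lit 112) (nat_lit 5) (nat_lit 114) (nat_lit 5) (nat_lit 115) (nat_lit 5) (nat_lit 537) (nat_lit 445) (nat_lit 218)) (XT.lf (nat_lit 0) (nat_lit 2856683804) (nat_lit 228) (nat_lit 1497147160) (nat_lit 76) (nat_lit 74133155110) (nat_lit 111) (nat_lit 5) (nat_lit 114) (nat_lit 5) (nat_lit 112) (nat_lit 5) (nat_lit 538) (nat_lit 445) (nat_lit 217)))) (XT.nd (nat_lit 156) (nat_lit 152) (nat_lit 0) (XT.nd (nat_lit 78) (nat_lit 152) (nat_lit 0) (XT.lf (nat_lit 0) (nat_lit 25641546951) (nat_lit 228) (nat_lit 31327929149) (nat_lit 76) (nat_lit 23049371583) (nat_lit 109) (nat_lit 5) (nat_lit 112) (nat_lit 5) (nat_lit 110) (nat_lit 5) (nat_lit 539) (nat_lit 445) (nat_lit 216)) (XT.lf (nat_lit 0) (nat_lit 19146002346) (nat_lit 152) (nat_lit 30204503554) (nat_lit 228) (nat_lit 32238942763) (nat_lit 107) (nat_lit 5) (nat_lit 109) (nat_lit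 5) (nat_lit 110) (nat_lit 5) (nat_lit 540) (nat_lit 445) (nat_lit 215))) (XT.nd (nat_lit 78) (nat_lit 152) (nat_lit 0) (XT.lf (nat_lit 0) (nat_lit 71772924620) (nat_lit 152) (nat_lit 2312312855) (nat_lit 228) (nat_lit 9112495101) (nat_lit 107) (nat_lit 5) (nat_lit 109) (nat_lit 5) (nat_lit 110) (nat_lit 5) (nat_lit 541) (nat_lit 445) (nat_lit 214)) (XT.lf (nat_lit 0) (nat_lit 15079991152) (nat_lit 152) (nat_lit 43302091136) (nat_lit 76) (nat_lit 26448163951) (nat_lit 105) (nat_lit 5) (nat_lit 107) (nat_lit 5) (nat_lit 106) (nat_lit 5) (nat_lit 542) (nat_lit 445) (nat_lit 213))))))))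
noncomputable def xc189 : XT := (XT.nd (nat_lit 56784) (nat_lit 0) (nat_lit 6384) (XT.nd (nat_lit 55536) (nat_lit 0) (nat_lit 14744) (XT.nd (nat_lit 54912) (nat_lit 0) (nat_lit 17480) (XT.nd (nat_lit 234) (nat_lit 304) (nat_lit 0) (XT.nd (nat_lit 78) (nat_lit 152) (nat_lit 0) (XT.lf (nat_lit 0) (nat_lit 9870620781) (nat_lit 152) (nat_lit 30176961422) (nat_lit 228) (nat_lit 46454471975) (nat_lit 103) (nat_lit 5) (nat_lit 105) (nat_lit 5) (nat_lit 106) (nat_lit 5) (nat_lit 543) (nat_lit 445) (nat_lit 212)) (XT.nd (nat_lit 78) (nat_lit 152) (nat_lit 0) (XT.lf (nat_lit 0) (nat_lit 65522835867) (nat_lit 152) (nat_lit 676847191) (nat_lit 228) (nat_lit 22011268852) (nat_lit 103) (nat_lit 5) (nat_lit 105) (nat_lit 5) (nat_lit 106) (nat_lit 5) (nat_lit 544) (nat_lit 445) (nat_lit 211)) (XT.lf (nat_lit 0) (nat_lit 3712723327) (nat_lit 152) (nat_lit 56756261178) (nat_lit 76) (nat_lit 29482941561) (nat_lit 101) (nat_lit 5)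 (nat_lit 103) (nat_lit 5) (nat_lit 102) (nat_lit 5) (nat_lit 545) (nat_lit 445) (nat_lit 210)))) (XT.nd (nat_lit 156) (nat_lit 152) (nat_lit 0) (XT.nd (nat_lit 78) (nat_lit 152) (nat_lit 0) (XT.lf (nat_lit 0) (nat_lit 30002361925) (nat_lit 152) (nat_lit 747387976) (nat_lit 76) (nat_lit 60981751618) (nat_lit 101) (nat_lit 5) (nat_lit 103) (nat_lit 5) (nat_lit 102) (nat_lit 5) (nat_lit 546) (nat_lit 445) (nat_lit 209)) (XT.lf (nat_lit 0) (nat_lit 57641394973) (nat_lit 228) (nat_lit 35480181423) (nat_lit 76) (nat_lit 426066696) (nat_lit 99) (nat_lit 5) (nat_lit 102) (nat_lit 5) (nat_lit 100) (nat_lit 4) (nat_lit 547) (nat_lit 445) (nat_lit 208))) (XT.nd (nat_lit 78) (nat_lit 76) (nat_lit 0) (XT.lf (nat_lit 0) (nat_lit 23392803642) (nat_lit 76) (nat_lit 63252047935) (nat_lit 152) (nat_lit 8757359773) (nat_lit 98) (nat_lit 5) (nat_lit 99) (nat_lit 5) (nat_lit 100) (nat_lit 4) (nat_lit 548) (nat_lit 445) (nat_lit 207))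 (XT.lf (nat_lit 0) (nat_lit 19191358800) (nat_lit 152) (nat_lit 12733732079) (nat_lit 76) (nat_lit 65370982945) (nat_lit 97) (nat_lit 5) (nat_lit 99) (nat_lit 5) (nat_lit 98) (nat_lit 5) (nat_lit 549) (nat_lit 445) (nat_lit 206))))) (XT.nd (nat_lit 312) (nat_lit 0) (nat_lit 152) (XT.nd (nat_lit 156) (nat_lit 0) (nat_lit 76) (XT.nd (nat_lit 78) (nat_lit 0) (nat_lit 0) (XT.lf (nat_lit 0) (nat_lit 1690378472) (nat_lit 1292) (nat_lit 3152157811) (nat_lit 1292) (nat_lit 3152157811) (nat_lit 327) (nat_lit 3) (nat_lit 344) (nat_lit 3) (nat_lit 344) (nat_lit 5) (nat_lit 446) (nat_lit 446) (nat_lit 308)) (XT.lf (nat_lit 76) (nat_lit 1691464874) (nat_lit 0) (nat_lit 2016863248) (nat_lit 1292) (nat_lit 12512583068) (nat_lit 328) (nat_lit 5) (nat_lit 327) (nat_lit 3) (nat_lit 344) (nat_lit 5) (nat_lit 447) (nat_lit 446) (nat_lit 307))) (XT.nd (nat_lit 78) (nat_lit 0) (nat_lit 0) (XT.lf (nat_lit 0) (nat_lit 4156378560) (nat_lit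 1216) (nat_lit 6463981142) (nat_lit 1292) (nat_lit 5835701085) (nat_lit 328) (nat_lit 5) (nat_lit 344) (nat_lit 5) (nat_lit 345) (nat_lit 5) (nat_lit 448) (nat_lit 446) (nat_lit 306)) (XT.lf (nat_lit 76) (nat_lit 1854129375) (nat_lit 0) (nat_lit 2791654507) (nat_lit 1292) (nat_lit 12051644044) (nat_lit 329) (nat_lit 5) (nat_lit 328) (nat_lit 5) (nat_lit 345) (nat_lit 5) (nat_lit 449) (nat_lit 446) (nat_lit 305)))) (XT.nd (nat_lit 156) (nat_lit 0) (nat_lit 76) (XT.nd (nat_lit 78) (nat_lit 0) (nat_lit 0) (XT.lf (nat_lit 0) (nat_lit 5256864562) (nat_lit 1216) (nat_lit 6446918501) (nat_lit 1292) (nat_lit 5239043663) (nat_lit 329) (nat_lit 5) (nat_lit 345) (nat_lit 5) (nat_lit 346) (nat_lit 5) (nat_lit 450) (nat_lit 446) (nat_lit 304)) (XT.lf (nat_lit 76) (nat_lit 2211224878) (nat_lit 0) (nat_lit 3714624835) (nat_lit 1292) (nat_lit 11268551045) (nat_lit 330) (nat_lit 5) (nat_lit 329) (nat_lit 5) (nat_lit 346) (nat_lit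 5) (nat_lit 451) (nat_lit 446) (nat_lit 303))) (XT.nd (nat_lit 78) (nat_lit 0) (nat_lit 0) (XT.lf (nat_lit 0) (nat_lit 6714971599) (nat_lit 1216) (nat_lit 6240227900) (nat_lit 1292) (nat_lit 4495320913) (nat_lit 330) (nat_lit 5) (nat_lit 346) (nat_lit 5) (nat_lit 347) (nat_lit 5) (nat_lit 452) (nat_lit 446) (nat_lit 302)) (XT.lf (nat_lit 76) (nat_lit 2776695824) (nat_lit 0) (nat_lit 4805733361) (nat_lit 1292) (nat_lit 10130255015) (nat_lit 331) (nat_lit 5) (nat_lit 330) (nat_lit 5) (nat_lit 347) (nat_lit 5) (nat_lit 453) (nat_lit 446) (nat_lit 301)))))) (XT.nd (nat_lit 624) (nat_lit 3040) (nat_lit 0) (XT.nd (nat_lit 312) (nat_lit 0) (nat_lit 152) (XT.nd (nat_lit 156) (nat_lit 0) (nat_lit 76) (XT.nd (nat_lit 78) (nat_lit 0) (nat_lit 0) (XT.lf (nat_lit 0) (nat_lit 8565463294) (nat_lit 1216) (nat_lit 5829841078) (nat_lit 1292) (nat_lit 3584722338) (nat_lit 331) (nat_lit 5) (nat_lit 347) (nat_lit 5) (nat_lit 348) (nat_lit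 5) (nat_lit 454) (nat_lit 446) (nat_lit 300)) (XT.lf (nat_lit 76) (nat_lit 3565713919) (nat_lit 0) (nat_lit 6085804368) (nat_lit 1292) (nat_lit 8601665695) (nat_lit 332) (nat_lit 5) (nat_lit 331) (nat_lit 5) (nat_lit 348) (nat_lit 5) (nat_lit 455) (nat_lit 446) (nat_lit 299))) (XT.nd (nat_lit 78) (nat_lit 0) (nat_lit 0) (XT.lf (nat_lit 0) (nat_lit 10845262941) (nat_lit 1216) (nat_lit 5200469300) (nat_lit 1292) (nat_lit 2486550861) (nat_lit 332) (nat_lit 5) (nat_lit 348) (nat_lit 5) (nat_lit 349) (nat_lit 5) (nat_lit 456) (nat_lit 446) (nat_lit 298)) (XT.lf (nat_lit 76) (nat_lit 4594733815) (nat_lit 0) (nat_lit 7576628779) (nat_lit 1292) (nat_lit 6645496682) (nat_lit 333) (nat_lit 5) (nat_lit 332) (nat_lit 5) (nat_lit 349) (nat_lit 5) (nat_lit 457) (nat_lit 446) (nat_lit 297)))) (XT.nd (nat_lit 156) (nat_lit 0) (nat_lit 0) (XT.nd (nat_lit 78) (nat_lit 0) (nat_lit 0) (XT.lf (nat_lit 0) (nat_lit 13593613778) (nat_lit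 1216) (nat_lit 4335546308) (nat_lit 1292) (nat_lit 1179121941) (nat_lit 333) (nat_lit 5) (nat_lit 349) (nat_lit 5) (nat_lit 350) (nat_lit 5) (nat_lit 458) (nat_lit 446) (nat_lit 296)) (XT.lf (nat_lit 76) (nat_lit 5881554015) (nat_lit 0) (nat_lit 9301068340) (nat_lit 1292) (nat_lit 4222102751) (nat_lit 334) (nat_lit 5) (nat_lit 333) (nat_lit 5) (nat_lit 350) (nat_lit 5) (nat_lit 459) (nat_lit 446) (nat_lit 295))) (XT.nd (nat_lit 78) (nat_lit 0) (nat_lit 76) (XT.lf (nat_lit 76) (nat_lit 16488268578) (nat_lit 0) (nat_lit 367511646) (nat_lit 1292) (nat_lit 2853187209) (nat_lit 334) (nat_lit 5) (nat_lit 333) (nat_lit 5) (nat_lit 350) (nat_lit 5) (nat_lit 460) (nat_lit 446) (nat_lit 294)) (XT.lf (nat_lit 76) (nat_lit 7445383164) (nat_lit 0) (nat_lit 11283162999) (nat_lit 1292) (nat_lit 1289308788) (nat_lit 335) (nat_lit 5) (nat_lit 334) (nat_lit 5) (nat_lit 351) (nat_lit 5) (nat_lit 461) (nat_lit 446) (nat_lit 293)))))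 (XT.nd (nat_lit 312) (nat_lit 1216) (nat_lit 0) (XT.nd (nat_lit 156) (nat_lit 760) (nat_lit 0) (XT.nd (nat_lit 78) (nat_lit 0) (nat_lit 76) (XT.lf (nat_lit 0) (nat_lit 344703243) (nat_lit 1292) (nat_lit 1850530263) (nat_lit 1368) (nat_lit 18139798462) (nat_lit 317) (nat_lit 5) (nat_lit 334) (nat_lit 5) (nat_lit 335) (nat_lit 5) (nat_lit 462) (nat_lit 446) (nat_lit 292)) (XT.lf (nat_lit 0) (nat_lit 2154883880) (nat_lit 1292) (nat_lit 11371597984) (nat_lit 76) (nat_lit 7130267898) (nat_lit 318) (nat_lit 5) (nat_lit 335) (nat_lit 5) (nat_lit 319) (nat_lit 5) (nat_lit 463) (nat_lit 446) (nat_lit 291))) (XT.nd (nat_lit 78) (nat_lit 836) (nat_lit 0) (XT.lf (nat_lit 0) (nat_lit 4053339785) (nat_lit 1292) (nat_lit 222535089) (nat_lit 76) (nat_lit 16711225405) (nat_lit 318) (nat_lit 5) (nat_lit 335) (nat_lit 5) (nat_lit 319) (nat_lit 5) (nat_lit 464) (nat_lit 446) (nat_lit 290)) (XT.lf (nat_lit 0) (nat_lit 6164238941) (nat_lit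 912) (nat_lit 9896553297) (nat_lit 76) (nat_lit 5261904661) (nat_lit 307) (nat_lit 5) (nat_lit 319) (nat_lit 5) (nat_lit 308) (nat_lit 5) (nat_lit 465) (nat_lit 446) (nat_lit 289)))) (XT.nd (nat_lit 156) (nat_lit 608) (nat_lit 0) (XT.nd (nat_lit 78) (nat_lit 0) (nat_lit 0) (XT.lf (nat_lit 0) (nat_lit 1746408589) (nat_lit 608) (nat_lit 6647144652) (nat_lit 684) (nat_lit 13273155801) (nat_lit 299) (nat_lit 5) (nat_lit 307) (nat_lit 5) (nat_lit 308) (nat_lit 5) (nat_lit 466) (nat_lit 446) (nat_lit 288)) (XT.lf (nat_lit 0) (nat_lit 10813807416) (nat_lit 684) (nat_lit 8112806505) (nat_lit 76) (nat_lit 3090706073) (nat_lit 299) (nat_lit 5) (nat_lit 308) (nat_lit 5) (nat_lit 300) (nat_lit 5) (nat_lit 467) (nat_lit 446) (nat_lit 287))) (XT.nd (nat_lit 78) (nat_lit 0) (nat_lit 0) (XT.lf (nat_lit 0) (nat_lit 4056434668) (nat_lit 608) (nat_lit 9349047772) (nat_lit 684) (nat_lit 8970002692) (nat_lit 291) (nat_lit 5) (nat_lit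 299) (nat_lit 5) (nat_lit 300) (nat_lit 5) (nat_lit 468) (nat_lit 446) (nat_lit 286)) (XT.lf (nat_lit 0) (nat_lit 16156728100) (nat_lit 684) (nat_lit 5996590010) (nat_lit 76) (nat_lit 588622746) (nat_lit 291) (nat_lit 5) (nat_lit 300) (nat_lit 5) (nat_lit 292) (nat_lit 5) (nat_lit 469) (nat_lit 446) (nat_lit 285))))))) (XT.nd (nat_lit 1248) (nat_lit 3724) (nat_lit 0) (XT.nd (nat_lit 624) (nat_lit 1900) (nat_lit 0) (XT.nd (nat_lit 312) (nat_lit 1520) (nat_lit 0) (XT.nd (nat_lit 156) (nat_lit 684) (nat_lit 0) (XT.nd (nat_lit 78) (nat_lit 0) (nat_lit 0) (XT.lf (nat_lit 0) (nat_lit 6728509505) (nat_lit 532) (nat_lit 12413543259) (nat_lit 608) (nat_lit 3972791477) (nat_lit 284) (nat_lit 5) (nat_lit 291) (nat_lit 5) (nat_lit 292) (nat_lit 5) (nat_lit 470) (nat_lit 446) (nat_lit 284)) (XT.lf (nat_lit 0) (nat_lit 19952575385) (nat_lit 532) (nat_lit 2319325014) (nat_lit 608) (nat_lit 1225385662) (nat_lit 284) (nat_lit 5)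 (nat_lit 291) (nat_lit 5) (nat_lit 292) (nat_lit 5) (nat_lit 471) (nat_lit 446) (nat_lit 283))) (XT.nd (nat_lit 78) (nat_lit 0) (nat_lit 0) (XT.lf (nat_lit 0) (nat_lit 1741105522) (nat_lit 684) (nat_lit 14113438493) (nat_lit 76) (nat_lit 8031155504) (nat_lit 275) (nat_lit 5) (nat_lit 284) (nat_lit 5) (nat_lit 276) (nat_lit 5) (nat_lit 472) (nat_lit 446) (nat_lit 282)) (XT.lf (nat_lit 0) (nat_lit 4825697056) (nat_lit 684) (nat_lit 764494847) (nat_lit 76) (nat_lit 18693597673) (nat_lit 275) (nat_lit 5) (nat_lit 284) (nat_lit 5) (nat_lit 276) (nat_lit 5) (nat_lit 473) (nat_lit 446) (nat_lit 281)))) (XT.nd (nat_lit 156) (nat_lit 456) (nat_lit 0) (XT.nd (nat_lit 78) (nat_lit 532) (nat_lit 0) (XT.lf (nat_lit 0) (nat_lit 8174000535) (nat_lit 608) (nat_lit 11501667842) (nat_lit 76) (nat_lit 5013018936) (nat_lit 268) (nat_lit 5) (nat_lit 276) (nat_lit 5) (nat_lit 269) (nat_lit 5) (nat_lit 474) (nat_lit 446) (nat_lit 280))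 (XT.lf (nat_lit 0) (nat_lit 2454027133) (nat_lit 532) (nat_lit 9250333916) (nat_lit 608) (nat_lit 13398922895) (nat_lit 261) (nat_lit 5) (nat_lit 268) (nat_lit 5) (nat_lit 269) (nat_lit 5) (nat_lit 475) (nat_lit 446) (nat_lit 279))) (XT.nd (nat_lit 78) (nat_lit 456) (nat_lit 0) (XT.lf (nat_lit 0) (nat_lit 15467190883) (nat_lit 608) (nat_lit 8483894260) (nat_lit 76) (nat_lit 1575436768) (nat_lit 261) (nat_lit 5) (nat_lit 269) (nat_lit 5) (nat_lit 262) (nat_lit 5) (nat_lit 476) (nat_lit 446) (nat_lit 278)) (XT.lf (nat_lit 0) (nat_lit 6128830682) (nat_lit 456) (nat_lit 13359686176) (nat_lit 532) (nat_lit 6469572011) (nat_lit 255) (nat_lit 5) (nat_lit 261) (nat_lit 5) (nat_lit 262) (nat_lit 5) (nat_lit 477) (nat_lit 446) (nat_lit 277))))) (XT.nd (nat_lit 312) (nat_lit 912) (nat_lit 0) (XT.nd (nat_lit 156) (nat_lit 456) (nat_lit 0) (XT.nd (nat_lit 78) (nat_lit 532) (nat_lit 0) (XT.lf (nat_lit 0) (nat_lit 21348297274)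 (nat_lit 456) (nat_lit 2363054817) (nat_lit 532) (nat_lit 2688824843) (nat_lit 255) (nat_lit 5) (nat_lit 261) (nat_lit 5) (nat_lit 262) (nat_lit 5) (nat_lit 478) (nat_lit 446) (nat_lit 276)) (XT.lf (nat_lit 0) (nat_lit 1363898463) (nat_lit 532) (nat_lit 16585801063) (nat_lit 76) (nat_lit 8900018459) (nat_lit 248) (nat_lit 5) (nat_lit 255) (nat_lit 5) (nat_lit 249) (nat_lit 5) (nat_lit 479) (nat_lit 446) (nat_lit 275))) (XT.nd (nat_lit 78) (nat_lit 456) (nat_lit 0) (XT.lf (nat_lit 0) (nat_lit 5554445962) (nat_lit 532) (nat_lit 1224553673) (nat_lit 76) (nat_lit 20530838584) (nat_lit 248) (nat_lit 5) (nat_lit 255) (nat_lit 5) (nat_lit 249) (nat_lit 5) (nat_lit 480) (nat_lit 446) (nat_lit 274)) (XT.lf (nat_lit 0) (nat_lit 10056119182) (nat_lit 532) (nat_lit 12943906098) (nat_lit 76) (nat_lit 4778174663) (nat_lit 242) (nat_lit 5) (nat_lit 249) (nat_lit 5) (nat_lit 243) (nat_lit 5) (nat_lit 481) (nat_lit 446) (nat_lit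 273)))) (XT.nd (nat_lit 156) (nat_lit 456) (nat_lit 0) (XT.nd (nat_lit 78) (nat_lit 0) (nat_lit 0) (XT.lf (nat_lit 0) (nat_lit 3128096679) (nat_lit 456) (nat_lit 11669996868) (nat_lit 532) (nat_lit 13459361600) (nat_lit 236) (nat_lit 5) (nat_lit 242) (nat_lit 5) (nat_lit 243) (nat_lit 5) (nat_lit 482) (nat_lit 446) (nat_lit 272)) (XT.lf (nat_lit 0) (nat_lit 19809970198) (nat_lit 532) (nat_lit 8806399941) (nat_lit 76) (nat_lit 130888729) (nat_lit 236) (nat_lit 5) (nat_lit 243) (nat_lit 5) (nat_lit 237) (nat_lit 5) (nat_lit 483) (nat_lit 446) (nat_lit 271))) (XT.nd (nat_lit 78) (nat_lit 76) (nat_lit 0) (XT.lf (nat_lit 0) (nat_lit 8042260946) (nat_lit 380) (nat_lit 17118562296) (nat_lit 456) (nat_lit 4085275004) (nat_lit 231) (nat_lit 5) (nat_lit 236) (nat_lit 5) (nat_lit 237) (nat_lit 5) (nat_lit 484) (nat_lit 446) (nat_lit 270)) (XT.lf (nat_lit 0) (nat_lit 980103873) (nat_lit 456) (nat_lit 4195387199) (nat_lit 76)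 (nat_lit 24581580576) (nat_lit 230) (nat_lit 5) (nat_lit 236) (nat_lit 5) (nat_lit 231) (nat_lit 5) (nat_lit 485) (nat_lit 446) (nat_lit 269)))))) (XT.nd (nat_lit 624) (nat_lit 1672) (nat_lit 0) (XT.nd (nat_lit 312) (nat_lit 836) (nat_lit 0) (XT.nd (nat_lit 156) (nat_lit 380) (nat_lit 0) (XT.nd (nat_lit 78) (nat_lit 380) (nat_lit 0) (XT.lf (nat_lit 0) (nat_lit 6311604735) (nat_lit 532) (nat_lit 16806684550) (nat_lit 76) (nat_lit 7157983535) (nat_lit 224) (nat_lit 5) (nat_lit 231) (nat_lit 5) (nat_lit 225) (nat_lit 5) (nat_lit 486) (nat_lit 446) (nat_lit 268)) (XT.lf (nat_lit 0) (nat_lit 901355538) (nat_lit 380) (nat_lit 11000365557) (nat_lit 456) (nat_lit 18906368950) (nat_lit 219) (nat_lit 5) (nat_lit 224) (nat_lit 5) (nat_lit 225) (nat_lit 5) (nat_lit 487) (nat_lit 446) (nat_lit 267))) (XT.nd (nat_lit 78) (nat_lit 380) (nat_lit 0) (XT.lf (nat_lit 0) (nat_lit 17841206125) (nat_lit 456) (nat_lit 11886891215) (nat_lit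 76) (nat_lit 1622314619) (nat_lit 219) (nat_lit 5) (nat_lit 225) (nat_lit 5) (nat_lit 220) (nat_lit 5) (nat_lit 488) (nat_lit 446) (nat_lit 266)) (XT.lf (nat_lit 0) (nat_lit 6689973779) (nat_lit 380) (nat_lit 17438273175) (nat_lit 456) (nat_lit 7775675564) (nat_lit 214) (nat_lit 5) (nat_lit 219) (nat_lit 5) (nat_lit 220) (nat_lit 5) (nat_lit 489) (nat_lit 446) (nat_lit 265)))) (XT.nd (nat_lit 156) (nat_lit 380) (nat_lit 0) (XT.nd (nat_lit 78) (nat_lit 456) (nat_lit 0) (XT.lf (nat_lit 0) (nat_lit 26062660794) (nat_lit 380) (nat_lit 4657483762) (nat_lit 456) (nat_lit 1750406591) (nat_lit 214) (nat_lit 5) (nat_lit 219) (nat_lit 5) (nat_lit 220) (nat_lit 5) (nat_lit 490) (nat_lit 446) (nat_lit 264)) (XT.lf (nat_lit 0) (nat_lit 4575008933) (nat_lit 456) (nat_lit 19961178498) (nat_lit 76) (nat_lit 8510516403) (nat_lit 208) (nat_lit 5) (nat_lit 214) (nat_lit 5) (nat_lit 209) (nat_lit 5) (nat_lit 491) (nat_lit 446) (nat_lit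 263))) (XT.nd (nat_lit 78) (nat_lit 380) (nat_lit 0) (XT.lf (nat_lit 0) (nat_lit 11162798727) (nat_lit 456) (nat_lit 412310322) (nat_lit 76) (nat_lit 22061278443) (nat_lit 208) (nat_lit 5) (nat_lit 214) (nat_lit 5) (nat_lit 209) (nat_lit 5) (nat_lit 492) (nat_lit 446) (nat_lit 262)) (XT.lf (nat_lit 0) (nat_lit 18156935904) (nat_lit 456) (nat_lit 14146553368) (nat_lit 76) (nat_lit 1934011083) (nat_lit 203) (nat_lit 5) (nat_lit 209) (nat_lit 5) (nat_lit 204) (nat_lit 5) (nat_lit 493) (nat_lit 446) (nat_lit 261))))) (XT.nd (nat_lit 312) (nat_lit 988) (nat_lit 0) (XT.nd (nat_lit 156) (nat_lit 380) (nat_lit 0) (XT.nd (nat_lit 78) (nat_lit 0) (nat_lit 0) (XT.lf (nat_lit 0) (nat_lit 6365787610) (nat_lit 304) (nat_lit 19171592527) (nat_lit 380) (nat_lit 9313972083) (nat_lit 199) (nat_lit 5) (nat_lit 203) (nat_lit 5) (nat_lit 204) (nat_lit 5) (nat_lit 494) (nat_lit 446) (nat_lit 260)) (XT.lf (nat_lit 0) (nat_lit 27778520642)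 (nat_lit 304) (nat_lit 5500105536) (nat_lit 380) (nat_lit 2200811909) (nat_lit 199) (nat_lit 5) (nat_lit 203) (nat_lit 5) (nat_lit 204) (nat_lit 5) (nat_lit 495) (nat_lit 446) (nat_lit 259))) (XT.nd (nat_lit 78) (nat_lit 0) (nat_lit 0) (XT.lf (nat_lit 0) (nat_lit 5240468499) (nat_lit 380) (nat_lit 22280435076) (nat_lit 76) (nat_lit 8597542483) (nat_lit 194) (nat_lit 5) (nat_lit 199) (nat_lit 5) (nat_lit 195) (nat_lit 5) (nat_lit 496) (nat_lit 446) (nat_lit 258)) (XT.lf (nat_lit 0) (nat_lit 12990385260) (nat_lit 380) (nat_lit 675269139) (nat_lit 76) (nat_lit 23106427293) (nat_lit 194) (nat_lit 5) (nat_lit 199) (nat_lit 5) (nat_lit 195) (nat_lit 5) (nat_lit 497) (nat_lit 446) (nat_lit 257)))) (XT.nd (nat_lit 156) (nat_lit 380) (nat_lit 0) (XT.nd (nat_lit 78) (nat_lit 304) (nat_lit 0) (XT.lf (nat_lit 0) (nat_lit 21188938908) (nat_lit 380) (nat_lit 15444360729) (nat_lit 76) (nat_lit 805542667) (nat_lit 190) (nat_lit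 5) (nat_lit 195) (nat_lit 5) (nat_lit 191) (nat_lit 5) (nat_lit 498) (nat_lit 446) (nat_lit 256)) (XT.lf (nat_lit 0) (nat_lit 7233730207) (nat_lit 304) (nat_lit 22608217946) (nat_lit 380) (nat_lit 8277402698) (nat_lit 186) (nat_lit 5) (nat_lit 190) (nat_lit 5) (nat_lit 191) (nat_lit 5) (nat_lit 499) (nat_lit 446) (nat_lit 255))) (XT.nd (nat_lit 78) (nat_lit 304) (nat_lit 0) (XT.lf (nat_lit 0) (nat_lit 89848044) (nat_lit 380) (nat_lit 7912587720) (nat_lit 76) (nat_lit 30813229153) (nat_lit 185) (nat_lit 5) (nat_lit 190) (nat_lit 5) (nat_lit 186) (nat_lit 5) (nat_lit 500) (nat_lit 446) (nat_lit 254)) (XT.lf (nat_lit 0) (nat_lit 8762195437) (nat_lit 380) (nat_lit 23621191455) (nat_lit 76) (nat_lit 7140409556) (nat_lit 181) (nat_lit 5) (nat_lit 186) (nat_lit 5) (nat_lit 182) (nat_lit 5) (nat_lit 501) (nat_lit 446) (nat_lit 253))))))))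
noncomputable def xc190 : XT := (XT.nd (nat_lit 2418) (nat_lit 1672) (nat_lit 0) (XT.nd (nat_lit 1170) (nat_lit 2128) (nat_lit 0) (XT.nd (nat_lit 546) (nat_lit 1292) (nat_lit 0) (XT.nd (nat_lit 234) (nat_lit 608) (nat_lit 0) (XT.nd (nat_lit 78) (nat_lit 228) (nat_lit 0) (XT.lf (nat_lit 0) (nat_lit 264081310) (nat_lit 304) (nat_lit 17590010109) (nat_lit 380) (nat_lit 22394299238) (nat_lit 177) (nat_lit 5) (nat_lit 181) (nat_lit 5) (nat_lit 182) (nat_lit 5) (nat_lit 502) (nat_lit 446) (nat_lit 252)) (XT.nd (nat_lit 78) (nat_lit 228) (nat_lit 0) (XT.lf (nat_lit 0) (nat_lit 25345442247) (nat_lit 304) (nat_lit 2108789502) (nat_lit 380) (nat_lit 13533426395) (nat_lit 177) (nat_lit 5) (nat_lit 181) (nat_lit 5) (nat_lit 182) (nat_lit 5) (nat_lit 503) (nat_lit 446) (nat_lit 251)) (XT.lf (nat_lit 0) (nat_lit 9477452922) (nat_lit 228) (nat_lit 28086067866) (nat_lit 304) (nat_lit 4178948606) (nat_lit 174) (nat_lit 5) (nat_lit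 177) (nat_lit 5) (nat_lit 178) (nat_lit 5) (nat_lit 504) (nat_lit 446) (nat_lit 250)))) (XT.nd (nat_lit 156) (nat_lit 228) (nat_lit 0) (XT.nd (nat_lit 78) (nat_lit 304) (nat_lit 0) (XT.lf (nat_lit 0) (nat_lit 5527139265) (nat_lit 304) (nat_lit 6923347229) (nat_lit 76) (nat_lit 30062541761) (nat_lit 173) (nat_lit 5) (nat_lit 177) (nat_lit 5) (nat_lit 174) (nat_lit 5) (nat_lit 505) (nat_lit 446) (nat_lit 249)) (XT.lf (nat_lit 0) (nat_lit 15662502201) (nat_lit 380) (nat_lit 23823820974) (nat_lit 76) (nat_lit 3812476947) (nat_lit 169) (nat_lit 5) (nat_lit 174) (nat_lit 5) (nat_lit 170) (nat_lit 5) (nat_lit 506) (nat_lit 446) (nat_lit 248))) (XT.nd (nat_lit 78) (nat_lit 0) (nat_lit 0) (XT.lf (nat_lit 0) (nat_lit 2623843606) (nat_lit 228) (nat_lit 23694338519) (nat_lit 304) (nat_lit 17783475403) (nat_lit 166) (nat_lit 5) (nat_lit 169) (nat_lit 5) (nat_lit 170) (nat_lit 5) (nat_lit 507) (nat_lit 446) (nat_lit 247)) (XT.lf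 (nat_lit 0) (nat_lit 30348825373) (nat_lit 228) (nat_lit 7182478235) (nat_lit 304) (nat_lit 7390163976) (nat_lit 166) (nat_lit 5) (nat_lit 169) (nat_lit 5) (nat_lit 170) (nat_lit 5) (nat_lit 508) (nat_lit 446) (nat_lit 246))))) (XT.nd (nat_lit 312) (nat_lit 532) (nat_lit 0) (XT.nd (nat_lit 156) (nat_lit 456) (nat_lit 0) (XT.nd (nat_lit 78) (nat_lit 0) (nat_lit 0) (XT.lf (nat_lit 0) (nat_lit 3471989950) (nat_lit 304) (nat_lit 32492956462) (nat_lit 76) (nat_lit 9793317738) (nat_lit 162) (nat_lit 5) (nat_lit 166) (nat_lit 5) (nat_lit 163) (nat_lit 5) (nat_lit 509) (nat_lit 446) (nat_lit 245)) (XT.lf (nat_lit 0) (nat_lit 14728473460) (nat_lit 304) (nat_lit 4528793969) (nat_lit 76) (nat_lit 27354192147) (nat_lit 162) (nat_lit 5) (nat_lit 166) (nat_lit 5) (nat_lit 163) (nat_lit 5) (nat_lit 510) (nat_lit 446) (nat_lit 244))) (XT.nd (nat_lit 78) (nat_lit 228) (nat_lit 0) (XT.lf (nat_lit 0) (nat_lit 24753018406) (nat_lit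 228) (nat_lit 1804927819) (nat_lit 304) (nat_lit 20925245850) (nat_lit 159) (nat_lit 5) (nat_lit 162) (nat_lit 5) (nat_lit 163) (nat_lit 5) (nat_lit 511) (nat_lit 446) (nat_lit 243)) (XT.lf (nat_lit 0) (nat_lit 6594892346) (nat_lit 228) (nat_lit 32409809064) (nat_lit 304) (nat_lit 9368503248) (nat_lit 156) (nat_lit 5) (nat_lit 159) (nat_lit 5) (nat_lit 160) (nat_lit 5) (nat_lit 512) (nat_lit 446) (nat_lit 242)))) (XT.nd (nat_lit 156) (nat_lit 228) (nat_lit 0) (XT.nd (nat_lit 78) (nat_lit 228) (nat_lit 0) (XT.lf (nat_lit 0) (nat_lit 2732532820) (nat_lit 304) (nat_lit 12066211451) (nat_lit 76) (nat_lit 34483030666) (nat_lit 155) (nat_lit 5) (nat_lit 159) (nat_lit 5) (nat_lit 156) (nat_lit 5) (nat_lit 513) (nat_lit 446) (nat_lit 241)) (XT.lf (nat_lit 0) (nat_lit 15221354243) (nat_lit 304) (nat_lit 31436983834) (nat_lit 76) (nat_lit 3550090015) (nat_lit 152) (nat_lit 5) (nat_lit 156) (nat_lit 5) (nat_lit 153) (nat_lit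 5) (nat_lit 514) (nat_lit 446) (nat_lit 240))) (XT.nd (nat_lit 78) (nat_lit 228) (nat_lit 0) (XT.lf (nat_lit 0) (nat_lit 28351892015) (nat_lit 304) (nat_lit 529596926) (nat_lit 76) (nat_lit 22273380397) (nat_lit 152) (nat_lit 5) (nat_lit 156) (nat_lit 5) (nat_lit 153) (nat_lit 5) (nat_lit 515) (nat_lit 446) (nat_lit 239)) (XT.lf (nat_lit 0) (nat_lit 31923866079) (nat_lit 228) (nat_lit 10256903051) (nat_lit 304) (nat_lit 9939802044) (nat_lit 149) (nat_lit 5) (nat_lit 152) (nat_lit 5) (nat_lit 153) (nat_lit 5) (nat_lit 516) (nat_lit 446) (nat_lit 238)))))) (XT.nd (nat_lit 624) (nat_lit 1064) (nat_lit 0) (XT.nd (nat_lit 312) (nat_lit 456) (nat_lit 0) (XT.nd (nat_lit 156) (nat_lit 380) (nat_lit 0) (XT.nd (nat_lit 78) (nat_lit 0) (nat_lit 0) (XT.lf (nat_lit 0) (nat_lit 3454710489) (nat_lit 228) (nat_lit 40744197548) (nat_lit 76) (nat_lit 8909081216) (nat_lit 146) (nat_lit 5) (nat_lit 149) (nat_lit 5) (nat_lit 147) (nat_lit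 5) (nat_lit 517) (nat_lit 446) (nat_lit 237)) (XT.lf (nat_lit 0) (nat_lit 17356374063) (nat_lit 228) (nat_lit 8009901779) (nat_lit 76) (nat_lit 28746648784) (nat_lit 146) (nat_lit 5) (nat_lit 149) (nat_lit 5) (nat_lit 147) (nat_lit 5) (nat_lit 518) (nat_lit 446) (nat_lit 236))) (XT.nd (nat_lit 78) (nat_lit 152) (nat_lit 0) (XT.lf (nat_lit 0) (nat_lit 26213951746) (nat_lit 228) (nat_lit 5710766893) (nat_lit 304) (nat_lit 23215800531) (nat_lit 143) (nat_lit 5) (nat_lit 146) (nat_lit 5) (nat_lit 147) (nat_lit 5) (nat_lit 519) (nat_lit 446) (nat_lit 235)) (XT.lf (nat_lit 0) (nat_lit 5392907072) (nat_lit 152) (nat_lit 41808106443) (nat_lit 228) (nat_lit 8989801076) (nat_lit 141) (nat_lit 5) (nat_lit 143) (nat_lit 5) (nat_lit 144) (nat_lit 5) (nat_lit 520) (nat_lit 446) (nat_lit 234)))) (XT.nd (nat_lit 156) (nat_lit 152) (nat_lit 0) (XT.nd (nat_lit 78) (nat_lit 228) (nat_lit 0) (XT.lf (nat_lit 0) (nat_lit 5901677508)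 (nat_lit 228) (nat_lit 16046815698) (nat_lit 76) (nat_lit 35312016500) (nat_lit 140) (nat_lit 5) (nat_lit 143) (nat_lit 5) (nat_lit 141) (nat_lit 5) (nat_lit 521) (nat_lit 446) (nat_lit 233)) (XT.lf (nat_lit 0) (nat_lit 20045047563) (nat_lit 228) (nat_lit 1204588256) (nat_lit 304) (nat_lit 37104277009) (nat_lit 137) (nat_lit 5) (nat_lit 140) (nat_lit 5) (nat_lit 141) (nat_lit 5) (nat_lit 522) (nat_lit 446) (nat_lit 232))) (XT.nd (nat_lit 78) (nat_lit 152) (nat_lit 0) (XT.lf (nat_lit 0) (nat_lit 37413233887) (nat_lit 304) (nat_lit 2125974008) (nat_lit 76) (nat_lit 19930254156) (nat_lit 137) (nat_lit 5) (nat_lit 141) (nat_lit 5) (nat_lit 138) (nat_lit 5) (nat_lit 523) (nat_lit 446) (nat_lit 231)) (XT.lf (nat_lit 0) (nat_lit 35825763574) (nat_lit 152) (nat_lit 18590096951) (nat_lit 228) (nat_lit 6191993640) (nat_lit 135) (nat_lit 5) (nat_lit 137) (nat_lit 5) (nat_lit 138) (nat_lit 5) (nat_lit 524) (nat_lit 446) (nat_lit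 230))))) (XT.nd (nat_lit 312) (nat_lit 456) (nat_lit 0) (XT.nd (nat_lit 156) (nat_lit 304) (nat_lit 0) (XT.nd (nat_lit 78) (nat_lit 0) (nat_lit 0) (XT.lf (nat_lit 0) (nat_lit 10129012816) (nat_lit 304) (nat_lit 48465600761) (nat_lit 76) (nat_lit 3177491820) (nat_lit 131) (nat_lit 5) (nat_lit 135) (nat_lit 5) (nat_lit 132) (nat_lit 5) (nat_lit 525) (nat_lit 446) (nat_lit 229)) (XT.lf (nat_lit 0) (nat_lit 27249817676) (nat_lit 304) (nat_lit 10169676590) (nat_lit 76) (nat_lit 25536912092) (nat_lit 131) (nat_lit 5) (nat_lit 135) (nat_lit 5) (nat_lit 132) (nat_lit 5) (nat_lit 526) (nat_lit 446) (nat_lit 228))) (XT.nd (nat_lit 78) (nat_lit 152) (nat_lit 0) (XT.lf (nat_lit 0) (nat_lit 29853973905) (nat_lit 152) (nat_lit 15315143100) (nat_lit 228) (nat_lit 18998573263) (nat_lit 129) (nat_lit 5) (nat_lit 131) (nat_lit 5) (nat_lit 132) (nat_lit 5) (nat_lit 527) (nat_lit 446) (nat_lit 227)) (XT.lf (nat_lit 0) (nat_lit 5913592070)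 (nat_lit 152) (nat_lit 57942501620) (nat_lit 228) (nat_lit 1552316085) (nat_lit 127) (nat_lit 5) (nat_lit 129) (nat_lit 5) (nat_lit 130) (nat_lit 5) (nat_lit 528) (nat_lit 446) (nat_lit 226)))) (XT.nd (nat_lit 156) (nat_lit 228) (nat_lit 0) (XT.nd (nat_lit 78) (nat_lit 152) (nat_lit 0) (XT.lf (nat_lit 0) (nat_lit 16596445999) (nat_lit 228) (nat_lit 18941443475) (nat_lit 76) (nat_lit 31128742668) (nat_lit 126) (nat_lit 5) (nat_lit 129) (nat_lit 5) (nat_lit 127) (nat_lit 5) (nat_lit 529) (nat_lit 446) (nat_lit 225)) (XT.lf (nat_lit 0) (nat_lit 23263499954) (nat_lit 152) (nat_lit 12216566172) (nat_lit 228) (nat_lit 32475426140) (nat_lit 124) (nat_lit 5) (nat_lit 126) (nat_lit 5) (nat_lit 127) (nat_lit 5) (nat_lit 530) (nat_lit 446) (nat_lit 224))) (XT.nd (nat_lit 78) (nat_lit 228) (nat_lit 0) (XT.lf (nat_lit 0) (nat_lit 55234812820) (nat_lit 228) (nat_lit 2273398924) (nat_lit 76) (nat_lit 11765667938) (nat_lit 124)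 (nat_lit 5) (nat_lit 127) (nat_lit 5) (nat_lit 125) (nat_lit 5) (nat_lit 531) (nat_lit 446) (nat_lit 223)) (XT.lf (nat_lit 0) (nat_lit 5382802400) (nat_lit 228) (nat_lit 28553784126) (nat_lit 76) (nat_lit 36677934067) (nat_lit 121) (nat_lit 5) (nat_lit 124) (nat_lit 5) (nat_lit 122) (nat_lit 5) (nat_lit 532) (nat_lit 446) (nat_lit 222))))))) (XT.nd (nat_lit 55770) (nat_lit 0) (nat_lit 17328) (XT.nd (nat_lit 624) (nat_lit 760) (nat_lit 0) (XT.nd (nat_lit 312) (nat_lit 380) (nat_lit 0) (XT.nd (nat_lit 156) (nat_lit 380) (nat_lit 0) (XT.nd (nat_lit 78) (nat_lit 0) (nat_lit 0) (XT.lf (nat_lit 0) (nat_lit 15945201190) (nat_lit 152) (nat_lit 9334459217) (nat_lit 228) (nat_lit 46706315207) (nat_lit 119) (nat_lit 5) (nat_lit 121) (nat_lit 5) (nat_lit 122) (nat_lit 5) (nat_lit 533) (nat_lit 446) (nat_lit 221)) (XT.lf (nat_lit 0) (nat_lit 46216526315) (nat_lit 228) (nat_lit 11185689163) (nat_lit 76) (nat_lit 15983065767)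 (nat_lit 119) (nat_lit 5) (nat_lit 122) (nat_lit 5) (nat_lit 120) (nat_lit 5) (nat_lit 534) (nat_lit 446) (nat_lit 220))) (XT.nd (nat_lit 78) (nat_lit 228) (nat_lit 0) (XT.lf (nat_lit 0) (nat_lit 35614157760) (nat_lit 152) (nat_lit 32600215818) (nat_lit 228) (nat_lit 6599206228) (nat_lit 117) (nat_lit 5) (nat_lit 119) (nat_lit 5) (nat_lit 120) (nat_lit 5) (nat_lit 535) (nat_lit 446) (nat_lit 219)) (XT.lf (nat_lit 0) (nat_lit 7772856901) (nat_lit 152) (nat_lit 6716821886) (nat_lit 228) (nat_lit 61785234767) (nat_lit 114) (nat_lit 5) (nat_lit 116) (nat_lit 5) (nat_lit 117) (nat_lit 5) (nat_lit 536) (nat_lit 446) (nat_lit 218)))) (XT.nd (nat_lit 156) (nat_lit 228) (nat_lit 0) (XT.nd (nat_lit 78) (nat_lit 152) (nat_lit 0) (XT.lf (nat_lit 0) (nat_lit 36668175618) (nat_lit 228) (nat_lit 21074763549) (nat_lit 76) (nat_lit 20017500525) (nat_lit 114) (nat_lit 5) (nat_lit 117) (nat_lit 5) (nat_lit 115) (nat_lit 5) (nat_lit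 537) (nat_lit 446) (nat_lit 217)) (XT.lf (nat_lit 0) (nat_lit 28256896848) (nat_lit 152) (nat_lit 31591432254) (nat_lit 228) (nat_lit 19432113479) (nat_lit 112) (nat_lit 5) (nat_lit 114) (nat_lit 5) (nat_lit 115) (nat_lit 5) (nat_lit 538) (nat_lit 446) (nat_lit 216))) (XT.nd (nat_lit 78) (nat_lit 152) (nat_lit 0) (XT.lf (nat_lit 0) (nat_lit 3034784866) (nat_lit 228) (nat_lit 1372258368) (nat_lit 76) (nat_lit 76431779426) (nat_lit 111) (nat_lit 5) (nat_lit 114) (nat_lit 5) (nat_lit 112) (nat_lit 5) (nat_lit 539) (nat_lit 446) (nat_lit 215)) (XT.lf (nat_lit 0) (nat_lit 26502857253) (nat_lit 228) (nat_lit 32097626212) (nat_lit 76) (nat_lit 23816166782) (nat_lit 109) (nat_lit 5) (nat_lit 112) (nat_lit 5) (nat_lit 110) (nat_lit 5) (nat_lit 540) (nat_lit 446) (nat_lit 214))))) (XT.nd (nat_lit 312) (nat_lit 304) (nat_lit 0) (XT.nd (nat_lit 156) (nat_lit 304) (nat_lit 0) (XT.nd (nat_lit 78) (nat_lit 0) (nat_lit 0) (XT.lf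 (nat_lit 0) (nat_lit 19888855181) (nat_lit 152) (nat_lit 31033167780) (nat_lit 228) (nat_lit 33112378183) (nat_lit 107) (nat_lit 5) (nat_lit 109) (nat_lit 5) (nat_lit 110) (nat_lit 5) (nat_lit 541) (nat_lit 446) (nat_lit 213)) (XT.lf (nat_lit 0) (nat_lit 74089678149) (nat_lit 152) (nat_lit 2306467794) (nat_lit 228) (nat_lit 9294867174) (nat_lit 107) (nat_lit 5) (nat_lit 109) (nat_lit 5) (nat_lit 110) (nat_lit 5) (nat_lit 542) (nat_lit 446) (nat_lit 212))) (XT.nd (nat_lit 78) (nat_lit 152) (nat_lit 0) (XT.lf (nat_lit 0) (nat_lit 15621318760) (nat_lit 152) (nat_lit 44435511461) (nat_lit 76) (nat_lit 27315654726) (nat_lit 105) (nat_lit 5) (nat_lit 107) (nat_lit 5) (nat_lit 106) (nat_lit 5) (nat_lit 543) (nat_lit 446) (nat_lit 211)) (XT.lf (nat_lit 0) (nat_lit 10330757869) (nat_lit 152) (nat_lit 31006166187) (nat_lit 228) (nat_lit 47757553496) (nat_lit 103) (nat_lit 5) (nat_lit 105) (nat_lit 5) (nat_lit 106) (nat_lit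 5) (nat_lit 544) (nat_lit 446) (nat_lit 210)))) (XT.nd (nat_lit 156) (nat_lit 152) (nat_lit 0) (XT.nd (nat_lit 78) (nat_lit 152) (nat_lit 0) (XT.lf (nat_lit 0) (nat_lit 67647762171) (nat_lit 152) (nat_lit 623265153) (nat_lit 228) (nat_lit 22583691735) (nat_lit 103) (nat_lit 5) (nat_lit 105) (nat_lit 5) (nat_lit 106) (nat_lit 5) (nat_lit 545) (nat_lit 446) (nat_lit 209)) (XT.lf (nat_lit 0) (nat_lit 3910038908) (nat_lit 152) (nat_lit 58297724963) (nat_lit 76) (nat_lit 30440141210) (nat_lit 101) (nat_lit 5) (nat_lit 103) (nat_lit 5) (nat_lit 102) (nat_lit 5) (nat_lit 546) (nat_lit 446) (nat_lit 208))) (XT.nd (nat_lit 78) (nat_lit 152) (nat_lit 0) (XT.lf (nat_lit 0) (nat_lit 30985863736) (nat_lit 152) (nat_lit 613281410) (nat_lit 76) (nat_lit 62881797761) (nat_lit 101) (nat_lit 5) (nat_lit 103) (nat_lit 5) (nat_lit 102) (nat_lit 5) (nat_lit 547) (nat_lit 446) (nat_lit 207)) (XT.lf (nat_lit 0) (nat_lit 59453824582) (nat_lit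 228) (nat_lit 36387814761) (nat_lit 76) (nat_lit 509936702) (nat_lit 99) (nat_lit 5) (nat_lit 102) (nat_lit 5) (nat_lit 100) (nat_lit 4) (nat_lit 548) (nat_lit 446) (nat_lit 206)))))) (XT.nd (nat_lit 624) (nat_lit 0) (nat_lit 304) (XT.nd (nat_lit 312) (nat_lit 0) (nat_lit 152) (XT.nd (nat_lit 156) (nat_lit 0) (nat_lit 76) (XT.nd (nat_lit 78) (nat_lit 0) (nat_lit 0) (XT.lf (nat_lit 0) (nat_lit 1999185205) (nat_lit 1292) (nat_lit 3113797470) (nat_lit 1292) (nat_lit 3113797470) (nat_lit 327) (nat_lit 3) (nat_lit 344) (nat_lit 3) (nat_lit 344) (nat_lit 5) (nat_lit 447) (nat_lit 447) (nat_lit 306)) (XT.lf (nat_lit 76) (nat_lit 2005452598) (nat_lit 0) (nat_lit 2317811903) (nat_lit 1292) (nat_lit 12369140299) (nat_lit 328) (nat_lit 5) (nat_lit 327) (nat_lit 3) (nat_lit 344) (nat_lit 5) (nat_lit 448) (nat_lit 447) (nat_lit 305))) (XT.nd (nat_lit 78) (nat_lit 0) (nat_lit 0) (XT.lf (nat_lit 0) (nat_lit 4767842006) (nat_lit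 1216) (nat_lit 6385387192) (nat_lit 1292) (nat_lit 5781887794) (nat_lit 328) (nat_lit 5) (nat_lit 344) (nat_lit 5) (nat_lit 345) (nat_lit 5) (nat_lit 449) (nat_lit 447) (nat_lit 304)) (XT.lf (nat_lit 76) (nat_lit 2179594941) (nat_lit 0) (nat_lit 3080750603) (nat_lit 1292) (nat_lit 11923727775) (nat_lit 329) (nat_lit 5) (nat_lit 328) (nat_lit 5) (nat_lit 345) (nat_lit 5) (nat_lit 450) (nat_lit 447) (nat_lit 303)))) (XT.nd (nat_lit 156) (nat_lit 0) (nat_lit 76) (XT.nd (nat_lit 78) (nat_lit 0) (nat_lit 0) (XT.lf (nat_lit 0) (nat_lit 5874001790) (nat_lit 1216) (nat_lit 6362565817) (nat_lit 1292) (nat_lit 5200739816) (nat_lit 329) (nat_lit 5) (nat_lit 345) (nat_lit 5) (nat_lit 346) (nat_lit 5) (nat_lit 451) (nat_lit 447) (nat_lit 302)) (XT.lf (nat_lit 76) (nat_lit 2552598723) (nat_lit 0) (nat_lit 3999720102) (nat_lit 1292) (nat_lit 11144432596) (nat_lit 330) (nat_lit 5) (nat_lit 329) (nat_lit 5) (nat_lit 346) (nat_lit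 5) (nat_lit 452) (nat_lit 447) (nat_lit 301))) (XT.nd (nat_lit 78) (nat_lit 0) (nat_lit 0) (XT.lf (nat_lit 0) (nat_lit 7350424950) (nat_lit 1216) (nat_lit 6145699056) (nat_lit 1292) (nat_lit 4464871941) (nat_lit 330) (nat_lit 5) (nat_lit 346) (nat_lit 5) (nat_lit 347) (nat_lit 5) (nat_lit 453) (nat_lit 447) (nat_lit 300)) (XT.lf (nat_lit 76) (nat_lit 3138970264) (nat_lit 0) (nat_lit 5094976764) (nat_lit 1292) (nat_lit 9997376978) (nat_lit 331) (nat_lit 5) (nat_lit 330) (nat_lit 5) (nat_lit 347) (nat_lit 5) (nat_lit 454) (nat_lit 447) (nat_lit 299))))) (XT.nd (nat_lit 312) (nat_lit 0) (nat_lit 152) (XT.nd (nat_lit 156) (nat_lit 0) (nat_lit 76) (XT.nd (nat_lit 78) (nat_lit 0) (nat_lit 0) (XT.lf (nat_lit 0) (nat_lit 9232767439) (nat_lit 1216) (nat_lit 5720164660) (nat_lit 1292) (nat_lit 3554166399) (nat_lit 331) (nat_lit 5) (nat_lit 347) (nat_lit 5) (nat_lit 348) (nat_lit 5) (nat_lit 455) (nat_lit 447) (nat_lit 298))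 (XT.lf (nat_lit 76) (nat_lit 3954467070) (nat_lit 0) (nat_lit 6387694013) (nat_lit 1292) (nat_lit 8446567243) (nat_lit 332) (nat_lit 5) (nat_lit 331) (nat_lit 5) (nat_lit 348) (nat_lit 5) (nat_lit 456) (nat_lit 447) (nat_lit 297))) (XT.nd (nat_lit 78) (nat_lit 0) (nat_lit 0) (XT.lf (nat_lit 0) (nat_lit 11558922104) (nat_lit 1216) (nat_lit 5070095183) (nat_lit 1292) (nat_lit 2447567544) (nat_lit 332) (nat_lit 5) (nat_lit 348) (nat_lit 5) (nat_lit 349) (nat_lit 5) (nat_lit 457) (nat_lit 447) (nat_lit 296)) (XT.lf (nat_lit 76) (nat_lit 5016156298) (nat_lit 0) (nat_lit 7900064651) (nat_lit 1292) (nat_lit 6453735370) (nat_lit 333) (nat_lit 5) (nat_lit 332) (nat_lit 5) (nat_lit 349) (nat_lit 5) (nat_lit 458) (nat_lit 447) (nat_lit 295)))) (XT.nd (nat_lit 156) (nat_lit 0) (nat_lit 0) (XT.nd (nat_lit 78) (nat_lit 0) (nat_lit 0) (XT.lf (nat_lit 0) (nat_lit 14369182726) (nat_lit 1216) (nat_lit 4178318201) (nat_lit 1292) (nat_lit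 1122980037) (nat_lit 333) (nat_lit 5) (nat_lit 349) (nat_lit 5) (nat_lit 350) (nat_lit 5) (nat_lit 459) (nat_lit 447) (nat_lit 294)) (XT.lf (nat_lit 76) (nat_lit 6342478519) (nat_lit 0) (nat_lit 9655406143) (nat_lit 1292) (nat_lit 3978172464) (nat_lit 334) (nat_lit 5) (nat_lit 333) (nat_lit 5) (nat_lit 350) (nat_lit 5) (nat_lit 460) (nat_lit 447) (nat_lit 293))) (XT.nd (nat_lit 78) (nat_lit 0) (nat_lit 76) (XT.lf (nat_lit 76) (nat_lit 17259108756) (nat_lit 0) (nat_lit 451649377) (nat_lit 1292) (nat_lit 2578983438) (nat_lit 334) (nat_lit 5) (nat_lit 333) (nat_lit 5) (nat_lit 350) (nat_lit 5) (nat_lit 461) (nat_lit 447) (nat_lit 292)) (XT.lf (nat_lit 76) (nat_lit 7953316918) (nat_lit 0) (nat_lit 11678269366) (nat_lit 1292) (nat_lit 976553512) (nat_lit 335) (nat_lit 5) (nat_lit 334) (nat_lit 5) (nat_lit 351) (nat_lit 5) (nat_lit 462) (nat_lit 447) (nat_lit 291))))))))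
noncomputable def xc191 : XT := (XT.nd (nat_lit 2418) (nat_lit 5548) (nat_lit 0) (XT.nd (nat_lit 1170) (nat_lit 4028) (nat_lit 0) (XT.nd (nat_lit 546) (nat_lit 2280) (nat_lit 0) (XT.nd (nat_lit 234) (nat_lit 1216) (nat_lit 0) (XT.nd (nat_lit 78) (nat_lit 760) (nat_lit 0) (XT.lf (nat_lit 0) (nat_lit 689584909) (nat_lit 1292) (nat_lit 1623089997) (nat_lit 1368) (nat_lit 18622357390) (nat_lit 317) (nat_lit 5) (nat_lit 334) (nat_lit 5) (nat_lit 335) (nat_lit 5) (nat_lit 463) (nat_lit 447) (nat_lit 290)) (XT.nd (nat_lit 78) (nat_lit 836) (nat_lit 0) (XT.lf (nat_lit 0) (nat_lit 2546565595) (nat_lit 1292) (nat_lit 11422270386) (nat_lit 76) (nat_lit 7297791224) (nat_lit 318) (nat_lit 5) (nat_lit 335) (nat_lit 5) (nat_lit 319) (nat_lit 5) (nat_lit 464) (nat_lit 447) (nat_lit 289)) (XT.lf (nat_lit 0) (nat_lit 53854844) (nat_lit 836) (nat_lit 4439112721) (nat_lit 912) (nat_lit 17114191308) (nat_lit 307) (nat_lit 5) (nat_lit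 318) (nat_lit 5) (nat_lit 319) (nat_lit 5) (nat_lit 465) (nat_lit 447) (nat_lit 288)))) (XT.nd (nat_lit 156) (nat_lit 608) (nat_lit 0) (XT.nd (nat_lit 78) (nat_lit 608) (nat_lit 0) (XT.lf (nat_lit 0) (nat_lit 6659807791) (nat_lit 912) (nat_lit 9904553401) (nat_lit 76) (nat_lit 5388684174) (nat_lit 307) (nat_lit 5) (nat_lit 319) (nat_lit 5) (nat_lit 308) (nat_lit 5) (nat_lit 466) (nat_lit 447) (nat_lit 287)) (XT.lf (nat_lit 0) (nat_lit 2084865023) (nat_lit 608) (nat_lit 6864838505) (nat_lit 684) (nat_lit 13357863668) (nat_lit 299) (nat_lit 5) (nat_lit 307) (nat_lit 5) (nat_lit 308) (nat_lit 5) (nat_lit 467) (nat_lit 447) (nat_lit 286))) (XT.nd (nat_lit 78) (nat_lit 608) (nat_lit 0) (XT.lf (nat_lit 0) (nat_lit 11433530353) (nat_lit 684) (nat_lit 8069411081) (nat_lit 76) (nat_lit 3166026465) (nat_lit 299) (nat_lit 5) (nat_lit 308) (nat_lit 5) (nat_lit 300) (nat_lit 5) (nat_lit 468) (nat_lit 447) (nat_lit 285)) (XT.lf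 (nat_lit 0) (nat_lit 4462095761) (nat_lit 608) (nat_lit 9634988316) (nat_lit 684) (nat_lit 8940970423) (nat_lit 291) (nat_lit 5) (nat_lit 299) (nat_lit 5) (nat_lit 300) (nat_lit 5) (nat_lit 469) (nat_lit 447) (nat_lit 284))))) (XT.nd (nat_lit 312) (nat_lit 1064) (nat_lit 0) (XT.nd (nat_lit 156) (nat_lit 684) (nat_lit 0) (XT.nd (nat_lit 78) (nat_lit 532) (nat_lit 0) (XT.lf (nat_lit 0) (nat_lit 16922385858) (nat_lit 684) (nat_lit 5892297601) (nat_lit 76) (nat_lit 601075226) (nat_lit 291) (nat_lit 5) (nat_lit 300) (nat_lit 5) (nat_lit 292) (nat_lit 5) (nat_lit 470) (nat_lit 447) (nat_lit 283)) (XT.lf (nat_lit 0) (nat_lit 7211768721) (nat_lit 532) (nat_lit 12780023385) (nat_lit 608) (nat_lit 3808221751) (nat_lit 284) (nat_lit 5) (nat_lit 291) (nat_lit 5) (nat_lit 292) (nat_lit 5) (nat_lit 471) (nat_lit 447) (nat_lit 282))) (XT.nd (nat_lit 78) (nat_lit 684) (nat_lit 0) (XT.lf (nat_lit 0) (nat_lit 20824360347) (nat_lit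 532) (nat_lit 2383151200) (nat_lit 608) (nat_lit 986658426) (nat_lit 284) (nat_lit 5) (nat_lit 291) (nat_lit 5) (nat_lit 292) (nat_lit 5) (nat_lit 472) (nat_lit 447) (nat_lit 281)) (XT.lf (nat_lit 0) (nat_lit 2058341514) (nat_lit 684) (nat_lit 14253126831) (nat_lit 76) (nat_lit 8282841662) (nat_lit 275) (nat_lit 5) (nat_lit 284) (nat_lit 5) (nat_lit 276) (nat_lit 5) (nat_lit 473) (nat_lit 447) (nat_lit 280)))) (XT.nd (nat_lit 156) (nat_lit 532) (nat_lit 0) (XT.nd (nat_lit 78) (nat_lit 532) (nat_lit 0) (XT.lf (nat_lit 0) (nat_lit 5227752266) (nat_lit 684) (nat_lit 511978414) (nat_lit 76) (nat_lit 19264843945) (nat_lit 275) (nat_lit 5) (nat_lit 284) (nat_lit 5) (nat_lit 276) (nat_lit 5) (nat_lit 474) (nat_lit 447) (nat_lit 279)) (XT.lf (nat_lit 0) (nat_lit 8671828484) (nat_lit 608) (nat_lit 11566580418) (nat_lit 76) (nat_lit 5183350977) (nat_lit 268) (nat_lit 5) (nat_lit 276) (nat_lit 5) (nat_lit 269) (nat_lit 5)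 (nat_lit 475) (nat_lit 447) (nat_lit 278))) (XT.nd (nat_lit 78) (nat_lit 0) (nat_lit 0) (XT.lf (nat_lit 0) (nat_lit 2805038960) (nat_lit 532) (nat_lit 9498369793) (nat_lit 608) (nat_lit 13545526674) (nat_lit 261) (nat_lit 5) (nat_lit 268) (nat_lit 5) (nat_lit 269) (nat_lit 5) (nat_lit 476) (nat_lit 447) (nat_lit 277)) (XT.lf (nat_lit 0) (nat_lit 16172177674) (nat_lit 608) (nat_lit 8462144365) (nat_lit 76) (nat_lit 1650757147) (nat_lit 261) (nat_lit 5) (nat_lit 269) (nat_lit 5) (nat_lit 262) (nat_lit 5) (nat_lit 477) (nat_lit 447) (nat_lit 276)))))) (XT.nd (nat_lit 624) (nat_lit 1748) (nat_lit 0) (XT.nd (nat_lit 312) (nat_lit 1292) (nat_lit 0) (XT.nd (nat_lit 156) (nat_lit 532) (nat_lit 0) (XT.nd (nat_lit 78) (nat_lit 0) (nat_lit 0) (XT.lf (nat_lit 0) (nat_lit 6586253829) (nat_lit 456) (nat_lit 13723500633) (nat_lit 532) (nat_lit 6419970629) (nat_lit 255) (nat_lit 5) (nat_lit 261) (nat_lit 5) (nat_lit 262) (nat_lit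 5) (nat_lit 478) (nat_lit 447) (nat_lit 275)) (XT.lf (nat_lit 0) (nat_lit 22254336703) (nat_lit 456) (nat_lit 2398047308) (nat_lit 532) (nat_lit 2532898770) (nat_lit 255) (nat_lit 5) (nat_lit 261) (nat_lit 5) (nat_lit 262) (nat_lit 5) (nat_lit 479) (nat_lit 447) (nat_lit 274))) (XT.nd (nat_lit 78) (nat_lit 0) (nat_lit 0) (XT.lf (nat_lit 0) (nat_lit 1632987344) (nat_lit 532) (nat_lit 16809349007) (nat_lit 76) (nat_lit 9206019797) (nat_lit 248) (nat_lit 5) (nat_lit 255) (nat_lit 5) (nat_lit 249) (nat_lit 5) (nat_lit 480) (nat_lit 447) (nat_lit 273)) (XT.lf (nat_lit 0) (nat_lit 5942605483) (nat_lit 532) (nat_lit 995245537) (nat_lit 76) (nat_lit 21184628580) (nat_lit 248) (nat_lit 5) (nat_lit 255) (nat_lit 5) (nat_lit 249) (nat_lit 5) (nat_lit 481) (nat_lit 447) (nat_lit 272)))) (XT.nd (nat_lit 156) (nat_lit 380) (nat_lit 0) (XT.nd (nat_lit 78) (nat_lit 456) (nat_lit 0) (XT.lf (nat_lit 0) (nat_lit 10575849543) (nat_lit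 532) (nat_lit 13062691430) (nat_lit 76) (nat_lit 4966455817) (nat_lit 242) (nat_lit 5) (nat_lit 249) (nat_lit 5) (nat_lit 243) (nat_lit 5) (nat_lit 482) (nat_lit 447) (nat_lit 271)) (XT.lf (nat_lit 0) (nat_lit 3488828961) (nat_lit 456) (nat_lit 11967468805) (nat_lit 532) (nat_lit 13642445672) (nat_lit 236) (nat_lit 5) (nat_lit 242) (nat_lit 5) (nat_lit 243) (nat_lit 5) (nat_lit 483) (nat_lit 447) (nat_lit 270))) (XT.nd (nat_lit 78) (nat_lit 380) (nat_lit 0) (XT.lf (nat_lit 0) (nat_lit 20612781250) (nat_lit 532) (nat_lit 8805719266) (nat_lit 76) (nat_lit 184913458) (nat_lit 236) (nat_lit 5) (nat_lit 243) (nat_lit 5) (nat_lit 237) (nat_lit 5) (nat_lit 484) (nat_lit 447) (nat_lit 269)) (XT.lf (nat_lit 0) (nat_lit 8545804658) (nat_lit 380) (nat_lit 17574803221) (nat_lit 456) (nat_lit 3996717427) (nat_lit 231) (nat_lit 5) (nat_lit 236) (nat_lit 5) (nat_lit 237) (nat_lit 5) (nat_lit 485) (nat_lit 447) (nat_lit 268)))))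 (XT.nd (nat_lit 312) (nat_lit 836) (nat_lit 0) (XT.nd (nat_lit 156) (nat_lit 380) (nat_lit 0) (XT.nd (nat_lit 78) (nat_lit 456) (nat_lit 0) (XT.lf (nat_lit 0) (nat_lit 1210474171) (nat_lit 456) (nat_lit 4062605711) (nat_lit 76) (nat_lit 25370668217) (nat_lit 230) (nat_lit 5) (nat_lit 236) (nat_lit 5) (nat_lit 231) (nat_lit 5) (nat_lit 486) (nat_lit 447) (nat_lit 267)) (XT.lf (nat_lit 0) (nat_lit 6699091149) (nat_lit 532) (nat_lit 17049406584) (nat_lit 76) (nat_lit 7430112634) (nat_lit 224) (nat_lit 5) (nat_lit 231) (nat_lit 5) (nat_lit 225) (nat_lit 5) (nat_lit 487) (nat_lit 447) (nat_lit 266))) (XT.nd (nat_lit 78) (nat_lit 0) (nat_lit 0) (XT.lf (nat_lit 0) (nat_lit 1187311191) (nat_lit 380) (nat_lit 11266317641) (nat_lit 456) (nat_lit 19272851931) (nat_lit 219) (nat_lit 5) (nat_lit 224) (nat_lit 5) (nat_lit 225) (nat_lit 5) (nat_lit 488) (nat_lit 447) (nat_lit 265)) (XT.lf (nat_lit 0) (nat_lit 18566220830) (nat_lit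 456) (nat_lit 11987040479) (nat_lit 76) (nat_lit 1731963537) (nat_lit 219) (nat_lit 5) (nat_lit 225) (nat_lit 5) (nat_lit 220) (nat_lit 5) (nat_lit 489) (nat_lit 447) (nat_lit 264)))) (XT.nd (nat_lit 156) (nat_lit 456) (nat_lit 0) (XT.nd (nat_lit 78) (nat_lit 0) (nat_lit 0) (XT.lf (nat_lit 0) (nat_lit 7144616176) (nat_lit 380) (nat_lit 17894170235) (nat_lit 456) (nat_lit 7816647082) (nat_lit 214) (nat_lit 5) (nat_lit 219) (nat_lit 5) (nat_lit 220) (nat_lit 5) (nat_lit 490) (nat_lit 447) (nat_lit 263)) (XT.lf (nat_lit 0) (nat_lit 27091087398) (nat_lit 380) (nat_lit 4731915911) (nat_lit 456) (nat_lit 1616220974) (nat_lit 214) (nat_lit 5) (nat_lit 219) (nat_lit 5) (nat_lit 220) (nat_lit 5) (nat_lit 491) (nat_lit 447) (nat_lit 262))) (XT.nd (nat_lit 78) (nat_lit 0) (nat_lit 0) (XT.lf (nat_lit 0) (nat_lit 4893013812) (nat_lit 456) (nat_lit 20307512838) (nat_lit 76) (nat_lit 8832150226) (nat_lit 208) (nat_lit 5) (nat_lit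 214) (nat_lit 5) (nat_lit 209) (nat_lit 5) (nat_lit 492) (nat_lit 447) (nat_lit 261)) (XT.lf (nat_lit 0) (nat_lit 11673172602) (nat_lit 456) (nat_lit 179533015) (nat_lit 76) (nat_lit 22787503525) (nat_lit 208) (nat_lit 5) (nat_lit 214) (nat_lit 5) (nat_lit 209) (nat_lit 5) (nat_lit 493) (nat_lit 447) (nat_lit 260))))))) (XT.nd (nat_lit 1248) (nat_lit 2356) (nat_lit 0) (XT.nd (nat_lit 624) (nat_lit 1444) (nat_lit 0) (XT.nd (nat_lit 312) (nat_lit 684) (nat_lit 0) (XT.nd (nat_lit 156) (nat_lit 380) (nat_lit 0) (XT.nd (nat_lit 78) (nat_lit 304) (nat_lit 0) (XT.lf (nat_lit 0) (nat_lit 18875029118) (nat_lit 456) (nat_lit 14323693453) (nat_lit 76) (nat_lit 2060696117) (nat_lit 203) (nat_lit 5) (nat_lit 209) (nat_lit 5) (nat_lit 204) (nat_lit 5) (nat_lit 494) (nat_lit 447) (nat_lit 259)) (XT.lf (nat_lit 0) (nat_lit 6801593670) (nat_lit 304) (nat_lit 19672596434) (nat_lit 380) (nat_lit 9417577052) (nat_lit 199) (nat_lit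 5) (nat_lit 203) (nat_lit 5) (nat_lit 204) (nat_lit 5) (nat_lit 495) (nat_lit 447) (nat_lit 258))) (XT.nd (nat_lit 78) (nat_lit 380) (nat_lit 0) (XT.lf (nat_lit 0) (nat_lit 28849577651) (nat_lit 304) (nat_lit 5593124364) (nat_lit 380) (nat_lit 2096142875) (nat_lit 199) (nat_lit 5) (nat_lit 203) (nat_lit 5) (nat_lit 204) (nat_lit 5) (nat_lit 496) (nat_lit 447) (nat_lit 257)) (XT.lf (nat_lit 0) (nat_lit 5563175036) (nat_lit 380) (nat_lit 22705936590) (nat_lit 76) (nat_lit 8927918489) (nat_lit 194) (nat_lit 5) (nat_lit 199) (nat_lit 5) (nat_lit 195) (nat_lit 5) (nat_lit 497) (nat_lit 447) (nat_lit 256)))) (XT.nd (nat_lit 156) (nat_lit 380) (nat_lit 0) (XT.nd (nat_lit 78) (nat_lit 304) (nat_lit 0) (XT.lf (nat_lit 0) (nat_lit 13540769131) (nat_lit 380) (nat_lit 459690768) (nat_lit 76) (nat_lit 23869959657) (nat_lit 194) (nat_lit 5) (nat_lit 199) (nat_lit 5) (nat_lit 195) (nat_lit 5) (nat_lit 498) (nat_lit 447) (nat_lit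 255)) (XT.lf (nat_lit 0) (nat_lit 21983568095) (nat_lit 380) (nat_lit 15670139522) (nat_lit 76) (nat_lit 903526835) (nat_lit 190) (nat_lit 5) (nat_lit 195) (nat_lit 5) (nat_lit 191) (nat_lit 5) (nat_lit 499) (nat_lit 447) (nat_lit 254))) (XT.nd (nat_lit 78) (nat_lit 76) (nat_lit 0) (XT.lf (nat_lit 0) (nat_lit 7685965199) (nat_lit 304) (nat_lit 23207833593) (nat_lit 380) (nat_lit 8364430653) (nat_lit 186) (nat_lit 5) (nat_lit 190) (nat_lit 5) (nat_lit 191) (nat_lit 5) (nat_lit 500) (nat_lit 447) (nat_lit 253)) (XT.lf (nat_lit 0) (nat_lit 246083967) (nat_lit 380) (nat_lit 7918533740) (nat_lit 76) (nat_lit 31810907016) (nat_lit 185) (nat_lit 5) (nat_lit 190) (nat_lit 5) (nat_lit 186) (nat_lit 5) (nat_lit 501) (nat_lit 447) (nat_lit 252))))) (XT.nd (nat_lit 312) (nat_lit 608) (nat_lit 0) (XT.nd (nat_lit 156) (nat_lit 228) (nat_lit 0) (XT.nd (nat_lit 78) (nat_lit 304) (nat_lit 0) (XT.lf (nat_lit 0) (nat_lit 9177081321)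 (nat_lit 380) (nat_lit 24096871314) (nat_lit 76) (nat_lit 7430993293) (nat_lit 181) (nat_lit 5) (nat_lit 186) (nat_lit 5) (nat_lit 182) (nat_lit 5) (nat_lit 502) (nat_lit 447) (nat_lit 251)) (XT.lf (nat_lit 0) (nat_lit 502675752) (nat_lit 304) (nat_lit 18036848023) (nat_lit 380) (nat_lit 22911820612) (nat_lit 177) (nat_lit 5) (nat_lit 181) (nat_lit 5) (nat_lit 182) (nat_lit 5) (nat_lit 503) (nat_lit 447) (nat_lit 250))) (XT.nd (nat_lit 78) (nat_lit 228) (nat_lit 0) (XT.lf (nat_lit 0) (nat_lit 26329758915) (nat_lit 304) (nat_lit 2093546013) (nat_lit 380) (nat_lit 13789615980) (nat_lit 177) (nat_lit 5) (nat_lit 181) (nat_lit 5) (nat_lit 182) (nat_lit 5) (nat_lit 504) (nat_lit 447) (nat_lit 249)) (XT.lf (nat_lit 0) (nat_lit 9987111194) (nat_lit 228) (nat_lit 28847423879) (nat_lit 304) (nat_lit 4155881654) (nat_lit 174) (nat_lit 5) (nat_lit 177) (nat_lit 5) (nat_lit 178) (nat_lit 5) (nat_lit 505) (nat_lit 447) (nat_lit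 248)))) (XT.nd (nat_lit 156) (nat_lit 228) (nat_lit 0) (XT.nd (nat_lit 78) (nat_lit 304) (nat_lit 0) (XT.lf (nat_lit 0) (nat_lit 5834253347) (nat_lit 304) (nat_lit 6909460674) (nat_lit 76) (nat_lit 31040462797) (nat_lit 173) (nat_lit 5) (nat_lit 177) (nat_lit 5) (nat_lit 174) (nat_lit 5) (nat_lit 506) (nat_lit 447) (nat_lit 247)) (XT.lf (nat_lit 0) (nat_lit 16272440959) (nat_lit 380) (nat_lit 24315709228) (nat_lit 76) (nat_lit 4005408837) (nat_lit 169) (nat_lit 5) (nat_lit 174) (nat_lit 5) (nat_lit 170) (nat_lit 5) (nat_lit 507) (nat_lit 447) (nat_lit 246))) (XT.nd (nat_lit 78) (nat_lit 0) (nat_lit 0) (XT.lf (nat_lit 0) (nat_lit 2923200717) (nat_lit 228) (nat_lit 24322631982) (nat_lit 304) (nat_lit 18174728302) (nat_lit 166) (nat_lit 5) (nat_lit 169) (nat_lit 5) (nat_lit 170) (nat_lit 5) (nat_lit 508) (nat_lit 447) (nat_lit 245)) (XT.lf (nat_lit 0) (nat_lit 31473505478) (nat_lit 228) (nat_lit 7317819871) (nat_lit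 304) (nat_lit 7473760775) (nat_lit 166) (nat_lit 5) (nat_lit 169) (nat_lit 5) (nat_lit 170) (nat_lit 5) (nat_lit 509) (nat_lit 447) (nat_lit 244)))))) (XT.nd (nat_lit 624) (nat_lit 1064) (nat_lit 0) (XT.nd (nat_lit 312) (nat_lit 532) (nat_lit 0) (XT.nd (nat_lit 156) (nat_lit 456) (nat_lit 0) (XT.nd (nat_lit 78) (nat_lit 0) (nat_lit 0) (XT.lf (nat_lit 0) (nat_lit 3710464423) (nat_lit 304) (nat_lit 33249730711) (nat_lit 76) (nat_lit 10166784662) (nat_lit 162) (nat_lit 5) (nat_lit 166) (nat_lit 5) (nat_lit 163) (nat_lit 5) (nat_lit 510) (nat_lit 447) (nat_lit 243)) (XT.lf (nat_lit 0) (nat_lit 15300730357) (nat_lit 304) (nat_lit 4452993277) (nat_lit 76) (nat_lit 28252164893) (nat_lit 162) (nat_lit 5) (nat_lit 166) (nat_lit 5) (nat_lit 163) (nat_lit 5) (nat_lit 511) (nat_lit 447) (nat_lit 242))) (XT.nd (nat_lit 78) (nat_lit 228) (nat_lit 0) (XT.lf (nat_lit 0) (nat_lit 25705198326) (nat_lit 228) (nat_lit 1778105544) (nat_lit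 304) (nat_lit 21420522716) (nat_lit 159) (nat_lit 5) (nat_lit 162) (nat_lit 5) (nat_lit 163) (nat_lit 5) (nat_lit 512) (nat_lit 447) (nat_lit 241)) (XT.lf (nat_lit 0) (nat_lit 7003326378) (nat_lit 228) (nat_lit 33299169098) (nat_lit 304) (nat_lit 9518073135) (nat_lit 156) (nat_lit 5) (nat_lit 159) (nat_lit 5) (nat_lit 160) (nat_lit 5) (nat_lit 513) (nat_lit 447) (nat_lit 240)))) (XT.nd (nat_lit 156) (nat_lit 228) (nat_lit 0) (XT.nd (nat_lit 78) (nat_lit 228) (nat_lit 0) (XT.lf (nat_lit 0) (nat_lit 2939673329) (nat_lit 304) (nat_lit 12221250676) (nat_lit 76) (nat_lit 35595546798) (nat_lit 155) (nat_lit 5) (nat_lit 159) (nat_lit 5) (nat_lit 156) (nat_lit 5) (nat_lit 514) (nat_lit 447) (nat_lit 239)) (XT.lf (nat_lit 0) (nat_lit 15802266375) (nat_lit 304) (nat_lit 32172250835) (nat_lit 76) (nat_lit 3736433204) (nat_lit 152) (nat_lit 5) (nat_lit 156) (nat_lit 5) (nat_lit 153) (nat_lit 5) (nat_lit 515) (nat_lit 447) (nat_lit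 238))) (XT.nd (nat_lit 78) (nat_lit 228) (nat_lit 0) (XT.lf (nat_lit 0) (nat_lit 29323100722) (nat_lit 304) (nat_lit 343695986) (nat_lit 76) (nat_lit 23019096845) (nat_lit 152) (nat_lit 5) (nat_lit 156) (nat_lit 5) (nat_lit 153) (nat_lit 5) (nat_lit 516) (nat_lit 447) (nat_lit 237)) (XT.lf (nat_lit 0) (nat_lit 33081392587) (nat_lit 228) (nat_lit 10483858130) (nat_lit 304) (nat_lit 10115363598) (nat_lit 149) (nat_lit 5) (nat_lit 152) (nat_lit 5) (nat_lit 153) (nat_lit 5) (nat_lit 517) (nat_lit 447) (nat_lit 236))))) (XT.nd (nat_lit 312) (nat_lit 456) (nat_lit 0) (XT.nd (nat_lit 156) (nat_lit 380) (nat_lit 0) (XT.nd (nat_lit 78) (nat_lit 0) (nat_lit 0) (XT.lf (nat_lit 0) (nat_lit 3677797873) (nat_lit 228) (nat_lit 41763522227) (nat_lit 76) (nat_lit 9256323339) (nat_lit 146) (nat_lit 5) (nat_lit 149) (nat_lit 5) (nat_lit 147) (nat_lit 5) (nat_lit 518) (nat_lit 447) (nat_lit 235)) (XT.lf (nat_lit 0) (nat_lit 17993032343)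 (nat_lit 228) (nat_lit 8053110242) (nat_lit 76) (nat_lit 29686688720) (nat_lit 146) (nat_lit 5) (nat_lit 149) (nat_lit 5) (nat_lit 147) (nat_lit 5) (nat_lit 519) (nat_lit 447) (nat_lit 234))) (XT.nd (nat_lit 78) (nat_lit 152) (nat_lit 0) (XT.lf (nat_lit 0) (nat_lit 27195526647) (nat_lit 228) (nat_lit 5801398890) (nat_lit 304) (nat_lit 23794373259) (nat_lit 143) (nat_lit 5) (nat_lit 146) (nat_lit 5) (nat_lit 147) (nat_lit 5) (nat_lit 520) (nat_lit 447) (nat_lit 233)) (XT.lf (nat_lit 0) (nat_lit 5750571552) (nat_lit 152) (nat_lit 42980239717) (nat_lit 228) (nat_lit 9142312809) (nat_lit 141) (nat_lit 5) (nat_lit 143) (nat_lit 5) (nat_lit 144) (nat_lit 5) (nat_lit 521) (nat_lit 447) (nat_lit 232)))) (XT.nd (nat_lit 156) (nat_lit 152) (nat_lit 0) (XT.nd (nat_lit 78) (nat_lit 228) (nat_lit 0) (XT.lf (nat_lit 0) (nat_lit 6190277009) (nat_lit 228) (nat_lit 16335826196) (nat_lit 76) (nat_lit 36448873496) (nat_lit 140) (nat_lit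 5) (nat_lit 143) (nat_lit 5) (nat_lit 141) (nat_lit 5) (nat_lit 522) (nat_lit 447) (nat_lit 231)) (XT.lf (nat_lit 0) (nat_lit 20836906747) (nat_lit 228) (nat_lit 1160349595) (nat_lit 304) (nat_lit 38103968160) (nat_lit 137) (nat_lit 5) (nat_lit 140) (nat_lit 5) (nat_lit 141) (nat_lit 5) (nat_lit 523) (nat_lit 447) (nat_lit 230))) (XT.nd (nat_lit 78) (nat_lit 152) (nat_lit 0) (XT.lf (nat_lit 0) (nat_lit 38643304762) (nat_lit 304) (nat_lit 2002334935) (nat_lit 76) (nat_lit 20604674283) (nat_lit 137) (nat_lit 5) (nat_lit 141) (nat_lit 5) (nat_lit 138) (nat_lit 5) (nat_lit 524) (nat_lit 447) (nat_lit 229)) (XT.lf (nat_lit 0) (nat_lit 37086117340) (nat_lit 152) (nat_lit 19068540644) (nat_lit 228) (nat_lit 6268240490) (nat_lit 135) (nat_lit 5) (nat_lit 137) (nat_lit 5) (nat_lit 138) (nat_lit 5) (nat_lit 525) (nat_lit 447) (nat_lit 228))))))))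
noncomputable def xc192 : XT := (XT.nd (nat_lit 57018) (nat_lit 0) (nat_lit 9880) (XT.nd (nat_lit 1170) (nat_lit 760) (nat_lit 0) (XT.nd (nat_lit 546) (nat_lit 988) (nat_lit 0) (XT.nd (nat_lit 234) (nat_lit 380) (nat_lit 0) (XT.nd (nat_lit 78) (nat_lit 152) (nat_lit 0) (XT.lf (nat_lit 0) (nat_lit 10539686002) (nat_lit 304) (nat_lit 49731274581) (nat_lit 76) (nat_lit 3351102321) (nat_lit 131) (nat_lit 5) (nat_lit 135) (nat_lit 5) (nat_lit 132) (nat_lit 5) (nat_lit 526) (nat_lit 447) (nat_lit 227)) (XT.nd (nat_lit 78) (nat_lit 152) (nat_lit 0) (XT.lf (nat_lit 0) (nat_lit 28171004247) (nat_lit 304) (nat_lit 10291956982) (nat_lit 76) (nat_lit 26379025034) (nat_lit 131) (nat_lit 5) (nat_lit 135) (nat_lit 5) (nat_lit 132) (nat_lit 5) (nat_lit 527) (nat_lit 447) (nat_lit 226)) (XT.lf (nat_lit 0) (nat_lit 30930610775) (nat_lit 152) (nat_lit 15695991678) (nat_lit 228) (nat_lit 19463044686) (nat_lit 129) (nat_lit 5) (nat_lit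 131) (nat_lit 5) (nat_lit 132) (nat_lit 5) (nat_lit 528) (nat_lit 447) (nat_lit 225)))) (XT.nd (nat_lit 156) (nat_lit 152) (nat_lit 0) (XT.nd (nat_lit 78) (nat_lit 76) (nat_lit 0) (XT.lf (nat_lit 0) (nat_lit 6272538306) (nat_lit 152) (nat_lit 59601145917) (nat_lit 228) (nat_lit 1493919177) (nat_lit 127) (nat_lit 5) (nat_lit 129) (nat_lit 5) (nat_lit 130) (nat_lit 5) (nat_lit 529) (nat_lit 447) (nat_lit 224)) (XT.lf (nat_lit 0) (nat_lit 17194259881) (nat_lit 228) (nat_lit 19331445866) (nat_lit 76) (nat_lit 32137926389) (nat_lit 126) (nat_lit 5) (nat_lit 129) (nat_lit 5) (nat_lit 127) (nat_lit 5) (nat_lit 530) (nat_lit 447) (nat_lit 223))) (XT.nd (nat_lit 78) (nat_lit 0) (nat_lit 0) (XT.lf (nat_lit 0) (nat_lit 24137898407) (nat_lit 152) (nat_lit 12505276464) (nat_lit 228) (nat_lit 33348019646) (nat_lit 124) (nat_lit 5) (nat_lit 126) (nat_lit 5) (nat_lit 127) (nat_lit 5) (nat_lit 531) (nat_lit 447) (nat_lit 222)) (XT.lf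 (nat_lit 0) (nat_lit 56988414965) (nat_lit 228) (nat_lit 2168097748) (nat_lit 76) (nat_lit 12192685350) (nat_lit 124) (nat_lit 5) (nat_lit 127) (nat_lit 5) (nat_lit 125) (nat_lit 5) (nat_lit 532) (nat_lit 447) (nat_lit 221))))) (XT.nd (nat_lit 312) (nat_lit 456) (nat_lit 0) (XT.nd (nat_lit 156) (nat_lit 152) (nat_lit 0) (XT.nd (nat_lit 78) (nat_lit 152) (nat_lit 0) (XT.lf (nat_lit 0) (nat_lit 5640629076) (nat_lit 228) (nat_lit 29236676907) (nat_lit 76) (nat_lit 37852758745) (nat_lit 121) (nat_lit 5) (nat_lit 124) (nat_lit 5) (nat_lit 122) (nat_lit 5) (nat_lit 533) (nat_lit 447) (nat_lit 220)) (XT.lf (nat_lit 0) (nat_lit 16595574824) (nat_lit 152) (nat_lit 9537665442) (nat_lit 228) (nat_lit 48009457746) (nat_lit 119) (nat_lit 5) (nat_lit 121) (nat_lit 5) (nat_lit 122) (nat_lit 5) (nat_lit 534) (nat_lit 447) (nat_lit 219))) (XT.nd (nat_lit 78) (nat_lit 152) (nat_lit 0) (XT.lf (nat_lit 0) (nat_lit 47696156630) (nat_lit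 228) (nat_lit 11352195804) (nat_lit 76) (nat_lit 16535692078) (nat_lit 119) (nat_lit 5) (nat_lit 122) (nat_lit 5) (nat_lit 120) (nat_lit 5) (nat_lit 535) (nat_lit 447) (nat_lit 218)) (XT.lf (nat_lit 0) (nat_lit 36849989036) (nat_lit 152) (nat_lit 33502846833) (nat_lit 228) (nat_lit 6702389298) (nat_lit 117) (nat_lit 5) (nat_lit 119) (nat_lit 5) (nat_lit 120) (nat_lit 5) (nat_lit 536) (nat_lit 447) (nat_lit 217)))) (XT.nd (nat_lit 156) (nat_lit 228) (nat_lit 0) (XT.nd (nat_lit 78) (nat_lit 0) (nat_lit 0) (XT.lf (nat_lit 0) (nat_lit 8173640590) (nat_lit 152) (nat_lit 6842575889) (nat_lit 228) (nat_lit 63544188024) (nat_lit 114) (nat_lit 5) (nat_lit 116) (nat_lit 5) (nat_lit 117) (nat_lit 5) (nat_lit 537) (nat_lit 447) (nat_lit 216)) (XT.lf (nat_lit 0) (nat_lit 37858100003) (nat_lit 228) (nat_lit 21542320749) (nat_lit 76) (nat_lit 20690134750) (nat_lit 114) (nat_lit 5) (nat_lit 117) (nat_lit 5) (nat_lit 115) (nat_lit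 5) (nat_lit 538) (nat_lit 447) (nat_lit 215))) (XT.nd (nat_lit 78) (nat_lit 76) (nat_lit 0) (XT.lf (nat_lit 0) (nat_lit 29267674895) (nat_lit 152) (nat_lit 32464932898) (nat_lit 228) (nat_lit 19923582223) (nat_lit 112) (nat_lit 5) (nat_lit 114) (nat_lit 5) (nat_lit 115) (nat_lit 5) (nat_lit 539) (nat_lit 447) (nat_lit 214)) (XT.lf (nat_lit 0) (nat_lit 3212924791) (nat_lit 228) (nat_lit 1253370312) (nat_lit 76) (nat_lit 78795078424) (nat_lit 111) (nat_lit 5) (nat_lit 114) (nat_lit 5) (nat_lit 112) (nat_lit 5) (nat_lit 540) (nat_lit 447) (nat_lit 213)))))) (XT.nd (nat_lit 55224) (nat_lit 0) (nat_lit 17176) (XT.nd (nat_lit 312) (nat_lit 304) (nat_lit 0) (XT.nd (nat_lit 156) (nat_lit 152) (nat_lit 0) (XT.nd (nat_lit 78) (nat_lit 152) (nat_lit 0) (XT.lf (nat_lit 0) (nat_lit 27384722019) (nat_lit 228) (nat_lit 32900180966) (nat_lit 76) (nat_lit 24601642503) (nat_lit 109) (nat_lit 5) (nat_lit 112) (nat_lit 5) (nat_lit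 110) (nat_lit 5) (nat_lit 541) (nat_lit 447) (nat_lit 212)) (XT.lf (nat_lit 0) (nat_lit 20644322575) (nat_lit 152) (nat_lit 31891139078) (nat_lit 228) (nat_lit 34017397316) (nat_lit 107) (nat_lit 5) (nat_lit 109) (nat_lit 5) (nat_lit 110) (nat_lit 5) (nat_lit 542) (nat_lit 447) (nat_lit 211))) (XT.nd (nat_lit 78) (nat_lit 152) (nat_lit 0) (XT.lf (nat_lit 0) (nat_lit 76466544938) (nat_lit 152) (nat_lit 2304764997) (nat_lit 228) (nat_lit 9487934342) (nat_lit 107) (nat_lit 5) (nat_lit 109) (nat_lit 5) (nat_lit 110) (nat_lit 5) (nat_lit 543) (nat_lit 447) (nat_lit 210)) (XT.lf (nat_lit 0) (nat_lit 16173781373) (nat_lit 152) (nat_lit 45612442947) (nat_lit 76) (nat_lit 28204919688) (nat_lit 105) (nat_lit 5) (nat_lit 107) (nat_lit 5) (nat_lit 106) (nat_lit 5) (nat_lit 544) (nat_lit 447) (nat_lit 209)))) (XT.nd (nat_lit 156) (nat_lit 152) (nat_lit 0) (XT.nd (nat_lit 78) (nat_lit 0) (nat_lit 0) (XT.lf (nat_lit 0) (nat_lit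 10795283739) (nat_lit 152) (nat_lit 31864615781) (nat_lit 228) (nat_lit 49104925555) (nat_lit 103) (nat_lit 5) (nat_lit 105) (nat_lit 5) (nat_lit 106) (nat_lit 5) (nat_lit 545) (nat_lit 447) (nat_lit 208)) (XT.lf (nat_lit 0) (nat_lit 69827295166) (nat_lit 152) (nat_lit 572317096) (nat_lit 228) (nat_lit 23178333995) (nat_lit 103) (nat_lit 5) (nat_lit 105) (nat_lit 5) (nat_lit 106) (nat_lit 5) (nat_lit 546) (nat_lit 447) (nat_lit 207))) (XT.nd (nat_lit 78) (nat_lit 0) (nat_lit 0) (XT.lf (nat_lit 0) (nat_lit 4108341001) (nat_lit 152) (nat_lit 59894687581) (nat_lit 76) (nat_lit 31421882917) (nat_lit 101) (nat_lit 5) (nat_lit 103) (nat_lit 5) (nat_lit 102) (nat_lit 5) (nat_lit 547) (nat_lit 447) (nat_lit 206)) (XT.lf (nat_lit 0) (nat_lit 31994081324) (nat_lit 152) (nat_lit 484137007) (nat_lit 76) (nat_lit 64834792927) (nat_lit 101) (nat_lit 5) (nat_lit 103) (nat_lit 5) (nat_lit 102) (nat_lit 5) (nat_lit 548) (nat_lit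 447) (nat_lit 205))))) (XT.nd (nat_lit 312) (nat_lit 0) (nat_lit 152) (XT.nd (nat_lit 156) (nat_lit 0) (nat_lit 76) (XT.nd (nat_lit 78) (nat_lit 0) (nat_lit 0) (XT.lf (nat_lit 0) (nat_lit 2302440409) (nat_lit 1292) (nat_lit 3081916761) (nat_lit 1292) (nat_lit 3081916761) (nat_lit 327) (nat_lit 3) (nat_lit 344) (nat_lit 3) (nat_lit 344) (nat_lit 5) (nat_lit 448) (nat_lit 448) (nat_lit 304)) (XT.lf (nat_lit 76) (nat_lit 2313748684) (nat_lit 0) (nat_lit 2613986620) (nat_lit 1292) (nat_lit 12251176653) (nat_lit 328) (nat_lit 5) (nat_lit 327) (nat_lit 3) (nat_lit 344) (nat_lit 5) (nat_lit 449) (nat_lit 448) (nat_lit 303))) (XT.nd (nat_lit 78) (nat_lit 0) (nat_lit 0) (XT.lf (nat_lit 0) (nat_lit 5369706647) (nat_lit 1216) (nat_lit 6320078807) (nat_lit 1292) (nat_lit 5739599001) (nat_lit 328) (nat_lit 5) (nat_lit 344) (nat_lit 5) (nat_lit 345) (nat_lit 5) (nat_lit 450) (nat_lit 448) (nat_lit 302)) (XT.lf (nat_lit 76) (nat_lit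 2499334457) (nat_lit 0) (nat_lit 3366731855) (nat_lit 1292) (nat_lit 11820071344) (nat_lit 329) (nat_lit 5) (nat_lit 328) (nat_lit 5) (nat_lit 345) (nat_lit 5) (nat_lit 451) (nat_lit 448) (nat_lit 301)))) (XT.nd (nat_lit 156) (nat_lit 0) (nat_lit 76) (XT.nd (nat_lit 78) (nat_lit 0) (nat_lit 0) (XT.lf (nat_lit 0) (nat_lit 6483279899) (nat_lit 1216) (nat_lit 6291627126) (nat_lit 1292) (nat_lit 5172507927) (nat_lit 329) (nat_lit 5) (nat_lit 345) (nat_lit 5) (nat_lit 346) (nat_lit 5) (nat_lit 452) (nat_lit 448) (nat_lit 300)) (XT.lf (nat_lit 76) (nat_lit 2888425530) (nat_lit 0) (nat_lit 4283399633) (nat_lit 1292) (nat_lit 11043121329) (nat_lit 330) (nat_lit 5) (nat_lit 329) (nat_lit 5) (nat_lit 346) (nat_lit 5) (nat_lit 453) (nat_lit 448) (nat_lit 299))) (XT.nd (nat_lit 78) (nat_lit 0) (nat_lit 0) (XT.lf (nat_lit 0) (nat_lit 7980028285) (nat_lit 1216) (nat_lit 6064507128) (nat_lit 1292) (nat_lit 4442998889) (nat_lit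 330) (nat_lit 5) (nat_lit 346) (nat_lit 5) (nat_lit 347) (nat_lit 5) (nat_lit 454) (nat_lit 448) (nat_lit 298)) (XT.lf (nat_lit 76) (nat_lit 3496098714) (nat_lit 0) (nat_lit 5384569777) (nat_lit 1292) (nat_lit 9885585885) (nat_lit 331) (nat_lit 5) (nat_lit 330) (nat_lit 5) (nat_lit 347) (nat_lit 5) (nat_lit 455) (nat_lit 448) (nat_lit 297))))))) (XT.nd (nat_lit 1170) (nat_lit 4560) (nat_lit 0) (XT.nd (nat_lit 546) (nat_lit 3040) (nat_lit 0) (XT.nd (nat_lit 234) (nat_lit 0) (nat_lit 76) (XT.nd (nat_lit 78) (nat_lit 0) (nat_lit 0) (XT.lf (nat_lit 0) (nat_lit 9896535499) (nat_lit 1216) (nat_lit 5623533525) (nat_lit 1292) (nat_lit 3530621151) (nat_lit 331) (nat_lit 5) (nat_lit 347) (nat_lit 5) (nat_lit 348) (nat_lit 5) (nat_lit 456) (nat_lit 448) (nat_lit 296)) (XT.nd (nat_lit 78) (nat_lit 0) (nat_lit 76) (XT.lf (nat_lit 76) (nat_lit 4338707390) (nat_lit 0) (nat_lit 6691791148) (nat_lit 1292) (nat_lit 8310532248) (nat_lit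 332) (nat_lit 5) (nat_lit 331) (nat_lit 5) (nat_lit 348) (nat_lit 5) (nat_lit 457) (nat_lit 448) (nat_lit 295)) (XT.lf (nat_lit 0) (nat_lit 12271700960) (nat_lit 1216) (nat_lit 4952249696) (nat_lit 1292) (nat_lit 2413934675) (nat_lit 332) (nat_lit 5) (nat_lit 348) (nat_lit 5) (nat_lit 349) (nat_lit 5) (nat_lit 458) (nat_lit 448) (nat_lit 294)))) (XT.nd (nat_lit 156) (nat_lit 0) (nat_lit 76) (XT.nd (nat_lit 78) (nat_lit 0) (nat_lit 76) (XT.lf (nat_lit 76) (nat_lit 5433942777) (nat_lit 0) (nat_lit 8227684941) (nat_lit 1292) (nat_lit 6278673464) (nat_lit 333) (nat_lit 5) (nat_lit 332) (nat_lit 5) (nat_lit 349) (nat_lit 5) (nat_lit 459) (nat_lit 448) (nat_lit 293)) (XT.lf (nat_lit 0) (nat_lit 15146907782) (nat_lit 1216) (nat_lit 4032865130) (nat_lit 1292) (nat_lit 1070407243) (nat_lit 333) (nat_lit 5) (nat_lit 349) (nat_lit 5) (nat_lit 350) (nat_lit 5) (nat_lit 460) (nat_lit 448) (nat_lit 292))) (XT.nd (nat_lit 78)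 (nat_lit 0) (nat_lit 0) (XT.lf (nat_lit 76) (nat_lit 6800900564) (nat_lit 0) (nat_lit 10016051223) (nat_lit 1292) (nat_lit 3748197844) (nat_lit 334) (nat_lit 5) (nat_lit 333) (nat_lit 5) (nat_lit 350) (nat_lit 5) (nat_lit 461) (nat_lit 448) (nat_lit 291)) (XT.lf (nat_lit 76) (nat_lit 18037219581) (nat_lit 0) (nat_lit 534114291) (nat_lit 1292) (nat_lit 2317207511) (nat_lit 334) (nat_lit 5) (nat_lit 333) (nat_lit 5) (nat_lit 350) (nat_lit 5) (nat_lit 462) (nat_lit 448) (nat_lit 290))))) (XT.nd (nat_lit 312) (nat_lit 1216) (nat_lit 0) (XT.nd (nat_lit 156) (nat_lit 760) (nat_lit 0) (XT.nd (nat_lit 78) (nat_lit 1292) (nat_lit 0) (XT.lf (nat_lit 76) (nat_lit 8460153073) (nat_lit 0) (nat_lit 12081979194) (nat_lit 1292) (nat_lit 674589358) (nat_lit 335) (nat_lit 5) (nat_lit 334) (nat_lit 5) (nat_lit 351) (nat_lit 5) (nat_lit 463) (nat_lit 448) (nat_lit 289)) (XT.lf (nat_lit 0) (nat_lit 1025609028) (nat_lit 1292) (nat_lit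 1405069365) (nat_lit 1368) (nat_lit 19122931188) (nat_lit 317) (nat_lit 5) (nat_lit 334) (nat_lit 5) (nat_lit 335) (nat_lit 5) (nat_lit 464) (nat_lit 448) (nat_lit 288))) (XT.nd (nat_lit 78) (nat_lit 836) (nat_lit 0) (XT.lf (nat_lit 0) (nat_lit 2931224604) (nat_lit 1292) (nat_lit 11491137444) (nat_lit 76) (nat_lit 7473002922) (nat_lit 318) (nat_lit 5) (nat_lit 335) (nat_lit 5) (nat_lit 319) (nat_lit 5) (nat_lit 465) (nat_lit 448) (nat_lit 287)) (XT.lf (nat_lit 0) (nat_lit 326587219) (nat_lit 836) (nat_lit 4603059048) (nat_lit 912) (nat_lit 17316657877) (nat_lit 307) (nat_lit 5) (nat_lit 318) (nat_lit 5) (nat_lit 319) (nat_lit 5) (nat_lit 466) (nat_lit 448) (nat_lit 286)))) (XT.nd (nat_lit 156) (nat_lit 608) (nat_lit 0) (XT.nd (nat_lit 78) (nat_lit 608) (nat_lit 0) (XT.lf (nat_lit 0) (nat_lit 7152411603) (nat_lit 912) (nat_lit 9929377349) (nat_lit 76) (nat_lit 5521051054) (nat_lit 307) (nat_lit 5) (nat_lit 319) (nat_lit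 5) (nat_lit 308) (nat_lit 5) (nat_lit 467) (nat_lit 448) (nat_lit 285)) (XT.lf (nat_lit 0) (nat_lit 2417053897) (nat_lit 608) (nat_lit 7088013854) (nat_lit 684) (nat_lit 13463108197) (nat_lit 299) (nat_lit 5) (nat_lit 307) (nat_lit 5) (nat_lit 308) (nat_lit 5) (nat_lit 468) (nat_lit 448) (nat_lit 284))) (XT.nd (nat_lit 78) (nat_lit 608) (nat_lit 0) (XT.lf (nat_lit 0) (nat_lit 12054893050) (nat_lit 684) (nat_lit 8041176118) (nat_lit 76) (nat_lit 3244605346) (nat_lit 299) (nat_lit 5) (nat_lit 308) (nat_lit 5) (nat_lit 300) (nat_lit 5) (nat_lit 469) (nat_lit 448) (nat_lit 283)) (XT.lf (nat_lit 0) (nat_lit 4863625760) (nat_lit 608) (nat_lit 9929193126) (nat_lit 684) (nat_lit 8928181202) (nat_lit 291) (nat_lit 5) (nat_lit 299) (nat_lit 5) (nat_lit 300) (nat_lit 5) (nat_lit 470) (nat_lit 448) (nat_lit 282)))))) (XT.nd (nat_lit 624) (nat_lit 2280) (nat_lit 0) (XT.nd (nat_lit 312) (nat_lit 1064) (nat_lit 0) (XT.nd (nat_lit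 156) (nat_lit 684) (nat_lit 0) (XT.nd (nat_lit 78) (nat_lit 532) (nat_lit 0) (XT.lf (nat_lit 0) (nat_lit 17694885329) (nat_lit 684) (nat_lit 5801190095) (nat_lit 76) (nat_lit 614200138) (nat_lit 291) (nat_lit 5) (nat_lit 300) (nat_lit 5) (nat_lit 292) (nat_lit 5) (nat_lit 471) (nat_lit 448) (nat_lit 281)) (XT.lf (nat_lit 0) (nat_lit 7693371977) (nat_lit 532) (nat_lit 13157838101) (nat_lit 608) (nat_lit 3655003544) (nat_lit 284) (nat_lit 5) (nat_lit 291) (nat_lit 5) (nat_lit 292) (nat_lit 5) (nat_lit 472) (nat_lit 448) (nat_lit 280))) (XT.nd (nat_lit 78) (nat_lit 684) (nat_lit 0) (XT.lf (nat_lit 0) (nat_lit 21706615618) (nat_lit 532) (nat_lit 2449222449) (nat_lit 608) (nat_lit 756583558) (nat_lit 284) (nat_lit 5) (nat_lit 291) (nat_lit 5) (nat_lit 292) (nat_lit 5) (nat_lit 473) (nat_lit 448) (nat_lit 279)) (XT.lf (nat_lit 0) (nat_lit 2369882340) (nat_lit 684) (nat_lit 14413292210) (nat_lit 76) (nat_lit 8541461225)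 (nat_lit 275) (nat_lit 5) (nat_lit 284) (nat_lit 5) (nat_lit 276) (nat_lit 5) (nat_lit 474) (nat_lit 448) (nat_lit 278)))) (XT.nd (nat_lit 156) (nat_lit 532) (nat_lit 0) (XT.nd (nat_lit 78) (nat_lit 532) (nat_lit 0) (XT.lf (nat_lit 0) (nat_lit 5627099961) (nat_lit 684) (nat_lit 267698518) (nat_lit 76) (nat_lit 19852628402) (nat_lit 275) (nat_lit 5) (nat_lit 284) (nat_lit 5) (nat_lit 276) (nat_lit 5) (nat_lit 475) (nat_lit 448) (nat_lit 277)) (XT.lf (nat_lit 0) (nat_lit 9170090542) (nat_lit 608) (nat_lit 11649521408) (nat_lit 76) (nat_lit 5357648258) (nat_lit 268) (nat_lit 5) (nat_lit 276) (nat_lit 5) (nat_lit 269) (nat_lit 5) (nat_lit 476) (nat_lit 448) (nat_lit 276))) (XT.nd (nat_lit 78) (nat_lit 0) (nat_lit 0) (XT.lf (nat_lit 0) (nat_lit 3150657763) (nat_lit 532) (nat_lit 9755538682) (nat_lit 608) (nat_lit 13711187500) (nat_lit 261) (nat_lit 5) (nat_lit 268) (nat_lit 5) (nat_lit 269) (nat_lit 5) (nat_lit 477)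 (nat_lit 448) (nat_lit 275)) (XT.lf (nat_lit 0) (nat_lit 16884481343) (nat_lit 608) (nat_lit 8455600813) (nat_lit 76) (nat_lit 1726726535) (nat_lit 261) (nat_lit 5) (nat_lit 269) (nat_lit 5) (nat_lit 262) (nat_lit 5) (nat_lit 478) (nat_lit 448) (nat_lit 274))))) (XT.nd (nat_lit 312) (nat_lit 1292) (nat_lit 0) (XT.nd (nat_lit 156) (nat_lit 532) (nat_lit 0) (XT.nd (nat_lit 78) (nat_lit 0) (nat_lit 0) (XT.lf (nat_lit 0) (nat_lit 7041696308) (nat_lit 456) (nat_lit 14100352105) (nat_lit 532) (nat_lit 6382869924) (nat_lit 255) (nat_lit 5) (nat_lit 261) (nat_lit 5) (nat_lit 262) (nat_lit 5) (nat_lit 479) (nat_lit 448) (nat_lit 273)) (XT.lf (nat_lit 0) (nat_lit 23172311332) (nat_lit 456) (nat_lit 2436150333) (nat_lit 532) (nat_lit 2385876195) (nat_lit 255) (nat_lit 5) (nat_lit 261) (nat_lit 5) (nat_lit 262) (nat_lit 5) (nat_lit 480) (nat_lit 448) (nat_lit 272))) (XT.nd (nat_lit 78) (nat_lit 0) (nat_lit 0) (XT.lf (nat_lit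 0) (nat_lit 1897050889) (nat_lit 532) (nat_lit 17055333607) (nat_lit 76) (nat_lit 9518962370) (nat_lit 248) (nat_lit 5) (nat_lit 255) (nat_lit 5) (nat_lit 249) (nat_lit 5) (nat_lit 481) (nat_lit 448) (nat_lit 271)) (XT.lf (nat_lit 0) (nat_lit 6329693284) (nat_lit 532) (nat_lit 774330214) (nat_lit 76) (nat_lit 21855858680) (nat_lit 248) (nat_lit 5) (nat_lit 255) (nat_lit 5) (nat_lit 249) (nat_lit 5) (nat_lit 482) (nat_lit 448) (nat_lit 270)))) (XT.nd (nat_lit 156) (nat_lit 380) (nat_lit 0) (XT.nd (nat_lit 78) (nat_lit 456) (nat_lit 0) (XT.lf (nat_lit 0) (nat_lit 11098655037) (nat_lit 532) (nat_lit 13200512553) (nat_lit 76) (nat_lit 5157805901) (nat_lit 242) (nat_lit 5) (nat_lit 249) (nat_lit 5) (nat_lit 243) (nat_lit 5) (nat_lit 483) (nat_lit 448) (nat_lit 269)) (XT.lf (nat_lit 0) (nat_lit 3845062669) (nat_lit 456) (nat_lit 12276885960) (nat_lit 532) (nat_lit 13843691163) (nat_lit 236) (nat_lit 5) (nat_lit 242) (nat_lit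 5) (nat_lit 243) (nat_lit 5) (nat_lit 484) (nat_lit 448) (nat_lit 268))) (XT.nd (nat_lit 78) (nat_lit 380) (nat_lit 0) (XT.lf (nat_lit 0) (nat_lit 21427707194) (nat_lit 532) (nat_lit 8820222945) (nat_lit 76) (nat_lit 237683094) (nat_lit 236) (nat_lit 5) (nat_lit 243) (nat_lit 5) (nat_lit 237) (nat_lit 5) (nat_lit 485) (nat_lit 448) (nat_lit 267)) (XT.lf (nat_lit 0) (nat_lit 9049398972) (nat_lit 380) (nat_lit 18048021543) (nat_lit 456) (nat_lit 3917622035) (nat_lit 231) (nat_lit 5) (nat_lit 236) (nat_lit 5) (nat_lit 237) (nat_lit 5) (nat_lit 486) (nat_lit 448) (nat_lit 266))))))))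
noncomputable def xc193 : XT := (XT.nd (nat_lit 2418) (nat_lit 3876) (nat_lit 0) (XT.nd (nat_lit 1170) (nat_lit 2584) (nat_lit 0) (XT.nd (nat_lit 546) (nat_lit 1672) (nat_lit 0) (XT.nd (nat_lit 234) (nat_lit 836) (nat_lit 0) (XT.nd (nat_lit 78) (nat_lit 836) (nat_lit 0) (XT.lf (nat_lit 0) (nat_lit 1436219239) (nat_lit 456) (nat_lit 3940687950) (nat_lit 76) (nat_lit 26180464127) (nat_lit 230) (nat_lit 5) (nat_lit 236) (nat_lit 5) (nat_lit 231) (nat_lit 5) (nat_lit 487) (nat_lit 448) (nat_lit 265)) (XT.nd (nat_lit 78) (nat_lit 380) (nat_lit 0) (XT.lf (nat_lit 0) (nat_lit 7086828209) (nat_lit 532) (nat_lit 17314420216) (nat_lit 76) (nat_lit 7707111208) (nat_lit 224) (nat_lit 5) (nat_lit 231) (nat_lit 5) (nat_lit 225) (nat_lit 5) (nat_lit 488) (nat_lit 448) (nat_lit 264)) (XT.lf (nat_lit 0) (nat_lit 1466982735) (nat_lit 380) (nat_lit 11543925529) (nat_lit 456) (nat_lit 19661850868) (nat_lit 219) (nat_lit 5) (nat_lit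 224) (nat_lit 5) (nat_lit 225) (nat_lit 5) (nat_lit 489) (nat_lit 448) (nat_lit 263)))) (XT.nd (nat_lit 156) (nat_lit 456) (nat_lit 0) (XT.nd (nat_lit 78) (nat_lit 380) (nat_lit 0) (XT.lf (nat_lit 0) (nat_lit 19302091913) (nat_lit 456) (nat_lit 12104915928) (nat_lit 76) (nat_lit 1841401451) (nat_lit 219) (nat_lit 5) (nat_lit 225) (nat_lit 5) (nat_lit 220) (nat_lit 5) (nat_lit 490) (nat_lit 448) (nat_lit 262)) (XT.lf (nat_lit 0) (nat_lit 7598320467) (nat_lit 380) (nat_lit 18367604698) (nat_lit 456) (nat_lit 7869886481) (nat_lit 214) (nat_lit 5) (nat_lit 219) (nat_lit 5) (nat_lit 220) (nat_lit 5) (nat_lit 491) (nat_lit 448) (nat_lit 261))) (XT.nd (nat_lit 78) (nat_lit 456) (nat_lit 0) (XT.lf (nat_lit 0) (nat_lit 28136214007) (nat_lit 380) (nat_lit 4812329073) (nat_lit 456) (nat_lit 1488727008) (nat_lit 214) (nat_lit 5) (nat_lit 219) (nat_lit 5) (nat_lit 220) (nat_lit 5) (nat_lit 492) (nat_lit 448) (nat_lit 260)) (XT.lf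 (nat_lit 0) (nat_lit 5210182784) (nat_lit 456) (nat_lit 20678731800) (nat_lit 76) (nat_lit 9159626119) (nat_lit 208) (nat_lit 5) (nat_lit 214) (nat_lit 5) (nat_lit 209) (nat_lit 5) (nat_lit 493) (nat_lit 448) (nat_lit 259))))) (XT.nd (nat_lit 312) (nat_lit 988) (nat_lit 0) (XT.nd (nat_lit 156) (nat_lit 304) (nat_lit 0) (XT.nd (nat_lit 78) (nat_lit 0) (nat_lit 0) (XT.lf (nat_lit 0) (nat_lit 47073770) (nat_lit 380) (nat_lit 12142162587) (nat_lit 456) (nat_lit 23485198029) (nat_lit 203) (nat_lit 5) (nat_lit 208) (nat_lit 5) (nat_lit 209) (nat_lit 5) (nat_lit 494) (nat_lit 448) (nat_lit 258)) (XT.lf (nat_lit 0) (nat_lit 19604712113) (nat_lit 456) (nat_lit 14520341277) (nat_lit 76) (nat_lit 2187240068) (nat_lit 203) (nat_lit 5) (nat_lit 209) (nat_lit 5) (nat_lit 204) (nat_lit 5) (nat_lit 495) (nat_lit 448) (nat_lit 257))) (XT.nd (nat_lit 78) (nat_lit 0) (nat_lit 0) (XT.lf (nat_lit 0) (nat_lit 7236419529) (nat_lit 304)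 (nat_lit 20192886620) (nat_lit 380) (nat_lit 9534382624) (nat_lit 199) (nat_lit 5) (nat_lit 203) (nat_lit 5) (nat_lit 204) (nat_lit 5) (nat_lit 496) (nat_lit 448) (nat_lit 256)) (XT.lf (nat_lit 0) (nat_lit 29939121339) (nat_lit 304) (nat_lit 5693065953) (nat_lit 380) (nat_lit 1998132268) (nat_lit 199) (nat_lit 5) (nat_lit 203) (nat_lit 5) (nat_lit 204) (nat_lit 5) (nat_lit 497) (nat_lit 448) (nat_lit 255)))) (XT.nd (nat_lit 156) (nat_lit 608) (nat_lit 0) (XT.nd (nat_lit 78) (nat_lit 0) (nat_lit 0) (XT.lf (nat_lit 0) (nat_lit 5886062823) (nat_lit 380) (nat_lit 23158147264) (nat_lit 76) (nat_lit 9264046865) (nat_lit 194) (nat_lit 5) (nat_lit 199) (nat_lit 5) (nat_lit 195) (nat_lit 5) (nat_lit 498) (nat_lit 448) (nat_lit 254)) (XT.lf (nat_lit 0) (nat_lit 14098441269) (nat_lit 380) (nat_lit 251183022) (nat_lit 76) (nat_lit 24652360214) (nat_lit 194) (nat_lit 5) (nat_lit 199) (nat_lit 5) (nat_lit 195) (nat_lit 5) (nat_lit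 499) (nat_lit 448) (nat_lit 253))) (XT.nd (nat_lit 78) (nat_lit 304) (nat_lit 0) (XT.lf (nat_lit 0) (nat_lit 22792911145) (nat_lit 380) (nat_lit 15916328138) (nat_lit 76) (nat_lit 1000213079) (nat_lit 190) (nat_lit 5) (nat_lit 195) (nat_lit 5) (nat_lit 191) (nat_lit 5) (nat_lit 500) (nat_lit 448) (nat_lit 252)) (XT.lf (nat_lit 0) (nat_lit 8138264475) (nat_lit 304) (nat_lit 23829951444) (nat_lit 380) (nat_lit 8463328389) (nat_lit 186) (nat_lit 5) (nat_lit 190) (nat_lit 5) (nat_lit 191) (nat_lit 5) (nat_lit 501) (nat_lit 448) (nat_lit 251)))))) (XT.nd (nat_lit 624) (nat_lit 1064) (nat_lit 0) (XT.nd (nat_lit 312) (nat_lit 836) (nat_lit 0) (XT.nd (nat_lit 156) (nat_lit 304) (nat_lit 0) (XT.nd (nat_lit 78) (nat_lit 304) (nat_lit 0) (XT.lf (nat_lit 0) (nat_lit 398193117) (nat_lit 380) (nat_lit 7937943262) (nat_lit 76) (nat_lit 32834308587) (nat_lit 185) (nat_lit 5) (nat_lit 190) (nat_lit 5) (nat_lit 186) (nat_lit 5) (nat_lit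 502) (nat_lit 448) (nat_lit 250)) (XT.lf (nat_lit 0) (nat_lit 9595687211) (nat_lit 380) (nat_lit 24600194190) (nat_lit 76) (nat_lit 7725910509) (nat_lit 181) (nat_lit 5) (nat_lit 186) (nat_lit 5) (nat_lit 182) (nat_lit 5) (nat_lit 503) (nat_lit 448) (nat_lit 249))) (XT.nd (nat_lit 78) (nat_lit 0) (nat_lit 0) (XT.lf (nat_lit 0) (nat_lit 735186511) (nat_lit 304) (nat_lit 18501732907) (nat_lit 380) (nat_lit 23453725516) (nat_lit 177) (nat_lit 5) (nat_lit 181) (nat_lit 5) (nat_lit 182) (nat_lit 5) (nat_lit 504) (nat_lit 448) (nat_lit 248)) (XT.lf (nat_lit 0) (nat_lit 27330749242) (nat_lit 304) (nat_lit 2082351853) (nat_lit 380) (nat_lit 14062091144) (nat_lit 177) (nat_lit 5) (nat_lit 181) (nat_lit 5) (nat_lit 182) (nat_lit 5) (nat_lit 505) (nat_lit 448) (nat_lit 247)))) (XT.nd (nat_lit 156) (nat_lit 532) (nat_lit 0) (XT.nd (nat_lit 78) (nat_lit 76) (nat_lit 0) (XT.lf (nat_lit 0) (nat_lit 10499124082) (nat_lit 228) (nat_lit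 29636283279) (nat_lit 304) (nat_lit 4140643493) (nat_lit 174) (nat_lit 5) (nat_lit 177) (nat_lit 5) (nat_lit 178) (nat_lit 5) (nat_lit 506) (nat_lit 448) (nat_lit 246)) (XT.lf (nat_lit 0) (nat_lit 6142469659) (nat_lit 304) (nat_lit 6907877521) (nat_lit 76) (nat_lit 32043356182) (nat_lit 173) (nat_lit 5) (nat_lit 177) (nat_lit 5) (nat_lit 174) (nat_lit 5) (nat_lit 507) (nat_lit 448) (nat_lit 245))) (XT.nd (nat_lit 78) (nat_lit 228) (nat_lit 0) (XT.lf (nat_lit 0) (nat_lit 16892637651) (nat_lit 380) (nat_lit 24835145275) (nat_lit 76) (nat_lit 4199619156) (nat_lit 169) (nat_lit 5) (nat_lit 174) (nat_lit 5) (nat_lit 170) (nat_lit 5) (nat_lit 508) (nat_lit 448) (nat_lit 244)) (XT.lf (nat_lit 0) (nat_lit 3218872800) (nat_lit 228) (nat_lit 24974512193) (nat_lit 304) (nat_lit 18585884598) (nat_lit 166) (nat_lit 5) (nat_lit 169) (nat_lit 5) (nat_lit 170) (nat_lit 5) (nat_lit 509) (nat_lit 448) (nat_lit 243))))) (XT.nd (nat_lit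 312) (nat_lit 532) (nat_lit 0) (XT.nd (nat_lit 156) (nat_lit 228) (nat_lit 0) (XT.nd (nat_lit 78) (nat_lit 304) (nat_lit 0) (XT.lf (nat_lit 0) (nat_lit 32619629148) (nat_lit 228) (nat_lit 7461821701) (nat_lit 304) (nat_lit 7567793450) (nat_lit 166) (nat_lit 5) (nat_lit 169) (nat_lit 5) (nat_lit 170) (nat_lit 5) (nat_lit 510) (nat_lit 448) (nat_lit 242)) (XT.lf (nat_lit 0) (nat_lit 3948382913) (nat_lit 304) (nat_lit 34041723108) (nat_lit 76) (nat_lit 10546882359) (nat_lit 162) (nat_lit 5) (nat_lit 166) (nat_lit 5) (nat_lit 163) (nat_lit 5) (nat_lit 511) (nat_lit 448) (nat_lit 241))) (XT.nd (nat_lit 78) (nat_lit 228) (nat_lit 0) (XT.lf (nat_lit 0) (nat_lit 15882669314) (nat_lit 304) (nat_lit 4387068974) (nat_lit 76) (nat_lit 29172636789) (nat_lit 162) (nat_lit 5) (nat_lit 166) (nat_lit 5) (nat_lit 163) (nat_lit 5) (nat_lit 512) (nat_lit 448) (nat_lit 240)) (XT.lf (nat_lit 0) (nat_lit 26673912357) (nat_lit 228) (nat_lit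 1755126617) (nat_lit 304) (nat_lit 21938262811) (nat_lit 159) (nat_lit 5) (nat_lit 162) (nat_lit 5) (nat_lit 163) (nat_lit 5) (nat_lit 513) (nat_lit 448) (nat_lit 239)))) (XT.nd (nat_lit 156) (nat_lit 228) (nat_lit 0) (XT.nd (nat_lit 78) (nat_lit 76) (nat_lit 0) (XT.lf (nat_lit 0) (nat_lit 7411924862) (nat_lit 228) (nat_lit 34219970698) (nat_lit 304) (nat_lit 9679677908) (nat_lit 156) (nat_lit 5) (nat_lit 159) (nat_lit 5) (nat_lit 160) (nat_lit 5) (nat_lit 514) (nat_lit 448) (nat_lit 238)) (XT.lf (nat_lit 0) (nat_lit 3145843098) (nat_lit 304) (nat_lit 12392820689) (nat_lit 76) (nat_lit 36736959447) (nat_lit 155) (nat_lit 5) (nat_lit 159) (nat_lit 5) (nat_lit 156) (nat_lit 5) (nat_lit 515) (nat_lit 448) (nat_lit 237))) (XT.nd (nat_lit 78) (nat_lit 0) (nat_lit 0) (XT.lf (nat_lit 0) (nat_lit 16393472179) (nat_lit 304) (nat_lit 32941506858) (nat_lit 76) (nat_lit 3923783517) (nat_lit 152) (nat_lit 5) (nat_lit 156) (nat_lit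 5) (nat_lit 153) (nat_lit 5) (nat_lit 516) (nat_lit 448) (nat_lit 236)) (XT.lf (nat_lit 0) (nat_lit 30316519775) (nat_lit 304) (nat_lit 163801523) (nat_lit 76) (nat_lit 23782735107) (nat_lit 152) (nat_lit 5) (nat_lit 156) (nat_lit 5) (nat_lit 153) (nat_lit 5) (nat_lit 517) (nat_lit 448) (nat_lit 235))))))) (XT.nd (nat_lit 1248) (nat_lit 1748) (nat_lit 0) (XT.nd (nat_lit 624) (nat_lit 988) (nat_lit 0) (XT.nd (nat_lit 312) (nat_lit 456) (nat_lit 0) (XT.nd (nat_lit 156) (nat_lit 228) (nat_lit 0) (XT.nd (nat_lit 78) (nat_lit 228) (nat_lit 0) (XT.lf (nat_lit 0) (nat_lit 34262174948) (nat_lit 228) (nat_lit 10722257357) (nat_lit 304) (nat_lit 10303231606) (nat_lit 149) (nat_lit 5) (nat_lit 152) (nat_lit 5) (nat_lit 153) (nat_lit 5) (nat_lit 518) (nat_lit 448) (nat_lit 234)) (XT.lf (nat_lit 0) (nat_lit 3900721185) (nat_lit 228) (nat_lit 42825079748) (nat_lit 76) (nat_lit 9609392138) (nat_lit 146) (nat_lit 5) (nat_lit 149)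 (nat_lit 5) (nat_lit 147) (nat_lit 5) (nat_lit 519) (nat_lit 448) (nat_lit 233))) (XT.nd (nat_lit 78) (nat_lit 228) (nat_lit 0) (XT.lf (nat_lit 0) (nat_lit 18642133387) (nat_lit 228) (nat_lit 8108928651) (nat_lit 76) (nat_lit 30650472973) (nat_lit 146) (nat_lit 5) (nat_lit 149) (nat_lit 5) (nat_lit 147) (nat_lit 5) (nat_lit 520) (nat_lit 448) (nat_lit 232)) (XT.lf (nat_lit 0) (nat_lit 28195346023) (nat_lit 228) (nat_lit 5899381840) (nat_lit 304) (nat_lit 24397071185) (nat_lit 143) (nat_lit 5) (nat_lit 146) (nat_lit 5) (nat_lit 147) (nat_lit 5) (nat_lit 521) (nat_lit 448) (nat_lit 231)))) (XT.nd (nat_lit 156) (nat_lit 228) (nat_lit 0) (XT.nd (nat_lit 78) (nat_lit 76) (nat_lit 0) (XT.lf (nat_lit 0) (nat_lit 6107721811) (nat_lit 152) (nat_lit 44192250434) (nat_lit 228) (nat_lit 9306126636) (nat_lit 141) (nat_lit 5) (nat_lit 143) (nat_lit 5) (nat_lit 144) (nat_lit 5) (nat_lit 522) (nat_lit 448) (nat_lit 230)) (XT.lf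 (nat_lit 0) (nat_lit 6481131116) (nat_lit 228) (nat_lit 16644551211) (nat_lit 76) (nat_lit 37615387586) (nat_lit 140) (nat_lit 5) (nat_lit 143) (nat_lit 5) (nat_lit 141) (nat_lit 5) (nat_lit 523) (nat_lit 448) (nat_lit 229))) (XT.nd (nat_lit 78) (nat_lit 0) (nat_lit 0) (XT.lf (nat_lit 0) (nat_lit 21641585782) (nat_lit 228) (nat_lit 1119397702) (nat_lit 304) (nat_lit 39140161803) (nat_lit 137) (nat_lit 5) (nat_lit 140) (nat_lit 5) (nat_lit 141) (nat_lit 5) (nat_lit 524) (nat_lit 448) (nat_lit 228)) (XT.lf (nat_lit 0) (nat_lit 39904096843) (nat_lit 304) (nat_lit 1885745266) (nat_lit 76) (nat_lit 21294934884) (nat_lit 137) (nat_lit 5) (nat_lit 141) (nat_lit 5) (nat_lit 138) (nat_lit 5) (nat_lit 525) (nat_lit 448) (nat_lit 227))))) (XT.nd (nat_lit 312) (nat_lit 380) (nat_lit 0) (XT.nd (nat_lit 156) (nat_lit 152) (nat_lit 0) (XT.nd (nat_lit 78) (nat_lit 304) (nat_lit 0) (XT.lf (nat_lit 0) (nat_lit 38373628618) (nat_lit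 152) (nat_lit 19565887451) (nat_lit 228) (nat_lit 6353061238) (nat_lit 135) (nat_lit 5) (nat_lit 137) (nat_lit 5) (nat_lit 138) (nat_lit 5) (nat_lit 526) (nat_lit 448) (nat_lit 226)) (XT.lf (nat_lit 0) (nat_lit 10956548466) (nat_lit 304) (nat_lit 51045727473) (nat_lit 76) (nat_lit 3525427216) (nat_lit 131) (nat_lit 5) (nat_lit 135) (nat_lit 5) (nat_lit 132) (nat_lit 5) (nat_lit 527) (nat_lit 448) (nat_lit 225))) (XT.nd (nat_lit 78) (nat_lit 152) (nat_lit 0) (XT.lf (nat_lit 0) (nat_lit 29113874067) (nat_lit 304) (nat_lit 10428399821) (nat_lit 76) (nat_lit 27242038334) (nat_lit 131) (nat_lit 5) (nat_lit 135) (nat_lit 5) (nat_lit 132) (nat_lit 5) (nat_lit 528) (nat_lit 448) (nat_lit 224)) (XT.lf (nat_lit 0) (nat_lit 32029155596) (nat_lit 152) (nat_lit 16092778002) (nat_lit 228) (nat_lit 19947505567) (nat_lit 129) (nat_lit 5) (nat_lit 131) (nat_lit 5) (nat_lit 132) (nat_lit 5) (nat_lit 529) (nat_lit 448) (nat_lit 223))))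 (XT.nd (nat_lit 156) (nat_lit 152) (nat_lit 0) (XT.nd (nat_lit 78) (nat_lit 76) (nat_lit 0) (XT.lf (nat_lit 0) (nat_lit 6631831878) (nat_lit 152) (nat_lit 61314120673) (nat_lit 228) (nat_lit 1439795863) (nat_lit 127) (nat_lit 5) (nat_lit 129) (nat_lit 5) (nat_lit 130) (nat_lit 5) (nat_lit 530) (nat_lit 448) (nat_lit 222)) (XT.lf (nat_lit 0) (nat_lit 17804272335) (nat_lit 228) (nat_lit 19743380086) (nat_lit 76) (nat_lit 33173061863) (nat_lit 126) (nat_lit 5) (nat_lit 129) (nat_lit 5) (nat_lit 127) (nat_lit 5) (nat_lit 531) (nat_lit 448) (nat_lit 221))) (XT.nd (nat_lit 78) (nat_lit 0) (nat_lit 0) (XT.lf (nat_lit 0) (nat_lit 25028397366) (nat_lit 152) (nat_lit 12807113338) (nat_lit 228) (nat_lit 34252627190) (nat_lit 124) (nat_lit 5) (nat_lit 126) (nat_lit 5) (nat_lit 127) (nat_lit 5) (nat_lit 532) (nat_lit 448) (nat_lit 220)) (XT.lf (nat_lit 0) (nat_lit 58789082364) (nat_lit 228) (nat_lit 2069597327) (nat_lit 76)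 (nat_lit 12628262662) (nat_lit 124) (nat_lit 5) (nat_lit 127) (nat_lit 5) (nat_lit 125) (nat_lit 5) (nat_lit 533) (nat_lit 448) (nat_lit 219)))))) (XT.nd (nat_lit 624) (nat_lit 760) (nat_lit 0) (XT.nd (nat_lit 312) (nat_lit 456) (nat_lit 0) (XT.nd (nat_lit 156) (nat_lit 152) (nat_lit 0) (XT.nd (nat_lit 78) (nat_lit 152) (nat_lit 0) (XT.lf (nat_lit 0) (nat_lit 5900660093) (nat_lit 228) (nat_lit 29950028753) (nat_lit 76) (nat_lit 39058552326) (nat_lit 121) (nat_lit 5) (nat_lit 124) (nat_lit 5) (nat_lit 122) (nat_lit 5) (nat_lit 534) (nat_lit 448) (nat_lit 218)) (XT.lf (nat_lit 0) (nat_lit 17255585153) (nat_lit 152) (nat_lit 9751378071) (nat_lit 228) (nat_lit 49357322855) (nat_lit 119) (nat_lit 5) (nat_lit 121) (nat_lit 5) (nat_lit 122) (nat_lit 5) (nat_lit 535) (nat_lit 448) (nat_lit 217))) (XT.nd (nat_lit 78) (nat_lit 152) (nat_lit 0) (XT.lf (nat_lit 0) (nat_lit 49214829551) (nat_lit 228) (nat_lit 11533402612) (nat_lit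 76) (nat_lit 17100698969) (nat_lit 119) (nat_lit 5) (nat_lit 122) (nat_lit 5) (nat_lit 120) (nat_lit 5) (nat_lit 536) (nat_lit 448) (nat_lit 216)) (XT.lf (nat_lit 0) (nat_lit 38113285430) (nat_lit 152) (nat_lit 34436883638) (nat_lit 228) (nat_lit 6814109373) (nat_lit 117) (nat_lit 5) (nat_lit 119) (nat_lit 5) (nat_lit 120) (nat_lit 5) (nat_lit 537) (nat_lit 448) (nat_lit 215)))) (XT.nd (nat_lit 156) (nat_lit 228) (nat_lit 0) (XT.nd (nat_lit 78) (nat_lit 0) (nat_lit 0) (XT.lf (nat_lit 0) (nat_lit 8576826980) (nat_lit 152) (nat_lit 6976450910) (nat_lit 228) (nat_lit 65361340522) (nat_lit 114) (nat_lit 5) (nat_lit 116) (nat_lit 5) (nat_lit 117) (nat_lit 5) (nat_lit 538) (nat_lit 448) (nat_lit 214)) (XT.lf (nat_lit 0) (nat_lit 39078562690) (nat_lit 228) (nat_lit 22033358298) (nat_lit 76) (nat_lit 21378808638) (nat_lit 114) (nat_lit 5) (nat_lit 117) (nat_lit 5) (nat_lit 115) (nat_lit 5) (nat_lit 539) (nat_lit 448) (nat_lit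 213))) (XT.nd (nat_lit 78) (nat_lit 76) (nat_lit 0) (XT.lf (nat_lit 0) (nat_lit 30299415332) (nat_lit 152) (nat_lit 33368900375) (nat_lit 228) (nat_lit 20435047196) (nat_lit 112) (nat_lit 5) (nat_lit 114) (nat_lit 5) (nat_lit 115) (nat_lit 5) (nat_lit 540) (nat_lit 448) (nat_lit 212)) (XT.lf (nat_lit 0) (nat_lit 3391409225) (nat_lit 228) (nat_lit 1140103472) (nat_lit 76) (nat_lit 81225238265) (nat_lit 111) (nat_lit 5) (nat_lit 114) (nat_lit 5) (nat_lit 112) (nat_lit 5) (nat_lit 541) (nat_lit 448) (nat_lit 211))))) (XT.nd (nat_lit 312) (nat_lit 304) (nat_lit 0) (XT.nd (nat_lit 156) (nat_lit 152) (nat_lit 0) (XT.nd (nat_lit 78) (nat_lit 152) (nat_lit 0) (XT.lf (nat_lit 0) (nat_lit 28288061256) (nat_lit 228) (nat_lit 33736018488) (nat_lit 76) (nat_lit 25406607337) (nat_lit 109) (nat_lit 5) (nat_lit 112) (nat_lit 5) (nat_lit 110) (nat_lit 5) (nat_lit 542) (nat_lit 448) (nat_lit 210)) (XT.lf (nat_lit 0) (nat_lit 21413338121)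 (nat_lit 152) (nat_lit 32779041377) (nat_lit 228) (nat_lit 34954638801) (nat_lit 107) (nat_lit 5) (nat_lit 109) (nat_lit 5) (nat_lit 110) (nat_lit 5) (nat_lit 543) (nat_lit 448) (nat_lit 209))) (XT.nd (nat_lit 78) (nat_lit 152) (nat_lit 0) (XT.lf (nat_lit 0) (nat_lit 78905867373) (nat_lit 152) (nat_lit 2307080885) (nat_lit 228) (nat_lit 9691717582) (nat_lit 107) (nat_lit 5) (nat_lit 109) (nat_lit 5) (nat_lit 110) (nat_lit 5) (nat_lit 544) (nat_lit 448) (nat_lit 208)) (XT.lf (nat_lit 0) (nat_lit 16738006078) (nat_lit 152) (nat_lit 46833645099) (nat_lit 76) (nat_lit 29116856063) (nat_lit 105) (nat_lit 5) (nat_lit 107) (nat_lit 5) (nat_lit 106) (nat_lit 5) (nat_lit 545) (nat_lit 448) (nat_lit 207)))) (XT.nd (nat_lit 156) (nat_lit 152) (nat_lit 0) (XT.nd (nat_lit 78) (nat_lit 0) (nat_lit 0) (XT.lf (nat_lit 0) (nat_lit 11264870533) (nat_lit 152) (nat_lit 32752936767) (nat_lit 228) (nat_lit 50497618476) (nat_lit 103)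 (nat_lit 5) (nat_lit 105) (nat_lit 5) (nat_lit 106) (nat_lit 5) (nat_lit 546) (nat_lit 448) (nat_lit 206)) (XT.lf (nat_lit 0) (nat_lit 72063597789) (nat_lit 152) (nat_lit 523838563) (nat_lit 228) (nat_lit 23795572514) (nat_lit 103) (nat_lit 5) (nat_lit 105) (nat_lit 5) (nat_lit 106) (nat_lit 5) (nat_lit 547) (nat_lit 448) (nat_lit 205))) (XT.nd (nat_lit 54756) (nat_lit 0) (nat_lit 17176) (XT.lf (nat_lit 0) (nat_lit 4307942373) (nat_lit 152) (nat_lit 61548282727) (nat_lit 76) (nat_lit 32429142543) (nat_lit 101) (nat_lit 5) (nat_lit 103) (nat_lit 5) (nat_lit 102) (nat_lit 5) (nat_lit 548) (nat_lit 448) (nat_lit 204)) (XT.lf (nat_lit 0) (nat_lit 2600828022) (nat_lit 1292) (nat_lit 3056272056) (nat_lit 1292) (nat_lit 3056272056) (nat_lit 327) (nat_lit 3) (nat_lit 344) (nat_lit 3) (nat_lit 344) (nat_lit 5) (nat_lit 449) (nat_lit 449) (nat_lit 302))))))))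
noncomputable def xc194 : XT := (XT.nd (nat_lit 2418) (nat_lit 7068) (nat_lit 0) (XT.nd (nat_lit 1170) (nat_lit 5472) (nat_lit 0) (XT.nd (nat_lit 546) (nat_lit 0) (nat_lit 304) (XT.nd (nat_lit 234) (nat_lit 0) (nat_lit 152) (XT.nd (nat_lit 78) (nat_lit 0) (nat_lit 76) (XT.lf (nat_lit 76) (nat_lit 2617049831) (nat_lit 0) (nat_lit 2906036495) (nat_lit 1292) (nat_lit 12157746871) (nat_lit 328) (nat_lit 5) (nat_lit 327) (nat_lit 3) (nat_lit 344) (nat_lit 5) (nat_lit 450) (nat_lit 449) (nat_lit 301)) (XT.nd (nat_lit 78) (nat_lit 0) (nat_lit 0) (XT.lf (nat_lit 0) (nat_lit 5963288543) (nat_lit 1216) (nat_lit 6267556559) (nat_lit 1292) (nat_lit 5708426214) (nat_lit 328) (nat_lit 5) (nat_lit 344) (nat_lit 5) (nat_lit 345) (nat_lit 5) (nat_lit 451) (nat_lit 449) (nat_lit 300)) (XT.lf (nat_lit 76) (nat_lit 2814065332) (nat_lit 0) (nat_lit 3650181481) (nat_lit 1292) (nat_lit 11739789646) (nat_lit 329) (nat_lit 5) (nat_lit 328)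 (nat_lit 5) (nat_lit 345) (nat_lit 5) (nat_lit 452) (nat_lit 449) (nat_lit 299)))) (XT.nd (nat_lit 156) (nat_lit 0) (nat_lit 76) (XT.nd (nat_lit 78) (nat_lit 0) (nat_lit 0) (XT.lf (nat_lit 0) (nat_lit 7085977047) (nat_lit 1216) (nat_lit 6233589565) (nat_lit 1292) (nat_lit 5154006020) (nat_lit 329) (nat_lit 5) (nat_lit 345) (nat_lit 5) (nat_lit 346) (nat_lit 5) (nat_lit 453) (nat_lit 449) (nat_lit 298)) (XT.lf (nat_lit 76) (nat_lit 3219445196) (nat_lit 0) (nat_lit 4566193192) (nat_lit 1292) (nat_lit 10963778484) (nat_lit 330) (nat_lit 5) (nat_lit 329) (nat_lit 5) (nat_lit 346) (nat_lit 5) (nat_lit 454) (nat_lit 449) (nat_lit 297))) (XT.nd (nat_lit 78) (nat_lit 0) (nat_lit 0) (XT.lf (nat_lit 0) (nat_lit 8605036246) (nat_lit 1216) (nat_lit 5996123839) (nat_lit 1292) (nat_lit 4429414305) (nat_lit 330) (nat_lit 5) (nat_lit 346) (nat_lit 5) (nat_lit 347) (nat_lit 5) (nat_lit 455) (nat_lit 449) (nat_lit 296)) (XT.lf (nat_lit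 76) (nat_lit 3848846076) (nat_lit 0) (nat_lit 5675000933) (nat_lit 1292) (nat_lit 9794075035) (nat_lit 331) (nat_lit 5) (nat_lit 330) (nat_lit 5) (nat_lit 347) (nat_lit 5) (nat_lit 456) (nat_lit 449) (nat_lit 295))))) (XT.nd (nat_lit 312) (nat_lit 0) (nat_lit 152) (XT.nd (nat_lit 156) (nat_lit 0) (nat_lit 76) (XT.nd (nat_lit 78) (nat_lit 0) (nat_lit 0) (XT.lf (nat_lit 0) (nat_lit 10558013558) (nat_lit 1216) (nat_lit 5539401305) (nat_lit 1292) (nat_lit 3513841849) (nat_lit 331) (nat_lit 5) (nat_lit 347) (nat_lit 5) (nat_lit 348) (nat_lit 5) (nat_lit 457) (nat_lit 449) (nat_lit 294)) (XT.lf (nat_lit 76) (nat_lit 4719228032) (nat_lit 0) (nat_lit 6998555171) (nat_lit 1292) (nat_lit 8192771193) (nat_lit 332) (nat_lit 5) (nat_lit 331) (nat_lit 5) (nat_lit 348) (nat_lit 5) (nat_lit 458) (nat_lit 449) (nat_lit 293))) (XT.nd (nat_lit 78) (nat_lit 0) (nat_lit 0) (XT.lf (nat_lit 0) (nat_lit 12984852642) (nat_lit 1216) (nat_lit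 4846364983) (nat_lit 1292) (nat_lit 2385438496) (nat_lit 332) (nat_lit 5) (nat_lit 348) (nat_lit 5) (nat_lit 349) (nat_lit 5) (nat_lit 459) (nat_lit 449) (nat_lit 292)) (XT.lf (nat_lit 76) (nat_lit 5848918635) (nat_lit 0) (nat_lit 8559931976) (nat_lit 1292) (nat_lit 6119523094) (nat_lit 333) (nat_lit 5) (nat_lit 332) (nat_lit 5) (nat_lit 349) (nat_lit 5) (nat_lit 460) (nat_lit 449) (nat_lit 291)))) (XT.nd (nat_lit 156) (nat_lit 0) (nat_lit 0) (XT.nd (nat_lit 78) (nat_lit 0) (nat_lit 0) (XT.lf (nat_lit 0) (nat_lit 15928065487) (nat_lit 1216) (nat_lit 3898593644) (nat_lit 1292) (nat_lit 1021209068) (nat_lit 333) (nat_lit 5) (nat_lit 349) (nat_lit 5) (nat_lit 350) (nat_lit 5) (nat_lit 461) (nat_lit 449) (nat_lit 290)) (XT.lf (nat_lit 76) (nat_lit 7257682497) (nat_lit 0) (nat_lit 10383440946) (nat_lit 1292) (nat_lit 3531376371) (nat_lit 334) (nat_lit 5) (nat_lit 333) (nat_lit 5) (nat_lit 350) (nat_lit 5) (nat_lit 462)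 (nat_lit 449) (nat_lit 289))) (XT.nd (nat_lit 78) (nat_lit 0) (nat_lit 76) (XT.lf (nat_lit 76) (nat_lit 18823729290) (nat_lit 0) (nat_lit 615097124) (nat_lit 1292) (nat_lit 2067046640) (nat_lit 334) (nat_lit 5) (nat_lit 333) (nat_lit 5) (nat_lit 350) (nat_lit 5) (nat_lit 463) (nat_lit 449) (nat_lit 288)) (XT.lf (nat_lit 76) (nat_lit 8966796432) (nat_lit 0) (nat_lit 12494737134) (nat_lit 1292) (nat_lit 382582002) (nat_lit 335) (nat_lit 5) (nat_lit 334) (nat_lit 5) (nat_lit 351) (nat_lit 5) (nat_lit 464) (nat_lit 449) (nat_lit 287)))))) (XT.nd (nat_lit 624) (nat_lit 2736) (nat_lit 0) (XT.nd (nat_lit 312) (nat_lit 1216) (nat_lit 0) (XT.nd (nat_lit 156) (nat_lit 760) (nat_lit 0) (XT.nd (nat_lit 78) (nat_lit 0) (nat_lit 76) (XT.lf (nat_lit 0) (nat_lit 1353612262) (nat_lit 1292) (nat_lit 1195818551) (nat_lit 1368) (nat_lit 19641857202) (nat_lit 317) (nat_lit 5) (nat_lit 334) (nat_lit 5) (nat_lit 335) (nat_lit 5) (nat_lit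 465) (nat_lit 449) (nat_lit 286)) (XT.lf (nat_lit 0) (nat_lit 3309727880) (nat_lit 1292) (nat_lit 11577787815) (nat_lit 76) (nat_lit 7655980796) (nat_lit 318) (nat_lit 5) (nat_lit 335) (nat_lit 5) (nat_lit 319) (nat_lit 5) (nat_lit 466) (nat_lit 449) (nat_lit 285))) (XT.nd (nat_lit 78) (nat_lit 0) (nat_lit 0) (XT.lf (nat_lit 0) (nat_lit 591938355) (nat_lit 836) (nat_lit 4770157271) (nat_lit 912) (nat_lit 17543048771) (nat_lit 307) (nat_lit 5) (nat_lit 318) (nat_lit 5) (nat_lit 319) (nat_lit 5) (nat_lit 467) (nat_lit 449) (nat_lit 284)) (XT.lf (nat_lit 0) (nat_lit 7642985062) (nat_lit 912) (nat_lit 9970577875) (nat_lit 76) (nat_lit 5659070517) (nat_lit 307) (nat_lit 5) (nat_lit 319) (nat_lit 5) (nat_lit 308) (nat_lit 5) (nat_lit 468) (nat_lit 449) (nat_lit 283)))) (XT.nd (nat_lit 156) (nat_lit 608) (nat_lit 0) (XT.nd (nat_lit 78) (nat_lit 0) (nat_lit 0) (XT.lf (nat_lit 0) (nat_lit 2743729829) (nat_lit 608) (nat_lit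 7316895381) (nat_lit 684) (nat_lit 13588472476) (nat_lit 299) (nat_lit 5) (nat_lit 307) (nat_lit 5) (nat_lit 308) (nat_lit 5) (nat_lit 469) (nat_lit 449) (nat_lit 282)) (XT.lf (nat_lit 0) (nat_lit 12678917809) (nat_lit 684) (nat_lit 8027611425) (nat_lit 76) (nat_lit 3326483129) (nat_lit 299) (nat_lit 5) (nat_lit 308) (nat_lit 5) (nat_lit 300) (nat_lit 5) (nat_lit 470) (nat_lit 449) (nat_lit 281))) (XT.nd (nat_lit 78) (nat_lit 0) (nat_lit 0) (XT.lf (nat_lit 0) (nat_lit 5261836470) (nat_lit 608) (nat_lit 10231928154) (nat_lit 684) (nat_lit 8931139906) (nat_lit 291) (nat_lit 5) (nat_lit 299) (nat_lit 5) (nat_lit 300) (nat_lit 5) (nat_lit 471) (nat_lit 449) (nat_lit 280)) (XT.lf (nat_lit 0) (nat_lit 18475357580) (nat_lit 684) (nat_lit 5722726567) (nat_lit 76) (nat_lit 628000499) (nat_lit 291) (nat_lit 5) (nat_lit 300) (nat_lit 5) (nat_lit 292) (nat_lit 5) (nat_lit 472) (nat_lit 449) (nat_lit 279))))) (XT.nd (nat_lit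 312) (nat_lit 1520) (nat_lit 0) (XT.nd (nat_lit 156) (nat_lit 684) (nat_lit 0) (XT.nd (nat_lit 78) (nat_lit 0) (nat_lit 0) (XT.lf (nat_lit 0) (nat_lit 8174196885) (nat_lit 532) (nat_lit 13547307917) (nat_lit 608) (nat_lit 3512542367) (nat_lit 284) (nat_lit 5) (nat_lit 291) (nat_lit 5) (nat_lit 292) (nat_lit 5) (nat_lit 473) (nat_lit 449) (nat_lit 278)) (XT.lf (nat_lit 0) (nat_lit 22600555590) (nat_lit 532) (nat_lit 2517587154) (nat_lit 608) (nat_lit 534512829) (nat_lit 284) (nat_lit 5) (nat_lit 291) (nat_lit 5) (nat_lit 292) (nat_lit 5) (nat_lit 474) (nat_lit 449) (nat_lit 277))) (XT.nd (nat_lit 78) (nat_lit 0) (nat_lit 0) (XT.lf (nat_lit 0) (nat_lit 2676430390) (nat_lit 684) (nat_lit 14593614037) (nat_lit 76) (nat_lit 8807257623) (nat_lit 275) (nat_lit 5) (nat_lit 284) (nat_lit 5) (nat_lit 276) (nat_lit 5) (nat_lit 475) (nat_lit 449) (nat_lit 276)) (XT.lf (nat_lit 0) (nat_lit 6024506726) (nat_lit 684) (nat_lit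 30994580) (nat_lit 76) (nat_lit 20457481586) (nat_lit 275) (nat_lit 5) (nat_lit 284) (nat_lit 5) (nat_lit 276) (nat_lit 5) (nat_lit 476) (nat_lit 449) (nat_lit 275)))) (XT.nd (nat_lit 156) (nat_lit 456) (nat_lit 0) (XT.nd (nat_lit 78) (nat_lit 532) (nat_lit 0) (XT.lf (nat_lit 0) (nat_lit 9669632135) (nat_lit 608) (nat_lit 11750108547) (nat_lit 76) (nat_lit 5536095446) (nat_lit 268) (nat_lit 5) (nat_lit 276) (nat_lit 5) (nat_lit 269) (nat_lit 5) (nat_lit 477) (nat_lit 449) (nat_lit 274)) (XT.lf (nat_lit 0) (nat_lit 3491635818) (nat_lit 532) (nat_lit 10022017450) (nat_lit 608) (nat_lit 13895635601) (nat_lit 261) (nat_lit 5) (nat_lit 268) (nat_lit 5) (nat_lit 269) (nat_lit 5) (nat_lit 478) (nat_lit 449) (nat_lit 273))) (XT.nd (nat_lit 78) (nat_lit 456) (nat_lit 0) (XT.lf (nat_lit 0) (nat_lit 17605115452) (nat_lit 608) (nat_lit 8463809432) (nat_lit 76) (nat_lit 1803456858) (nat_lit 261) (nat_lit 5) (nat_lit 269) (nat_lit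 5) (nat_lit 262) (nat_lit 5) (nat_lit 479) (nat_lit 449) (nat_lit 272)) (XT.lf (nat_lit 0) (nat_lit 7496000138) (nat_lit 456) (nat_lit 14490509858) (nat_lit 532) (nat_lit 6357841908) (nat_lit 255) (nat_lit 5) (nat_lit 261) (nat_lit 5) (nat_lit 262) (nat_lit 5) (nat_lit 480) (nat_lit 449) (nat_lit 271))))))) (XT.nd (nat_lit 1248) (nat_lit 3116) (nat_lit 0) (XT.nd (nat_lit 624) (nat_lit 2052) (nat_lit 0) (XT.nd (nat_lit 312) (nat_lit 912) (nat_lit 0) (XT.nd (nat_lit 156) (nat_lit 456) (nat_lit 0) (XT.nd (nat_lit 78) (nat_lit 532) (nat_lit 0) (XT.lf (nat_lit 0) (nat_lit 24103454401) (nat_lit 456) (nat_lit 2477338910) (nat_lit 532) (nat_lit 2247244603) (nat_lit 255) (nat_lit 5) (nat_lit 261) (nat_lit 5) (nat_lit 262) (nat_lit 5) (nat_lit 481) (nat_lit 449) (nat_lit 270)) (XT.lf (nat_lit 0) (nat_lit 2156690217) (nat_lit 532) (nat_lit 17323524985) (nat_lit 76) (nat_lit 9839182933) (nat_lit 248) (nat_lit 5) (nat_lit 255)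 (nat_lit 5) (nat_lit 249) (nat_lit 5) (nat_lit 482) (nat_lit 449) (nat_lit 269))) (XT.nd (nat_lit 78) (nat_lit 456) (nat_lit 0) (XT.lf (nat_lit 0) (nat_lit 6716407190) (nat_lit 532) (nat_lit 561182810) (nat_lit 76) (nat_lit 22545176859) (nat_lit 248) (nat_lit 5) (nat_lit 255) (nat_lit 5) (nat_lit 249) (nat_lit 5) (nat_lit 483) (nat_lit 449) (nat_lit 268)) (XT.lf (nat_lit 0) (nat_lit 11625346433) (nat_lit 532) (nat_lit 13357052371) (nat_lit 76) (nat_lit 5352465055) (nat_lit 242) (nat_lit 5) (nat_lit 249) (nat_lit 5) (nat_lit 243) (nat_lit 5) (nat_lit 484) (nat_lit 449) (nat_lit 267)))) (XT.nd (nat_lit 156) (nat_lit 456) (nat_lit 0) (XT.nd (nat_lit 78) (nat_lit 0) (nat_lit 0) (XT.lf (nat_lit 0) (nat_lit 4197542308) (nat_lit 456) (nat_lit 12598433269) (nat_lit 532) (nat_lit 14062915670) (nat_lit 236) (nat_lit 5) (nat_lit 242) (nat_lit 5) (nat_lit 243) (nat_lit 5) (nat_lit 485) (nat_lit 449) (nat_lit 266)) (XT.lf (nat_lit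 0) (nat_lit 22255798573) (nat_lit 532) (nat_lit 8849493693) (nat_lit 76) (nat_lit 289325070) (nat_lit 236) (nat_lit 5) (nat_lit 243) (nat_lit 5) (nat_lit 237) (nat_lit 5) (nat_lit 486) (nat_lit 449) (nat_lit 265))) (XT.nd (nat_lit 78) (nat_lit 76) (nat_lit 0) (XT.lf (nat_lit 0) (nat_lit 9553909666) (nat_lit 380) (nat_lit 18538537715) (nat_lit 456) (nat_lit 3847577018) (nat_lit 231) (nat_lit 5) (nat_lit 236) (nat_lit 5) (nat_lit 237) (nat_lit 5) (nat_lit 487) (nat_lit 449) (nat_lit 264)) (XT.lf (nat_lit 0) (nat_lit 1657862554) (nat_lit 456) (nat_lit 3829107541) (nat_lit 76) (nat_lit 27011759720) (nat_lit 230) (nat_lit 5) (nat_lit 236) (nat_lit 5) (nat_lit 231) (nat_lit 5) (nat_lit 488) (nat_lit 449) (nat_lit 263))))) (XT.nd (nat_lit 312) (nat_lit 836) (nat_lit 0) (XT.nd (nat_lit 156) (nat_lit 380) (nat_lit 0) (XT.nd (nat_lit 78) (nat_lit 380) (nat_lit 0) (XT.lf (nat_lit 0) (nat_lit 7475476344) (nat_lit 532) (nat_lit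 17601532560) (nat_lit 76) (nat_lit 7989314454) (nat_lit 224) (nat_lit 5) (nat_lit 231) (nat_lit 5) (nat_lit 225) (nat_lit 5) (nat_lit 489) (nat_lit 449) (nat_lit 262)) (XT.lf (nat_lit 0) (nat_lit 1741034829) (nat_lit 380) (nat_lit 11833327807) (nat_lit 456) (nat_lit 20073379858) (nat_lit 219) (nat_lit 5) (nat_lit 224) (nat_lit 5) (nat_lit 225) (nat_lit 5) (nat_lit 490) (nat_lit 449) (nat_lit 261))) (XT.nd (nat_lit 78) (nat_lit 380) (nat_lit 0) (XT.lf (nat_lit 0) (nat_lit 20049770429) (nat_lit 456) (nat_lit 12240204264) (nat_lit 76) (nat_lit 1950822972) (nat_lit 219) (nat_lit 5) (nat_lit 225) (nat_lit 5) (nat_lit 220) (nat_lit 5) (nat_lit 491) (nat_lit 449) (nat_lit 260)) (XT.lf (nat_lit 0) (nat_lit 8051895311) (nat_lit 380) (nat_lit 18858881077) (nat_lit 456) (nat_lit 7935128128) (nat_lit 214) (nat_lit 5) (nat_lit 219) (nat_lit 5) (nat_lit 220) (nat_lit 5) (nat_lit 492) (nat_lit 449) (nat_lit 259)))) (XT.nd (nat_lit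 156) (nat_lit 380) (nat_lit 0) (XT.nd (nat_lit 78) (nat_lit 456) (nat_lit 0) (XT.lf (nat_lit 0) (nat_lit 29199354048) (nat_lit 380) (nat_lit 4898687526) (nat_lit 456) (nat_lit 1367510228) (nat_lit 214) (nat_lit 5) (nat_lit 219) (nat_lit 5) (nat_lit 220) (nat_lit 5) (nat_lit 493) (nat_lit 449) (nat_lit 258)) (XT.lf (nat_lit 0) (nat_lit 5527086399) (nat_lit 456) (nat_lit 21074749873) (nat_lit 76) (nat_lit 9493337881) (nat_lit 208) (nat_lit 5) (nat_lit 214) (nat_lit 5) (nat_lit 209) (nat_lit 5) (nat_lit 494) (nat_lit 449) (nat_lit 257))) (XT.nd (nat_lit 78) (nat_lit 0) (nat_lit 0) (XT.lf (nat_lit 0) (nat_lit 270630414) (nat_lit 380) (nat_lit 12442338938) (nat_lit 456) (nat_lit 24026951701) (nat_lit 203) (nat_lit 5) (nat_lit 208) (nat_lit 5) (nat_lit 209) (nat_lit 5) (nat_lit 495) (nat_lit 449) (nat_lit 256)) (XT.lf (nat_lit 0) (nat_lit 20346903924) (nat_lit 456) (nat_lit 14736267304) (nat_lit 76) (nat_lit 2313864968)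 (nat_lit 203) (nat_lit 5) (nat_lit 209) (nat_lit 5) (nat_lit 204) (nat_lit 5) (nat_lit 496) (nat_lit 449) (nat_lit 255)))))) (XT.nd (nat_lit 624) (nat_lit 1444) (nat_lit 0) (XT.nd (nat_lit 312) (nat_lit 988) (nat_lit 0) (XT.nd (nat_lit 156) (nat_lit 380) (nat_lit 0) (XT.nd (nat_lit 78) (nat_lit 0) (nat_lit 0) (XT.lf (nat_lit 0) (nat_lit 7671042560) (nat_lit 304) (nat_lit 20732797352) (nat_lit 380) (nat_lit 9664205469) (nat_lit 199) (nat_lit 5) (nat_lit 203) (nat_lit 5) (nat_lit 204) (nat_lit 5) (nat_lit 497) (nat_lit 449) (nat_lit 254)) (XT.lf (nat_lit 0) (nat_lit 31048489586) (nat_lit 304) (nat_lit 5799900779) (nat_lit 380) (nat_lit 1906417368) (nat_lit 199) (nat_lit 5) (nat_lit 203) (nat_lit 5) (nat_lit 204) (nat_lit 5) (nat_lit 498) (nat_lit 449) (nat_lit 253))) (XT.nd (nat_lit 78) (nat_lit 0) (nat_lit 0) (XT.lf (nat_lit 0) (nat_lit 6209682635) (nat_lit 380) (nat_lit 23637067926) (nat_lit 76) (nat_lit 9606338919)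 (nat_lit 194) (nat_lit 5) (nat_lit 199) (nat_lit 5) (nat_lit 195) (nat_lit 5) (nat_lit 499) (nat_lit 449) (nat_lit 252)) (XT.lf (nat_lit 0) (nat_lit 14664149776) (nat_lit 380) (nat_lit 49180885) (nat_lit 76) (nat_lit 25454426796) (nat_lit 194) (nat_lit 5) (nat_lit 199) (nat_lit 5) (nat_lit 195) (nat_lit 5) (nat_lit 500) (nat_lit 449) (nat_lit 251)))) (XT.nd (nat_lit 156) (nat_lit 380) (nat_lit 0) (XT.nd (nat_lit 78) (nat_lit 304) (nat_lit 0) (XT.lf (nat_lit 0) (nat_lit 23617933286) (nat_lit 380) (nat_lit 16182756082) (nat_lit 76) (nat_lit 1095805709) (nat_lit 190) (nat_lit 5) (nat_lit 195) (nat_lit 5) (nat_lit 191) (nat_lit 5) (nat_lit 501) (nat_lit 449) (nat_lit 250)) (XT.lf (nat_lit 0) (nat_lit 8591405075) (nat_lit 304) (nat_lit 24474987459) (nat_lit 380) (nat_lit 8573920499) (nat_lit 186) (nat_lit 5) (nat_lit 190) (nat_lit 5) (nat_lit 191) (nat_lit 5) (nat_lit 502) (nat_lit 449) (nat_lit 249))) (XT.nd (nat_lit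 78) (nat_lit 304) (nat_lit 0) (XT.lf (nat_lit 0) (nat_lit 546557640) (nat_lit 380) (nat_lit 7970457571) (nat_lit 76) (nat_lit 33884447054) (nat_lit 185) (nat_lit 5) (nat_lit 190) (nat_lit 5) (nat_lit 186) (nat_lit 5) (nat_lit 503) (nat_lit 449) (nat_lit 248)) (XT.lf (nat_lit 0) (nat_lit 10018625647) (nat_lit 380) (nat_lit 25131221730) (nat_lit 76) (nat_lit 8025542870) (nat_lit 181) (nat_lit 5) (nat_lit 186) (nat_lit 5) (nat_lit 182) (nat_lit 5) (nat_lit 504) (nat_lit 449) (nat_lit 247))))) (XT.nd (nat_lit 312) (nat_lit 836) (nat_lit 0) (XT.nd (nat_lit 156) (nat_lit 304) (nat_lit 0) (XT.nd (nat_lit 78) (nat_lit 0) (nat_lit 0) (XT.lf (nat_lit 0) (nat_lit 962191193) (nat_lit 304) (nat_lit 18984939709) (nat_lit 380) (nat_lit 24020236975) (nat_lit 177) (nat_lit 5) (nat_lit 181) (nat_lit 5) (nat_lit 182) (nat_lit 5) (nat_lit 505) (nat_lit 449) (nat_lit 246)) (XT.lf (nat_lit 0) (nat_lit 28349651416) (nat_lit 304) (nat_lit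 2075069801) (nat_lit 380) (nat_lit 14350846785) (nat_lit 177) (nat_lit 5) (nat_lit 181) (nat_lit 5) (nat_lit 182) (nat_lit 5) (nat_lit 506) (nat_lit 449) (nat_lit 245))) (XT.nd (nat_lit 78) (nat_lit 76) (nat_lit 0) (XT.lf (nat_lit 0) (nat_lit 11014304754) (nat_lit 228) (nat_lit 30453203509) (nat_lit 304) (nat_lit 4132979858) (nat_lit 174) (nat_lit 5) (nat_lit 177) (nat_lit 5) (nat_lit 178) (nat_lit 5) (nat_lit 507) (nat_lit 449) (nat_lit 244)) (XT.lf (nat_lit 0) (nat_lit 6452286883) (nat_lit 304) (nat_lit 6918236693) (nat_lit 76) (nat_lit 33072221672) (nat_lit 173) (nat_lit 5) (nat_lit 177) (nat_lit 5) (nat_lit 174) (nat_lit 5) (nat_lit 508) (nat_lit 449) (nat_lit 243)))) (XT.nd (nat_lit 156) (nat_lit 304) (nat_lit 0) (XT.nd (nat_lit 78) (nat_lit 228) (nat_lit 0) (XT.lf (nat_lit 0) (nat_lit 17523861556) (nat_lit 380) (nat_lit 25382221284) (nat_lit 76) (nat_lit 4395405124) (nat_lit 169) (nat_lit 5) (nat_lit 174)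 (nat_lit 5) (nat_lit 170) (nat_lit 5) (nat_lit 509) (nat_lit 449) (nat_lit 242)) (XT.lf (nat_lit 0) (nat_lit 3511476369) (nat_lit 228) (nat_lit 25650414777) (nat_lit 304) (nat_lit 19017072642) (nat_lit 166) (nat_lit 5) (nat_lit 169) (nat_lit 5) (nat_lit 170) (nat_lit 5) (nat_lit 510) (nat_lit 449) (nat_lit 241))) (XT.nd (nat_lit 78) (nat_lit 304) (nat_lit 0) (XT.lf (nat_lit 0) (nat_lit 33788545580) (nat_lit 228) (nat_lit 7614479476) (nat_lit 304) (nat_lit 7672119978) (nat_lit 166) (nat_lit 5) (nat_lit 169) (nat_lit 5) (nat_lit 170) (nat_lit 5) (nat_lit 511) (nat_lit 449) (nat_lit 240)) (XT.lf (nat_lit 0) (nat_lit 4186171338) (nat_lit 304) (nat_lit 34869271790) (nat_lit 76) (nat_lit 10934072275) (nat_lit 162) (nat_lit 5) (nat_lit 166) (nat_lit 5) (nat_lit 163) (nat_lit 5) (nat_lit 512) (nat_lit 449) (nat_lit 239))))))))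
noncomputable def xc195 : XT := (XT.nd (nat_lit 2418) (nat_lit 456) (nat_lit 0) (XT.nd (nat_lit 1170) (nat_lit 1976) (nat_lit 0) (XT.nd (nat_lit 546) (nat_lit 1064) (nat_lit 0) (XT.nd (nat_lit 234) (nat_lit 532) (nat_lit 0) (XT.nd (nat_lit 78) (nat_lit 456) (nat_lit 0) (XT.lf (nat_lit 0) (nat_lit 16475010497) (nat_lit 304) (nat_lit 4330619868) (nat_lit 76) (nat_lit 30116537684) (nat_lit 162) (nat_lit 5) (nat_lit 166) (nat_lit 5) (nat_lit 163) (nat_lit 5) (nat_lit 513) (nat_lit 449) (nat_lit 238)) (XT.nd (nat_lit 78) (nat_lit 228) (nat_lit 0) (XT.lf (nat_lit 0) (nat_lit 27660347166) (nat_lit 228) (nat_lit 1735839521) (nat_lit 304) (nat_lit 22478703479) (nat_lit 159) (nat_lit 5) (nat_lit 162) (nat_lit 5) (nat_lit 163) (nat_lit 5) (nat_lit 514) (nat_lit 449) (nat_lit 237)) (XT.lf (nat_lit 0) (nat_lit 7821386663) (nat_lit 228) (nat_lit 35172883822) (nat_lit 304) (nat_lit 9853245339) (nat_lit 156) (nat_lit 5) (nat_lit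 159) (nat_lit 5) (nat_lit 160) (nat_lit 5) (nat_lit 515) (nat_lit 449) (nat_lit 236)))) (XT.nd (nat_lit 156) (nat_lit 228) (nat_lit 0) (XT.nd (nat_lit 78) (nat_lit 228) (nat_lit 0) (XT.lf (nat_lit 0) (nat_lit 3351425449) (nat_lit 304) (nat_lit 12580735475) (nat_lit 76) (nat_lit 37908392621) (nat_lit 155) (nat_lit 5) (nat_lit 159) (nat_lit 5) (nat_lit 156) (nat_lit 5) (nat_lit 516) (nat_lit 449) (nat_lit 235)) (XT.lf (nat_lit 0) (nat_lit 16995689967) (nat_lit 304) (nat_lit 33745086682) (nat_lit 76) (nat_lit 4112434262) (nat_lit 152) (nat_lit 5) (nat_lit 156) (nat_lit 5) (nat_lit 153) (nat_lit 5) (nat_lit 517) (nat_lit 449) (nat_lit 234))) (XT.nd (nat_lit 78) (nat_lit 0) (nat_lit 0) (XT.lf (nat_lit 0) (nat_lit 10781595) (nat_lit 228) (nat_lit 31322535104) (nat_lit 304) (nat_lit 24554410310) (nat_lit 149) (nat_lit 5) (nat_lit 152) (nat_lit 5) (nat_lit 153) (nat_lit 5) (nat_lit 518) (nat_lit 449) (nat_lit 233)) (XT.lf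 (nat_lit 0) (nat_lit 35467569261) (nat_lit 228) (nat_lit 10972177961) (nat_lit 304) (nat_lit 10503371159) (nat_lit 149) (nat_lit 5) (nat_lit 152) (nat_lit 5) (nat_lit 153) (nat_lit 5) (nat_lit 519) (nat_lit 449) (nat_lit 232))))) (XT.nd (nat_lit 312) (nat_lit 456) (nat_lit 0) (XT.nd (nat_lit 156) (nat_lit 380) (nat_lit 0) (XT.nd (nat_lit 78) (nat_lit 0) (nat_lit 0) (XT.lf (nat_lit 0) (nat_lit 4123869106) (nat_lit 228) (nat_lit 43929468161) (nat_lit 76) (nat_lit 9968725932) (nat_lit 146) (nat_lit 5) (nat_lit 149) (nat_lit 5) (nat_lit 147) (nat_lit 5) (nat_lit 520) (nat_lit 449) (nat_lit 231)) (XT.lf (nat_lit 0) (nat_lit 19304432617) (nat_lit 228) (nat_lit 8177085851) (nat_lit 76) (nat_lit 31638969716) (nat_lit 146) (nat_lit 5) (nat_lit 149) (nat_lit 5) (nat_lit 147) (nat_lit 5) (nat_lit 521) (nat_lit 449) (nat_lit 230))) (XT.nd (nat_lit 78) (nat_lit 152) (nat_lit 0) (XT.lf (nat_lit 0) (nat_lit 29214600292) (nat_lit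 228) (nat_lit 6004670377) (nat_lit 304) (nat_lit 25024229554) (nat_lit 143) (nat_lit 5) (nat_lit 146) (nat_lit 5) (nat_lit 147) (nat_lit 5) (nat_lit 522) (nat_lit 449) (nat_lit 229)) (XT.lf (nat_lit 0) (nat_lit 6464987881) (nat_lit 152) (nat_lit 45445064347) (nat_lit 228) (nat_lit 9481195479) (nat_lit 141) (nat_lit 5) (nat_lit 143) (nat_lit 5) (nat_lit 144) (nat_lit 5) (nat_lit 523) (nat_lit 449) (nat_lit 228)))) (XT.nd (nat_lit 156) (nat_lit 152) (nat_lit 0) (XT.nd (nat_lit 78) (nat_lit 228) (nat_lit 0) (XT.lf (nat_lit 0) (nat_lit 6774675048) (nat_lit 228) (nat_lit 16972948194) (nat_lit 76) (nat_lit 38812703851) (nat_lit 140) (nat_lit 5) (nat_lit 143) (nat_lit 5) (nat_lit 141) (nat_lit 5) (nat_lit 524) (nat_lit 449) (nat_lit 227)) (XT.lf (nat_lit 0) (nat_lit 22460097031) (nat_lit 228) (nat_lit 1081566324) (nat_lit 304) (nat_lit 40213579211) (nat_lit 137) (nat_lit 5) (nat_lit 140) (nat_lit 5) (nat_lit 141) (nat_lit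 5) (nat_lit 525) (nat_lit 449) (nat_lit 226))) (XT.nd (nat_lit 78) (nat_lit 152) (nat_lit 0) (XT.lf (nat_lit 0) (nat_lit 41196886577) (nat_lit 304) (nat_lit 1775798899) (nat_lit 76) (nat_lit 22001763298) (nat_lit 137) (nat_lit 5) (nat_lit 141) (nat_lit 5) (nat_lit 138) (nat_lit 5) (nat_lit 526) (nat_lit 449) (nat_lit 225)) (XT.lf (nat_lit 0) (nat_lit 39689723666) (nat_lit 152) (nat_lit 20082443289) (nat_lit 228) (nat_lit 6446352230) (nat_lit 135) (nat_lit 5) (nat_lit 137) (nat_lit 5) (nat_lit 138) (nat_lit 5) (nat_lit 527) (nat_lit 449) (nat_lit 224)))))) (XT.nd (nat_lit 624) (nat_lit 912) (nat_lit 0) (XT.nd (nat_lit 312) (nat_lit 456) (nat_lit 0) (XT.nd (nat_lit 156) (nat_lit 304) (nat_lit 0) (XT.nd (nat_lit 78) (nat_lit 0) (nat_lit 0) (XT.lf (nat_lit 0) (nat_lit 11380137827) (nat_lit 304) (nat_lit 52409802336) (nat_lit 76) (nat_lit 3700745905) (nat_lit 131) (nat_lit 5) (nat_lit 135) (nat_lit 5) (nat_lit 132) (nat_lit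 5) (nat_lit 528) (nat_lit 449) (nat_lit 223)) (XT.lf (nat_lit 0) (nat_lit 30079419325) (nat_lit 304) (nat_lit 10578827582) (nat_lit 76) (nat_lit 28126829457) (nat_lit 131) (nat_lit 5) (nat_lit 135) (nat_lit 5) (nat_lit 132) (nat_lit 5) (nat_lit 529) (nat_lit 449) (nat_lit 222))) (XT.nd (nat_lit 78) (nat_lit 152) (nat_lit 0) (XT.lf (nat_lit 0) (nat_lit 33150862104) (nat_lit 152) (nat_lit 16505721182) (nat_lit 228) (nat_lit 20452207989) (nat_lit 129) (nat_lit 5) (nat_lit 131) (nat_lit 5) (nat_lit 132) (nat_lit 5) (nat_lit 530) (nat_lit 449) (nat_lit 221)) (XT.lf (nat_lit 0) (nat_lit 6992081417) (nat_lit 152) (nat_lit 63082793402) (nat_lit 228) (nat_lit 1389728460) (nat_lit 127) (nat_lit 5) (nat_lit 129) (nat_lit 5) (nat_lit 130) (nat_lit 5) (nat_lit 531) (nat_lit 449) (nat_lit 220)))) (XT.nd (nat_lit 156) (nat_lit 228) (nat_lit 0) (XT.nd (nat_lit 78) (nat_lit 152) (nat_lit 0) (XT.lf (nat_lit 0) (nat_lit 18427178578)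 (nat_lit 228) (nat_lit 20177316745) (nat_lit 76) (nat_lit 34235175844) (nat_lit 126) (nat_lit 5) (nat_lit 129) (nat_lit 5) (nat_lit 127) (nat_lit 5) (nat_lit 532) (nat_lit 449) (nat_lit 219)) (XT.lf (nat_lit 0) (nat_lit 25936061435) (nat_lit 152) (nat_lit 13122214269) (nat_lit 228) (nat_lit 35189874169) (nat_lit 124) (nat_lit 5) (nat_lit 126) (nat_lit 5) (nat_lit 127) (nat_lit 5) (nat_lit 533) (nat_lit 449) (nat_lit 218))) (XT.nd (nat_lit 78) (nat_lit 228) (nat_lit 0) (XT.lf (nat_lit 0) (nat_lit 60638545155) (nat_lit 228) (nat_lit 1977529951) (nat_lit 76) (nat_lit 13072900675) (nat_lit 124) (nat_lit 5) (nat_lit 127) (nat_lit 5) (nat_lit 125) (nat_lit 5) (nat_lit 534) (nat_lit 449) (nat_lit 217)) (XT.lf (nat_lit 0) (nat_lit 6163279053) (nat_lit 228) (nat_lit 30694180985) (nat_lit 76) (nat_lit 40296489325) (nat_lit 121) (nat_lit 5) (nat_lit 124) (nat_lit 5) (nat_lit 122) (nat_lit 5) (nat_lit 535) (nat_lit 449) (nat_lit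 216))))) (XT.nd (nat_lit 312) (nat_lit 380) (nat_lit 0) (XT.nd (nat_lit 156) (nat_lit 380) (nat_lit 0) (XT.nd (nat_lit 78) (nat_lit 0) (nat_lit 0) (XT.lf (nat_lit 0) (nat_lit 17926088116) (nat_lit 152) (nat_lit 9975659129) (nat_lit 228) (nat_lit 50750929124) (nat_lit 119) (nat_lit 5) (nat_lit 121) (nat_lit 5) (nat_lit 122) (nat_lit 5) (nat_lit 536) (nat_lit 449) (nat_lit 215)) (XT.lf (nat_lit 0) (nat_lit 50774023257) (nat_lit 228) (nat_lit 11729193486) (nat_lit 76) (nat_lit 17678698850) (nat_lit 119) (nat_lit 5) (nat_lit 122) (nat_lit 5) (nat_lit 120) (nat_lit 5) (nat_lit 537) (nat_lit 449) (nat_lit 214))) (XT.nd (nat_lit 78) (nat_lit 228) (nat_lit 0) (XT.lf (nat_lit 0) (nat_lit 39405422539) (nat_lit 152) (nat_lit 35403020027) (nat_lit 228) (nat_lit 6934310197) (nat_lit 117) (nat_lit 5) (nat_lit 119) (nat_lit 5) (nat_lit 120) (nat_lit 5) (nat_lit 538) (nat_lit 449) (nat_lit 213)) (XT.lf (nat_lit 0) (nat_lit 8983040425)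 (nat_lit 152) (nat_lit 7118440963) (nat_lit 228) (nat_lit 67238126499) (nat_lit 114) (nat_lit 5) (nat_lit 116) (nat_lit 5) (nat_lit 117) (nat_lit 5) (nat_lit 539) (nat_lit 449) (nat_lit 212)))) (XT.nd (nat_lit 156) (nat_lit 228) (nat_lit 0) (XT.nd (nat_lit 78) (nat_lit 152) (nat_lit 0) (XT.lf (nat_lit 0) (nat_lit 40330776002) (nat_lit 228) (nat_lit 22548037929) (nat_lit 76) (nat_lit 22084240995) (nat_lit 114) (nat_lit 5) (nat_lit 117) (nat_lit 5) (nat_lit 115) (nat_lit 5) (nat_lit 540) (nat_lit 449) (nat_lit 211)) (XT.lf (nat_lit 0) (nat_lit 31353284389) (nat_lit 152) (nat_lit 34304004043) (nat_lit 228) (nat_lit 20966806791) (nat_lit 112) (nat_lit 5) (nat_lit 114) (nat_lit 5) (nat_lit 115) (nat_lit 5) (nat_lit 541) (nat_lit 449) (nat_lit 210))) (XT.nd (nat_lit 78) (nat_lit 152) (nat_lit 0) (XT.lf (nat_lit 0) (nat_lit 3570535507) (nat_lit 228) (nat_lit 1032099065) (nat_lit 76) (nat_lit 83724496581) (nat_lit 111)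 (nat_lit 5) (nat_lit 114) (nat_lit 5) (nat_lit 112) (nat_lit 5) (nat_lit 542) (nat_lit 449) (nat_lit 209)) (XT.lf (nat_lit 0) (nat_lit 29213805155) (nat_lit 228) (nat_lit 34605608791) (nat_lit 76) (nat_lit 26231879889) (nat_lit 109) (nat_lit 5) (nat_lit 112) (nat_lit 5) (nat_lit 110) (nat_lit 5) (nat_lit 543) (nat_lit 449) (nat_lit 208))))))) (XT.nd (nat_lit 56004) (nat_lit 0) (nat_lit 13072) (XT.nd (nat_lit 55380) (nat_lit 0) (nat_lit 17100) (XT.nd (nat_lit 312) (nat_lit 0) (nat_lit 0) (XT.nd (nat_lit 156) (nat_lit 304) (nat_lit 0) (XT.nd (nat_lit 78) (nat_lit 0) (nat_lit 0) (XT.lf (nat_lit 0) (nat_lit 22196831552) (nat_lit 152) (nat_lit 33697531976) (nat_lit 228) (nat_lit 35924778168) (nat_lit 107) (nat_lit 5) (nat_lit 109) (nat_lit 5) (nat_lit 110) (nat_lit 5) (nat_lit 544) (nat_lit 449) (nat_lit 207)) (XT.lf (nat_lit 0) (nat_lit 81410027169) (nat_lit 152) (nat_lit 2313302397) (nat_lit 228) (nat_lit 9906255714)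 (nat_lit 107) (nat_lit 5) (nat_lit 109) (nat_lit 5) (nat_lit 110) (nat_lit 5) (nat_lit 545) (nat_lit 449) (nat_lit 206))) (XT.nd (nat_lit 78) (nat_lit 152) (nat_lit 0) (XT.lf (nat_lit 0) (nat_lit 17314621954) (nat_lit 152) (nat_lit 48099931542) (nat_lit 76) (nat_lit 30052373984) (nat_lit 105) (nat_lit 5) (nat_lit 107) (nat_lit 5) (nat_lit 106) (nat_lit 5) (nat_lit 546) (nat_lit 449) (nat_lit 205)) (XT.lf (nat_lit 0) (nat_lit 11740179530) (nat_lit 152) (nat_lit 33671788903) (nat_lit 228) (nat_lit 51936710621) (nat_lit 103) (nat_lit 5) (nat_lit 105) (nat_lit 5) (nat_lit 106) (nat_lit 5) (nat_lit 547) (nat_lit 449) (nat_lit 204)))) (XT.nd (nat_lit 54912) (nat_lit 0) (nat_lit 17024) (XT.nd (nat_lit 54834) (nat_lit 0) (nat_lit 17024) (XT.lf (nat_lit 0) (nat_lit 74358867744) (nat_lit 152) (nat_lit 477674141) (nat_lit 228) (nat_lit 24435812108) (nat_lit 103) (nat_lit 5) (nat_lit 105) (nat_lit 5) (nat_lit 106) (nat_lit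 5) (nat_lit 548) (nat_lit 449) (nat_lit 203)) (XT.lf (nat_lit 0) (nat_lit 2895003679) (nat_lit 1292) (nat_lit 3036637559) (nat_lit 1292) (nat_lit 3036637559) (nat_lit 327) (nat_lit 3) (nat_lit 344) (nat_lit 3) (nat_lit 344) (nat_lit 5) (nat_lit 450) (nat_lit 450) (nat_lit 300))) (XT.nd (nat_lit 78) (nat_lit 0) (nat_lit 76) (XT.lf (nat_lit 76) (nat_lit 2916023846) (nat_lit 0) (nat_lit 3194584614) (nat_lit 1292) (nat_lit 12087975477) (nat_lit 328) (nat_lit 5) (nat_lit 327) (nat_lit 3) (nat_lit 344) (nat_lit 5) (nat_lit 451) (nat_lit 450) (nat_lit 299)) (XT.lf (nat_lit 0) (nat_lit 6549851161) (nat_lit 1216) (nat_lit 6227357586) (nat_lit 1292) (nat_lit 5687991982) (nat_lit 328) (nat_lit 5) (nat_lit 344) (nat_lit 5) (nat_lit 345) (nat_lit 5) (nat_lit 452) (nat_lit 450) (nat_lit 298))))) (XT.nd (nat_lit 312) (nat_lit 0) (nat_lit 152) (XT.nd (nat_lit 156) (nat_lit 0) (nat_lit 76) (XT.nd (nat_lit 78) (nat_lit 0) (nat_lit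 76) (XT.lf (nat_lit 76) (nat_lit 3124475455) (nat_lit 0) (nat_lit 3931661353) (nat_lit 1292) (nat_lit 11682063609) (nat_lit 329) (nat_lit 5) (nat_lit 328) (nat_lit 5) (nat_lit 345) (nat_lit 5) (nat_lit 453) (nat_lit 450) (nat_lit 297)) (XT.lf (nat_lit 0) (nat_lit 7683322831) (nat_lit 1216) (nat_lit 6187977425) (nat_lit 1292) (nat_lit 5144918834) (nat_lit 329) (nat_lit 5) (nat_lit 345) (nat_lit 5) (nat_lit 346) (nat_lit 5) (nat_lit 454) (nat_lit 450) (nat_lit 296))) (XT.nd (nat_lit 78) (nat_lit 0) (nat_lit 76) (XT.lf (nat_lit 76) (nat_lit 3546367793) (nat_lit 0) (nat_lit 4848613592) (nat_lit 1292) (nat_lit 10905627569) (nat_lit 330) (nat_lit 5) (nat_lit 329) (nat_lit 5) (nat_lit 346) (nat_lit 5) (nat_lit 455) (nat_lit 450) (nat_lit 295)) (XT.lf (nat_lit 0) (nat_lit 9226659021) (nat_lit 1216) (nat_lit 5940058357) (nat_lit 1292) (nat_lit 4423853385) (nat_lit 330) (nat_lit 5) (nat_lit 346) (nat_lit 5) (nat_lit 347)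 (nat_lit 5) (nat_lit 456) (nat_lit 450) (nat_lit 294)))) (XT.nd (nat_lit 156) (nat_lit 0) (nat_lit 76) (XT.nd (nat_lit 78) (nat_lit 0) (nat_lit 76) (XT.lf (nat_lit 76) (nat_lit 4197947427) (nat_lit 0) (nat_lit 5966745976) (nat_lit 1292) (nat_lit 9722096149) (nat_lit 331) (nat_lit 5) (nat_lit 330) (nat_lit 5) (nat_lit 347) (nat_lit 5) (nat_lit 457) (nat_lit 450) (nat_lit 293)) (XT.lf (nat_lit 0) (nat_lit 11218407460) (nat_lit 1216) (nat_lit 5467259067) (nat_lit 1292) (nat_lit 3503602531) (nat_lit 331) (nat_lit 5) (nat_lit 347) (nat_lit 5) (nat_lit 348) (nat_lit 5) (nat_lit 458) (nat_lit 450) (nat_lit 292))) (XT.nd (nat_lit 78) (nat_lit 0) (nat_lit 76) (XT.lf (nat_lit 76) (nat_lit 5096792638) (nat_lit 0) (nat_lit 7308436691) (nat_lit 1292) (nat_lit 8092549029) (nat_lit 332) (nat_lit 5) (nat_lit 331) (nat_lit 5) (nat_lit 348) (nat_lit 5) (nat_lit 459) (nat_lit 450) (nat_lit 291)) (XT.lf (nat_lit 0) (nat_lit 13699594425)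 (nat_lit 1216) (nat_lit 4751910327) (nat_lit 1292) (nat_lit 2361880320) (nat_lit 332) (nat_lit 5) (nat_lit 348) (nat_lit 5) (nat_lit 349) (nat_lit 5) (nat_lit 460) (nat_lit 450) (nat_lit 290)))))) (XT.nd (nat_lit 624) (nat_lit 2432) (nat_lit 0) (XT.nd (nat_lit 312) (nat_lit 1900) (nat_lit 0) (XT.nd (nat_lit 156) (nat_lit 0) (nat_lit 76) (XT.nd (nat_lit 78) (nat_lit 0) (nat_lit 76) (XT.lf (nat_lit 76) (nat_lit 6261880372) (nat_lit 0) (nat_lit 8897243167) (nat_lit 1292) (nat_lit 5975546741) (nat_lit 333) (nat_lit 5) (nat_lit 332) (nat_lit 5) (nat_lit 349) (nat_lit 5) (nat_lit 461) (nat_lit 450) (nat_lit 289)) (XT.lf (nat_lit 0) (nat_lit 16713901109) (nat_lit 1216) (nat_lit 3774946836) (nat_lit 1292) (nat_lit 975202498) (nat_lit 333) (nat_lit 5) (nat_lit 349) (nat_lit 5) (nat_lit 350) (nat_lit 5) (nat_lit 462) (nat_lit 450) (nat_lit 288))) (XT.nd (nat_lit 78) (nat_lit 0) (nat_lit 0) (XT.lf (nat_lit 76) (nat_lit 7713658721)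 (nat_lit 0) (nat_lit 10758011558) (nat_lit 1292) (nat_lit 3326951550) (nat_lit 334) (nat_lit 5) (nat_lit 333) (nat_lit 5) (nat_lit 350) (nat_lit 5) (nat_lit 463) (nat_lit 450) (nat_lit 287)) (XT.lf (nat_lit 76) (nat_lit 19619747722) (nat_lit 0) (nat_lit 694780507) (nat_lit 1292) (nat_lit 1827731717) (nat_lit 334) (nat_lit 5) (nat_lit 333) (nat_lit 5) (nat_lit 350) (nat_lit 5) (nat_lit 464) (nat_lit 450) (nat_lit 286)))) (XT.nd (nat_lit 156) (nat_lit 760) (nat_lit 0) (XT.nd (nat_lit 78) (nat_lit 1292) (nat_lit 0) (XT.lf (nat_lit 76) (nat_lit 9474125111) (nat_lit 0) (nat_lit 12916990469) (nat_lit 1292) (nat_lit 99738568) (nat_lit 335) (nat_lit 5) (nat_lit 334) (nat_lit 5) (nat_lit 351) (nat_lit 5) (nat_lit 465) (nat_lit 450) (nat_lit 285)) (XT.lf (nat_lit 0) (nat_lit 1674393089) (nat_lit 1292) (nat_lit 994721767) (nat_lit 1368) (nat_lit 20179494554) (nat_lit 317) (nat_lit 5) (nat_lit 334) (nat_lit 5) (nat_lit 335)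 (nat_lit 5) (nat_lit 466) (nat_lit 450) (nat_lit 284))) (XT.nd (nat_lit 78) (nat_lit 836) (nat_lit 0) (XT.lf (nat_lit 0) (nat_lit 3682906547) (nat_lit 1292) (nat_lit 11681852759) (nat_lit 76) (nat_lit 7846813754) (nat_lit 318) (nat_lit 5) (nat_lit 335) (nat_lit 5) (nat_lit 319) (nat_lit 5) (nat_lit 467) (nat_lit 450) (nat_lit 283)) (XT.lf (nat_lit 0) (nat_lit 850580208) (nat_lit 836) (nat_lit 4940603352) (nat_lit 912) (nat_lit 17793057039) (nat_lit 307) (nat_lit 5) (nat_lit 318) (nat_lit 5) (nat_lit 319) (nat_lit 5) (nat_lit 468) (nat_lit 450) (nat_lit 282))))) (XT.nd (nat_lit 312) (nat_lit 1216) (nat_lit 0) (XT.nd (nat_lit 156) (nat_lit 608) (nat_lit 0) (XT.nd (nat_lit 78) (nat_lit 608) (nat_lit 0) (XT.lf (nat_lit 0) (nat_lit 8132432132) (nat_lit 912) (nat_lit 10027748945) (nat_lit 76) (nat_lit 5802815608) (nat_lit 307) (nat_lit 5) (nat_lit 319) (nat_lit 5) (nat_lit 308) (nat_lit 5) (nat_lit 469) (nat_lit 450)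 (nat_lit 281)) (XT.lf (nat_lit 0) (nat_lit 3065615968) (nat_lit 608) (nat_lit 7551711046) (nat_lit 684) (nat_lit 13733586385) (nat_lit 299) (nat_lit 5) (nat_lit 307) (nat_lit 5) (nat_lit 308) (nat_lit 5) (nat_lit 470) (nat_lit 450) (nat_lit 280))) (XT.nd (nat_lit 78) (nat_lit 608) (nat_lit 0) (XT.lf (nat_lit 0) (nat_lit 13306601743) (nat_lit 684) (nat_lit 8028266352) (nat_lit 76) (nat_lit 3411704735) (nat_lit 299) (nat_lit 5) (nat_lit 308) (nat_lit 5) (nat_lit 300) (nat_lit 5) (nat_lit 471) (nat_lit 450) (nat_lit 279)) (XT.lf (nat_lit 0) (nat_lit 5657510339) (nat_lit 608) (nat_lit 10543466293) (nat_lit 684) (nat_lit 8949392953) (nat_lit 291) (nat_lit 5) (nat_lit 299) (nat_lit 5) (nat_lit 300) (nat_lit 5) (nat_lit 472) (nat_lit 450) (nat_lit 278)))) (XT.nd (nat_lit 156) (nat_lit 684) (nat_lit 0) (XT.nd (nat_lit 78) (nat_lit 532) (nat_lit 0) (XT.lf (nat_lit 0) (nat_lit 19264914462) (nat_lit 684) (nat_lit 5656403622)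 (nat_lit 76) (nat_lit 642480401) (nat_lit 291) (nat_lit 5) (nat_lit 300) (nat_lit 5) (nat_lit 292) (nat_lit 5) (nat_lit 473) (nat_lit 450) (nat_lit 277)) (XT.lf (nat_lit 0) (nat_lit 8655094154) (nat_lit 532) (nat_lit 13948764079) (nat_lit 608) (nat_lit 3380279574) (nat_lit 284) (nat_lit 5) (nat_lit 291) (nat_lit 5) (nat_lit 292) (nat_lit 5) (nat_lit 474) (nat_lit 450) (nat_lit 276))) (XT.nd (nat_lit 78) (nat_lit 684) (nat_lit 0) (XT.lf (nat_lit 0) (nat_lit 23507379405) (nat_lit 532) (nat_lit 2588296248) (nat_lit 608) (nat_lit 319830676) (nat_lit 284) (nat_lit 5) (nat_lit 291) (nat_lit 5) (nat_lit 292) (nat_lit 5) (nat_lit 475) (nat_lit 450) (nat_lit 275)) (XT.lf (nat_lit 0) (nat_lit 2978658997) (nat_lit 684) (nat_lit 14793815765) (nat_lit 76) (nat_lit 9080479558) (nat_lit 275) (nat_lit 5) (nat_lit 284) (nat_lit 5) (nat_lit 276) (nat_lit 5) (nat_lit 476) (nat_lit 450) (nat_lit 274))))))))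
noncomputable def xc196 : XT := (XT.nd (nat_lit 2418) (nat_lit 4408) (nat_lit 0) (XT.nd (nat_lit 1170) (nat_lit 3192) (nat_lit 0) (XT.nd (nat_lit 546) (nat_lit 2204) (nat_lit 0) (XT.nd (nat_lit 234) (nat_lit 988) (nat_lit 0) (XT.nd (nat_lit 78) (nat_lit 532) (nat_lit 0) (XT.lf (nat_lit 0) (nat_lit 202717438) (nat_lit 532) (nat_lit 6219944683) (nat_lit 608) (nat_lit 20879179186) (nat_lit 268) (nat_lit 5) (nat_lit 275) (nat_lit 5) (nat_lit 276) (nat_lit 5) (nat_lit 477) (nat_lit 450) (nat_lit 273)) (XT.nd (nat_lit 78) (nat_lit 532) (nat_lit 0) (XT.lf (nat_lit 0) (nat_lit 10171276266) (nat_lit 608) (nat_lit 11868001092) (nat_lit 76) (nat_lit 5718878980) (nat_lit 268) (nat_lit 5) (nat_lit 276) (nat_lit 5) (nat_lit 269) (nat_lit 5) (nat_lit 478) (nat_lit 450) (nat_lit 272)) (XT.lf (nat_lit 0) (nat_lit 3828695499) (nat_lit 532) (nat_lit 10297993844) (nat_lit 608) (nat_lit 14098641418) (nat_lit 261) (nat_lit 5) (nat_lit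 268) (nat_lit 5) (nat_lit 269) (nat_lit 5) (nat_lit 479) (nat_lit 450) (nat_lit 271)))) (XT.nd (nat_lit 156) (nat_lit 532) (nat_lit 0) (XT.nd (nat_lit 78) (nat_lit 456) (nat_lit 0) (XT.lf (nat_lit 0) (nat_lit 18335078387) (nat_lit 608) (nat_lit 8486354684) (nat_lit 76) (nat_lit 1881058091) (nat_lit 261) (nat_lit 5) (nat_lit 269) (nat_lit 5) (nat_lit 262) (nat_lit 5) (nat_lit 480) (nat_lit 450) (nat_lit 270)) (XT.lf (nat_lit 0) (nat_lit 7949980849) (nat_lit 456) (nat_lit 14894258229) (nat_lit 532) (nat_lit 6344491847) (nat_lit 255) (nat_lit 5) (nat_lit 261) (nat_lit 5) (nat_lit 262) (nat_lit 5) (nat_lit 481) (nat_lit 450) (nat_lit 269))) (XT.nd (nat_lit 78) (nat_lit 532) (nat_lit 0) (XT.lf (nat_lit 0) (nat_lit 25048985904) (nat_lit 456) (nat_lit 2521594102) (nat_lit 532) (nat_lit 2116520856) (nat_lit 255) (nat_lit 5) (nat_lit 261) (nat_lit 5) (nat_lit 262) (nat_lit 5) (nat_lit 482) (nat_lit 450) (nat_lit 268)) (XT.lf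 (nat_lit 0) (nat_lit 2412481320) (nat_lit 532) (nat_lit 17613738200) (nat_lit 76) (nat_lit 10167020964) (nat_lit 248) (nat_lit 5) (nat_lit 255) (nat_lit 5) (nat_lit 249) (nat_lit 5) (nat_lit 483) (nat_lit 450) (nat_lit 267))))) (XT.nd (nat_lit 312) (nat_lit 1292) (nat_lit 0) (XT.nd (nat_lit 156) (nat_lit 456) (nat_lit 0) (XT.nd (nat_lit 78) (nat_lit 456) (nat_lit 0) (XT.lf (nat_lit 0) (nat_lit 7103424063) (nat_lit 532) (nat_lit 355210008) (nat_lit 76) (nat_lit 23253243372) (nat_lit 248) (nat_lit 5) (nat_lit 255) (nat_lit 5) (nat_lit 249) (nat_lit 5) (nat_lit 484) (nat_lit 450) (nat_lit 266)) (XT.lf (nat_lit 0) (nat_lit 12156717575) (nat_lit 532) (nat_lit 13532035260) (nat_lit 76) (nat_lit 5550672128) (nat_lit 242) (nat_lit 5) (nat_lit 249) (nat_lit 5) (nat_lit 243) (nat_lit 5) (nat_lit 485) (nat_lit 450) (nat_lit 265))) (XT.nd (nat_lit 78) (nat_lit 0) (nat_lit 0) (XT.lf (nat_lit 0) (nat_lit 4546984233) (nat_lit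 456) (nat_lit 12932311171) (nat_lit 532) (nat_lit 14299973065) (nat_lit 236) (nat_lit 5) (nat_lit 242) (nat_lit 5) (nat_lit 243) (nat_lit 5) (nat_lit 486) (nat_lit 450) (nat_lit 264)) (XT.lf (nat_lit 0) (nat_lit 23098098003) (nat_lit 532) (nat_lit 8893151809) (nat_lit 76) (nat_lit 339961164) (nat_lit 236) (nat_lit 5) (nat_lit 243) (nat_lit 5) (nat_lit 237) (nat_lit 5) (nat_lit 487) (nat_lit 450) (nat_lit 263)))) (XT.nd (nat_lit 156) (nat_lit 836) (nat_lit 0) (XT.nd (nat_lit 78) (nat_lit 76) (nat_lit 0) (XT.lf (nat_lit 0) (nat_lit 10060178879) (nat_lit 380) (nat_lit 19046692645) (nat_lit 456) (nat_lit 3786198147) (nat_lit 231) (nat_lit 5) (nat_lit 236) (nat_lit 5) (nat_lit 237) (nat_lit 5) (nat_lit 488) (nat_lit 450) (nat_lit 262)) (XT.lf (nat_lit 0) (nat_lit 1875905281) (nat_lit 456) (nat_lit 3727371239) (nat_lit 76) (nat_lit 27865360386) (nat_lit 230) (nat_lit 5) (nat_lit 236) (nat_lit 5) (nat_lit 231) (nat_lit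 5) (nat_lit 489) (nat_lit 450) (nat_lit 261))) (XT.nd (nat_lit 78) (nat_lit 380) (nat_lit 0) (XT.lf (nat_lit 0) (nat_lit 7865678318) (nat_lit 532) (nat_lit 17910594408) (nat_lit 76) (nat_lit 8277056767) (nat_lit 224) (nat_lit 5) (nat_lit 231) (nat_lit 5) (nat_lit 225) (nat_lit 5) (nat_lit 490) (nat_lit 450) (nat_lit 260)) (XT.lf (nat_lit 0) (nat_lit 2010103100) (nat_lit 380) (nat_lit 12134679335) (nat_lit 456) (nat_lit 20507491391) (nat_lit 219) (nat_lit 5) (nat_lit 224) (nat_lit 5) (nat_lit 225) (nat_lit 5) (nat_lit 491) (nat_lit 450) (nat_lit 259)))))) (XT.nd (nat_lit 624) (nat_lit 1672) (nat_lit 0) (XT.nd (nat_lit 312) (nat_lit 684) (nat_lit 0) (XT.nd (nat_lit 156) (nat_lit 456) (nat_lit 0) (XT.nd (nat_lit 78) (nat_lit 380) (nat_lit 0) (XT.lf (nat_lit 0) (nat_lit 20810200066) (nat_lit 456) (nat_lit 12392631296) (nat_lit 76) (nat_lit 2060417015) (nat_lit 219) (nat_lit 5) (nat_lit 225) (nat_lit 5) (nat_lit 220)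 (nat_lit 5) (nat_lit 492) (nat_lit 450) (nat_lit 258)) (XT.lf (nat_lit 0) (nat_lit 8506125589) (nat_lit 380) (nat_lit 19368325743) (nat_lit 456) (nat_lit 8012134797) (nat_lit 214) (nat_lit 5) (nat_lit 219) (nat_lit 5) (nat_lit 220) (nat_lit 5) (nat_lit 493) (nat_lit 450) (nat_lit 257))) (XT.nd (nat_lit 78) (nat_lit 456) (nat_lit 0) (XT.lf (nat_lit 0) (nat_lit 30281813716) (nat_lit 380) (nat_lit 4990966825) (nat_lit 456) (nat_lit 1252179055) (nat_lit 214) (nat_lit 5) (nat_lit 219) (nat_lit 5) (nat_lit 220) (nat_lit 5) (nat_lit 494) (nat_lit 450) (nat_lit 256)) (XT.lf (nat_lit 0) (nat_lit 5844278132) (nat_lit 456) (nat_lit 21495526745) (nat_lit 76) (nat_lit 9833678575) (nat_lit 208) (nat_lit 5) (nat_lit 214) (nat_lit 5) (nat_lit 209) (nat_lit 5) (nat_lit 495) (nat_lit 450) (nat_lit 255)))) (XT.nd (nat_lit 156) (nat_lit 304) (nat_lit 0) (XT.nd (nat_lit 78) (nat_lit 0) (nat_lit 0) (XT.lf (nat_lit 0) (nat_lit 488141759)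 (nat_lit 380) (nat_lit 12755199522) (nat_lit 456) (nat_lit 24594303500) (nat_lit 203) (nat_lit 5) (nat_lit 208) (nat_lit 5) (nat_lit 209) (nat_lit 5) (nat_lit 496) (nat_lit 450) (nat_lit 254)) (XT.lf (nat_lit 0) (nat_lit 21102518365) (nat_lit 456) (nat_lit 14971281884) (nat_lit 76) (nat_lit 2440786524) (nat_lit 203) (nat_lit 5) (nat_lit 209) (nat_lit 5) (nat_lit 204) (nat_lit 5) (nat_lit 497) (nat_lit 450) (nat_lit 253))) (XT.nd (nat_lit 78) (nat_lit 0) (nat_lit 0) (XT.lf (nat_lit 0) (nat_lit 8106217144) (nat_lit 304) (nat_lit 21292686950) (nat_lit 380) (nat_lit 9806890014) (nat_lit 199) (nat_lit 5) (nat_lit 203) (nat_lit 5) (nat_lit 204) (nat_lit 5) (nat_lit 498) (nat_lit 450) (nat_lit 252)) (XT.lf (nat_lit 0) (nat_lit 32179015445) (nat_lit 304) (nat_lit 5913612052) (nat_lit 380) (nat_lit 1820656861) (nat_lit 199) (nat_lit 5) (nat_lit 203) (nat_lit 5) (nat_lit 204) (nat_lit 5) (nat_lit 499) (nat_lit 450) (nat_lit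 251))))) (XT.nd (nat_lit 312) (nat_lit 684) (nat_lit 0) (XT.nd (nat_lit 156) (nat_lit 304) (nat_lit 0) (XT.nd (nat_lit 78) (nat_lit 304) (nat_lit 0) (XT.lf (nat_lit 0) (nat_lit 6534570462) (nat_lit 380) (nat_lit 24142745374) (nat_lit 76) (nat_lit 9955204596) (nat_lit 194) (nat_lit 5) (nat_lit 199) (nat_lit 5) (nat_lit 195) (nat_lit 5) (nat_lit 500) (nat_lit 450) (nat_lit 250)) (XT.lf (nat_lit 0) (nat_lit 149775660) (nat_lit 304) (nat_lit 15090298876) (nat_lit 380) (nat_lit 26128631936) (nat_lit 190) (nat_lit 5) (nat_lit 194) (nat_lit 5) (nat_lit 195) (nat_lit 5) (nat_lit 501) (nat_lit 450) (nat_lit 249))) (XT.nd (nat_lit 78) (nat_lit 304) (nat_lit 0) (XT.lf (nat_lit 0) (nat_lit 24459598637) (nat_lit 380) (nat_lit 16469292681) (nat_lit 76) (nat_lit 1190501199) (nat_lit 190) (nat_lit 5) (nat_lit 195) (nat_lit 5) (nat_lit 191) (nat_lit 5) (nat_lit 502) (nat_lit 450) (nat_lit 248)) (XT.lf (nat_lit 0) (nat_lit 9046142859)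 (nat_lit 304) (nat_lit 25143384949) (nat_lit 380) (nat_lit 8696056822) (nat_lit 186) (nat_lit 5) (nat_lit 190) (nat_lit 5) (nat_lit 191) (nat_lit 5) (nat_lit 503) (nat_lit 450) (nat_lit 247)))) (XT.nd (nat_lit 156) (nat_lit 304) (nat_lit 0) (XT.nd (nat_lit 78) (nat_lit 304) (nat_lit 0) (XT.lf (nat_lit 0) (nat_lit 691542106) (nat_lit 380) (nat_lit 8015750967) (nat_lit 76) (nat_lit 34962352140) (nat_lit 185) (nat_lit 5) (nat_lit 190) (nat_lit 5) (nat_lit 186) (nat_lit 5) (nat_lit 504) (nat_lit 450) (nat_lit 246)) (XT.lf (nat_lit 0) (nat_lit 10446498791) (nat_lit 380) (nat_lit 25690061497) (nat_lit 76) (nat_lit 8330269044) (nat_lit 181) (nat_lit 5) (nat_lit 186) (nat_lit 5) (nat_lit 182) (nat_lit 5) (nat_lit 505) (nat_lit 450) (nat_lit 245))) (XT.nd (nat_lit 78) (nat_lit 0) (nat_lit 0) (XT.lf (nat_lit 0) (nat_lit 1184241100) (nat_lit 304) (nat_lit 19486766922) (nat_lit 380) (nat_lit 24611613896) (nat_lit 177) (nat_lit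 5) (nat_lit 181) (nat_lit 5) (nat_lit 182) (nat_lit 5) (nat_lit 506) (nat_lit 450) (nat_lit 244)) (XT.lf (nat_lit 0) (nat_lit 29387698405) (nat_lit 304) (nat_lit 2071573373) (nat_lit 380) (nat_lit 14655905987) (nat_lit 177) (nat_lit 5) (nat_lit 181) (nat_lit 5) (nat_lit 182) (nat_lit 5) (nat_lit 507) (nat_lit 450) (nat_lit 243))))))) (XT.nd (nat_lit 1170) (nat_lit 2052) (nat_lit 0) (XT.nd (nat_lit 546) (nat_lit 1216) (nat_lit 0) (XT.nd (nat_lit 234) (nat_lit 532) (nat_lit 0) (XT.nd (nat_lit 78) (nat_lit 380) (nat_lit 0) (XT.lf (nat_lit 0) (nat_lit 11533448148) (nat_lit 228) (nat_lit 31298774099) (nat_lit 304) (nat_lit 4132656934) (nat_lit 174) (nat_lit 5) (nat_lit 177) (nat_lit 5) (nat_lit 178) (nat_lit 5) (nat_lit 508) (nat_lit 450) (nat_lit 242)) (XT.nd (nat_lit 78) (nat_lit 304) (nat_lit 0) (XT.lf (nat_lit 0) (nat_lit 6764191934) (nat_lit 304) (nat_lit 6940208193) (nat_lit 76) (nat_lit 34128074631) (nat_lit 173)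 (nat_lit 5) (nat_lit 177) (nat_lit 5) (nat_lit 174) (nat_lit 5) (nat_lit 509) (nat_lit 450) (nat_lit 241)) (XT.lf (nat_lit 0) (nat_lit 18166878540) (nat_lit 380) (nat_lit 25957074341) (nat_lit 76) (nat_lit 4593058015) (nat_lit 169) (nat_lit 5) (nat_lit 174) (nat_lit 5) (nat_lit 170) (nat_lit 5) (nat_lit 510) (nat_lit 450) (nat_lit 240)))) (XT.nd (nat_lit 156) (nat_lit 304) (nat_lit 0) (XT.nd (nat_lit 78) (nat_lit 0) (nat_lit 0) (XT.lf (nat_lit 0) (nat_lit 3801604696) (nat_lit 228) (nat_lit 26350804039) (nat_lit 304) (nat_lit 19468451544) (nat_lit 166) (nat_lit 5) (nat_lit 169) (nat_lit 5) (nat_lit 170) (nat_lit 5) (nat_lit 511) (nat_lit 450) (nat_lit 239)) (XT.lf (nat_lit 0) (nat_lit 34981603925) (nat_lit 228) (nat_lit 7775803977) (nat_lit 304) (nat_lit 7786620201) (nat_lit 166) (nat_lit 5) (nat_lit 169) (nat_lit 5) (nat_lit 170) (nat_lit 5) (nat_lit 512) (nat_lit 450) (nat_lit 238))) (XT.nd (nat_lit 78) (nat_lit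 0) (nat_lit 0) (XT.lf (nat_lit 0) (nat_lit 4424242987) (nat_lit 304) (nat_lit 35732766278) (nat_lit 76) (nat_lit 11328814630) (nat_lit 162) (nat_lit 5) (nat_lit 166) (nat_lit 5) (nat_lit 163) (nat_lit 5) (nat_lit 513) (nat_lit 450) (nat_lit 237)) (XT.lf (nat_lit 0) (nat_lit 17078471015) (nat_lit 304) (nat_lit 4283272769) (nat_lit 76) (nat_lit 31084810695) (nat_lit 162) (nat_lit 5) (nat_lit 166) (nat_lit 5) (nat_lit 163) (nat_lit 5) (nat_lit 514) (nat_lit 450) (nat_lit 236))))) (XT.nd (nat_lit 312) (nat_lit 456) (nat_lit 0) (XT.nd (nat_lit 156) (nat_lit 304) (nat_lit 0) (XT.nd (nat_lit 78) (nat_lit 228) (nat_lit 0) (XT.lf (nat_lit 0) (nat_lit 28665685377) (nat_lit 228) (nat_lit 1720103515) (nat_lit 304) (nat_lit 23042114243) (nat_lit 159) (nat_lit 5) (nat_lit 162) (nat_lit 5) (nat_lit 163) (nat_lit 5) (nat_lit 515) (nat_lit 450) (nat_lit 235)) (XT.lf (nat_lit 0) (nat_lit 8232391779) (nat_lit 228) (nat_lit 36158614218)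 (nat_lit 304) (nat_lit 10038725905) (nat_lit 156) (nat_lit 5) (nat_lit 159) (nat_lit 5) (nat_lit 160) (nat_lit 5) (nat_lit 516) (nat_lit 450) (nat_lit 234))) (XT.nd (nat_lit 78) (nat_lit 228) (nat_lit 0) (XT.lf (nat_lit 0) (nat_lit 3556791532) (nat_lit 304) (nat_lit 12784842585) (nat_lit 76) (nat_lit 39110989286) (nat_lit 155) (nat_lit 5) (nat_lit 159) (nat_lit 5) (nat_lit 156) (nat_lit 5) (nat_lit 517) (nat_lit 450) (nat_lit 233)) (XT.lf (nat_lit 0) (nat_lit 17609636095) (nat_lit 304) (nat_lit 34583374450) (nat_lit 76) (nat_lit 4302672441) (nat_lit 152) (nat_lit 5) (nat_lit 156) (nat_lit 5) (nat_lit 153) (nat_lit 5) (nat_lit 518) (nat_lit 450) (nat_lit 232)))) (XT.nd (nat_lit 156) (nat_lit 228) (nat_lit 0) (XT.nd (nat_lit 78) (nat_lit 0) (nat_lit 0) (XT.lf (nat_lit 0) (nat_lit 183463358) (nat_lit 228) (nat_lit 32192553762) (nat_lit 304) (nat_lit 25185258741) (nat_lit 149) (nat_lit 5) (nat_lit 152) (nat_lit 5) (nat_lit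 153) (nat_lit 5) (nat_lit 519) (nat_lit 450) (nat_lit 231)) (XT.lf (nat_lit 0) (nat_lit 36698934509) (nat_lit 228) (nat_lit 11233714760) (nat_lit 304) (nat_lit 10715769500) (nat_lit 149) (nat_lit 5) (nat_lit 152) (nat_lit 5) (nat_lit 153) (nat_lit 5) (nat_lit 520) (nat_lit 450) (nat_lit 230))) (XT.nd (nat_lit 78) (nat_lit 0) (nat_lit 0) (XT.lf (nat_lit 0) (nat_lit 4347619382) (nat_lit 228) (nat_lit 45077341857) (nat_lit 76) (nat_lit 10334761063) (nat_lit 146) (nat_lit 5) (nat_lit 149) (nat_lit 5) (nat_lit 147) (nat_lit 5) (nat_lit 521) (nat_lit 450) (nat_lit 229)) (XT.lf (nat_lit 0) (nat_lit 19980686181) (nat_lit 228) (nat_lit 8257339835) (nat_lit 76) (nat_lit 32653161480) (nat_lit 146) (nat_lit 5) (nat_lit 149) (nat_lit 5) (nat_lit 147) (nat_lit 5) (nat_lit 522) (nat_lit 450) (nat_lit 228)))))) (XT.nd (nat_lit 624) (nat_lit 912) (nat_lit 0) (XT.nd (nat_lit 312) (nat_lit 456) (nat_lit 0) (XT.nd (nat_lit 156) (nat_lit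 304) (nat_lit 0) (XT.nd (nat_lit 78) (nat_lit 152) (nat_lit 0) (XT.lf (nat_lit 0) (nat_lit 30254478671) (nat_lit 228) (nat_lit 6117233038) (nat_lit 304) (nat_lit 25676215968) (nat_lit 143) (nat_lit 5) (nat_lit 146) (nat_lit 5) (nat_lit 147) (nat_lit 5) (nat_lit 523) (nat_lit 450) (nat_lit 227)) (XT.lf (nat_lit 0) (nat_lit 6822981645) (nat_lit 152) (nat_lit 46739650512) (nat_lit 228) (nat_lit 9667493012) (nat_lit 141) (nat_lit 5) (nat_lit 143) (nat_lit 5) (nat_lit 144) (nat_lit 5) (nat_lit 524) (nat_lit 450) (nat_lit 226))) (XT.nd (nat_lit 78) (nat_lit 228) (nat_lit 0) (XT.lf (nat_lit 0) (nat_lit 7071335978) (nat_lit 228) (nat_lit 17321009717) (nat_lit 76) (nat_lit 40041987066) (nat_lit 140) (nat_lit 5) (nat_lit 143) (nat_lit 5) (nat_lit 141) (nat_lit 5) (nat_lit 525) (nat_lit 450) (nat_lit 225)) (XT.lf (nat_lit 0) (nat_lit 23293447189) (nat_lit 228) (nat_lit 1046699420) (nat_lit 304) (nat_lit 41324984753) (nat_lit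 137) (nat_lit 5) (nat_lit 140) (nat_lit 5) (nat_lit 141) (nat_lit 5) (nat_lit 526) (nat_lit 450) (nat_lit 224)))) (XT.nd (nat_lit 156) (nat_lit 304) (nat_lit 0) (XT.nd (nat_lit 78) (nat_lit 152) (nat_lit 0) (XT.lf (nat_lit 0) (nat_lit 42522968336) (nat_lit 304) (nat_lit 1672112996) (nat_lit 76) (nat_lit 22725894214) (nat_lit 137) (nat_lit 5) (nat_lit 141) (nat_lit 5) (nat_lit 138) (nat_lit 5) (nat_lit 527) (nat_lit 450) (nat_lit 223)) (XT.lf (nat_lit 0) (nat_lit 41035836424) (nat_lit 152) (nat_lit 20618538242) (nat_lit 228) (nat_lit 6548027418) (nat_lit 135) (nat_lit 5) (nat_lit 137) (nat_lit 5) (nat_lit 138) (nat_lit 5) (nat_lit 528) (nat_lit 450) (nat_lit 222))) (XT.nd (nat_lit 78) (nat_lit 0) (nat_lit 0) (XT.lf (nat_lit 0) (nat_lit 11810987626) (nat_lit 304) (nat_lit 53824402975) (nat_lit 76) (nat_lit 3877331363) (nat_lit 131) (nat_lit 5) (nat_lit 135) (nat_lit 5) (nat_lit 132) (nat_lit 5) (nat_lit 529) (nat_lit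 450) (nat_lit 221)) (XT.lf (nat_lit 0) (nat_lit 31068642356) (nat_lit 304) (nat_lit 10743091991) (nat_lit 76) (nat_lit 29034287817) (nat_lit 131) (nat_lit 5) (nat_lit 135) (nat_lit 5) (nat_lit 132) (nat_lit 5) (nat_lit 530) (nat_lit 450) (nat_lit 220))))) (XT.nd (nat_lit 312) (nat_lit 380) (nat_lit 0) (XT.nd (nat_lit 156) (nat_lit 228) (nat_lit 0) (XT.nd (nat_lit 78) (nat_lit 152) (nat_lit 0) (XT.lf (nat_lit 0) (nat_lit 34296987400) (nat_lit 152) (nat_lit 16935061768) (nat_lit 228) (nat_lit 20977431553) (nat_lit 129) (nat_lit 5) (nat_lit 131) (nat_lit 5) (nat_lit 132) (nat_lit 5) (nat_lit 531) (nat_lit 450) (nat_lit 219)) (XT.lf (nat_lit 0) (nat_lit 7353879473) (nat_lit 152) (nat_lit 64908587703) (nat_lit 228) (nat_lit 1343512615) (nat_lit 127) (nat_lit 5) (nat_lit 129) (nat_lit 5) (nat_lit 130) (nat_lit 5) (nat_lit 532) (nat_lit 450) (nat_lit 218))) (XT.nd (nat_lit 78) (nat_lit 152) (nat_lit 0) (XT.lf (nat_lit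 0) (nat_lit 19063675783) (nat_lit 228) (nat_lit 20633362288) (nat_lit 76) (nat_lit 35325311640) (nat_lit 126) (nat_lit 5) (nat_lit 129) (nat_lit 5) (nat_lit 127) (nat_lit 5) (nat_lit 533) (nat_lit 450) (nat_lit 217)) (XT.lf (nat_lit 0) (nat_lit 26861953767) (nat_lit 152) (nat_lit 13450735566) (nat_lit 228) (nat_lit 36160423975) (nat_lit 124) (nat_lit 5) (nat_lit 126) (nat_lit 5) (nat_lit 127) (nat_lit 5) (nat_lit 534) (nat_lit 450) (nat_lit 216)))) (XT.nd (nat_lit 156) (nat_lit 152) (nat_lit 0) (XT.nd (nat_lit 78) (nat_lit 228) (nat_lit 0) (XT.lf (nat_lit 0) (nat_lit 62538567114) (nat_lit 228) (nat_lit 1891549698) (nat_lit 76) (nat_lit 13527101205) (nat_lit 124) (nat_lit 5) (nat_lit 127) (nat_lit 5) (nat_lit 125) (nat_lit 5) (nat_lit 535) (nat_lit 450) (nat_lit 215)) (XT.lf (nat_lit 0) (nat_lit 6428862839) (nat_lit 228) (nat_lit 31469518027) (nat_lit 76) (nat_lit 41567765407) (nat_lit 121) (nat_lit 5) (nat_lit 124)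 (nat_lit 5) (nat_lit 122) (nat_lit 5) (nat_lit 536) (nat_lit 450) (nat_lit 214))) (XT.nd (nat_lit 78) (nat_lit 0) (nat_lit 0) (XT.lf (nat_lit 0) (nat_lit 18607932790) (nat_lit 152) (nat_lit 10210587039) (nat_lit 228) (nat_lit 52191344248) (nat_lit 119) (nat_lit 5) (nat_lit 121) (nat_lit 5) (nat_lit 122) (nat_lit 5) (nat_lit 537) (nat_lit 450) (nat_lit 213)) (XT.lf (nat_lit 0) (nat_lit 52375242654) (nat_lit 228) (nat_lit 11939480824) (nat_lit 76) (nat_lit 18270308673) (nat_lit 119) (nat_lit 5) (nat_lit 122) (nat_lit 5) (nat_lit 120) (nat_lit 5) (nat_lit 538) (nat_lit 450) (nat_lit 212))))))))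
noncomputable def xc197 : XT := (XT.nd (nat_lit 57252) (nat_lit 0) (nat_lit 6612) (XT.nd (nat_lit 56004) (nat_lit 0) (nat_lit 14896) (XT.nd (nat_lit 546) (nat_lit 304) (nat_lit 0) (XT.nd (nat_lit 234) (nat_lit 532) (nat_lit 0) (XT.nd (nat_lit 78) (nat_lit 228) (nat_lit 0) (XT.lf (nat_lit 0) (nat_lit 40727785559) (nat_lit 152) (nat_lit 36401984867) (nat_lit 228) (nat_lit 7062951759) (nat_lit 117) (nat_lit 5) (nat_lit 119) (nat_lit 5) (nat_lit 120) (nat_lit 5) (nat_lit 539) (nat_lit 450) (nat_lit 211)) (XT.nd (nat_lit 78) (nat_lit 0) (nat_lit 0) (XT.lf (nat_lit 0) (nat_lit 9392892309) (nat_lit 152) (nat_lit 7268554212) (nat_lit 228) (nat_lit 69176041113) (nat_lit 114) (nat_lit 5) (nat_lit 116) (nat_lit 5) (nat_lit 117) (nat_lit 5) (nat_lit 540) (nat_lit 450) (nat_lit 210)) (XT.lf (nat_lit 0) (nat_lit 41615971627) (nat_lit 228) (nat_lit 23086557380) (nat_lit 76) (nat_lit 22807158553) (nat_lit 114) (nat_lit 5) (nat_lit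 117) (nat_lit 5) (nat_lit 115) (nat_lit 5) (nat_lit 541) (nat_lit 450) (nat_lit 209)))) (XT.nd (nat_lit 156) (nat_lit 304) (nat_lit 0) (XT.nd (nat_lit 78) (nat_lit 76) (nat_lit 0) (XT.lf (nat_lit 0) (nat_lit 32430452434) (nat_lit 152) (nat_lit 35270947387) (nat_lit 228) (nat_lit 21519185657) (nat_lit 112) (nat_lit 5) (nat_lit 114) (nat_lit 5) (nat_lit 115) (nat_lit 5) (nat_lit 542) (nat_lit 450) (nat_lit 208)) (XT.lf (nat_lit 0) (nat_lit 3750593418) (nat_lit 228) (nat_lit 929017818) (nat_lit 76) (nat_lit 86295144823) (nat_lit 111) (nat_lit 5) (nat_lit 114) (nat_lit 5) (nat_lit 112) (nat_lit 5) (nat_lit 543) (nat_lit 450) (nat_lit 207))) (XT.nd (nat_lit 78) (nat_lit 152) (nat_lit 0) (XT.lf (nat_lit 0) (nat_lit 30162895397) (nat_lit 228) (nat_lit 35509466327) (nat_lit 76) (nat_lit 27078289893) (nat_lit 109) (nat_lit 5) (nat_lit 112) (nat_lit 5) (nat_lit 110) (nat_lit 5) (nat_lit 544) (nat_lit 450) (nat_lit 206)) (XT.lf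 (nat_lit 0) (nat_lit 22995730454) (nat_lit 152) (nat_lit 34647301707) (nat_lit 228) (nat_lit 36928527926) (nat_lit 107) (nat_lit 5) (nat_lit 109) (nat_lit 5) (nat_lit 110) (nat_lit 5) (nat_lit 545) (nat_lit 450) (nat_lit 205))))) (XT.nd (nat_lit 55146) (nat_lit 0) (nat_lit 17024) (XT.nd (nat_lit 156) (nat_lit 152) (nat_lit 0) (XT.nd (nat_lit 78) (nat_lit 152) (nat_lit 0) (XT.lf (nat_lit 0) (nat_lit 83981448329) (nat_lit 152) (nat_lit 2323326490) (nat_lit 228) (nat_lit 10131604951) (nat_lit 107) (nat_lit 5) (nat_lit 109) (nat_lit 5) (nat_lit 110) (nat_lit 5) (nat_lit 546) (nat_lit 450) (nat_lit 204)) (XT.lf (nat_lit 0) (nat_lit 17904261097) (nat_lit 152) (nat_lit 49412169840) (nat_lit 76) (nat_lit 31012397686) (nat_lit 105) (nat_lit 5) (nat_lit 107) (nat_lit 5) (nat_lit 106) (nat_lit 5) (nat_lit 547) (nat_lit 450) (nat_lit 203))) (XT.nd (nat_lit 54912) (nat_lit 0) (nat_lit 17024) (XT.lf (nat_lit 0) (nat_lit 12221862607)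 (nat_lit 152) (nat_lit 34621865309) (nat_lit 228) (nat_lit 53423328851) (nat_lit 103) (nat_lit 5) (nat_lit 105) (nat_lit 5) (nat_lit 106) (nat_lit 5) (nat_lit 548) (nat_lit 450) (nat_lit 202)) (XT.lf (nat_lit 0) (nat_lit 3185596665) (nat_lit 1292) (nat_lit 3022804404) (nat_lit 1292) (nat_lit 3022804404) (nat_lit 327) (nat_lit 3) (nat_lit 344) (nat_lit 3) (nat_lit 344) (nat_lit 5) (nat_lit 451) (nat_lit 451) (nat_lit 298)))) (XT.nd (nat_lit 156) (nat_lit 0) (nat_lit 76) (XT.nd (nat_lit 78) (nat_lit 0) (nat_lit 76) (XT.lf (nat_lit 76) (nat_lit 3211311630) (nat_lit 0) (nat_lit 3480229886) (nat_lit 1292) (nat_lit 12041053236) (nat_lit 328) (nat_lit 5) (nat_lit 327) (nat_lit 3) (nat_lit 344) (nat_lit 5) (nat_lit 452) (nat_lit 451) (nat_lit 297)) (XT.lf (nat_lit 0) (nat_lit 7130609079) (nat_lit 1216) (nat_lit 6199053732) (nat_lit 1292) (nat_lit 5677948343) (nat_lit 328) (nat_lit 5) (nat_lit 344) (nat_lit 5) (nat_lit 345)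 (nat_lit 5) (nat_lit 453) (nat_lit 451) (nat_lit 296))) (XT.nd (nat_lit 78) (nat_lit 0) (nat_lit 76) (XT.lf (nat_lit 76) (nat_lit 3431225236) (nat_lit 0) (nat_lit 4211713586) (nat_lit 1292) (nat_lit 11646136860) (nat_lit 329) (nat_lit 5) (nat_lit 328) (nat_lit 5) (nat_lit 345) (nat_lit 5) (nat_lit 454) (nat_lit 451) (nat_lit 295)) (XT.lf (nat_lit 0) (nat_lit 8276501820) (nat_lit 1216) (nat_lit 6154350250) (nat_lit 1292) (nat_lit 5144956505) (nat_lit 329) (nat_lit 5) (nat_lit 345) (nat_lit 5) (nat_lit 346) (nat_lit 5) (nat_lit 455) (nat_lit 451) (nat_lit 294)))))) (XT.nd (nat_lit 624) (nat_lit 2280) (nat_lit 0) (XT.nd (nat_lit 312) (nat_lit 0) (nat_lit 152) (XT.nd (nat_lit 156) (nat_lit 0) (nat_lit 76) (XT.nd (nat_lit 78) (nat_lit 0) (nat_lit 76) (XT.lf (nat_lit 76) (nat_lit 3869875653) (nat_lit 0) (nat_lit 5131158062) (nat_lit 1292) (nat_lit 10867951199) (nat_lit 330) (nat_lit 5) (nat_lit 329) (nat_lit 5) (nat_lit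 346) (nat_lit 5) (nat_lit 456) (nat_lit 451) (nat_lit 293)) (XT.lf (nat_lit 0) (nat_lit 9846065717) (nat_lit 1216) (nat_lit 5895855360) (nat_lit 1292) (nat_lit 4426072851) (nat_lit 330) (nat_lit 5) (nat_lit 346) (nat_lit 5) (nat_lit 347) (nat_lit 5) (nat_lit 457) (nat_lit 451) (nat_lit 292))) (XT.nd (nat_lit 78) (nat_lit 0) (nat_lit 76) (XT.lf (nat_lit 76) (nat_lit 4544110159) (nat_lit 0) (nat_lit 6260269060) (nat_lit 1292) (nat_lit 9668956379) (nat_lit 331) (nat_lit 5) (nat_lit 330) (nat_lit 5) (nat_lit 347) (nat_lit 5) (nat_lit 458) (nat_lit 451) (nat_lit 291)) (XT.lf (nat_lit 0) (nat_lit 11878886064) (nat_lit 1216) (nat_lit 5406633350) (nat_lit 1292) (nat_lit 3499695080) (nat_lit 331) (nat_lit 5) (nat_lit 347) (nat_lit 5) (nat_lit 348) (nat_lit 5) (nat_lit 459) (nat_lit 451) (nat_lit 290)))) (XT.nd (nat_lit 156) (nat_lit 0) (nat_lit 76) (XT.nd (nat_lit 78) (nat_lit 0) (nat_lit 76) (XT.lf (nat_lit 76) (nat_lit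 5472137519) (nat_lit 0) (nat_lit 7621878560) (nat_lit 1292) (nat_lit 8009182320) (nat_lit 332) (nat_lit 5) (nat_lit 331) (nat_lit 5) (nat_lit 348) (nat_lit 5) (nat_lit 460) (nat_lit 451) (nat_lit 289)) (XT.lf (nat_lit 0) (nat_lit 14417110870) (nat_lit 1216) (nat_lit 4668390150) (nat_lit 1292) (nat_lit 2343075753) (nat_lit 332) (nat_lit 5) (nat_lit 348) (nat_lit 5) (nat_lit 349) (nat_lit 5) (nat_lit 461) (nat_lit 451) (nat_lit 288))) (XT.nd (nat_lit 78) (nat_lit 0) (nat_lit 76) (XT.lf (nat_lit 76) (nat_lit 6673597824) (nat_lit 0) (nat_lit 9240051904) (nat_lit 1292) (nat_lit 5846054500) (nat_lit 333) (nat_lit 5) (nat_lit 332) (nat_lit 5) (nat_lit 349) (nat_lit 5) (nat_lit 462) (nat_lit 451) (nat_lit 287)) (XT.lf (nat_lit 0) (nat_lit 17505631704) (nat_lit 1216) (nat_lit 3661402312) (nat_lit 1292) (nat_lit 932215342) (nat_lit 333) (nat_lit 5) (nat_lit 349) (nat_lit 5) (nat_lit 350) (nat_lit 5) (nat_lit 463) (nat_lit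 451) (nat_lit 286))))) (XT.nd (nat_lit 312) (nat_lit 1368) (nat_lit 0) (XT.nd (nat_lit 156) (nat_lit 1216) (nat_lit 0) (XT.nd (nat_lit 78) (nat_lit 0) (nat_lit 0) (XT.lf (nat_lit 76) (nat_lit 8169637951) (nat_lit 0) (nat_lit 11140198962) (nat_lit 1292) (nat_lit 3134210269) (nat_lit 334) (nat_lit 5) (nat_lit 333) (nat_lit 5) (nat_lit 350) (nat_lit 5) (nat_lit 464) (nat_lit 451) (nat_lit 285)) (XT.lf (nat_lit 76) (nat_lit 20426368763) (nat_lit 0) (nat_lit 773339512) (nat_lit 1292) (nat_lit 1598534710) (nat_lit 334) (nat_lit 5) (nat_lit 333) (nat_lit 5) (nat_lit 350) (nat_lit 5) (nat_lit 465) (nat_lit 451) (nat_lit 284))) (XT.nd (nat_lit 78) (nat_lit 0) (nat_lit 0) (XT.lf (nat_lit 0) (nat_lit 171286018) (nat_lit 1292) (nat_lit 13176174135) (nat_lit 1368) (nat_lit 9809977163) (nat_lit 317) (nat_lit 5) (nat_lit 334) (nat_lit 5) (nat_lit 335) (nat_lit 5) (nat_lit 466) (nat_lit 451) (nat_lit 283)) (XT.lf (nat_lit 0) (nat_lit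 1988714296) (nat_lit 1292) (nat_lit 801195204) (nat_lit 1368) (nat_lit 20736224132) (nat_lit 317) (nat_lit 5) (nat_lit 334) (nat_lit 5) (nat_lit 335) (nat_lit 5) (nat_lit 467) (nat_lit 451) (nat_lit 282)))) (XT.nd (nat_lit 156) (nat_lit 608) (nat_lit 0) (XT.nd (nat_lit 78) (nat_lit 836) (nat_lit 0) (XT.lf (nat_lit 0) (nat_lit 4051558349) (nat_lit 1292) (nat_lit 11803004271) (nat_lit 76) (nat_lit 8045601648) (nat_lit 318) (nat_lit 5) (nat_lit 335) (nat_lit 5) (nat_lit 319) (nat_lit 5) (nat_lit 468) (nat_lit 451) (nat_lit 281)) (XT.lf (nat_lit 0) (nat_lit 1103153607) (nat_lit 836) (nat_lit 5114593310) (nat_lit 912) (nat_lit 18066425340) (nat_lit 307) (nat_lit 5) (nat_lit 318) (nat_lit 5) (nat_lit 319) (nat_lit 5) (nat_lit 469) (nat_lit 451) (nat_lit 280))) (XT.nd (nat_lit 78) (nat_lit 608) (nat_lit 0) (XT.lf (nat_lit 0) (nat_lit 8621628508) (nat_lit 912) (nat_lit 10100523852) (nat_lit 76) (nat_lit 5952367110) (nat_lit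 307) (nat_lit 5) (nat_lit 319) (nat_lit 5) (nat_lit 308) (nat_lit 5) (nat_lit 470) (nat_lit 451) (nat_lit 279)) (XT.lf (nat_lit 0) (nat_lit 3383406150) (nat_lit 608) (nat_lit 7792692394) (nat_lit 684) (nat_lit 13898124596) (nat_lit 299) (nat_lit 5) (nat_lit 307) (nat_lit 5) (nat_lit 308) (nat_lit 5) (nat_lit 471) (nat_lit 451) (nat_lit 278))))))) (XT.nd (nat_lit 1248) (nat_lit 3496) (nat_lit 0) (XT.nd (nat_lit 624) (nat_lit 2432) (nat_lit 0) (XT.nd (nat_lit 312) (nat_lit 1216) (nat_lit 0) (XT.nd (nat_lit 156) (nat_lit 532) (nat_lit 0) (XT.nd (nat_lit 78) (nat_lit 608) (nat_lit 0) (XT.lf (nat_lit 0) (nat_lit 13938919221) (nat_lit 684) (nat_lit 8042727864) (nat_lit 76) (nat_lit 3500319532) (nat_lit 299) (nat_lit 5) (nat_lit 308) (nat_lit 5) (nat_lit 300) (nat_lit 5) (nat_lit 472) (nat_lit 451) (nat_lit 277)) (XT.lf (nat_lit 0) (nat_lit 6051402653) (nat_lit 608) (nat_lit 10864087648) (nat_lit 684) (nat_lit 8982526312)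 (nat_lit 291) (nat_lit 5) (nat_lit 299) (nat_lit 5) (nat_lit 300) (nat_lit 5) (nat_lit 473) (nat_lit 451) (nat_lit 276))) (XT.nd (nat_lit 78) (nat_lit 532) (nat_lit 0) (XT.lf (nat_lit 0) (nat_lit 20064651090) (nat_lit 684) (nat_lit 5601753435) (nat_lit 76) (nat_lit 657644989) (nat_lit 291) (nat_lit 5) (nat_lit 300) (nat_lit 5) (nat_lit 292) (nat_lit 5) (nat_lit 474) (nat_lit 451) (nat_lit 275)) (XT.lf (nat_lit 0) (nat_lit 9136889840) (nat_lit 532) (nat_lit 14362548826) (nat_lit 608) (nat_lit 3257690352) (nat_lit 284) (nat_lit 5) (nat_lit 291) (nat_lit 5) (nat_lit 292) (nat_lit 5) (nat_lit 475) (nat_lit 451) (nat_lit 274)))) (XT.nd (nat_lit 156) (nat_lit 532) (nat_lit 0) (XT.nd (nat_lit 78) (nat_lit 684) (nat_lit 0) (XT.lf (nat_lit 0) (nat_lit 24428273469) (nat_lit 532) (nat_lit 2661403219) (nat_lit 608) (nat_lit 111952188) (nat_lit 284) (nat_lit 5) (nat_lit 291) (nat_lit 5) (nat_lit 292) (nat_lit 5) (nat_lit 476)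 (nat_lit 451) (nat_lit 273)) (XT.lf (nat_lit 0) (nat_lit 3277214446) (nat_lit 684) (nat_lit 15013663142) (nat_lit 76) (nat_lit 9361381272) (nat_lit 275) (nat_lit 5) (nat_lit 284) (nat_lit 5) (nat_lit 276) (nat_lit 5) (nat_lit 477) (nat_lit 451) (nat_lit 272))) (XT.nd (nat_lit 78) (nat_lit 0) (nat_lit 0) (XT.lf (nat_lit 0) (nat_lit 430570301) (nat_lit 532) (nat_lit 6390006085) (nat_lit 608) (nat_lit 21294155147) (nat_lit 268) (nat_lit 5) (nat_lit 275) (nat_lit 5) (nat_lit 276) (nat_lit 5) (nat_lit 478) (nat_lit 451) (nat_lit 271)) (XT.lf (nat_lit 0) (nat_lit 10675825588) (nat_lit 608) (nat_lit 12002898028) (nat_lit 76) (nat_lit 5906187332) (nat_lit 268) (nat_lit 5) (nat_lit 276) (nat_lit 5) (nat_lit 269) (nat_lit 5) (nat_lit 479) (nat_lit 451) (nat_lit 270))))) (XT.nd (nat_lit 312) (nat_lit 1444) (nat_lit 0) (XT.nd (nat_lit 156) (nat_lit 456) (nat_lit 0) (XT.nd (nat_lit 78) (nat_lit 0) (nat_lit 0) (XT.lf (nat_lit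 0) (nat_lit 4162531391) (nat_lit 532) (nat_lit 10583666501) (nat_lit 608) (nat_lit 14320014034) (nat_lit 261) (nat_lit 5) (nat_lit 268) (nat_lit 5) (nat_lit 269) (nat_lit 5) (nat_lit 480) (nat_lit 451) (nat_lit 269)) (XT.lf (nat_lit 0) (nat_lit 19075355522) (nat_lit 608) (nat_lit 8522857822) (nat_lit 76) (nat_lit 1959638506) (nat_lit 261) (nat_lit 5) (nat_lit 269) (nat_lit 5) (nat_lit 262) (nat_lit 5) (nat_lit 481) (nat_lit 451) (nat_lit 268))) (XT.nd (nat_lit 78) (nat_lit 0) (nat_lit 0) (XT.lf (nat_lit 0) (nat_lit 8404429664) (nat_lit 456) (nat_lit 15311896679) (nat_lit 532) (nat_lit 6342456616) (nat_lit 255) (nat_lit 5) (nat_lit 261) (nat_lit 5) (nat_lit 262) (nat_lit 5) (nat_lit 482) (nat_lit 451) (nat_lit 267)) (XT.lf (nat_lit 0) (nat_lit 26010115083) (nat_lit 456) (nat_lit 2568902802) (nat_lit 532) (nat_lit 1993249505) (nat_lit 255) (nat_lit 5) (nat_lit 261) (nat_lit 5) (nat_lit 262) (nat_lit 5) (nat_lit 483)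 (nat_lit 451) (nat_lit 266)))) (XT.nd (nat_lit 156) (nat_lit 912) (nat_lit 0) (XT.nd (nat_lit 78) (nat_lit 0) (nat_lit 0) (XT.lf (nat_lit 0) (nat_lit 2664976785) (nat_lit 532) (nat_lit 17925831622) (nat_lit 76) (nat_lit 10502819172) (nat_lit 248) (nat_lit 5) (nat_lit 255) (nat_lit 5) (nat_lit 249) (nat_lit 5) (nat_lit 484) (nat_lit 451) (nat_lit 265)) (XT.lf (nat_lit 0) (nat_lit 7491401567) (nat_lit 532) (nat_lit 155848129) (nat_lit 76) (nat_lit 23980731526) (nat_lit 248) (nat_lit 5) (nat_lit 255) (nat_lit 5) (nat_lit 249) (nat_lit 5) (nat_lit 485) (nat_lit 451) (nat_lit 264))) (XT.nd (nat_lit 78) (nat_lit 456) (nat_lit 0) (XT.lf (nat_lit 0) (nat_lit 12693547248) (nat_lit 532) (nat_lit 13725225386) (nat_lit 76) (nat_lit 5752665117) (nat_lit 242) (nat_lit 5) (nat_lit 249) (nat_lit 5) (nat_lit 243) (nat_lit 5) (nat_lit 486) (nat_lit 451) (nat_lit 263)) (XT.lf (nat_lit 0) (nat_lit 4894078702) (nat_lit 456) (nat_lit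 13278735501) (nat_lit 532) (nat_lit 14554752183) (nat_lit 236) (nat_lit 5) (nat_lit 242) (nat_lit 5) (nat_lit 243) (nat_lit 5) (nat_lit 487) (nat_lit 451) (nat_lit 262)))))) (XT.nd (nat_lit 624) (nat_lit 1824) (nat_lit 0) (XT.nd (nat_lit 312) (nat_lit 760) (nat_lit 0) (XT.nd (nat_lit 156) (nat_lit 532) (nat_lit 0) (XT.nd (nat_lit 78) (nat_lit 380) (nat_lit 0) (XT.lf (nat_lit 0) (nat_lit 23955642198) (nat_lit 532) (nat_lit 8950853429) (nat_lit 76) (nat_lit 389707876) (nat_lit 236) (nat_lit 5) (nat_lit 243) (nat_lit 5) (nat_lit 237) (nat_lit 5) (nat_lit 488) (nat_lit 451) (nat_lit 261)) (XT.lf (nat_lit 0) (nat_lit 10569027249) (nat_lit 380) (nat_lit 19572847689) (nat_lit 456) (nat_lit 3733127308) (nat_lit 231) (nat_lit 5) (nat_lit 236) (nat_lit 5) (nat_lit 237) (nat_lit 5) (nat_lit 489) (nat_lit 451) (nat_lit 260))) (XT.nd (nat_lit 78) (nat_lit 456) (nat_lit 0) (XT.lf (nat_lit 0) (nat_lit 2090827789) (nat_lit 456)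 (nat_lit 3635017122) (nat_lit 76) (nat_lit 28742086467) (nat_lit 230) (nat_lit 5) (nat_lit 236) (nat_lit 5) (nat_lit 231) (nat_lit 5) (nat_lit 490) (nat_lit 451) (nat_lit 259)) (XT.lf (nat_lit 0) (nat_lit 8258060850) (nat_lit 532) (nat_lit 18241498696) (nat_lit 76) (nat_lit 8570672345) (nat_lit 224) (nat_lit 5) (nat_lit 231) (nat_lit 5) (nat_lit 225) (nat_lit 5) (nat_lit 491) (nat_lit 451) (nat_lit 258)))) (XT.nd (nat_lit 156) (nat_lit 380) (nat_lit 0) (XT.nd (nat_lit 78) (nat_lit 0) (nat_lit 0) (XT.lf (nat_lit 0) (nat_lit 2274796074) (nat_lit 380) (nat_lit 12448151041) (nat_lit 456) (nat_lit 20964275315) (nat_lit 219) (nat_lit 5) (nat_lit 224) (nat_lit 5) (nat_lit 225) (nat_lit 5) (nat_lit 492) (nat_lit 451) (nat_lit 257)) (XT.lf (nat_lit 0) (nat_lit 21584318986) (nat_lit 456) (nat_lit 12561960337) (nat_lit 76) (nat_lit 2170367289) (nat_lit 219) (nat_lit 5) (nat_lit 225) (nat_lit 5) (nat_lit 220) (nat_lit 5) (nat_lit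 493) (nat_lit 451) (nat_lit 256))) (XT.nd (nat_lit 78) (nat_lit 0) (nat_lit 0) (XT.lf (nat_lit 0) (nat_lit 8961774451) (nat_lit 380) (nat_lit 19896286848) (nat_lit 456) (nat_lit 8100696433) (nat_lit 214) (nat_lit 5) (nat_lit 219) (nat_lit 5) (nat_lit 220) (nat_lit 5) (nat_lit 494) (nat_lit 451) (nat_lit 255)) (XT.lf (nat_lit 0) (nat_lit 31384894433) (nat_lit 380) (nat_lit 5089153435) (nat_lit 456) (nat_lit 1142363448) (nat_lit 214) (nat_lit 5) (nat_lit 219) (nat_lit 5) (nat_lit 220) (nat_lit 5) (nat_lit 495) (nat_lit 451) (nat_lit 254))))) (XT.nd (nat_lit 312) (nat_lit 684) (nat_lit 0) (XT.nd (nat_lit 156) (nat_lit 304) (nat_lit 0) (XT.nd (nat_lit 78) (nat_lit 380) (nat_lit 0) (XT.lf (nat_lit 0) (nat_lit 6162295835) (nat_lit 456) (nat_lit 21941065914) (nat_lit 76) (nat_lit 10181041235) (nat_lit 208) (nat_lit 5) (nat_lit 214) (nat_lit 5) (nat_lit 209) (nat_lit 5) (nat_lit 496) (nat_lit 451) (nat_lit 253)) (XT.lf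 (nat_lit 0) (nat_lit 700158461) (nat_lit 380) (nat_lit 13080913681) (nat_lit 456) (nat_lit 25187484898) (nat_lit 203) (nat_lit 5) (nat_lit 208) (nat_lit 5) (nat_lit 209) (nat_lit 5) (nat_lit 497) (nat_lit 451) (nat_lit 252))) (XT.nd (nat_lit 78) (nat_lit 304) (nat_lit 0) (XT.lf (nat_lit 0) (nat_lit 21872465744) (nat_lit 456) (nat_lit 15225233764) (nat_lit 76) (nat_lit 2568214670) (nat_lit 203) (nat_lit 5) (nat_lit 209) (nat_lit 5) (nat_lit 204) (nat_lit 5) (nat_lit 498) (nat_lit 451) (nat_lit 251)) (XT.lf (nat_lit 0) (nat_lit 8542676641) (nat_lit 304) (nat_lit 21872937704) (nat_lit 380) (nat_lit 9962307366) (nat_lit 199) (nat_lit 5) (nat_lit 203) (nat_lit 5) (nat_lit 204) (nat_lit 5) (nat_lit 499) (nat_lit 451) (nat_lit 250)))) (XT.nd (nat_lit 156) (nat_lit 304) (nat_lit 0) (XT.nd (nat_lit 78) (nat_lit 380) (nat_lit 0) (XT.lf (nat_lit 0) (nat_lit 33332029581) (nat_lit 304) (nat_lit 6034195313) (nat_lit 380) (nat_lit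 1740529627) (nat_lit 199) (nat_lit 5) (nat_lit 203) (nat_lit 5) (nat_lit 204) (nat_lit 5) (nat_lit 500) (nat_lit 451) (nat_lit 249)) (XT.lf (nat_lit 0) (nat_lit 6861248869) (nat_lit 380) (nat_lit 24675271123) (nat_lit 76) (nat_lit 10311053221) (nat_lit 194) (nat_lit 5) (nat_lit 199) (nat_lit 5) (nat_lit 195) (nat_lit 5) (nat_lit 501) (nat_lit 451) (nat_lit 248))) (XT.nd (nat_lit 78) (nat_lit 0) (nat_lit 0) (XT.lf (nat_lit 0) (nat_lit 344145575) (nat_lit 304) (nat_lit 15481792614) (nat_lit 380) (nat_lit 26779966146) (nat_lit 190) (nat_lit 5) (nat_lit 194) (nat_lit 5) (nat_lit 195) (nat_lit 5) (nat_lit 502) (nat_lit 451) (nat_lit 247)) (XT.lf (nat_lit 0) (nat_lit 25318871893) (nat_lit 380) (nat_lit 16775845697) (nat_lit 76) (nat_lit 1284488757) (nat_lit 190) (nat_lit 5) (nat_lit 195) (nat_lit 5) (nat_lit 191) (nat_lit 5) (nat_lit 503) (nat_lit 451) (nat_lit 246))))))))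
noncomputable def xc198 : XT := (XT.nd (nat_lit 2418) (nat_lit 1596) (nat_lit 0) (XT.nd (nat_lit 1170) (nat_lit 2204) (nat_lit 0) (XT.nd (nat_lit 546) (nat_lit 1368) (nat_lit 0) (XT.nd (nat_lit 234) (nat_lit 608) (nat_lit 0) (XT.nd (nat_lit 78) (nat_lit 380) (nat_lit 0) (XT.lf (nat_lit 0) (nat_lit 9503214422) (nat_lit 304) (nat_lit 25835614546) (nat_lit 380) (nat_lit 8829611454) (nat_lit 186) (nat_lit 5) (nat_lit 190) (nat_lit 5) (nat_lit 191) (nat_lit 5) (nat_lit 504) (nat_lit 451) (nat_lit 245)) (XT.nd (nat_lit 78) (nat_lit 304) (nat_lit 0) (XT.lf (nat_lit 0) (nat_lit 833494644) (nat_lit 380) (nat_lit 8073529245) (nat_lit 76) (nat_lit 36069071393) (nat_lit 185) (nat_lit 5) (nat_lit 190) (nat_lit 5) (nat_lit 186) (nat_lit 5) (nat_lit 505) (nat_lit 451) (nat_lit 244)) (XT.lf (nat_lit 0) (nat_lit 10879899763) (nat_lit 380) (nat_lit 26276865815) (nat_lit 76) (nat_lit 8640465444) (nat_lit 181) (nat_lit 5) (nat_lit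 186) (nat_lit 5) (nat_lit 182) (nat_lit 5) (nat_lit 506) (nat_lit 451) (nat_lit 243)))) (XT.nd (nat_lit 156) (nat_lit 304) (nat_lit 0) (XT.nd (nat_lit 78) (nat_lit 0) (nat_lit 0) (XT.lf (nat_lit 0) (nat_lit 1401862942) (nat_lit 304) (nat_lit 20007536413) (nat_lit 380) (nat_lit 25228150467) (nat_lit 177) (nat_lit 5) (nat_lit 181) (nat_lit 5) (nat_lit 182) (nat_lit 5) (nat_lit 507) (nat_lit 451) (nat_lit 242)) (XT.lf (nat_lit 0) (nat_lit 30446120240) (nat_lit 304) (nat_lit 2071746286) (nat_lit 380) (nat_lit 14977319238) (nat_lit 177) (nat_lit 5) (nat_lit 181) (nat_lit 5) (nat_lit 182) (nat_lit 5) (nat_lit 508) (nat_lit 451) (nat_lit 241))) (XT.nd (nat_lit 78) (nat_lit 76) (nat_lit 0) (XT.lf (nat_lit 0) (nat_lit 12057332873) (nat_lit 228) (nat_lit 32173616750) (nat_lit 304) (nat_lit 4139460359) (nat_lit 174) (nat_lit 5) (nat_lit 177) (nat_lit 5) (nat_lit 178) (nat_lit 5) (nat_lit 509) (nat_lit 451) (nat_lit 240)) (XT.lf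 (nat_lit 0) (nat_lit 7078661141) (nat_lit 304) (nat_lit 6973491637) (nat_lit 76) (nat_lit 35211947324) (nat_lit 173) (nat_lit 5) (nat_lit 177) (nat_lit 5) (nat_lit 174) (nat_lit 5) (nat_lit 510) (nat_lit 451) (nat_lit 239))))) (XT.nd (nat_lit 312) (nat_lit 532) (nat_lit 0) (XT.nd (nat_lit 156) (nat_lit 304) (nat_lit 0) (XT.nd (nat_lit 78) (nat_lit 228) (nat_lit 0) (XT.lf (nat_lit 0) (nat_lit 18822452468) (nat_lit 380) (nat_lit 26559885373) (nat_lit 76) (nat_lit 4792863836) (nat_lit 169) (nat_lit 5) (nat_lit 174) (nat_lit 5) (nat_lit 170) (nat_lit 5) (nat_lit 511) (nat_lit 451) (nat_lit 238)) (XT.lf (nat_lit 0) (nat_lit 4089829514) (nat_lit 228) (nat_lit 27076172933) (nat_lit 304) (nat_lit 19940210551) (nat_lit 166) (nat_lit 5) (nat_lit 169) (nat_lit 5) (nat_lit 170) (nat_lit 5) (nat_lit 512) (nat_lit 451) (nat_lit 237))) (XT.nd (nat_lit 78) (nat_lit 304) (nat_lit 0) (XT.lf (nat_lit 0) (nat_lit 36200155613) (nat_lit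 228) (nat_lit 7945820594) (nat_lit 304) (nat_lit 7911194982) (nat_lit 166) (nat_lit 5) (nat_lit 169) (nat_lit 5) (nat_lit 170) (nat_lit 5) (nat_lit 513) (nat_lit 451) (nat_lit 236)) (XT.lf (nat_lit 0) (nat_lit 4662999600) (nat_lit 304) (nat_lit 36632646650) (nat_lit 76) (nat_lit 11731569243) (nat_lit 162) (nat_lit 5) (nat_lit 166) (nat_lit 5) (nat_lit 163) (nat_lit 5) (nat_lit 514) (nat_lit 451) (nat_lit 235)))) (XT.nd (nat_lit 156) (nat_lit 304) (nat_lit 0) (XT.nd (nat_lit 78) (nat_lit 228) (nat_lit 0) (XT.lf (nat_lit 0) (nat_lit 17693766237) (nat_lit 304) (nat_lit 4244681033) (nat_lit 76) (nat_lit 32078413438) (nat_lit 162) (nat_lit 5) (nat_lit 166) (nat_lit 5) (nat_lit 163) (nat_lit 5) (nat_lit 515) (nat_lit 451) (nat_lit 234)) (XT.lf (nat_lit 0) (nat_lit 29691107721) (nat_lit 228) (nat_lit 1707788068) (nat_lit 304) (nat_lit 23628796333) (nat_lit 159) (nat_lit 5) (nat_lit 162) (nat_lit 5) (nat_lit 163) (nat_lit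 5) (nat_lit 516) (nat_lit 451) (nat_lit 233))) (XT.nd (nat_lit 78) (nat_lit 76) (nat_lit 0) (XT.lf (nat_lit 0) (nat_lit 8645603062) (nat_lit 228) (nat_lit 37177903591) (nat_lit 304) (nat_lit 10236092043) (nat_lit 156) (nat_lit 5) (nat_lit 159) (nat_lit 5) (nat_lit 160) (nat_lit 5) (nat_lit 517) (nat_lit 451) (nat_lit 232)) (XT.lf (nat_lit 0) (nat_lit 3762301309) (nat_lit 304) (nat_lit 13005021896) (nat_lit 76) (nat_lit 40345912788) (nat_lit 155) (nat_lit 5) (nat_lit 159) (nat_lit 5) (nat_lit 156) (nat_lit 5) (nat_lit 518) (nat_lit 451) (nat_lit 231)))))) (XT.nd (nat_lit 624) (nat_lit 1064) (nat_lit 0) (XT.nd (nat_lit 312) (nat_lit 456) (nat_lit 0) (XT.nd (nat_lit 156) (nat_lit 228) (nat_lit 0) (XT.nd (nat_lit 78) (nat_lit 228) (nat_lit 0) (XT.lf (nat_lit 0) (nat_lit 18236026251) (nat_lit 304) (nat_lit 35456802884) (nat_lit 76) (nat_lit 4494779433) (nat_lit 152) (nat_lit 5) (nat_lit 156) (nat_lit 5) (nat_lit 153)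 (nat_lit 5) (nat_lit 519) (nat_lit 451) (nat_lit 230)) (XT.lf (nat_lit 0) (nat_lit 351431501) (nat_lit 228) (nat_lit 33092671599) (nat_lit 304) (nat_lit 25841105053) (nat_lit 149) (nat_lit 5) (nat_lit 152) (nat_lit 5) (nat_lit 153) (nat_lit 5) (nat_lit 520) (nat_lit 451) (nat_lit 229))) (XT.nd (nat_lit 78) (nat_lit 228) (nat_lit 0) (XT.lf (nat_lit 0) (nat_lit 37957634818) (nat_lit 228) (nat_lit 11506979819) (nat_lit 304) (nat_lit 10940435351) (nat_lit 149) (nat_lit 5) (nat_lit 152) (nat_lit 5) (nat_lit 153) (nat_lit 5) (nat_lit 521) (nat_lit 451) (nat_lit 228)) (XT.lf (nat_lit 0) (nat_lit 4572339794) (nat_lit 228) (nat_lit 46269411053) (nat_lit 76) (nat_lit 10707932704) (nat_lit 146) (nat_lit 5) (nat_lit 149) (nat_lit 5) (nat_lit 147) (nat_lit 5) (nat_lit 522) (nat_lit 451) (nat_lit 227)))) (XT.nd (nat_lit 156) (nat_lit 228) (nat_lit 0) (XT.nd (nat_lit 78) (nat_lit 228) (nat_lit 0) (XT.lf (nat_lit 0) (nat_lit 20671652233)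 (nat_lit 228) (nat_lit 8349476477) (nat_lit 76) (nat_lit 33694046430) (nat_lit 146) (nat_lit 5) (nat_lit 149) (nat_lit 5) (nat_lit 147) (nat_lit 5) (nat_lit 523) (nat_lit 451) (nat_lit 226)) (XT.lf (nat_lit 0) (nat_lit 31316171255) (nat_lit 228) (nat_lit 6237051800) (nat_lit 304) (nat_lit 26353430082) (nat_lit 143) (nat_lit 5) (nat_lit 146) (nat_lit 5) (nat_lit 147) (nat_lit 5) (nat_lit 524) (nat_lit 451) (nat_lit 225))) (XT.nd (nat_lit 78) (nat_lit 76) (nat_lit 0) (XT.lf (nat_lit 0) (nat_lit 7182298419) (nat_lit 152) (nat_lit 48077021698) (nat_lit 228) (nat_lit 9865013013) (nat_lit 141) (nat_lit 5) (nat_lit 143) (nat_lit 5) (nat_lit 144) (nat_lit 5) (nat_lit 525) (nat_lit 451) (nat_lit 224)) (XT.lf (nat_lit 0) (nat_lit 7371534007) (nat_lit 228) (nat_lit 17688762430) (nat_lit 76) (nat_lit 41304423132) (nat_lit 140) (nat_lit 5) (nat_lit 143) (nat_lit 5) (nat_lit 141) (nat_lit 5) (nat_lit 526) (nat_lit 451) (nat_lit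 223))))) (XT.nd (nat_lit 312) (nat_lit 380) (nat_lit 0) (XT.nd (nat_lit 156) (nat_lit 456) (nat_lit 0) (XT.nd (nat_lit 78) (nat_lit 0) (nat_lit 0) (XT.lf (nat_lit 0) (nat_lit 24142639187) (nat_lit 228) (nat_lit 1014650602) (nat_lit 304) (nat_lit 42475185955) (nat_lit 137) (nat_lit 5) (nat_lit 140) (nat_lit 5) (nat_lit 141) (nat_lit 5) (nat_lit 527) (nat_lit 451) (nat_lit 222)) (XT.lf (nat_lit 0) (nat_lit 43883656124) (nat_lit 304) (nat_lit 1574326654) (nat_lit 76) (nat_lit 23468070717) (nat_lit 137) (nat_lit 5) (nat_lit 141) (nat_lit 5) (nat_lit 138) (nat_lit 5) (nat_lit 528) (nat_lit 451) (nat_lit 221))) (XT.nd (nat_lit 78) (nat_lit 304) (nat_lit 0) (XT.lf (nat_lit 0) (nat_lit 42413410760) (nat_lit 152) (nat_lit 21174526433) (nat_lit 228) (nat_lit 6658017700) (nat_lit 135) (nat_lit 5) (nat_lit 137) (nat_lit 5) (nat_lit 138) (nat_lit 5) (nat_lit 529) (nat_lit 451) (nat_lit 220)) (XT.lf (nat_lit 0) (nat_lit 12249628373)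 (nat_lit 304) (nat_lit 55290493882) (nat_lit 76) (nat_lit 4055450795) (nat_lit 131) (nat_lit 5) (nat_lit 135) (nat_lit 5) (nat_lit 132) (nat_lit 5) (nat_lit 530) (nat_lit 451) (nat_lit 219)))) (XT.nd (nat_lit 156) (nat_lit 228) (nat_lit 0) (XT.nd (nat_lit 78) (nat_lit 152) (nat_lit 0) (XT.lf (nat_lit 0) (nat_lit 32082557081) (nat_lit 304) (nat_lit 10921072923) (nat_lit 76) (nat_lit 29965315958) (nat_lit 131) (nat_lit 5) (nat_lit 135) (nat_lit 5) (nat_lit 132) (nat_lit 5) (nat_lit 531) (nat_lit 451) (nat_lit 218)) (XT.lf (nat_lit 0) (nat_lit 35468794029) (nat_lit 152) (nat_lit 17381061544) (nat_lit 228) (nat_lit 21523483055) (nat_lit 129) (nat_lit 5) (nat_lit 131) (nat_lit 5) (nat_lit 132) (nat_lit 5) (nat_lit 532) (nat_lit 451) (nat_lit 217))) (XT.nd (nat_lit 78) (nat_lit 76) (nat_lit 0) (XT.lf (nat_lit 0) (nat_lit 7717804004) (nat_lit 152) (nat_lit 66792984083) (nat_lit 228) (nat_lit 1300956555) (nat_lit 127) (nat_lit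 5) (nat_lit 129) (nat_lit 5) (nat_lit 130) (nat_lit 5) (nat_lit 533) (nat_lit 451) (nat_lit 216)) (XT.lf (nat_lit 0) (nat_lit 19714464225) (nat_lit 228) (nat_lit 21111658134) (nat_lit 76) (nat_lit 36444530431) (nat_lit 126) (nat_lit 5) (nat_lit 129) (nat_lit 5) (nat_lit 127) (nat_lit 5) (nat_lit 534) (nat_lit 451) (nat_lit 215))))))) (XT.nd (nat_lit 56160) (nat_lit 0) (nat_lit 16112) (XT.nd (nat_lit 624) (nat_lit 684) (nat_lit 0) (XT.nd (nat_lit 312) (nat_lit 380) (nat_lit 0) (XT.nd (nat_lit 156) (nat_lit 380) (nat_lit 0) (XT.nd (nat_lit 78) (nat_lit 0) (nat_lit 0) (XT.lf (nat_lit 0) (nat_lit 27807137942) (nat_lit 152) (nat_lit 13792852098) (nat_lit 228) (nat_lit 37164978027) (nat_lit 124) (nat_lit 5) (nat_lit 126) (nat_lit 5) (nat_lit 127) (nat_lit 5) (nat_lit 535) (nat_lit 451) (nat_lit 214)) (XT.lf (nat_lit 0) (nat_lit 64490947715) (nat_lit 228) (nat_lit 1811331205) (nat_lit 76) (nat_lit 13991367921) (nat_lit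 124) (nat_lit 5) (nat_lit 127) (nat_lit 5) (nat_lit 125) (nat_lit 5) (nat_lit 536) (nat_lit 451) (nat_lit 213))) (XT.nd (nat_lit 78) (nat_lit 152) (nat_lit 0) (XT.lf (nat_lit 0) (nat_lit 6697782466) (nat_lit 228) (nat_lit 32276466810) (nat_lit 76) (nat_lit 42873598824) (nat_lit 121) (nat_lit 5) (nat_lit 124) (nat_lit 5) (nat_lit 122) (nat_lit 5) (nat_lit 537) (nat_lit 451) (nat_lit 212)) (XT.lf (nat_lit 0) (nat_lit 19301963055) (nat_lit 152) (nat_lit 10456256272) (nat_lit 228) (nat_lit 53679685433) (nat_lit 119) (nat_lit 5) (nat_lit 121) (nat_lit 5) (nat_lit 122) (nat_lit 5) (nat_lit 538) (nat_lit 451) (nat_lit 211)))) (XT.nd (nat_lit 156) (nat_lit 228) (nat_lit 0) (XT.nd (nat_lit 78) (nat_lit 152) (nat_lit 0) (XT.lf (nat_lit 0) (nat_lit 54020021188) (nat_lit 228) (nat_lit 12164204539) (nat_lit 76) (nat_lit 18876150855) (nat_lit 119) (nat_lit 5) (nat_lit 122) (nat_lit 5) (nat_lit 120) (nat_lit 5) (nat_lit 539) (nat_lit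 451) (nat_lit 210)) (XT.lf (nat_lit 0) (nat_lit 42081771397) (nat_lit 152) (nat_lit 37434542329) (nat_lit 228) (nat_lit 7200009750) (nat_lit 117) (nat_lit 5) (nat_lit 119) (nat_lit 5) (nat_lit 120) (nat_lit 5) (nat_lit 540) (nat_lit 451) (nat_lit 209))) (XT.nd (nat_lit 78) (nat_lit 0) (nat_lit 0) (XT.lf (nat_lit 0) (nat_lit 9806982473) (nat_lit 152) (nat_lit 7426812573) (nat_lit 228) (nat_lit 71176641244) (nat_lit 114) (nat_lit 5) (nat_lit 116) (nat_lit 5) (nat_lit 117) (nat_lit 5) (nat_lit 541) (nat_lit 451) (nat_lit 208)) (XT.lf (nat_lit 0) (nat_lit 42935402180) (nat_lit 228) (nat_lit 23649149684) (nat_lit 76) (nat_lit 23548296985) (nat_lit 114) (nat_lit 5) (nat_lit 117) (nat_lit 5) (nat_lit 115) (nat_lit 5) (nat_lit 542) (nat_lit 451) (nat_lit 207))))) (XT.nd (nat_lit 312) (nat_lit 152) (nat_lit 0) (XT.nd (nat_lit 156) (nat_lit 304) (nat_lit 0) (XT.nd (nat_lit 78) (nat_lit 76) (nat_lit 0) (XT.lf (nat_lit 0) (nat_lit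 33532095872) (nat_lit 152) (nat_lit 36270468233) (nat_lit 228) (nat_lit 22092534497) (nat_lit 112) (nat_lit 5) (nat_lit 114) (nat_lit 5) (nat_lit 115) (nat_lit 5) (nat_lit 543) (nat_lit 451) (nat_lit 206)) (XT.lf (nat_lit 0) (nat_lit 3931865906) (nat_lit 228) (nat_lit 830538820) (nat_lit 76) (nat_lit 88939530646) (nat_lit 111) (nat_lit 5) (nat_lit 114) (nat_lit 5) (nat_lit 112) (nat_lit 5) (nat_lit 544) (nat_lit 451) (nat_lit 205))) (XT.nd (nat_lit 78) (nat_lit 152) (nat_lit 0) (XT.lf (nat_lit 0) (nat_lit 31136286442) (nat_lit 228) (nat_lit 36448149575) (nat_lit 76) (nat_lit 27946679318) (nat_lit 109) (nat_lit 5) (nat_lit 112) (nat_lit 5) (nat_lit 110) (nat_lit 5) (nat_lit 545) (nat_lit 451) (nat_lit 204)) (XT.lf (nat_lit 0) (nat_lit 23810961927) (nat_lit 152) (nat_lit 35629075147) (nat_lit 228) (nat_lit 37966637711) (nat_lit 107) (nat_lit 5) (nat_lit 109) (nat_lit 5) (nat_lit 110) (nat_lit 5) (nat_lit 546) (nat_lit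 451) (nat_lit 203)))) (XT.nd (nat_lit 55068) (nat_lit 0) (nat_lit 16872) (XT.nd (nat_lit 78) (nat_lit 152) (nat_lit 0) (XT.lf (nat_lit 0) (nat_lit 86622600088) (nat_lit 152) (nat_lit 2337059672) (nat_lit 228) (nat_lit 10367838486) (nat_lit 107) (nat_lit 5) (nat_lit 109) (nat_lit 5) (nat_lit 110) (nat_lit 5) (nat_lit 547) (nat_lit 451) (nat_lit 202)) (XT.lf (nat_lit 0) (nat_lit 18507559620) (nat_lit 152) (nat_lit 50771281426) (nat_lit 76) (nat_lit 31997866687) (nat_lit 105) (nat_lit 5) (nat_lit 107) (nat_lit 5) (nat_lit 106) (nat_lit 5) (nat_lit 548) (nat_lit 451) (nat_lit 201))) (XT.nd (nat_lit 78) (nat_lit 0) (nat_lit 0) (XT.lf (nat_lit 0) (nat_lit 3473211766) (nat_lit 1292) (nat_lit 3014579796) (nat_lit 1292) (nat_lit 3014579796) (nat_lit 327) (nat_lit 3) (nat_lit 344) (nat_lit 3) (nat_lit 344) (nat_lit 5) (nat_lit 452) (nat_lit 452) (nat_lit 296)) (XT.lf (nat_lit 76) (nat_lit 3503529072) (nat_lit 0) (nat_lit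 3763548775) (nat_lit 1292) (nat_lit 12016233835) (nat_lit 328) (nat_lit 5) (nat_lit 327) (nat_lit 3) (nat_lit 344) (nat_lit 5) (nat_lit 453) (nat_lit 452) (nat_lit 295)))))) (XT.nd (nat_lit 624) (nat_lit 836) (nat_lit 0) (XT.nd (nat_lit 312) (nat_lit 0) (nat_lit 152) (XT.nd (nat_lit 156) (nat_lit 0) (nat_lit 76) (XT.nd (nat_lit 78) (nat_lit 0) (nat_lit 0) (XT.lf (nat_lit 0) (nat_lit 7706731501) (nat_lit 1216) (nat_lit 6182249793) (nat_lit 1292) (nat_lit 5677975361) (nat_lit 328) (nat_lit 5) (nat_lit 344) (nat_lit 5) (nat_lit 345) (nat_lit 5) (nat_lit 454) (nat_lit 452) (nat_lit 294)) (XT.lf (nat_lit 76) (nat_lit 3734949548) (nat_lit 0) (nat_lit 4490862046) (nat_lit 1292) (nat_lit 11631312598) (nat_lit 329) (nat_lit 5) (nat_lit 328) (nat_lit 5) (nat_lit 345) (nat_lit 5) (nat_lit 455) (nat_lit 452) (nat_lit 293))) (XT.nd (nat_lit 78) (nat_lit 0) (nat_lit 0) (XT.lf (nat_lit 0) (nat_lit 8866656902) (nat_lit 1216) (nat_lit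 6132301054) (nat_lit 1292) (nat_lit 5153853325) (nat_lit 329) (nat_lit 5) (nat_lit 345) (nat_lit 5) (nat_lit 346) (nat_lit 5) (nat_lit 456) (nat_lit 452) (nat_lit 292)) (XT.lf (nat_lit 76) (nat_lit 4190625354) (nat_lit 0) (nat_lit 5414309565) (nat_lit 1292) (nat_lit 10850088144) (nat_lit 330) (nat_lit 5) (nat_lit 329) (nat_lit 5) (nat_lit 346) (nat_lit 5) (nat_lit 457) (nat_lit 452) (nat_lit 291)))) (XT.nd (nat_lit 156) (nat_lit 0) (nat_lit 76) (XT.nd (nat_lit 78) (nat_lit 0) (nat_lit 0) (XT.lf (nat_lit 0) (nat_lit 10464387575) (nat_lit 1216) (nat_lit 5863093216) (nat_lit 1292) (nat_lit 4435849913) (nat_lit 330) (nat_lit 5) (nat_lit 346) (nat_lit 5) (nat_lit 347) (nat_lit 5) (nat_lit 458) (nat_lit 452) (nat_lit 290)) (XT.lf (nat_lit 76) (nat_lit 4888015997) (nat_lit 0) (nat_lit 6556023880) (nat_lit 1292) (nat_lit 9634015498) (nat_lit 331) (nat_lit 5) (nat_lit 330) (nat_lit 5) (nat_lit 347) (nat_lit 5) (nat_lit 459)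 (nat_lit 452) (nat_lit 289))) (XT.nd (nat_lit 78) (nat_lit 0) (nat_lit 0) (XT.lf (nat_lit 0) (nat_lit 12540584325) (nat_lit 1216) (nat_lit 5357084316) (nat_lit 1292) (nat_lit 3501928342) (nat_lit 331) (nat_lit 5) (nat_lit 347) (nat_lit 5) (nat_lit 348) (nat_lit 5) (nat_lit 460) (nat_lit 452) (nat_lit 288)) (XT.lf (nat_lit 76) (nat_lit 5845973717) (nat_lit 0) (nat_lit 7939316865) (nat_lit 1292) (nat_lit 7942036563) (nat_lit 332) (nat_lit 5) (nat_lit 331) (nat_lit 5) (nat_lit 348) (nat_lit 5) (nat_lit 461) (nat_lit 452) (nat_lit 287))))) (XT.nd (nat_lit 312) (nat_lit 1140) (nat_lit 0) (XT.nd (nat_lit 156) (nat_lit 0) (nat_lit 76) (XT.nd (nat_lit 78) (nat_lit 0) (nat_lit 0) (XT.lf (nat_lit 0) (nat_lit 15138556812) (nat_lit 1216) (nat_lit 4595342140) (nat_lit 1292) (nat_lit 2328853955) (nat_lit 332) (nat_lit 5) (nat_lit 348) (nat_lit 5) (nat_lit 349) (nat_lit 5) (nat_lit 462) (nat_lit 452) (nat_lit 286)) (XT.lf (nat_lit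 76) (nat_lit 7084816260) (nat_lit 0) (nat_lit 9588788425) (nat_lit 1292) (nat_lit 5730401500) (nat_lit 333) (nat_lit 5) (nat_lit 332) (nat_lit 5) (nat_lit 349) (nat_lit 5) (nat_lit 463) (nat_lit 452) (nat_lit 285))) (XT.nd (nat_lit 78) (nat_lit 0) (nat_lit 0) (XT.lf (nat_lit 0) (nat_lit 18304449030) (nat_lit 1216) (nat_lit 3557470295) (nat_lit 1292) (nat_lit 892085630) (nat_lit 333) (nat_lit 5) (nat_lit 349) (nat_lit 5) (nat_lit 350) (nat_lit 5) (nat_lit 464) (nat_lit 452) (nat_lit 284)) (XT.lf (nat_lit 76) (nat_lit 8626405352) (nat_lit 0) (nat_lit 11530439484) (nat_lit 1292) (nat_lit 2952480306) (nat_lit 334) (nat_lit 5) (nat_lit 333) (nat_lit 5) (nat_lit 350) (nat_lit 5) (nat_lit 465) (nat_lit 452) (nat_lit 283)))) (XT.nd (nat_lit 156) (nat_lit 0) (nat_lit 0) (XT.nd (nat_lit 78) (nat_lit 1216) (nat_lit 0) (XT.lf (nat_lit 76) (nat_lit 21244672702) (nat_lit 0) (nat_lit 850942176) (nat_lit 1292) (nat_lit 1378766216)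 (nat_lit 334) (nat_lit 5) (nat_lit 333) (nat_lit 5) (nat_lit 350) (nat_lit 5) (nat_lit 466) (nat_lit 452) (nat_lit 282)) (XT.lf (nat_lit 0) (nat_lit 432822088) (nat_lit 1292) (nat_lit 13354597014) (nat_lit 1368) (nat_lit 10057038362) (nat_lit 317) (nat_lit 5) (nat_lit 334) (nat_lit 5) (nat_lit 335) (nat_lit 5) (nat_lit 467) (nat_lit 452) (nat_lit 281))) (XT.nd (nat_lit 78) (nat_lit 0) (nat_lit 76) (XT.lf (nat_lit 0) (nat_lit 2297305327) (nat_lit 1292) (nat_lit 614685093) (nat_lit 1368) (nat_lit 21312448608) (nat_lit 317) (nat_lit 5) (nat_lit 334) (nat_lit 5) (nat_lit 335) (nat_lit 5) (nat_lit 468) (nat_lit 452) (nat_lit 280)) (XT.lf (nat_lit 0) (nat_lit 4416450000) (nat_lit 1292) (nat_lit 11940953319) (nat_lit 76) (nat_lit 8252455117) (nat_lit 318) (nat_lit 5) (nat_lit 335) (nat_lit 5) (nat_lit 319) (nat_lit 5) (nat_lit 469) (nat_lit 452) (nat_lit 279))))))))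
noncomputable def xc199 : XT := (XT.nd (nat_lit 2418) (nat_lit 5168) (nat_lit 0) (XT.nd (nat_lit 1170) (nat_lit 4256) (nat_lit 0) (XT.nd (nat_lit 546) (nat_lit 2204) (nat_lit 0) (XT.nd (nat_lit 234) (nat_lit 1140) (nat_lit 0) (XT.nd (nat_lit 78) (nat_lit 608) (nat_lit 0) (XT.lf (nat_lit 0) (nat_lit 1350270265) (nat_lit 836) (nat_lit 5292323556) (nat_lit 912) (nat_lit 18362944060) (nat_lit 307) (nat_lit 5) (nat_lit 318) (nat_lit 5) (nat_lit 319) (nat_lit 5) (nat_lit 470) (nat_lit 452) (nat_lit 278)) (XT.nd (nat_lit 78) (nat_lit 608) (nat_lit 0) (XT.lf (nat_lit 0) (nat_lit 9111423949) (nat_lit 912) (nat_lit 10188573444) (nat_lit 76) (nat_lit 6107813450) (nat_lit 307) (nat_lit 5) (nat_lit 319) (nat_lit 5) (nat_lit 308) (nat_lit 5) (nat_lit 471) (nat_lit 452) (nat_lit 277)) (XT.lf (nat_lit 0) (nat_lit 3697766947) (nat_lit 608) (nat_lit 8040074841) (nat_lit 684) (nat_lit 14081804709) (nat_lit 299) (nat_lit 5) (nat_lit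 307) (nat_lit 5) (nat_lit 308) (nat_lit 5) (nat_lit 472) (nat_lit 452) (nat_lit 276)))) (XT.nd (nat_lit 156) (nat_lit 532) (nat_lit 0) (XT.nd (nat_lit 78) (nat_lit 608) (nat_lit 0) (XT.lf (nat_lit 0) (nat_lit 14576824215) (nat_lit 684) (nat_lit 8070618731) (nat_lit 76) (nat_lit 3592381296) (nat_lit 299) (nat_lit 5) (nat_lit 308) (nat_lit 5) (nat_lit 300) (nat_lit 5) (nat_lit 473) (nat_lit 452) (nat_lit 275)) (XT.lf (nat_lit 0) (nat_lit 6444243633) (nat_lit 608) (nat_lit 11194079810) (nat_lit 684) (nat_lit 9030163633) (nat_lit 291) (nat_lit 5) (nat_lit 299) (nat_lit 5) (nat_lit 300) (nat_lit 5) (nat_lit 474) (nat_lit 452) (nat_lit 274))) (XT.nd (nat_lit 78) (nat_lit 532) (nat_lit 0) (XT.lf (nat_lit 0) (nat_lit 20875648209) (nat_lit 684) (nat_lit 5558341907) (nat_lit 76) (nat_lit 673500435) (nat_lit 291) (nat_lit 5) (nat_lit 300) (nat_lit 5) (nat_lit 292) (nat_lit 5) (nat_lit 475) (nat_lit 452) (nat_lit 273)) (XT.lf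 (nat_lit 0) (nat_lit 9620387488) (nat_lit 532) (nat_lit 14789015662) (nat_lit 608) (nat_lit 3144281832) (nat_lit 284) (nat_lit 5) (nat_lit 291) (nat_lit 5) (nat_lit 292) (nat_lit 5) (nat_lit 476) (nat_lit 452) (nat_lit 272))))) (XT.nd (nat_lit 312) (nat_lit 988) (nat_lit 0) (XT.nd (nat_lit 156) (nat_lit 532) (nat_lit 0) (XT.nd (nat_lit 78) (nat_lit 608) (nat_lit 0) (XT.lf (nat_lit 0) (nat_lit 87928833) (nat_lit 608) (nat_lit 2648147380) (nat_lit 76) (nat_lit 25275597118) (nat_lit 283) (nat_lit 5) (nat_lit 291) (nat_lit 5) (nat_lit 284) (nat_lit 5) (nat_lit 477) (nat_lit 452) (nat_lit 271)) (XT.lf (nat_lit 0) (nat_lit 3572717870) (nat_lit 684) (nat_lit 15252962568) (nat_lit 76) (nat_lit 9650222830) (nat_lit 275) (nat_lit 5) (nat_lit 284) (nat_lit 5) (nat_lit 276) (nat_lit 5) (nat_lit 478) (nat_lit 452) (nat_lit 270))) (XT.nd (nat_lit 78) (nat_lit 0) (nat_lit 0) (XT.lf (nat_lit 0) (nat_lit 652528169) (nat_lit 532)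 (nat_lit 6566118618) (nat_lit 608) (nat_lit 21733715578) (nat_lit 268) (nat_lit 5) (nat_lit 275) (nat_lit 5) (nat_lit 276) (nat_lit 5) (nat_lit 479) (nat_lit 452) (nat_lit 269)) (XT.lf (nat_lit 0) (nat_lit 11184064381) (nat_lit 608) (nat_lit 12154536391) (nat_lit 76) (nat_lit 6098211281) (nat_lit 268) (nat_lit 5) (nat_lit 276) (nat_lit 5) (nat_lit 269) (nat_lit 5) (nat_lit 480) (nat_lit 452) (nat_lit 268)))) (XT.nd (nat_lit 156) (nat_lit 456) (nat_lit 0) (XT.nd (nat_lit 78) (nat_lit 0) (nat_lit 0) (XT.lf (nat_lit 0) (nat_lit 4493812298) (nat_lit 532) (nat_lit 10879244967) (nat_lit 608) (nat_lit 14559599725) (nat_lit 261) (nat_lit 5) (nat_lit 268) (nat_lit 5) (nat_lit 269) (nat_lit 5) (nat_lit 481) (nat_lit 452) (nat_lit 267)) (XT.lf (nat_lit 0) (nat_lit 19826921290) (nat_lit 608) (nat_lit 8572975170) (nat_lit 76) (nat_lit 2039304910) (nat_lit 261) (nat_lit 5) (nat_lit 269) (nat_lit 5) (nat_lit 262) (nat_lit 5) (nat_lit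 482) (nat_lit 452) (nat_lit 266))) (XT.nd (nat_lit 78) (nat_lit 0) (nat_lit 0) (XT.lf (nat_lit 0) (nat_lit 8860115565) (nat_lit 456) (nat_lit 15743739868) (nat_lit 532) (nat_lit 6351403153) (nat_lit 255) (nat_lit 5) (nat_lit 261) (nat_lit 5) (nat_lit 262) (nat_lit 5) (nat_lit 483) (nat_lit 452) (nat_lit 265)) (XT.lf (nat_lit 0) (nat_lit 26988042818) (nat_lit 456) (nat_lit 2619257544) (nat_lit 532) (nat_lit 1877001202) (nat_lit 255) (nat_lit 5) (nat_lit 261) (nat_lit 5) (nat_lit 262) (nat_lit 5) (nat_lit 484) (nat_lit 452) (nat_lit 264)))))) (XT.nd (nat_lit 624) (nat_lit 1900) (nat_lit 0) (XT.nd (nat_lit 312) (nat_lit 912) (nat_lit 0) (XT.nd (nat_lit 156) (nat_lit 456) (nat_lit 0) (XT.nd (nat_lit 78) (nat_lit 456) (nat_lit 0) (XT.lf (nat_lit 0) (nat_lit 2914707431) (nat_lit 532) (nat_lit 18259705426) (nat_lit 76) (nat_lit 10846923993) (nat_lit 248) (nat_lit 5) (nat_lit 255) (nat_lit 5) (nat_lit 249) (nat_lit 5) (nat_lit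 485) (nat_lit 452) (nat_lit 263)) (XT.lf (nat_lit 0) (nat_lit 38183806) (nat_lit 456) (nat_lit 7843163108) (nat_lit 532) (nat_lit 24690511708) (nat_lit 242) (nat_lit 5) (nat_lit 248) (nat_lit 5) (nat_lit 249) (nat_lit 5) (nat_lit 486) (nat_lit 452) (nat_lit 262))) (XT.nd (nat_lit 78) (nat_lit 456) (nat_lit 0) (XT.lf (nat_lit 0) (nat_lit 13236600952) (nat_lit 532) (nat_lit 13936425137) (nat_lit 76) (nat_lit 5958681611) (nat_lit 242) (nat_lit 5) (nat_lit 249) (nat_lit 5) (nat_lit 243) (nat_lit 5) (nat_lit 487) (nat_lit 452) (nat_lit 261)) (XT.lf (nat_lit 0) (nat_lit 5239491828) (nat_lit 456) (nat_lit 13637937414) (nat_lit 532) (nat_lit 14827175620) (nat_lit 236) (nat_lit 5) (nat_lit 242) (nat_lit 5) (nat_lit 243) (nat_lit 5) (nat_lit 488) (nat_lit 452) (nat_lit 260)))) (XT.nd (nat_lit 156) (nat_lit 532) (nat_lit 0) (XT.nd (nat_lit 78) (nat_lit 380) (nat_lit 0) (XT.lf (nat_lit 0) (nat_lit 24829463934) (nat_lit 532)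 (nat_lit 9022288887) (nat_lit 76) (nat_lit 438676778) (nat_lit 236) (nat_lit 5) (nat_lit 243) (nat_lit 5) (nat_lit 237) (nat_lit 5) (nat_lit 489) (nat_lit 452) (nat_lit 259)) (XT.lf (nat_lit 0) (nat_lit 11081255956) (nat_lit 380) (nat_lit 20117384674) (nat_lit 456) (nat_lit 3688031124) (nat_lit 231) (nat_lit 5) (nat_lit 236) (nat_lit 5) (nat_lit 237) (nat_lit 5) (nat_lit 490) (nat_lit 452) (nat_lit 258))) (XT.nd (nat_lit 78) (nat_lit 456) (nat_lit 0) (XT.lf (nat_lit 0) (nat_lit 2303091079) (nat_lit 456) (nat_lit 3551612876) (nat_lit 76) (nat_lit 29642774237) (nat_lit 230) (nat_lit 5) (nat_lit 236) (nat_lit 5) (nat_lit 231) (nat_lit 5) (nat_lit 491) (nat_lit 452) (nat_lit 257)) (XT.lf (nat_lit 0) (nat_lit 8653236158) (nat_lit 532) (nat_lit 18594179095) (nat_lit 76) (nat_lit 8870495762) (nat_lit 224) (nat_lit 5) (nat_lit 231) (nat_lit 5) (nat_lit 225) (nat_lit 5) (nat_lit 492) (nat_lit 452) (nat_lit 256))))) (XT.nd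 (nat_lit 312) (nat_lit 1140) (nat_lit 0) (XT.nd (nat_lit 156) (nat_lit 380) (nat_lit 0) (XT.nd (nat_lit 78) (nat_lit 0) (nat_lit 0) (XT.lf (nat_lit 0) (nat_lit 2535697023) (nat_lit 380) (nat_lit 12773929748) (nat_lit 456) (nat_lit 21443857908) (nat_lit 219) (nat_lit 5) (nat_lit 224) (nat_lit 5) (nat_lit 225) (nat_lit 5) (nat_lit 493) (nat_lit 452) (nat_lit 255)) (XT.lf (nat_lit 0) (nat_lit 22373061598) (nat_lit 456) (nat_lit 12747990703) (nat_lit 76) (nat_lit 2280852767) (nat_lit 219) (nat_lit 5) (nat_lit 225) (nat_lit 5) (nat_lit 220) (nat_lit 5) (nat_lit 494) (nat_lit 452) (nat_lit 254))) (XT.nd (nat_lit 78) (nat_lit 0) (nat_lit 0) (XT.lf (nat_lit 0) (nat_lit 9419585262) (nat_lit 380) (nat_lit 20443134294) (nat_lit 456) (nat_lit 8200628997) (nat_lit 214) (nat_lit 5) (nat_lit 219) (nat_lit 5) (nat_lit 220) (nat_lit 5) (nat_lit 495) (nat_lit 452) (nat_lit 253)) (XT.lf (nat_lit 0) (nat_lit 32509895225) (nat_lit 380)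 (nat_lit 5193244388) (nat_lit 456) (nat_lit 1037713644) (nat_lit 214) (nat_lit 5) (nat_lit 219) (nat_lit 5) (nat_lit 220) (nat_lit 5) (nat_lit 496) (nat_lit 452) (nat_lit 252)))) (XT.nd (nat_lit 156) (nat_lit 304) (nat_lit 0) (XT.nd (nat_lit 78) (nat_lit 380) (nat_lit 0) (XT.lf (nat_lit 0) (nat_lit 6481663117) (nat_lit 456) (nat_lit 22411413423) (nat_lit 76) (nat_lit 10535819538) (nat_lit 208) (nat_lit 5) (nat_lit 214) (nat_lit 5) (nat_lit 209) (nat_lit 5) (nat_lit 497) (nat_lit 452) (nat_lit 251)) (XT.lf (nat_lit 0) (nat_lit 907205679) (nat_lit 380) (nat_lit 13419667959) (nat_lit 456) (nat_lit 25806765108) (nat_lit 203) (nat_lit 5) (nat_lit 208) (nat_lit 5) (nat_lit 209) (nat_lit 5) (nat_lit 498) (nat_lit 452) (nat_lit 250))) (XT.nd (nat_lit 78) (nat_lit 304) (nat_lit 0) (XT.lf (nat_lit 0) (nat_lit 22657654542) (nat_lit 456) (nat_lit 15498008708) (nat_lit 76) (nat_lit 2696354097) (nat_lit 203) (nat_lit 5) (nat_lit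 209) (nat_lit 5) (nat_lit 204) (nat_lit 5) (nat_lit 499) (nat_lit 452) (nat_lit 249)) (XT.lf (nat_lit 0) (nat_lit 8981135263) (nat_lit 304) (nat_lit 22473955834) (nat_lit 380) (nat_lit 10130354316) (nat_lit 199) (nat_lit 5) (nat_lit 203) (nat_lit 5) (nat_lit 204) (nat_lit 5) (nat_lit 500) (nat_lit 452) (nat_lit 248))))))) (XT.nd (nat_lit 1248) (nat_lit 2356) (nat_lit 0) (XT.nd (nat_lit 624) (nat_lit 1140) (nat_lit 0) (XT.nd (nat_lit 312) (nat_lit 988) (nat_lit 0) (XT.nd (nat_lit 156) (nat_lit 304) (nat_lit 0) (XT.nd (nat_lit 78) (nat_lit 380) (nat_lit 0) (XT.lf (nat_lit 0) (nat_lit 34508862627) (nat_lit 304) (nat_lit 6161658064) (nat_lit 380) (nat_lit 1665733602) (nat_lit 199) (nat_lit 5) (nat_lit 203) (nat_lit 5) (nat_lit 204) (nat_lit 5) (nat_lit 501) (nat_lit 452) (nat_lit 247)) (XT.lf (nat_lit 0) (nat_lit 7190228284) (nat_lit 380) (nat_lit 25234780259) (nat_lit 76) (nat_lit 10674294222) (nat_lit 194) (nat_lit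 5) (nat_lit 199) (nat_lit 5) (nat_lit 195) (nat_lit 5) (nat_lit 502) (nat_lit 452) (nat_lit 246))) (XT.nd (nat_lit 78) (nat_lit 0) (nat_lit 0) (XT.lf (nat_lit 0) (nat_lit 533446892) (nat_lit 304) (nat_lit 15888545170) (nat_lit 380) (nat_lit 27458447845) (nat_lit 190) (nat_lit 5) (nat_lit 194) (nat_lit 5) (nat_lit 195) (nat_lit 5) (nat_lit 503) (nat_lit 452) (nat_lit 245)) (XT.lf (nat_lit 0) (nat_lit 26196719977) (nat_lit 380) (nat_lit 17102360049) (nat_lit 76) (nat_lit 1377950861) (nat_lit 190) (nat_lit 5) (nat_lit 195) (nat_lit 5) (nat_lit 191) (nat_lit 5) (nat_lit 504) (nat_lit 452) (nat_lit 244)))) (XT.nd (nat_lit 156) (nat_lit 608) (nat_lit 0) (XT.nd (nat_lit 78) (nat_lit 76) (nat_lit 0) (XT.lf (nat_lit 0) (nat_lit 9963338922) (nat_lit 304) (nat_lit 26552174215) (nat_lit 380) (nat_lit 8974481820) (nat_lit 186) (nat_lit 5) (nat_lit 190) (nat_lit 5) (nat_lit 191) (nat_lit 5) (nat_lit 505) (nat_lit 452) (nat_lit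 243)) (XT.lf (nat_lit 0) (nat_lit 972748022) (nat_lit 380) (nat_lit 8143528269) (nat_lit 76) (nat_lit 37205671473) (nat_lit 185) (nat_lit 5) (nat_lit 190) (nat_lit 5) (nat_lit 186) (nat_lit 5) (nat_lit 506) (nat_lit 452) (nat_lit 242))) (XT.nd (nat_lit 78) (nat_lit 304) (nat_lit 0) (XT.lf (nat_lit 0) (nat_lit 11319413928) (nat_lit 380) (nat_lit 26891830734) (nat_lit 76) (nat_lit 8956506939) (nat_lit 181) (nat_lit 5) (nat_lit 186) (nat_lit 5) (nat_lit 182) (nat_lit 5) (nat_lit 507) (nat_lit 452) (nat_lit 241)) (XT.lf (nat_lit 0) (nat_lit 1615560464) (nat_lit 304) (nat_lit 20547593294) (nat_lit 380) (nat_lit 25870175633) (nat_lit 177) (nat_lit 5) (nat_lit 181) (nat_lit 5) (nat_lit 182) (nat_lit 5) (nat_lit 508) (nat_lit 452) (nat_lit 240))))) (XT.nd (nat_lit 312) (nat_lit 532) (nat_lit 0) (XT.nd (nat_lit 156) (nat_lit 380) (nat_lit 0) (XT.nd (nat_lit 78) (nat_lit 228) (nat_lit 0) (XT.lf (nat_lit 0) (nat_lit 31526146210)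 (nat_lit 304) (nat_lit 2075481964) (nat_lit 380) (nat_lit 15315163720) (nat_lit 177) (nat_lit 5) (nat_lit 181) (nat_lit 5) (nat_lit 182) (nat_lit 5) (nat_lit 509) (nat_lit 452) (nat_lit 239)) (XT.lf (nat_lit 0) (nat_lit 12586723027) (nat_lit 228) (nat_lit 33078385464) (nat_lit 304) (nat_lit 4153194284) (nat_lit 174) (nat_lit 5) (nat_lit 177) (nat_lit 5) (nat_lit 178) (nat_lit 5) (nat_lit 510) (nat_lit 452) (nat_lit 238))) (XT.nd (nat_lit 78) (nat_lit 304) (nat_lit 0) (XT.lf (nat_lit 0) (nat_lit 7396161374) (nat_lit 304) (nat_lit 7017814869) (nat_lit 76) (nat_lit 36324890204) (nat_lit 173) (nat_lit 5) (nat_lit 177) (nat_lit 5) (nat_lit 174) (nat_lit 5) (nat_lit 511) (nat_lit 452) (nat_lit 237)) (XT.lf (nat_lit 0) (nat_lit 19491346583) (nat_lit 380) (nat_lit 27190878184) (nat_lit 76) (nat_lit 4995103969) (nat_lit 169) (nat_lit 5) (nat_lit 174) (nat_lit 5) (nat_lit 170) (nat_lit 5) (nat_lit 512) (nat_lit 452) (nat_lit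 236)))) (XT.nd (nat_lit 156) (nat_lit 304) (nat_lit 0) (XT.nd (nat_lit 78) (nat_lit 0) (nat_lit 0) (XT.lf (nat_lit 0) (nat_lit 4376702623) (nat_lit 228) (nat_lit 27827043071) (nat_lit 304) (nat_lit 20432568493) (nat_lit 166) (nat_lit 5) (nat_lit 169) (nat_lit 5) (nat_lit 170) (nat_lit 5) (nat_lit 513) (nat_lit 452) (nat_lit 235)) (XT.lf (nat_lit 0) (nat_lit 37445556614) (nat_lit 228) (nat_lit 8124568949) (nat_lit 304) (nat_lit 8045765420) (nat_lit 166) (nat_lit 5) (nat_lit 169) (nat_lit 5) (nat_lit 170) (nat_lit 5) (nat_lit 514) (nat_lit 452) (nat_lit 234))) (XT.nd (nat_lit 78) (nat_lit 0) (nat_lit 0) (XT.lf (nat_lit 0) (nat_lit 4902832395) (nat_lit 304) (nat_lit 37569402827) (nat_lit 76) (nat_lit 12142796342) (nat_lit 162) (nat_lit 5) (nat_lit 166) (nat_lit 5) (nat_lit 163) (nat_lit 5) (nat_lit 515) (nat_lit 452) (nat_lit 233)) (XT.lf (nat_lit 0) (nat_lit 18321611075) (nat_lit 304) (nat_lit 4214523190) (nat_lit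 76) (nat_lit 33098319259) (nat_lit 162) (nat_lit 5) (nat_lit 166) (nat_lit 5) (nat_lit 163) (nat_lit 5) (nat_lit 516) (nat_lit 452) (nat_lit 232)))))) (XT.nd (nat_lit 624) (nat_lit 1140) (nat_lit 0) (XT.nd (nat_lit 312) (nat_lit 456) (nat_lit 0) (XT.nd (nat_lit 156) (nat_lit 304) (nat_lit 0) (XT.nd (nat_lit 78) (nat_lit 228) (nat_lit 0) (XT.lf (nat_lit 0) (nat_lit 30737795126) (nat_lit 228) (nat_lit 1698772344) (nat_lit 304) (nat_lit 24239082282) (nat_lit 159) (nat_lit 5) (nat_lit 162) (nat_lit 5) (nat_lit 163) (nat_lit 5) (nat_lit 517) (nat_lit 452) (nat_lit 231)) (XT.lf (nat_lit 0) (nat_lit 9061667854) (nat_lit 228) (nat_lit 38231529837) (nat_lit 304) (nat_lit 10445337460) (nat_lit 156) (nat_lit 5) (nat_lit 159) (nat_lit 5) (nat_lit 160) (nat_lit 5) (nat_lit 518) (nat_lit 452) (nat_lit 230))) (XT.nd (nat_lit 78) (nat_lit 228) (nat_lit 0) (XT.lf (nat_lit 0) (nat_lit 3968304509) (nat_lit 304) (nat_lit 13241184462)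 (nat_lit 76) (nat_lit 41614348257) (nat_lit 155) (nat_lit 5) (nat_lit 159) (nat_lit 5) (nat_lit 156) (nat_lit 5) (nat_lit 519) (nat_lit 452) (nat_lit 229)) (XT.lf (nat_lit 0) (nat_lit 18875576710) (nat_lit 304) (nat_lit 36365852622) (nat_lit 76) (nat_lit 4689031637) (nat_lit 152) (nat_lit 5) (nat_lit 156) (nat_lit 5) (nat_lit 153) (nat_lit 5) (nat_lit 520) (nat_lit 452) (nat_lit 228)))) (XT.nd (nat_lit 156) (nat_lit 228) (nat_lit 0) (XT.nd (nat_lit 78) (nat_lit 0) (nat_lit 0) (XT.lf (nat_lit 0) (nat_lit 515112576) (nat_lit 228) (nat_lit 34023562053) (nat_lit 304) (nat_lit 26522350598) (nat_lit 149) (nat_lit 5) (nat_lit 152) (nat_lit 5) (nat_lit 153) (nat_lit 5) (nat_lit 521) (nat_lit 452) (nat_lit 227)) (XT.lf (nat_lit 0) (nat_lit 39245041659) (nat_lit 228) (nat_lit 11792102132) (nat_lit 304) (nat_lit 11177398309) (nat_lit 149) (nat_lit 5) (nat_lit 152) (nat_lit 5) (nat_lit 153) (nat_lit 5) (nat_lit 522) (nat_lit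 452) (nat_lit 226))) (XT.nd (nat_lit 78) (nat_lit 0) (nat_lit 0) (XT.lf (nat_lit 0) (nat_lit 4798389081) (nat_lit 228) (nat_lit 47506441391) (nat_lit 76) (nat_lit 11088675642) (nat_lit 146) (nat_lit 5) (nat_lit 149) (nat_lit 5) (nat_lit 147) (nat_lit 5) (nat_lit 523) (nat_lit 452) (nat_lit 225)) (XT.lf (nat_lit 0) (nat_lit 21378092182) (nat_lit 228) (nat_lit 8453308351) (nat_lit 76) (nat_lit 34762639625) (nat_lit 146) (nat_lit 5) (nat_lit 149) (nat_lit 5) (nat_lit 147) (nat_lit 5) (nat_lit 524) (nat_lit 452) (nat_lit 224))))) (XT.nd (nat_lit 312) (nat_lit 456) (nat_lit 0) (XT.nd (nat_lit 156) (nat_lit 304) (nat_lit 0) (XT.nd (nat_lit 78) (nat_lit 152) (nat_lit 0) (XT.lf (nat_lit 0) (nat_lit 32400871044) (nat_lit 228) (nat_lit 6364121664) (nat_lit 304) (nat_lit 27056303353) (nat_lit 143) (nat_lit 5) (nat_lit 146) (nat_lit 5) (nat_lit 147) (nat_lit 5) (nat_lit 525) (nat_lit 452) (nat_lit 223)) (XT.lf (nat_lit 0) (nat_lit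 7543518455) (nat_lit 152) (nat_lit 49458234858) (nat_lit 228) (nat_lit 10073768767) (nat_lit 141) (nat_lit 5) (nat_lit 143) (nat_lit 5) (nat_lit 144) (nat_lit 5) (nat_lit 526) (nat_lit 452) (nat_lit 222))) (XT.nd (nat_lit 78) (nat_lit 228) (nat_lit 0) (XT.lf (nat_lit 0) (nat_lit 7675683090) (nat_lit 228) (nat_lit 18076266118) (nat_lit 76) (nat_lit 42601220500) (nat_lit 140) (nat_lit 5) (nat_lit 143) (nat_lit 5) (nat_lit 141) (nat_lit 5) (nat_lit 527) (nat_lit 452) (nat_lit 221)) (XT.lf (nat_lit 0) (nat_lit 25008674026) (nat_lit 228) (nat_lit 985282597) (nat_lit 304) (nat_lit 43665033634) (nat_lit 137) (nat_lit 5) (nat_lit 140) (nat_lit 5) (nat_lit 141) (nat_lit 5) (nat_lit 528) (nat_lit 452) (nat_lit 220)))) (XT.nd (nat_lit 156) (nat_lit 304) (nat_lit 0) (XT.nd (nat_lit 78) (nat_lit 152) (nat_lit 0) (XT.lf (nat_lit 0) (nat_lit 45280285271) (nat_lit 304) (nat_lit 1482099643) (nat_lit 76) (nat_lit 24229045326) (nat_lit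 137) (nat_lit 5) (nat_lit 141) (nat_lit 5) (nat_lit 138) (nat_lit 5) (nat_lit 529) (nat_lit 452) (nat_lit 219)) (XT.lf (nat_lit 0) (nat_lit 43823902671) (nat_lit 152) (nat_lit 21750785926) (nat_lit 228) (nat_lit 6776270305) (nat_lit 135) (nat_lit 5) (nat_lit 137) (nat_lit 5) (nat_lit 138) (nat_lit 5) (nat_lit 530) (nat_lit 452) (nat_lit 218))) (XT.nd (nat_lit 78) (nat_lit 0) (nat_lit 0) (XT.lf (nat_lit 0) (nat_lit 12696588539) (nat_lit 304) (nat_lit 56809100127) (nat_lit 76) (nat_lit 4235366267) (nat_lit 131) (nat_lit 5) (nat_lit 135) (nat_lit 5) (nat_lit 132) (nat_lit 5) (nat_lit 531) (nat_lit 452) (nat_lit 217)) (XT.lf (nat_lit 0) (nat_lit 33122190410) (nat_lit 304) (nat_lit 11112677372) (nat_lit 76) (nat_lit 30920830727) (nat_lit 131) (nat_lit 5) (nat_lit 135) (nat_lit 5) (nat_lit 132) (nat_lit 5) (nat_lit 532) (nat_lit 452) (nat_lit 216))))))))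
noncomputable def xc200 : XT := (XT.nd (nat_lit 57408) (nat_lit 0) (nat_lit 7676) (XT.nd (nat_lit 1170) (nat_lit 0) (nat_lit 0) (XT.nd (nat_lit 546) (nat_lit 912) (nat_lit 0) (XT.nd (nat_lit 234) (nat_lit 532) (nat_lit 0) (XT.nd (nat_lit 78) (nat_lit 228) (nat_lit 0) (XT.lf (nat_lit 0) (nat_lit 36667551983) (nat_lit 152) (nat_lit 17844003355) (nat_lit 228) (nat_lit 22090696224) (nat_lit 129) (nat_lit 5) (nat_lit 131) (nat_lit 5) (nat_lit 132) (nat_lit 5) (nat_lit 533) (nat_lit 452) (nat_lit 215)) (XT.nd (nat_lit 78) (nat_lit 76) (nat_lit 0) (XT.lf (nat_lit 0) (nat_lit 8084419798) (nat_lit 152) (nat_lit 68737520848) (nat_lit 228) (nat_lit 1261880400) (nat_lit 127) (nat_lit 5) (nat_lit 129) (nat_lit 5) (nat_lit 130) (nat_lit 5) (nat_lit 534) (nat_lit 452) (nat_lit 214)) (XT.lf (nat_lit 0) (nat_lit 20380248390) (nat_lit 228) (nat_lit 21612379899) (nat_lit 76) (nat_lit 37593912570) (nat_lit 126) (nat_lit 5) (nat_lit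 129) (nat_lit 5) (nat_lit 127) (nat_lit 5) (nat_lit 535) (nat_lit 452) (nat_lit 213)))) (XT.nd (nat_lit 156) (nat_lit 380) (nat_lit 0) (XT.nd (nat_lit 78) (nat_lit 0) (nat_lit 0) (XT.lf (nat_lit 0) (nat_lit 28772679785) (nat_lit 152) (nat_lit 14148757056) (nat_lit 228) (nat_lit 38204275877) (nat_lit 124) (nat_lit 5) (nat_lit 126) (nat_lit 5) (nat_lit 127) (nat_lit 5) (nat_lit 536) (nat_lit 452) (nat_lit 212)) (XT.lf (nat_lit 0) (nat_lit 66497524188) (nat_lit 228) (nat_lit 1736568507) (nat_lit 76) (nat_lit 14466207159) (nat_lit 124) (nat_lit 5) (nat_lit 127) (nat_lit 5) (nat_lit 125) (nat_lit 5) (nat_lit 537) (nat_lit 452) (nat_lit 211))) (XT.nd (nat_lit 78) (nat_lit 152) (nat_lit 0) (XT.lf (nat_lit 0) (nat_lit 6970403885) (nat_lit 228) (nat_lit 33115496266) (nat_lit 76) (nat_lit 44215231857) (nat_lit 121) (nat_lit 5) (nat_lit 124) (nat_lit 5) (nat_lit 122) (nat_lit 5) (nat_lit 538) (nat_lit 452) (nat_lit 210)) (XT.lf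 (nat_lit 0) (nat_lit 20009019195) (nat_lit 152) (nat_lit 10712777047) (nat_lit 228) (nat_lit 55217119882) (nat_lit 119) (nat_lit 5) (nat_lit 121) (nat_lit 5) (nat_lit 122) (nat_lit 5) (nat_lit 539) (nat_lit 452) (nat_lit 209))))) (XT.nd (nat_lit 312) (nat_lit 532) (nat_lit 0) (XT.nd (nat_lit 156) (nat_lit 228) (nat_lit 0) (XT.nd (nat_lit 78) (nat_lit 152) (nat_lit 0) (XT.lf (nat_lit 0) (nat_lit 55709922657) (nat_lit 228) (nat_lit 12403331156) (nat_lit 76) (nat_lit 19496854197) (nat_lit 119) (nat_lit 5) (nat_lit 122) (nat_lit 5) (nat_lit 120) (nat_lit 5) (nat_lit 540) (nat_lit 452) (nat_lit 208)) (XT.lf (nat_lit 0) (nat_lit 43468790729) (nat_lit 152) (nat_lit 38501492177) (nat_lit 228) (nat_lit 7345475061) (nat_lit 117) (nat_lit 5) (nat_lit 119) (nat_lit 5) (nat_lit 120) (nat_lit 5) (nat_lit 541) (nat_lit 452) (nat_lit 207))) (XT.nd (nat_lit 78) (nat_lit 0) (nat_lit 0) (XT.lf (nat_lit 0) (nat_lit 10225900585) (nat_lit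 152) (nat_lit 7593251350) (nat_lit 228) (nat_lit 73241546380) (nat_lit 114) (nat_lit 5) (nat_lit 116) (nat_lit 5) (nat_lit 117) (nat_lit 5) (nat_lit 542) (nat_lit 452) (nat_lit 206)) (XT.lf (nat_lit 0) (nat_lit 44290342749) (nat_lit 228) (nat_lit 24236082542) (nat_lit 76) (nat_lit 24308401918) (nat_lit 114) (nat_lit 5) (nat_lit 117) (nat_lit 5) (nat_lit 115) (nat_lit 5) (nat_lit 543) (nat_lit 452) (nat_lit 205)))) (XT.nd (nat_lit 156) (nat_lit 304) (nat_lit 0) (XT.nd (nat_lit 78) (nat_lit 76) (nat_lit 0) (XT.lf (nat_lit 0) (nat_lit 34659398992) (nat_lit 152) (nat_lit 37303339019) (nat_lit 228) (nat_lit 22687229912) (nat_lit 112) (nat_lit 5) (nat_lit 114) (nat_lit 5) (nat_lit 115) (nat_lit 5) (nat_lit 544) (nat_lit 452) (nat_lit 204)) (XT.lf (nat_lit 0) (nat_lit 4114629769) (nat_lit 228) (nat_lit 736358432) (nat_lit 76) (nat_lit 91660060309) (nat_lit 111) (nat_lit 5) (nat_lit 114) (nat_lit 5) (nat_lit 112) (nat_lit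 5) (nat_lit 545) (nat_lit 452) (nat_lit 203))) (XT.nd (nat_lit 78) (nat_lit 152) (nat_lit 0) (XT.lf (nat_lit 0) (nat_lit 32134946798) (nat_lit 228) (nat_lit 37422260720) (nat_lit 76) (nat_lit 28837903457) (nat_lit 109) (nat_lit 5) (nat_lit 112) (nat_lit 5) (nat_lit 110) (nat_lit 5) (nat_lit 546) (nat_lit 452) (nat_lit 202)) (XT.lf (nat_lit 0) (nat_lit 24643454192) (nat_lit 152) (nat_lit 36643610885) (nat_lit 228) (nat_lit 39039894498) (nat_lit 107) (nat_lit 5) (nat_lit 109) (nat_lit 5) (nat_lit 110) (nat_lit 5) (nat_lit 547) (nat_lit 452) (nat_lit 201)))))) (XT.nd (nat_lit 55614) (nat_lit 0) (nat_lit 16948) (XT.nd (nat_lit 55302) (nat_lit 0) (nat_lit 16796) (XT.nd (nat_lit 55146) (nat_lit 0) (nat_lit 16720) (XT.nd (nat_lit 55068) (nat_lit 0) (nat_lit 16720) (XT.lf (nat_lit 0) (nat_lit 89335999845) (nat_lit 152) (nat_lit 2354417562) (nat_lit 228) (nat_lit 10615046122) (nat_lit 107) (nat_lit 5) (nat_lit 109) (nat_lit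 5) (nat_lit 110) (nat_lit 5) (nat_lit 548) (nat_lit 452) (nat_lit 200)) (XT.lf (nat_lit 0) (nat_lit 3758431024) (nat_lit 1292) (nat_lit 3011786216) (nat_lit 1292) (nat_lit 3011786216) (nat_lit 327) (nat_lit 3) (nat_lit 344) (nat_lit 3) (nat_lit 344) (nat_lit 5) (nat_lit 453) (nat_lit 453) (nat_lit 294))) (XT.nd (nat_lit 78) (nat_lit 0) (nat_lit 76) (XT.lf (nat_lit 76) (nat_lit 3793268833) (nat_lit 0) (nat_lit 4045096951) (nat_lit 1292) (nat_lit 12012830758) (nat_lit 328) (nat_lit 5) (nat_lit 327) (nat_lit 3) (nat_lit 344) (nat_lit 5) (nat_lit 454) (nat_lit 453) (nat_lit 293)) (XT.lf (nat_lit 0) (nat_lit 8279345596) (nat_lit 1216) (nat_lit 6176581882) (nat_lit 1292) (nat_lit 5687779762) (nat_lit 328) (nat_lit 5) (nat_lit 344) (nat_lit 5) (nat_lit 345) (nat_lit 5) (nat_lit 455) (nat_lit 453) (nat_lit 292)))) (XT.nd (nat_lit 156) (nat_lit 0) (nat_lit 76) (XT.nd (nat_lit 78) (nat_lit 0) (nat_lit 76) (XT.lf (nat_lit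 76) (nat_lit 4036259563) (nat_lit 0) (nat_lit 4769613783) (nat_lit 1292) (nat_lit 11636950658) (nat_lit 329) (nat_lit 5) (nat_lit 328) (nat_lit 5) (nat_lit 345) (nat_lit 5) (nat_lit 456) (nat_lit 453) (nat_lit 291)) (XT.lf (nat_lit 0) (nat_lit 9454892472) (nat_lit 1216) (nat_lit 6121454643) (nat_lit 1292) (nat_lit 5171366583) (nat_lit 329) (nat_lit 5) (nat_lit 345) (nat_lit 5) (nat_lit 346) (nat_lit 5) (nat_lit 457) (nat_lit 453) (nat_lit 290))) (XT.nd (nat_lit 78) (nat_lit 0) (nat_lit 76) (XT.lf (nat_lit 76) (nat_lit 4509249603) (nat_lit 0) (nat_lit 5698538043) (nat_lit 1292) (nat_lit 10851430556) (nat_lit 330) (nat_lit 5) (nat_lit 329) (nat_lit 5) (nat_lit 346) (nat_lit 5) (nat_lit 458) (nat_lit 453) (nat_lit 289)) (XT.lf (nat_lit 0) (nat_lit 11082721018) (nat_lit 1216) (nat_lit 5841382274) (nat_lit 1292) (nat_lit 4452981284) (nat_lit 330) (nat_lit 5) (nat_lit 346) (nat_lit 5) (nat_lit 347) (nat_lit 5) (nat_lit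 459) (nat_lit 453) (nat_lit 288))))) (XT.nd (nat_lit 312) (nat_lit 0) (nat_lit 152) (XT.nd (nat_lit 156) (nat_lit 0) (nat_lit 76) (XT.nd (nat_lit 78) (nat_lit 0) (nat_lit 76) (XT.lf (nat_lit 76) (nat_lit 5230322923) (nat_lit 0) (nat_lit 6854454759) (nat_lit 1292) (nat_lit 9616683269) (nat_lit 331) (nat_lit 5) (nat_lit 330) (nat_lit 5) (nat_lit 347) (nat_lit 5) (nat_lit 460) (nat_lit 453) (nat_lit 287)) (XT.lf (nat_lit 0) (nat_lit 13204606248) (nat_lit 1216) (nat_lit 5318204015) (nat_lit 1292) (nat_lit 3510127308) (nat_lit 331) (nat_lit 5) (nat_lit 347) (nat_lit 5) (nat_lit 348) (nat_lit 5) (nat_lit 461) (nat_lit 453) (nat_lit 286))) (XT.nd (nat_lit 78) (nat_lit 0) (nat_lit 76) (XT.lf (nat_lit 76) (nat_lit 6218988967) (nat_lit 0) (nat_lit 8261181871) (nat_lit 1292) (nat_lit 7890523669) (nat_lit 332) (nat_lit 5) (nat_lit 331) (nat_lit 5) (nat_lit 348) (nat_lit 5) (nat_lit 462) (nat_lit 453) (nat_lit 285)) (XT.lf (nat_lit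 0) (nat_lit 15865060218) (nat_lit 1216) (nat_lit 4532335485) (nat_lit 1292) (nat_lit 2319056957) (nat_lit 332) (nat_lit 5) (nat_lit 348) (nat_lit 5) (nat_lit 349) (nat_lit 5) (nat_lit 463) (nat_lit 453) (nat_lit 284)))) (XT.nd (nat_lit 156) (nat_lit 0) (nat_lit 76) (XT.nd (nat_lit 78) (nat_lit 0) (nat_lit 76) (XT.lf (nat_lit 76) (nat_lit 7496258384) (nat_lit 0) (nat_lit 9943880641) (nat_lit 1292) (nat_lit 5627985489) (nat_lit 333) (nat_lit 5) (nat_lit 332) (nat_lit 5) (nat_lit 349) (nat_lit 5) (nat_lit 464) (nat_lit 453) (nat_lit 283)) (XT.lf (nat_lit 0) (nat_lit 19111522340) (nat_lit 1216) (nat_lit 3462691824) (nat_lit 1292) (nat_lit 854661024) (nat_lit 333) (nat_lit 5) (nat_lit 349) (nat_lit 5) (nat_lit 350) (nat_lit 5) (nat_lit 465) (nat_lit 453) (nat_lit 282))) (XT.nd (nat_lit 78) (nat_lit 0) (nat_lit 0) (XT.lf (nat_lit 76) (nat_lit 9084724577) (nat_lit 0) (nat_lit 11929170609) (nat_lit 1292) (nat_lit 2781127983)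 (nat_lit 334) (nat_lit 5) (nat_lit 333) (nat_lit 5) (nat_lit 350) (nat_lit 5) (nat_lit 466) (nat_lit 453) (nat_lit 281)) (XT.lf (nat_lit 76) (nat_lit 22075728480) (nat_lit 0) (nat_lit 927749995) (nat_lit 1292) (nat_lit 1167773151) (nat_lit 334) (nat_lit 5) (nat_lit 333) (nat_lit 5) (nat_lit 350) (nat_lit 5) (nat_lit 467) (nat_lit 453) (nat_lit 280))))))) (XT.nd (nat_lit 1170) (nat_lit 4028) (nat_lit 0) (XT.nd (nat_lit 546) (nat_lit 2888) (nat_lit 0) (XT.nd (nat_lit 234) (nat_lit 1368) (nat_lit 0) (XT.nd (nat_lit 78) (nat_lit 0) (nat_lit 0) (XT.lf (nat_lit 0) (nat_lit 687485976) (nat_lit 1292) (nat_lit 13550821364) (nat_lit 1368) (nat_lit 10314223059) (nat_lit 317) (nat_lit 5) (nat_lit 334) (nat_lit 5) (nat_lit 335) (nat_lit 5) (nat_lit 468) (nat_lit 453) (nat_lit 279)) (XT.nd (nat_lit 78) (nat_lit 0) (nat_lit 76) (XT.lf (nat_lit 0) (nat_lit 2600864511) (nat_lit 1292) (nat_lit 434665879) (nat_lit 1368) (nat_lit 21908592499)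 (nat_lit 317) (nat_lit 5) (nat_lit 334) (nat_lit 5) (nat_lit 335) (nat_lit 5) (nat_lit 469) (nat_lit 453) (nat_lit 278)) (XT.lf (nat_lit 0) (nat_lit 4778319409) (nat_lit 1292) (nat_lit 12095448221) (nat_lit 76) (nat_lit 8467495467) (nat_lit 318) (nat_lit 5) (nat_lit 335) (nat_lit 5) (nat_lit 319) (nat_lit 5) (nat_lit 470) (nat_lit 453) (nat_lit 277)))) (XT.nd (nat_lit 156) (nat_lit 608) (nat_lit 0) (XT.nd (nat_lit 78) (nat_lit 0) (nat_lit 0) (XT.lf (nat_lit 0) (nat_lit 1592514682) (nat_lit 836) (nat_lit 5473991224) (nat_lit 912) (nat_lit 18682449555) (nat_lit 307) (nat_lit 5) (nat_lit 318) (nat_lit 5) (nat_lit 319) (nat_lit 5) (nat_lit 471) (nat_lit 453) (nat_lit 276)) (XT.lf (nat_lit 0) (nat_lit 9602644493) (nat_lit 912) (nat_lit 10291604458) (nat_lit 76) (nat_lit 6269250631) (nat_lit 307) (nat_lit 5) (nat_lit 319) (nat_lit 5) (nat_lit 308) (nat_lit 5) (nat_lit 472) (nat_lit 453) (nat_lit 275))) (XT.nd (nat_lit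 78) (nat_lit 0) (nat_lit 0) (XT.lf (nat_lit 0) (nat_lit 4009339614) (nat_lit 608) (nat_lit 8294097969) (nat_lit 684) (nat_lit 14284385512) (nat_lit 299) (nat_lit 5) (nat_lit 307) (nat_lit 5) (nat_lit 308) (nat_lit 5) (nat_lit 473) (nat_lit 453) (nat_lit 274)) (XT.lf (nat_lit 0) (nat_lit 15221252532) (nat_lit 684) (nat_lit 8111595838) (nat_lit 76) (nat_lit 3687948171) (nat_lit 299) (nat_lit 5) (nat_lit 308) (nat_lit 5) (nat_lit 300) (nat_lit 5) (nat_lit 474) (nat_lit 453) (nat_lit 273))))) (XT.nd (nat_lit 312) (nat_lit 1672) (nat_lit 0) (XT.nd (nat_lit 156) (nat_lit 608) (nat_lit 0) (XT.nd (nat_lit 78) (nat_lit 0) (nat_lit 0) (XT.lf (nat_lit 0) (nat_lit 6836740422) (nat_lit 608) (nat_lit 11533738128) (nat_lit 684) (nat_lit 9091964510) (nat_lit 291) (nat_lit 5) (nat_lit 299) (nat_lit 5) (nat_lit 300) (nat_lit 5) (nat_lit 475) (nat_lit 453) (nat_lit 272)) (XT.lf (nat_lit 0) (nat_lit 21698974481) (nat_lit 684) (nat_lit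 5525766940) (nat_lit 76) (nat_lit 690053922) (nat_lit 291) (nat_lit 5) (nat_lit 300) (nat_lit 5) (nat_lit 292) (nat_lit 5) (nat_lit 476) (nat_lit 453) (nat_lit 271))) (XT.nd (nat_lit 78) (nat_lit 76) (nat_lit 0) (XT.lf (nat_lit 0) (nat_lit 10106370168) (nat_lit 532) (nat_lit 15228529635) (nat_lit 608) (nat_lit 3039591312) (nat_lit 284) (nat_lit 5) (nat_lit 291) (nat_lit 5) (nat_lit 292) (nat_lit 5) (nat_lit 477) (nat_lit 453) (nat_lit 270)) (XT.lf (nat_lit 0) (nat_lit 280018540) (nat_lit 608) (nat_lit 2532191432) (nat_lit 76) (nat_lit 26034122481) (nat_lit 283) (nat_lit 5) (nat_lit 291) (nat_lit 5) (nat_lit 284) (nat_lit 5) (nat_lit 478) (nat_lit 453) (nat_lit 269)))) (XT.nd (nat_lit 156) (nat_lit 532) (nat_lit 0) (XT.nd (nat_lit 78) (nat_lit 532) (nat_lit 0) (XT.lf (nat_lit 0) (nat_lit 3865767057) (nat_lit 684) (nat_lit 15511559580) (nat_lit 76) (nat_lit 9947270395) (nat_lit 275) (nat_lit 5) (nat_lit 284) (nat_lit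 5) (nat_lit 276) (nat_lit 5) (nat_lit 479) (nat_lit 453) (nat_lit 268)) (XT.lf (nat_lit 0) (nat_lit 869144977) (nat_lit 532) (nat_lit 6748409321) (nat_lit 608) (nat_lit 22197901403) (nat_lit 268) (nat_lit 5) (nat_lit 275) (nat_lit 5) (nat_lit 276) (nat_lit 5) (nat_lit 480) (nat_lit 453) (nat_lit 267))) (XT.nd (nat_lit 78) (nat_lit 532) (nat_lit 0) (XT.lf (nat_lit 0) (nat_lit 11696760434) (nat_lit 608) (nat_lit 12322689705) (nat_lit 76) (nat_lit 6295144168) (nat_lit 268) (nat_lit 5) (nat_lit 276) (nat_lit 5) (nat_lit 269) (nat_lit 5) (nat_lit 481) (nat_lit 453) (nat_lit 266)) (XT.lf (nat_lit 0) (nat_lit 4823183142) (nat_lit 532) (nat_lit 11184949746) (nat_lit 608) (nat_lit 14817280610) (nat_lit 261) (nat_lit 5) (nat_lit 268) (nat_lit 5) (nat_lit 269) (nat_lit 5) (nat_lit 482) (nat_lit 453) (nat_lit 265)))))) (XT.nd (nat_lit 624) (nat_lit 2128) (nat_lit 0) (XT.nd (nat_lit 312) (nat_lit 912) (nat_lit 0) (XT.nd (nat_lit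 156) (nat_lit 532) (nat_lit 0) (XT.nd (nat_lit 78) (nat_lit 456) (nat_lit 0) (XT.lf (nat_lit 0) (nat_lit 20590741184) (nat_lit 608) (nat_lit 8636396504) (nat_lit 76) (nat_lit 2120162866) (nat_lit 261) (nat_lit 5) (nat_lit 269) (nat_lit 5) (nat_lit 262) (nat_lit 5) (nat_lit 483) (nat_lit 453) (nat_lit 264)) (XT.lf (nat_lit 0) (nat_lit 9317787268) (nat_lit 456) (nat_lit 16190117752) (nat_lit 532) (nat_lit 6371027007) (nat_lit 255) (nat_lit 5) (nat_lit 261) (nat_lit 5) (nat_lit 262) (nat_lit 5) (nat_lit 484) (nat_lit 453) (nat_lit 263))) (XT.nd (nat_lit 78) (nat_lit 532) (nat_lit 0) (XT.lf (nat_lit 0) (nat_lit 27983963943) (nat_lit 456) (nat_lit 2672656327) (nat_lit 532) (nat_lit 1767371198) (nat_lit 255) (nat_lit 5) (nat_lit 261) (nat_lit 5) (nat_lit 262) (nat_lit 5) (nat_lit 485) (nat_lit 453) (nat_lit 262)) (XT.lf (nat_lit 0) (nat_lit 3162183853) (nat_lit 532) (nat_lit 18615300203) (nat_lit 76) (nat_lit 11199686078)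 (nat_lit 248) (nat_lit 5) (nat_lit 255) (nat_lit 5) (nat_lit 249) (nat_lit 5) (nat_lit 486) (nat_lit 453) (nat_lit 261)))) (XT.nd (nat_lit 156) (nat_lit 456) (nat_lit 0) (XT.nd (nat_lit 78) (nat_lit 0) (nat_lit 0) (XT.lf (nat_lit 0) (nat_lit 229641427) (nat_lit 456) (nat_lit 8045349270) (nat_lit 532) (nat_lit 25269301985) (nat_lit 242) (nat_lit 5) (nat_lit 248) (nat_lit 5) (nat_lit 249) (nat_lit 5) (nat_lit 487) (nat_lit 453) (nat_lit 260)) (XT.lf (nat_lit 0) (nat_lit 13786632609) (nat_lit 532) (nat_lit 14165473674) (nat_lit 76) (nat_lit 6168959205) (nat_lit 242) (nat_lit 5) (nat_lit 249) (nat_lit 5) (nat_lit 243) (nat_lit 5) (nat_lit 488) (nat_lit 453) (nat_lit 259))) (XT.nd (nat_lit 78) (nat_lit 0) (nat_lit 0) (XT.lf (nat_lit 0) (nat_lit 5583867426) (nat_lit 456) (nat_lit 14010163337) (nat_lit 532) (nat_lit 15117198610) (nat_lit 236) (nat_lit 5) (nat_lit 242) (nat_lit 5) (nat_lit 243) (nat_lit 5) (nat_lit 489)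 (nat_lit 453) (nat_lit 258)) (XT.lf (nat_lit 0) (nat_lit 25720593936) (nat_lit 532) (nat_lit 9107181189) (nat_lit 76) (nat_lit 486974858) (nat_lit 236) (nat_lit 5) (nat_lit 243) (nat_lit 5) (nat_lit 237) (nat_lit 5) (nat_lit 490) (nat_lit 453) (nat_lit 257))))) (XT.nd (nat_lit 312) (nat_lit 836) (nat_lit 0) (XT.nd (nat_lit 156) (nat_lit 836) (nat_lit 0) (XT.nd (nat_lit 78) (nat_lit 76) (nat_lit 0) (XT.lf (nat_lit 0) (nat_lit 11597648662) (nat_lit 380) (nat_lit 20680705964) (nat_lit 456) (nat_lit 3650599664) (nat_lit 231) (nat_lit 5) (nat_lit 236) (nat_lit 5) (nat_lit 237) (nat_lit 5) (nat_lit 491) (nat_lit 453) (nat_lit 256)) (XT.lf (nat_lit 0) (nat_lit 2513138150) (nat_lit 456) (nat_lit 3476754193) (nat_lit 76) (nat_lit 30568276878) (nat_lit 230) (nat_lit 5) (nat_lit 236) (nat_lit 5) (nat_lit 231) (nat_lit 5) (nat_lit 492) (nat_lit 453) (nat_lit 255))) (XT.nd (nat_lit 78) (nat_lit 380) (nat_lit 0) (XT.lf (nat_lit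 0) (nat_lit 9051803441) (nat_lit 532) (nat_lit 18968608708) (nat_lit 76) (nat_lit 9176862540) (nat_lit 224) (nat_lit 5) (nat_lit 231) (nat_lit 5) (nat_lit 225) (nat_lit 5) (nat_lit 493) (nat_lit 453) (nat_lit 254)) (XT.lf (nat_lit 0) (nat_lit 2793365696) (nat_lit 380) (nat_lit 13112218028) (nat_lit 456) (nat_lit 21946401032) (nat_lit 219) (nat_lit 5) (nat_lit 224) (nat_lit 5) (nat_lit 225) (nat_lit 5) (nat_lit 494) (nat_lit 453) (nat_lit 253)))) (XT.nd (nat_lit 156) (nat_lit 456) (nat_lit 0) (XT.nd (nat_lit 78) (nat_lit 380) (nat_lit 0) (XT.lf (nat_lit 0) (nat_lit 23177360283) (nat_lit 456) (nat_lit 12950556312) (nat_lit 76) (nat_lit 2392048130) (nat_lit 219) (nat_lit 5) (nat_lit 225) (nat_lit 5) (nat_lit 220) (nat_lit 5) (nat_lit 495) (nat_lit 453) (nat_lit 252)) (XT.lf (nat_lit 0) (nat_lit 9880283460) (nat_lit 380) (nat_lit 21009259730) (nat_lit 456) (nat_lit 8311773394) (nat_lit 214) (nat_lit 5) (nat_lit 219)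 (nat_lit 5) (nat_lit 220) (nat_lit 5) (nat_lit 496) (nat_lit 453) (nat_lit 251))) (XT.nd (nat_lit 78) (nat_lit 456) (nat_lit 0) (XT.lf (nat_lit 0) (nat_lit 33658115033) (nat_lit 380) (nat_lit 5303246969) (nat_lit 456) (nat_lit 937898962) (nat_lit 214) (nat_lit 5) (nat_lit 219) (nat_lit 5) (nat_lit 220) (nat_lit 5) (nat_lit 497) (nat_lit 453) (nat_lit 250)) (XT.lf (nat_lit 0) (nat_lit 6802890658) (nat_lit 456) (nat_lit 22906656695) (nat_lit 76) (nat_lit 10898408467) (nat_lit 208) (nat_lit 5) (nat_lit 214) (nat_lit 5) (nat_lit 209) (nat_lit 5) (nat_lit 498) (nat_lit 453) (nat_lit 249))))))))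
noncomputable def xc201 : XT := (XT.nd (nat_lit 2418) (nat_lit 2128) (nat_lit 0) (XT.nd (nat_lit 1170) (nat_lit 2432) (nat_lit 0) (XT.nd (nat_lit 546) (nat_lit 1596) (nat_lit 0) (XT.nd (nat_lit 234) (nat_lit 684) (nat_lit 0) (XT.nd (nat_lit 78) (nat_lit 304) (nat_lit 0) (XT.lf (nat_lit 0) (nat_lit 1109784715) (nat_lit 380) (nat_lit 13771665923) (nat_lit 456) (nat_lit 26452450447) (nat_lit 203) (nat_lit 5) (nat_lit 208) (nat_lit 5) (nat_lit 209) (nat_lit 5) (nat_lit 499) (nat_lit 453) (nat_lit 248)) (XT.nd (nat_lit 78) (nat_lit 304) (nat_lit 0) (XT.lf (nat_lit 0) (nat_lit 23458993025) (nat_lit 456) (nat_lit 15789528224) (nat_lit 76) (nat_lit 2825404761) (nat_lit 203) (nat_lit 5) (nat_lit 209) (nat_lit 5) (nat_lit 204) (nat_lit 5) (nat_lit 500) (nat_lit 453) (nat_lit 247)) (XT.lf (nat_lit 0) (nat_lit 9422289863) (nat_lit 304) (nat_lit 23096171491) (nat_lit 380) (nat_lit 10310952407) (nat_lit 199) (nat_lit 5) (nat_lit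 203) (nat_lit 5) (nat_lit 204) (nat_lit 5) (nat_lit 501) (nat_lit 453) (nat_lit 246)))) (XT.nd (nat_lit 156) (nat_lit 304) (nat_lit 0) (XT.nd (nat_lit 78) (nat_lit 380) (nat_lit 0) (XT.lf (nat_lit 0) (nat_lit 35710847478) (nat_lit 304) (nat_lit 6296019439) (nat_lit 380) (nat_lit 1595984699) (nat_lit 199) (nat_lit 5) (nat_lit 203) (nat_lit 5) (nat_lit 204) (nat_lit 5) (nat_lit 502) (nat_lit 453) (nat_lit 245)) (XT.lf (nat_lit 0) (nat_lit 7522008229) (nat_lit 380) (nat_lit 25821450401) (nat_lit 76) (nat_lit 11045337833) (nat_lit 194) (nat_lit 5) (nat_lit 199) (nat_lit 5) (nat_lit 195) (nat_lit 5) (nat_lit 503) (nat_lit 453) (nat_lit 244))) (XT.nd (nat_lit 78) (nat_lit 0) (nat_lit 0) (XT.lf (nat_lit 0) (nat_lit 718153238) (nat_lit 304) (nat_lit 16310812588) (nat_lit 380) (nat_lit 28164454758) (nat_lit 190) (nat_lit 5) (nat_lit 194) (nat_lit 5) (nat_lit 195) (nat_lit 5) (nat_lit 504) (nat_lit 453) (nat_lit 243)) (XT.lf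 (nat_lit 0) (nat_lit 27094113637) (nat_lit 380) (nat_lit 17448816637) (nat_lit 76) (nat_lit 1471063769) (nat_lit 190) (nat_lit 5) (nat_lit 195) (nat_lit 5) (nat_lit 191) (nat_lit 5) (nat_lit 505) (nat_lit 453) (nat_lit 242))))) (XT.nd (nat_lit 312) (nat_lit 608) (nat_lit 0) (XT.nd (nat_lit 156) (nat_lit 608) (nat_lit 0) (XT.nd (nat_lit 78) (nat_lit 76) (nat_lit 0) (XT.lf (nat_lit 0) (nat_lit 10427219830) (nat_lit 304) (nat_lit 27293589316) (nat_lit 380) (nat_lit 9130587820) (nat_lit 186) (nat_lit 5) (nat_lit 190) (nat_lit 5) (nat_lit 191) (nat_lit 5) (nat_lit 506) (nat_lit 453) (nat_lit 241)) (XT.lf (nat_lit 0) (nat_lit 1109620668) (nat_lit 380) (nat_lit 8225512641) (nat_lit 76) (nat_lit 38373239428) (nat_lit 185) (nat_lit 5) (nat_lit 190) (nat_lit 5) (nat_lit 186) (nat_lit 5) (nat_lit 507) (nat_lit 453) (nat_lit 240))) (XT.nd (nat_lit 78) (nat_lit 304) (nat_lit 0) (XT.lf (nat_lit 0) (nat_lit 11765620130) (nat_lit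 380) (nat_lit 27535195086) (nat_lit 76) (nat_lit 9278767547) (nat_lit 181) (nat_lit 5) (nat_lit 186) (nat_lit 5) (nat_lit 182) (nat_lit 5) (nat_lit 508) (nat_lit 453) (nat_lit 239)) (XT.lf (nat_lit 0) (nat_lit 1825815980) (nat_lit 304) (nat_lit 21107305840) (nat_lit 380) (nat_lit 26538052654) (nat_lit 177) (nat_lit 5) (nat_lit 181) (nat_lit 5) (nat_lit 182) (nat_lit 5) (nat_lit 509) (nat_lit 453) (nat_lit 238)))) (XT.nd (nat_lit 156) (nat_lit 380) (nat_lit 0) (XT.nd (nat_lit 78) (nat_lit 228) (nat_lit 0) (XT.lf (nat_lit 0) (nat_lit 32629007006) (nat_lit 304) (nat_lit 2082683071) (nat_lit 380) (nat_lit 15669542663) (nat_lit 177) (nat_lit 5) (nat_lit 181) (nat_lit 5) (nat_lit 182) (nat_lit 5) (nat_lit 510) (nat_lit 453) (nat_lit 237)) (XT.lf (nat_lit 0) (nat_lit 13122369932) (nat_lit 228) (nat_lit 34013766730) (nat_lit 304) (nat_lit 4173680502) (nat_lit 174) (nat_lit 5) (nat_lit 177) (nat_lit 5) (nat_lit 178) (nat_lit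 5) (nat_lit 511) (nat_lit 453) (nat_lit 236))) (XT.nd (nat_lit 78) (nat_lit 304) (nat_lit 0) (XT.lf (nat_lit 0) (nat_lit 7717151125) (nat_lit 304) (nat_lit 7072932672) (nat_lit 76) (nat_lit 37467973191) (nat_lit 173) (nat_lit 5) (nat_lit 177) (nat_lit 5) (nat_lit 174) (nat_lit 5) (nat_lit 512) (nat_lit 453) (nat_lit 235)) (XT.lf (nat_lit 0) (nat_lit 20174324836) (nat_lit 380) (nat_lit 27850318593) (nat_lit 76) (nat_lit 5200055794) (nat_lit 169) (nat_lit 5) (nat_lit 174) (nat_lit 5) (nat_lit 170) (nat_lit 5) (nat_lit 513) (nat_lit 453) (nat_lit 234)))))) (XT.nd (nat_lit 624) (nat_lit 1140) (nat_lit 0) (XT.nd (nat_lit 312) (nat_lit 760) (nat_lit 0) (XT.nd (nat_lit 156) (nat_lit 304) (nat_lit 0) (XT.nd (nat_lit 78) (nat_lit 0) (nat_lit 0) (XT.lf (nat_lit 0) (nat_lit 4662757423) (nat_lit 228) (nat_lit 28603964788) (nat_lit 304) (nat_lit 20945773304) (nat_lit 166) (nat_lit 5) (nat_lit 169) (nat_lit 5) (nat_lit 170) (nat_lit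 5) (nat_lit 514) (nat_lit 453) (nat_lit 233)) (XT.lf (nat_lit 0) (nat_lit 38719169644) (nat_lit 228) (nat_lit 8312102546) (nat_lit 304) (nat_lit 8190272126) (nat_lit 166) (nat_lit 5) (nat_lit 169) (nat_lit 5) (nat_lit 170) (nat_lit 5) (nat_lit 515) (nat_lit 453) (nat_lit 232))) (XT.nd (nat_lit 78) (nat_lit 0) (nat_lit 0) (XT.lf (nat_lit 0) (nat_lit 5144123047) (nat_lit 304) (nat_lit 38543573966) (nat_lit 76) (nat_lit 12562957338) (nat_lit 162) (nat_lit 5) (nat_lit 166) (nat_lit 5) (nat_lit 163) (nat_lit 5) (nat_lit 516) (nat_lit 453) (nat_lit 231)) (XT.lf (nat_lit 0) (nat_lit 18962721232) (nat_lit 304) (nat_lit 4192501657) (nat_lit 76) (nat_lit 34145518454) (nat_lit 162) (nat_lit 5) (nat_lit 166) (nat_lit 5) (nat_lit 163) (nat_lit 5) (nat_lit 517) (nat_lit 453) (nat_lit 230)))) (XT.nd (nat_lit 156) (nat_lit 304) (nat_lit 0) (XT.nd (nat_lit 78) (nat_lit 228) (nat_lit 0) (XT.lf (nat_lit 0) (nat_lit 31806930746) (nat_lit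 228) (nat_lit 1692944709) (nat_lit 304) (nat_lit 24873335587) (nat_lit 159) (nat_lit 5) (nat_lit 162) (nat_lit 5) (nat_lit 163) (nat_lit 5) (nat_lit 518) (nat_lit 453) (nat_lit 229)) (XT.lf (nat_lit 0) (nat_lit 9481219559) (nat_lit 228) (nat_lit 39320307326) (nat_lit 304) (nat_lit 10666476503) (nat_lit 156) (nat_lit 5) (nat_lit 159) (nat_lit 5) (nat_lit 160) (nat_lit 5) (nat_lit 519) (nat_lit 453) (nat_lit 228))) (XT.nd (nat_lit 78) (nat_lit 228) (nat_lit 0) (XT.lf (nat_lit 0) (nat_lit 4175141524) (nat_lit 304) (nat_lit 13493271450) (nat_lit 76) (nat_lit 42917504018) (nat_lit 155) (nat_lit 5) (nat_lit 159) (nat_lit 5) (nat_lit 156) (nat_lit 5) (nat_lit 520) (nat_lit 453) (nat_lit 227)) (XT.lf (nat_lit 0) (nat_lit 19529005544) (nat_lit 304) (nat_lit 37311051643) (nat_lit 76) (nat_lit 4885701098) (nat_lit 152) (nat_lit 5) (nat_lit 156) (nat_lit 5) (nat_lit 153) (nat_lit 5) (nat_lit 521) (nat_lit 453) (nat_lit 226)))))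 (XT.nd (nat_lit 312) (nat_lit 684) (nat_lit 0) (XT.nd (nat_lit 156) (nat_lit 228) (nat_lit 0) (XT.nd (nat_lit 78) (nat_lit 0) (nat_lit 0) (XT.lf (nat_lit 0) (nat_lit 674913329) (nat_lit 228) (nat_lit 34985931943) (nat_lit 304) (nat_lit 27229428784) (nat_lit 149) (nat_lit 5) (nat_lit 152) (nat_lit 5) (nat_lit 153) (nat_lit 5) (nat_lit 522) (nat_lit 453) (nat_lit 225)) (XT.lf (nat_lit 0) (nat_lit 40562535991) (nat_lit 228) (nat_lit 12089227359) (nat_lit 304) (nat_lit 11426708284) (nat_lit 149) (nat_lit 5) (nat_lit 152) (nat_lit 5) (nat_lit 153) (nat_lit 5) (nat_lit 523) (nat_lit 453) (nat_lit 224))) (XT.nd (nat_lit 78) (nat_lit 0) (nat_lit 0) (XT.lf (nat_lit 0) (nat_lit 5026117823) (nat_lit 228) (nat_lit 48789253642) (nat_lit 76) (nat_lit 11477425040) (nat_lit 146) (nat_lit 5) (nat_lit 149) (nat_lit 5) (nat_lit 147) (nat_lit 5) (nat_lit 524) (nat_lit 453) (nat_lit 223)) (XT.lf (nat_lit 0) (nat_lit 22100771908) (nat_lit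 228) (nat_lit 8568673629) (nat_lit 76) (nat_lit 35859974279) (nat_lit 146) (nat_lit 5) (nat_lit 149) (nat_lit 5) (nat_lit 147) (nat_lit 5) (nat_lit 525) (nat_lit 453) (nat_lit 222)))) (XT.nd (nat_lit 156) (nat_lit 304) (nat_lit 0) (XT.nd (nat_lit 78) (nat_lit 152) (nat_lit 0) (XT.lf (nat_lit 0) (nat_lit 33509775913) (nat_lit 228) (nat_lit 6498450263) (nat_lit 304) (nat_lit 27785298863) (nat_lit 143) (nat_lit 5) (nat_lit 146) (nat_lit 5) (nat_lit 147) (nat_lit 5) (nat_lit 526) (nat_lit 453) (nat_lit 221)) (XT.lf (nat_lit 0) (nat_lit 7907208383) (nat_lit 152) (nat_lit 50884391658) (nat_lit 228) (nat_lit 10293792522) (nat_lit 141) (nat_lit 5) (nat_lit 143) (nat_lit 5) (nat_lit 144) (nat_lit 5) (nat_lit 527) (nat_lit 453) (nat_lit 220))) (XT.nd (nat_lit 78) (nat_lit 228) (nat_lit 0) (XT.lf (nat_lit 0) (nat_lit 7984191931) (nat_lit 228) (nat_lit 18483612840) (nat_lit 76) (nat_lit 43933611602) (nat_lit 140) (nat_lit 5)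 (nat_lit 143) (nat_lit 5) (nat_lit 141) (nat_lit 5) (nat_lit 528) (nat_lit 453) (nat_lit 219)) (XT.lf (nat_lit 0) (nat_lit 25892552555) (nat_lit 228) (nat_lit 958466749) (nat_lit 304) (nat_lit 44895422102) (nat_lit 137) (nat_lit 5) (nat_lit 140) (nat_lit 5) (nat_lit 141) (nat_lit 5) (nat_lit 529) (nat_lit 453) (nat_lit 218))))))) (XT.nd (nat_lit 1248) (nat_lit 228) (nat_lit 0) (XT.nd (nat_lit 624) (nat_lit 912) (nat_lit 0) (XT.nd (nat_lit 312) (nat_lit 532) (nat_lit 0) (XT.nd (nat_lit 156) (nat_lit 304) (nat_lit 0) (XT.nd (nat_lit 78) (nat_lit 152) (nat_lit 0) (XT.lf (nat_lit 0) (nat_lit 46714214107) (nat_lit 304) (nat_lit 1395111212) (nat_lit 76) (nat_lit 25009581016) (nat_lit 137) (nat_lit 5) (nat_lit 141) (nat_lit 5) (nat_lit 138) (nat_lit 5) (nat_lit 530) (nat_lit 453) (nat_lit 217)) (XT.lf (nat_lit 0) (nat_lit 45268782431) (nat_lit 152) (nat_lit 22347718685) (nat_lit 228) (nat_lit 6902748228) (nat_lit 135)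 (nat_lit 5) (nat_lit 137) (nat_lit 5) (nat_lit 138) (nat_lit 5) (nat_lit 531) (nat_lit 453) (nat_lit 216))) (XT.nd (nat_lit 78) (nat_lit 0) (nat_lit 0) (XT.lf (nat_lit 0) (nat_lit 13152395532) (nat_lit 304) (nat_lit 58381307365) (nat_lit 76) (nat_lit 4417335303) (nat_lit 131) (nat_lit 5) (nat_lit 135) (nat_lit 5) (nat_lit 132) (nat_lit 5) (nat_lit 532) (nat_lit 453) (nat_lit 215)) (XT.lf (nat_lit 0) (nat_lit 34188583633) (nat_lit 304) (nat_lit 11317838503) (nat_lit 76) (nat_lit 31901764433) (nat_lit 131) (nat_lit 5) (nat_lit 135) (nat_lit 5) (nat_lit 132) (nat_lit 5) (nat_lit 533) (nat_lit 453) (nat_lit 214)))) (XT.nd (nat_lit 156) (nat_lit 228) (nat_lit 0) (XT.nd (nat_lit 78) (nat_lit 152) (nat_lit 0) (XT.lf (nat_lit 0) (nat_lit 37894540682) (nat_lit 152) (nat_lit 18324190988) (nat_lit 228) (nat_lit 22679431511) (nat_lit 129) (nat_lit 5) (nat_lit 131) (nat_lit 5) (nat_lit 132) (nat_lit 5) (nat_lit 534) (nat_lit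 453) (nat_lit 213)) (XT.lf (nat_lit 0) (nat_lit 8454279824) (nat_lit 152) (nat_lit 70743795066) (nat_lit 228) (nat_lit 1226115497) (nat_lit 127) (nat_lit 5) (nat_lit 129) (nat_lit 5) (nat_lit 130) (nat_lit 5) (nat_lit 535) (nat_lit 453) (nat_lit 212))) (XT.nd (nat_lit 78) (nat_lit 152) (nat_lit 0) (XT.lf (nat_lit 0) (nat_lit 21061738072) (nat_lit 228) (nat_lit 22135736705) (nat_lit 76) (nat_lit 38774558890) (nat_lit 126) (nat_lit 5) (nat_lit 129) (nat_lit 5) (nat_lit 127) (nat_lit 5) (nat_lit 536) (nat_lit 453) (nat_lit 211)) (XT.lf (nat_lit 0) (nat_lit 29759649136) (nat_lit 152) (nat_lit 14518661746) (nat_lit 228) (nat_lit 39279095367) (nat_lit 124) (nat_lit 5) (nat_lit 126) (nat_lit 5) (nat_lit 127) (nat_lit 5) (nat_lit 537) (nat_lit 453) (nat_lit 210))))) (XT.nd (nat_lit 312) (nat_lit 532) (nat_lit 0) (XT.nd (nat_lit 156) (nat_lit 152) (nat_lit 0) (XT.nd (nat_lit 78) (nat_lit 228) (nat_lit 0) (XT.lf (nat_lit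 0) (nat_lit 68560173584) (nat_lit 228) (nat_lit 1666973948) (nat_lit 76) (nat_lit 14952128712) (nat_lit 124) (nat_lit 5) (nat_lit 127) (nat_lit 5) (nat_lit 125) (nat_lit 5) (nat_lit 538) (nat_lit 453) (nat_lit 209)) (XT.lf (nat_lit 0) (nat_lit 7247088766) (nat_lit 228) (nat_lit 33987116920) (nat_lit 76) (nat_lit 45593932255) (nat_lit 121) (nat_lit 5) (nat_lit 124) (nat_lit 5) (nat_lit 122) (nat_lit 5) (nat_lit 539) (nat_lit 453) (nat_lit 208))) (XT.nd (nat_lit 78) (nat_lit 0) (nat_lit 0) (XT.lf (nat_lit 0) (nat_lit 20729939453) (nat_lit 152) (nat_lit 10980275060) (nat_lit 228) (nat_lit 56804865343) (nat_lit 119) (nat_lit 5) (nat_lit 121) (nat_lit 5) (nat_lit 122) (nat_lit 5) (nat_lit 540) (nat_lit 453) (nat_lit 207)) (XT.lf (nat_lit 0) (nat_lit 57446543019) (nat_lit 228) (nat_lit 12656852979) (nat_lit 76) (nat_lit 20133054776) (nat_lit 119) (nat_lit 5) (nat_lit 122) (nat_lit 5) (nat_lit 120) (nat_lit 5) (nat_lit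 541) (nat_lit 453) (nat_lit 206)))) (XT.nd (nat_lit 156) (nat_lit 152) (nat_lit 0) (XT.nd (nat_lit 78) (nat_lit 228) (nat_lit 0) (XT.lf (nat_lit 0) (nat_lit 44890270033) (nat_lit 152) (nat_lit 39603670112) (nat_lit 228) (nat_lit 7499353328) (nat_lit 117) (nat_lit 5) (nat_lit 119) (nat_lit 5) (nat_lit 120) (nat_lit 5) (nat_lit 542) (nat_lit 453) (nat_lit 205)) (XT.lf (nat_lit 0) (nat_lit 10650227455) (nat_lit 152) (nat_lit 7767918906) (nat_lit 228) (nat_lit 75372439579) (nat_lit 114) (nat_lit 5) (nat_lit 116) (nat_lit 5) (nat_lit 117) (nat_lit 5) (nat_lit 543) (nat_lit 453) (nat_lit 204))) (XT.nd (nat_lit 78) (nat_lit 152) (nat_lit 0) (XT.lf (nat_lit 0) (nat_lit 45682092435) (nat_lit 228) (nat_lit 24847657777) (nat_lit 76) (nat_lit 25088229924) (nat_lit 114) (nat_lit 5) (nat_lit 117) (nat_lit 5) (nat_lit 115) (nat_lit 5) (nat_lit 544) (nat_lit 453) (nat_lit 203)) (XT.lf (nat_lit 0) (nat_lit 35813555779) (nat_lit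 152) (nat_lit 38370367117) (nat_lit 228) (nat_lit 23303674295) (nat_lit 112) (nat_lit 5) (nat_lit 114) (nat_lit 5) (nat_lit 115) (nat_lit 5) (nat_lit 545) (nat_lit 453) (nat_lit 202)))))) (XT.nd (nat_lit 55770) (nat_lit 0) (nat_lit 16796) (XT.nd (nat_lit 55458) (nat_lit 0) (nat_lit 16644) (XT.nd (nat_lit 55302) (nat_lit 0) (nat_lit 16568) (XT.nd (nat_lit 78) (nat_lit 152) (nat_lit 0) (XT.lf (nat_lit 0) (nat_lit 4299156310) (nat_lit 228) (nat_lit 646189262) (nat_lit 76) (nat_lit 94459201117) (nat_lit 111) (nat_lit 5) (nat_lit 114) (nat_lit 5) (nat_lit 112) (nat_lit 5) (nat_lit 546) (nat_lit 453) (nat_lit 201)) (XT.lf (nat_lit 0) (nat_lit 33159860281) (nat_lit 228) (nat_lit 38432445422) (nat_lit 76) (nat_lit 29752832022) (nat_lit 109) (nat_lit 5) (nat_lit 112) (nat_lit 5) (nat_lit 110) (nat_lit 5) (nat_lit 547) (nat_lit 453) (nat_lit 200))) (XT.nd (nat_lit 78) (nat_lit 0) (nat_lit 0) (XT.lf (nat_lit 0) (nat_lit 4041815406)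 (nat_lit 1292) (nat_lit 3014260668) (nat_lit 1292) (nat_lit 3014260668) (nat_lit 327) (nat_lit 3) (nat_lit 344) (nat_lit 3) (nat_lit 344) (nat_lit 5) (nat_lit 454) (nat_lit 454) (nat_lit 292)) (XT.lf (nat_lit 76) (nat_lit 4081102047) (nat_lit 0) (nat_lit 4325410848) (nat_lit 1292) (nat_lit 12030214368) (nat_lit 328) (nat_lit 5) (nat_lit 327) (nat_lit 3) (nat_lit 344) (nat_lit 5) (nat_lit 455) (nat_lit 454) (nat_lit 291)))) (XT.nd (nat_lit 156) (nat_lit 0) (nat_lit 76) (XT.nd (nat_lit 78) (nat_lit 0) (nat_lit 0) (XT.lf (nat_lit 0) (nat_lit 8849539660) (nat_lit 1216) (nat_lit 6181715888) (nat_lit 1292) (nat_lit 5707093653) (nat_lit 328) (nat_lit 5) (nat_lit 344) (nat_lit 5) (nat_lit 345) (nat_lit 5) (nat_lit 456) (nat_lit 454) (nat_lit 290)) (XT.lf (nat_lit 76) (nat_lit 4335744492) (nat_lit 0) (nat_lit 5048460398) (nat_lit 1292) (nat_lit 11662464760) (nat_lit 329) (nat_lit 5) (nat_lit 328) (nat_lit 5) (nat_lit 345)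 (nat_lit 5) (nat_lit 457) (nat_lit 454) (nat_lit 289))) (XT.nd (nat_lit 78) (nat_lit 0) (nat_lit 0) (XT.lf (nat_lit 0) (nat_lit 10042277453) (nat_lit 1216) (nat_lit 6121466042) (nat_lit 1292) (nat_lit 5197275473) (nat_lit 329) (nat_lit 5) (nat_lit 345) (nat_lit 5) (nat_lit 346) (nat_lit 5) (nat_lit 458) (nat_lit 454) (nat_lit 288)) (XT.lf (nat_lit 76) (nat_lit 4826359015) (nat_lit 0) (nat_lit 5984301603) (nat_lit 1292) (nat_lit 10871421364) (nat_lit 330) (nat_lit 5) (nat_lit 329) (nat_lit 5) (nat_lit 346) (nat_lit 5) (nat_lit 459) (nat_lit 454) (nat_lit 287))))) (XT.nd (nat_lit 312) (nat_lit 0) (nat_lit 152) (XT.nd (nat_lit 156) (nat_lit 0) (nat_lit 76) (XT.nd (nat_lit 78) (nat_lit 0) (nat_lit 0) (XT.lf (nat_lit 0) (nat_lit 11702130555) (nat_lit 1216) (nat_lit 5830363268) (nat_lit 1292) (nat_lit 4477282264) (nat_lit 330) (nat_lit 5) (nat_lit 346) (nat_lit 5) (nat_lit 347) (nat_lit 5) (nat_lit 460) (nat_lit 454)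 (nat_lit 286)) (XT.lf (nat_lit 76) (nat_lit 5571667003) (nat_lit 0) (nat_lit 7155997689) (nat_lit 1292) (nat_lit 9616416972) (nat_lit 331) (nat_lit 5) (nat_lit 330) (nat_lit 5) (nat_lit 347) (nat_lit 5) (nat_lit 461) (nat_lit 454) (nat_lit 285))) (XT.nd (nat_lit 78) (nat_lit 0) (nat_lit 0) (XT.lf (nat_lit 0) (nat_lit 13872027678) (nat_lit 1216) (nat_lit 5289614750) (nat_lit 1292) (nat_lit 3524132339) (nat_lit 331) (nat_lit 5) (nat_lit 347) (nat_lit 5) (nat_lit 348) (nat_lit 5) (nat_lit 462) (nat_lit 454) (nat_lit 284)) (XT.lf (nat_lit 76) (nat_lit 6591849557) (nat_lit 0) (nat_lit 8587898938) (nat_lit 1292) (nat_lit 7854099600) (nat_lit 332) (nat_lit 5) (nat_lit 331) (nat_lit 5) (nat_lit 348) (nat_lit 5) (nat_lit 463) (nat_lit 454) (nat_lit 283)))) (XT.nd (nat_lit 156) (nat_lit 0) (nat_lit 76) (XT.nd (nat_lit 78) (nat_lit 0) (nat_lit 0) (XT.lf (nat_lit 0) (nat_lit 16597724911) (nat_lit 1216) (nat_lit 4478969214)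 (nat_lit 1292) (nat_lit 2313539009) (nat_lit 332) (nat_lit 5) (nat_lit 348) (nat_lit 5) (nat_lit 349) (nat_lit 5) (nat_lit 464) (nat_lit 454) (nat_lit 282)) (XT.lf (nat_lit 76) (nat_lit 7908626233) (nat_lit 0) (nat_lit 10305754948) (nat_lit 1292) (nat_lit 5538244550) (nat_lit 333) (nat_lit 5) (nat_lit 332) (nat_lit 5) (nat_lit 349) (nat_lit 5) (nat_lit 465) (nat_lit 454) (nat_lit 281))) (XT.nd (nat_lit 78) (nat_lit 0) (nat_lit 0) (XT.lf (nat_lit 0) (nat_lit 19928001048) (nat_lit 1216) (nat_lit 3376637072) (nat_lit 1292) (nat_lit 819798287) (nat_lit 333) (nat_lit 5) (nat_lit 349) (nat_lit 5) (nat_lit 350) (nat_lit 5) (nat_lit 466) (nat_lit 454) (nat_lit 280)) (XT.lf (nat_lit 76) (nat_lit 9545339708) (nat_lit 0) (nat_lit 12336831702) (nat_lit 1292) (nat_lit 2619555947) (nat_lit 334) (nat_lit 5) (nat_lit 333) (nat_lit 5) (nat_lit 350) (nat_lit 5) (nat_lit 467) (nat_lit 454) (nat_lit 279))))))))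
noncomputable def xc202 : XT := (XT.nd (nat_lit 2418) (nat_lit 5852) (nat_lit 0) (XT.nd (nat_lit 1170) (nat_lit 4104) (nat_lit 0) (XT.nd (nat_lit 546) (nat_lit 2356) (nat_lit 0) (XT.nd (nat_lit 234) (nat_lit 1368) (nat_lit 0) (XT.nd (nat_lit 78) (nat_lit 1216) (nat_lit 0) (XT.lf (nat_lit 76) (nat_lit 22920595863) (nat_lit 0) (nat_lit 1003918393) (nat_lit 1292) (nat_lit 964936564) (nat_lit 334) (nat_lit 5) (nat_lit 333) (nat_lit 5) (nat_lit 350) (nat_lit 5) (nat_lit 468) (nat_lit 454) (nat_lit 278)) (XT.nd (nat_lit 78) (nat_lit 0) (nat_lit 0) (XT.lf (nat_lit 0) (nat_lit 935916404) (nat_lit 1292) (nat_lit 13764666620) (nat_lit 1368) (nat_lit 10581679297) (nat_lit 317) (nat_lit 5) (nat_lit 334) (nat_lit 5) (nat_lit 335) (nat_lit 5) (nat_lit 469) (nat_lit 454) (nat_lit 277)) (XT.lf (nat_lit 0) (nat_lit 2900061174) (nat_lit 1292) (nat_lit 260638491) (nat_lit 1368) (nat_lit 22525102260) (nat_lit 317) (nat_lit 5) (nat_lit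 334) (nat_lit 5) (nat_lit 335) (nat_lit 5) (nat_lit 470) (nat_lit 454) (nat_lit 276)))) (XT.nd (nat_lit 156) (nat_lit 608) (nat_lit 0) (XT.nd (nat_lit 78) (nat_lit 836) (nat_lit 0) (XT.lf (nat_lit 0) (nat_lit 5137877784) (nat_lit 1292) (nat_lit 12266273117) (nat_lit 76) (nat_lit 8690854573) (nat_lit 318) (nat_lit 5) (nat_lit 335) (nat_lit 5) (nat_lit 319) (nat_lit 5) (nat_lit 471) (nat_lit 454) (nat_lit 275)) (XT.lf (nat_lit 0) (nat_lit 1830445941) (nat_lit 836) (nat_lit 5659794485) (nat_lit 912) (nat_lit 19024822536) (nat_lit 307) (nat_lit 5) (nat_lit 318) (nat_lit 5) (nat_lit 319) (nat_lit 5) (nat_lit 472) (nat_lit 454) (nat_lit 274))) (XT.nd (nat_lit 78) (nat_lit 608) (nat_lit 0) (XT.lf (nat_lit 0) (nat_lit 10096094575) (nat_lit 912) (nat_lit 10409357975) (nat_lit 76) (nat_lit 6436782177) (nat_lit 307) (nat_lit 5) (nat_lit 319) (nat_lit 5) (nat_lit 308) (nat_lit 5) (nat_lit 473) (nat_lit 454) (nat_lit 273)) (XT.lf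 (nat_lit 0) (nat_lit 4318741923) (nat_lit 608) (nat_lit 8555005820) (nat_lit 684) (nat_lit 14505665367) (nat_lit 299) (nat_lit 5) (nat_lit 307) (nat_lit 5) (nat_lit 308) (nat_lit 5) (nat_lit 474) (nat_lit 454) (nat_lit 272))))) (XT.nd (nat_lit 312) (nat_lit 1216) (nat_lit 0) (XT.nd (nat_lit 156) (nat_lit 532) (nat_lit 0) (XT.nd (nat_lit 78) (nat_lit 608) (nat_lit 0) (XT.lf (nat_lit 0) (nat_lit 15873123958) (nat_lit 684) (nat_lit 8165348601) (nat_lit 76) (nat_lit 3787082644) (nat_lit 299) (nat_lit 5) (nat_lit 308) (nat_lit 5) (nat_lit 300) (nat_lit 5) (nat_lit 475) (nat_lit 454) (nat_lit 271)) (XT.lf (nat_lit 0) (nat_lit 7229578971) (nat_lit 608) (nat_lit 11883365998) (nat_lit 684) (nat_lit 9167622840) (nat_lit 291) (nat_lit 5) (nat_lit 299) (nat_lit 5) (nat_lit 300) (nat_lit 5) (nat_lit 476) (nat_lit 454) (nat_lit 270))) (XT.nd (nat_lit 78) (nat_lit 532) (nat_lit 0) (XT.lf (nat_lit 0) (nat_lit 22535688673) (nat_lit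 684) (nat_lit 5503656807) (nat_lit 76) (nat_lit 707313627) (nat_lit 291) (nat_lit 5) (nat_lit 300) (nat_lit 5) (nat_lit 292) (nat_lit 5) (nat_lit 477) (nat_lit 454) (nat_lit 269)) (XT.lf (nat_lit 0) (nat_lit 10595602423) (nat_lit 532) (nat_lit 15681467626) (nat_lit 608) (nat_lit 2943184580) (nat_lit 284) (nat_lit 5) (nat_lit 291) (nat_lit 5) (nat_lit 292) (nat_lit 5) (nat_lit 478) (nat_lit 454) (nat_lit 268)))) (XT.nd (nat_lit 156) (nat_lit 532) (nat_lit 0) (XT.nd (nat_lit 78) (nat_lit 608) (nat_lit 0) (XT.lf (nat_lit 0) (nat_lit 466995628) (nat_lit 608) (nat_lit 2423973586) (nat_lit 76) (nat_lit 26815388826) (nat_lit 283) (nat_lit 5) (nat_lit 291) (nat_lit 5) (nat_lit 284) (nat_lit 5) (nat_lit 479) (nat_lit 454) (nat_lit 267)) (XT.lf (nat_lit 0) (nat_lit 4156938156) (nat_lit 684) (nat_lit 15789337451) (nat_lit 76) (nat_lit 10252796510) (nat_lit 275) (nat_lit 5) (nat_lit 284) (nat_lit 5) (nat_lit 276) (nat_lit 5)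 (nat_lit 480) (nat_lit 454) (nat_lit 266))) (XT.nd (nat_lit 78) (nat_lit 0) (nat_lit 0) (XT.lf (nat_lit 0) (nat_lit 1080949333) (nat_lit 532) (nat_lit 6937012176) (nat_lit 608) (nat_lit 22686794763) (nat_lit 268) (nat_lit 5) (nat_lit 275) (nat_lit 5) (nat_lit 276) (nat_lit 5) (nat_lit 481) (nat_lit 454) (nat_lit 265)) (XT.lf (nat_lit 0) (nat_lit 12214666849) (nat_lit 608) (nat_lit 12507166534) (nat_lit 76) (nat_lit 6497182156) (nat_lit 268) (nat_lit 5) (nat_lit 276) (nat_lit 5) (nat_lit 269) (nat_lit 5) (nat_lit 482) (nat_lit 454) (nat_lit 264)))))) (XT.nd (nat_lit 624) (nat_lit 1672) (nat_lit 0) (XT.nd (nat_lit 312) (nat_lit 1444) (nat_lit 0) (XT.nd (nat_lit 156) (nat_lit 456) (nat_lit 0) (XT.nd (nat_lit 78) (nat_lit 0) (nat_lit 0) (XT.lf (nat_lit 0) (nat_lit 5151266774) (nat_lit 532) (nat_lit 11501012359) (nat_lit 608) (nat_lit 15092973403) (nat_lit 261) (nat_lit 5) (nat_lit 268) (nat_lit 5) (nat_lit 269) (nat_lit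 5) (nat_lit 483) (nat_lit 454) (nat_lit 263)) (XT.lf (nat_lit 0) (nat_lit 21367773681) (nat_lit 608) (nat_lit 8712843549) (nat_lit 76) (nat_lit 2202316917) (nat_lit 261) (nat_lit 5) (nat_lit 269) (nat_lit 5) (nat_lit 262) (nat_lit 5) (nat_lit 484) (nat_lit 454) (nat_lit 262))) (XT.nd (nat_lit 78) (nat_lit 0) (nat_lit 0) (XT.lf (nat_lit 0) (nat_lit 9778175100) (nat_lit 456) (nat_lit 16651375708) (nat_lit 532) (nat_lit 6401050982) (nat_lit 255) (nat_lit 5) (nat_lit 261) (nat_lit 5) (nat_lit 262) (nat_lit 5) (nat_lit 485) (nat_lit 454) (nat_lit 261)) (XT.lf (nat_lit 0) (nat_lit 28999069477) (nat_lit 456) (nat_lit 2729102448) (nat_lit 532) (nat_lit 1663977931) (nat_lit 255) (nat_lit 5) (nat_lit 261) (nat_lit 5) (nat_lit 262) (nat_lit 5) (nat_lit 486) (nat_lit 454) (nat_lit 260)))) (XT.nd (nat_lit 156) (nat_lit 456) (nat_lit 0) (XT.nd (nat_lit 78) (nat_lit 456) (nat_lit 0) (XT.lf (nat_lit 0) (nat_lit 3407897892) (nat_lit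 532) (nat_lit 18992595683) (nat_lit 76) (nat_lit 11561460773) (nat_lit 248) (nat_lit 5) (nat_lit 255) (nat_lit 5) (nat_lit 249) (nat_lit 5) (nat_lit 487) (nat_lit 454) (nat_lit 259)) (XT.lf (nat_lit 0) (nat_lit 415918083) (nat_lit 456) (nat_lit 8255501594) (nat_lit 532) (nat_lit 25874751132) (nat_lit 242) (nat_lit 5) (nat_lit 248) (nat_lit 5) (nat_lit 249) (nat_lit 5) (nat_lit 488) (nat_lit 454) (nat_lit 258))) (XT.nd (nat_lit 78) (nat_lit 456) (nat_lit 0) (XT.lf (nat_lit 0) (nat_lit 14344386199) (nat_lit 532) (nat_lit 14412245579) (nat_lit 76) (nat_lit 6383735915) (nat_lit 242) (nat_lit 5) (nat_lit 249) (nat_lit 5) (nat_lit 243) (nat_lit 5) (nat_lit 489) (nat_lit 454) (nat_lit 257)) (XT.lf (nat_lit 0) (nat_lit 5927828771) (nat_lit 456) (nat_lit 14395674950) (nat_lit 532) (nat_lit 15424808000) (nat_lit 236) (nat_lit 5) (nat_lit 242) (nat_lit 5) (nat_lit 243) (nat_lit 5) (nat_lit 490) (nat_lit 454) (nat_lit 256)))))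 (XT.nd (nat_lit 312) (nat_lit 760) (nat_lit 0) (XT.nd (nat_lit 156) (nat_lit 532) (nat_lit 0) (XT.nd (nat_lit 78) (nat_lit 380) (nat_lit 0) (XT.lf (nat_lit 0) (nat_lit 26630062714) (nat_lit 532) (nat_lit 9205284584) (nat_lit 76) (nat_lit 534704827) (nat_lit 236) (nat_lit 5) (nat_lit 243) (nat_lit 5) (nat_lit 237) (nat_lit 5) (nat_lit 491) (nat_lit 454) (nat_lit 255)) (XT.lf (nat_lit 0) (nat_lit 12118973378) (nat_lit 380) (nat_lit 21263234552) (nat_lit 456) (nat_lit 3620545222) (nat_lit 231) (nat_lit 5) (nat_lit 236) (nat_lit 5) (nat_lit 237) (nat_lit 5) (nat_lit 492) (nat_lit 454) (nat_lit 254))) (XT.nd (nat_lit 78) (nat_lit 456) (nat_lit 0) (XT.lf (nat_lit 0) (nat_lit 2721395276) (nat_lit 456) (nat_lit 3410063257) (nat_lit 76) (nat_lit 31519465456) (nat_lit 230) (nat_lit 5) (nat_lit 236) (nat_lit 5) (nat_lit 231) (nat_lit 5) (nat_lit 493) (nat_lit 454) (nat_lit 253)) (XT.lf (nat_lit 0) (nat_lit 9454350284) (nat_lit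 532) (nat_lit 19364798875) (nat_lit 76) (nat_lit 9490109698) (nat_lit 224) (nat_lit 5) (nat_lit 231) (nat_lit 5) (nat_lit 225) (nat_lit 5) (nat_lit 494) (nat_lit 454) (nat_lit 252)))) (XT.nd (nat_lit 156) (nat_lit 380) (nat_lit 0) (XT.nd (nat_lit 78) (nat_lit 0) (nat_lit 0) (XT.lf (nat_lit 0) (nat_lit 3048339976) (nat_lit 380) (nat_lit 13463234101) (nat_lit 456) (nat_lit 22472101372) (nat_lit 219) (nat_lit 5) (nat_lit 224) (nat_lit 5) (nat_lit 225) (nat_lit 5) (nat_lit 495) (nat_lit 454) (nat_lit 251)) (XT.lf (nat_lit 0) (nat_lit 23998147051) (nat_lit 456) (nat_lit 13169524400) (nat_lit 76) (nat_lit 2504124193) (nat_lit 219) (nat_lit 5) (nat_lit 225) (nat_lit 5) (nat_lit 220) (nat_lit 5) (nat_lit 496) (nat_lit 454) (nat_lit 250))) (XT.nd (nat_lit 78) (nat_lit 0) (nat_lit 0) (XT.lf (nat_lit 0) (nat_lit 10344578324) (nat_lit 380) (nat_lit 21595076599) (nat_lit 456) (nat_lit 8433994469) (nat_lit 214) (nat_lit 5) (nat_lit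 219) (nat_lit 5) (nat_lit 220) (nat_lit 5) (nat_lit 497) (nat_lit 454) (nat_lit 249)) (XT.lf (nat_lit 0) (nat_lit 34830854950) (nat_lit 380) (nat_lit 5419178434) (nat_lit 456) (nat_lit 842606682) (nat_lit 214) (nat_lit 5) (nat_lit 219) (nat_lit 5) (nat_lit 220) (nat_lit 5) (nat_lit 498) (nat_lit 454) (nat_lit 248))))))) (XT.nd (nat_lit 1248) (nat_lit 2432) (nat_lit 0) (XT.nd (nat_lit 624) (nat_lit 1596) (nat_lit 0) (XT.nd (nat_lit 312) (nat_lit 684) (nat_lit 0) (XT.nd (nat_lit 156) (nat_lit 304) (nat_lit 0) (XT.nd (nat_lit 78) (nat_lit 380) (nat_lit 0) (XT.lf (nat_lit 0) (nat_lit 7126477470) (nat_lit 456) (nat_lit 23426923479) (nat_lit 76) (nat_lit 11269204950) (nat_lit 208) (nat_lit 5) (nat_lit 214) (nat_lit 5) (nat_lit 209) (nat_lit 5) (nat_lit 499) (nat_lit 454) (nat_lit 247)) (XT.lf (nat_lit 0) (nat_lit 1308374576) (nat_lit 380) (nat_lit 14137128017) (nat_lit 456) (nat_lit 27124883783) (nat_lit 203) (nat_lit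 5) (nat_lit 208) (nat_lit 5) (nat_lit 209) (nat_lit 5) (nat_lit 500) (nat_lit 454) (nat_lit 246))) (XT.nd (nat_lit 78) (nat_lit 304) (nat_lit 0) (XT.lf (nat_lit 0) (nat_lit 24277390817) (nat_lit 456) (nat_lit 16099748386) (nat_lit 76) (nat_lit 2955562361) (nat_lit 203) (nat_lit 5) (nat_lit 209) (nat_lit 5) (nat_lit 204) (nat_lit 5) (nat_lit 501) (nat_lit 454) (nat_lit 245)) (XT.lf (nat_lit 0) (nat_lit 9866821639) (nat_lit 304) (nat_lit 23740038805) (nat_lit 380) (nat_lit 10504047085) (nat_lit 199) (nat_lit 5) (nat_lit 203) (nat_lit 5) (nat_lit 204) (nat_lit 5) (nat_lit 502) (nat_lit 454) (nat_lit 244)))) (XT.nd (nat_lit 156) (nat_lit 304) (nat_lit 0) (XT.nd (nat_lit 78) (nat_lit 380) (nat_lit 0) (XT.lf (nat_lit 0) (nat_lit 36939321524) (nat_lit 304) (nat_lit 6437309895) (nat_lit 380) (nat_lit 1531015799) (nat_lit 199) (nat_lit 5) (nat_lit 203) (nat_lit 5) (nat_lit 204) (nat_lit 5) (nat_lit 503) (nat_lit 454) (nat_lit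 243)) (XT.lf (nat_lit 0) (nat_lit 7857078503) (nat_lit 380) (nat_lit 26435500769) (nat_lit 76) (nat_lit 11424595776) (nat_lit 194) (nat_lit 5) (nat_lit 199) (nat_lit 5) (nat_lit 195) (nat_lit 5) (nat_lit 504) (nat_lit 454) (nat_lit 242))) (XT.nd (nat_lit 78) (nat_lit 0) (nat_lit 0) (XT.lf (nat_lit 0) (nat_lit 898716537) (nat_lit 304) (nat_lit 16748870176) (nat_lit 380) (nat_lit 28898401011) (nat_lit 190) (nat_lit 5) (nat_lit 194) (nat_lit 5) (nat_lit 195) (nat_lit 5) (nat_lit 505) (nat_lit 454) (nat_lit 241)) (XT.lf (nat_lit 0) (nat_lit 28012029007) (nat_lit 380) (nat_lit 17815231261) (nat_lit 76) (nat_lit 1563998002) (nat_lit 190) (nat_lit 5) (nat_lit 195) (nat_lit 5) (nat_lit 191) (nat_lit 5) (nat_lit 506) (nat_lit 454) (nat_lit 240))))) (XT.nd (nat_lit 312) (nat_lit 608) (nat_lit 0) (XT.nd (nat_lit 156) (nat_lit 608) (nat_lit 0) (XT.nd (nat_lit 78) (nat_lit 76) (nat_lit 0) (XT.lf (nat_lit 0) (nat_lit 10895546596)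 (nat_lit 304) (nat_lit 28060412713) (nat_lit 380) (nat_lit 9297871036) (nat_lit 186) (nat_lit 5) (nat_lit 190) (nat_lit 5) (nat_lit 191) (nat_lit 5) (nat_lit 507) (nat_lit 454) (nat_lit 239)) (XT.lf (nat_lit 0) (nat_lit 1244417634) (nat_lit 380) (nat_lit 8319274461) (nat_lit 76) (nat_lit 39572883977) (nat_lit 185) (nat_lit 5) (nat_lit 190) (nat_lit 5) (nat_lit 186) (nat_lit 5) (nat_lit 508) (nat_lit 454) (nat_lit 238))) (XT.nd (nat_lit 78) (nat_lit 304) (nat_lit 0) (XT.lf (nat_lit 0) (nat_lit 12219091877) (nat_lit 380) (nat_lit 28207239656) (nat_lit 76) (nat_lit 9607621099) (nat_lit 181) (nat_lit 5) (nat_lit 186) (nat_lit 5) (nat_lit 182) (nat_lit 5) (nat_lit 509) (nat_lit 454) (nat_lit 237)) (XT.lf (nat_lit 0) (nat_lit 2033091828) (nat_lit 304) (nat_lit 21687065450) (nat_lit 380) (nat_lit 27232178730) (nat_lit 177) (nat_lit 5) (nat_lit 181) (nat_lit 5) (nat_lit 182) (nat_lit 5) (nat_lit 510) (nat_lit 454) (nat_lit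 236)))) (XT.nd (nat_lit 156) (nat_lit 380) (nat_lit 0) (XT.nd (nat_lit 78) (nat_lit 228) (nat_lit 0) (XT.lf (nat_lit 0) (nat_lit 33755936797) (nat_lit 304) (nat_lit 2093261072) (nat_lit 380) (nat_lit 16040584764) (nat_lit 177) (nat_lit 5) (nat_lit 181) (nat_lit 5) (nat_lit 182) (nat_lit 5) (nat_lit 511) (nat_lit 454) (nat_lit 235)) (XT.lf (nat_lit 0) (nat_lit 13665013803) (nat_lit 228) (nat_lit 34980479762) (nat_lit 304) (nat_lit 4200757624) (nat_lit 174) (nat_lit 5) (nat_lit 177) (nat_lit 5) (nat_lit 178) (nat_lit 5) (nat_lit 512) (nat_lit 454) (nat_lit 234))) (XT.nd (nat_lit 78) (nat_lit 304) (nat_lit 0) (XT.lf (nat_lit 0) (nat_lit 8042081541) (nat_lit 304) (nat_lit 7138625559) (nat_lit 76) (nat_lit 38642286946) (nat_lit 173) (nat_lit 5) (nat_lit 177) (nat_lit 5) (nat_lit 174) (nat_lit 5) (nat_lit 513) (nat_lit 454) (nat_lit 233)) (XT.lf (nat_lit 0) (nat_lit 20872153182) (nat_lit 380) (nat_lit 28538513666) (nat_lit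 76) (nat_lit 5407993284) (nat_lit 169) (nat_lit 5) (nat_lit 174) (nat_lit 5) (nat_lit 170) (nat_lit 5) (nat_lit 514) (nat_lit 454) (nat_lit 232)))))) (XT.nd (nat_lit 624) (nat_lit 1140) (nat_lit 0) (XT.nd (nat_lit 312) (nat_lit 760) (nat_lit 0) (XT.nd (nat_lit 156) (nat_lit 304) (nat_lit 0) (XT.nd (nat_lit 78) (nat_lit 0) (nat_lit 0) (XT.lf (nat_lit 0) (nat_lit 4948510371) (nat_lit 228) (nat_lit 29407517254) (nat_lit 304) (nat_lit 21480101594) (nat_lit 166) (nat_lit 5) (nat_lit 169) (nat_lit 5) (nat_lit 170) (nat_lit 5) (nat_lit 515) (nat_lit 454) (nat_lit 231)) (XT.lf (nat_lit 0) (nat_lit 40022366311) (nat_lit 228) (nat_lit 8508488460) (nat_lit 304) (nat_lit 8344674553) (nat_lit 166) (nat_lit 5) (nat_lit 169) (nat_lit 5) (nat_lit 170) (nat_lit 5) (nat_lit 516) (nat_lit 454) (nat_lit 230))) (XT.nd (nat_lit 78) (nat_lit 0) (nat_lit 0) (XT.lf (nat_lit 0) (nat_lit 5387244627) (nat_lit 304) (nat_lit 39555747953) (nat_lit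 76) (nat_lit 12992515589) (nat_lit 162) (nat_lit 5) (nat_lit 166) (nat_lit 5) (nat_lit 163) (nat_lit 5) (nat_lit 517) (nat_lit 454) (nat_lit 229)) (XT.lf (nat_lit 0) (nat_lit 19617814412) (nat_lit 304) (nat_lit 4178341530) (nat_lit 76) (nat_lit 35221019475) (nat_lit 162) (nat_lit 5) (nat_lit 166) (nat_lit 5) (nat_lit 163) (nat_lit 5) (nat_lit 518) (nat_lit 454) (nat_lit 228)))) (XT.nd (nat_lit 156) (nat_lit 304) (nat_lit 0) (XT.nd (nat_lit 78) (nat_lit 228) (nat_lit 0) (XT.lf (nat_lit 0) (nat_lit 32899701931) (nat_lit 228) (nat_lit 1690202269) (nat_lit 304) (nat_lit 25531950431) (nat_lit 159) (nat_lit 5) (nat_lit 162) (nat_lit 5) (nat_lit 163) (nat_lit 5) (nat_lit 519) (nat_lit 454) (nat_lit 227)) (XT.lf (nat_lit 0) (nat_lit 9904879134) (nat_lit 228) (nat_lit 40445087244) (nat_lit 304) (nat_lit 10899543584) (nat_lit 156) (nat_lit 5) (nat_lit 159) (nat_lit 5) (nat_lit 160) (nat_lit 5) (nat_lit 520) (nat_lit 454)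 (nat_lit 226))) (XT.nd (nat_lit 78) (nat_lit 228) (nat_lit 0) (XT.lf (nat_lit 0) (nat_lit 4383144265) (nat_lit 304) (nat_lit 13761253169) (nat_lit 76) (nat_lit 44256612996) (nat_lit 155) (nat_lit 5) (nat_lit 159) (nat_lit 5) (nat_lit 156) (nat_lit 5) (nat_lit 521) (nat_lit 454) (nat_lit 225)) (XT.lf (nat_lit 0) (nat_lit 20197033815) (nat_lit 304) (nat_lit 38292974806) (nat_lit 76) (nat_lit 5085056099) (nat_lit 152) (nat_lit 5) (nat_lit 156) (nat_lit 5) (nat_lit 153) (nat_lit 5) (nat_lit 522) (nat_lit 454) (nat_lit 224))))) (XT.nd (nat_lit 312) (nat_lit 684) (nat_lit 0) (XT.nd (nat_lit 156) (nat_lit 228) (nat_lit 0) (XT.nd (nat_lit 78) (nat_lit 0) (nat_lit 0) (XT.lf (nat_lit 0) (nat_lit 831221974) (nat_lit 228) (nat_lit 35980521710) (nat_lit 304) (nat_lit 27962804877) (nat_lit 149) (nat_lit 5) (nat_lit 152) (nat_lit 5) (nat_lit 153) (nat_lit 5) (nat_lit 523) (nat_lit 454) (nat_lit 223)) (XT.lf (nat_lit 0) (nat_lit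 41911510367) (nat_lit 228) (nat_lit 12398517587) (nat_lit 304) (nat_lit 11688434999) (nat_lit 149) (nat_lit 5) (nat_lit 152) (nat_lit 5) (nat_lit 153) (nat_lit 5) (nat_lit 524) (nat_lit 454) (nat_lit 222))) (XT.nd (nat_lit 78) (nat_lit 0) (nat_lit 0) (XT.lf (nat_lit 0) (nat_lit 5255869281) (nat_lit 228) (nat_lit 50118723512) (nat_lit 76) (nat_lit 11874617175) (nat_lit 146) (nat_lit 5) (nat_lit 149) (nat_lit 5) (nat_lit 147) (nat_lit 5) (nat_lit 525) (nat_lit 454) (nat_lit 221)) (XT.lf (nat_lit 0) (nat_lit 22840462952) (nat_lit 228) (nat_lit 8695435062) (nat_lit 76) (nat_lit 36987103006) (nat_lit 146) (nat_lit 5) (nat_lit 149) (nat_lit 5) (nat_lit 147) (nat_lit 5) (nat_lit 526) (nat_lit 454) (nat_lit 220)))) (XT.nd (nat_lit 156) (nat_lit 304) (nat_lit 0) (XT.nd (nat_lit 78) (nat_lit 152) (nat_lit 0) (XT.lf (nat_lit 0) (nat_lit 34644090527) (nat_lit 228) (nat_lit 6640057507) (nat_lit 304) (nat_lit 28540911188) (nat_lit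 143) (nat_lit 5) (nat_lit 146) (nat_lit 5) (nat_lit 147) (nat_lit 5) (nat_lit 527) (nat_lit 454) (nat_lit 219)) (XT.lf (nat_lit 0) (nat_lit 8273922585) (nat_lit 152) (nat_lit 52356639077) (nat_lit 228) (nat_lit 10525134993) (nat_lit 141) (nat_lit 5) (nat_lit 143) (nat_lit 5) (nat_lit 144) (nat_lit 5) (nat_lit 528) (nat_lit 454) (nat_lit 218))) (XT.nd (nat_lit 78) (nat_lit 228) (nat_lit 0) (XT.lf (nat_lit 0) (nat_lit 8297464835) (nat_lit 228) (nat_lit 18910926144) (nat_lit 76) (nat_lit 45302854267) (nat_lit 140) (nat_lit 5) (nat_lit 143) (nat_lit 5) (nat_lit 141) (nat_lit 5) (nat_lit 529) (nat_lit 454) (nat_lit 217)) (XT.lf (nat_lit 0) (nat_lit 26795277202) (nat_lit 228) (nat_lit 934082542) (nat_lit 304) (nat_lit 46167289440) (nat_lit 137) (nat_lit 5) (nat_lit 140) (nat_lit 5) (nat_lit 141) (nat_lit 5) (nat_lit 530) (nat_lit 454) (nat_lit 216))))))))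
noncomputable def xc203 : XT := (XT.nd (nat_lit 57642) (nat_lit 0) (nat_lit 7372) (XT.nd (nat_lit 1170) (nat_lit 228) (nat_lit 0) (XT.nd (nat_lit 546) (nat_lit 912) (nat_lit 0) (XT.nd (nat_lit 234) (nat_lit 380) (nat_lit 0) (XT.nd (nat_lit 78) (nat_lit 456) (nat_lit 0) (XT.lf (nat_lit 0) (nat_lit 48186825635) (nat_lit 304) (nat_lit 1313058978) (nat_lit 76) (nat_lit 25810452224) (nat_lit 137) (nat_lit 5) (nat_lit 141) (nat_lit 5) (nat_lit 138) (nat_lit 5) (nat_lit 531) (nat_lit 454) (nat_lit 215)) (XT.nd (nat_lit 78) (nat_lit 304) (nat_lit 0) (XT.lf (nat_lit 0) (nat_lit 46749536714) (nat_lit 152) (nat_lit 22965750567) (nat_lit 228) (nat_lit 7037429708) (nat_lit 135) (nat_lit 5) (nat_lit 137) (nat_lit 5) (nat_lit 138) (nat_lit 5) (nat_lit 532) (nat_lit 454) (nat_lit 214)) (XT.lf (nat_lit 0) (nat_lit 13617576632) (nat_lit 304) (nat_lit 60008261936) (nat_lit 76) (nat_lit 4601611464) (nat_lit 131) (nat_lit 5) (nat_lit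 135) (nat_lit 5) (nat_lit 132) (nat_lit 5) (nat_lit 533) (nat_lit 454) (nat_lit 213)))) (XT.nd (nat_lit 156) (nat_lit 228) (nat_lit 0) (XT.nd (nat_lit 78) (nat_lit 152) (nat_lit 0) (XT.lf (nat_lit 0) (nat_lit 35282793797) (nat_lit 304) (nat_lit 11536514774) (nat_lit 76) (nat_lit 32909066008) (nat_lit 131) (nat_lit 5) (nat_lit 135) (nat_lit 5) (nat_lit 132) (nat_lit 5) (nat_lit 534) (nat_lit 454) (nat_lit 212)) (XT.lf (nat_lit 0) (nat_lit 39151050895) (nat_lit 152) (nat_lit 18821949080) (nat_lit 228) (nat_lit 23290075932) (nat_lit 129) (nat_lit 5) (nat_lit 131) (nat_lit 5) (nat_lit 132) (nat_lit 5) (nat_lit 535) (nat_lit 454) (nat_lit 211))) (XT.nd (nat_lit 78) (nat_lit 76) (nat_lit 0) (XT.lf (nat_lit 0) (nat_lit 8827926536) (nat_lit 152) (nat_lit 72813463610) (nat_lit 228) (nat_lit 1193503813) (nat_lit 127) (nat_lit 5) (nat_lit 129) (nat_lit 5) (nat_lit 130) (nat_lit 5) (nat_lit 536) (nat_lit 454) (nat_lit 210))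 (XT.lf (nat_lit 0) (nat_lit 21759649437) (nat_lit 228) (nat_lit 22681970564) (nat_lit 76) (nat_lit 39987592003) (nat_lit 126) (nat_lit 5) (nat_lit 129) (nat_lit 5) (nat_lit 127) (nat_lit 5) (nat_lit 537) (nat_lit 454) (nat_lit 209))))) (XT.nd (nat_lit 312) (nat_lit 380) (nat_lit 0) (XT.nd (nat_lit 156) (nat_lit 380) (nat_lit 0) (XT.nd (nat_lit 78) (nat_lit 0) (nat_lit 0) (XT.lf (nat_lit 0) (nat_lit 30769121575) (nat_lit 152) (nat_lit 14902795430) (nat_lit 228) (nat_lit 40390252858) (nat_lit 124) (nat_lit 5) (nat_lit 126) (nat_lit 5) (nat_lit 127) (nat_lit 5) (nat_lit 538) (nat_lit 454) (nat_lit 208)) (XT.lf (nat_lit 0) (nat_lit 70680814847) (nat_lit 228) (nat_lit 1602277149) (nat_lit 76) (nat_lit 15449646611) (nat_lit 124) (nat_lit 5) (nat_lit 127) (nat_lit 5) (nat_lit 125) (nat_lit 5) (nat_lit 539) (nat_lit 454) (nat_lit 207))) (XT.nd (nat_lit 78) (nat_lit 152) (nat_lit 0) (XT.lf (nat_lit 0) (nat_lit 7528195241)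 (nat_lit 228) (nat_lit 34891880552) (nat_lit 76) (nat_lit 47010994678) (nat_lit 121) (nat_lit 5) (nat_lit 124) (nat_lit 5) (nat_lit 122) (nat_lit 5) (nat_lit 540) (nat_lit 454) (nat_lit 206)) (XT.lf (nat_lit 0) (nat_lit 21465561534) (nat_lit 152) (nat_lit 11258891250) (nat_lit 228) (nat_lit 58444190740) (nat_lit 119) (nat_lit 5) (nat_lit 121) (nat_lit 5) (nat_lit 122) (nat_lit 5) (nat_lit 541) (nat_lit 454) (nat_lit 205)))) (XT.nd (nat_lit 156) (nat_lit 228) (nat_lit 0) (XT.nd (nat_lit 78) (nat_lit 152) (nat_lit 0) (XT.lf (nat_lit 0) (nat_lit 59231512202) (nat_lit 228) (nat_lit 12924787326) (nat_lit 76) (nat_lit 20785396833) (nat_lit 119) (nat_lit 5) (nat_lit 122) (nat_lit 5) (nat_lit 120) (nat_lit 5) (nat_lit 542) (nat_lit 454) (nat_lit 204)) (XT.lf (nat_lit 0) (nat_lit 46347653580) (nat_lit 152) (nat_lit 40741948156) (nat_lit 228) (nat_lit 7661664510) (nat_lit 117) (nat_lit 5) (nat_lit 119) (nat_lit 5) (nat_lit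 120) (nat_lit 5) (nat_lit 543) (nat_lit 454) (nat_lit 203))) (XT.nd (nat_lit 78) (nat_lit 0) (nat_lit 0) (XT.lf (nat_lit 0) (nat_lit 11080536289) (nat_lit 152) (nat_lit 7950876367) (nat_lit 228) (nat_lit 77571068519) (nat_lit 114) (nat_lit 5) (nat_lit 116) (nat_lit 5) (nat_lit 117) (nat_lit 5) (nat_lit 544) (nat_lit 454) (nat_lit 202)) (XT.lf (nat_lit 0) (nat_lit 47111975892) (nat_lit 228) (nat_lit 25484210857) (nat_lit 76) (nat_lit 25888549504) (nat_lit 114) (nat_lit 5) (nat_lit 117) (nat_lit 5) (nat_lit 115) (nat_lit 5) (nat_lit 545) (nat_lit 454) (nat_lit 201)))))) (XT.nd (nat_lit 55848) (nat_lit 0) (nat_lit 16644) (XT.nd (nat_lit 55536) (nat_lit 0) (nat_lit 16492) (XT.nd (nat_lit 55380) (nat_lit 0) (nat_lit 16416) (XT.nd (nat_lit 78) (nat_lit 76) (nat_lit 0) (XT.lf (nat_lit 0) (nat_lit 36995771688) (nat_lit 152) (nat_lit 39472395209) (nat_lit 228) (nat_lit 23942295775) (nat_lit 112) (nat_lit 5) (nat_lit 114)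 (nat_lit 5) (nat_lit 115) (nat_lit 5) (nat_lit 546) (nat_lit 454) (nat_lit 200)) (XT.lf (nat_lit 0) (nat_lit 4485711966) (nat_lit 228) (nat_lit 559759196) (nat_lit 76) (nat_lit 97339483889) (nat_lit 111) (nat_lit 5) (nat_lit 114) (nat_lit 5) (nat_lit 112) (nat_lit 5) (nat_lit 547) (nat_lit 454) (nat_lit 199))) (XT.nd (nat_lit 78) (nat_lit 0) (nat_lit 0) (XT.lf (nat_lit 0) (nat_lit 4323906375) (nat_lit 1292) (nat_lit 3021853975) (nat_lit 1292) (nat_lit 3021853975) (nat_lit 327) (nat_lit 3) (nat_lit 344) (nat_lit 3) (nat_lit 344) (nat_lit 5) (nat_lit 455) (nat_lit 455) (nat_lit 290)) (XT.lf (nat_lit 76) (nat_lit 4367579927) (nat_lit 0) (nat_lit 4605009151) (nat_lit 1292) (nat_lit 12067809165) (nat_lit 328) (nat_lit 5) (nat_lit 327) (nat_lit 3) (nat_lit 344) (nat_lit 5) (nat_lit 456) (nat_lit 455) (nat_lit 289)))) (XT.nd (nat_lit 156) (nat_lit 0) (nat_lit 76) (XT.nd (nat_lit 78) (nat_lit 0) (nat_lit 0) (XT.lf (nat_lit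 0) (nat_lit 9418366123) (nat_lit 1216) (nat_lit 6197346033) (nat_lit 1292) (nat_lit 5735673319) (nat_lit 328) (nat_lit 5) (nat_lit 344) (nat_lit 5) (nat_lit 345) (nat_lit 5) (nat_lit 457) (nat_lit 455) (nat_lit 288)) (XT.lf (nat_lit 76) (nat_lit 4633973244) (nat_lit 0) (nat_lit 5327879336) (nat_lit 1292) (nat_lit 11707319928) (nat_lit 329) (nat_lit 5) (nat_lit 328) (nat_lit 5) (nat_lit 345) (nat_lit 5) (nat_lit 458) (nat_lit 455) (nat_lit 287))) (XT.nd (nat_lit 78) (nat_lit 0) (nat_lit 0) (XT.lf (nat_lit 0) (nat_lit 10629848168) (nat_lit 1216) (nat_lit 6132019025) (nat_lit 1292) (nat_lit 5231380082) (nat_lit 329) (nat_lit 5) (nat_lit 345) (nat_lit 5) (nat_lit 346) (nat_lit 5) (nat_lit 459) (nat_lit 455) (nat_lit 286)) (XT.lf (nat_lit 76) (nat_lit 5142543812) (nat_lit 0) (nat_lit 6272047654) (nat_lit 1292) (nat_lit 10909551837) (nat_lit 330) (nat_lit 5) (nat_lit 329) (nat_lit 5) (nat_lit 346) (nat_lit 5) (nat_lit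 460) (nat_lit 455) (nat_lit 285))))) (XT.nd (nat_lit 312) (nat_lit 0) (nat_lit 152) (XT.nd (nat_lit 156) (nat_lit 0) (nat_lit 76) (XT.nd (nat_lit 78) (nat_lit 0) (nat_lit 0) (XT.lf (nat_lit 0) (nat_lit 12323651542) (nat_lit 1216) (nat_lit 5829705804) (nat_lit 1292) (nat_lit 4508585878) (nat_lit 330) (nat_lit 5) (nat_lit 346) (nat_lit 5) (nat_lit 347) (nat_lit 5) (nat_lit 461) (nat_lit 455) (nat_lit 284)) (XT.lf (nat_lit 76) (nat_lit 5912664116) (nat_lit 0) (nat_lit 7461081321) (nat_lit 1292) (nat_lit 9632719081) (nat_lit 331) (nat_lit 5) (nat_lit 330) (nat_lit 5) (nat_lit 347) (nat_lit 5) (nat_lit 462) (nat_lit 455) (nat_lit 283))) (XT.nd (nat_lit 78) (nat_lit 0) (nat_lit 0) (XT.lf (nat_lit 0) (nat_lit 14543898983) (nat_lit 1216) (nat_lit 5270967548) (nat_lit 1292) (nat_lit 3543798446) (nat_lit 331) (nat_lit 5) (nat_lit 347) (nat_lit 5) (nat_lit 348) (nat_lit 5) (nat_lit 463) (nat_lit 455) (nat_lit 282)) (XT.lf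 (nat_lit 76) (nat_lit 6965202103) (nat_lit 0) (nat_lit 8919889390) (nat_lit 1292) (nat_lit 7832262151) (nat_lit 332) (nat_lit 5) (nat_lit 331) (nat_lit 5) (nat_lit 348) (nat_lit 5) (nat_lit 464) (nat_lit 455) (nat_lit 281)))) (XT.nd (nat_lit 156) (nat_lit 0) (nat_lit 76) (XT.nd (nat_lit 78) (nat_lit 0) (nat_lit 0) (XT.lf (nat_lit 0) (nat_lit 17337633175) (nat_lit 1216) (nat_lit 4434870634) (nat_lit 1292) (nat_lit 2312165977) (nat_lit 332) (nat_lit 5) (nat_lit 348) (nat_lit 5) (nat_lit 349) (nat_lit 5) (nat_lit 465) (nat_lit 455) (nat_lit 280)) (XT.lf (nat_lit 76) (nat_lit 8322602993) (nat_lit 0) (nat_lit 10674837002) (nat_lit 1292) (nat_lit 5460654962) (nat_lit 333) (nat_lit 5) (nat_lit 332) (nat_lit 5) (nat_lit 349) (nat_lit 5) (nat_lit 466) (nat_lit 455) (nat_lit 279))) (XT.nd (nat_lit 78) (nat_lit 0) (nat_lit 0) (XT.lf (nat_lit 0) (nat_lit 20755017286) (nat_lit 1216) (nat_lit 3298903752) (nat_lit 1292) (nat_lit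 787362763) (nat_lit 333) (nat_lit 5) (nat_lit 349) (nat_lit 5) (nat_lit 350) (nat_lit 5) (nat_lit 467) (nat_lit 455) (nat_lit 278)) (XT.lf (nat_lit 76) (nat_lit 10008977112) (nat_lit 0) (nat_lit 12753864709) (nat_lit 1292) (nat_lit 2467201090) (nat_lit 334) (nat_lit 5) (nat_lit 333) (nat_lit 5) (nat_lit 350) (nat_lit 5) (nat_lit 468) (nat_lit 455) (nat_lit 277))))))) (XT.nd (nat_lit 1248) (nat_lit 4028) (nat_lit 0) (XT.nd (nat_lit 624) (nat_lit 2888) (nat_lit 0) (XT.nd (nat_lit 312) (nat_lit 1368) (nat_lit 0) (XT.nd (nat_lit 156) (nat_lit 0) (nat_lit 0) (XT.nd (nat_lit 78) (nat_lit 1216) (nat_lit 0) (XT.lf (nat_lit 76) (nat_lit 23780327537) (nat_lit 0) (nat_lit 1079597164) (nat_lit 1292) (nat_lit 769669578) (nat_lit 334) (nat_lit 5) (nat_lit 333) (nat_lit 5) (nat_lit 350) (nat_lit 5) (nat_lit 469) (nat_lit 455) (nat_lit 276)) (XT.lf (nat_lit 0) (nat_lit 1178722757) (nat_lit 1292) (nat_lit 13995987818) (nat_lit 1368)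 (nat_lit 10859568498) (nat_lit 317) (nat_lit 5) (nat_lit 334) (nat_lit 5) (nat_lit 335) (nat_lit 5) (nat_lit 470) (nat_lit 455) (nat_lit 275))) (XT.nd (nat_lit 78) (nat_lit 0) (nat_lit 76) (XT.lf (nat_lit 0) (nat_lit 3195537631) (nat_lit 1292) (nat_lit 92128713) (nat_lit 1368) (nat_lit 23162446418) (nat_lit 317) (nat_lit 5) (nat_lit 334) (nat_lit 5) (nat_lit 335) (nat_lit 5) (nat_lit 471) (nat_lit 455) (nat_lit 274)) (XT.lf (nat_lit 0) (nat_lit 5495811641) (nat_lit 1292) (nat_lit 12453246559) (nat_lit 76) (nat_lit 8922674792) (nat_lit 318) (nat_lit 5) (nat_lit 335) (nat_lit 5) (nat_lit 319) (nat_lit 5) (nat_lit 472) (nat_lit 455) (nat_lit 273)))) (XT.nd (nat_lit 156) (nat_lit 608) (nat_lit 0) (XT.nd (nat_lit 78) (nat_lit 0) (nat_lit 0) (XT.lf (nat_lit 0) (nat_lit 2064599417) (nat_lit 836) (nat_lit 5849932861) (nat_lit 912) (nat_lit 19389986567) (nat_lit 307) (nat_lit 5) (nat_lit 318) (nat_lit 5) (nat_lit 319) (nat_lit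 5) (nat_lit 473) (nat_lit 455) (nat_lit 272)) (XT.lf (nat_lit 0) (nat_lit 10592559038) (nat_lit 912) (nat_lit 10541607970) (nat_lit 76) (nat_lit 6610519092) (nat_lit 307) (nat_lit 5) (nat_lit 319) (nat_lit 5) (nat_lit 308) (nat_lit 5) (nat_lit 474) (nat_lit 455) (nat_lit 271))) (XT.nd (nat_lit 78) (nat_lit 0) (nat_lit 0) (XT.lf (nat_lit 0) (nat_lit 4626569918) (nat_lit 608) (nat_lit 8823047182) (nat_lit 684) (nat_lit 14745480715) (nat_lit 299) (nat_lit 5) (nat_lit 307) (nat_lit 5) (nat_lit 308) (nat_lit 5) (nat_lit 475) (nat_lit 455) (nat_lit 270)) (XT.lf (nat_lit 0) (nat_lit 16533344304) (nat_lit 684) (nat_lit 8231597482) (nat_lit 76) (nat_lit 3889851526) (nat_lit 299) (nat_lit 5) (nat_lit 308) (nat_lit 5) (nat_lit 300) (nat_lit 5) (nat_lit 476) (nat_lit 455) (nat_lit 269))))) (XT.nd (nat_lit 312) (nat_lit 1672) (nat_lit 0) (XT.nd (nat_lit 156) (nat_lit 608) (nat_lit 0) (XT.nd (nat_lit 78) (nat_lit 0) (nat_lit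 0) (XT.lf (nat_lit 0) (nat_lit 7623425843) (nat_lit 608) (nat_lit 12243275147) (nat_lit 684) (nat_lit 9256865301) (nat_lit 291) (nat_lit 5) (nat_lit 299) (nat_lit 5) (nat_lit 300) (nat_lit 5) (nat_lit 477) (nat_lit 455) (nat_lit 268)) (XT.lf (nat_lit 0) (nat_lit 23386841770) (nat_lit 684) (nat_lit 5491668631) (nat_lit 76) (nat_lit 725288702) (nat_lit 291) (nat_lit 5) (nat_lit 300) (nat_lit 5) (nat_lit 292) (nat_lit 5) (nat_lit 478) (nat_lit 455) (nat_lit 267))) (XT.nd (nat_lit 78) (nat_lit 76) (nat_lit 0) (XT.lf (nat_lit 0) (nat_lit 11088832122) (nat_lit 532) (nat_lit 16148218660) (nat_lit 608) (nat_lit 2854654336) (nat_lit 284) (nat_lit 5) (nat_lit 291) (nat_lit 5) (nat_lit 292) (nat_lit 5) (nat_lit 479) (nat_lit 455) (nat_lit 266)) (XT.lf (nat_lit 0) (nat_lit 649331005) (nat_lit 608) (nat_lit 2323082096) (nat_lit 76) (nat_lit 27620079232) (nat_lit 283) (nat_lit 5) (nat_lit 291) (nat_lit 5) (nat_lit 284) (nat_lit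 5) (nat_lit 480) (nat_lit 455) (nat_lit 265)))) (XT.nd (nat_lit 156) (nat_lit 532) (nat_lit 0) (XT.nd (nat_lit 78) (nat_lit 532) (nat_lit 0) (XT.lf (nat_lit 0) (nat_lit 4446787302) (nat_lit 684) (nat_lit 16086215880) (nat_lit 76) (nat_lit 10567080380) (nat_lit 275) (nat_lit 5) (nat_lit 284) (nat_lit 5) (nat_lit 276) (nat_lit 5) (nat_lit 481) (nat_lit 455) (nat_lit 264)) (XT.lf (nat_lit 0) (nat_lit 1288446157) (nat_lit 532) (nat_lit 7132068129) (nat_lit 608) (nat_lit 23200517956) (nat_lit 268) (nat_lit 5) (nat_lit 275) (nat_lit 5) (nat_lit 276) (nat_lit 5) (nat_lit 482) (nat_lit 455) (nat_lit 263))) (XT.nd (nat_lit 78) (nat_lit 532) (nat_lit 0) (XT.lf (nat_lit 0) (nat_lit 12738523767) (nat_lit 608) (nat_lit 12707809128) (nat_lit 76) (nat_lit 6704524487) (nat_lit 268) (nat_lit 5) (nat_lit 276) (nat_lit 5) (nat_lit 269) (nat_lit 5) (nat_lit 483) (nat_lit 455) (nat_lit 262)) (XT.lf (nat_lit 0) (nat_lit 5478665686) (nat_lit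 532) (nat_lit 11827675420) (nat_lit 608) (nat_lit 15386628260) (nat_lit 261) (nat_lit 5) (nat_lit 268) (nat_lit 5) (nat_lit 269) (nat_lit 5) (nat_lit 484) (nat_lit 455) (nat_lit 261)))))) (XT.nd (nat_lit 624) (nat_lit 2128) (nat_lit 0) (XT.nd (nat_lit 312) (nat_lit 912) (nat_lit 0) (XT.nd (nat_lit 156) (nat_lit 532) (nat_lit 0) (XT.nd (nat_lit 78) (nat_lit 456) (nat_lit 0) (XT.lf (nat_lit 0) (nat_lit 22158972091) (nat_lit 608) (nat_lit 8802068567) (nat_lit 76) (nat_lit 2285870791) (nat_lit 261) (nat_lit 5) (nat_lit 269) (nat_lit 5) (nat_lit 262) (nat_lit 5) (nat_lit 485) (nat_lit 455) (nat_lit 260)) (XT.lf (nat_lit 0) (nat_lit 10241992795) (nat_lit 456) (nat_lit 17127874679) (nat_lit 532) (nat_lit 6441223868) (nat_lit 255) (nat_lit 5) (nat_lit 261) (nat_lit 5) (nat_lit 262) (nat_lit 5) (nat_lit 486) (nat_lit 455) (nat_lit 259))) (XT.nd (nat_lit 78) (nat_lit 532) (nat_lit 0) (XT.lf (nat_lit 0) (nat_lit 30034548786)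 (nat_lit 456) (nat_lit 2788604356) (nat_lit 532) (nat_lit 1566461693) (nat_lit 255) (nat_lit 5) (nat_lit 261) (nat_lit 5) (nat_lit 262) (nat_lit 5) (nat_lit 487) (nat_lit 455) (nat_lit 258)) (XT.lf (nat_lit 0) (nat_lit 3652324030) (nat_lit 532) (nat_lit 19391609555) (nat_lit 76) (nat_lit 11932608596) (nat_lit 248) (nat_lit 5) (nat_lit 255) (nat_lit 5) (nat_lit 249) (nat_lit 5) (nat_lit 488) (nat_lit 455) (nat_lit 257)))) (XT.nd (nat_lit 156) (nat_lit 456) (nat_lit 0) (XT.nd (nat_lit 78) (nat_lit 0) (nat_lit 0) (XT.lf (nat_lit 0) (nat_lit 597485467) (nat_lit 456) (nat_lit 8473749963) (nat_lit 532) (nat_lit 26507125335) (nat_lit 242) (nat_lit 5) (nat_lit 248) (nat_lit 5) (nat_lit 249) (nat_lit 5) (nat_lit 489) (nat_lit 455) (nat_lit 256)) (XT.lf (nat_lit 0) (nat_lit 14910597333) (nat_lit 532) (nat_lit 14676649608) (nat_lit 76) (nat_lit 6603250568) (nat_lit 242) (nat_lit 5) (nat_lit 249) (nat_lit 5) (nat_lit 243) (nat_lit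 5) (nat_lit 490) (nat_lit 455) (nat_lit 255))) (XT.nd (nat_lit 78) (nat_lit 0) (nat_lit 0) (XT.lf (nat_lit 0) (nat_lit 6271980273) (nat_lit 456) (nat_lit 14794749187) (nat_lit 532) (nat_lit 15750021305) (nat_lit 236) (nat_lit 5) (nat_lit 242) (nat_lit 5) (nat_lit 243) (nat_lit 5) (nat_lit 491) (nat_lit 455) (nat_lit 254)) (XT.lf (nat_lit 0) (nat_lit 27558902347) (nat_lit 532) (nat_lit 9316383228) (nat_lit 76) (nat_lit 581965431) (nat_lit 236) (nat_lit 5) (nat_lit 243) (nat_lit 5) (nat_lit 237) (nat_lit 5) (nat_lit 492) (nat_lit 455) (nat_lit 253))))) (XT.nd (nat_lit 312) (nat_lit 836) (nat_lit 0) (XT.nd (nat_lit 156) (nat_lit 836) (nat_lit 0) (XT.nd (nat_lit 78) (nat_lit 76) (nat_lit 0) (XT.lf (nat_lit 0) (nat_lit 12645984238) (nat_lit 380) (nat_lit 21865414186) (nat_lit 456) (nat_lit 3597601175) (nat_lit 231) (nat_lit 5) (nat_lit 236) (nat_lit 5) (nat_lit 237) (nat_lit 5) (nat_lit 493) (nat_lit 455) (nat_lit 252))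 (XT.lf (nat_lit 0) (nat_lit 2928273238) (nat_lit 456) (nat_lit 3351187323) (nat_lit 76) (nat_lit 32497229900) (nat_lit 230) (nat_lit 5) (nat_lit 236) (nat_lit 5) (nat_lit 231) (nat_lit 5) (nat_lit 494) (nat_lit 455) (nat_lit 251))) (XT.nd (nat_lit 78) (nat_lit 380) (nat_lit 0) (XT.lf (nat_lit 0) (nat_lit 9861454013) (nat_lit 532) (nat_lit 19782798084) (nat_lit 76) (nat_lit 9810576285) (nat_lit 224) (nat_lit 5) (nat_lit 231) (nat_lit 5) (nat_lit 225) (nat_lit 5) (nat_lit 495) (nat_lit 455) (nat_lit 250)) (XT.lf (nat_lit 0) (nat_lit 3301137435) (nat_lit 380) (nat_lit 13827211746) (nat_lit 456) (nat_lit 23021189769) (nat_lit 219) (nat_lit 5) (nat_lit 224) (nat_lit 5) (nat_lit 225) (nat_lit 5) (nat_lit 496) (nat_lit 455) (nat_lit 249)))) (XT.nd (nat_lit 156) (nat_lit 456) (nat_lit 0) (XT.nd (nat_lit 78) (nat_lit 380) (nat_lit 0) (XT.lf (nat_lit 0) (nat_lit 24836355163) (nat_lit 456) (nat_lit 13404794314) (nat_lit 76)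 (nat_lit 2617248314) (nat_lit 219) (nat_lit 5) (nat_lit 225) (nat_lit 5) (nat_lit 220) (nat_lit 5) (nat_lit 497) (nat_lit 455) (nat_lit 248)) (XT.lf (nat_lit 0) (nat_lit 10813164670) (nat_lit 380) (nat_lit 22201020213) (nat_lit 456) (nat_lit 8567180080) (nat_lit 214) (nat_lit 5) (nat_lit 219) (nat_lit 5) (nat_lit 220) (nat_lit 5) (nat_lit 498) (nat_lit 455) (nat_lit 247))) (XT.nd (nat_lit 78) (nat_lit 456) (nat_lit 0) (XT.lf (nat_lit 0) (nat_lit 36029420401) (nat_lit 380) (nat_lit 5541065744) (nat_lit 456) (nat_lit 751540977) (nat_lit 214) (nat_lit 5) (nat_lit 219) (nat_lit 5) (nat_lit 220) (nat_lit 5) (nat_lit 499) (nat_lit 455) (nat_lit 246)) (XT.lf (nat_lit 0) (nat_lit 7452912092) (nat_lit 456) (nat_lit 23972380899) (nat_lit 76) (nat_lit 11648608489) (nat_lit 208) (nat_lit 5) (nat_lit 214) (nat_lit 5) (nat_lit 209) (nat_lit 5) (nat_lit 500) (nat_lit 455) (nat_lit 245))))))))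
noncomputable def xc204 : XT := (XT.nd (nat_lit 2418) (nat_lit 1900) (nat_lit 0) (XT.nd (nat_lit 1170) (nat_lit 2432) (nat_lit 0) (XT.nd (nat_lit 546) (nat_lit 1596) (nat_lit 0) (XT.nd (nat_lit 234) (nat_lit 684) (nat_lit 0) (XT.nd (nat_lit 78) (nat_lit 304) (nat_lit 0) (XT.lf (nat_lit 0) (nat_lit 1503433448) (nat_lit 380) (nat_lit 14516291454) (nat_lit 456) (nat_lit 27824444061) (nat_lit 203) (nat_lit 5) (nat_lit 208) (nat_lit 5) (nat_lit 209) (nat_lit 5) (nat_lit 501) (nat_lit 455) (nat_lit 244)) (XT.nd (nat_lit 78) (nat_lit 304) (nat_lit 0) (XT.lf (nat_lit 0) (nat_lit 25113760426) (nat_lit 456) (nat_lit 16428658752) (nat_lit 76) (nat_lit 3087018804) (nat_lit 203) (nat_lit 5) (nat_lit 209) (nat_lit 5) (nat_lit 204) (nat_lit 5) (nat_lit 502) (nat_lit 455) (nat_lit 243)) (XT.lf (nat_lit 0) (nat_lit 10315397765) (nat_lit 304) (nat_lit 24406035961) (nat_lit 380) (nat_lit 10709606905) (nat_lit 199) (nat_lit 5) (nat_lit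 203) (nat_lit 5) (nat_lit 204) (nat_lit 5) (nat_lit 503) (nat_lit 455) (nat_lit 242)))) (XT.nd (nat_lit 156) (nat_lit 304) (nat_lit 0) (XT.nd (nat_lit 78) (nat_lit 380) (nat_lit 0) (XT.lf (nat_lit 0) (nat_lit 38195628818) (nat_lit 304) (nat_lit 6585570932) (nat_lit 380) (nat_lit 1470575795) (nat_lit 199) (nat_lit 5) (nat_lit 203) (nat_lit 5) (nat_lit 204) (nat_lit 5) (nat_lit 504) (nat_lit 455) (nat_lit 241)) (XT.lf (nat_lit 0) (nat_lit 8195920301) (nat_lit 380) (nat_lit 27077191352) (nat_lit 76) (nat_lit 11812481927) (nat_lit 194) (nat_lit 5) (nat_lit 199) (nat_lit 5) (nat_lit 195) (nat_lit 5) (nat_lit 505) (nat_lit 455) (nat_lit 240))) (XT.nd (nat_lit 78) (nat_lit 0) (nat_lit 0) (XT.lf (nat_lit 0) (nat_lit 1075568410) (nat_lit 304) (nat_lit 17203012415) (nat_lit 380) (nat_lit 29660736781) (nat_lit 190) (nat_lit 5) (nat_lit 194) (nat_lit 5) (nat_lit 195) (nat_lit 5) (nat_lit 506) (nat_lit 455) (nat_lit 239)) (XT.lf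 (nat_lit 0) (nat_lit 28951449129) (nat_lit 380) (nat_lit 18201653629) (nat_lit 76) (nat_lit 1656918809) (nat_lit 190) (nat_lit 5) (nat_lit 195) (nat_lit 5) (nat_lit 191) (nat_lit 5) (nat_lit 507) (nat_lit 455) (nat_lit 238))))) (XT.nd (nat_lit 312) (nat_lit 608) (nat_lit 0) (XT.nd (nat_lit 156) (nat_lit 608) (nat_lit 0) (XT.nd (nat_lit 78) (nat_lit 76) (nat_lit 0) (XT.lf (nat_lit 0) (nat_lit 11368996244) (nat_lit 304) (nat_lit 28853224923) (nat_lit 380) (nat_lit 9476294000) (nat_lit 186) (nat_lit 5) (nat_lit 190) (nat_lit 5) (nat_lit 191) (nat_lit 5) (nat_lit 508) (nat_lit 455) (nat_lit 237)) (XT.lf (nat_lit 0) (nat_lit 1377431516) (nat_lit 380) (nat_lit 8424632166) (nat_lit 76) (nat_lit 40805736786) (nat_lit 185) (nat_lit 5) (nat_lit 190) (nat_lit 5) (nat_lit 186) (nat_lit 5) (nat_lit 509) (nat_lit 455) (nat_lit 236))) (XT.nd (nat_lit 78) (nat_lit 304) (nat_lit 0) (XT.lf (nat_lit 0) (nat_lit 12680398484) (nat_lit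 380) (nat_lit 28908286440) (nat_lit 76) (nat_lit 9943441896) (nat_lit 181) (nat_lit 5) (nat_lit 186) (nat_lit 5) (nat_lit 182) (nat_lit 5) (nat_lit 510) (nat_lit 455) (nat_lit 235)) (XT.lf (nat_lit 0) (nat_lit 2237831748) (nat_lit 304) (nat_lit 22287286646) (nat_lit 380) (nat_lit 27952984695) (nat_lit 177) (nat_lit 5) (nat_lit 181) (nat_lit 5) (nat_lit 182) (nat_lit 5) (nat_lit 511) (nat_lit 455) (nat_lit 234)))) (XT.nd (nat_lit 156) (nat_lit 380) (nat_lit 0) (XT.nd (nat_lit 78) (nat_lit 228) (nat_lit 0) (XT.lf (nat_lit 0) (nat_lit 34908175257) (nat_lit 304) (nat_lit 2107135829) (nat_lit 380) (nat_lit 16428443670) (nat_lit 177) (nat_lit 5) (nat_lit 181) (nat_lit 5) (nat_lit 182) (nat_lit 5) (nat_lit 512) (nat_lit 455) (nat_lit 233)) (XT.lf (nat_lit 0) (nat_lit 14215385343) (nat_lit 228) (nat_lit 35979276783) (nat_lit 304) (nat_lit 4234280312) (nat_lit 174) (nat_lit 5) (nat_lit 177) (nat_lit 5) (nat_lit 178) (nat_lit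 5) (nat_lit 513) (nat_lit 455) (nat_lit 232))) (XT.nd (nat_lit 78) (nat_lit 304) (nat_lit 0) (XT.lf (nat_lit 0) (nat_lit 8371397416) (nat_lit 304) (nat_lit 7214698651) (nat_lit 76) (nat_lit 39848944149) (nat_lit 173) (nat_lit 5) (nat_lit 177) (nat_lit 5) (nat_lit 174) (nat_lit 5) (nat_lit 514) (nat_lit 455) (nat_lit 231)) (XT.lf (nat_lit 0) (nat_lit 21585600839) (nat_lit 380) (nat_lit 29255811046) (nat_lit 76) (nat_lit 5619187570) (nat_lit 169) (nat_lit 5) (nat_lit 174) (nat_lit 5) (nat_lit 170) (nat_lit 5) (nat_lit 515) (nat_lit 455) (nat_lit 230)))))) (XT.nd (nat_lit 624) (nat_lit 1140) (nat_lit 0) (XT.nd (nat_lit 312) (nat_lit 760) (nat_lit 0) (XT.nd (nat_lit 156) (nat_lit 304) (nat_lit 0) (XT.nd (nat_lit 78) (nat_lit 0) (nat_lit 0) (XT.lf (nat_lit 0) (nat_lit 5234462359) (nat_lit 228) (nat_lit 30238308634) (nat_lit 304) (nat_lit 22035858295) (nat_lit 166) (nat_lit 5) (nat_lit 169) (nat_lit 5) (nat_lit 170) (nat_lit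 5) (nat_lit 516) (nat_lit 455) (nat_lit 229)) (XT.lf (nat_lit 0) (nat_lit 41356529220) (nat_lit 228) (nat_lit 8713807058) (nat_lit 304) (nat_lit 8508950376) (nat_lit 166) (nat_lit 5) (nat_lit 169) (nat_lit 5) (nat_lit 170) (nat_lit 5) (nat_lit 517) (nat_lit 455) (nat_lit 228))) (XT.nd (nat_lit 78) (nat_lit 0) (nat_lit 0) (XT.lf (nat_lit 0) (nat_lit 5632562493) (nat_lit 304) (nat_lit 40606560997) (nat_lit 76) (nat_lit 13431937141) (nat_lit 162) (nat_lit 5) (nat_lit 166) (nat_lit 5) (nat_lit 163) (nat_lit 5) (nat_lit 518) (nat_lit 455) (nat_lit 227)) (XT.lf (nat_lit 0) (nat_lit 20287611492) (nat_lit 304) (nat_lit 4171789451) (nat_lit 76) (nat_lit 36325850141) (nat_lit 162) (nat_lit 5) (nat_lit 166) (nat_lit 5) (nat_lit 163) (nat_lit 5) (nat_lit 519) (nat_lit 455) (nat_lit 226)))) (XT.nd (nat_lit 156) (nat_lit 304) (nat_lit 0) (XT.nd (nat_lit 78) (nat_lit 228) (nat_lit 0) (XT.lf (nat_lit 0) (nat_lit 34017302154) (nat_lit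 228) (nat_lit 1690450441) (nat_lit 304) (nat_lit 26215351470) (nat_lit 159) (nat_lit 5) (nat_lit 162) (nat_lit 5) (nat_lit 163) (nat_lit 5) (nat_lit 520) (nat_lit 455) (nat_lit 225)) (XT.lf (nat_lit 0) (nat_lit 10333256528) (nat_lit 228) (nat_lit 41606757986) (nat_lit 304) (nat_lit 11144592656) (nat_lit 156) (nat_lit 5) (nat_lit 159) (nat_lit 5) (nat_lit 160) (nat_lit 5) (nat_lit 521) (nat_lit 455) (nat_lit 224))) (XT.nd (nat_lit 78) (nat_lit 228) (nat_lit 0) (XT.lf (nat_lit 0) (nat_lit 4592636987) (nat_lit 304) (nat_lit 14045128161) (nat_lit 76) (nat_lit 45632934118) (nat_lit 155) (nat_lit 5) (nat_lit 159) (nat_lit 5) (nat_lit 156) (nat_lit 5) (nat_lit 522) (nat_lit 455) (nat_lit 223)) (XT.lf (nat_lit 0) (nat_lit 20880386723) (nat_lit 304) (nat_lit 39312243468) (nat_lit 76) (nat_lit 5287361735) (nat_lit 152) (nat_lit 5) (nat_lit 156) (nat_lit 5) (nat_lit 153) (nat_lit 5) (nat_lit 523) (nat_lit 455) (nat_lit 222)))))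 (XT.nd (nat_lit 312) (nat_lit 684) (nat_lit 0) (XT.nd (nat_lit 156) (nat_lit 228) (nat_lit 0) (XT.nd (nat_lit 78) (nat_lit 0) (nat_lit 0) (XT.lf (nat_lit 0) (nat_lit 984409406) (nat_lit 228) (nat_lit 37008105718) (nat_lit 304) (nat_lit 28722975883) (nat_lit 149) (nat_lit 5) (nat_lit 152) (nat_lit 5) (nat_lit 153) (nat_lit 5) (nat_lit 524) (nat_lit 455) (nat_lit 221)) (XT.lf (nat_lit 0) (nat_lit 43293370992) (nat_lit 228) (nat_lit 12720151130) (nat_lit 304) (nat_lit 11962667524) (nat_lit 149) (nat_lit 5) (nat_lit 152) (nat_lit 5) (nat_lit 153) (nat_lit 5) (nat_lit 525) (nat_lit 455) (nat_lit 220))) (XT.nd (nat_lit 78) (nat_lit 0) (nat_lit 0) (XT.lf (nat_lit 0) (nat_lit 5487980201) (nat_lit 228) (nat_lit 51495781551) (nat_lit 76) (nat_lit 12280690154) (nat_lit 146) (nat_lit 5) (nat_lit 149) (nat_lit 5) (nat_lit 147) (nat_lit 5) (nat_lit 526) (nat_lit 455) (nat_lit 219)) (XT.lf (nat_lit 0) (nat_lit 23597943677) (nat_lit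 228) (nat_lit 8833479020) (nat_lit 76) (nat_lit 38145099071) (nat_lit 146) (nat_lit 5) (nat_lit 149) (nat_lit 5) (nat_lit 147) (nat_lit 5) (nat_lit 527) (nat_lit 455) (nat_lit 218)))) (XT.nd (nat_lit 156) (nat_lit 304) (nat_lit 0) (XT.nd (nat_lit 78) (nat_lit 152) (nat_lit 0) (XT.lf (nat_lit 0) (nat_lit 35805028228) (nat_lit 228) (nat_lit 6788975262) (nat_lit 304) (nat_lit 29323666339) (nat_lit 143) (nat_lit 5) (nat_lit 146) (nat_lit 5) (nat_lit 147) (nat_lit 5) (nat_lit 528) (nat_lit 455) (nat_lit 217)) (XT.lf (nat_lit 0) (nat_lit 8644204500) (nat_lit 152) (nat_lit 53876170062) (nat_lit 228) (nat_lit 10767864908) (nat_lit 141) (nat_lit 5) (nat_lit 143) (nat_lit 5) (nat_lit 144) (nat_lit 5) (nat_lit 529) (nat_lit 455) (nat_lit 216))) (XT.nd (nat_lit 78) (nat_lit 228) (nat_lit 0) (XT.lf (nat_lit 0) (nat_lit 8615902539) (nat_lit 228) (nat_lit 19358360365) (nat_lit 76) (nat_lit 46710233152) (nat_lit 140) (nat_lit 5)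 (nat_lit 143) (nat_lit 5) (nat_lit 141) (nat_lit 5) (nat_lit 530) (nat_lit 455) (nat_lit 215)) (XT.lf (nat_lit 0) (nat_lit 27717853654) (nat_lit 228) (nat_lit 912017160) (nat_lit 304) (nat_lit 47481617836) (nat_lit 137) (nat_lit 5) (nat_lit 140) (nat_lit 5) (nat_lit 141) (nat_lit 5) (nat_lit 531) (nat_lit 455) (nat_lit 214))))))) (XT.nd (nat_lit 1170) (nat_lit 152) (nat_lit 0) (XT.nd (nat_lit 546) (nat_lit 912) (nat_lit 0) (XT.nd (nat_lit 234) (nat_lit 380) (nat_lit 0) (XT.nd (nat_lit 78) (nat_lit 456) (nat_lit 0) (XT.lf (nat_lit 0) (nat_lit 49699529193) (nat_lit 304) (nat_lit 1235657863) (nat_lit 76) (nat_lit 26632445853) (nat_lit 137) (nat_lit 5) (nat_lit 141) (nat_lit 5) (nat_lit 138) (nat_lit 5) (nat_lit 532) (nat_lit 455) (nat_lit 213)) (XT.nd (nat_lit 78) (nat_lit 304) (nat_lit 0) (XT.lf (nat_lit 0) (nat_lit 48267670672) (nat_lit 152) (nat_lit 23605331361) (nat_lit 228) (nat_lit 7180307744) (nat_lit 135) (nat_lit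 5) (nat_lit 137) (nat_lit 5) (nat_lit 138) (nat_lit 5) (nat_lit 533) (nat_lit 455) (nat_lit 212)) (XT.lf (nat_lit 0) (nat_lit 14092659906) (nat_lit 304) (nat_lit 61691171072) (nat_lit 76) (nat_lit 4788444897) (nat_lit 131) (nat_lit 5) (nat_lit 135) (nat_lit 5) (nat_lit 132) (nat_lit 5) (nat_lit 534) (nat_lit 455) (nat_lit 211)))) (XT.nd (nat_lit 156) (nat_lit 228) (nat_lit 0) (XT.nd (nat_lit 78) (nat_lit 152) (nat_lit 0) (XT.lf (nat_lit 0) (nat_lit 36405895062) (nat_lit 304) (nat_lit 11768689128) (nat_lit 76) (nat_lit 33943702153) (nat_lit 131) (nat_lit 5) (nat_lit 135) (nat_lit 5) (nat_lit 132) (nat_lit 5) (nat_lit 535) (nat_lit 455) (nat_lit 210)) (XT.lf (nat_lit 0) (nat_lit 40438386638) (nat_lit 152) (nat_lit 19337623069) (nat_lit 228) (nat_lit 23923042963) (nat_lit 129) (nat_lit 5) (nat_lit 131) (nat_lit 5) (nat_lit 132) (nat_lit 5) (nat_lit 536) (nat_lit 455) (nat_lit 209))) (XT.nd (nat_lit 78) (nat_lit 76)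 (nat_lit 0) (XT.lf (nat_lit 0) (nat_lit 9205893107) (nat_lit 152) (nat_lit 74948244267) (nat_lit 228) (nat_lit 1163897343) (nat_lit 127) (nat_lit 5) (nat_lit 129) (nat_lit 5) (nat_lit 130) (nat_lit 5) (nat_lit 537) (nat_lit 455) (nat_lit 208)) (XT.lf (nat_lit 0) (nat_lit 22474706075) (nat_lit 228) (nat_lit 23251355837) (nat_lit 76) (nat_lit 41234157594) (nat_lit 126) (nat_lit 5) (nat_lit 129) (nat_lit 5) (nat_lit 127) (nat_lit 5) (nat_lit 538) (nat_lit 455) (nat_lit 207))))) (XT.nd (nat_lit 312) (nat_lit 380) (nat_lit 0) (XT.nd (nat_lit 156) (nat_lit 380) (nat_lit 0) (XT.nd (nat_lit 78) (nat_lit 0) (nat_lit 0) (XT.lf (nat_lit 0) (nat_lit 31802180107) (nat_lit 152) (nat_lit 15301405197) (nat_lit 228) (nat_lit 41538603511) (nat_lit 124) (nat_lit 5) (nat_lit 126) (nat_lit 5) (nat_lit 127) (nat_lit 5) (nat_lit 539) (nat_lit 455) (nat_lit 206)) (XT.lf (nat_lit 0) (nat_lit 72861410896) (nat_lit 228) (nat_lit 1542224040)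 (nat_lit 76) (nat_lit 15959279885) (nat_lit 124) (nat_lit 5) (nat_lit 127) (nat_lit 5) (nat_lit 125) (nat_lit 5) (nat_lit 540) (nat_lit 455) (nat_lit 205))) (XT.nd (nat_lit 78) (nat_lit 152) (nat_lit 0) (XT.lf (nat_lit 0) (nat_lit 7814078624) (nat_lit 228) (nat_lit 35830379944) (nat_lit 76) (nat_lit 48467742140) (nat_lit 121) (nat_lit 5) (nat_lit 124) (nat_lit 5) (nat_lit 122) (nat_lit 5) (nat_lit 541) (nat_lit 455) (nat_lit 204)) (XT.lf (nat_lit 0) (nat_lit 22216724060) (nat_lit 152) (nat_lit 11548781598) (nat_lit 228) (nat_lit 60136416865) (nat_lit 119) (nat_lit 5) (nat_lit 121) (nat_lit 5) (nat_lit 122) (nat_lit 5) (nat_lit 542) (nat_lit 455) (nat_lit 203)))) (XT.nd (nat_lit 156) (nat_lit 228) (nat_lit 0) (XT.nd (nat_lit 78) (nat_lit 152) (nat_lit 0) (XT.lf (nat_lit 0) (nat_lit 61066495926) (nat_lit 228) (nat_lit 13207175829) (nat_lit 76) (nat_lit 21454533639) (nat_lit 119) (nat_lit 5) (nat_lit 122) (nat_lit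 5) (nat_lit 120) (nat_lit 5) (nat_lit 543) (nat_lit 455) (nat_lit 202)) (XT.lf (nat_lit 0) (nat_lit 47842405411) (nat_lit 152) (nat_lit 41917235106) (nat_lit 228) (nat_lit 7832442508) (nat_lit 117) (nat_lit 5) (nat_lit 119) (nat_lit 5) (nat_lit 120) (nat_lit 5) (nat_lit 544) (nat_lit 455) (nat_lit 201))) (XT.nd (nat_lit 78) (nat_lit 0) (nat_lit 0) (XT.lf (nat_lit 0) (nat_lit 11517393899) (nat_lit 152) (nat_lit 8142197355) (nat_lit 228) (nat_lit 79839246622) (nat_lit 114) (nat_lit 5) (nat_lit 116) (nat_lit 5) (nat_lit 117) (nat_lit 5) (nat_lit 545) (nat_lit 455) (nat_lit 200)) (XT.lf (nat_lit 0) (nat_lit 48581344863) (nat_lit 228) (nat_lit 26146110495) (nat_lit 76) (nat_lit 26710142065) (nat_lit 114) (nat_lit 5) (nat_lit 117) (nat_lit 5) (nat_lit 115) (nat_lit 5) (nat_lit 546) (nat_lit 455) (nat_lit 199)))))) (XT.nd (nat_lit 55926) (nat_lit 0) (nat_lit 16568) (XT.nd (nat_lit 55614) (nat_lit 0) (nat_lit 16416) (XT.nd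 (nat_lit 55458) (nat_lit 0) (nat_lit 16340) (XT.nd (nat_lit 55380) (nat_lit 0) (nat_lit 16340) (XT.lf (nat_lit 0) (nat_lit 38207265382) (nat_lit 152) (nat_lit 40610301704) (nat_lit 228) (nat_lit 24603548200) (nat_lit 112) (nat_lit 5) (nat_lit 114) (nat_lit 5) (nat_lit 115) (nat_lit 5) (nat_lit 547) (nat_lit 455) (nat_lit 198)) (XT.lf (nat_lit 0) (nat_lit 4605227400) (nat_lit 1292) (nat_lit 3034430122) (nat_lit 1292) (nat_lit 3034430122) (nat_lit 327) (nat_lit 3) (nat_lit 344) (nat_lit 3) (nat_lit 344) (nat_lit 5) (nat_lit 456) (nat_lit 456) (nat_lit 288))) (XT.nd (nat_lit 78) (nat_lit 0) (nat_lit 76) (XT.lf (nat_lit 76) (nat_lit 4653235300) (nat_lit 0) (nat_lit 4884394205) (nat_lit 1292) (nat_lit 12125091217) (nat_lit 328) (nat_lit 5) (nat_lit 327) (nat_lit 3) (nat_lit 344) (nat_lit 5) (nat_lit 457) (nat_lit 456) (nat_lit 287)) (XT.lf (nat_lit 0) (nat_lit 9986844407) (nat_lit 1216) (nat_lit 6223193521) (nat_lit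 1292) (nat_lit 5773298101) (nat_lit 328) (nat_lit 5) (nat_lit 344) (nat_lit 5) (nat_lit 345) (nat_lit 5) (nat_lit 458) (nat_lit 456) (nat_lit 286)))) (XT.nd (nat_lit 156) (nat_lit 0) (nat_lit 76) (XT.nd (nat_lit 78) (nat_lit 0) (nat_lit 76) (XT.lf (nat_lit 76) (nat_lit 4931495991) (nat_lit 0) (nat_lit 5608335120) (nat_lit 1292) (nat_lit 11771030078) (nat_lit 329) (nat_lit 5) (nat_lit 328) (nat_lit 5) (nat_lit 345) (nat_lit 5) (nat_lit 459) (nat_lit 456) (nat_lit 285)) (XT.lf (nat_lit 0) (nat_lit 11218611076) (nat_lit 1216) (nat_lit 6152824730) (nat_lit 1292) (nat_lit 5273500432) (nat_lit 329) (nat_lit 5) (nat_lit 345) (nat_lit 5) (nat_lit 346) (nat_lit 5) (nat_lit 460) (nat_lit 456) (nat_lit 284))) (XT.nd (nat_lit 78) (nat_lit 0) (nat_lit 76) (XT.lf (nat_lit 76) (nat_lit 5458375436) (nat_lit 0) (nat_lit 6562213989) (nat_lit 1292) (nat_lit 10965359301) (nat_lit 330) (nat_lit 5) (nat_lit 329) (nat_lit 5) (nat_lit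 346) (nat_lit 5) (nat_lit 461) (nat_lit 456) (nat_lit 283)) (XT.lf (nat_lit 0) (nat_lit 12948292816) (nat_lit 1216) (nat_lit 5839106959) (nat_lit 1292) (nat_lit 4546742074) (nat_lit 330) (nat_lit 5) (nat_lit 346) (nat_lit 5) (nat_lit 347) (nat_lit 5) (nat_lit 462) (nat_lit 456) (nat_lit 282))))) (XT.nd (nat_lit 312) (nat_lit 0) (nat_lit 152) (XT.nd (nat_lit 156) (nat_lit 0) (nat_lit 76) (XT.nd (nat_lit 78) (nat_lit 0) (nat_lit 76) (XT.lf (nat_lit 76) (nat_lit 6253911608) (nat_lit 0) (nat_lit 7770127920) (nat_lit 1292) (nat_lit 9665135096) (nat_lit 331) (nat_lit 5) (nat_lit 330) (nat_lit 5) (nat_lit 347) (nat_lit 5) (nat_lit 463) (nat_lit 456) (nat_lit 281)) (XT.lf (nat_lit 0) (nat_lit 15221247601) (nat_lit 1216) (nat_lit 5261940721) (nat_lit 1292) (nat_lit 3568994609) (nat_lit 331) (nat_lit 5) (nat_lit 347) (nat_lit 5) (nat_lit 348) (nat_lit 5) (nat_lit 464) (nat_lit 456) (nat_lit 280))) (XT.nd (nat_lit 78) (nat_lit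 0) (nat_lit 76) (XT.lf (nat_lit 76) (nat_lit 7339675237) (nat_lit 0) (nat_lit 9257571361) (nat_lit 1292) (nat_lit 7824548860) (nat_lit 332) (nat_lit 5) (nat_lit 331) (nat_lit 5) (nat_lit 348) (nat_lit 5) (nat_lit 465) (nat_lit 456) (nat_lit 279)) (XT.lf (nat_lit 0) (nat_lit 18085848245) (nat_lit 1216) (nat_lit 4399693871) (nat_lit 1292) (nat_lit 2314814769) (nat_lit 332) (nat_lit 5) (nat_lit 348) (nat_lit 5) (nat_lit 349) (nat_lit 5) (nat_lit 466) (nat_lit 456) (nat_lit 278)))) (XT.nd (nat_lit 156) (nat_lit 0) (nat_lit 76) (XT.nd (nat_lit 78) (nat_lit 0) (nat_lit 76) (XT.lf (nat_lit 76) (nat_lit 8738854721) (nat_lit 0) (nat_lit 11051552473) (nat_lit 1292) (nat_lit 5394729183) (nat_lit 333) (nat_lit 5) (nat_lit 332) (nat_lit 5) (nat_lit 349) (nat_lit 5) (nat_lit 467) (nat_lit 456) (nat_lit 277)) (XT.lf (nat_lit 0) (nat_lit 21593688359) (nat_lit 1216) (nat_lit 3229115626) (nat_lit 1292) (nat_lit 757227898) (nat_lit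 333) (nat_lit 5) (nat_lit 349) (nat_lit 5) (nat_lit 350) (nat_lit 5) (nat_lit 468) (nat_lit 456) (nat_lit 276))) (XT.nd (nat_lit 78) (nat_lit 0) (nat_lit 0) (XT.lf (nat_lit 76) (nat_lit 10476347200) (nat_lit 0) (nat_lit 13180714844) (nat_lit 1292) (nat_lit 2323532576) (nat_lit 334) (nat_lit 5) (nat_lit 333) (nat_lit 5) (nat_lit 350) (nat_lit 5) (nat_lit 469) (nat_lit 456) (nat_lit 275)) (XT.lf (nat_lit 76) (nat_lit 24655971125) (nat_lit 0) (nat_lit 1154930898) (nat_lit 1292) (nat_lit 581415446) (nat_lit 334) (nat_lit 5) (nat_lit 333) (nat_lit 5) (nat_lit 350) (nat_lit 5) (nat_lit 470) (nat_lit 456) (nat_lit 274))))))))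
noncomputable def xc205 : XT := (XT.nd (nat_lit 2418) (nat_lit 5396) (nat_lit 0) (XT.nd (nat_lit 1170) (nat_lit 4028) (nat_lit 0) (XT.nd (nat_lit 546) (nat_lit 2888) (nat_lit 0) (XT.nd (nat_lit 234) (nat_lit 1368) (nat_lit 0) (XT.nd (nat_lit 78) (nat_lit 0) (nat_lit 0) (XT.lf (nat_lit 0) (nat_lit 1416486986) (nat_lit 1292) (nat_lit 14244674314) (nat_lit 1368) (nat_lit 11148065349) (nat_lit 317) (nat_lit 5) (nat_lit 334) (nat_lit 5) (nat_lit 335) (nat_lit 5) (nat_lit 471) (nat_lit 456) (nat_lit 273)) (XT.nd (nat_lit 78) (nat_lit 0) (nat_lit 76) (XT.lf (nat_lit 76) (nat_lit 72733651) (nat_lit 0) (nat_lit 3415876596) (nat_lit 1368) (nat_lit 23749081238) (nat_lit 318) (nat_lit 5) (nat_lit 317) (nat_lit 5) (nat_lit 335) (nat_lit 5) (nat_lit 472) (nat_lit 456) (nat_lit 272)) (XT.lf (nat_lit 0) (nat_lit 5852784703) (nat_lit 1292) (nat_lit 12656220192) (nat_lit 76) (nat_lit 9163108907) (nat_lit 318) (nat_lit 5) (nat_lit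 335) (nat_lit 5) (nat_lit 319) (nat_lit 5) (nat_lit 473) (nat_lit 456) (nat_lit 271)))) (XT.nd (nat_lit 156) (nat_lit 608) (nat_lit 0) (XT.nd (nat_lit 78) (nat_lit 0) (nat_lit 0) (XT.lf (nat_lit 0) (nat_lit 2295488382) (nat_lit 836) (nat_lit 6044607529) (nat_lit 912) (nat_lit 19777906690) (nat_lit 307) (nat_lit 5) (nat_lit 318) (nat_lit 5) (nat_lit 319) (nat_lit 5) (nat_lit 474) (nat_lit 456) (nat_lit 270)) (XT.lf (nat_lit 0) (nat_lit 11092805058) (nat_lit 912) (nat_lit 10688159965) (nat_lit 76) (nat_lit 6790579834) (nat_lit 307) (nat_lit 5) (nat_lit 319) (nat_lit 5) (nat_lit 308) (nat_lit 5) (nat_lit 475) (nat_lit 456) (nat_lit 269))) (XT.nd (nat_lit 78) (nat_lit 0) (nat_lit 0) (XT.lf (nat_lit 0) (nat_lit 4933399570) (nat_lit 608) (nat_lit 9098475885) (nat_lit 684) (nat_lit 15003704676) (nat_lit 299) (nat_lit 5) (nat_lit 307) (nat_lit 5) (nat_lit 308) (nat_lit 5) (nat_lit 476) (nat_lit 456) (nat_lit 268)) (XT.lf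 (nat_lit 0) (nat_lit 17202807380) (nat_lit 684) (nat_lit 8310092605) (nat_lit 76) (nat_lit 3996325941) (nat_lit 299) (nat_lit 5) (nat_lit 308) (nat_lit 5) (nat_lit 300) (nat_lit 5) (nat_lit 477) (nat_lit 456) (nat_lit 267))))) (XT.nd (nat_lit 312) (nat_lit 1672) (nat_lit 0) (XT.nd (nat_lit 156) (nat_lit 608) (nat_lit 0) (XT.nd (nat_lit 78) (nat_lit 0) (nat_lit 0) (XT.lf (nat_lit 0) (nat_lit 8018929922) (nat_lit 608) (nat_lit 12613785928) (nat_lit 684) (nat_lit 9359449925) (nat_lit 291) (nat_lit 5) (nat_lit 299) (nat_lit 5) (nat_lit 300) (nat_lit 5) (nat_lit 478) (nat_lit 456) (nat_lit 266)) (XT.lf (nat_lit 0) (nat_lit 24253479012) (nat_lit 684) (nat_lit 5489486952) (nat_lit 76) (nat_lit 743989268) (nat_lit 291) (nat_lit 5) (nat_lit 300) (nat_lit 5) (nat_lit 292) (nat_lit 5) (nat_lit 479) (nat_lit 456) (nat_lit 265))) (XT.nd (nat_lit 78) (nat_lit 76) (nat_lit 0) (XT.lf (nat_lit 0) (nat_lit 11586792238) (nat_lit 532)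 (nat_lit 16629184218) (nat_lit 608) (nat_lit 2773618708) (nat_lit 284) (nat_lit 5) (nat_lit 291) (nat_lit 5) (nat_lit 292) (nat_lit 5) (nat_lit 480) (nat_lit 456) (nat_lit 264)) (XT.lf (nat_lit 0) (nat_lit 827473871) (nat_lit 608) (nat_lit 2229129826) (nat_lit 76) (nat_lit 28448897218) (nat_lit 283) (nat_lit 5) (nat_lit 291) (nat_lit 5) (nat_lit 284) (nat_lit 5) (nat_lit 481) (nat_lit 456) (nat_lit 263)))) (XT.nd (nat_lit 156) (nat_lit 532) (nat_lit 0) (XT.nd (nat_lit 78) (nat_lit 532) (nat_lit 0) (XT.lf (nat_lit 0) (nat_lit 4735852152) (nat_lit 684) (nat_lit 16402149803) (nat_lit 76) (nat_lit 10890408160) (nat_lit 275) (nat_lit 5) (nat_lit 284) (nat_lit 5) (nat_lit 276) (nat_lit 5) (nat_lit 482) (nat_lit 456) (nat_lit 262)) (XT.lf (nat_lit 0) (nat_lit 1492118246) (nat_lit 532) (nat_lit 7333725138) (nat_lit 608) (nat_lit 23739232476) (nat_lit 268) (nat_lit 5) (nat_lit 275) (nat_lit 5) (nat_lit 276) (nat_lit 5) (nat_lit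 483) (nat_lit 456) (nat_lit 261))) (XT.nd (nat_lit 78) (nat_lit 532) (nat_lit 0) (XT.lf (nat_lit 0) (nat_lit 13269060018) (nat_lit 608) (nat_lit 12924492169) (nat_lit 76) (nat_lit 6917373736) (nat_lit 268) (nat_lit 5) (nat_lit 276) (nat_lit 5) (nat_lit 269) (nat_lit 5) (nat_lit 484) (nat_lit 456) (nat_lit 260)) (XT.lf (nat_lit 0) (nat_lit 5805963642) (nat_lit 532) (nat_lit 12165192731) (nat_lit 608) (nat_lit 15698227726) (nat_lit 261) (nat_lit 5) (nat_lit 268) (nat_lit 5) (nat_lit 269) (nat_lit 5) (nat_lit 485) (nat_lit 456) (nat_lit 259)))))) (XT.nd (nat_lit 624) (nat_lit 2128) (nat_lit 0) (XT.nd (nat_lit 312) (nat_lit 912) (nat_lit 0) (XT.nd (nat_lit 156) (nat_lit 532) (nat_lit 0) (XT.nd (nat_lit 78) (nat_lit 456) (nat_lit 0) (XT.lf (nat_lit 0) (nat_lit 22965286357) (nat_lit 608) (nat_lit 8903853041) (nat_lit 76) (nat_lit 2370927607) (nat_lit 261) (nat_lit 5) (nat_lit 269) (nat_lit 5) (nat_lit 262) (nat_lit 5)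 (nat_lit 486) (nat_lit 456) (nat_lit 258)) (XT.lf (nat_lit 0) (nat_lit 10709939205) (nat_lit 456) (nat_lit 17619991341) (nat_lit 532) (nat_lit 6491319248) (nat_lit 255) (nat_lit 5) (nat_lit 261) (nat_lit 5) (nat_lit 262) (nat_lit 5) (nat_lit 487) (nat_lit 456) (nat_lit 257))) (XT.nd (nat_lit 78) (nat_lit 532) (nat_lit 0) (XT.lf (nat_lit 0) (nat_lit 31091591684) (nat_lit 456) (nat_lit 2851175517) (nat_lit 532) (nat_lit 1474483373) (nat_lit 255) (nat_lit 5) (nat_lit 261) (nat_lit 5) (nat_lit 262) (nat_lit 5) (nat_lit 488) (nat_lit 456) (nat_lit 256)) (XT.lf (nat_lit 0) (nat_lit 3895920710) (nat_lit 532) (nat_lit 19812396395) (nat_lit 76) (nat_lit 12313495704) (nat_lit 248) (nat_lit 5) (nat_lit 255) (nat_lit 5) (nat_lit 249) (nat_lit 5) (nat_lit 489) (nat_lit 456) (nat_lit 255)))) (XT.nd (nat_lit 156) (nat_lit 456) (nat_lit 0) (XT.nd (nat_lit 78) (nat_lit 0) (nat_lit 0) (XT.lf (nat_lit 0) (nat_lit 774793424) (nat_lit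 456) (nat_lit 8700234421) (nat_lit 532) (nat_lit 27166729395) (nat_lit 242) (nat_lit 5) (nat_lit 248) (nat_lit 5) (nat_lit 249) (nat_lit 5) (nat_lit 490) (nat_lit 456) (nat_lit 254)) (XT.lf (nat_lit 0) (nat_lit 15485994759) (nat_lit 532) (nat_lit 14958627540) (nat_lit 76) (nat_lit 6827743199) (nat_lit 242) (nat_lit 5) (nat_lit 249) (nat_lit 5) (nat_lit 243) (nat_lit 5) (nat_lit 491) (nat_lit 456) (nat_lit 253))) (XT.nd (nat_lit 78) (nat_lit 0) (nat_lit 0) (XT.lf (nat_lit 0) (nat_lit 6616909065) (nat_lit 456) (nat_lit 15207678277) (nat_lit 532) (nat_lit 16092885847) (nat_lit 236) (nat_lit 5) (nat_lit 242) (nat_lit 5) (nat_lit 243) (nat_lit 5) (nat_lit 492) (nat_lit 456) (nat_lit 252)) (XT.lf (nat_lit 0) (nat_lit 28508148210) (nat_lit 532) (nat_lit 9440289944) (nat_lit 76) (nat_lit 628851728) (nat_lit 236) (nat_lit 5) (nat_lit 243) (nat_lit 5) (nat_lit 237) (nat_lit 5) (nat_lit 493) (nat_lit 456) (nat_lit 251)))))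 (XT.nd (nat_lit 312) (nat_lit 836) (nat_lit 0) (XT.nd (nat_lit 156) (nat_lit 836) (nat_lit 0) (XT.nd (nat_lit 78) (nat_lit 76) (nat_lit 0) (XT.lf (nat_lit 0) (nat_lit 13179423205) (nat_lit 380) (nat_lit 22487709535) (nat_lit 456) (nat_lit 3581520911) (nat_lit 231) (nat_lit 5) (nat_lit 236) (nat_lit 5) (nat_lit 237) (nat_lit 5) (nat_lit 494) (nat_lit 456) (nat_lit 250)) (XT.lf (nat_lit 0) (nat_lit 3134168474) (nat_lit 456) (nat_lit 3299797378) (nat_lit 76) (nat_lit 33502479986) (nat_lit 230) (nat_lit 5) (nat_lit 236) (nat_lit 5) (nat_lit 231) (nat_lit 5) (nat_lit 495) (nat_lit 456) (nat_lit 249))) (XT.nd (nat_lit 78) (nat_lit 380) (nat_lit 0) (XT.lf (nat_lit 0) (nat_lit 10273682987) (nat_lit 532) (nat_lit 20222690965) (nat_lit 76) (nat_lit 10138603911) (nat_lit 224) (nat_lit 5) (nat_lit 231) (nat_lit 5) (nat_lit 225) (nat_lit 5) (nat_lit 496) (nat_lit 456) (nat_lit 248)) (XT.lf (nat_lit 0) (nat_lit 3552256825) (nat_lit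 380) (nat_lit 14204400256) (nat_lit 456) (nat_lit 23593930615) (nat_lit 219) (nat_lit 5) (nat_lit 224) (nat_lit 5) (nat_lit 225) (nat_lit 5) (nat_lit 497) (nat_lit 456) (nat_lit 247)))) (XT.nd (nat_lit 156) (nat_lit 456) (nat_lit 0) (XT.nd (nat_lit 78) (nat_lit 380) (nat_lit 0) (XT.lf (nat_lit 0) (nat_lit 25692920699) (nat_lit 456) (nat_lit 13656296407) (nat_lit 76) (nat_lit 2731584781) (nat_lit 219) (nat_lit 5) (nat_lit 225) (nat_lit 5) (nat_lit 220) (nat_lit 5) (nat_lit 498) (nat_lit 456) (nat_lit 246)) (XT.lf (nat_lit 0) (nat_lit 11286724467) (nat_lit 380) (nat_lit 22827547866) (nat_lit 456) (nat_lit 8711240235) (nat_lit 214) (nat_lit 5) (nat_lit 219) (nat_lit 5) (nat_lit 220) (nat_lit 5) (nat_lit 499) (nat_lit 456) (nat_lit 245))) (XT.nd (nat_lit 78) (nat_lit 456) (nat_lit 0) (XT.lf (nat_lit 0) (nat_lit 37255123263) (nat_lit 380) (nat_lit 5668945334) (nat_lit 456) (nat_lit 664421917) (nat_lit 214) (nat_lit 5)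 (nat_lit 219) (nat_lit 5) (nat_lit 220) (nat_lit 5) (nat_lit 500) (nat_lit 456) (nat_lit 244)) (XT.lf (nat_lit 0) (nat_lit 7782673739) (nat_lit 456) (nat_lit 24543234591) (nat_lit 76) (nat_lit 12037021774) (nat_lit 208) (nat_lit 5) (nat_lit 214) (nat_lit 5) (nat_lit 209) (nat_lit 5) (nat_lit 501) (nat_lit 456) (nat_lit 243))))))) (XT.nd (nat_lit 1248) (nat_lit 2204) (nat_lit 0) (XT.nd (nat_lit 624) (nat_lit 1520) (nat_lit 0) (XT.nd (nat_lit 312) (nat_lit 988) (nat_lit 0) (XT.nd (nat_lit 156) (nat_lit 304) (nat_lit 0) (XT.nd (nat_lit 78) (nat_lit 0) (nat_lit 0) (XT.lf (nat_lit 0) (nat_lit 1695400090) (nat_lit 380) (nat_lit 14909410131) (nat_lit 456) (nat_lit 28551545904) (nat_lit 203) (nat_lit 5) (nat_lit 208) (nat_lit 5) (nat_lit 209) (nat_lit 5) (nat_lit 502) (nat_lit 456) (nat_lit 242)) (XT.lf (nat_lit 0) (nat_lit 25969018734) (nat_lit 456) (nat_lit 16776281370) (nat_lit 76) (nat_lit 3219962643) (nat_lit 203)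 (nat_lit 5) (nat_lit 209) (nat_lit 5) (nat_lit 204) (nat_lit 5) (nat_lit 503) (nat_lit 456) (nat_lit 241))) (XT.nd (nat_lit 78) (nat_lit 0) (nat_lit 0) (XT.lf (nat_lit 0) (nat_lit 10768672948) (nat_lit 304) (nat_lit 25094665332) (nat_lit 380) (nat_lit 10927622803) (nat_lit 199) (nat_lit 5) (nat_lit 203) (nat_lit 5) (nat_lit 204) (nat_lit 5) (nat_lit 504) (nat_lit 456) (nat_lit 240)) (XT.lf (nat_lit 0) (nat_lit 39481122197) (nat_lit 304) (nat_lit 6740854848) (nat_lit 380) (nat_lit 1414428691) (nat_lit 199) (nat_lit 5) (nat_lit 203) (nat_lit 5) (nat_lit 204) (nat_lit 5) (nat_lit 505) (nat_lit 456) (nat_lit 239)))) (XT.nd (nat_lit 156) (nat_lit 304) (nat_lit 0) (XT.nd (nat_lit 78) (nat_lit 304) (nat_lit 0) (XT.lf (nat_lit 0) (nat_lit 8539007302) (nat_lit 380) (nat_lit 27746822164) (nat_lit 76) (nat_lit 12209412966) (nat_lit 194) (nat_lit 5) (nat_lit 199) (nat_lit 5) (nat_lit 195) (nat_lit 5) (nat_lit 506) (nat_lit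 456) (nat_lit 238)) (XT.lf (nat_lit 0) (nat_lit 1249121518) (nat_lit 304) (nat_lit 17673552909) (nat_lit 380) (nat_lit 30451948026) (nat_lit 190) (nat_lit 5) (nat_lit 194) (nat_lit 5) (nat_lit 195) (nat_lit 5) (nat_lit 507) (nat_lit 456) (nat_lit 237))) (XT.nd (nat_lit 78) (nat_lit 304) (nat_lit 0) (XT.lf (nat_lit 0) (nat_lit 29913365449) (nat_lit 380) (nat_lit 18608166457) (nat_lit 76) (nat_lit 1749986603) (nat_lit 190) (nat_lit 5) (nat_lit 195) (nat_lit 5) (nat_lit 191) (nat_lit 5) (nat_lit 508) (nat_lit 456) (nat_lit 236)) (XT.lf (nat_lit 0) (nat_lit 11848234905) (nat_lit 304) (nat_lit 29672634309) (nat_lit 380) (nat_lit 9665839520) (nat_lit 186) (nat_lit 5) (nat_lit 190) (nat_lit 5) (nat_lit 191) (nat_lit 5) (nat_lit 509) (nat_lit 456) (nat_lit 235))))) (XT.nd (nat_lit 312) (nat_lit 836) (nat_lit 0) (XT.nd (nat_lit 156) (nat_lit 304) (nat_lit 0) (XT.nd (nat_lit 78) (nat_lit 304) (nat_lit 0) (XT.lf (nat_lit 0)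 (nat_lit 1508943313) (nat_lit 380) (nat_lit 8541429451) (nat_lit 76) (nat_lit 42072953747) (nat_lit 185) (nat_lit 5) (nat_lit 190) (nat_lit 5) (nat_lit 186) (nat_lit 5) (nat_lit 510) (nat_lit 456) (nat_lit 234)) (XT.lf (nat_lit 0) (nat_lit 13150106179) (nat_lit 380) (nat_lit 29638698003) (nat_lit 76) (nat_lit 10286605331) (nat_lit 181) (nat_lit 5) (nat_lit 186) (nat_lit 5) (nat_lit 182) (nat_lit 5) (nat_lit 511) (nat_lit 456) (nat_lit 233))) (XT.nd (nat_lit 78) (nat_lit 0) (nat_lit 0) (XT.lf (nat_lit 0) (nat_lit 2440462192) (nat_lit 304) (nat_lit 22908407114) (nat_lit 380) (nat_lit 28700934783) (nat_lit 177) (nat_lit 5) (nat_lit 181) (nat_lit 5) (nat_lit 182) (nat_lit 5) (nat_lit 512) (nat_lit 456) (nat_lit 232)) (XT.lf (nat_lit 0) (nat_lit 36086969534) (nat_lit 304) (nat_lit 2124235214) (nat_lit 380) (nat_lit 16833297510) (nat_lit 177) (nat_lit 5) (nat_lit 181) (nat_lit 5) (nat_lit 182) (nat_lit 5) (nat_lit 513)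 (nat_lit 456) (nat_lit 231)))) (XT.nd (nat_lit 156) (nat_lit 532) (nat_lit 0) (XT.nd (nat_lit 78) (nat_lit 76) (nat_lit 0) (XT.lf (nat_lit 0) (nat_lit 14774207282) (nat_lit 228) (nat_lit 37010943359) (nat_lit 304) (nat_lit 4274118562) (nat_lit 174) (nat_lit 5) (nat_lit 177) (nat_lit 5) (nat_lit 178) (nat_lit 5) (nat_lit 514) (nat_lit 456) (nat_lit 230)) (XT.lf (nat_lit 0) (nat_lit 8705538140) (nat_lit 304) (nat_lit 7300980618) (nat_lit 76) (nat_lit 41089080769) (nat_lit 173) (nat_lit 5) (nat_lit 177) (nat_lit 5) (nat_lit 174) (nat_lit 5) (nat_lit 515) (nat_lit 456) (nat_lit 229))) (XT.nd (nat_lit 78) (nat_lit 228) (nat_lit 0) (XT.lf (nat_lit 0) (nat_lit 22315441522) (nat_lit 380) (nat_lit 30002598365) (nat_lit 76) (nat_lit 5833907496) (nat_lit 169) (nat_lit 5) (nat_lit 174) (nat_lit 5) (nat_lit 170) (nat_lit 5) (nat_lit 516) (nat_lit 456) (nat_lit 228)) (XT.lf (nat_lit 0) (nat_lit 5521100036) (nat_lit 228) (nat_lit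 31096976285) (nat_lit 304) (nat_lit 22613376360) (nat_lit 166) (nat_lit 5) (nat_lit 169) (nat_lit 5) (nat_lit 170) (nat_lit 5) (nat_lit 517) (nat_lit 456) (nat_lit 227)))))) (XT.nd (nat_lit 624) (nat_lit 912) (nat_lit 0) (XT.nd (nat_lit 312) (nat_lit 760) (nat_lit 0) (XT.nd (nat_lit 156) (nat_lit 228) (nat_lit 0) (XT.nd (nat_lit 78) (nat_lit 304) (nat_lit 0) (XT.lf (nat_lit 0) (nat_lit 42723054034) (nat_lit 228) (nat_lit 8928151747) (nat_lit 304) (nat_lit 8683094922) (nat_lit 166) (nat_lit 5) (nat_lit 169) (nat_lit 5) (nat_lit 170) (nat_lit 5) (nat_lit 518) (nat_lit 456) (nat_lit 226)) (XT.lf (nat_lit 0) (nat_lit 5880435142) (nat_lit 304) (nat_lit 41696697318) (nat_lit 76) (nat_lit 13881691452) (nat_lit 162) (nat_lit 5) (nat_lit 166) (nat_lit 5) (nat_lit 163) (nat_lit 5) (nat_lit 519) (nat_lit 456) (nat_lit 225))) (XT.nd (nat_lit 78) (nat_lit 228) (nat_lit 0) (XT.lf (nat_lit 0) (nat_lit 20972837676) (nat_lit 304)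 (nat_lit 4172612543) (nat_lit 76) (nat_lit 37461058846) (nat_lit 162) (nat_lit 5) (nat_lit 166) (nat_lit 5) (nat_lit 163) (nat_lit 5) (nat_lit 520) (nat_lit 456) (nat_lit 224)) (XT.lf (nat_lit 0) (nat_lit 35160932883) (nat_lit 228) (nat_lit 1693602549) (nat_lit 304) (nat_lit 26923993678) (nat_lit 159) (nat_lit 5) (nat_lit 162) (nat_lit 5) (nat_lit 163) (nat_lit 5) (nat_lit 521) (nat_lit 456) (nat_lit 223)))) (XT.nd (nat_lit 156) (nat_lit 456) (nat_lit 0) (XT.nd (nat_lit 78) (nat_lit 76) (nat_lit 0) (XT.lf (nat_lit 0) (nat_lit 10766952046) (nat_lit 228) (nat_lit 42806245602) (nat_lit 304) (nat_lit 11401696732) (nat_lit 156) (nat_lit 5) (nat_lit 159) (nat_lit 5) (nat_lit 160) (nat_lit 5) (nat_lit 522) (nat_lit 456) (nat_lit 222)) (XT.lf (nat_lit 0) (nat_lit 4803937063) (nat_lit 304) (nat_lit 14344922385) (nat_lit 76) (nat_lit 47047753730) (nat_lit 155) (nat_lit 5) (nat_lit 159) (nat_lit 5) (nat_lit 156) (nat_lit 5)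 (nat_lit 523) (nat_lit 456) (nat_lit 221))) (XT.nd (nat_lit 78) (nat_lit 228) (nat_lit 0) (XT.lf (nat_lit 0) (nat_lit 21579794737) (nat_lit 304) (nat_lit 40369525200) (nat_lit 76) (nat_lit 5492880459) (nat_lit 152) (nat_lit 5) (nat_lit 156) (nat_lit 5) (nat_lit 153) (nat_lit 5) (nat_lit 524) (nat_lit 456) (nat_lit 220)) (XT.lf (nat_lit 0) (nat_lit 1134830343) (nat_lit 228) (nat_lit 38069492594) (nat_lit 304) (nat_lit 29510470476) (nat_lit 149) (nat_lit 5) (nat_lit 152) (nat_lit 5) (nat_lit 153) (nat_lit 5) (nat_lit 525) (nat_lit 456) (nat_lit 219))))) (XT.nd (nat_lit 312) (nat_lit 456) (nat_lit 0) (XT.nd (nat_lit 156) (nat_lit 228) (nat_lit 0) (XT.nd (nat_lit 78) (nat_lit 228) (nat_lit 0) (XT.lf (nat_lit 0) (nat_lit 44709539747) (nat_lit 228) (nat_lit 13054322367) (nat_lit 304) (nat_lit 12249513876) (nat_lit 149) (nat_lit 5) (nat_lit 152) (nat_lit 5) (nat_lit 153) (nat_lit 5) (nat_lit 526) (nat_lit 456) (nat_lit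 218)) (XT.lf (nat_lit 0) (nat_lit 5722781584) (nat_lit 228) (nat_lit 52921413159) (nat_lit 76) (nat_lit 12696084621) (nat_lit 146) (nat_lit 5) (nat_lit 149) (nat_lit 5) (nat_lit 147) (nat_lit 5) (nat_lit 527) (nat_lit 456) (nat_lit 217))) (XT.nd (nat_lit 78) (nat_lit 228) (nat_lit 0) (XT.lf (nat_lit 0) (nat_lit 24374000412) (nat_lit 228) (nat_lit 8982714616) (nat_lit 76) (nat_lit 39335057638) (nat_lit 146) (nat_lit 5) (nat_lit 149) (nat_lit 5) (nat_lit 147) (nat_lit 5) (nat_lit 528) (nat_lit 456) (nat_lit 216)) (XT.lf (nat_lit 0) (nat_lit 36993812862) (nat_lit 228) (nat_lit 6945247056) (nat_lit 304) (nat_lit 30134121748) (nat_lit 143) (nat_lit 5) (nat_lit 146) (nat_lit 5) (nat_lit 147) (nat_lit 5) (nat_lit 529) (nat_lit 456) (nat_lit 215)))) (XT.nd (nat_lit 156) (nat_lit 228) (nat_lit 0) (XT.nd (nat_lit 78) (nat_lit 76) (nat_lit 0) (XT.lf (nat_lit 0) (nat_lit 9018587886) (nat_lit 152) (nat_lit 55444224240) (nat_lit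 228) (nat_lit 11022068604) (nat_lit 141) (nat_lit 5) (nat_lit 143) (nat_lit 5) (nat_lit 144) (nat_lit 5) (nat_lit 530) (nat_lit 456) (nat_lit 214)) (XT.lf (nat_lit 0) (nat_lit 8939902999) (nat_lit 228) (nat_lit 19826099994) (nat_lit 76) (nat_lit 48157061174) (nat_lit 140) (nat_lit 5) (nat_lit 143) (nat_lit 5) (nat_lit 141) (nat_lit 5) (nat_lit 531) (nat_lit 456) (nat_lit 213))) (XT.nd (nat_lit 78) (nat_lit 0) (nat_lit 0) (XT.lf (nat_lit 0) (nat_lit 28661292493) (nat_lit 228) (nat_lit 892165064) (nat_lit 304) (nat_lit 48839433995) (nat_lit 137) (nat_lit 5) (nat_lit 140) (nat_lit 5) (nat_lit 141) (nat_lit 5) (nat_lit 532) (nat_lit 456) (nat_lit 212)) (XT.lf (nat_lit 0) (nat_lit 51253762113) (nat_lit 304) (nat_lit 1162639104) (nat_lit 76) (nat_lit 27476362261) (nat_lit 137) (nat_lit 5) (nat_lit 141) (nat_lit 5) (nat_lit 138) (nat_lit 5) (nat_lit 533) (nat_lit 456) (nat_lit 211))))))))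
noncomputable def xc206 : XT := (XT.nd (nat_lit 57798) (nat_lit 0) (nat_lit 6460) (XT.nd (nat_lit 56550) (nat_lit 0) (nat_lit 15428) (XT.nd (nat_lit 546) (nat_lit 760) (nat_lit 0) (XT.nd (nat_lit 234) (nat_lit 532) (nat_lit 0) (XT.nd (nat_lit 78) (nat_lit 304) (nat_lit 0) (XT.lf (nat_lit 0) (nat_lit 49824709987) (nat_lit 152) (nat_lit 24266934867) (nat_lit 228) (nat_lit 7331389655) (nat_lit 135) (nat_lit 5) (nat_lit 137) (nat_lit 5) (nat_lit 138) (nat_lit 5) (nat_lit 534) (nat_lit 456) (nat_lit 210)) (XT.nd (nat_lit 78) (nat_lit 0) (nat_lit 0) (XT.lf (nat_lit 0) (nat_lit 14578175093) (nat_lit 304) (nat_lit 63431303204) (nat_lit 76) (nat_lit 4978082870) (nat_lit 131) (nat_lit 5) (nat_lit 135) (nat_lit 5) (nat_lit 132) (nat_lit 5) (nat_lit 535) (nat_lit 456) (nat_lit 209)) (XT.lf (nat_lit 0) (nat_lit 37558980059) (nat_lit 304) (nat_lit 12014368249) (nat_lit 76) (nat_lit 35006658485) (nat_lit 131) (nat_lit 5) (nat_lit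 135) (nat_lit 5) (nat_lit 132) (nat_lit 5) (nat_lit 536) (nat_lit 456) (nat_lit 208)))) (XT.nd (nat_lit 156) (nat_lit 228) (nat_lit 0) (XT.nd (nat_lit 78) (nat_lit 152) (nat_lit 0) (XT.lf (nat_lit 0) (nat_lit 41757867030) (nat_lit 152) (nat_lit 19871579188) (nat_lit 228) (nat_lit 24578772476) (nat_lit 129) (nat_lit 5) (nat_lit 131) (nat_lit 5) (nat_lit 132) (nat_lit 5) (nat_lit 537) (nat_lit 456) (nat_lit 207)) (XT.lf (nat_lit 0) (nat_lit 9588704621) (nat_lit 152) (nat_lit 77149916921) (nat_lit 228) (nat_lit 1137157571) (nat_lit 127) (nat_lit 5) (nat_lit 129) (nat_lit 5) (nat_lit 130) (nat_lit 5) (nat_lit 538) (nat_lit 456) (nat_lit 206))) (XT.nd (nat_lit 78) (nat_lit 152) (nat_lit 0) (XT.lf (nat_lit 0) (nat_lit 23207640021) (nat_lit 228) (nat_lit 23844198760) (nat_lit 76) (nat_lit 42515425731) (nat_lit 126) (nat_lit 5) (nat_lit 129) (nat_lit 5) (nat_lit 127) (nat_lit 5) (nat_lit 539) (nat_lit 456) (nat_lit 205))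 (XT.lf (nat_lit 0) (nat_lit 32859916814) (nat_lit 152) (nat_lit 15714755869) (nat_lit 228) (nat_lit 42725041631) (nat_lit 124) (nat_lit 5) (nat_lit 126) (nat_lit 5) (nat_lit 127) (nat_lit 5) (nat_lit 540) (nat_lit 456) (nat_lit 204))))) (XT.nd (nat_lit 312) (nat_lit 380) (nat_lit 0) (XT.nd (nat_lit 156) (nat_lit 152) (nat_lit 0) (XT.nd (nat_lit 78) (nat_lit 228) (nat_lit 0) (XT.lf (nat_lit 0) (nat_lit 75103970731) (nat_lit 228) (nat_lit 1486575950) (nat_lit 76) (nat_lit 16481553309) (nat_lit 124) (nat_lit 5) (nat_lit 127) (nat_lit 5) (nat_lit 125) (nat_lit 5) (nat_lit 541) (nat_lit 456) (nat_lit 203)) (XT.lf (nat_lit 0) (nat_lit 8105092109) (nat_lit 228) (nat_lit 36803248715) (nat_lit 76) (nat_lit 49965527465) (nat_lit 121) (nat_lit 5) (nat_lit 124) (nat_lit 5) (nat_lit 122) (nat_lit 5) (nat_lit 542) (nat_lit 456) (nat_lit 202))) (XT.nd (nat_lit 78) (nat_lit 0) (nat_lit 0) (XT.lf (nat_lit 0) (nat_lit 22984267992)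 (nat_lit 152) (nat_lit 11850116957) (nat_lit 228) (nat_lit 61882917140) (nat_lit 119) (nat_lit 5) (nat_lit 121) (nat_lit 5) (nat_lit 122) (nat_lit 5) (nat_lit 543) (nat_lit 456) (nat_lit 201)) (XT.lf (nat_lit 0) (nat_lit 62953197521) (nat_lit 228) (nat_lit 13504083802) (nat_lit 76) (nat_lit 22141128364) (nat_lit 119) (nat_lit 5) (nat_lit 122) (nat_lit 5) (nat_lit 120) (nat_lit 5) (nat_lit 544) (nat_lit 456) (nat_lit 200)))) (XT.nd (nat_lit 156) (nat_lit 0) (nat_lit 0) (XT.nd (nat_lit 78) (nat_lit 228) (nat_lit 0) (XT.lf (nat_lit 0) (nat_lit 49376011274) (nat_lit 152) (nat_lit 43130477021) (nat_lit 228) (nat_lit 8011734818) (nat_lit 117) (nat_lit 5) (nat_lit 119) (nat_lit 5) (nat_lit 120) (nat_lit 5) (nat_lit 545) (nat_lit 456) (nat_lit 199)) (XT.lf (nat_lit 0) (nat_lit 11961361867) (nat_lit 152) (nat_lit 8341967750) (nat_lit 228) (nat_lit 82178854267) (nat_lit 114) (nat_lit 5) (nat_lit 116) (nat_lit 5) (nat_lit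 117) (nat_lit 5) (nat_lit 546) (nat_lit 456) (nat_lit 198))) (XT.nd (nat_lit 55458) (nat_lit 0) (nat_lit 16188) (XT.lf (nat_lit 0) (nat_lit 50091579717) (nat_lit 228) (nat_lit 26833758313) (nat_lit 76) (nat_lit 27553802887) (nat_lit 114) (nat_lit 5) (nat_lit 117) (nat_lit 5) (nat_lit 115) (nat_lit 5) (nat_lit 547) (nat_lit 456) (nat_lit 197)) (XT.lf (nat_lit 0) (nat_lit 4886285375) (nat_lit 1292) (nat_lit 3051865634) (nat_lit 1292) (nat_lit 3051865634) (nat_lit 327) (nat_lit 3) (nat_lit 344) (nat_lit 3) (nat_lit 344) (nat_lit 5) (nat_lit 457) (nat_lit 457) (nat_lit 286)))))) (XT.nd (nat_lit 624) (nat_lit 760) (nat_lit 0) (XT.nd (nat_lit 312) (nat_lit 0) (nat_lit 152) (XT.nd (nat_lit 156) (nat_lit 0) (nat_lit 76) (XT.nd (nat_lit 78) (nat_lit 0) (nat_lit 76) (XT.lf (nat_lit 76) (nat_lit 4938584057) (nat_lit 0) (nat_lit 5164053356) (nat_lit 1292) (nat_lit 12201585754) (nat_lit 328) (nat_lit 5) (nat_lit 327) (nat_lit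 3) (nat_lit 344) (nat_lit 5) (nat_lit 458) (nat_lit 457) (nat_lit 285)) (XT.lf (nat_lit 0) (nat_lit 10555963643) (nat_lit 1216) (nat_lit 6259005273) (nat_lit 1292) (nat_lit 5819769344) (nat_lit 328) (nat_lit 5) (nat_lit 344) (nat_lit 5) (nat_lit 345) (nat_lit 5) (nat_lit 459) (nat_lit 457) (nat_lit 284))) (XT.nd (nat_lit 78) (nat_lit 0) (nat_lit 76) (XT.lf (nat_lit 76) (nat_lit 5228845669) (nat_lit 0) (nat_lit 5890280530) (nat_lit 1292) (nat_lit 11853155750) (nat_lit 329) (nat_lit 5) (nat_lit 328) (nat_lit 5) (nat_lit 345) (nat_lit 5) (nat_lit 460) (nat_lit 457) (nat_lit 283)) (XT.lf (nat_lit 0) (nat_lit 11809545375) (nat_lit 1216) (nat_lit 6183620362) (nat_lit 1292) (nat_lit 5323475590) (nat_lit 329) (nat_lit 5) (nat_lit 345) (nat_lit 5) (nat_lit 346) (nat_lit 5) (nat_lit 461) (nat_lit 457) (nat_lit 282)))) (XT.nd (nat_lit 156) (nat_lit 0) (nat_lit 76) (XT.nd (nat_lit 78) (nat_lit 0) (nat_lit 76) (XT.lf (nat_lit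 76) (nat_lit 5774408072) (nat_lit 0) (nat_lit 6855229814) (nat_lit 1292) (nat_lit 11038424999) (nat_lit 330) (nat_lit 5) (nat_lit 329) (nat_lit 5) (nat_lit 346) (nat_lit 5) (nat_lit 462) (nat_lit 457) (nat_lit 281)) (XT.lf (nat_lit 0) (nat_lit 13577039205) (nat_lit 1216) (nat_lit 5858289952) (nat_lit 1292) (nat_lit 4591616972) (nat_lit 330) (nat_lit 5) (nat_lit 346) (nat_lit 5) (nat_lit 347) (nat_lit 5) (nat_lit 463) (nat_lit 457) (nat_lit 280))) (XT.nd (nat_lit 78) (nat_lit 0) (nat_lit 76) (XT.lf (nat_lit 76) (nat_lit 6595989856) (nat_lit 0) (nat_lit 8083554276) (nat_lit 1292) (nat_lit 9713251504) (nat_lit 331) (nat_lit 5) (nat_lit 330) (nat_lit 5) (nat_lit 347) (nat_lit 5) (nat_lit 464) (nat_lit 457) (nat_lit 279)) (XT.lf (nat_lit 0) (nat_lit 15905080474) (nat_lit 1216) (nat_lit 5262238520) (nat_lit 1292) (nat_lit 3599603149) (nat_lit 331) (nat_lit 5) (nat_lit 347) (nat_lit 5) (nat_lit 348) (nat_lit 5) (nat_lit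 465) (nat_lit 457) (nat_lit 278))))) (XT.nd (nat_lit 312) (nat_lit 1064) (nat_lit 0) (XT.nd (nat_lit 156) (nat_lit 0) (nat_lit 76) (XT.nd (nat_lit 78) (nat_lit 0) (nat_lit 76) (XT.lf (nat_lit 76) (nat_lit 7715881207) (nat_lit 0) (nat_lit 9601360609) (nat_lit 1292) (nat_lit 7830535061) (nat_lit 332) (nat_lit 5) (nat_lit 331) (nat_lit 5) (nat_lit 348) (nat_lit 5) (nat_lit 466) (nat_lit 457) (nat_lit 277)) (XT.lf (nat_lit 0) (nat_lit 18843416693) (nat_lit 1216) (nat_lit 4373118487) (nat_lit 1292) (nat_lit 2321372806) (nat_lit 332) (nat_lit 5) (nat_lit 348) (nat_lit 5) (nat_lit 349) (nat_lit 5) (nat_lit 467) (nat_lit 457) (nat_lit 276))) (XT.nd (nat_lit 78) (nat_lit 0) (nat_lit 76) (XT.lf (nat_lit 76) (nat_lit 9158031992) (nat_lit 0) (nat_lit 11436327778) (nat_lit 1292) (nat_lit 5340013958) (nat_lit 333) (nat_lit 5) (nat_lit 332) (nat_lit 5) (nat_lit 349) (nat_lit 5) (nat_lit 468) (nat_lit 457) (nat_lit 275)) (XT.lf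 (nat_lit 0) (nat_lit 22445119101) (nat_lit 1216) (nat_lit 3166921098) (nat_lit 1292) (nat_lit 729274787) (nat_lit 333) (nat_lit 5) (nat_lit 349) (nat_lit 5) (nat_lit 350) (nat_lit 5) (nat_lit 469) (nat_lit 457) (nat_lit 274)))) (XT.nd (nat_lit 156) (nat_lit 1216) (nat_lit 0) (XT.nd (nat_lit 78) (nat_lit 0) (nat_lit 0) (XT.lf (nat_lit 76) (nat_lit 10948146123) (nat_lit 0) (nat_lit 13617831259) (nat_lit 1292) (nat_lit 2188049990) (nat_lit 334) (nat_lit 5) (nat_lit 333) (nat_lit 5) (nat_lit 350) (nat_lit 5) (nat_lit 470) (nat_lit 457) (nat_lit 273)) (XT.lf (nat_lit 76) (nat_lit 25548571139) (nat_lit 0) (nat_lit 1230059378) (nat_lit 1292) (nat_lit 399645712) (nat_lit 334) (nat_lit 5) (nat_lit 333) (nat_lit 5) (nat_lit 350) (nat_lit 5) (nat_lit 471) (nat_lit 457) (nat_lit 272))) (XT.nd (nat_lit 78) (nat_lit 0) (nat_lit 0) (XT.lf (nat_lit 0) (nat_lit 1649765407) (nat_lit 1292) (nat_lit 14510648591) (nat_lit 1368) (nat_lit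 11447357715) (nat_lit 317) (nat_lit 5) (nat_lit 334) (nat_lit 5) (nat_lit 335) (nat_lit 5) (nat_lit 472) (nat_lit 457) (nat_lit 271)) (XT.lf (nat_lit 76) (nat_lit 234699593) (nat_lit 0) (nat_lit 3545331904) (nat_lit 1368) (nat_lit 24269179863) (nat_lit 318) (nat_lit 5) (nat_lit 317) (nat_lit 5) (nat_lit 335) (nat_lit 5) (nat_lit 473) (nat_lit 457) (nat_lit 270))))))) (XT.nd (nat_lit 1248) (nat_lit 4256) (nat_lit 0) (XT.nd (nat_lit 624) (nat_lit 2204) (nat_lit 0) (XT.nd (nat_lit 312) (nat_lit 1140) (nat_lit 0) (XT.nd (nat_lit 156) (nat_lit 608) (nat_lit 0) (XT.nd (nat_lit 78) (nat_lit 836) (nat_lit 0) (XT.lf (nat_lit 0) (nat_lit 6209439704) (nat_lit 1292) (nat_lit 12875077535) (nat_lit 76) (nat_lit 9412320085) (nat_lit 318) (nat_lit 5) (nat_lit 335) (nat_lit 5) (nat_lit 319) (nat_lit 5) (nat_lit 474) (nat_lit 457) (nat_lit 269)) (XT.lf (nat_lit 0) (nat_lit 2523605538) (nat_lit 836) (nat_lit 6244021617) (nat_lit 912)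 (nat_lit 20188588151) (nat_lit 307) (nat_lit 5) (nat_lit 318) (nat_lit 5) (nat_lit 319) (nat_lit 5) (nat_lit 475) (nat_lit 457) (nat_lit 268))) (XT.nd (nat_lit 78) (nat_lit 608) (nat_lit 0) (XT.lf (nat_lit 0) (nat_lit 11597583977) (nat_lit 912) (nat_lit 10848849780) (nat_lit 76) (nat_lit 6977090301) (nat_lit 307) (nat_lit 5) (nat_lit 319) (nat_lit 5) (nat_lit 308) (nat_lit 5) (nat_lit 476) (nat_lit 457) (nat_lit 267)) (XT.lf (nat_lit 0) (nat_lit 5239788356) (nat_lit 608) (nat_lit 9381551085) (nat_lit 684) (nat_lit 15280245773) (nat_lit 299) (nat_lit 5) (nat_lit 307) (nat_lit 5) (nat_lit 308) (nat_lit 5) (nat_lit 477) (nat_lit 457) (nat_lit 266)))) (XT.nd (nat_lit 156) (nat_lit 532) (nat_lit 0) (XT.nd (nat_lit 78) (nat_lit 608) (nat_lit 0) (XT.lf (nat_lit 0) (nat_lit 17882396876) (nat_lit 684) (nat_lit 8400612461) (nat_lit 76) (nat_lit 4106581324) (nat_lit 299) (nat_lit 5) (nat_lit 308) (nat_lit 5) (nat_lit 300)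 (nat_lit 5) (nat_lit 478) (nat_lit 457) (nat_lit 265)) (XT.lf (nat_lit 0) (nat_lit 8416724046) (nat_lit 608) (nat_lit 12995227619) (nat_lit 684) (nat_lit 9475164769) (nat_lit 291) (nat_lit 5) (nat_lit 299) (nat_lit 5) (nat_lit 300) (nat_lit 5) (nat_lit 479) (nat_lit 457) (nat_lit 264))) (XT.nd (nat_lit 78) (nat_lit 532) (nat_lit 0) (XT.lf (nat_lit 0) (nat_lit 25136641861) (nat_lit 684) (nat_lit 5496822388) (nat_lit 76) (nat_lit 763426398) (nat_lit 291) (nat_lit 5) (nat_lit 300) (nat_lit 5) (nat_lit 292) (nat_lit 5) (nat_lit 480) (nat_lit 457) (nat_lit 263)) (XT.lf (nat_lit 0) (nat_lit 12090202539) (nat_lit 532) (nat_lit 17124778567) (nat_lit 608) (nat_lit 2699719852) (nat_lit 284) (nat_lit 5) (nat_lit 291) (nat_lit 5) (nat_lit 292) (nat_lit 5) (nat_lit 481) (nat_lit 457) (nat_lit 262))))) (XT.nd (nat_lit 312) (nat_lit 988) (nat_lit 0) (XT.nd (nat_lit 156) (nat_lit 532) (nat_lit 0) (XT.nd (nat_lit 78) (nat_lit 608)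 (nat_lit 0) (XT.lf (nat_lit 0) (nat_lit 1001853121) (nat_lit 608) (nat_lit 2141752865) (nat_lit 76) (nat_lit 29302567368) (nat_lit 283) (nat_lit 5) (nat_lit 291) (nat_lit 5) (nat_lit 284) (nat_lit 5) (nat_lit 482) (nat_lit 457) (nat_lit 261)) (XT.lf (nat_lit 0) (nat_lit 5024653357) (nat_lit 684) (nat_lit 16737128282) (nat_lit 76) (nat_lit 11223073246) (nat_lit 275) (nat_lit 5) (nat_lit 284) (nat_lit 5) (nat_lit 276) (nat_lit 5) (nat_lit 483) (nat_lit 457) (nat_lit 260))) (XT.nd (nat_lit 78) (nat_lit 0) (nat_lit 0) (XT.lf (nat_lit 0) (nat_lit 1692427750) (nat_lit 532) (nat_lit 7542138217) (nat_lit 608) (nat_lit 24303138154) (nat_lit 268) (nat_lit 5) (nat_lit 275) (nat_lit 5) (nat_lit 276) (nat_lit 5) (nat_lit 484) (nat_lit 457) (nat_lit 259)) (XT.lf (nat_lit 0) (nat_lit 13806994706) (nat_lit 608) (nat_lit 13157121615) (nat_lit 76) (nat_lit 7135936058) (nat_lit 268) (nat_lit 5) (nat_lit 276) (nat_lit 5) (nat_lit 269)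 (nat_lit 5) (nat_lit 485) (nat_lit 457) (nat_lit 258)))) (XT.nd (nat_lit 156) (nat_lit 456) (nat_lit 0) (XT.nd (nat_lit 78) (nat_lit 0) (nat_lit 0) (XT.lf (nat_lit 0) (nat_lit 6133727230) (nat_lit 532) (nat_lit 12513829396) (nat_lit 608) (nat_lit 16027785754) (nat_lit 261) (nat_lit 5) (nat_lit 268) (nat_lit 5) (nat_lit 269) (nat_lit 5) (nat_lit 486) (nat_lit 457) (nat_lit 257)) (XT.lf (nat_lit 0) (nat_lit 23787664783) (nat_lit 608) (nat_lit 9018006446) (nat_lit 76) (nat_lit 2457590069) (nat_lit 261) (nat_lit 5) (nat_lit 269) (nat_lit 5) (nat_lit 262) (nat_lit 5) (nat_lit 487) (nat_lit 457) (nat_lit 256))) (XT.nd (nat_lit 78) (nat_lit 0) (nat_lit 0) (XT.lf (nat_lit 0) (nat_lit 11182699938) (nat_lit 456) (nat_lit 18128118296) (nat_lit 532) (nat_lit 6551134388) (nat_lit 255) (nat_lit 5) (nat_lit 261) (nat_lit 5) (nat_lit 262) (nat_lit 5) (nat_lit 488) (nat_lit 457) (nat_lit 255)) (XT.lf (nat_lit 0) (nat_lit 32171390460)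 (nat_lit 456) (nat_lit 2916834292) (nat_lit 532) (nat_lit 1387723274) (nat_lit 255) (nat_lit 5) (nat_lit 261) (nat_lit 5) (nat_lit 262) (nat_lit 5) (nat_lit 489) (nat_lit 457) (nat_lit 254)))))) (XT.nd (nat_lit 624) (nat_lit 1900) (nat_lit 0) (XT.nd (nat_lit 312) (nat_lit 912) (nat_lit 0) (XT.nd (nat_lit 156) (nat_lit 456) (nat_lit 0) (XT.nd (nat_lit 78) (nat_lit 456) (nat_lit 0) (XT.lf (nat_lit 0) (nat_lit 4139131595) (nat_lit 532) (nat_lit 20255046686) (nat_lit 76) (nat_lit 12704494363) (nat_lit 248) (nat_lit 5) (nat_lit 255) (nat_lit 5) (nat_lit 249) (nat_lit 5) (nat_lit 490) (nat_lit 457) (nat_lit 253)) (XT.lf (nat_lit 0) (nat_lit 948271361) (nat_lit 456) (nat_lit 8935105116) (nat_lit 532) (nat_lit 27853906128) (nat_lit 242) (nat_lit 5) (nat_lit 248) (nat_lit 5) (nat_lit 249) (nat_lit 5) (nat_lit 491) (nat_lit 457) (nat_lit 252))) (XT.nd (nat_lit 78) (nat_lit 456) (nat_lit 0) (XT.lf (nat_lit 0) (nat_lit 16071301820)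 (nat_lit 532) (nat_lit 15258153115) (nat_lit 76) (nat_lit 7057455421) (nat_lit 242) (nat_lit 5) (nat_lit 249) (nat_lit 5) (nat_lit 243) (nat_lit 5) (nat_lit 492) (nat_lit 457) (nat_lit 251)) (XT.lf (nat_lit 0) (nat_lit 6963186517) (nat_lit 456) (nat_lit 15634769795) (nat_lit 532) (nat_lit 16453477969) (nat_lit 236) (nat_lit 5) (nat_lit 242) (nat_lit 5) (nat_lit 243) (nat_lit 5) (nat_lit 493) (nat_lit 457) (nat_lit 250)))) (XT.nd (nat_lit 156) (nat_lit 532) (nat_lit 0) (XT.nd (nat_lit 78) (nat_lit 380) (nat_lit 0) (XT.lf (nat_lit 0) (nat_lit 29478840665) (nat_lit 532) (nat_lit 9576845065) (nat_lit 76) (nat_lit 675455364) (nat_lit 236) (nat_lit 5) (nat_lit 243) (nat_lit 5) (nat_lit 237) (nat_lit 5) (nat_lit 494) (nat_lit 457) (nat_lit 249)) (XT.lf (nat_lit 0) (nat_lit 13720021698) (nat_lit 380) (nat_lit 23130606373) (nat_lit 456) (nat_lit 3572076824) (nat_lit 231) (nat_lit 5) (nat_lit 236) (nat_lit 5) (nat_lit 237)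 (nat_lit 5) (nat_lit 495) (nat_lit 457) (nat_lit 248))) (XT.nd (nat_lit 78) (nat_lit 456) (nat_lit 0) (XT.lf (nat_lit 0) (nat_lit 3339464184) (nat_lit 456) (nat_lit 3255586884) (nat_lit 76) (nat_lit 34536146325) (nat_lit 230) (nat_lit 5) (nat_lit 236) (nat_lit 5) (nat_lit 231) (nat_lit 5) (nat_lit 496) (nat_lit 457) (nat_lit 247)) (XT.lf (nat_lit 0) (nat_lit 10691597834) (nat_lit 532) (nat_lit 20684597387) (nat_lit 76) (nat_lit 10474537254) (nat_lit 224) (nat_lit 5) (nat_lit 231) (nat_lit 5) (nat_lit 225) (nat_lit 5) (nat_lit 497) (nat_lit 457) (nat_lit 246))))) (XT.nd (nat_lit 312) (nat_lit 1140) (nat_lit 0) (XT.nd (nat_lit 156) (nat_lit 380) (nat_lit 0) (XT.nd (nat_lit 78) (nat_lit 0) (nat_lit 0) (XT.lf (nat_lit 0) (nat_lit 3802179481) (nat_lit 380) (nat_lit 14595064413) (nat_lit 456) (nat_lit 24190621332) (nat_lit 219) (nat_lit 5) (nat_lit 224) (nat_lit 5) (nat_lit 225) (nat_lit 5) (nat_lit 498) (nat_lit 457)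 (nat_lit 245)) (XT.lf (nat_lit 0) (nat_lit 26568784086) (nat_lit 456) (nat_lit 13923991014) (nat_lit 76) (nat_lit 2847295184) (nat_lit 219) (nat_lit 5) (nat_lit 225) (nat_lit 5) (nat_lit 220) (nat_lit 5) (nat_lit 499) (nat_lit 457) (nat_lit 244))) (XT.nd (nat_lit 78) (nat_lit 0) (nat_lit 0) (XT.lf (nat_lit 0) (nat_lit 11765928385) (nat_lit 380) (nat_lit 23475138979) (nat_lit 456) (nat_lit 8866106287) (nat_lit 214) (nat_lit 5) (nat_lit 219) (nat_lit 5) (nat_lit 220) (nat_lit 5) (nat_lit 500) (nat_lit 457) (nat_lit 243)) (XT.lf (nat_lit 0) (nat_lit 38509283935) (nat_lit 380) (nat_lit 5802862896) (nat_lit 456) (nat_lit 580984521) (nat_lit 214) (nat_lit 5) (nat_lit 219) (nat_lit 5) (nat_lit 220) (nat_lit 5) (nat_lit 501) (nat_lit 457) (nat_lit 242)))) (XT.nd (nat_lit 156) (nat_lit 304) (nat_lit 0) (XT.nd (nat_lit 78) (nat_lit 380) (nat_lit 0) (XT.lf (nat_lit 0) (nat_lit 8116233397) (nat_lit 456) (nat_lit 25139727939)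 (nat_lit 76) (nat_lit 12434851279) (nat_lit 208) (nat_lit 5) (nat_lit 214) (nat_lit 5) (nat_lit 209) (nat_lit 5) (nat_lit 502) (nat_lit 457) (nat_lit 241)) (XT.lf (nat_lit 0) (nat_lit 1884695158) (nat_lit 380) (nat_lit 15316754583) (nat_lit 456) (nat_lit 29306639290) (nat_lit 203) (nat_lit 5) (nat_lit 208) (nat_lit 5) (nat_lit 209) (nat_lit 5) (nat_lit 503) (nat_lit 457) (nat_lit 240))) (XT.nd (nat_lit 78) (nat_lit 304) (nat_lit 0) (XT.lf (nat_lit 0) (nat_lit 26844088442) (nat_lit 456) (nat_lit 17142669874) (nat_lit 76) (nat_lit 3354579503) (nat_lit 203) (nat_lit 5) (nat_lit 209) (nat_lit 5) (nat_lit 204) (nat_lit 5) (nat_lit 504) (nat_lit 457) (nat_lit 239)) (XT.lf (nat_lit 0) (nat_lit 11227290918) (nat_lit 304) (nat_lit 25806453629) (nat_lit 380) (nat_lit 11158107431) (nat_lit 199) (nat_lit 5) (nat_lit 203) (nat_lit 5) (nat_lit 204) (nat_lit 5) (nat_lit 505) (nat_lit 457) (nat_lit 238))))))))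
noncomputable def xc207 : XT := (XT.nd (nat_lit 2418) (nat_lit 1292) (nat_lit 0) (XT.nd (nat_lit 1170) (nat_lit 2356) (nat_lit 0) (XT.nd (nat_lit 546) (nat_lit 1444) (nat_lit 0) (XT.nd (nat_lit 234) (nat_lit 684) (nat_lit 0) (XT.nd (nat_lit 78) (nat_lit 684) (nat_lit 0) (XT.lf (nat_lit 0) (nat_lit 40797165359) (nat_lit 304) (nat_lit 6903224511) (nat_lit 380) (nat_lit 1362352759) (nat_lit 199) (nat_lit 5) (nat_lit 203) (nat_lit 5) (nat_lit 204) (nat_lit 5) (nat_lit 506) (nat_lit 457) (nat_lit 237)) (XT.nd (nat_lit 78) (nat_lit 304) (nat_lit 0) (XT.lf (nat_lit 0) (nat_lit 8886806695) (nat_lit 380) (nat_lit 28444732600) (nat_lit 76) (nat_lit 12615809015) (nat_lit 194) (nat_lit 5) (nat_lit 199) (nat_lit 5) (nat_lit 195) (nat_lit 5) (nat_lit 507) (nat_lit 457) (nat_lit 236)) (XT.lf (nat_lit 0) (nat_lit 1419770823) (nat_lit 304) (nat_lit 18160824368) (nat_lit 380) (nat_lit 31272556275) (nat_lit 190) (nat_lit 5) (nat_lit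 194) (nat_lit 5) (nat_lit 195) (nat_lit 5) (nat_lit 508) (nat_lit 457) (nat_lit 235)))) (XT.nd (nat_lit 156) (nat_lit 380) (nat_lit 0) (XT.nd (nat_lit 78) (nat_lit 304) (nat_lit 0) (XT.lf (nat_lit 0) (nat_lit 30898779275) (nat_lit 380) (nat_lit 19034884652) (nat_lit 76) (nat_lit 1843357376) (nat_lit 190) (nat_lit 5) (nat_lit 195) (nat_lit 5) (nat_lit 191) (nat_lit 5) (nat_lit 509) (nat_lit 457) (nat_lit 234)) (XT.lf (nat_lit 0) (nat_lit 12333919272) (nat_lit 304) (nat_lit 30519277320) (nat_lit 380) (nat_lit 9866510059) (nat_lit 186) (nat_lit 5) (nat_lit 190) (nat_lit 5) (nat_lit 191) (nat_lit 5) (nat_lit 510) (nat_lit 457) (nat_lit 233))) (XT.nd (nat_lit 78) (nat_lit 304) (nat_lit 0) (XT.lf (nat_lit 0) (nat_lit 1639223254) (nat_lit 380) (nat_lit 8669534262) (nat_lit 76) (nat_lit 43375716266) (nat_lit 185) (nat_lit 5) (nat_lit 190) (nat_lit 5) (nat_lit 186) (nat_lit 5) (nat_lit 511) (nat_lit 457) (nat_lit 232)) (XT.lf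 (nat_lit 0) (nat_lit 13628779164) (nat_lit 380) (nat_lit 30398876919) (nat_lit 76) (nat_lit 10637488512) (nat_lit 181) (nat_lit 5) (nat_lit 186) (nat_lit 5) (nat_lit 182) (nat_lit 5) (nat_lit 512) (nat_lit 457) (nat_lit 231))))) (XT.nd (nat_lit 312) (nat_lit 836) (nat_lit 0) (XT.nd (nat_lit 156) (nat_lit 304) (nat_lit 0) (XT.nd (nat_lit 78) (nat_lit 0) (nat_lit 0) (XT.lf (nat_lit 0) (nat_lit 2641393552) (nat_lit 304) (nat_lit 23550887783) (nat_lit 380) (nat_lit 29476526448) (nat_lit 177) (nat_lit 5) (nat_lit 181) (nat_lit 5) (nat_lit 182) (nat_lit 5) (nat_lit 513) (nat_lit 457) (nat_lit 230)) (XT.lf (nat_lit 0) (nat_lit 37293576189) (nat_lit 304) (nat_lit 2144494751) (nat_lit 380) (nat_lit 17255348496) (nat_lit 177) (nat_lit 5) (nat_lit 181) (nat_lit 5) (nat_lit 182) (nat_lit 5) (nat_lit 514) (nat_lit 457) (nat_lit 229))) (XT.nd (nat_lit 78) (nat_lit 76) (nat_lit 0) (XT.lf (nat_lit 0) (nat_lit 15342195852) (nat_lit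 228) (nat_lit 38076298781) (nat_lit 304) (nat_lit 4320157031) (nat_lit 174) (nat_lit 5) (nat_lit 177) (nat_lit 5) (nat_lit 178) (nat_lit 5) (nat_lit 515) (nat_lit 457) (nat_lit 228)) (XT.lf (nat_lit 0) (nat_lit 9044938615) (nat_lit 304) (nat_lit 7397322703) (nat_lit 76) (nat_lit 42363857345) (nat_lit 173) (nat_lit 5) (nat_lit 177) (nat_lit 5) (nat_lit 174) (nat_lit 5) (nat_lit 516) (nat_lit 457) (nat_lit 227)))) (XT.nd (nat_lit 156) (nat_lit 304) (nat_lit 0) (XT.nd (nat_lit 78) (nat_lit 228) (nat_lit 0) (XT.lf (nat_lit 0) (nat_lit 23062454638) (nat_lit 380) (nat_lit 30779302755) (nat_lit 76) (nat_lit 6052420149) (nat_lit 169) (nat_lit 5) (nat_lit 174) (nat_lit 5) (nat_lit 170) (nat_lit 5) (nat_lit 517) (nat_lit 457) (nat_lit 226)) (XT.lf (nat_lit 0) (nat_lit 5808897054) (nat_lit 228) (nat_lit 31984187008) (nat_lit 304) (nat_lit 23213016520) (nat_lit 166) (nat_lit 5) (nat_lit 169) (nat_lit 5) (nat_lit 170) (nat_lit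 5) (nat_lit 518) (nat_lit 457) (nat_lit 225))) (XT.nd (nat_lit 78) (nat_lit 304) (nat_lit 0) (XT.lf (nat_lit 0) (nat_lit 44123351497) (nat_lit 228) (nat_lit 9151628760) (nat_lit 304) (nat_lit 8867120652) (nat_lit 166) (nat_lit 5) (nat_lit 169) (nat_lit 5) (nat_lit 170) (nat_lit 5) (nat_lit 519) (nat_lit 457) (nat_lit 224)) (XT.lf (nat_lit 0) (nat_lit 6131215031) (nat_lit 304) (nat_lit 42826888925) (nat_lit 76) (nat_lit 14342252098) (nat_lit 162) (nat_lit 5) (nat_lit 166) (nat_lit 5) (nat_lit 163) (nat_lit 5) (nat_lit 520) (nat_lit 457) (nat_lit 223)))))) (XT.nd (nat_lit 624) (nat_lit 1140) (nat_lit 0) (XT.nd (nat_lit 312) (nat_lit 684) (nat_lit 0) (XT.nd (nat_lit 156) (nat_lit 304) (nat_lit 0) (XT.nd (nat_lit 78) (nat_lit 228) (nat_lit 0) (XT.lf (nat_lit 0) (nat_lit 21674223616) (nat_lit 304) (nat_lit 4180597412) (nat_lit 76) (nat_lit 38627715760) (nat_lit 162) (nat_lit 5) (nat_lit 166) (nat_lit 5) (nat_lit 163)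 (nat_lit 5) (nat_lit 521) (nat_lit 457) (nat_lit 222)) (XT.lf (nat_lit 0) (nat_lit 36331805421) (nat_lit 228) (nat_lit 1699579439) (nat_lit 304) (nat_lit 27658362242) (nat_lit 159) (nat_lit 5) (nat_lit 162) (nat_lit 5) (nat_lit 163) (nat_lit 5) (nat_lit 522) (nat_lit 457) (nat_lit 221))) (XT.nd (nat_lit 78) (nat_lit 76) (nat_lit 0) (XT.lf (nat_lit 0) (nat_lit 11206557669) (nat_lit 228) (nat_lit 44044514293) (nat_lit 304) (nat_lit 11670947461) (nat_lit 156) (nat_lit 5) (nat_lit 159) (nat_lit 5) (nat_lit 160) (nat_lit 5) (nat_lit 523) (nat_lit 457) (nat_lit 220)) (XT.lf (nat_lit 0) (nat_lit 5017355738) (nat_lit 304) (nat_lit 14660688454) (nat_lit 76) (nat_lit 48502387010) (nat_lit 155) (nat_lit 5) (nat_lit 159) (nat_lit 5) (nat_lit 156) (nat_lit 5) (nat_lit 524) (nat_lit 457) (nat_lit 219)))) (XT.nd (nat_lit 156) (nat_lit 228) (nat_lit 0) (XT.nd (nat_lit 78) (nat_lit 228) (nat_lit 0) (XT.lf (nat_lit 0) (nat_lit 22295994698)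 (nat_lit 304) (nat_lit 41465533596) (nat_lit 76) (nat_lit 5701872615) (nat_lit 152) (nat_lit 5) (nat_lit 156) (nat_lit 5) (nat_lit 153) (nat_lit 5) (nat_lit 525) (nat_lit 457) (nat_lit 218)) (XT.lf (nat_lit 0) (nat_lit 1282824404) (nat_lit 228) (nat_lit 39165525627) (nat_lit 304) (nat_lit 30325848985) (nat_lit 149) (nat_lit 5) (nat_lit 152) (nat_lit 5) (nat_lit 153) (nat_lit 5) (nat_lit 526) (nat_lit 457) (nat_lit 217))) (XT.nd (nat_lit 78) (nat_lit 228) (nat_lit 0) (XT.lf (nat_lit 0) (nat_lit 46161456183) (nat_lit 228) (nat_lit 13401241607) (nat_lit 304) (nat_lit 12549100647) (nat_lit 149) (nat_lit 5) (nat_lit 152) (nat_lit 5) (nat_lit 153) (nat_lit 5) (nat_lit 527) (nat_lit 457) (nat_lit 216)) (XT.lf (nat_lit 0) (nat_lit 5960599424) (nat_lit 228) (nat_lit 54396658685) (nat_lit 76) (nat_lit 13121244436) (nat_lit 146) (nat_lit 5) (nat_lit 149) (nat_lit 5) (nat_lit 147) (nat_lit 5) (nat_lit 528) (nat_lit 457) (nat_lit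 215))))) (XT.nd (nat_lit 312) (nat_lit 684) (nat_lit 0) (XT.nd (nat_lit 156) (nat_lit 228) (nat_lit 0) (XT.nd (nat_lit 78) (nat_lit 228) (nat_lit 0) (XT.lf (nat_lit 0) (nat_lit 25169428572) (nat_lit 228) (nat_lit 9143072881) (nat_lit 76) (nat_lit 40558097014) (nat_lit 146) (nat_lit 5) (nat_lit 149) (nat_lit 5) (nat_lit 147) (nat_lit 5) (nat_lit 529) (nat_lit 457) (nat_lit 214)) (XT.lf (nat_lit 0) (nat_lit 38211680586) (nat_lit 228) (nat_lit 7108927811) (nat_lit 304) (nat_lit 30972866316) (nat_lit 143) (nat_lit 5) (nat_lit 146) (nat_lit 5) (nat_lit 147) (nat_lit 5) (nat_lit 530) (nat_lit 457) (nat_lit 213))) (XT.nd (nat_lit 78) (nat_lit 76) (nat_lit 0) (XT.lf (nat_lit 0) (nat_lit 9397598017) (nat_lit 152) (nat_lit 57062088696) (nat_lit 228) (nat_lit 11287849663) (nat_lit 141) (nat_lit 5) (nat_lit 143) (nat_lit 5) (nat_lit 144) (nat_lit 5) (nat_lit 531) (nat_lit 457) (nat_lit 212)) (XT.lf (nat_lit 0) (nat_lit 9269862164)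 (nat_lit 228) (nat_lit 20314359116) (nat_lit 76) (nat_lit 49644680942) (nat_lit 140) (nat_lit 5) (nat_lit 143) (nat_lit 5) (nat_lit 141) (nat_lit 5) (nat_lit 532) (nat_lit 457) (nat_lit 211)))) (XT.nd (nat_lit 156) (nat_lit 456) (nat_lit 0) (XT.nd (nat_lit 78) (nat_lit 0) (nat_lit 0) (XT.lf (nat_lit 0) (nat_lit 29626610794) (nat_lit 228) (nat_lit 874427602) (nat_lit 304) (nat_lit 50241809611) (nat_lit 137) (nat_lit 5) (nat_lit 140) (nat_lit 5) (nat_lit 141) (nat_lit 5) (nat_lit 533) (nat_lit 457) (nat_lit 210)) (XT.lf (nat_lit 0) (nat_lit 52850991381) (nat_lit 304) (nat_lit 1093749313) (nat_lit 76) (nat_lit 28343016246) (nat_lit 137) (nat_lit 5) (nat_lit 141) (nat_lit 5) (nat_lit 138) (nat_lit 5) (nat_lit 534) (nat_lit 457) (nat_lit 209))) (XT.nd (nat_lit 78) (nat_lit 304) (nat_lit 0) (XT.lf (nat_lit 0) (nat_lit 51422202909) (nat_lit 152) (nat_lit 24951059007) (nat_lit 228) (nat_lit 7490696675) (nat_lit 135) (nat_lit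 5) (nat_lit 137) (nat_lit 5) (nat_lit 138) (nat_lit 5) (nat_lit 535) (nat_lit 457) (nat_lit 208)) (XT.lf (nat_lit 0) (nat_lit 15074654468) (nat_lit 304) (nat_lit 65229988365) (nat_lit 76) (nat_lit 5170770276) (nat_lit 131) (nat_lit 5) (nat_lit 135) (nat_lit 5) (nat_lit 132) (nat_lit 5) (nat_lit 536) (nat_lit 457) (nat_lit 207))))))) (XT.nd (nat_lit 56706) (nat_lit 0) (nat_lit 14060) (XT.nd (nat_lit 624) (nat_lit 380) (nat_lit 0) (XT.nd (nat_lit 312) (nat_lit 532) (nat_lit 0) (XT.nd (nat_lit 156) (nat_lit 228) (nat_lit 0) (XT.nd (nat_lit 78) (nat_lit 152) (nat_lit 0) (XT.lf (nat_lit 0) (nat_lit 38743161230) (nat_lit 304) (nat_lit 12273581884) (nat_lit 76) (nat_lit 36098940686) (nat_lit 131) (nat_lit 5) (nat_lit 135) (nat_lit 5) (nat_lit 132) (nat_lit 5) (nat_lit 537) (nat_lit 457) (nat_lit 206)) (XT.lf (nat_lit 0) (nat_lit 43110828126) (nat_lit 152) (nat_lit 20424204484) (nat_lit 228) (nat_lit 25257730735) (nat_lit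 129) (nat_lit 5) (nat_lit 131) (nat_lit 5) (nat_lit 132) (nat_lit 5) (nat_lit 538) (nat_lit 457) (nat_lit 205))) (XT.nd (nat_lit 78) (nat_lit 76) (nat_lit 0) (XT.lf (nat_lit 0) (nat_lit 9976879211) (nat_lit 152) (nat_lit 79420324812) (nat_lit 228) (nat_lit 1113154953) (nat_lit 127) (nat_lit 5) (nat_lit 129) (nat_lit 5) (nat_lit 130) (nat_lit 5) (nat_lit 539) (nat_lit 457) (nat_lit 204)) (XT.lf (nat_lit 0) (nat_lit 23959192782) (nat_lit 228) (nat_lit 24460837051) (nat_lit 76) (nat_lit 43832592158) (nat_lit 126) (nat_lit 5) (nat_lit 129) (nat_lit 5) (nat_lit 127) (nat_lit 5) (nat_lit 540) (nat_lit 457) (nat_lit 203)))) (XT.nd (nat_lit 156) (nat_lit 380) (nat_lit 0) (XT.nd (nat_lit 78) (nat_lit 0) (nat_lit 0) (XT.lf (nat_lit 0) (nat_lit 33943434464) (nat_lit 152) (nat_lit 16143129939) (nat_lit 228) (nat_lit 43950501066) (nat_lit 124) (nat_lit 5) (nat_lit 126) (nat_lit 5) (nat_lit 127) (nat_lit 5) (nat_lit 541) (nat_lit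 457) (nat_lit 202)) (XT.lf (nat_lit 0) (nat_lit 77410551544) (nat_lit 228) (nat_lit 1435108745) (nat_lit 76) (nat_lit 17016998144) (nat_lit 124) (nat_lit 5) (nat_lit 127) (nat_lit 5) (nat_lit 125) (nat_lit 5) (nat_lit 542) (nat_lit 457) (nat_lit 201))) (XT.nd (nat_lit 78) (nat_lit 152) (nat_lit 0) (XT.lf (nat_lit 0) (nat_lit 8401587437) (nat_lit 228) (nat_lit 37811161213) (nat_lit 76) (nat_lit 51505734745) (nat_lit 121) (nat_lit 5) (nat_lit 124) (nat_lit 5) (nat_lit 122) (nat_lit 5) (nat_lit 543) (nat_lit 457) (nat_lit 200)) (XT.lf (nat_lit 0) (nat_lit 23769038005) (nat_lit 152) (nat_lit 12163082914) (nat_lit 228) (nat_lit 63685118453) (nat_lit 119) (nat_lit 5) (nat_lit 121) (nat_lit 5) (nat_lit 122) (nat_lit 5) (nat_lit 544) (nat_lit 457) (nat_lit 199))))) (XT.nd (nat_lit 55770) (nat_lit 0) (nat_lit 16188) (XT.nd (nat_lit 156) (nat_lit 228) (nat_lit 0) (XT.nd (nat_lit 78) (nat_lit 152) (nat_lit 0) (XT.lf (nat_lit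 0) (nat_lit 64893359775) (nat_lit 228) (nat_lit 13815599660) (nat_lit 76) (nat_lit 22845854925) (nat_lit 119) (nat_lit 5) (nat_lit 122) (nat_lit 5) (nat_lit 120) (nat_lit 5) (nat_lit 545) (nat_lit 457) (nat_lit 198)) (XT.lf (nat_lit 0) (nat_lit 50949980556) (nat_lit 152) (nat_lit 44382657767) (nat_lit 228) (nat_lit 8199602212) (nat_lit 117) (nat_lit 5) (nat_lit 119) (nat_lit 5) (nat_lit 120) (nat_lit 5) (nat_lit 546) (nat_lit 457) (nat_lit 197))) (XT.nd (nat_lit 55536) (nat_lit 0) (nat_lit 16188) (XT.lf (nat_lit 0) (nat_lit 12412997662) (nat_lit 152) (nat_lit 8550285483) (nat_lit 228) (nat_lit 84591840072) (nat_lit 114) (nat_lit 5) (nat_lit 116) (nat_lit 5) (nat_lit 117) (nat_lit 5) (nat_lit 547) (nat_lit 457) (nat_lit 196)) (XT.lf (nat_lit 0) (nat_lit 5167571979) (nat_lit 1292) (nat_lit 3074049003) (nat_lit 1292) (nat_lit 3074049003) (nat_lit 327) (nat_lit 3) (nat_lit 344) (nat_lit 3) (nat_lit 344) (nat_lit 5)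 (nat_lit 458) (nat_lit 458) (nat_lit 284)))) (XT.nd (nat_lit 156) (nat_lit 0) (nat_lit 76) (XT.nd (nat_lit 78) (nat_lit 0) (nat_lit 76) (XT.lf (nat_lit 76) (nat_lit 5224126532) (nat_lit 0) (nat_lit 5444460229) (nat_lit 1292) (nat_lit 12296864924) (nat_lit 328) (nat_lit 5) (nat_lit 327) (nat_lit 3) (nat_lit 344) (nat_lit 5) (nat_lit 459) (nat_lit 458) (nat_lit 283)) (XT.lf (nat_lit 0) (nat_lit 11126685256) (nat_lit 1216) (nat_lit 6304552740) (nat_lit 1292) (nat_lit 5874909412) (nat_lit 328) (nat_lit 5) (nat_lit 344) (nat_lit 5) (nat_lit 345) (nat_lit 5) (nat_lit 460) (nat_lit 458) (nat_lit 282))) (XT.nd (nat_lit 78) (nat_lit 0) (nat_lit 76) (XT.lf (nat_lit 76) (nat_lit 5526539391) (nat_lit 0) (nat_lit 6174157724) (nat_lit 1292) (nat_lit 11953302001) (nat_lit 329) (nat_lit 5) (nat_lit 328) (nat_lit 5) (nat_lit 345) (nat_lit 5) (nat_lit 461) (nat_lit 458) (nat_lit 281)) (XT.lf (nat_lit 0) (nat_lit 12403605481) (nat_lit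 1216) (nat_lit 6224167987) (nat_lit 1292) (nat_lit 5381162839) (nat_lit 329) (nat_lit 5) (nat_lit 345) (nat_lit 5) (nat_lit 346) (nat_lit 5) (nat_lit 462) (nat_lit 458) (nat_lit 280)))))) (XT.nd (nat_lit 624) (nat_lit 2280) (nat_lit 0) (XT.nd (nat_lit 312) (nat_lit 0) (nat_lit 152) (XT.nd (nat_lit 156) (nat_lit 0) (nat_lit 76) (XT.nd (nat_lit 78) (nat_lit 0) (nat_lit 76) (XT.lf (nat_lit 76) (nat_lit 6091180114) (nat_lit 0) (nat_lit 7151516745) (nat_lit 1292) (nat_lit 11128372093) (nat_lit 330) (nat_lit 5) (nat_lit 329) (nat_lit 5) (nat_lit 346) (nat_lit 5) (nat_lit 463) (nat_lit 458) (nat_lit 279)) (XT.lf (nat_lit 0) (nat_lit 14210853920) (nat_lit 1216) (nat_lit 5887002912) (nat_lit 1292) (nat_lit 4643092163) (nat_lit 330) (nat_lit 5) (nat_lit 346) (nat_lit 5) (nat_lit 347) (nat_lit 5) (nat_lit 464) (nat_lit 458) (nat_lit 278))) (XT.nd (nat_lit 78) (nat_lit 0) (nat_lit 76) (XT.lf (nat_lit 76) (nat_lit 6939463763)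 (nat_lit 0) (nat_lit 8401772581) (nat_lit 1292) (nat_lit 9776693874) (nat_lit 331) (nat_lit 5) (nat_lit 330) (nat_lit 5) (nat_lit 347) (nat_lit 5) (nat_lit 465) (nat_lit 458) (nat_lit 277)) (XT.lf (nat_lit 0) (nat_lit 16596386385) (nat_lit 1216) (nat_lit 5271589865) (nat_lit 1292) (nat_lit 3635519138) (nat_lit 331) (nat_lit 5) (nat_lit 347) (nat_lit 5) (nat_lit 348) (nat_lit 5) (nat_lit 466) (nat_lit 458) (nat_lit 276)))) (XT.nd (nat_lit 156) (nat_lit 0) (nat_lit 76) (XT.nd (nat_lit 78) (nat_lit 0) (nat_lit 76) (XT.lf (nat_lit 76) (nat_lit 8094417417) (nat_lit 0) (nat_lit 9951671299) (nat_lit 1292) (nat_lit 7849832049) (nat_lit 332) (nat_lit 5) (nat_lit 331) (nat_lit 5) (nat_lit 348) (nat_lit 5) (nat_lit 467) (nat_lit 458) (nat_lit 275)) (XT.lf (nat_lit 0) (nat_lit 19611370718) (nat_lit 1216) (nat_lit 4354848189) (nat_lit 1292) (nat_lit 2331737522) (nat_lit 332) (nat_lit 5) (nat_lit 348) (nat_lit 5) (nat_lit 349)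 (nat_lit 5) (nat_lit 468) (nat_lit 458) (nat_lit 274))) (XT.nd (nat_lit 78) (nat_lit 0) (nat_lit 76) (XT.lf (nat_lit 76) (nat_lit 9580771472) (nat_lit 0) (nat_lit 11829590795) (nat_lit 1292) (nat_lit 5296088540) (nat_lit 333) (nat_lit 5) (nat_lit 332) (nat_lit 5) (nat_lit 349) (nat_lit 5) (nat_lit 469) (nat_lit 458) (nat_lit 273)) (XT.lf (nat_lit 0) (nat_lit 23310404138) (nat_lit 1216) (nat_lit 3111991888) (nat_lit 1292) (nat_lit 703391745) (nat_lit 333) (nat_lit 5) (nat_lit 349) (nat_lit 5) (nat_lit 350) (nat_lit 5) (nat_lit 470) (nat_lit 458) (nat_lit 272))))) (XT.nd (nat_lit 312) (nat_lit 1368) (nat_lit 0) (XT.nd (nat_lit 156) (nat_lit 1216) (nat_lit 0) (XT.nd (nat_lit 78) (nat_lit 0) (nat_lit 0) (XT.lf (nat_lit 76) (nat_lit 11425057381) (nat_lit 0) (nat_lit 14065667705) (nat_lit 1292) (nat_lit 2060281590) (nat_lit 334) (nat_lit 5) (nat_lit 333) (nat_lit 5) (nat_lit 350) (nat_lit 5) (nat_lit 471) (nat_lit 458)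 (nat_lit 271)) (XT.lf (nat_lit 76) (nat_lit 26459170870) (nat_lit 0) (nat_lit 1305117963) (nat_lit 1292) (nat_lit 223858481) (nat_lit 334) (nat_lit 5) (nat_lit 333) (nat_lit 5) (nat_lit 350) (nat_lit 5) (nat_lit 472) (nat_lit 458) (nat_lit 270))) (XT.nd (nat_lit 78) (nat_lit 0) (nat_lit 0) (XT.lf (nat_lit 0) (nat_lit 1879090410) (nat_lit 1292) (nat_lit 14793865163) (nat_lit 1368) (nat_lit 11757646583) (nat_lit 317) (nat_lit 5) (nat_lit 334) (nat_lit 5) (nat_lit 335) (nat_lit 5) (nat_lit 473) (nat_lit 458) (nat_lit 269)) (XT.lf (nat_lit 76) (nat_lit 392352262) (nat_lit 0) (nat_lit 3677122165) (nat_lit 1368) (nat_lit 24815924492) (nat_lit 318) (nat_lit 5) (nat_lit 317) (nat_lit 5) (nat_lit 335) (nat_lit 5) (nat_lit 474) (nat_lit 458) (nat_lit 268)))) (XT.nd (nat_lit 156) (nat_lit 608) (nat_lit 0) (XT.nd (nat_lit 78) (nat_lit 836) (nat_lit 0) (XT.lf (nat_lit 0) (nat_lit 6566400113) (nat_lit 1292) (nat_lit 13109732856)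 (nat_lit 76) (nat_lit 9670481855) (nat_lit 318) (nat_lit 5) (nat_lit 335) (nat_lit 5) (nat_lit 319) (nat_lit 5) (nat_lit 475) (nat_lit 458) (nat_lit 267)) (XT.lf (nat_lit 0) (nat_lit 2749424464) (nat_lit 836) (nat_lit 6448380499) (nat_lit 912) (nat_lit 20622075242) (nat_lit 307) (nat_lit 5) (nat_lit 318) (nat_lit 5) (nat_lit 319) (nat_lit 5) (nat_lit 476) (nat_lit 458) (nat_lit 266))) (XT.nd (nat_lit 78) (nat_lit 608) (nat_lit 0) (XT.lf (nat_lit 0) (nat_lit 12107633061) (nat_lit 912) (nat_lit 11023542359) (nat_lit 76) (nat_lit 7170183829) (nat_lit 307) (nat_lit 5) (nat_lit 319) (nat_lit 5) (nat_lit 308) (nat_lit 5) (nat_lit 477) (nat_lit 458) (nat_lit 265)) (XT.lf (nat_lit 0) (nat_lit 5546276755) (nat_lit 608) (nat_lit 9672537559) (nat_lit 684) (nat_lit 15575046732) (nat_lit 299) (nat_lit 5) (nat_lit 307) (nat_lit 5) (nat_lit 308) (nat_lit 5) (nat_lit 478) (nat_lit 458) (nat_lit 264))))))))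
noncomputable def xc208 : XT := (XT.nd (nat_lit 2418) (nat_lit 4788) (nat_lit 0) (XT.nd (nat_lit 1170) (nat_lit 3952) (nat_lit 0) (XT.nd (nat_lit 546) (nat_lit 1976) (nat_lit 0) (XT.nd (nat_lit 234) (nat_lit 1748) (nat_lit 0) (XT.nd (nat_lit 78) (nat_lit 608) (nat_lit 0) (XT.lf (nat_lit 0) (nat_lit 18572988186) (nat_lit 684) (nat_lit 8502962703) (nat_lit 76) (nat_lit 4220697421) (nat_lit 299) (nat_lit 5) (nat_lit 308) (nat_lit 5) (nat_lit 300) (nat_lit 5) (nat_lit 479) (nat_lit 458) (nat_lit 263)) (XT.nd (nat_lit 78) (nat_lit 0) (nat_lit 0) (XT.lf (nat_lit 0) (nat_lit 8817426565) (nat_lit 608) (nat_lit 13387938736) (nat_lit 684) (nat_lit 9603826674) (nat_lit 291) (nat_lit 5) (nat_lit 299) (nat_lit 5) (nat_lit 300) (nat_lit 5) (nat_lit 480) (nat_lit 458) (nat_lit 262)) (XT.lf (nat_lit 0) (nat_lit 26037369901) (nat_lit 684) (nat_lit 5513410373) (nat_lit 76) (nat_lit 783612112) (nat_lit 291) (nat_lit 5) (nat_lit 300)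 (nat_lit 5) (nat_lit 292) (nat_lit 5) (nat_lit 481) (nat_lit 458) (nat_lit 261)))) (XT.nd (nat_lit 156) (nat_lit 1140) (nat_lit 0) (XT.nd (nat_lit 78) (nat_lit 76) (nat_lit 0) (XT.lf (nat_lit 0) (nat_lit 12599771217) (nat_lit 532) (nat_lit 17635429099) (nat_lit 608) (nat_lit 2632622640) (nat_lit 284) (nat_lit 5) (nat_lit 291) (nat_lit 5) (nat_lit 292) (nat_lit 5) (nat_lit 482) (nat_lit 458) (nat_lit 260)) (XT.lf (nat_lit 0) (nat_lit 1172878678) (nat_lit 608) (nat_lit 2060609225) (nat_lit 76) (nat_lit 30181835956) (nat_lit 283) (nat_lit 5) (nat_lit 291) (nat_lit 5) (nat_lit 284) (nat_lit 5) (nat_lit 483) (nat_lit 458) (nat_lit 259))) (XT.nd (nat_lit 78) (nat_lit 532) (nat_lit 0) (XT.lf (nat_lit 0) (nat_lit 5313695946) (nat_lit 684) (nat_lit 17091173495) (nat_lit 76) (nat_lit 11565376567) (nat_lit 275) (nat_lit 5) (nat_lit 284) (nat_lit 5) (nat_lit 276) (nat_lit 5) (nat_lit 484) (nat_lit 458) (nat_lit 258)) (XT.lf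 (nat_lit 0) (nat_lit 1889817564) (nat_lit 532) (nat_lit 7757469499) (nat_lit 608) (nat_lit 24892472382) (nat_lit 268) (nat_lit 5) (nat_lit 275) (nat_lit 5) (nat_lit 276) (nat_lit 5) (nat_lit 485) (nat_lit 458) (nat_lit 257))))) (XT.nd (nat_lit 312) (nat_lit 988) (nat_lit 0) (XT.nd (nat_lit 156) (nat_lit 456) (nat_lit 0) (XT.nd (nat_lit 78) (nat_lit 532) (nat_lit 0) (XT.lf (nat_lit 0) (nat_lit 14353038732) (nat_lit 608) (nat_lit 13405633625) (nat_lit 76) (nat_lit 7360421446) (nat_lit 268) (nat_lit 5) (nat_lit 276) (nat_lit 5) (nat_lit 269) (nat_lit 5) (nat_lit 486) (nat_lit 458) (nat_lit 256)) (XT.lf (nat_lit 0) (nat_lit 6462507336) (nat_lit 532) (nat_lit 12873861944) (nat_lit 608) (nat_lit 16375346819) (nat_lit 261) (nat_lit 5) (nat_lit 268) (nat_lit 5) (nat_lit 269) (nat_lit 5) (nat_lit 487) (nat_lit 458) (nat_lit 255))) (XT.nd (nat_lit 78) (nat_lit 456) (nat_lit 0) (XT.lf (nat_lit 0) (nat_lit 24627055718) (nat_lit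 608) (nat_lit 9144365109) (nat_lit 76) (nat_lit 2545960653) (nat_lit 261) (nat_lit 5) (nat_lit 269) (nat_lit 5) (nat_lit 262) (nat_lit 5) (nat_lit 488) (nat_lit 458) (nat_lit 254)) (XT.lf (nat_lit 0) (nat_lit 11660948923) (nat_lit 456) (nat_lit 18652664281) (nat_lit 532) (nat_lit 6620489196) (nat_lit 255) (nat_lit 5) (nat_lit 261) (nat_lit 5) (nat_lit 262) (nat_lit 5) (nat_lit 489) (nat_lit 458) (nat_lit 253)))) (XT.nd (nat_lit 156) (nat_lit 456) (nat_lit 0) (XT.nd (nat_lit 78) (nat_lit 532) (nat_lit 0) (XT.lf (nat_lit 0) (nat_lit 33275141870) (nat_lit 456) (nat_lit 2985603822) (nat_lit 532) (nat_lit 1305879999) (nat_lit 255) (nat_lit 5) (nat_lit 261) (nat_lit 5) (nat_lit 262) (nat_lit 5) (nat_lit 490) (nat_lit 458) (nat_lit 252)) (XT.lf (nat_lit 0) (nat_lit 4382386760) (nat_lit 532) (nat_lit 20719685926) (nat_lit 76) (nat_lit 13105983411) (nat_lit 248) (nat_lit 5) (nat_lit 255) (nat_lit 5) (nat_lit 249) (nat_lit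 5) (nat_lit 491) (nat_lit 458) (nat_lit 251))) (XT.nd (nat_lit 78) (nat_lit 0) (nat_lit 0) (XT.lf (nat_lit 0) (nat_lit 1118329583) (nat_lit 456) (nat_lit 9178522264) (nat_lit 532) (nat_lit 28569035850) (nat_lit 242) (nat_lit 5) (nat_lit 248) (nat_lit 5) (nat_lit 249) (nat_lit 5) (nat_lit 492) (nat_lit 458) (nat_lit 250)) (XT.lf (nat_lit 0) (nat_lit 16667237856) (nat_lit 532) (nat_lit 15575231057) (nat_lit 76) (nat_lit 7292630800) (nat_lit 242) (nat_lit 5) (nat_lit 249) (nat_lit 5) (nat_lit 243) (nat_lit 5) (nat_lit 493) (nat_lit 458) (nat_lit 249)))))) (XT.nd (nat_lit 624) (nat_lit 1824) (nat_lit 0) (XT.nd (nat_lit 312) (nat_lit 1216) (nat_lit 0) (XT.nd (nat_lit 156) (nat_lit 456) (nat_lit 0) (XT.nd (nat_lit 78) (nat_lit 0) (nat_lit 0) (XT.lf (nat_lit 0) (nat_lit 7311369679) (nat_lit 456) (nat_lit 16076346746) (nat_lit 532) (nat_lit 16831902315) (nat_lit 236) (nat_lit 5) (nat_lit 242) (nat_lit 5) (nat_lit 243) (nat_lit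 5) (nat_lit 494) (nat_lit 458) (nat_lit 248)) (XT.lf (nat_lit 0) (nat_lit 30472026706) (nat_lit 532) (nat_lit 9725915355) (nat_lit 76) (nat_lit 721864831) (nat_lit 236) (nat_lit 5) (nat_lit 243) (nat_lit 5) (nat_lit 237) (nat_lit 5) (nat_lit 495) (nat_lit 458) (nat_lit 247))) (XT.nd (nat_lit 78) (nat_lit 76) (nat_lit 0) (XT.lf (nat_lit 0) (nat_lit 14268502166) (nat_lit 380) (nat_lit 23794611802) (nat_lit 456) (nat_lit 3569059362) (nat_lit 231) (nat_lit 5) (nat_lit 236) (nat_lit 5) (nat_lit 237) (nat_lit 5) (nat_lit 496) (nat_lit 458) (nat_lit 246)) (XT.lf (nat_lit 0) (nat_lit 3544531374) (nat_lit 456) (nat_lit 3218270594) (nat_lit 76) (nat_lit 35599181360) (nat_lit 230) (nat_lit 5) (nat_lit 236) (nat_lit 5) (nat_lit 231) (nat_lit 5) (nat_lit 497) (nat_lit 458) (nat_lit 245)))) (XT.nd (nat_lit 156) (nat_lit 380) (nat_lit 0) (XT.nd (nat_lit 78) (nat_lit 380) (nat_lit 0) (XT.lf (nat_lit 0) (nat_lit 11115752647) (nat_lit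 532) (nat_lit 21168671639) (nat_lit 76) (nat_lit 10818724570) (nat_lit 224) (nat_lit 5) (nat_lit 231) (nat_lit 5) (nat_lit 225) (nat_lit 5) (nat_lit 498) (nat_lit 458) (nat_lit 244)) (XT.lf (nat_lit 0) (nat_lit 4051370655) (nat_lit 380) (nat_lit 14999484495) (nat_lit 456) (nat_lit 24811591926) (nat_lit 219) (nat_lit 5) (nat_lit 224) (nat_lit 5) (nat_lit 225) (nat_lit 5) (nat_lit 499) (nat_lit 458) (nat_lit 243))) (XT.nd (nat_lit 78) (nat_lit 380) (nat_lit 0) (XT.lf (nat_lit 0) (nat_lit 27464891595) (nat_lit 456) (nat_lit 14207867513) (nat_lit 76) (nat_lit 2964538772) (nat_lit 219) (nat_lit 5) (nat_lit 225) (nat_lit 5) (nat_lit 220) (nat_lit 5) (nat_lit 500) (nat_lit 458) (nat_lit 242)) (XT.lf (nat_lit 0) (nat_lit 12251437280) (nat_lit 380) (nat_lit 24144295285) (nat_lit 456) (nat_lit 9031730201) (nat_lit 214) (nat_lit 5) (nat_lit 219) (nat_lit 5) (nat_lit 220) (nat_lit 5) (nat_lit 501) (nat_lit 458) (nat_lit 241)))))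 (XT.nd (nat_lit 312) (nat_lit 988) (nat_lit 0) (XT.nd (nat_lit 156) (nat_lit 380) (nat_lit 0) (XT.nd (nat_lit 78) (nat_lit 456) (nat_lit 0) (XT.lf (nat_lit 0) (nat_lit 39793233369) (nat_lit 380) (nat_lit 5942873188) (nat_lit 456) (nat_lit 500977868) (nat_lit 214) (nat_lit 5) (nat_lit 219) (nat_lit 5) (nat_lit 220) (nat_lit 5) (nat_lit 502) (nat_lit 458) (nat_lit 240)) (XT.lf (nat_lit 0) (nat_lit 8454054875) (nat_lit 456) (nat_lit 25762141392) (nat_lit 76) (nat_lit 12842507857) (nat_lit 208) (nat_lit 5) (nat_lit 214) (nat_lit 5) (nat_lit 209) (nat_lit 5) (nat_lit 503) (nat_lit 458) (nat_lit 239))) (XT.nd (nat_lit 78) (nat_lit 0) (nat_lit 0) (XT.lf (nat_lit 0) (nat_lit 2071722454) (nat_lit 380) (nat_lit 15738611966) (nat_lit 456) (nat_lit 30090209294) (nat_lit 203) (nat_lit 5) (nat_lit 208) (nat_lit 5) (nat_lit 209) (nat_lit 5) (nat_lit 504) (nat_lit 458) (nat_lit 238)) (XT.lf (nat_lit 0) (nat_lit 27739899498) (nat_lit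 456) (nat_lit 17527908649) (nat_lit 76) (nat_lit 3491052482) (nat_lit 203) (nat_lit 5) (nat_lit 209) (nat_lit 5) (nat_lit 204) (nat_lit 5) (nat_lit 505) (nat_lit 458) (nat_lit 237)))) (XT.nd (nat_lit 156) (nat_lit 684) (nat_lit 0) (XT.nd (nat_lit 78) (nat_lit 0) (nat_lit 0) (XT.lf (nat_lit 0) (nat_lit 11691885856) (nat_lit 304) (nat_lit 26541952109) (nat_lit 380) (nat_lit 11401094545) (nat_lit 199) (nat_lit 5) (nat_lit 203) (nat_lit 5) (nat_lit 204) (nat_lit 5) (nat_lit 506) (nat_lit 458) (nat_lit 236)) (XT.lf (nat_lit 0) (nat_lit 42145134893) (nat_lit 304) (nat_lit 7072753160) (nat_lit 380) (nat_lit 1314139741) (nat_lit 199) (nat_lit 5) (nat_lit 203) (nat_lit 5) (nat_lit 204) (nat_lit 5) (nat_lit 507) (nat_lit 458) (nat_lit 235))) (XT.nd (nat_lit 78) (nat_lit 304) (nat_lit 0) (XT.lf (nat_lit 0) (nat_lit 9239780182) (nat_lit 380) (nat_lit 29171300867) (nat_lit 76) (nat_lit 13032094257) (nat_lit 194) (nat_lit 5)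 (nat_lit 199) (nat_lit 5) (nat_lit 195) (nat_lit 5) (nat_lit 508) (nat_lit 458) (nat_lit 234)) (XT.lf (nat_lit 0) (nat_lit 1587894778) (nat_lit 304) (nat_lit 18665178622) (nat_lit 380) (nat_lit 32123118492) (nat_lit 190) (nat_lit 5) (nat_lit 194) (nat_lit 5) (nat_lit 195) (nat_lit 5) (nat_lit 509) (nat_lit 458) (nat_lit 233))))))) (XT.nd (nat_lit 1170) (nat_lit 2204) (nat_lit 0) (XT.nd (nat_lit 546) (nat_lit 1368) (nat_lit 0) (XT.nd (nat_lit 234) (nat_lit 836) (nat_lit 0) (XT.nd (nat_lit 78) (nat_lit 380) (nat_lit 0) (XT.lf (nat_lit 0) (nat_lit 31908703217) (nat_lit 380) (nat_lit 19481954570) (nat_lit 76) (nat_lit 1937183099) (nat_lit 190) (nat_lit 5) (nat_lit 195) (nat_lit 5) (nat_lit 191) (nat_lit 5) (nat_lit 510) (nat_lit 458) (nat_lit 232)) (XT.nd (nat_lit 78) (nat_lit 76) (nat_lit 0) (XT.lf (nat_lit 0) (nat_lit 12826698015) (nat_lit 304) (nat_lit 31393818767) (nat_lit 380) (nat_lit 10078327166) (nat_lit 186)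 (nat_lit 5) (nat_lit 190) (nat_lit 5) (nat_lit 191) (nat_lit 5) (nat_lit 511) (nat_lit 458) (nat_lit 231)) (XT.lf (nat_lit 0) (nat_lit 1768531578) (nat_lit 380) (nat_lit 8808837868) (nat_lit 76) (nat_lit 44715232553) (nat_lit 185) (nat_lit 5) (nat_lit 190) (nat_lit 5) (nat_lit 186) (nat_lit 5) (nat_lit 512) (nat_lit 458) (nat_lit 230)))) (XT.nd (nat_lit 156) (nat_lit 228) (nat_lit 0) (XT.nd (nat_lit 78) (nat_lit 304) (nat_lit 0) (XT.lf (nat_lit 0) (nat_lit 14116980648) (nat_lit 380) (nat_lit 31189265297) (nat_lit 76) (nat_lit 10996470855) (nat_lit 181) (nat_lit 5) (nat_lit 186) (nat_lit 5) (nat_lit 182) (nat_lit 5) (nat_lit 513) (nat_lit 458) (nat_lit 229)) (XT.lf (nat_lit 0) (nat_lit 2841021347) (nat_lit 304) (nat_lit 24215212942) (nat_lit 380) (nat_lit 30280290261) (nat_lit 177) (nat_lit 5) (nat_lit 181) (nat_lit 5) (nat_lit 182) (nat_lit 5) (nat_lit 514) (nat_lit 458) (nat_lit 228))) (XT.nd (nat_lit 78) (nat_lit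 228) (nat_lit 0) (XT.lf (nat_lit 0) (nat_lit 38529263075) (nat_lit 304) (nat_lit 2167857289) (nat_lit 380) (nat_lit 17694822562) (nat_lit 177) (nat_lit 5) (nat_lit 181) (nat_lit 5) (nat_lit 182) (nat_lit 5) (nat_lit 515) (nat_lit 458) (nat_lit 227)) (XT.lf (nat_lit 0) (nat_lit 15920062210) (nat_lit 228) (nat_lit 39176196492) (nat_lit 304) (nat_lit 4372294415) (nat_lit 174) (nat_lit 5) (nat_lit 177) (nat_lit 5) (nat_lit 178) (nat_lit 5) (nat_lit 516) (nat_lit 458) (nat_lit 226))))) (XT.nd (nat_lit 312) (nat_lit 760) (nat_lit 0) (XT.nd (nat_lit 156) (nat_lit 228) (nat_lit 0) (XT.nd (nat_lit 78) (nat_lit 304) (nat_lit 0) (XT.lf (nat_lit 0) (nat_lit 9390030134) (nat_lit 304) (nat_lit 7503597806) (nat_lit 76) (nat_lit 43674460267) (nat_lit 173) (nat_lit 5) (nat_lit 177) (nat_lit 5) (nat_lit 174) (nat_lit 5) (nat_lit 517) (nat_lit 458) (nat_lit 225)) (XT.lf (nat_lit 0) (nat_lit 23827426467) (nat_lit 380) (nat_lit 31586390423)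 (nat_lit 76) (nat_lit 6274991366) (nat_lit 169) (nat_lit 5) (nat_lit 174) (nat_lit 5) (nat_lit 170) (nat_lit 5) (nat_lit 518) (nat_lit 458) (nat_lit 224))) (XT.nd (nat_lit 78) (nat_lit 0) (nat_lit 0) (XT.lf (nat_lit 0) (nat_lit 6098315268) (nat_lit 228) (nat_lit 32900637337) (nat_lit 304) (nat_lit 23835167096) (nat_lit 166) (nat_lit 5) (nat_lit 169) (nat_lit 5) (nat_lit 170) (nat_lit 5) (nat_lit 519) (nat_lit 458) (nat_lit 223)) (XT.lf (nat_lit 0) (nat_lit 45558849423) (nat_lit 228) (nat_lit 9384356962) (nat_lit 304) (nat_lit 9061056680) (nat_lit 166) (nat_lit 5) (nat_lit 169) (nat_lit 5) (nat_lit 170) (nat_lit 5) (nat_lit 520) (nat_lit 458) (nat_lit 222)))) (XT.nd (nat_lit 156) (nat_lit 456) (nat_lit 0) (XT.nd (nat_lit 78) (nat_lit 0) (nat_lit 0) (XT.lf (nat_lit 0) (nat_lit 6385249355) (nat_lit 304) (nat_lit 43997915488) (nat_lit 76) (nat_lit 14814097475) (nat_lit 162) (nat_lit 5) (nat_lit 166) (nat_lit 5) (nat_lit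 163) (nat_lit 5) (nat_lit 521) (nat_lit 458) (nat_lit 221)) (XT.lf (nat_lit 0) (nat_lit 22392506513) (nat_lit 304) (nat_lit 4195549214) (nat_lit 76) (nat_lit 39826914043) (nat_lit 162) (nat_lit 5) (nat_lit 166) (nat_lit 5) (nat_lit 163) (nat_lit 5) (nat_lit 522) (nat_lit 458) (nat_lit 220))) (XT.nd (nat_lit 78) (nat_lit 228) (nat_lit 0) (XT.lf (nat_lit 0) (nat_lit 37531142703) (nat_lit 228) (nat_lit 1708309129) (nat_lit 304) (nat_lit 28418972525) (nat_lit 159) (nat_lit 5) (nat_lit 162) (nat_lit 5) (nat_lit 163) (nat_lit 5) (nat_lit 523) (nat_lit 458) (nat_lit 219)) (XT.lf (nat_lit 0) (nat_lit 11652658312) (nat_lit 228) (nat_lit 45322566965) (nat_lit 304) (nat_lit 11952454739) (nat_lit 156) (nat_lit 5) (nat_lit 159) (nat_lit 5) (nat_lit 160) (nat_lit 5) (nat_lit 524) (nat_lit 458) (nat_lit 218)))))) (XT.nd (nat_lit 624) (nat_lit 1064) (nat_lit 0) (XT.nd (nat_lit 312) (nat_lit 608) (nat_lit 0) (XT.nd (nat_lit 156)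 (nat_lit 228) (nat_lit 0) (XT.nd (nat_lit 78) (nat_lit 228) (nat_lit 0) (XT.lf (nat_lit 0) (nat_lit 5233198837) (nat_lit 304) (nat_lit 14992504959) (nat_lit 76) (nat_lit 49998179394) (nat_lit 155) (nat_lit 5) (nat_lit 159) (nat_lit 5) (nat_lit 156) (nat_lit 5) (nat_lit 525) (nat_lit 458) (nat_lit 217)) (XT.lf (nat_lit 0) (nat_lit 23029730906) (nat_lit 304) (nat_lit 42601028155) (nat_lit 76) (nat_lit 5914596945) (nat_lit 152) (nat_lit 5) (nat_lit 156) (nat_lit 5) (nat_lit 153) (nat_lit 5) (nat_lit 526) (nat_lit 458) (nat_lit 216))) (XT.nd (nat_lit 78) (nat_lit 0) (nat_lit 0) (XT.lf (nat_lit 0) (nat_lit 1428717139) (nat_lit 228) (nat_lit 40297083210) (nat_lit 304) (nat_lit 31169703439) (nat_lit 149) (nat_lit 5) (nat_lit 152) (nat_lit 5) (nat_lit 153) (nat_lit 5) (nat_lit 527) (nat_lit 458) (nat_lit 215)) (XT.lf (nat_lit 0) (nat_lit 47650579484) (nat_lit 228) (nat_lit 13761134985) (nat_lit 304) (nat_lit 12861572680)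 (nat_lit 149) (nat_lit 5) (nat_lit 152) (nat_lit 5) (nat_lit 153) (nat_lit 5) (nat_lit 528) (nat_lit 458) (nat_lit 214)))) (XT.nd (nat_lit 156) (nat_lit 380) (nat_lit 0) (XT.nd (nat_lit 78) (nat_lit 0) (nat_lit 0) (XT.lf (nat_lit 0) (nat_lit 6201755415) (nat_lit 228) (nat_lit 55922613616) (nat_lit 76) (nat_lit 13556617349) (nat_lit 146) (nat_lit 5) (nat_lit 149) (nat_lit 5) (nat_lit 147) (nat_lit 5) (nat_lit 529) (nat_lit 458) (nat_lit 213)) (XT.lf (nat_lit 0) (nat_lit 25985033767) (nat_lit 228) (nat_lit 9314506010) (nat_lit 76) (nat_lit 41815359905) (nat_lit 146) (nat_lit 5) (nat_lit 149) (nat_lit 5) (nat_lit 147) (nat_lit 5) (nat_lit 530) (nat_lit 458) (nat_lit 212))) (XT.nd (nat_lit 78) (nat_lit 152) (nat_lit 0) (XT.lf (nat_lit 0) (nat_lit 39459881639) (nat_lit 228) (nat_lit 7280083612) (nat_lit 304) (nat_lit 31840520507) (nat_lit 143) (nat_lit 5) (nat_lit 146) (nat_lit 5) (nat_lit 147) (nat_lit 5) (nat_lit 531)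 (nat_lit 458) (nat_lit 211)) (XT.lf (nat_lit 0) (nat_lit 9781752835) (nat_lit 152) (nat_lit 58731098805) (nat_lit 228) (nat_lit 11565328590) (nat_lit 141) (nat_lit 5) (nat_lit 143) (nat_lit 5) (nat_lit 144) (nat_lit 5) (nat_lit 532) (nat_lit 458) (nat_lit 210))))) (XT.nd (nat_lit 312) (nat_lit 608) (nat_lit 0) (XT.nd (nat_lit 156) (nat_lit 152) (nat_lit 0) (XT.nd (nat_lit 78) (nat_lit 228) (nat_lit 0) (XT.lf (nat_lit 0) (nat_lit 9606174707) (nat_lit 228) (nat_lit 20823380918) (nat_lit 76) (nat_lit 51174466213) (nat_lit 140) (nat_lit 5) (nat_lit 143) (nat_lit 5) (nat_lit 141) (nat_lit 5) (nat_lit 533) (nat_lit 458) (nat_lit 209)) (XT.lf (nat_lit 0) (nat_lit 30614833688) (nat_lit 228) (nat_lit 858712637) (nat_lit 304) (nat_lit 51689861897) (nat_lit 137) (nat_lit 5) (nat_lit 140) (nat_lit 5) (nat_lit 141) (nat_lit 5) (nat_lit 534) (nat_lit 458) (nat_lit 208))) (XT.nd (nat_lit 78) (nat_lit 152) (nat_lit 0) (XT.lf (nat_lit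 0) (nat_lit 54492715302) (nat_lit 304) (nat_lit 1028749590) (nat_lit 76) (nat_lit 29233238035) (nat_lit 137) (nat_lit 5) (nat_lit 141) (nat_lit 5) (nat_lit 138) (nat_lit 5) (nat_lit 535) (nat_lit 458) (nat_lit 207)) (XT.lf (nat_lit 0) (nat_lit 53061722255) (nat_lit 152) (nat_lit 25658225987) (nat_lit 228) (nat_lit 7658263583) (nat_lit 135) (nat_lit 5) (nat_lit 137) (nat_lit 5) (nat_lit 138) (nat_lit 5) (nat_lit 536) (nat_lit 458) (nat_lit 206)))) (XT.nd (nat_lit 156) (nat_lit 304) (nat_lit 0) (XT.nd (nat_lit 78) (nat_lit 0) (nat_lit 0) (XT.lf (nat_lit 0) (nat_lit 15582633683) (nat_lit 304) (nat_lit 67088618683) (nat_lit 76) (nat_lit 5366750129) (nat_lit 131) (nat_lit 5) (nat_lit 135) (nat_lit 5) (nat_lit 132) (nat_lit 5) (nat_lit 537) (nat_lit 458) (nat_lit 205)) (XT.lf (nat_lit 0) (nat_lit 39959572165) (nat_lit 304) (nat_lit 12546382221) (nat_lit 76) (nat_lit 37221575649) (nat_lit 131) (nat_lit 5) (nat_lit 135)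 (nat_lit 5) (nat_lit 132) (nat_lit 5) (nat_lit 538) (nat_lit 458) (nat_lit 204))) (XT.nd (nat_lit 78) (nat_lit 152) (nat_lit 0) (XT.lf (nat_lit 0) (nat_lit 44498624725) (nat_lit 152) (nat_lit 20995906885) (nat_lit 228) (nat_lit 25960410422) (nat_lit 129) (nat_lit 5) (nat_lit 131) (nat_lit 5) (nat_lit 132) (nat_lit 5) (nat_lit 539) (nat_lit 458) (nat_lit 203)) (XT.lf (nat_lit 0) (nat_lit 10370929155) (nat_lit 152) (nat_lit 81761375864) (nat_lit 228) (nat_lit 1091768430) (nat_lit 127) (nat_lit 5) (nat_lit 129) (nat_lit 5) (nat_lit 130) (nat_lit 5) (nat_lit 540) (nat_lit 458) (nat_lit 202))))))))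
noncomputable def xc209 : XT := (XT.nd (nat_lit 58032) (nat_lit 0) (nat_lit 4408) (XT.nd (nat_lit 56784) (nat_lit 0) (nat_lit 12540) (XT.nd (nat_lit 56160) (nat_lit 0) (nat_lit 15808) (XT.nd (nat_lit 234) (nat_lit 380) (nat_lit 0) (XT.nd (nat_lit 78) (nat_lit 152) (nat_lit 0) (XT.lf (nat_lit 0) (nat_lit 24730116327) (nat_lit 228) (nat_lit 25101639566) (nat_lit 76) (nat_lit 45186879618) (nat_lit 126) (nat_lit 5) (nat_lit 129) (nat_lit 5) (nat_lit 127) (nat_lit 5) (nat_lit 541) (nat_lit 458) (nat_lit 201)) (XT.nd (nat_lit 78) (nat_lit 0) (nat_lit 0) (XT.lf (nat_lit 0) (nat_lit 35053848108) (nat_lit 152) (nat_lit 16586827545) (nat_lit 228) (nat_lit 45215955664) (nat_lit 124) (nat_lit 5) (nat_lit 126) (nat_lit 5) (nat_lit 127) (nat_lit 5) (nat_lit 542) (nat_lit 458) (nat_lit 200)) (XT.lf (nat_lit 0) (nat_lit 79783260861) (nat_lit 228) (nat_lit 1387612017) (nat_lit 76) (nat_lit 17566152858) (nat_lit 124) (nat_lit 5)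 (nat_lit 127) (nat_lit 5) (nat_lit 125) (nat_lit 5) (nat_lit 543) (nat_lit 458) (nat_lit 199)))) (XT.nd (nat_lit 156) (nat_lit 0) (nat_lit 0) (XT.nd (nat_lit 78) (nat_lit 152) (nat_lit 0) (XT.lf (nat_lit 0) (nat_lit 8703915543) (nat_lit 228) (nat_lit 38854832497) (nat_lit 76) (nat_lit 53089780814) (nat_lit 121) (nat_lit 5) (nat_lit 124) (nat_lit 5) (nat_lit 122) (nat_lit 5) (nat_lit 544) (nat_lit 458) (nat_lit 198)) (XT.lf (nat_lit 0) (nat_lit 24571883840) (nat_lit 152) (nat_lit 12487879679) (nat_lit 228) (nat_lit 65544502056) (nat_lit 119) (nat_lit 5) (nat_lit 121) (nat_lit 5) (nat_lit 122) (nat_lit 5) (nat_lit 545) (nat_lit 458) (nat_lit 197))) (XT.nd (nat_lit 55692) (nat_lit 0) (nat_lit 15808) (XT.lf (nat_lit 0) (nat_lit 66888766779) (nat_lit 228) (nat_lit 14141834398) (nat_lit 76) (nat_lit 23569398836) (nat_lit 119) (nat_lit 5) (nat_lit 122) (nat_lit 5) (nat_lit 120) (nat_lit 5) (nat_lit 546) (nat_lit 458) (nat_lit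 196)) (XT.lf (nat_lit 0) (nat_lit 5449564962) (nat_lit 1292) (nat_lit 3100880144) (nat_lit 1292) (nat_lit 3100880144) (nat_lit 327) (nat_lit 3) (nat_lit 344) (nat_lit 3) (nat_lit 344) (nat_lit 5) (nat_lit 459) (nat_lit 459) (nat_lit 282))))) (XT.nd (nat_lit 312) (nat_lit 0) (nat_lit 152) (XT.nd (nat_lit 156) (nat_lit 0) (nat_lit 76) (XT.nd (nat_lit 78) (nat_lit 0) (nat_lit 76) (XT.lf (nat_lit 76) (nat_lit 5510348823) (nat_lit 0) (nat_lit 5726075940) (nat_lit 1292) (nat_lit 12410545682) (nat_lit 328) (nat_lit 5) (nat_lit 327) (nat_lit 3) (nat_lit 344) (nat_lit 5) (nat_lit 460) (nat_lit 459) (nat_lit 281)) (XT.lf (nat_lit 0) (nat_lit 11699945426) (nat_lit 1216) (nat_lit 6359630795) (nat_lit 1292) (nat_lit 5938560774) (nat_lit 328) (nat_lit 5) (nat_lit 344) (nat_lit 5) (nat_lit 345) (nat_lit 5) (nat_lit 461) (nat_lit 459) (nat_lit 280))) (XT.nd (nat_lit 78) (nat_lit 0) (nat_lit 76) (XT.lf (nat_lit 76) (nat_lit 5825079801)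 (nat_lit 0) (nat_lit 6460399307) (nat_lit 1292) (nat_lit 12071116424) (nat_lit 329) (nat_lit 5) (nat_lit 328) (nat_lit 5) (nat_lit 345) (nat_lit 5) (nat_lit 462) (nat_lit 459) (nat_lit 279)) (XT.lf (nat_lit 0) (nat_lit 13001723397) (nat_lit 1216) (nat_lit 6274253394) (nat_lit 1292) (nat_lit 5446436900) (nat_lit 329) (nat_lit 5) (nat_lit 345) (nat_lit 5) (nat_lit 346) (nat_lit 5) (nat_lit 463) (nat_lit 459) (nat_lit 278)))) (XT.nd (nat_lit 156) (nat_lit 0) (nat_lit 76) (XT.nd (nat_lit 78) (nat_lit 0) (nat_lit 76) (XT.lf (nat_lit 76) (nat_lit 6409215546) (nat_lit 0) (nat_lit 7451489750) (nat_lit 1292) (nat_lit 11234863791) (nat_lit 330) (nat_lit 5) (nat_lit 329) (nat_lit 5) (nat_lit 346) (nat_lit 5) (nat_lit 464) (nat_lit 459) (nat_lit 277)) (XT.lf (nat_lit 0) (nat_lit 14850680847) (nat_lit 1216) (nat_lit 5925017713) (nat_lit 1292) (nat_lit 4701064051) (nat_lit 330) (nat_lit 5) (nat_lit 346) (nat_lit 5) (nat_lit 347)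 (nat_lit 5) (nat_lit 465) (nat_lit 459) (nat_lit 276))) (XT.nd (nat_lit 78) (nat_lit 0) (nat_lit 76) (XT.lf (nat_lit 76) (nat_lit 7284884185) (nat_lit 0) (nat_lit 8725191276) (nat_lit 1292) (nat_lit 9855125075) (nat_lit 331) (nat_lit 5) (nat_lit 330) (nat_lit 5) (nat_lit 347) (nat_lit 5) (nat_lit 466) (nat_lit 459) (nat_lit 275)) (XT.lf (nat_lit 0) (nat_lit 17296138187) (nat_lit 1216) (nat_lit 5289747165) (nat_lit 1292) (nat_lit 3676649839) (nat_lit 331) (nat_lit 5) (nat_lit 347) (nat_lit 5) (nat_lit 348) (nat_lit 5) (nat_lit 467) (nat_lit 459) (nat_lit 274)))))) (XT.nd (nat_lit 624) (nat_lit 2508) (nat_lit 0) (XT.nd (nat_lit 312) (nat_lit 1064) (nat_lit 0) (XT.nd (nat_lit 156) (nat_lit 0) (nat_lit 76) (XT.nd (nat_lit 78) (nat_lit 0) (nat_lit 76) (XT.lf (nat_lit 76) (nat_lit 8475867880) (nat_lit 0) (nat_lit 10308916764) (nat_lit 1292) (nat_lit 7882085364) (nat_lit 332) (nat_lit 5) (nat_lit 331) (nat_lit 5) (nat_lit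 348) (nat_lit 5) (nat_lit 468) (nat_lit 459) (nat_lit 273)) (XT.lf (nat_lit 0) (nat_lit 20390730336) (nat_lit 1216) (nat_lit 4344609619) (nat_lit 1292) (nat_lit 2345815891) (nat_lit 332) (nat_lit 5) (nat_lit 348) (nat_lit 5) (nat_lit 349) (nat_lit 5) (nat_lit 469) (nat_lit 459) (nat_lit 272))) (XT.nd (nat_lit 78) (nat_lit 0) (nat_lit 76) (XT.lf (nat_lit 76) (nat_lit 10007697416) (nat_lit 0) (nat_lit 12231771557) (nat_lit 1292) (nat_lit 5262563017) (nat_lit 333) (nat_lit 5) (nat_lit 332) (nat_lit 5) (nat_lit 349) (nat_lit 5) (nat_lit 470) (nat_lit 459) (nat_lit 271)) (XT.lf (nat_lit 0) (nat_lit 24190630076) (nat_lit 1216) (nat_lit 3064021789) (nat_lit 1292) (nat_lit 679473904) (nat_lit 333) (nat_lit 5) (nat_lit 349) (nat_lit 5) (nat_lit 350) (nat_lit 5) (nat_lit 471) (nat_lit 459) (nat_lit 270)))) (XT.nd (nat_lit 156) (nat_lit 1216) (nat_lit 0) (XT.nd (nat_lit 78) (nat_lit 0) (nat_lit 0) (XT.lf (nat_lit 76) (nat_lit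 11907753371) (nat_lit 0) (nat_lit 14524683177) (nat_lit 1292) (nat_lit 1939782657) (nat_lit 334) (nat_lit 5) (nat_lit 333) (nat_lit 5) (nat_lit 350) (nat_lit 5) (nat_lit 472) (nat_lit 459) (nat_lit 269)) (XT.lf (nat_lit 76) (nat_lit 27388814218) (nat_lit 0) (nat_lit 1380237950) (nat_lit 1292) (nat_lit 53576779) (nat_lit 334) (nat_lit 5) (nat_lit 333) (nat_lit 5) (nat_lit 350) (nat_lit 5) (nat_lit 473) (nat_lit 459) (nat_lit 268))) (XT.nd (nat_lit 78) (nat_lit 0) (nat_lit 0) (XT.lf (nat_lit 0) (nat_lit 2104972068) (nat_lit 1292) (nat_lit 15094309560) (nat_lit 1368) (nat_lit 12079146021) (nat_lit 317) (nat_lit 5) (nat_lit 334) (nat_lit 5) (nat_lit 335) (nat_lit 5) (nat_lit 474) (nat_lit 459) (nat_lit 267)) (XT.lf (nat_lit 76) (nat_lit 546088785) (nat_lit 0) (nat_lit 3811406331) (nat_lit 1368) (nat_lit 25389480586) (nat_lit 318) (nat_lit 5) (nat_lit 317) (nat_lit 5) (nat_lit 335) (nat_lit 5) (nat_lit 475) (nat_lit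 459) (nat_lit 266))))) (XT.nd (nat_lit 312) (nat_lit 1140) (nat_lit 0) (XT.nd (nat_lit 156) (nat_lit 608) (nat_lit 0) (XT.nd (nat_lit 78) (nat_lit 836) (nat_lit 0) (XT.lf (nat_lit 0) (nat_lit 6924271764) (nat_lit 1292) (nat_lit 13360130126) (nat_lit 76) (nat_lit 9937778106) (nat_lit 318) (nat_lit 5) (nat_lit 335) (nat_lit 5) (nat_lit 319) (nat_lit 5) (nat_lit 476) (nat_lit 459) (nat_lit 265)) (XT.lf (nat_lit 0) (nat_lit 2973400985) (nat_lit 836) (nat_lit 6657892083) (nat_lit 912) (nat_lit 21078450240) (nat_lit 307) (nat_lit 5) (nat_lit 318) (nat_lit 5) (nat_lit 319) (nat_lit 5) (nat_lit 477) (nat_lit 459) (nat_lit 264))) (XT.nd (nat_lit 78) (nat_lit 608) (nat_lit 0) (XT.lf (nat_lit 0) (nat_lit 12623677176) (nat_lit 912) (nat_lit 11212130697) (nat_lit 76) (nat_lit 7370001210) (nat_lit 307) (nat_lit 5) (nat_lit 319) (nat_lit 5) (nat_lit 308) (nat_lit 5) (nat_lit 478) (nat_lit 459) (nat_lit 263)) (XT.lf (nat_lit 0)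 (nat_lit 5853389677) (nat_lit 608) (nat_lit 9971705995) (nat_lit 684) (nat_lit 15888083398) (nat_lit 299) (nat_lit 5) (nat_lit 307) (nat_lit 5) (nat_lit 308) (nat_lit 5) (nat_lit 479) (nat_lit 459) (nat_lit 262)))) (XT.nd (nat_lit 156) (nat_lit 532) (nat_lit 0) (XT.nd (nat_lit 78) (nat_lit 608) (nat_lit 0) (XT.lf (nat_lit 0) (nat_lit 19275450151) (nat_lit 684) (nat_lit 8616975015) (nat_lit 76) (nat_lit 4338758308) (nat_lit 299) (nat_lit 5) (nat_lit 308) (nat_lit 5) (nat_lit 300) (nat_lit 5) (nat_lit 480) (nat_lit 459) (nat_lit 261)) (XT.lf (nat_lit 0) (nat_lit 9221642828) (nat_lit 608) (nat_lit 13792267338) (nat_lit 684) (nat_lit 9745280114) (nat_lit 291) (nat_lit 5) (nat_lit 299) (nat_lit 5) (nat_lit 300) (nat_lit 5) (nat_lit 481) (nat_lit 459) (nat_lit 260))) (XT.nd (nat_lit 78) (nat_lit 532) (nat_lit 0) (XT.lf (nat_lit 0) (nat_lit 26956702691) (nat_lit 684) (nat_lit 5539009982) (nat_lit 76) (nat_lit 804559369)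 (nat_lit 291) (nat_lit 5) (nat_lit 300) (nat_lit 5) (nat_lit 292) (nat_lit 5) (nat_lit 482) (nat_lit 459) (nat_lit 259)) (XT.lf (nat_lit 0) (nat_lit 13116196440) (nat_lit 532) (nat_lit 18161576688) (nat_lit 608) (nat_lit 2572013414) (nat_lit 284) (nat_lit 5) (nat_lit 291) (nat_lit 5) (nat_lit 292) (nat_lit 5) (nat_lit 483) (nat_lit 459) (nat_lit 258))))))) (XT.nd (nat_lit 1248) (nat_lit 3572) (nat_lit 0) (XT.nd (nat_lit 624) (nat_lit 2356) (nat_lit 0) (XT.nd (nat_lit 312) (nat_lit 988) (nat_lit 0) (XT.nd (nat_lit 156) (nat_lit 532) (nat_lit 0) (XT.nd (nat_lit 78) (nat_lit 608) (nat_lit 0) (XT.lf (nat_lit 0) (nat_lit 1340942749) (nat_lit 608) (nat_lit 1985377614) (nat_lit 76) (nat_lit 31087471604) (nat_lit 283) (nat_lit 5) (nat_lit 291) (nat_lit 5) (nat_lit 284) (nat_lit 5) (nat_lit 484) (nat_lit 459) (nat_lit 257)) (XT.lf (nat_lit 0) (nat_lit 5603470655) (nat_lit 684) (nat_lit 17464339810) (nat_lit 76) (nat_lit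 11917626885) (nat_lit 275) (nat_lit 5) (nat_lit 284) (nat_lit 5) (nat_lit 276) (nat_lit 5) (nat_lit 485) (nat_lit 459) (nat_lit 256))) (XT.nd (nat_lit 78) (nat_lit 0) (nat_lit 0) (XT.lf (nat_lit 0) (nat_lit 2084712659) (nat_lit 532) (nat_lit 7979888311) (nat_lit 608) (nat_lit 25507509427) (nat_lit 268) (nat_lit 5) (nat_lit 275) (nat_lit 5) (nat_lit 276) (nat_lit 5) (nat_lit 486) (nat_lit 459) (nat_lit 255)) (XT.lf (nat_lit 0) (nat_lit 14907896259) (nat_lit 608) (nat_lit 13669993567) (nat_lit 76) (nat_lit 7591043972) (nat_lit 268) (nat_lit 5) (nat_lit 276) (nat_lit 5) (nat_lit 269) (nat_lit 5) (nat_lit 487) (nat_lit 459) (nat_lit 254)))) (XT.nd (nat_lit 156) (nat_lit 456) (nat_lit 0) (XT.nd (nat_lit 78) (nat_lit 0) (nat_lit 0) (XT.lf (nat_lit 0) (nat_lit 6792840554) (nat_lit 532) (nat_lit 13245578478) (nat_lit 608) (nat_lit 16740985102) (nat_lit 261) (nat_lit 5) (nat_lit 268) (nat_lit 5) (nat_lit 269) (nat_lit 5)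 (nat_lit 488) (nat_lit 459) (nat_lit 253)) (XT.lf (nat_lit 0) (nat_lit 25484409185) (nat_lit 608) (nat_lit 9282791141) (nat_lit 76) (nat_lit 2636141793) (nat_lit 261) (nat_lit 5) (nat_lit 269) (nat_lit 5) (nat_lit 262) (nat_lit 5) (nat_lit 489) (nat_lit 459) (nat_lit 252))) (XT.nd (nat_lit 78) (nat_lit 0) (nat_lit 0) (XT.lf (nat_lit 0) (nat_lit 12145349911) (nat_lit 456) (nat_lit 19194054405) (nat_lit 532) (nat_lit 6699225257) (nat_lit 255) (nat_lit 5) (nat_lit 261) (nat_lit 5) (nat_lit 262) (nat_lit 5) (nat_lit 490) (nat_lit 459) (nat_lit 251)) (XT.lf (nat_lit 0) (nat_lit 34404049058) (nat_lit 456) (nat_lit 3057511932) (nat_lit 532) (nat_lit 1228669394) (nat_lit 255) (nat_lit 5) (nat_lit 261) (nat_lit 5) (nat_lit 262) (nat_lit 5) (nat_lit 491) (nat_lit 459) (nat_lit 250))))) (XT.nd (nat_lit 312) (nat_lit 912) (nat_lit 0) (XT.nd (nat_lit 156) (nat_lit 456) (nat_lit 0) (XT.nd (nat_lit 78) (nat_lit 456) (nat_lit 0)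 (XT.lf (nat_lit 0) (nat_lit 4626103831) (nat_lit 532) (nat_lit 21206473827) (nat_lit 76) (nat_lit 13518348715) (nat_lit 248) (nat_lit 5) (nat_lit 255) (nat_lit 5) (nat_lit 249) (nat_lit 5) (nat_lit 492) (nat_lit 459) (nat_lit 249)) (XT.lf (nat_lit 0) (nat_lit 1285360553) (nat_lit 456) (nat_lit 9430656134) (nat_lit 532) (nat_lit 29312535936) (nat_lit 242) (nat_lit 5) (nat_lit 248) (nat_lit 5) (nat_lit 249) (nat_lit 5) (nat_lit 493) (nat_lit 459) (nat_lit 248))) (XT.nd (nat_lit 78) (nat_lit 456) (nat_lit 0) (XT.lf (nat_lit 0) (nat_lit 17274519562) (nat_lit 532) (nat_lit 15909896178) (nat_lit 76) (nat_lit 7533515216) (nat_lit 242) (nat_lit 5) (nat_lit 249) (nat_lit 5) (nat_lit 243) (nat_lit 5) (nat_lit 494) (nat_lit 459) (nat_lit 247)) (XT.lf (nat_lit 0) (nat_lit 7662002660) (nat_lit 456) (nat_lit 16532747674) (nat_lit 532) (nat_lit 17228291195) (nat_lit 236) (nat_lit 5) (nat_lit 242) (nat_lit 5) (nat_lit 243) (nat_lit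 5) (nat_lit 495) (nat_lit 459) (nat_lit 246)))) (XT.nd (nat_lit 156) (nat_lit 532) (nat_lit 0) (XT.nd (nat_lit 78) (nat_lit 380) (nat_lit 0) (XT.lf (nat_lit 0) (nat_lit 31488761568) (nat_lit 532) (nat_lit 9887393012) (nat_lit 76) (nat_lit 768165705) (nat_lit 236) (nat_lit 5) (nat_lit 243) (nat_lit 5) (nat_lit 237) (nat_lit 5) (nat_lit 496) (nat_lit 459) (nat_lit 245)) (XT.lf (nat_lit 0) (nat_lit 14825579586) (nat_lit 380) (nat_lit 24480254510) (nat_lit 456) (nat_lit 3572276145) (nat_lit 231) (nat_lit 5) (nat_lit 236) (nat_lit 5) (nat_lit 237) (nat_lit 5) (nat_lit 497) (nat_lit 459) (nat_lit 244))) (XT.nd (nat_lit 78) (nat_lit 456) (nat_lit 0) (XT.lf (nat_lit 0) (nat_lit 3749729852) (nat_lit 456) (nat_lit 3187583443) (nat_lit 76) (nat_lit 36692560369) (nat_lit 230) (nat_lit 5) (nat_lit 236) (nat_lit 5) (nat_lit 231) (nat_lit 5) (nat_lit 498) (nat_lit 459) (nat_lit 243)) (XT.lf (nat_lit 0) (nat_lit 11546696127) (nat_lit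 532) (nat_lit 21675101692) (nat_lit 76) (nat_lit 11171518183) (nat_lit 224) (nat_lit 5) (nat_lit 231) (nat_lit 5) (nat_lit 225) (nat_lit 5) (nat_lit 499) (nat_lit 459) (nat_lit 242)))))) (XT.nd (nat_lit 624) (nat_lit 1672) (nat_lit 0) (XT.nd (nat_lit 312) (nat_lit 1140) (nat_lit 0) (XT.nd (nat_lit 156) (nat_lit 380) (nat_lit 0) (XT.nd (nat_lit 78) (nat_lit 0) (nat_lit 0) (XT.lf (nat_lit 0) (nat_lit 4300280792) (nat_lit 380) (nat_lit 15417956304) (nat_lit 456) (nat_lit 25457204605) (nat_lit 219) (nat_lit 5) (nat_lit 224) (nat_lit 5) (nat_lit 225) (nat_lit 5) (nat_lit 500) (nat_lit 459) (nat_lit 241)) (XT.lf (nat_lit 0) (nat_lit 28382196800) (nat_lit 456) (nat_lit 14507943455) (nat_lit 76) (nat_lit 3083472798) (nat_lit 219) (nat_lit 5) (nat_lit 225) (nat_lit 5) (nat_lit 220) (nat_lit 5) (nat_lit 501) (nat_lit 459) (nat_lit 240))) (XT.nd (nat_lit 78) (nat_lit 0) (nat_lit 0) (XT.lf (nat_lit 0) (nat_lit 12743903618)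 (nat_lit 380) (nat_lit 24835541042) (nat_lit 456) (nat_lit 9208083865) (nat_lit 214) (nat_lit 5) (nat_lit 219) (nat_lit 5) (nat_lit 220) (nat_lit 5) (nat_lit 502) (nat_lit 459) (nat_lit 239)) (XT.lf (nat_lit 0) (nat_lit 41108315049) (nat_lit 380) (nat_lit 6089039867) (nat_lit 456) (nat_lit 424164250) (nat_lit 214) (nat_lit 5) (nat_lit 219) (nat_lit 5) (nat_lit 220) (nat_lit 5) (nat_lit 503) (nat_lit 459) (nat_lit 238)))) (XT.nd (nat_lit 156) (nat_lit 304) (nat_lit 0) (XT.nd (nat_lit 78) (nat_lit 380) (nat_lit 0) (XT.lf (nat_lit 0) (nat_lit 8796595813) (nat_lit 456) (nat_lit 26410791866) (nat_lit 76) (nat_lit 13260407316) (nat_lit 208) (nat_lit 5) (nat_lit 214) (nat_lit 5) (nat_lit 209) (nat_lit 5) (nat_lit 504) (nat_lit 459) (nat_lit 237)) (XT.lf (nat_lit 0) (nat_lit 2256870113) (nat_lit 380) (nat_lit 16175286061) (nat_lit 456) (nat_lit 30902775904) (nat_lit 203) (nat_lit 5) (nat_lit 208) (nat_lit 5) (nat_lit 209)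 (nat_lit 5) (nat_lit 505) (nat_lit 459) (nat_lit 236))) (XT.nd (nat_lit 78) (nat_lit 304) (nat_lit 0) (XT.lf (nat_lit 0) (nat_lit 28657390482) (nat_lit 456) (nat_lit 17932112087) (nat_lit 76) (nat_lit 3629562539) (nat_lit 203) (nat_lit 5) (nat_lit 209) (nat_lit 5) (nat_lit 204) (nat_lit 5) (nat_lit 506) (nat_lit 459) (nat_lit 235)) (XT.lf (nat_lit 0) (nat_lit 12163083765) (nat_lit 304) (nat_lit 27301736802) (nat_lit 380) (nat_lit 11656638448) (nat_lit 199) (nat_lit 5) (nat_lit 203) (nat_lit 5) (nat_lit 204) (nat_lit 5) (nat_lit 507) (nat_lit 459) (nat_lit 234))))) (XT.nd (nat_lit 312) (nat_lit 988) (nat_lit 0) (XT.nd (nat_lit 156) (nat_lit 304) (nat_lit 0) (XT.nd (nat_lit 78) (nat_lit 380) (nat_lit 0) (XT.lf (nat_lit 0) (nat_lit 43526422273) (nat_lit 304) (nat_lit 7249524230) (nat_lit 380) (nat_lit 1269594095) (nat_lit 199) (nat_lit 5) (nat_lit 203) (nat_lit 5) (nat_lit 204) (nat_lit 5) (nat_lit 508) (nat_lit 459)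 (nat_lit 233)) (XT.lf (nat_lit 0) (nat_lit 9598384922) (nat_lit 380) (nat_lit 29926943512) (nat_lit 76) (nat_lit 13458697552) (nat_lit 194) (nat_lit 5) (nat_lit 199) (nat_lit 5) (nat_lit 195) (nat_lit 5) (nat_lit 509) (nat_lit 459) (nat_lit 232))) (XT.nd (nat_lit 78) (nat_lit 0) (nat_lit 0) (XT.lf (nat_lit 0) (nat_lit 1753856470) (nat_lit 304) (nat_lit 19186986674) (nat_lit 380) (nat_lit 33004227005) (nat_lit 190) (nat_lit 5) (nat_lit 194) (nat_lit 5) (nat_lit 195) (nat_lit 5) (nat_lit 510) (nat_lit 459) (nat_lit 231)) (XT.lf (nat_lit 0) (nat_lit 32944162602) (nat_lit 380) (nat_lit 19949553350) (nat_lit 76) (nat_lit 2031612101) (nat_lit 190) (nat_lit 5) (nat_lit 195) (nat_lit 5) (nat_lit 191) (nat_lit 5) (nat_lit 511) (nat_lit 459) (nat_lit 230)))) (XT.nd (nat_lit 156) (nat_lit 608) (nat_lit 0) (XT.nd (nat_lit 78) (nat_lit 76) (nat_lit 0) (XT.lf (nat_lit 0) (nat_lit 13327213127) (nat_lit 304) (nat_lit 32296952142)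 (nat_lit 380) (nat_lit 10301330959) (nat_lit 186) (nat_lit 5) (nat_lit 190) (nat_lit 5) (nat_lit 191) (nat_lit 5) (nat_lit 512) (nat_lit 459) (nat_lit 229)) (XT.lf (nat_lit 0) (nat_lit 1897119269) (nat_lit 380) (nat_lit 8959253987) (nat_lit 76) (nat_lit 46092738920) (nat_lit 185) (nat_lit 5) (nat_lit 190) (nat_lit 5) (nat_lit 186) (nat_lit 5) (nat_lit 513) (nat_lit 459) (nat_lit 228))) (XT.nd (nat_lit 78) (nat_lit 304) (nat_lit 0) (XT.lf (nat_lit 0) (nat_lit 14615273845) (nat_lit 380) (nat_lit 32010344398) (nat_lit 76) (nat_lit 11363934674) (nat_lit 181) (nat_lit 5) (nat_lit 186) (nat_lit 5) (nat_lit 182) (nat_lit 5) (nat_lit 514) (nat_lit 459) (nat_lit 227)) (XT.lf (nat_lit 0) (nat_lit 3039727328) (nat_lit 304) (nat_lit 24901890393) (nat_lit 380) (nat_lit 31112789853) (nat_lit 177) (nat_lit 5) (nat_lit 181) (nat_lit 5) (nat_lit 182) (nat_lit 5) (nat_lit 515) (nat_lit 459) (nat_lit 226))))))))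
noncomputable def xc210 : XT := (XT.nd (nat_lit 58110) (nat_lit 0) (nat_lit 10336) (XT.nd (nat_lit 1170) (nat_lit 2052) (nat_lit 0) (XT.nd (nat_lit 546) (nat_lit 1216) (nat_lit 0) (XT.nd (nat_lit 234) (nat_lit 836) (nat_lit 0) (XT.nd (nat_lit 78) (nat_lit 304) (nat_lit 0) (XT.lf (nat_lit 0) (nat_lit 39795311200) (nat_lit 304) (nat_lit 2194272680) (nat_lit 380) (nat_lit 18151969068) (nat_lit 177) (nat_lit 5) (nat_lit 181) (nat_lit 5) (nat_lit 182) (nat_lit 5) (nat_lit 516) (nat_lit 459) (nat_lit 225)) (XT.nd (nat_lit 78) (nat_lit 76) (nat_lit 0) (XT.lf (nat_lit 0) (nat_lit 16508513809) (nat_lit 228) (nat_lit 40311524566) (nat_lit 304) (nat_lit 4430442861) (nat_lit 174) (nat_lit 5) (nat_lit 177) (nat_lit 5) (nat_lit 178) (nat_lit 5) (nat_lit 517) (nat_lit 459) (nat_lit 224)) (XT.lf (nat_lit 0) (nat_lit 9741241227) (nat_lit 304) (nat_lit 7619699633) (nat_lit 76) (nat_lit 45022103070) (nat_lit 173) (nat_lit 5) (nat_lit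 177) (nat_lit 5) (nat_lit 174) (nat_lit 5) (nat_lit 518) (nat_lit 459) (nat_lit 223)))) (XT.nd (nat_lit 156) (nat_lit 304) (nat_lit 0) (XT.nd (nat_lit 78) (nat_lit 228) (nat_lit 0) (XT.lf (nat_lit 0) (nat_lit 24611151317) (nat_lit 380) (nat_lit 32424366324) (nat_lit 76) (nat_lit 6501886231) (nat_lit 169) (nat_lit 5) (nat_lit 174) (nat_lit 5) (nat_lit 170) (nat_lit 5) (nat_lit 519) (nat_lit 459) (nat_lit 222)) (XT.lf (nat_lit 0) (nat_lit 6389805872) (nat_lit 228) (nat_lit 33847053874) (nat_lit 304) (nat_lit 24480243865) (nat_lit 166) (nat_lit 5) (nat_lit 169) (nat_lit 5) (nat_lit 170) (nat_lit 5) (nat_lit 520) (nat_lit 459) (nat_lit 221))) (XT.nd (nat_lit 78) (nat_lit 304) (nat_lit 0) (XT.lf (nat_lit 0) (nat_lit 47030994660) (nat_lit 228) (nat_lit 9626467687) (nat_lit 304) (nat_lit 9264948337) (nat_lit 166) (nat_lit 5) (nat_lit 169) (nat_lit 5) (nat_lit 170) (nat_lit 5) (nat_lit 521) (nat_lit 459) (nat_lit 220))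 (XT.lf (nat_lit 0) (nat_lit 6642880805) (nat_lit 304) (nat_lit 45210604292) (nat_lit 76) (nat_lit 15297711477) (nat_lit 162) (nat_lit 5) (nat_lit 166) (nat_lit 5) (nat_lit 163) (nat_lit 5) (nat_lit 522) (nat_lit 459) (nat_lit 219))))) (XT.nd (nat_lit 312) (nat_lit 684) (nat_lit 0) (XT.nd (nat_lit 156) (nat_lit 304) (nat_lit 0) (XT.nd (nat_lit 78) (nat_lit 228) (nat_lit 0) (XT.lf (nat_lit 0) (nat_lit 23128431192) (nat_lit 304) (nat_lit 4217290777) (nat_lit 76) (nat_lit 41059771054) (nat_lit 162) (nat_lit 5) (nat_lit 166) (nat_lit 5) (nat_lit 163) (nat_lit 5) (nat_lit 523) (nat_lit 459) (nat_lit 218)) (XT.lf (nat_lit 0) (nat_lit 38760181065) (nat_lit 228) (nat_lit 1719726474) (nat_lit 304) (nat_lit 29206370069) (nat_lit 159) (nat_lit 5) (nat_lit 162) (nat_lit 5) (nat_lit 163) (nat_lit 5) (nat_lit 524) (nat_lit 459) (nat_lit 217))) (XT.nd (nat_lit 78) (nat_lit 76) (nat_lit 0) (XT.lf (nat_lit 0) (nat_lit 12105833040)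 (nat_lit 228) (nat_lit 46641445824) (nat_lit 304) (nat_lit 12246346371) (nat_lit 156) (nat_lit 5) (nat_lit 159) (nat_lit 5) (nat_lit 160) (nat_lit 5) (nat_lit 525) (nat_lit 459) (nat_lit 216)) (XT.lf (nat_lit 0) (nat_lit 5451767454) (nat_lit 304) (nat_lit 15340475838) (nat_lit 76) (nat_lit 51536508010) (nat_lit 155) (nat_lit 5) (nat_lit 159) (nat_lit 5) (nat_lit 156) (nat_lit 5) (nat_lit 526) (nat_lit 459) (nat_lit 215)))) (XT.nd (nat_lit 156) (nat_lit 228) (nat_lit 0) (XT.nd (nat_lit 78) (nat_lit 228) (nat_lit 0) (XT.lf (nat_lit 0) (nat_lit 23781756179) (nat_lit 304) (nat_lit 43776814255) (nat_lit 76) (nat_lit 6131311083) (nat_lit 152) (nat_lit 5) (nat_lit 156) (nat_lit 5) (nat_lit 153) (nat_lit 5) (nat_lit 527) (nat_lit 459) (nat_lit 214)) (XT.lf (nat_lit 0) (nat_lit 1572820998) (nat_lit 228) (nat_lit 41465079328) (nat_lit 304) (nat_lit 32042657662) (nat_lit 149) (nat_lit 5) (nat_lit 152) (nat_lit 5) (nat_lit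 153) (nat_lit 5) (nat_lit 528) (nat_lit 459) (nat_lit 213))) (XT.nd (nat_lit 78) (nat_lit 228) (nat_lit 0) (XT.lf (nat_lit 0) (nat_lit 49178390407) (nat_lit 228) (nat_lit 14134244396) (nat_lit 304) (nat_lit 13187092793) (nat_lit 149) (nat_lit 5) (nat_lit 152) (nat_lit 5) (nat_lit 153) (nat_lit 5) (nat_lit 529) (nat_lit 459) (nat_lit 212)) (XT.lf (nat_lit 0) (nat_lit 6446567629) (nat_lit 228) (nat_lit 57500428863) (nat_lit 76) (nat_lit 14002655656) (nat_lit 146) (nat_lit 5) (nat_lit 149) (nat_lit 5) (nat_lit 147) (nat_lit 5) (nat_lit 530) (nat_lit 459) (nat_lit 211)))))) (XT.nd (nat_lit 624) (nat_lit 912) (nat_lit 0) (XT.nd (nat_lit 312) (nat_lit 684) (nat_lit 0) (XT.nd (nat_lit 156) (nat_lit 228) (nat_lit 0) (XT.nd (nat_lit 78) (nat_lit 228) (nat_lit 0) (XT.lf (nat_lit 0) (nat_lit 26821632888) (nat_lit 228) (nat_lit 9496986664) (nat_lit 76) (nat_lit 43108014669) (nat_lit 146) (nat_lit 5) (nat_lit 149) (nat_lit 5)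 (nat_lit 147) (nat_lit 5) (nat_lit 531) (nat_lit 459) (nat_lit 210)) (XT.lf (nat_lit 0) (nat_lit 40739682080) (nat_lit 228) (nat_lit 7458791491) (nat_lit 304) (nat_lit 32737736502) (nat_lit 143) (nat_lit 5) (nat_lit 146) (nat_lit 5) (nat_lit 147) (nat_lit 5) (nat_lit 532) (nat_lit 459) (nat_lit 209))) (XT.nd (nat_lit 78) (nat_lit 76) (nat_lit 0) (XT.lf (nat_lit 0) (nat_lit 10171564056) (nat_lit 152) (nat_lit 60452639130) (nat_lit 228) (nat_lit 11854642521) (nat_lit 141) (nat_lit 5) (nat_lit 143) (nat_lit 5) (nat_lit 144) (nat_lit 5) (nat_lit 533) (nat_lit 459) (nat_lit 208)) (XT.lf (nat_lit 0) (nat_lit 9949234751) (nat_lit 228) (nat_lit 21353437260) (nat_lit 76) (nat_lit 52747823343) (nat_lit 140) (nat_lit 5) (nat_lit 143) (nat_lit 5) (nat_lit 141) (nat_lit 5) (nat_lit 534) (nat_lit 459) (nat_lit 207)))) (XT.nd (nat_lit 156) (nat_lit 456) (nat_lit 0) (XT.nd (nat_lit 78) (nat_lit 0) (nat_lit 0) (XT.lf (nat_lit 0)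 (nat_lit 31626995891) (nat_lit 228) (nat_lit 844934198) (nat_lit 304) (nat_lit 53184754188) (nat_lit 137) (nat_lit 5) (nat_lit 140) (nat_lit 5) (nat_lit 141) (nat_lit 5) (nat_lit 535) (nat_lit 459) (nat_lit 206)) (XT.lf (nat_lit 0) (nat_lit 56180465164) (nat_lit 304) (nat_lit 967414697) (nat_lit 76) (nat_lit 30147874258) (nat_lit 137) (nat_lit 5) (nat_lit 141) (nat_lit 5) (nat_lit 138) (nat_lit 5) (nat_lit 536) (nat_lit 459) (nat_lit 205))) (XT.nd (nat_lit 78) (nat_lit 304) (nat_lit 0) (XT.lf (nat_lit 0) (nat_lit 54744867408) (nat_lit 152) (nat_lit 26388982485) (nat_lit 228) (nat_lit 7834138372) (nat_lit 135) (nat_lit 5) (nat_lit 137) (nat_lit 5) (nat_lit 138) (nat_lit 5) (nat_lit 537) (nat_lit 459) (nat_lit 204)) (XT.lf (nat_lit 0) (nat_lit 16102652595) (nat_lit 304) (nat_lit 69008648973) (nat_lit 76) (nat_lit 5566264033) (nat_lit 131) (nat_lit 5) (nat_lit 135) (nat_lit 5) (nat_lit 132) (nat_lit 5) (nat_lit 538)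 (nat_lit 459) (nat_lit 203))))) (XT.nd (nat_lit 312) (nat_lit 532) (nat_lit 0) (XT.nd (nat_lit 156) (nat_lit 228) (nat_lit 0) (XT.nd (nat_lit 78) (nat_lit 152) (nat_lit 0) (XT.lf (nat_lit 0) (nat_lit 41209368943) (nat_lit 304) (nat_lit 12832843328) (nat_lit 76) (nat_lit 38375612627) (nat_lit 131) (nat_lit 5) (nat_lit 135) (nat_lit 5) (nat_lit 132) (nat_lit 5) (nat_lit 539) (nat_lit 459) (nat_lit 202)) (XT.lf (nat_lit 0) (nat_lit 45922632157) (nat_lit 152) (nat_lit 21587115289) (nat_lit 228) (nat_lit 26687330723) (nat_lit 129) (nat_lit 5) (nat_lit 131) (nat_lit 5) (nat_lit 132) (nat_lit 5) (nat_lit 540) (nat_lit 459) (nat_lit 201))) (XT.nd (nat_lit 78) (nat_lit 76) (nat_lit 0) (XT.lf (nat_lit 0) (nat_lit 10771361929) (nat_lit 152) (nat_lit 84175044086) (nat_lit 228) (nat_lit 1072884974) (nat_lit 127) (nat_lit 5) (nat_lit 129) (nat_lit 5) (nat_lit 130) (nat_lit 5) (nat_lit 541) (nat_lit 459) (nat_lit 200)) (XT.lf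 (nat_lit 0) (nat_lit 25521174083) (nat_lit 228) (nat_lit 25767006035) (nat_lit 76) (nat_lit 46579539165) (nat_lit 126) (nat_lit 5) (nat_lit 129) (nat_lit 5) (nat_lit 127) (nat_lit 5) (nat_lit 542) (nat_lit 459) (nat_lit 199)))) (XT.nd (nat_lit 156) (nat_lit 380) (nat_lit 0) (XT.nd (nat_lit 78) (nat_lit 0) (nat_lit 0) (XT.lf (nat_lit 0) (nat_lit 36192286635) (nat_lit 152) (nat_lit 17046166472) (nat_lit 228) (nat_lit 46522419786) (nat_lit 124) (nat_lit 5) (nat_lit 126) (nat_lit 5) (nat_lit 127) (nat_lit 5) (nat_lit 543) (nat_lit 459) (nat_lit 198)) (XT.lf (nat_lit 0) (nat_lit 82224258707) (nat_lit 228) (nat_lit 1343888328) (nat_lit 76) (nat_lit 18129563845) (nat_lit 124) (nat_lit 5) (nat_lit 127) (nat_lit 5) (nat_lit 125) (nat_lit 5) (nat_lit 544) (nat_lit 459) (nat_lit 197))) (XT.nd (nat_lit 78) (nat_lit 152) (nat_lit 0) (XT.lf (nat_lit 0) (nat_lit 9012427187) (nat_lit 228) (nat_lit 39935018377) (nat_lit 76) (nat_lit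 54719116738) (nat_lit 121) (nat_lit 5) (nat_lit 124) (nat_lit 5) (nat_lit 122) (nat_lit 5) (nat_lit 545) (nat_lit 459) (nat_lit 196)) (XT.lf (nat_lit 0) (nat_lit 25393661615) (nat_lit 152) (nat_lit 12824722005) (nat_lit 228) (nat_lit 67462604531) (nat_lit 119) (nat_lit 5) (nat_lit 121) (nat_lit 5) (nat_lit 122) (nat_lit 5) (nat_lit 546) (nat_lit 459) (nat_lit 195))))))) (XT.nd (nat_lit 1248) (nat_lit 4636) (nat_lit 0) (XT.nd (nat_lit 624) (nat_lit 836) (nat_lit 0) (XT.nd (nat_lit 312) (nat_lit 0) (nat_lit 152) (XT.nd (nat_lit 156) (nat_lit 0) (nat_lit 76) (XT.nd (nat_lit 78) (nat_lit 0) (nat_lit 0) (XT.lf (nat_lit 0) (nat_lit 5732729378) (nat_lit 1292) (nat_lit 3132269891) (nat_lit 1292) (nat_lit 3132269891) (nat_lit 327) (nat_lit 3) (nat_lit 344) (nat_lit 3) (nat_lit 344) (nat_lit 5) (nat_lit 460) (nat_lit 460) (nat_lit 280)) (XT.lf (nat_lit 76) (nat_lit 5797724039) (nat_lit 0) (nat_lit 6009350257) (nat_lit 1292)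 (nat_lit 12542287833) (nat_lit 328) (nat_lit 5) (nat_lit 327) (nat_lit 3) (nat_lit 344) (nat_lit 5) (nat_lit 461) (nat_lit 460) (nat_lit 279))) (XT.nd (nat_lit 78) (nat_lit 0) (nat_lit 0) (XT.lf (nat_lit 0) (nat_lit 12276657441) (nat_lit 1216) (nat_lit 6424056699) (nat_lit 1292) (nat_lit 6010585143) (nat_lit 328) (nat_lit 5) (nat_lit 344) (nat_lit 5) (nat_lit 345) (nat_lit 5) (nat_lit 462) (nat_lit 460) (nat_lit 278)) (XT.lf (nat_lit 76) (nat_lit 6124956361) (nat_lit 0) (nat_lit 6749429357) (nat_lit 1292) (nat_lit 12206287302) (nat_lit 329) (nat_lit 5) (nat_lit 328) (nat_lit 5) (nat_lit 345) (nat_lit 5) (nat_lit 463) (nat_lit 460) (nat_lit 277)))) (XT.nd (nat_lit 156) (nat_lit 0) (nat_lit 76) (XT.nd (nat_lit 78) (nat_lit 0) (nat_lit 0) (XT.lf (nat_lit 0) (nat_lit 13604810966) (nat_lit 1216) (nat_lit 6333685038) (nat_lit 1292) (nat_lit 5519189207) (nat_lit 329) (nat_lit 5) (nat_lit 345) (nat_lit 5) (nat_lit 346)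 (nat_lit 5) (nat_lit 464) (nat_lit 460) (nat_lit 276)) (XT.lf (nat_lit 76) (nat_lit 6729025265) (nat_lit 0) (nat_lit 7755558056) (nat_lit 1292) (nat_lit 11357601603) (nat_lit 330) (nat_lit 5) (nat_lit 329) (nat_lit 5) (nat_lit 346) (nat_lit 5) (nat_lit 465) (nat_lit 460) (nat_lit 275))) (XT.nd (nat_lit 78) (nat_lit 0) (nat_lit 0) (XT.lf (nat_lit 0) (nat_lit 15497446733) (nat_lit 1216) (nat_lit 5972128895) (nat_lit 1292) (nat_lit 4765443246) (nat_lit 330) (nat_lit 5) (nat_lit 346) (nat_lit 5) (nat_lit 347) (nat_lit 5) (nat_lit 466) (nat_lit 460) (nat_lit 274)) (XT.lf (nat_lit 76) (nat_lit 7632789282) (nat_lit 0) (nat_lit 9054215858) (nat_lit 1292) (nat_lit 9948243606) (nat_lit 331) (nat_lit 5) (nat_lit 330) (nat_lit 5) (nat_lit 347) (nat_lit 5) (nat_lit 467) (nat_lit 460) (nat_lit 273))))) (XT.nd (nat_lit 312) (nat_lit 1140) (nat_lit 0) (XT.nd (nat_lit 156) (nat_lit 0) (nat_lit 76) (XT.nd (nat_lit 78) (nat_lit 0)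 (nat_lit 0) (XT.lf (nat_lit 0) (nat_lit 18005294941) (nat_lit 1216) (nat_lit 5316485206) (nat_lit 1292) (nat_lit 3722914201) (nat_lit 331) (nat_lit 5) (nat_lit 347) (nat_lit 5) (nat_lit 348) (nat_lit 5) (nat_lit 468) (nat_lit 460) (nat_lit 272)) (XT.lf (nat_lit 76) (nat_lit 8860804620) (nat_lit 0) (nat_lit 10673510242) (nat_lit 1292) (nat_lit 7926973180) (nat_lit 332) (nat_lit 5) (nat_lit 331) (nat_lit 5) (nat_lit 348) (nat_lit 5) (nat_lit 469) (nat_lit 460) (nat_lit 271))) (XT.nd (nat_lit 78) (nat_lit 0) (nat_lit 0) (XT.lf (nat_lit 0) (nat_lit 21182505500) (nat_lit 1216) (nat_lit 4342151211) (nat_lit 1292) (nat_lit 2363523994) (nat_lit 332) (nat_lit 5) (nat_lit 348) (nat_lit 5) (nat_lit 349) (nat_lit 5) (nat_lit 470) (nat_lit 460) (nat_lit 270)) (XT.lf (nat_lit 76) (nat_lit 10439423107) (nat_lit 0) (nat_lit 12643302927) (nat_lit 1292) (nat_lit 5239076745) (nat_lit 333) (nat_lit 5) (nat_lit 332) (nat_lit 5) (nat_lit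 349) (nat_lit 5) (nat_lit 471) (nat_lit 460) (nat_lit 269)))) (XT.nd (nat_lit 156) (nat_lit 1292) (nat_lit 0) (XT.nd (nat_lit 78) (nat_lit 0) (nat_lit 0) (XT.lf (nat_lit 0) (nat_lit 25086877599) (nat_lit 1216) (nat_lit 3022725499) (nat_lit 1292) (nat_lit 657422838) (nat_lit 333) (nat_lit 5) (nat_lit 349) (nat_lit 5) (nat_lit 350) (nat_lit 5) (nat_lit 472) (nat_lit 460) (nat_lit 268)) (XT.lf (nat_lit 76) (nat_lit 12396896867) (nat_lit 0) (nat_lit 14995342553) (nat_lit 1292) (nat_lit 1826133945) (nat_lit 334) (nat_lit 5) (nat_lit 333) (nat_lit 5) (nat_lit 350) (nat_lit 5) (nat_lit 473) (nat_lit 460) (nat_lit 267))) (XT.nd (nat_lit 78) (nat_lit 0) (nat_lit 76) (XT.lf (nat_lit 0) (nat_lit 109474244) (nat_lit 1292) (nat_lit 1344967195) (nat_lit 1368) (nat_lit 28227967755) (nat_lit 316) (nat_lit 5) (nat_lit 333) (nat_lit 5) (nat_lit 334) (nat_lit 5) (nat_lit 474) (nat_lit 460) (nat_lit 266)) (XT.lf (nat_lit 0) (nat_lit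 2327899669) (nat_lit 1292) (nat_lit 15411997402) (nat_lit 1368) (nat_lit 12412083170) (nat_lit 317) (nat_lit 5) (nat_lit 334) (nat_lit 5) (nat_lit 335) (nat_lit 5) (nat_lit 475) (nat_lit 460) (nat_lit 265)))))) (XT.nd (nat_lit 624) (nat_lit 2736) (nat_lit 0) (XT.nd (nat_lit 312) (nat_lit 1216) (nat_lit 0) (XT.nd (nat_lit 156) (nat_lit 760) (nat_lit 0) (XT.nd (nat_lit 78) (nat_lit 0) (nat_lit 76) (XT.lf (nat_lit 76) (nat_lit 696287976) (nat_lit 0) (nat_lit 3948343017) (nat_lit 1368) (nat_lit 25990054966) (nat_lit 318) (nat_lit 5) (nat_lit 317) (nat_lit 5) (nat_lit 335) (nat_lit 5) (nat_lit 476) (nat_lit 460) (nat_lit 264)) (XT.lf (nat_lit 0) (nat_lit 7283644414) (nat_lit 1292) (nat_lit 13626242054) (nat_lit 76) (nat_lit 10214403104) (nat_lit 318) (nat_lit 5) (nat_lit 335) (nat_lit 5) (nat_lit 319) (nat_lit 5) (nat_lit 477) (nat_lit 460) (nat_lit 263))) (XT.nd (nat_lit 78) (nat_lit 0) (nat_lit 0) (XT.lf (nat_lit 0)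 (nat_lit 3195974481) (nat_lit 836) (nat_lit 6872767095) (nat_lit 912) (nat_lit 21557832440) (nat_lit 307) (nat_lit 5) (nat_lit 318) (nat_lit 5) (nat_lit 319) (nat_lit 5) (nat_lit 478) (nat_lit 460) (nat_lit 262)) (XT.lf (nat_lit 0) (nat_lit 13146430401) (nat_lit 912) (nat_lit 11414534837) (nat_lit 76) (nat_lit 7576690715) (nat_lit 307) (nat_lit 5) (nat_lit 319) (nat_lit 5) (nat_lit 308) (nat_lit 5) (nat_lit 479) (nat_lit 460) (nat_lit 261)))) (XT.nd (nat_lit 156) (nat_lit 608) (nat_lit 0) (XT.nd (nat_lit 78) (nat_lit 0) (nat_lit 0) (XT.lf (nat_lit 0) (nat_lit 6161637817) (nat_lit 608) (nat_lit 10279333288) (nat_lit 684) (nat_lit 16219363721) (nat_lit 299) (nat_lit 5) (nat_lit 307) (nat_lit 5) (nat_lit 308) (nat_lit 5) (nat_lit 480) (nat_lit 460) (nat_lit 260)) (XT.lf (nat_lit 0) (nat_lit 19990646749) (nat_lit 684) (nat_lit 8742506068) (nat_lit 76) (nat_lit 4460852403) (nat_lit 299) (nat_lit 5) (nat_lit 308) (nat_lit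 5) (nat_lit 300) (nat_lit 5) (nat_lit 481) (nat_lit 460) (nat_lit 259))) (XT.nd (nat_lit 78) (nat_lit 0) (nat_lit 0) (XT.lf (nat_lit 0) (nat_lit 9629966602) (nat_lit 608) (nat_lit 14208571356) (nat_lit 684) (nat_lit 9899396118) (nat_lit 291) (nat_lit 5) (nat_lit 299) (nat_lit 5) (nat_lit 300) (nat_lit 5) (nat_lit 482) (nat_lit 460) (nat_lit 258)) (XT.lf (nat_lit 0) (nat_lit 27895681548) (nat_lit 684) (nat_lit 5573402826) (nat_lit 76) (nat_lit 826282061) (nat_lit 291) (nat_lit 5) (nat_lit 300) (nat_lit 5) (nat_lit 292) (nat_lit 5) (nat_lit 483) (nat_lit 460) (nat_lit 257))))) (XT.nd (nat_lit 312) (nat_lit 988) (nat_lit 0) (XT.nd (nat_lit 156) (nat_lit 1140) (nat_lit 0) (XT.nd (nat_lit 78) (nat_lit 76) (nat_lit 0) (XT.lf (nat_lit 0) (nat_lit 13640167853) (nat_lit 532) (nat_lit 18703676054) (nat_lit 608) (nat_lit 2517598829) (nat_lit 284) (nat_lit 5) (nat_lit 291) (nat_lit 5) (nat_lit 292) (nat_lit 5) (nat_lit 484)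 (nat_lit 460) (nat_lit 256)) (XT.lf (nat_lit 0) (nat_lit 1506421018) (nat_lit 608) (nat_lit 1915756279) (nat_lit 76) (nat_lit 32020265957) (nat_lit 283) (nat_lit 5) (nat_lit 291) (nat_lit 5) (nat_lit 284) (nat_lit 5) (nat_lit 485) (nat_lit 460) (nat_lit 255))) (XT.nd (nat_lit 78) (nat_lit 532) (nat_lit 0) (XT.lf (nat_lit 0) (nat_lit 5894455188) (nat_lit 684) (nat_lit 17856712940) (nat_lit 76) (nat_lit 12280141102) (nat_lit 275) (nat_lit 5) (nat_lit 284) (nat_lit 5) (nat_lit 276) (nat_lit 5) (nat_lit 486) (nat_lit 460) (nat_lit 254)) (XT.lf (nat_lit 0) (nat_lit 2277521328) (nat_lit 532) (nat_lit 8209571253) (nat_lit 608) (nat_lit 26148559833) (nat_lit 268) (nat_lit 5) (nat_lit 275) (nat_lit 5) (nat_lit 276) (nat_lit 5) (nat_lit 487) (nat_lit 460) (nat_lit 253)))) (XT.nd (nat_lit 156) (nat_lit 456) (nat_lit 0) (XT.nd (nat_lit 78) (nat_lit 532) (nat_lit 0) (XT.lf (nat_lit 0) (nat_lit 15472266113) (nat_lit 608) (nat_lit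 13950195111) (nat_lit 76) (nat_lit 7828022048) (nat_lit 268) (nat_lit 5) (nat_lit 276) (nat_lit 5) (nat_lit 269) (nat_lit 5) (nat_lit 488) (nat_lit 460) (nat_lit 252)) (XT.lf (nat_lit 0) (nat_lit 7125250520) (nat_lit 532) (nat_lit 13629278829) (nat_lit 608) (nat_lit 17124803758) (nat_lit 261) (nat_lit 5) (nat_lit 268) (nat_lit 5) (nat_lit 269) (nat_lit 5) (nat_lit 489) (nat_lit 460) (nat_lit 251))) (XT.nd (nat_lit 78) (nat_lit 456) (nat_lit 0) (XT.lf (nat_lit 0) (nat_lit 26360678472) (nat_lit 608) (nat_lit 9433171452) (nat_lit 76) (nat_lit 2728236058) (nat_lit 261) (nat_lit 5) (nat_lit 269) (nat_lit 5) (nat_lit 262) (nat_lit 5) (nat_lit 490) (nat_lit 460) (nat_lit 250)) (XT.lf (nat_lit 0) (nat_lit 12636557915) (nat_lit 456) (nat_lit 19752730402) (nat_lit 532) (nat_lit 6787204922) (nat_lit 255) (nat_lit 5) (nat_lit 261) (nat_lit 5) (nat_lit 262) (nat_lit 5) (nat_lit 491) (nat_lit 460) (nat_lit 249))))))))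
noncomputable def xc211 : XT := (XT.nd (nat_lit 2418) (nat_lit 3420) (nat_lit 0) (XT.nd (nat_lit 1170) (nat_lit 2812) (nat_lit 0) (XT.nd (nat_lit 546) (nat_lit 2128) (nat_lit 0) (XT.nd (nat_lit 234) (nat_lit 836) (nat_lit 0) (XT.nd (nat_lit 78) (nat_lit 988) (nat_lit 0) (XT.lf (nat_lit 0) (nat_lit 35559323449) (nat_lit 456) (nat_lit 3132591042) (nat_lit 532) (nat_lit 1155823560) (nat_lit 255) (nat_lit 5) (nat_lit 261) (nat_lit 5) (nat_lit 262) (nat_lit 5) (nat_lit 492) (nat_lit 460) (nat_lit 248)) (XT.nd (nat_lit 78) (nat_lit 456) (nat_lit 0) (XT.lf (nat_lit 0) (nat_lit 4870689066) (nat_lit 532) (nat_lit 21715603589) (nat_lit 76) (nat_lit 13941983634) (nat_lit 248) (nat_lit 5) (nat_lit 255) (nat_lit 5) (nat_lit 249) (nat_lit 5) (nat_lit 493) (nat_lit 460) (nat_lit 247)) (XT.lf (nat_lit 0) (nat_lit 1449740092) (nat_lit 456) (nat_lit 9691687046) (nat_lit 532) (nat_lit 30084860464) (nat_lit 242) (nat_lit 5) (nat_lit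 248) (nat_lit 5) (nat_lit 249) (nat_lit 5) (nat_lit 494) (nat_lit 460) (nat_lit 246)))) (XT.nd (nat_lit 156) (nat_lit 380) (nat_lit 0) (XT.nd (nat_lit 78) (nat_lit 456) (nat_lit 0) (XT.lf (nat_lit 0) (nat_lit 17893862293) (nat_lit 532) (nat_lit 16262212566) (nat_lit 76) (nat_lit 7780357219) (nat_lit 242) (nat_lit 5) (nat_lit 249) (nat_lit 5) (nat_lit 243) (nat_lit 5) (nat_lit 495) (nat_lit 460) (nat_lit 245)) (XT.lf (nat_lit 0) (nat_lit 8015617939) (nat_lit 456) (nat_lit 17004326793) (nat_lit 532) (nat_lit 17642803999) (nat_lit 236) (nat_lit 5) (nat_lit 242) (nat_lit 5) (nat_lit 243) (nat_lit 5) (nat_lit 496) (nat_lit 460) (nat_lit 244))) (XT.nd (nat_lit 78) (nat_lit 380) (nat_lit 0) (XT.lf (nat_lit 0) (nat_lit 32530110304) (nat_lit 532) (nat_lit 10061194740) (nat_lit 76) (nat_lit 814440885) (nat_lit 236) (nat_lit 5) (nat_lit 243) (nat_lit 5) (nat_lit 237) (nat_lit 5) (nat_lit 497) (nat_lit 460) (nat_lit 243)) (XT.lf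 (nat_lit 0) (nat_lit 15391962918) (nat_lit 380) (nat_lit 25188085044) (nat_lit 456) (nat_lit 3581551133) (nat_lit 231) (nat_lit 5) (nat_lit 236) (nat_lit 5) (nat_lit 237) (nat_lit 5) (nat_lit 498) (nat_lit 460) (nat_lit 242))))) (XT.nd (nat_lit 312) (nat_lit 1216) (nat_lit 0) (XT.nd (nat_lit 156) (nat_lit 380) (nat_lit 0) (XT.nd (nat_lit 78) (nat_lit 456) (nat_lit 0) (XT.lf (nat_lit 0) (nat_lit 3955409170) (nat_lit 456) (nat_lit 3163279503) (nat_lit 76) (nat_lit 37817282479) (nat_lit 230) (nat_lit 5) (nat_lit 236) (nat_lit 5) (nat_lit 231) (nat_lit 5) (nat_lit 499) (nat_lit 460) (nat_lit 241)) (XT.lf (nat_lit 0) (nat_lit 11984972683) (nat_lit 532) (nat_lit 22204108540) (nat_lit 76) (nat_lit 11533274980) (nat_lit 224) (nat_lit 5) (nat_lit 231) (nat_lit 5) (nat_lit 225) (nat_lit 5) (nat_lit 500) (nat_lit 460) (nat_lit 240))) (XT.nd (nat_lit 78) (nat_lit 0) (nat_lit 0) (XT.lf (nat_lit 0) (nat_lit 4549346730) (nat_lit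 380) (nat_lit 15850791227) (nat_lit 456) (nat_lit 26127853461) (nat_lit 219) (nat_lit 5) (nat_lit 224) (nat_lit 5) (nat_lit 225) (nat_lit 5) (nat_lit 501) (nat_lit 460) (nat_lit 239)) (XT.lf (nat_lit 0) (nat_lit 29321662004) (nat_lit 456) (nat_lit 14824263781) (nat_lit 76) (nat_lit 3204252845) (nat_lit 219) (nat_lit 5) (nat_lit 225) (nat_lit 5) (nat_lit 220) (nat_lit 5) (nat_lit 502) (nat_lit 460) (nat_lit 238)))) (XT.nd (nat_lit 156) (nat_lit 836) (nat_lit 0) (XT.nd (nat_lit 78) (nat_lit 0) (nat_lit 0) (XT.lf (nat_lit 0) (nat_lit 13243972841) (nat_lit 380) (nat_lit 25549423277) (nat_lit 456) (nat_lit 9395158465) (nat_lit 214) (nat_lit 5) (nat_lit 219) (nat_lit 5) (nat_lit 220) (nat_lit 5) (nat_lit 503) (nat_lit 460) (nat_lit 237)) (XT.lf (nat_lit 0) (nat_lit 42455886943) (nat_lit 380) (nat_lit 6241435338) (nat_lit 456) (nat_lit 350318386) (nat_lit 214) (nat_lit 5) (nat_lit 219) (nat_lit 5) (nat_lit 220) (nat_lit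 5) (nat_lit 504) (nat_lit 460) (nat_lit 236))) (XT.nd (nat_lit 78) (nat_lit 380) (nat_lit 0) (XT.lf (nat_lit 0) (nat_lit 9144308648) (nat_lit 456) (nat_lit 27086032233) (nat_lit 76) (nat_lit 13688970996) (nat_lit 208) (nat_lit 5) (nat_lit 214) (nat_lit 5) (nat_lit 209) (nat_lit 5) (nat_lit 505) (nat_lit 460) (nat_lit 235)) (XT.lf (nat_lit 0) (nat_lit 2440511729) (nat_lit 380) (nat_lit 16627097321) (nat_lit 456) (nat_lit 31744893898) (nat_lit 203) (nat_lit 5) (nat_lit 208) (nat_lit 5) (nat_lit 209) (nat_lit 5) (nat_lit 506) (nat_lit 460) (nat_lit 234)))))) (XT.nd (nat_lit 624) (nat_lit 1444) (nat_lit 0) (XT.nd (nat_lit 312) (nat_lit 684) (nat_lit 0) (XT.nd (nat_lit 156) (nat_lit 380) (nat_lit 0) (XT.nd (nat_lit 78) (nat_lit 304) (nat_lit 0) (XT.lf (nat_lit 0) (nat_lit 29597509970) (nat_lit 456) (nat_lit 18355423907) (nat_lit 76) (nat_lit 3770288876) (nat_lit 203) (nat_lit 5) (nat_lit 209) (nat_lit 5) (nat_lit 204)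 (nat_lit 5) (nat_lit 507) (nat_lit 460) (nat_lit 233)) (XT.lf (nat_lit 0) (nat_lit 12641503786) (nat_lit 304) (nat_lit 28086408786) (nat_lit 380) (nat_lit 11924813487) (nat_lit 199) (nat_lit 5) (nat_lit 203) (nat_lit 5) (nat_lit 204) (nat_lit 5) (nat_lit 508) (nat_lit 460) (nat_lit 232))) (XT.nd (nat_lit 78) (nat_lit 380) (nat_lit 0) (XT.lf (nat_lit 0) (nat_lit 44942435823) (nat_lit 304) (nat_lit 7433631199) (nat_lit 380) (nat_lit 1228532292) (nat_lit 199) (nat_lit 5) (nat_lit 203) (nat_lit 5) (nat_lit 204) (nat_lit 5) (nat_lit 509) (nat_lit 460) (nat_lit 231)) (XT.lf (nat_lit 0) (nat_lit 9963074461) (nat_lit 380) (nat_lit 30712115018) (nat_lit 76) (nat_lit 13896053037) (nat_lit 194) (nat_lit 5) (nat_lit 199) (nat_lit 5) (nat_lit 195) (nat_lit 5) (nat_lit 510) (nat_lit 460) (nat_lit 230)))) (XT.nd (nat_lit 156) (nat_lit 380) (nat_lit 0) (XT.nd (nat_lit 78) (nat_lit 0) (nat_lit 0) (XT.lf (nat_lit 0) (nat_lit 1918004681)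 (nat_lit 304) (nat_lit 19726638780) (nat_lit 380) (nat_lit 33916509493) (nat_lit 190) (nat_lit 5) (nat_lit 194) (nat_lit 5) (nat_lit 195) (nat_lit 5) (nat_lit 511) (nat_lit 460) (nat_lit 229)) (XT.lf (nat_lit 0) (nat_lit 34006196867) (nat_lit 380) (nat_lit 20437888328) (nat_lit 76) (nat_lit 2126789430) (nat_lit 190) (nat_lit 5) (nat_lit 195) (nat_lit 5) (nat_lit 191) (nat_lit 5) (nat_lit 512) (nat_lit 460) (nat_lit 228))) (XT.nd (nat_lit 78) (nat_lit 76) (nat_lit 0) (XT.lf (nat_lit 0) (nat_lit 13836101226) (nat_lit 304) (nat_lit 33229399977) (nat_lit 380) (nat_lit 10535579651) (nat_lit 186) (nat_lit 5) (nat_lit 190) (nat_lit 5) (nat_lit 191) (nat_lit 5) (nat_lit 513) (nat_lit 460) (nat_lit 227)) (XT.lf (nat_lit 0) (nat_lit 2025228759) (nat_lit 380) (nat_lit 9120717988) (nat_lit 76) (nat_lit 47509501096) (nat_lit 185) (nat_lit 5) (nat_lit 190) (nat_lit 5) (nat_lit 186) (nat_lit 5) (nat_lit 514) (nat_lit 460) (nat_lit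 226))))) (XT.nd (nat_lit 312) (nat_lit 608) (nat_lit 0) (XT.nd (nat_lit 156) (nat_lit 228) (nat_lit 0) (XT.nd (nat_lit 78) (nat_lit 304) (nat_lit 0) (XT.lf (nat_lit 0) (nat_lit 15124222942) (nat_lit 380) (nat_lit 32862634314) (nat_lit 76) (nat_lit 11740265753) (nat_lit 181) (nat_lit 5) (nat_lit 186) (nat_lit 5) (nat_lit 182) (nat_lit 5) (nat_lit 515) (nat_lit 460) (nat_lit 225)) (XT.lf (nat_lit 0) (nat_lit 3237880540) (nat_lit 304) (nat_lit 25611451641) (nat_lit 380) (nat_lit 31974621927) (nat_lit 177) (nat_lit 5) (nat_lit 181) (nat_lit 5) (nat_lit 182) (nat_lit 5) (nat_lit 516) (nat_lit 460) (nat_lit 224))) (XT.nd (nat_lit 78) (nat_lit 228) (nat_lit 0) (XT.lf (nat_lit 0) (nat_lit 41093016547) (nat_lit 304) (nat_lit 2223697498) (nat_lit 380) (nat_lit 18627060546) (nat_lit 177) (nat_lit 5) (nat_lit 181) (nat_lit 5) (nat_lit 182) (nat_lit 5) (nat_lit 517) (nat_lit 460) (nat_lit 223)) (XT.lf (nat_lit 0) (nat_lit 17108255729)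 (nat_lit 228) (nat_lit 41483206225) (nat_lit 304) (nat_lit 4494527430) (nat_lit 174) (nat_lit 5) (nat_lit 177) (nat_lit 5) (nat_lit 178) (nat_lit 5) (nat_lit 518) (nat_lit 460) (nat_lit 222)))) (XT.nd (nat_lit 156) (nat_lit 228) (nat_lit 0) (XT.nd (nat_lit 78) (nat_lit 304) (nat_lit 0) (XT.lf (nat_lit 0) (nat_lit 10098998485) (nat_lit 304) (nat_lit 7745541911) (nat_lit 76) (nat_lit 46408027727) (nat_lit 173) (nat_lit 5) (nat_lit 177) (nat_lit 5) (nat_lit 174) (nat_lit 5) (nat_lit 519) (nat_lit 460) (nat_lit 221)) (XT.lf (nat_lit 0) (nat_lit 25414432652) (nat_lit 380) (nat_lit 33293773898) (nat_lit 76) (nat_lit 6733369554) (nat_lit 169) (nat_lit 5) (nat_lit 174) (nat_lit 5) (nat_lit 170) (nat_lit 5) (nat_lit 520) (nat_lit 460) (nat_lit 220))) (XT.nd (nat_lit 78) (nat_lit 0) (nat_lit 0) (XT.lf (nat_lit 0) (nat_lit 6683810489) (nat_lit 228) (nat_lit 34824193661) (nat_lit 304) (nat_lit 25148689973) (nat_lit 166) (nat_lit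 5) (nat_lit 169) (nat_lit 5) (nat_lit 170) (nat_lit 5) (nat_lit 521) (nat_lit 460) (nat_lit 219)) (XT.lf (nat_lit 0) (nat_lit 48541255025) (nat_lit 228) (nat_lit 9878104602) (nat_lit 304) (nat_lit 9478856780) (nat_lit 166) (nat_lit 5) (nat_lit 169) (nat_lit 5) (nat_lit 170) (nat_lit 5) (nat_lit 522) (nat_lit 460) (nat_lit 218))))))) (XT.nd (nat_lit 1248) (nat_lit 1064) (nat_lit 0) (XT.nd (nat_lit 624) (nat_lit 1064) (nat_lit 0) (XT.nd (nat_lit 312) (nat_lit 532) (nat_lit 0) (XT.nd (nat_lit 156) (nat_lit 456) (nat_lit 0) (XT.nd (nat_lit 78) (nat_lit 0) (nat_lit 0) (XT.lf (nat_lit 0) (nat_lit 6904448282) (nat_lit 304) (nat_lit 46465830272) (nat_lit 76) (nat_lit 15793584171) (nat_lit 162) (nat_lit 5) (nat_lit 166) (nat_lit 5) (nat_lit 163) (nat_lit 5) (nat_lit 523) (nat_lit 460) (nat_lit 217)) (XT.lf (nat_lit 0) (nat_lit 23882751170) (nat_lit 304) (nat_lit 4245661783) (nat_lit 76) (nat_lit 42327429573) (nat_lit 162)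 (nat_lit 5) (nat_lit 166) (nat_lit 5) (nat_lit 163) (nat_lit 5) (nat_lit 524) (nat_lit 460) (nat_lit 216))) (XT.nd (nat_lit 78) (nat_lit 228) (nat_lit 0) (XT.lf (nat_lit 0) (nat_lit 40020171982) (nat_lit 228) (nat_lit 1733772856) (nat_lit 304) (nat_lit 30021130657) (nat_lit 159) (nat_lit 5) (nat_lit 162) (nat_lit 5) (nat_lit 163) (nat_lit 5) (nat_lit 525) (nat_lit 460) (nat_lit 215)) (XT.lf (nat_lit 0) (nat_lit 12566656235) (nat_lit 228) (nat_lit 48002233030) (nat_lit 304) (nat_lit 12552767763) (nat_lit 156) (nat_lit 5) (nat_lit 159) (nat_lit 5) (nat_lit 160) (nat_lit 5) (nat_lit 526) (nat_lit 460) (nat_lit 214)))) (XT.nd (nat_lit 156) (nat_lit 228) (nat_lit 0) (XT.nd (nat_lit 78) (nat_lit 228) (nat_lit 0) (XT.lf (nat_lit 0) (nat_lit 5673358608) (nat_lit 304) (nat_lit 15704729825) (nat_lit 76) (nat_lit 53118783129) (nat_lit 155) (nat_lit 5) (nat_lit 159) (nat_lit 5) (nat_lit 156) (nat_lit 5) (nat_lit 527) (nat_lit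 460) (nat_lit 213)) (XT.lf (nat_lit 0) (nat_lit 24552832906) (nat_lit 304) (nat_lit 44993743205) (nat_lit 76) (nat_lit 6352272029) (nat_lit 152) (nat_lit 5) (nat_lit 156) (nat_lit 5) (nat_lit 153) (nat_lit 5) (nat_lit 528) (nat_lit 460) (nat_lit 212))) (XT.nd (nat_lit 78) (nat_lit 0) (nat_lit 0) (XT.lf (nat_lit 0) (nat_lit 1715436248) (nat_lit 228) (nat_lit 42670464097) (nat_lit 304) (nat_lit 32945367424) (nat_lit 149) (nat_lit 5) (nat_lit 152) (nat_lit 5) (nat_lit 153) (nat_lit 5) (nat_lit 529) (nat_lit 460) (nat_lit 211)) (XT.lf (nat_lit 0) (nat_lit 50746393206) (nat_lit 228) (nat_lit 14520827445) (nat_lit 304) (nat_lit 13525841529) (nat_lit 149) (nat_lit 5) (nat_lit 152) (nat_lit 5) (nat_lit 153) (nat_lit 5) (nat_lit 530) (nat_lit 460) (nat_lit 210))))) (XT.nd (nat_lit 312) (nat_lit 456) (nat_lit 0) (XT.nd (nat_lit 156) (nat_lit 380) (nat_lit 0) (XT.nd (nat_lit 78) (nat_lit 0) (nat_lit 0) (XT.lf (nat_lit 0) (nat_lit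 6695351170) (nat_lit 228) (nat_lit 59131311120) (nat_lit 76) (nat_lit 14459816847) (nat_lit 146) (nat_lit 5) (nat_lit 149) (nat_lit 5) (nat_lit 147) (nat_lit 5) (nat_lit 531) (nat_lit 460) (nat_lit 209)) (XT.lf (nat_lit 0) (nat_lit 27680055188) (nat_lit 228) (nat_lit 9690507324) (nat_lit 76) (nat_lit 44437256587) (nat_lit 146) (nat_lit 5) (nat_lit 149) (nat_lit 5) (nat_lit 147) (nat_lit 5) (nat_lit 532) (nat_lit 460) (nat_lit 208))) (XT.nd (nat_lit 78) (nat_lit 152) (nat_lit 0) (XT.lf (nat_lit 0) (nat_lit 42052365513) (nat_lit 228) (nat_lit 7645139239) (nat_lit 304) (nat_lit 33665198391) (nat_lit 143) (nat_lit 5) (nat_lit 146) (nat_lit 5) (nat_lit 147) (nat_lit 5) (nat_lit 533) (nat_lit 460) (nat_lit 207)) (XT.lf (nat_lit 0) (nat_lit 10567538234) (nat_lit 152) (nat_lit 62228144367) (nat_lit 228) (nat_lit 12155944982) (nat_lit 141) (nat_lit 5) (nat_lit 143) (nat_lit 5) (nat_lit 144) (nat_lit 5) (nat_lit 534) (nat_lit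 460) (nat_lit 206)))) (XT.nd (nat_lit 156) (nat_lit 152) (nat_lit 0) (XT.nd (nat_lit 78) (nat_lit 228) (nat_lit 0) (XT.lf (nat_lit 0) (nat_lit 10299436558) (nat_lit 228) (nat_lit 21904828307) (nat_lit 76) (nat_lit 54366192762) (nat_lit 140) (nat_lit 5) (nat_lit 143) (nat_lit 5) (nat_lit 141) (nat_lit 5) (nat_lit 535) (nat_lit 460) (nat_lit 205)) (XT.lf (nat_lit 0) (nat_lit 32664143211) (nat_lit 228) (nat_lit 833012153) (nat_lit 304) (nat_lit 54727696601) (nat_lit 137) (nat_lit 5) (nat_lit 140) (nat_lit 5) (nat_lit 141) (nat_lit 5) (nat_lit 536) (nat_lit 460) (nat_lit 204))) (XT.nd (nat_lit 78) (nat_lit 152) (nat_lit 0) (XT.lf (nat_lit 0) (nat_lit 57915806920) (nat_lit 304) (nat_lit 909532264) (nat_lit 76) (nat_lit 31087788930) (nat_lit 137) (nat_lit 5) (nat_lit 141) (nat_lit 5) (nat_lit 138) (nat_lit 5) (nat_lit 537) (nat_lit 460) (nat_lit 203)) (XT.lf (nat_lit 0) (nat_lit 56473266296) (nat_lit 152) (nat_lit 27143899879)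 (nat_lit 228) (nat_lit 8018381941) (nat_lit 135) (nat_lit 5) (nat_lit 137) (nat_lit 5) (nat_lit 138) (nat_lit 5) (nat_lit 538) (nat_lit 460) (nat_lit 202)))))) (XT.nd (nat_lit 56394) (nat_lit 0) (nat_lit 15656) (XT.nd (nat_lit 312) (nat_lit 456) (nat_lit 0) (XT.nd (nat_lit 156) (nat_lit 304) (nat_lit 0) (XT.nd (nat_lit 78) (nat_lit 0) (nat_lit 0) (XT.lf (nat_lit 0) (nat_lit 16635256069) (nat_lit 304) (nat_lit 70991597413) (nat_lit 76) (nat_lit 5769552642) (nat_lit 131) (nat_lit 5) (nat_lit 135) (nat_lit 5) (nat_lit 132) (nat_lit 5) (nat_lit 539) (nat_lit 460) (nat_lit 201)) (XT.lf (nat_lit 0) (nat_lit 42493731464) (nat_lit 304) (nat_lit 13133060638) (nat_lit 76) (nat_lit 39562124393) (nat_lit 131) (nat_lit 5) (nat_lit 135) (nat_lit 5) (nat_lit 132) (nat_lit 5) (nat_lit 540) (nat_lit 460) (nat_lit 200))) (XT.nd (nat_lit 78) (nat_lit 152) (nat_lit 0) (XT.lf (nat_lit 0) (nat_lit 47384248052) (nat_lit 152) (nat_lit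 22198279691) (nat_lit 228) (nat_lit 27439037448) (nat_lit 129) (nat_lit 5) (nat_lit 131) (nat_lit 5) (nat_lit 132) (nat_lit 5) (nat_lit 541) (nat_lit 460) (nat_lit 199)) (XT.lf (nat_lit 0) (nat_lit 11178681220) (nat_lit 152) (nat_lit 86663371049) (nat_lit 228) (nat_lit 1056399162) (nat_lit 127) (nat_lit 5) (nat_lit 129) (nat_lit 5) (nat_lit 130) (nat_lit 5) (nat_lit 542) (nat_lit 460) (nat_lit 198)))) (XT.nd (nat_lit 156) (nat_lit 228) (nat_lit 0) (XT.nd (nat_lit 78) (nat_lit 152) (nat_lit 0) (XT.lf (nat_lit 0) (nat_lit 26333141916) (nat_lit 228) (nat_lit 26457366844) (nat_lit 76) (nat_lit 48011851495) (nat_lit 126) (nat_lit 5) (nat_lit 129) (nat_lit 5) (nat_lit 127) (nat_lit 5) (nat_lit 543) (nat_lit 460) (nat_lit 197)) (XT.lf (nat_lit 0) (nat_lit 37359894318) (nat_lit 152) (nat_lit 17521482187) (nat_lit 228) (nat_lit 47870948872) (nat_lit 124) (nat_lit 5) (nat_lit 126) (nat_lit 5) (nat_lit 127) (nat_lit 5) (nat_lit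 544) (nat_lit 460) (nat_lit 196))) (XT.nd (nat_lit 78) (nat_lit 228) (nat_lit 0) (XT.lf (nat_lit 0) (nat_lit 84735759793) (nat_lit 228) (nat_lit 1303752485) (nat_lit 76) (nat_lit 18707786137) (nat_lit 124) (nat_lit 5) (nat_lit 127) (nat_lit 5) (nat_lit 125) (nat_lit 5) (nat_lit 545) (nat_lit 460) (nat_lit 195)) (XT.lf (nat_lit 0) (nat_lit 9327473560) (nat_lit 228) (nat_lit 41052515536) (nat_lit 76) (nat_lit 56395229310) (nat_lit 121) (nat_lit 5) (nat_lit 124) (nat_lit 5) (nat_lit 122) (nat_lit 5) (nat_lit 546) (nat_lit 460) (nat_lit 194))))) (XT.nd (nat_lit 312) (nat_lit 0) (nat_lit 152) (XT.nd (nat_lit 156) (nat_lit 0) (nat_lit 76) (XT.nd (nat_lit 78) (nat_lit 0) (nat_lit 0) (XT.lf (nat_lit 0) (nat_lit 6017518749) (nat_lit 1292) (nat_lit 3168139527) (nat_lit 1292) (nat_lit 3168139527) (nat_lit 327) (nat_lit 3) (nat_lit 344) (nat_lit 3) (nat_lit 344) (nat_lit 5) (nat_lit 461) (nat_lit 461) (nat_lit 278)) (XT.lf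 (nat_lit 76) (nat_lit 6086713496) (nat_lit 0) (nat_lit 6294722705) (nat_lit 1292) (nat_lit 12691792193) (nat_lit 328) (nat_lit 5) (nat_lit 327) (nat_lit 3) (nat_lit 344) (nat_lit 5) (nat_lit 462) (nat_lit 461) (nat_lit 277))) (XT.nd (nat_lit 78) (nat_lit 0) (nat_lit 0) (XT.lf (nat_lit 0) (nat_lit 12857713928) (nat_lit 1216) (nat_lit 6497669135) (nat_lit 1292) (nat_lit 6090862680) (nat_lit 328) (nat_lit 5) (nat_lit 344) (nat_lit 5) (nat_lit 345) (nat_lit 5) (nat_lit 463) (nat_lit 461) (nat_lit 276)) (XT.lf (nat_lit 76) (nat_lit 6426646579) (nat_lit 0) (nat_lit 7041664402) (nat_lit 1292) (nat_lit 12358541890) (nat_lit 329) (nat_lit 5) (nat_lit 328) (nat_lit 5) (nat_lit 345) (nat_lit 5) (nat_lit 464) (nat_lit 461) (nat_lit 275)))) (XT.nd (nat_lit 156) (nat_lit 0) (nat_lit 76) (XT.nd (nat_lit 78) (nat_lit 0) (nat_lit 0) (XT.lf (nat_lit 0) (nat_lit 14213762032) (nat_lit 1216) (nat_lit 6402293046) (nat_lit 1292) (nat_lit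 5599327236) (nat_lit 329) (nat_lit 5) (nat_lit 345) (nat_lit 5) (nat_lit 346) (nat_lit 5) (nat_lit 465) (nat_lit 461) (nat_lit 274)) (XT.lf (nat_lit 76) (nat_lit 7051108345) (nat_lit 0) (nat_lit 8064126026) (nat_lit 1292) (nat_lit 11496323712) (nat_lit 330) (nat_lit 5) (nat_lit 329) (nat_lit 5) (nat_lit 346) (nat_lit 5) (nat_lit 466) (nat_lit 461) (nat_lit 273))) (XT.nd (nat_lit 78) (nat_lit 0) (nat_lit 0) (XT.lf (nat_lit 0) (nat_lit 16152063283) (nat_lit 1216) (nat_lit 6028152646) (nat_lit 1292) (nat_lit 4836153997) (nat_lit 330) (nat_lit 5) (nat_lit 346) (nat_lit 5) (nat_lit 347) (nat_lit 5) (nat_lit 467) (nat_lit 461) (nat_lit 272)) (XT.lf (nat_lit 76) (nat_lit 7983705821) (nat_lit 0) (nat_lit 9389249672) (nat_lit 1292) (nat_lit 10055782044) (nat_lit 331) (nat_lit 5) (nat_lit 330) (nat_lit 5) (nat_lit 347) (nat_lit 5) (nat_lit 468) (nat_lit 461) (nat_lit 271))))))))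
noncomputable def xc212 : XT := (XT.nd (nat_lit 2418) (nat_lit 6232) (nat_lit 0) (XT.nd (nat_lit 1170) (nat_lit 4560) (nat_lit 0) (XT.nd (nat_lit 546) (nat_lit 1900) (nat_lit 0) (XT.nd (nat_lit 234) (nat_lit 1140) (nat_lit 0) (XT.nd (nat_lit 78) (nat_lit 0) (nat_lit 0) (XT.lf (nat_lit 0) (nat_lit 18724803972) (nat_lit 1216) (nat_lit 5351600109) (nat_lit 1292) (nat_lit 3774242373) (nat_lit 331) (nat_lit 5) (nat_lit 347) (nat_lit 5) (nat_lit 348) (nat_lit 5) (nat_lit 469) (nat_lit 461) (nat_lit 270)) (XT.nd (nat_lit 78) (nat_lit 0) (nat_lit 76) (XT.lf (nat_lit 76) (nat_lit 9249789004) (nat_lit 0) (nat_lit 11045865587) (nat_lit 1292) (nat_lit 7984204804) (nat_lit 332) (nat_lit 5) (nat_lit 331) (nat_lit 5) (nat_lit 348) (nat_lit 5) (nat_lit 470) (nat_lit 461) (nat_lit 269)) (XT.lf (nat_lit 0) (nat_lit 21987698125) (nat_lit 1216) (nat_lit 4347242124) (nat_lit 1292) (nat_lit 2384786605) (nat_lit 332) (nat_lit 5) (nat_lit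 348) (nat_lit 5) (nat_lit 349) (nat_lit 5) (nat_lit 471) (nat_lit 461) (nat_lit 268)))) (XT.nd (nat_lit 156) (nat_lit 1216) (nat_lit 0) (XT.nd (nat_lit 78) (nat_lit 0) (nat_lit 76) (XT.lf (nat_lit 76) (nat_lit 10876552231) (nat_lit 0) (nat_lit 13064621267) (nat_lit 1292) (nat_lit 5225296872) (nat_lit 333) (nat_lit 5) (nat_lit 332) (nat_lit 5) (nat_lit 349) (nat_lit 5) (nat_lit 472) (nat_lit 461) (nat_lit 267)) (XT.lf (nat_lit 0) (nat_lit 26000223507) (nat_lit 1216) (nat_lit 2987837519) (nat_lit 1292) (nat_lit 637146198) (nat_lit 333) (nat_lit 5) (nat_lit 349) (nat_lit 5) (nat_lit 350) (nat_lit 5) (nat_lit 473) (nat_lit 461) (nat_lit 266))) (XT.nd (nat_lit 78) (nat_lit 1292) (nat_lit 0) (XT.lf (nat_lit 76) (nat_lit 12893142443) (nat_lit 0) (nat_lit 15478117224) (nat_lit 1292) (nat_lit 1718940217) (nat_lit 334) (nat_lit 5) (nat_lit 333) (nat_lit 5) (nat_lit 350) (nat_lit 5) (nat_lit 474) (nat_lit 461) (nat_lit 265))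 (XT.lf (nat_lit 0) (nat_lit 266949711) (nat_lit 1292) (nat_lit 1261523664) (nat_lit 1368) (nat_lit 29039775673) (nat_lit 316) (nat_lit 5) (nat_lit 333) (nat_lit 5) (nat_lit 334) (nat_lit 5) (nat_lit 475) (nat_lit 461) (nat_lit 264))))) (XT.nd (nat_lit 312) (nat_lit 1216) (nat_lit 0) (XT.nd (nat_lit 156) (nat_lit 760) (nat_lit 0) (XT.nd (nat_lit 78) (nat_lit 0) (nat_lit 0) (XT.lf (nat_lit 0) (nat_lit 2548343162) (nat_lit 1292) (nat_lit 15746973552) (nat_lit 1368) (nat_lit 12756698251) (nat_lit 317) (nat_lit 5) (nat_lit 334) (nat_lit 5) (nat_lit 335) (nat_lit 5) (nat_lit 476) (nat_lit 461) (nat_lit 263)) (XT.lf (nat_lit 76) (nat_lit 843311528) (nat_lit 0) (nat_lit 4088090788) (nat_lit 1368) (nat_lit 26617894951) (nat_lit 318) (nat_lit 5) (nat_lit 317) (nat_lit 5) (nat_lit 335) (nat_lit 5) (nat_lit 477) (nat_lit 461) (nat_lit 262))) (XT.nd (nat_lit 78) (nat_lit 836) (nat_lit 0) (XT.lf (nat_lit 0) (nat_lit 7645093229)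 (nat_lit 1292) (nat_lit 13908069211) (nat_lit 76) (nat_lit 10500561518) (nat_lit 318) (nat_lit 5) (nat_lit 335) (nat_lit 5) (nat_lit 319) (nat_lit 5) (nat_lit 478) (nat_lit 461) (nat_lit 261)) (XT.lf (nat_lit 0) (nat_lit 3417569113) (nat_lit 836) (nat_lit 7093219360) (nat_lit 912) (nat_lit 22060377286) (nat_lit 307) (nat_lit 5) (nat_lit 318) (nat_lit 5) (nat_lit 319) (nat_lit 5) (nat_lit 479) (nat_lit 461) (nat_lit 260)))) (XT.nd (nat_lit 156) (nat_lit 608) (nat_lit 0) (XT.nd (nat_lit 78) (nat_lit 608) (nat_lit 0) (XT.lf (nat_lit 0) (nat_lit 13676597571) (nat_lit 912) (nat_lit 11630700940) (nat_lit 76) (nat_lit 7790408128) (nat_lit 307) (nat_lit 5) (nat_lit 319) (nat_lit 5) (nat_lit 308) (nat_lit 5) (nat_lit 480) (nat_lit 461) (nat_lit 259)) (XT.lf (nat_lit 0) (nat_lit 6471518953) (nat_lit 608) (nat_lit 10595702837) (nat_lit 684) (nat_lit 16568926837) (nat_lit 299) (nat_lit 5) (nat_lit 307) (nat_lit 5) (nat_lit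 308) (nat_lit 5) (nat_lit 481) (nat_lit 461) (nat_lit 258))) (XT.nd (nat_lit 78) (nat_lit 608) (nat_lit 0) (XT.lf (nat_lit 0) (nat_lit 20719438726) (nat_lit 684) (nat_lit 8879436545) (nat_lit 76) (nat_lit 4587072494) (nat_lit 299) (nat_lit 5) (nat_lit 308) (nat_lit 5) (nat_lit 300) (nat_lit 5) (nat_lit 482) (nat_lit 461) (nat_lit 257)) (XT.lf (nat_lit 0) (nat_lit 10042981435) (nat_lit 608) (nat_lit 14637218918) (nat_lit 684) (nat_lit 10066071282) (nat_lit 291) (nat_lit 5) (nat_lit 299) (nat_lit 5) (nat_lit 300) (nat_lit 5) (nat_lit 483) (nat_lit 461) (nat_lit 256)))))) (XT.nd (nat_lit 624) (nat_lit 2280) (nat_lit 0) (XT.nd (nat_lit 312) (nat_lit 1064) (nat_lit 0) (XT.nd (nat_lit 156) (nat_lit 684) (nat_lit 0) (XT.nd (nat_lit 78) (nat_lit 532) (nat_lit 0) (XT.lf (nat_lit 0) (nat_lit 28855351293) (nat_lit 684) (nat_lit 5616392021) (nat_lit 76) (nat_lit 848795013) (nat_lit 291) (nat_lit 5) (nat_lit 300) (nat_lit 5)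 (nat_lit 292) (nat_lit 5) (nat_lit 484) (nat_lit 461) (nat_lit 255)) (XT.lf (nat_lit 0) (nat_lit 14172368005) (nat_lit 532) (nat_lit 19262196144) (nat_lit 608) (nat_lit 2469104748) (nat_lit 284) (nat_lit 5) (nat_lit 291) (nat_lit 5) (nat_lit 292) (nat_lit 5) (nat_lit 485) (nat_lit 461) (nat_lit 254))) (XT.nd (nat_lit 78) (nat_lit 608) (nat_lit 0) (XT.lf (nat_lit 0) (nat_lit 1669673774) (nat_lit 608) (nat_lit 1851461917) (nat_lit 76) (nat_lit 32981034369) (nat_lit 283) (nat_lit 5) (nat_lit 291) (nat_lit 5) (nat_lit 284) (nat_lit 5) (nat_lit 486) (nat_lit 461) (nat_lit 253)) (XT.lf (nat_lit 0) (nat_lit 6187115419) (nat_lit 684) (nat_lit 18268409177) (nat_lit 76) (nat_lit 12653244563) (nat_lit 275) (nat_lit 5) (nat_lit 284) (nat_lit 5) (nat_lit 276) (nat_lit 5) (nat_lit 487) (nat_lit 461) (nat_lit 252)))) (XT.nd (nat_lit 156) (nat_lit 532) (nat_lit 0) (XT.nd (nat_lit 78) (nat_lit 0) (nat_lit 0) (XT.lf (nat_lit 0) (nat_lit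 2468636382) (nat_lit 532) (nat_lit 8446702289) (nat_lit 608) (nat_lit 26815969898) (nat_lit 268) (nat_lit 5) (nat_lit 275) (nat_lit 5) (nat_lit 276) (nat_lit 5) (nat_lit 488) (nat_lit 461) (nat_lit 251)) (XT.lf (nat_lit 0) (nat_lit 16046843151) (nat_lit 608) (nat_lit 14246259394) (nat_lit 76) (nat_lit 8071578664) (nat_lit 268) (nat_lit 5) (nat_lit 276) (nat_lit 5) (nat_lit 269) (nat_lit 5) (nat_lit 489) (nat_lit 461) (nat_lit 250))) (XT.nd (nat_lit 78) (nat_lit 0) (nat_lit 0) (XT.lf (nat_lit 0) (nat_lit 7460249199) (nat_lit 532) (nat_lit 14025274732) (nat_lit 608) (nat_lit 17526934243) (nat_lit 261) (nat_lit 5) (nat_lit 268) (nat_lit 5) (nat_lit 269) (nat_lit 5) (nat_lit 490) (nat_lit 461) (nat_lit 249)) (XT.lf (nat_lit 0) (nat_lit 27256821677) (nat_lit 608) (nat_lit 9595416833) (nat_lit 76) (nat_lit 2822346323) (nat_lit 261) (nat_lit 5) (nat_lit 269) (nat_lit 5) (nat_lit 262) (nat_lit 5) (nat_lit 491) (nat_lit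 461) (nat_lit 248))))) (XT.nd (nat_lit 312) (nat_lit 836) (nat_lit 0) (XT.nd (nat_lit 156) (nat_lit 988) (nat_lit 0) (XT.nd (nat_lit 78) (nat_lit 0) (nat_lit 0) (XT.lf (nat_lit 0) (nat_lit 13135220594) (nat_lit 456) (nat_lit 20329150908) (nat_lit 532) (nat_lit 6884310473) (nat_lit 255) (nat_lit 5) (nat_lit 261) (nat_lit 5) (nat_lit 262) (nat_lit 5) (nat_lit 492) (nat_lit 461) (nat_lit 247)) (XT.lf (nat_lit 0) (nat_lit 36742186590) (nat_lit 456) (nat_lit 3210878088) (nat_lit 532) (nat_lit 1087089920) (nat_lit 255) (nat_lit 5) (nat_lit 261) (nat_lit 5) (nat_lit 262) (nat_lit 5) (nat_lit 493) (nat_lit 461) (nat_lit 246))) (XT.nd (nat_lit 78) (nat_lit 456) (nat_lit 0) (XT.lf (nat_lit 0) (nat_lit 5116538382) (nat_lit 532) (nat_lit 22247301264) (nat_lit 76) (nat_lit 14377289479) (nat_lit 248) (nat_lit 5) (nat_lit 255) (nat_lit 5) (nat_lit 249) (nat_lit 5) (nat_lit 494) (nat_lit 461) (nat_lit 245)) (XT.lf (nat_lit 0) (nat_lit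 1611828507) (nat_lit 456) (nat_lit 9961805391) (nat_lit 532) (nat_lit 30886499926) (nat_lit 242) (nat_lit 5) (nat_lit 248) (nat_lit 5) (nat_lit 249) (nat_lit 5) (nat_lit 495) (nat_lit 461) (nat_lit 244)))) (XT.nd (nat_lit 156) (nat_lit 380) (nat_lit 0) (XT.nd (nat_lit 78) (nat_lit 456) (nat_lit 0) (XT.lf (nat_lit 0) (nat_lit 18525981343) (nat_lit 532) (nat_lit 16632272836) (nat_lit 76) (nat_lit 8033408379) (nat_lit 242) (nat_lit 5) (nat_lit 249) (nat_lit 5) (nat_lit 243) (nat_lit 5) (nat_lit 496) (nat_lit 461) (nat_lit 243)) (XT.lf (nat_lit 0) (nat_lit 8372737622) (nat_lit 456) (nat_lit 17491454134) (nat_lit 532) (nat_lit 18075626688) (nat_lit 236) (nat_lit 5) (nat_lit 242) (nat_lit 5) (nat_lit 243) (nat_lit 5) (nat_lit 497) (nat_lit 461) (nat_lit 242))) (XT.nd (nat_lit 78) (nat_lit 380) (nat_lit 0) (XT.lf (nat_lit 0) (nat_lit 33597149338) (nat_lit 532) (nat_lit 10247260893) (nat_lit 76) (nat_lit 860770812) (nat_lit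 236) (nat_lit 5) (nat_lit 243) (nat_lit 5) (nat_lit 237) (nat_lit 5) (nat_lit 498) (nat_lit 461) (nat_lit 241)) (XT.lf (nat_lit 0) (nat_lit 15968356496) (nat_lit 380) (nat_lit 25918676128) (nat_lit 456) (nat_lit 3596723847) (nat_lit 231) (nat_lit 5) (nat_lit 236) (nat_lit 5) (nat_lit 237) (nat_lit 5) (nat_lit 499) (nat_lit 461) (nat_lit 240))))))) (XT.nd (nat_lit 1170) (nat_lit 2812) (nat_lit 0) (XT.nd (nat_lit 546) (nat_lit 1672) (nat_lit 0) (XT.nd (nat_lit 234) (nat_lit 836) (nat_lit 0) (XT.nd (nat_lit 78) (nat_lit 836) (nat_lit 0) (XT.lf (nat_lit 0) (nat_lit 4161909529) (nat_lit 456) (nat_lit 3145131000) (nat_lit 76) (nat_lit 38974371695) (nat_lit 230) (nat_lit 5) (nat_lit 236) (nat_lit 5) (nat_lit 231) (nat_lit 5) (nat_lit 500) (nat_lit 461) (nat_lit 239)) (XT.nd (nat_lit 78) (nat_lit 380) (nat_lit 0) (XT.lf (nat_lit 0) (nat_lit 12431123497) (nat_lit 532) (nat_lit 22755945622) (nat_lit 76) (nat_lit 11904356887)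 (nat_lit 224) (nat_lit 5) (nat_lit 231) (nat_lit 5) (nat_lit 225) (nat_lit 5) (nat_lit 501) (nat_lit 461) (nat_lit 238)) (XT.lf (nat_lit 0) (nat_lit 4798992854) (nat_lit 380) (nat_lit 16298316315) (nat_lit 456) (nat_lit 26823964226) (nat_lit 219) (nat_lit 5) (nat_lit 224) (nat_lit 5) (nat_lit 225) (nat_lit 5) (nat_lit 502) (nat_lit 461) (nat_lit 237)))) (XT.nd (nat_lit 156) (nat_lit 456) (nat_lit 0) (XT.nd (nat_lit 78) (nat_lit 380) (nat_lit 0) (XT.lf (nat_lit 0) (nat_lit 30284259645) (nat_lit 456) (nat_lit 15156900095) (nat_lit 76) (nat_lit 3327033143) (nat_lit 219) (nat_lit 5) (nat_lit 225) (nat_lit 5) (nat_lit 220) (nat_lit 5) (nat_lit 503) (nat_lit 461) (nat_lit 236)) (XT.lf (nat_lit 0) (nat_lit 13752284689) (nat_lit 380) (nat_lit 26286512068) (nat_lit 456) (nat_lit 9592963906) (nat_lit 214) (nat_lit 5) (nat_lit 219) (nat_lit 5) (nat_lit 220) (nat_lit 5) (nat_lit 504) (nat_lit 461) (nat_lit 235))) (XT.nd (nat_lit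 78) (nat_lit 456) (nat_lit 0) (XT.lf (nat_lit 0) (nat_lit 43837323417) (nat_lit 380) (nat_lit 6400140624) (nat_lit 456) (nat_lit 279226663) (nat_lit 214) (nat_lit 5) (nat_lit 219) (nat_lit 5) (nat_lit 220) (nat_lit 5) (nat_lit 505) (nat_lit 461) (nat_lit 234)) (XT.lf (nat_lit 0) (nat_lit 9497641546) (nat_lit 456) (nat_lit 27788250876) (nat_lit 76) (nat_lit 14128626327) (nat_lit 208) (nat_lit 5) (nat_lit 214) (nat_lit 5) (nat_lit 209) (nat_lit 5) (nat_lit 506) (nat_lit 461) (nat_lit 233))))) (XT.nd (nat_lit 312) (nat_lit 988) (nat_lit 0) (XT.nd (nat_lit 156) (nat_lit 304) (nat_lit 0) (XT.nd (nat_lit 78) (nat_lit 0) (nat_lit 0) (XT.lf (nat_lit 0) (nat_lit 2623007421) (nat_lit 380) (nat_lit 17094382932) (nat_lit 456) (nat_lit 32617152787) (nat_lit 203) (nat_lit 5) (nat_lit 208) (nat_lit 5) (nat_lit 209) (nat_lit 5) (nat_lit 507) (nat_lit 461) (nat_lit 232)) (XT.lf (nat_lit 0) (nat_lit 30561217882) (nat_lit 456) (nat_lit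 18798016549) (nat_lit 76) (nat_lit 3913409287) (nat_lit 203) (nat_lit 5) (nat_lit 209) (nat_lit 5) (nat_lit 204) (nat_lit 5) (nat_lit 508) (nat_lit 461) (nat_lit 231))) (XT.nd (nat_lit 78) (nat_lit 0) (nat_lit 0) (XT.lf (nat_lit 0) (nat_lit 13127759464) (nat_lit 304) (nat_lit 28896594488) (nat_lit 380) (nat_lit 12205713594) (nat_lit 199) (nat_lit 5) (nat_lit 203) (nat_lit 5) (nat_lit 204) (nat_lit 5) (nat_lit 509) (nat_lit 461) (nat_lit 230)) (XT.lf (nat_lit 0) (nat_lit 46394602649) (nat_lit 304) (nat_lit 7625177454) (nat_lit 380) (nat_lit 1190782147) (nat_lit 199) (nat_lit 5) (nat_lit 203) (nat_lit 5) (nat_lit 204) (nat_lit 5) (nat_lit 510) (nat_lit 461) (nat_lit 229)))) (XT.nd (nat_lit 156) (nat_lit 304) (nat_lit 0) (XT.nd (nat_lit 78) (nat_lit 304) (nat_lit 0) (XT.lf (nat_lit 0) (nat_lit 10334299611) (nat_lit 380) (nat_lit 31527307481) (nat_lit 76) (nat_lit 14344600722) (nat_lit 194) (nat_lit 5) (nat_lit 199)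 (nat_lit 5) (nat_lit 195) (nat_lit 5) (nat_lit 511) (nat_lit 461) (nat_lit 228)) (XT.lf (nat_lit 0) (nat_lit 2080674917) (nat_lit 304) (nat_lit 20284544556) (nat_lit 380) (nat_lit 34860629038) (nat_lit 190) (nat_lit 5) (nat_lit 194) (nat_lit 5) (nat_lit 195) (nat_lit 5) (nat_lit 512) (nat_lit 461) (nat_lit 227))) (XT.nd (nat_lit 78) (nat_lit 304) (nat_lit 0) (XT.lf (nat_lit 0) (nat_lit 35095860940) (nat_lit 380) (nat_lit 20947196509) (nat_lit 76) (nat_lit 2222857196) (nat_lit 190) (nat_lit 5) (nat_lit 195) (nat_lit 5) (nat_lit 191) (nat_lit 5) (nat_lit 513) (nat_lit 461) (nat_lit 226)) (XT.lf (nat_lit 0) (nat_lit 14353994806) (nat_lit 304) (nat_lit 34191914241) (nat_lit 380) (nat_lit 10781149128) (nat_lit 186) (nat_lit 5) (nat_lit 190) (nat_lit 5) (nat_lit 191) (nat_lit 5) (nat_lit 514) (nat_lit 461) (nat_lit 225)))))) (XT.nd (nat_lit 624) (nat_lit 1292) (nat_lit 0) (XT.nd (nat_lit 312) (nat_lit 836) (nat_lit 0)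 (XT.nd (nat_lit 156) (nat_lit 304) (nat_lit 0) (XT.nd (nat_lit 78) (nat_lit 304) (nat_lit 0) (XT.lf (nat_lit 0) (nat_lit 2153094597) (nat_lit 380) (nat_lit 9293186151) (nat_lit 76) (nat_lit 48966815545) (nat_lit 185) (nat_lit 5) (nat_lit 190) (nat_lit 5) (nat_lit 186) (nat_lit 5) (nat_lit 515) (nat_lit 461) (nat_lit 224)) (XT.lf (nat_lit 0) (nat_lit 15644394048) (nat_lit 380) (nat_lit 33746693742) (nat_lit 76) (nat_lit 12125853912) (nat_lit 181) (nat_lit 5) (nat_lit 186) (nat_lit 5) (nat_lit 182) (nat_lit 5) (nat_lit 516) (nat_lit 461) (nat_lit 223))) (XT.nd (nat_lit 78) (nat_lit 0) (nat_lit 0) (XT.lf (nat_lit 0) (nat_lit 3435838326) (nat_lit 304) (nat_lit 26344452120) (nat_lit 380) (nat_lit 32866416319) (nat_lit 177) (nat_lit 5) (nat_lit 181) (nat_lit 5) (nat_lit 182) (nat_lit 5) (nat_lit 517) (nat_lit 461) (nat_lit 222)) (XT.lf (nat_lit 0) (nat_lit 42423691869) (nat_lit 304) (nat_lit 2256094762) (nat_lit 380)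 (nat_lit 19120392493) (nat_lit 177) (nat_lit 5) (nat_lit 181) (nat_lit 5) (nat_lit 182) (nat_lit 5) (nat_lit 518) (nat_lit 461) (nat_lit 221)))) (XT.nd (nat_lit 156) (nat_lit 532) (nat_lit 0) (XT.nd (nat_lit 78) (nat_lit 76) (nat_lit 0) (XT.lf (nat_lit 0) (nat_lit 17719991953) (nat_lit 228) (nat_lit 42692200406) (nat_lit 304) (nat_lit 4564485585) (nat_lit 174) (nat_lit 5) (nat_lit 177) (nat_lit 5) (nat_lit 178) (nat_lit 5) (nat_lit 519) (nat_lit 461) (nat_lit 220)) (XT.lf (nat_lit 0) (nat_lit 10463727342) (nat_lit 304) (nat_lit 7881057655) (nat_lit 76) (nat_lit 47833505965) (nat_lit 173) (nat_lit 5) (nat_lit 177) (nat_lit 5) (nat_lit 174) (nat_lit 5) (nat_lit 520) (nat_lit 461) (nat_lit 219))) (XT.nd (nat_lit 78) (nat_lit 228) (nat_lit 0) (XT.lf (nat_lit 0) (nat_lit 26238084215) (nat_lit 380) (nat_lit 34195194887) (nat_lit 76) (nat_lit 6969706333) (nat_lit 169) (nat_lit 5) (nat_lit 174) (nat_lit 5) (nat_lit 170)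 (nat_lit 5) (nat_lit 521) (nat_lit 461) (nat_lit 218)) (XT.lf (nat_lit 0) (nat_lit 6980762207) (nat_lit 228) (nat_lit 35832844601) (nat_lit 304) (nat_lit 25840975909) (nat_lit 166) (nat_lit 5) (nat_lit 169) (nat_lit 5) (nat_lit 170) (nat_lit 5) (nat_lit 522) (nat_lit 461) (nat_lit 217))))) (XT.nd (nat_lit 312) (nat_lit 760) (nat_lit 0) (XT.nd (nat_lit 156) (nat_lit 228) (nat_lit 0) (XT.nd (nat_lit 78) (nat_lit 304) (nat_lit 0) (XT.lf (nat_lit 0) (nat_lit 50091121222) (nat_lit 228) (nat_lit 10139423595) (nat_lit 304) (nat_lit 9702858635) (nat_lit 166) (nat_lit 5) (nat_lit 169) (nat_lit 5) (nat_lit 170) (nat_lit 5) (nat_lit 523) (nat_lit 461) (nat_lit 216)) (XT.lf (nat_lit 0) (nat_lit 7170287596) (nat_lit 304) (nat_lit 47764516134) (nat_lit 76) (nat_lit 16302212461) (nat_lit 162) (nat_lit 5) (nat_lit 166) (nat_lit 5) (nat_lit 163) (nat_lit 5) (nat_lit 524) (nat_lit 461) (nat_lit 215))) (XT.nd (nat_lit 78) (nat_lit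 228) (nat_lit 0) (XT.lf (nat_lit 0) (nat_lit 24656229691) (nat_lit 304) (nat_lit 4280518000) (nat_lit 76) (nat_lit 43631059028) (nat_lit 162) (nat_lit 5) (nat_lit 166) (nat_lit 5) (nat_lit 163) (nat_lit 5) (nat_lit 525) (nat_lit 461) (nat_lit 214)) (XT.lf (nat_lit 0) (nat_lit 41312383781) (nat_lit 228) (nat_lit 1750395889) (nat_lit 304) (nat_lit 30863860426) (nat_lit 159) (nat_lit 5) (nat_lit 162) (nat_lit 5) (nat_lit 163) (nat_lit 5) (nat_lit 526) (nat_lit 461) (nat_lit 213)))) (XT.nd (nat_lit 156) (nat_lit 456) (nat_lit 0) (XT.nd (nat_lit 78) (nat_lit 76) (nat_lit 0) (XT.lf (nat_lit 0) (nat_lit 13035698719) (nat_lit 228) (nat_lit 49406051393) (nat_lit 304) (nat_lit 12871881667) (nat_lit 156) (nat_lit 5) (nat_lit 159) (nat_lit 5) (nat_lit 160) (nat_lit 5) (nat_lit 527) (nat_lit 461) (nat_lit 212)) (XT.lf (nat_lit 0) (nat_lit 5898265870) (nat_lit 304) (nat_lit 16085419946) (nat_lit 76) (nat_lit 54746449629) (nat_lit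 155) (nat_lit 5) (nat_lit 159) (nat_lit 5) (nat_lit 156) (nat_lit 5) (nat_lit 528) (nat_lit 461) (nat_lit 211))) (XT.nd (nat_lit 78) (nat_lit 228) (nat_lit 0) (XT.lf (nat_lit 0) (nat_lit 25343734079) (nat_lit 304) (nat_lit 46252712371) (nat_lit 76) (nat_lit 6577736611) (nat_lit 152) (nat_lit 5) (nat_lit 156) (nat_lit 5) (nat_lit 153) (nat_lit 5) (nat_lit 529) (nat_lit 461) (nat_lit 210)) (XT.lf (nat_lit 0) (nat_lit 1856851848) (nat_lit 228) (nat_lit 43914224348) (nat_lit 304) (nat_lit 33878520633) (nat_lit 149) (nat_lit 5) (nat_lit 152) (nat_lit 5) (nat_lit 153) (nat_lit 5) (nat_lit 530) (nat_lit 461) (nat_lit 209))))))))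
noncomputable def xc213 : XT := (XT.nd (nat_lit 58266) (nat_lit 0) (nat_lit 6004) (XT.nd (nat_lit 1170) (nat_lit 0) (nat_lit 0) (XT.nd (nat_lit 546) (nat_lit 988) (nat_lit 0) (XT.nd (nat_lit 234) (nat_lit 684) (nat_lit 0) (XT.nd (nat_lit 78) (nat_lit 228) (nat_lit 0) (XT.lf (nat_lit 0) (nat_lit 52356117539) (nat_lit 228) (nat_lit 14921157441) (nat_lit 304) (nat_lit 13878016957) (nat_lit 149) (nat_lit 5) (nat_lit 152) (nat_lit 5) (nat_lit 153) (nat_lit 5) (nat_lit 531) (nat_lit 461) (nat_lit 208)) (XT.nd (nat_lit 78) (nat_lit 0) (nat_lit 0) (XT.lf (nat_lit 0) (nat_lit 6948418806) (nat_lit 228) (nat_lit 60816523327) (nat_lit 76) (nat_lit 14928564244) (nat_lit 146) (nat_lit 5) (nat_lit 149) (nat_lit 5) (nat_lit 147) (nat_lit 5) (nat_lit 532) (nat_lit 461) (nat_lit 207)) (XT.lf (nat_lit 0) (nat_lit 28561143349) (nat_lit 228) (nat_lit 9895079702) (nat_lit 76) (nat_lit 45804309130) (nat_lit 146) (nat_lit 5) (nat_lit 149)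 (nat_lit 5) (nat_lit 147) (nat_lit 5) (nat_lit 533) (nat_lit 461) (nat_lit 206)))) (XT.nd (nat_lit 156) (nat_lit 304) (nat_lit 0) (XT.nd (nat_lit 78) (nat_lit 152) (nat_lit 0) (XT.lf (nat_lit 0) (nat_lit 43399234781) (nat_lit 228) (nat_lit 7839225251) (nat_lit 304) (nat_lit 34623622431) (nat_lit 143) (nat_lit 5) (nat_lit 146) (nat_lit 5) (nat_lit 147) (nat_lit 5) (nat_lit 534) (nat_lit 461) (nat_lit 205)) (XT.lf (nat_lit 0) (nat_lit 10970177782) (nat_lit 152) (nat_lit 64059100361) (nat_lit 228) (nat_lit 12469405672) (nat_lit 141) (nat_lit 5) (nat_lit 143) (nat_lit 5) (nat_lit 144) (nat_lit 5) (nat_lit 535) (nat_lit 461) (nat_lit 204))) (XT.nd (nat_lit 78) (nat_lit 228) (nat_lit 0) (XT.lf (nat_lit 0) (nat_lit 10657175207) (nat_lit 228) (nat_lit 22477882223) (nat_lit 76) (nat_lit 56031050464) (nat_lit 140) (nat_lit 5) (nat_lit 143) (nat_lit 5) (nat_lit 141) (nat_lit 5) (nat_lit 536) (nat_lit 461) (nat_lit 203)) (XT.lf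 (nat_lit 0) (nat_lit 33727334019) (nat_lit 228) (nat_lit 822871902) (nat_lit 304) (nat_lit 56319946754) (nat_lit 137) (nat_lit 5) (nat_lit 140) (nat_lit 5) (nat_lit 141) (nat_lit 5) (nat_lit 537) (nat_lit 461) (nat_lit 202))))) (XT.nd (nat_lit 312) (nat_lit 532) (nat_lit 0) (XT.nd (nat_lit 156) (nat_lit 304) (nat_lit 0) (XT.nd (nat_lit 78) (nat_lit 152) (nat_lit 0) (XT.lf (nat_lit 0) (nat_lit 59700342868) (nat_lit 304) (nat_lit 854902053) (nat_lit 76) (nat_lit 32053864434) (nat_lit 137) (nat_lit 5) (nat_lit 141) (nat_lit 5) (nat_lit 138) (nat_lit 5) (nat_lit 538) (nat_lit 461) (nat_lit 201)) (XT.lf (nat_lit 0) (nat_lit 58248577364) (nat_lit 152) (nat_lit 27923574515) (nat_lit 228) (nat_lit 8211067831) (nat_lit 135) (nat_lit 5) (nat_lit 137) (nat_lit 5) (nat_lit 138) (nat_lit 5) (nat_lit 539) (nat_lit 461) (nat_lit 200))) (XT.nd (nat_lit 78) (nat_lit 0) (nat_lit 0) (XT.lf (nat_lit 0) (nat_lit 17180994773) (nat_lit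 304) (nat_lit 73039046316) (nat_lit 76) (nat_lit 5976856101) (nat_lit 131) (nat_lit 5) (nat_lit 135) (nat_lit 5) (nat_lit 132) (nat_lit 5) (nat_lit 540) (nat_lit 461) (nat_lit 199)) (XT.lf (nat_lit 0) (nat_lit 43813864788) (nat_lit 304) (nat_lit 13447150497) (nat_lit 76) (nat_lit 40782208396) (nat_lit 131) (nat_lit 5) (nat_lit 135) (nat_lit 5) (nat_lit 132) (nat_lit 5) (nat_lit 541) (nat_lit 461) (nat_lit 198)))) (XT.nd (nat_lit 156) (nat_lit 228) (nat_lit 0) (XT.nd (nat_lit 78) (nat_lit 152) (nat_lit 0) (XT.lf (nat_lit 0) (nat_lit 48884894102) (nat_lit 152) (nat_lit 22829871351) (nat_lit 228) (nat_lit 28216103191) (nat_lit 129) (nat_lit 5) (nat_lit 131) (nat_lit 5) (nat_lit 132) (nat_lit 5) (nat_lit 542) (nat_lit 461) (nat_lit 197)) (XT.lf (nat_lit 0) (nat_lit 11593387904) (nat_lit 152) (nat_lit 89228467430) (nat_lit 228) (nat_lit 1042212767) (nat_lit 127) (nat_lit 5) (nat_lit 129) (nat_lit 5) (nat_lit 130) (nat_lit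 5) (nat_lit 543) (nat_lit 461) (nat_lit 196))) (XT.nd (nat_lit 78) (nat_lit 152) (nat_lit 0) (XT.lf (nat_lit 0) (nat_lit 27166809102) (nat_lit 228) (nat_lit 27173182890) (nat_lit 76) (nat_lit 49485128291) (nat_lit 126) (nat_lit 5) (nat_lit 129) (nat_lit 5) (nat_lit 127) (nat_lit 5) (nat_lit 544) (nat_lit 461) (nat_lit 195)) (XT.lf (nat_lit 0) (nat_lit 38557832334) (nat_lit 152) (nat_lit 18013127897) (nat_lit 228) (nat_lit 49262640060) (nat_lit 124) (nat_lit 5) (nat_lit 126) (nat_lit 5) (nat_lit 127) (nat_lit 5) (nat_lit 545) (nat_lit 461) (nat_lit 194)))))) (XT.nd (nat_lit 56472) (nat_lit 0) (nat_lit 14592) (XT.nd (nat_lit 56160) (nat_lit 0) (nat_lit 15504) (XT.nd (nat_lit 56004) (nat_lit 0) (nat_lit 15428) (XT.nd (nat_lit 55926) (nat_lit 0) (nat_lit 15428) (XT.lf (nat_lit 0) (nat_lit 87320035739) (nat_lit 228) (nat_lit 1267030868) (nat_lit 76) (nat_lit 19301384107) (nat_lit 124) (nat_lit 5) (nat_lit 127) (nat_lit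 5) (nat_lit 125) (nat_lit 5) (nat_lit 546) (nat_lit 461) (nat_lit 193)) (XT.lf (nat_lit 0) (nat_lit 6304376190) (nat_lit 1292) (nat_lit 3208420342) (nat_lit 1292) (nat_lit 3208420342) (nat_lit 327) (nat_lit 3) (nat_lit 344) (nat_lit 3) (nat_lit 344) (nat_lit 5) (nat_lit 462) (nat_lit 462) (nat_lit 276))) (XT.nd (nat_lit 78) (nat_lit 0) (nat_lit 76) (XT.lf (nat_lit 76) (nat_lit 6377767852) (nat_lit 0) (nat_lit 6582623618) (nat_lit 1292) (nat_lit 12858798881) (nat_lit 328) (nat_lit 5) (nat_lit 327) (nat_lit 3) (nat_lit 344) (nat_lit 5) (nat_lit 463) (nat_lit 462) (nat_lit 275)) (XT.lf (nat_lit 0) (nat_lit 13443989002) (nat_lit 1216) (nat_lit 6580327303) (nat_lit 1292) (nat_lit 6179291250) (nat_lit 328) (nat_lit 5) (nat_lit 344) (nat_lit 5) (nat_lit 345) (nat_lit 5) (nat_lit 464) (nat_lit 462) (nat_lit 274)))) (XT.nd (nat_lit 156) (nat_lit 0) (nat_lit 76) (XT.nd (nat_lit 78) (nat_lit 0) (nat_lit 76) (XT.lf (nat_lit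 76) (nat_lit 6730617178) (nat_lit 0) (nat_lit 7337514358) (nat_lit 1292) (nat_lit 12527644804) (nat_lit 329) (nat_lit 5) (nat_lit 328) (nat_lit 5) (nat_lit 345) (nat_lit 5) (nat_lit 465) (nat_lit 462) (nat_lit 273)) (XT.lf (nat_lit 0) (nat_lit 14829454501) (nat_lit 1216) (nat_lit 6479928296) (nat_lit 1292) (nat_lit 5686773877) (nat_lit 329) (nat_lit 5) (nat_lit 345) (nat_lit 5) (nat_lit 346) (nat_lit 5) (nat_lit 466) (nat_lit 462) (nat_lit 272))) (XT.nd (nat_lit 78) (nat_lit 0) (nat_lit 76) (XT.lf (nat_lit 76) (nat_lit 7375953239) (nat_lit 0) (nat_lit 8377593995) (nat_lit 1292) (nat_lit 11650803450) (nat_lit 330) (nat_lit 5) (nat_lit 329) (nat_lit 5) (nat_lit 346) (nat_lit 5) (nat_lit 467) (nat_lit 462) (nat_lit 271)) (XT.lf (nat_lit 0) (nat_lit 16815429166) (nat_lit 1216) (nat_lit 6092925855) (nat_lit 1292) (nat_lit 4913133663) (nat_lit 330) (nat_lit 5) (nat_lit 346) (nat_lit 5) (nat_lit 347) (nat_lit 5) (nat_lit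 468) (nat_lit 462) (nat_lit 270))))) (XT.nd (nat_lit 312) (nat_lit 1064) (nat_lit 0) (XT.nd (nat_lit 156) (nat_lit 0) (nat_lit 76) (XT.nd (nat_lit 78) (nat_lit 0) (nat_lit 76) (XT.lf (nat_lit 76) (nat_lit 8338150411) (nat_lit 0) (nat_lit 9730694659) (nat_lit 1292) (nat_lit 10177505586) (nat_lit 331) (nat_lit 5) (nat_lit 330) (nat_lit 5) (nat_lit 347) (nat_lit 5) (nat_lit 469) (nat_lit 462) (nat_lit 269)) (XT.lf (nat_lit 0) (nat_lit 19455602839) (nat_lit 1216) (nat_lit 5394908360) (nat_lit 1292) (nat_lit 3830575258) (nat_lit 331) (nat_lit 5) (nat_lit 347) (nat_lit 5) (nat_lit 348) (nat_lit 5) (nat_lit 470) (nat_lit 462) (nat_lit 268))) (XT.nd (nat_lit 78) (nat_lit 0) (nat_lit 76) (XT.lf (nat_lit 76) (nat_lit 9643373017) (nat_lit 0) (nat_lit 11426397966) (nat_lit 1292) (nat_lit 8053519268) (nat_lit 332) (nat_lit 5) (nat_lit 331) (nat_lit 5) (nat_lit 348) (nat_lit 5) (nat_lit 471) (nat_lit 462) (nat_lit 267)) (XT.lf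 (nat_lit 0) (nat_lit 22807304053) (nat_lit 1216) (nat_lit 4359671243) (nat_lit 1292) (nat_lit 2409536811) (nat_lit 332) (nat_lit 5) (nat_lit 348) (nat_lit 5) (nat_lit 349) (nat_lit 5) (nat_lit 472) (nat_lit 462) (nat_lit 266)))) (XT.nd (nat_lit 156) (nat_lit 1216) (nat_lit 0) (XT.nd (nat_lit 78) (nat_lit 0) (nat_lit 76) (XT.lf (nat_lit 76) (nat_lit 11319680196) (nat_lit 0) (nat_lit 13496167079) (nat_lit 1292) (nat_lit 5220916957) (nat_lit 333) (nat_lit 5) (nat_lit 332) (nat_lit 5) (nat_lit 349) (nat_lit 5) (nat_lit 473) (nat_lit 462) (nat_lit 265)) (XT.lf (nat_lit 0) (nat_lit 26931742683) (nat_lit 1216) (nat_lit 2959111116) (nat_lit 1292) (nat_lit 618557384) (nat_lit 333) (nat_lit 5) (nat_lit 349) (nat_lit 5) (nat_lit 350) (nat_lit 5) (nat_lit 474) (nat_lit 462) (nat_lit 264))) (XT.nd (nat_lit 78) (nat_lit 1292) (nat_lit 0) (XT.lf (nat_lit 76) (nat_lit 13397137837) (nat_lit 0) (nat_lit 15973485714) (nat_lit 1292)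 (nat_lit 1617828862) (nat_lit 334) (nat_lit 5) (nat_lit 333) (nat_lit 5) (nat_lit 350) (nat_lit 5) (nat_lit 475) (nat_lit 462) (nat_lit 263)) (XT.lf (nat_lit 0) (nat_lit 420298235) (nat_lit 1292) (nat_lit 1182683026) (nat_lit 1368) (nat_lit 29877948759) (nat_lit 316) (nat_lit 5) (nat_lit 333) (nat_lit 5) (nat_lit 334) (nat_lit 5) (nat_lit 476) (nat_lit 462) (nat_lit 262))))))) (XT.nd (nat_lit 1248) (nat_lit 4408) (nat_lit 0) (XT.nd (nat_lit 624) (nat_lit 2280) (nat_lit 0) (XT.nd (nat_lit 312) (nat_lit 1216) (nat_lit 0) (XT.nd (nat_lit 156) (nat_lit 760) (nat_lit 0) (XT.nd (nat_lit 78) (nat_lit 0) (nat_lit 0) (XT.lf (nat_lit 0) (nat_lit 2766754531) (nat_lit 1292) (nat_lit 16099311335) (nat_lit 1368) (nat_lit 13113244600) (nat_lit 317) (nat_lit 5) (nat_lit 334) (nat_lit 5) (nat_lit 335) (nat_lit 5) (nat_lit 477) (nat_lit 462) (nat_lit 261)) (XT.lf (nat_lit 76) (nat_lit 987505126) (nat_lit 0) (nat_lit 4230808428) (nat_lit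 1368) (nat_lit 27273287617) (nat_lit 318) (nat_lit 5) (nat_lit 317) (nat_lit 5) (nat_lit 335) (nat_lit 5) (nat_lit 478) (nat_lit 462) (nat_lit 260))) (XT.nd (nat_lit 78) (nat_lit 836) (nat_lit 0) (XT.lf (nat_lit 0) (nat_lit 8009180198) (nat_lit 1292) (nat_lit 14205639212) (nat_lit 76) (nat_lit 10796468477) (nat_lit 318) (nat_lit 5) (nat_lit 335) (nat_lit 5) (nat_lit 319) (nat_lit 5) (nat_lit 479) (nat_lit 462) (nat_lit 259)) (XT.lf (nat_lit 0) (nat_lit 3638595006) (nat_lit 836) (nat_lit 7319466080) (nat_lit 912) (nat_lit 22586275580) (nat_lit 307) (nat_lit 5) (nat_lit 318) (nat_lit 5) (nat_lit 319) (nat_lit 5) (nat_lit 480) (nat_lit 462) (nat_lit 258)))) (XT.nd (nat_lit 156) (nat_lit 608) (nat_lit 0) (XT.nd (nat_lit 78) (nat_lit 608) (nat_lit 0) (XT.lf (nat_lit 0) (nat_lit 14214875758) (nat_lit 912) (nat_lit 11860600437) (nat_lit 76) (nat_lit 8011316800) (nat_lit 307) (nat_lit 5) (nat_lit 319) (nat_lit 5) (nat_lit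 308) (nat_lit 5) (nat_lit 481) (nat_lit 462) (nat_lit 257)) (XT.lf (nat_lit 0) (nat_lit 6783519175) (nat_lit 608) (nat_lit 10921104840) (nat_lit 684) (nat_lit 16936842229) (nat_lit 299) (nat_lit 5) (nat_lit 307) (nat_lit 5) (nat_lit 308) (nat_lit 5) (nat_lit 482) (nat_lit 462) (nat_lit 256))) (XT.nd (nat_lit 78) (nat_lit 608) (nat_lit 0) (XT.lf (nat_lit 0) (nat_lit 21462685168) (nat_lit 684) (nat_lit 9027670236) (nat_lit 76) (nat_lit 4717515774) (nat_lit 299) (nat_lit 5) (nat_lit 308) (nat_lit 5) (nat_lit 300) (nat_lit 5) (nat_lit 483) (nat_lit 462) (nat_lit 255)) (XT.lf (nat_lit 0) (nat_lit 10461261956) (nat_lit 608) (nat_lit 15078588686) (nat_lit 684) (nat_lit 10245226840) (nat_lit 291) (nat_lit 5) (nat_lit 299) (nat_lit 5) (nat_lit 300) (nat_lit 5) (nat_lit 484) (nat_lit 462) (nat_lit 254))))) (XT.nd (nat_lit 312) (nat_lit 1064) (nat_lit 0) (XT.nd (nat_lit 156) (nat_lit 684) (nat_lit 0) (XT.nd (nat_lit 78) (nat_lit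 532) (nat_lit 0) (XT.lf (nat_lit 0) (nat_lit 29836761949) (nat_lit 684) (nat_lit 5667801220) (nat_lit 76) (nat_lit 872113977) (nat_lit 291) (nat_lit 5) (nat_lit 300) (nat_lit 5) (nat_lit 292) (nat_lit 5) (nat_lit 485) (nat_lit 462) (nat_lit 253)) (XT.lf (nat_lit 0) (nat_lit 14713473739) (nat_lit 532) (nat_lit 19837620524) (nat_lit 608) (nat_lit 2426275218) (nat_lit 284) (nat_lit 5) (nat_lit 291) (nat_lit 5) (nat_lit 292) (nat_lit 5) (nat_lit 486) (nat_lit 462) (nat_lit 252))) (XT.nd (nat_lit 78) (nat_lit 608) (nat_lit 0) (XT.lf (nat_lit 0) (nat_lit 1831046977) (nat_lit 608) (nat_lit 1792228651) (nat_lit 76) (nat_lit 33970616625) (nat_lit 283) (nat_lit 5) (nat_lit 291) (nat_lit 5) (nat_lit 284) (nat_lit 5) (nat_lit 487) (nat_lit 462) (nat_lit 251)) (XT.lf (nat_lit 0) (nat_lit 6481906538) (nat_lit 684) (nat_lit 18699574705) (nat_lit 76) (nat_lit 13037271372) (nat_lit 275) (nat_lit 5) (nat_lit 284) (nat_lit 5) (nat_lit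 276) (nat_lit 5) (nat_lit 488) (nat_lit 462) (nat_lit 250)))) (XT.nd (nat_lit 156) (nat_lit 532) (nat_lit 0) (XT.nd (nat_lit 78) (nat_lit 0) (nat_lit 0) (XT.lf (nat_lit 0) (nat_lit 2658436273) (nat_lit 532) (nat_lit 8691472853) (nat_lit 608) (nat_lit 27510121225) (nat_lit 268) (nat_lit 5) (nat_lit 275) (nat_lit 5) (nat_lit 276) (nat_lit 5) (nat_lit 489) (nat_lit 462) (nat_lit 249)) (XT.lf (nat_lit 0) (nat_lit 16632319569) (nat_lit 608) (nat_lit 14558234252) (nat_lit 76) (nat_lit 8321941646) (nat_lit 268) (nat_lit 5) (nat_lit 276) (nat_lit 5) (nat_lit 269) (nat_lit 5) (nat_lit 490) (nat_lit 462) (nat_lit 248))) (XT.nd (nat_lit 78) (nat_lit 0) (nat_lit 0) (XT.lf (nat_lit 0) (nat_lit 7798338100) (nat_lit 532) (nat_lit 14433890018) (nat_lit 608) (nat_lit 17947535722) (nat_lit 261) (nat_lit 5) (nat_lit 268) (nat_lit 5) (nat_lit 269) (nat_lit 5) (nat_lit 491) (nat_lit 462) (nat_lit 247)) (XT.lf (nat_lit 0) (nat_lit 28173803215)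 (nat_lit 608) (nat_lit 9769461106) (nat_lit 76) (nat_lit 2918575939) (nat_lit 261) (nat_lit 5) (nat_lit 269) (nat_lit 5) (nat_lit 262) (nat_lit 5) (nat_lit 492) (nat_lit 462) (nat_lit 246)))))) (XT.nd (nat_lit 624) (nat_lit 2128) (nat_lit 0) (XT.nd (nat_lit 312) (nat_lit 836) (nat_lit 0) (XT.nd (nat_lit 156) (nat_lit 988) (nat_lit 0) (XT.nd (nat_lit 78) (nat_lit 0) (nat_lit 0) (XT.lf (nat_lit 0) (nat_lit 13641979579) (nat_lit 456) (nat_lit 20923791760) (nat_lit 532) (nat_lit 6990443334) (nat_lit 255) (nat_lit 5) (nat_lit 261) (nat_lit 5) (nat_lit 262) (nat_lit 5) (nat_lit 493) (nat_lit 462) (nat_lit 245)) (XT.lf (nat_lit 0) (nat_lit 37953871962) (nat_lit 456) (nat_lit 3292414455) (nat_lit 532) (nat_lit 1022230334) (nat_lit 255) (nat_lit 5) (nat_lit 261) (nat_lit 5) (nat_lit 262) (nat_lit 5) (nat_lit 494) (nat_lit 462) (nat_lit 244))) (XT.nd (nat_lit 78) (nat_lit 456) (nat_lit 0) (XT.lf (nat_lit 0) (nat_lit 5364038347)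 (nat_lit 532) (nat_lit 22801825182) (nat_lit 76) (nat_lit 14824675970) (nat_lit 248) (nat_lit 5) (nat_lit 255) (nat_lit 5) (nat_lit 249) (nat_lit 5) (nat_lit 495) (nat_lit 462) (nat_lit 243)) (XT.lf (nat_lit 0) (nat_lit 1771971668) (nat_lit 456) (nat_lit 10241211663) (nat_lit 532) (nat_lit 31717981008) (nat_lit 242) (nat_lit 5) (nat_lit 248) (nat_lit 5) (nat_lit 249) (nat_lit 5) (nat_lit 496) (nat_lit 462) (nat_lit 242)))) (XT.nd (nat_lit 156) (nat_lit 380) (nat_lit 0) (XT.nd (nat_lit 78) (nat_lit 456) (nat_lit 0) (XT.lf (nat_lit 0) (nat_lit 19171593172) (nat_lit 532) (nat_lit 17020197468) (nat_lit 76) (nat_lit 8292923632) (nat_lit 242) (nat_lit 5) (nat_lit 249) (nat_lit 5) (nat_lit 243) (nat_lit 5) (nat_lit 497) (nat_lit 462) (nat_lit 241)) (XT.lf (nat_lit 0) (nat_lit 8733874642) (nat_lit 456) (nat_lit 17994515732) (nat_lit 532) (nat_lit 18526971339) (nat_lit 236) (nat_lit 5) (nat_lit 242) (nat_lit 5) (nat_lit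 243) (nat_lit 5) (nat_lit 498) (nat_lit 462) (nat_lit 240))) (XT.nd (nat_lit 78) (nat_lit 380) (nat_lit 0) (XT.lf (nat_lit 0) (nat_lit 34690967979) (nat_lit 532) (nat_lit 10445554686) (nat_lit 76) (nat_lit 907233676) (nat_lit 236) (nat_lit 5) (nat_lit 243) (nat_lit 5) (nat_lit 237) (nat_lit 5) (nat_lit 499) (nat_lit 462) (nat_lit 239)) (XT.lf (nat_lit 0) (nat_lit 16555461383) (nat_lit 380) (nat_lit 26672623002) (nat_lit 456) (nat_lit 3617648637) (nat_lit 231) (nat_lit 5) (nat_lit 236) (nat_lit 5) (nat_lit 237) (nat_lit 5) (nat_lit 500) (nat_lit 462) (nat_lit 238))))) (XT.nd (nat_lit 312) (nat_lit 1216) (nat_lit 0) (XT.nd (nat_lit 156) (nat_lit 380) (nat_lit 0) (XT.nd (nat_lit 78) (nat_lit 456) (nat_lit 0) (XT.lf (nat_lit 0) (nat_lit 4369562632) (nat_lit 456) (nat_lit 3132927396) (nat_lit 76) (nat_lit 40164877934) (nat_lit 230) (nat_lit 5) (nat_lit 236) (nat_lit 5) (nat_lit 231) (nat_lit 5) (nat_lit 501) (nat_lit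 462) (nat_lit 237)) (XT.lf (nat_lit 0) (nat_lit 12885687547) (nat_lit 532) (nat_lit 23330898310) (nat_lit 76) (nat_lit 12285131345) (nat_lit 224) (nat_lit 5) (nat_lit 231) (nat_lit 5) (nat_lit 225) (nat_lit 5) (nat_lit 502) (nat_lit 462) (nat_lit 236))) (XT.nd (nat_lit 78) (nat_lit 0) (nat_lit 0) (XT.lf (nat_lit 0) (nat_lit 5049632186) (nat_lit 380) (nat_lit 16760874393) (nat_lit 456) (nat_lit 27545994078) (nat_lit 219) (nat_lit 5) (nat_lit 224) (nat_lit 5) (nat_lit 225) (nat_lit 5) (nat_lit 503) (nat_lit 462) (nat_lit 235)) (XT.lf (nat_lit 0) (nat_lit 31270973672) (nat_lit 456) (nat_lit 15505950015) (nat_lit 76) (nat_lit 3451966876) (nat_lit 219) (nat_lit 5) (nat_lit 225) (nat_lit 5) (nat_lit 220) (nat_lit 5) (nat_lit 504) (nat_lit 462) (nat_lit 234)))) (XT.nd (nat_lit 156) (nat_lit 836) (nat_lit 0) (XT.nd (nat_lit 78) (nat_lit 0) (nat_lit 0) (XT.lf (nat_lit 0) (nat_lit 14269474459) (nat_lit 380) (nat_lit 27047400853)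 (nat_lit 456) (nat_lit 9801528285) (nat_lit 214) (nat_lit 5) (nat_lit 219) (nat_lit 5) (nat_lit 220) (nat_lit 5) (nat_lit 505) (nat_lit 462) (nat_lit 233)) (XT.lf (nat_lit 0) (nat_lit 45254017129) (nat_lit 380) (nat_lit 6565245253) (nat_lit 456) (nat_lit 210686435) (nat_lit 214) (nat_lit 5) (nat_lit 219) (nat_lit 5) (nat_lit 220) (nat_lit 5) (nat_lit 506) (nat_lit 462) (nat_lit 232))) (XT.nd (nat_lit 78) (nat_lit 380) (nat_lit 0) (XT.lf (nat_lit 0) (nat_lit 9857039299) (nat_lit 456) (nat_lit 28517871327) (nat_lit 76) (nat_lit 14579807390) (nat_lit 208) (nat_lit 5) (nat_lit 214) (nat_lit 5) (nat_lit 209) (nat_lit 5) (nat_lit 507) (nat_lit 462) (nat_lit 231)) (XT.lf (nat_lit 0) (nat_lit 2804704845) (nat_lit 380) (nat_lit 17577496907) (nat_lit 456) (nat_lit 33520176817) (nat_lit 203) (nat_lit 5) (nat_lit 208) (nat_lit 5) (nat_lit 209) (nat_lit 5) (nat_lit 508) (nat_lit 462) (nat_lit 230))))))))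
noncomputable def xc214 : XT := (XT.nd (nat_lit 2418) (nat_lit 988) (nat_lit 0) (XT.nd (nat_lit 1170) (nat_lit 2204) (nat_lit 0) (XT.nd (nat_lit 546) (nat_lit 1520) (nat_lit 0) (XT.nd (nat_lit 234) (nat_lit 988) (nat_lit 0) (XT.nd (nat_lit 78) (nat_lit 304) (nat_lit 0) (XT.lf (nat_lit 0) (nat_lit 31549486799) (nat_lit 456) (nat_lit 19260090635) (nat_lit 76) (nat_lit 4059100514) (nat_lit 203) (nat_lit 5) (nat_lit 209) (nat_lit 5) (nat_lit 204) (nat_lit 5) (nat_lit 509) (nat_lit 462) (nat_lit 229)) (XT.nd (nat_lit 78) (nat_lit 0) (nat_lit 0) (XT.lf (nat_lit 0) (nat_lit 13622459968) (nat_lit 304) (nat_lit 29732946031) (nat_lit 380) (nat_lit 12499451882) (nat_lit 199) (nat_lit 5) (nat_lit 203) (nat_lit 5) (nat_lit 204) (nat_lit 5) (nat_lit 510) (nat_lit 462) (nat_lit 228)) (XT.lf (nat_lit 0) (nat_lit 47884370554) (nat_lit 304) (nat_lit 7824276183) (nat_lit 380) (nat_lit 1156182194) (nat_lit 199) (nat_lit 5) (nat_lit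 203) (nat_lit 5) (nat_lit 204) (nat_lit 5) (nat_lit 511) (nat_lit 462) (nat_lit 227)))) (XT.nd (nat_lit 156) (nat_lit 304) (nat_lit 0) (XT.nd (nat_lit 78) (nat_lit 304) (nat_lit 0) (XT.lf (nat_lit 0) (nat_lit 10712509311) (nat_lit 380) (nat_lit 32373050368) (nat_lit 76) (nat_lit 14804787074) (nat_lit 194) (nat_lit 5) (nat_lit 199) (nat_lit 5) (nat_lit 195) (nat_lit 5) (nat_lit 512) (nat_lit 462) (nat_lit 226)) (XT.lf (nat_lit 0) (nat_lit 2242190361) (nat_lit 304) (nat_lit 20861133124) (nat_lit 380) (nat_lit 35837284237) (nat_lit 190) (nat_lit 5) (nat_lit 194) (nat_lit 5) (nat_lit 195) (nat_lit 5) (nat_lit 513) (nat_lit 462) (nat_lit 225))) (XT.nd (nat_lit 78) (nat_lit 304) (nat_lit 0) (XT.lf (nat_lit 0) (nat_lit 36214226603) (nat_lit 380) (nat_lit 21477744114) (nat_lit 76) (nat_lit 2319954904) (nat_lit 190) (nat_lit 5) (nat_lit 195) (nat_lit 5) (nat_lit 191) (nat_lit 5) (nat_lit 514) (nat_lit 462) (nat_lit 224))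 (XT.lf (nat_lit 0) (nat_lit 14881523447) (nat_lit 304) (nat_lit 35185276783) (nat_lit 380) (nat_lit 11038132558) (nat_lit 186) (nat_lit 5) (nat_lit 190) (nat_lit 5) (nat_lit 191) (nat_lit 5) (nat_lit 515) (nat_lit 462) (nat_lit 223))))) (XT.nd (nat_lit 312) (nat_lit 836) (nat_lit 0) (XT.nd (nat_lit 156) (nat_lit 304) (nat_lit 0) (XT.nd (nat_lit 78) (nat_lit 304) (nat_lit 0) (XT.lf (nat_lit 0) (nat_lit 2280944081) (nat_lit 380) (nat_lit 9476634976) (nat_lit 76) (nat_lit 50466010809) (nat_lit 185) (nat_lit 5) (nat_lit 190) (nat_lit 5) (nat_lit 186) (nat_lit 5) (nat_lit 516) (nat_lit 462) (nat_lit 222)) (XT.lf (nat_lit 0) (nat_lit 16176356105) (nat_lit 380) (nat_lit 34663119815) (nat_lit 76) (nat_lit 12521093556) (nat_lit 181) (nat_lit 5) (nat_lit 186) (nat_lit 5) (nat_lit 182) (nat_lit 5) (nat_lit 517) (nat_lit 462) (nat_lit 221))) (XT.nd (nat_lit 78) (nat_lit 0) (nat_lit 0) (XT.lf (nat_lit 0) (nat_lit 3633947287)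 (nat_lit 304) (nat_lit 27101471450) (nat_lit 380) (nat_lit 33788836119) (nat_lit 177) (nat_lit 5) (nat_lit 181) (nat_lit 5) (nat_lit 182) (nat_lit 5) (nat_lit 518) (nat_lit 462) (nat_lit 220)) (XT.lf (nat_lit 0) (nat_lit 43788668461) (nat_lit 304) (nat_lit 2291433689) (nat_lit 380) (nat_lit 19632283210) (nat_lit 177) (nat_lit 5) (nat_lit 181) (nat_lit 5) (nat_lit 182) (nat_lit 5) (nat_lit 519) (nat_lit 462) (nat_lit 219)))) (XT.nd (nat_lit 156) (nat_lit 532) (nat_lit 0) (XT.nd (nat_lit 78) (nat_lit 76) (nat_lit 0) (XT.lf (nat_lit 0) (nat_lit 18344426618) (nat_lit 228) (nat_lit 43939502372) (nat_lit 304) (nat_lit 4640266729) (nat_lit 174) (nat_lit 5) (nat_lit 177) (nat_lit 5) (nat_lit 178) (nat_lit 5) (nat_lit 520) (nat_lit 462) (nat_lit 218)) (XT.lf (nat_lit 0) (nat_lit 10835852852) (nat_lit 304) (nat_lit 8026198486) (nat_lit 76) (nat_lit 49299840588) (nat_lit 173) (nat_lit 5) (nat_lit 177) (nat_lit 5) (nat_lit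 174) (nat_lit 5) (nat_lit 521) (nat_lit 462) (nat_lit 217))) (XT.nd (nat_lit 78) (nat_lit 228) (nat_lit 0) (XT.lf (nat_lit 0) (nat_lit 27082931128) (nat_lit 380) (nat_lit 35129249217) (nat_lit 76) (nat_lit 7211162206) (nat_lit 169) (nat_lit 5) (nat_lit 174) (nat_lit 5) (nat_lit 170) (nat_lit 5) (nat_lit 522) (nat_lit 462) (nat_lit 216)) (XT.lf (nat_lit 0) (nat_lit 7281086575) (nat_lit 228) (nat_lit 36873825915) (nat_lit 304) (nat_lit 26557599508) (nat_lit 166) (nat_lit 5) (nat_lit 169) (nat_lit 5) (nat_lit 170) (nat_lit 5) (nat_lit 523) (nat_lit 462) (nat_lit 215)))))) (XT.nd (nat_lit 624) (nat_lit 912) (nat_lit 0) (XT.nd (nat_lit 312) (nat_lit 760) (nat_lit 0) (XT.nd (nat_lit 156) (nat_lit 228) (nat_lit 0) (XT.nd (nat_lit 78) (nat_lit 304) (nat_lit 0) (XT.lf (nat_lit 0) (nat_lit 51682108744) (nat_lit 228) (nat_lit 10410592687) (nat_lit 304) (nat_lit 9937045678) (nat_lit 166) (nat_lit 5) (nat_lit 169) (nat_lit 5)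 (nat_lit 170) (nat_lit 5) (nat_lit 524) (nat_lit 462) (nat_lit 214)) (XT.lf (nat_lit 0) (nat_lit 7440732132) (nat_lit 304) (nat_lit 49107632553) (nat_lit 76) (nat_lit 16824100745) (nat_lit 162) (nat_lit 5) (nat_lit 166) (nat_lit 5) (nat_lit 163) (nat_lit 5) (nat_lit 525) (nat_lit 462) (nat_lit 213))) (XT.nd (nat_lit 78) (nat_lit 228) (nat_lit 0) (XT.lf (nat_lit 0) (nat_lit 25449640765) (nat_lit 304) (nat_lit 4321730564) (nat_lit 76) (nat_lit 44971856732) (nat_lit 162) (nat_lit 5) (nat_lit 166) (nat_lit 5) (nat_lit 163) (nat_lit 5) (nat_lit 526) (nat_lit 462) (nat_lit 212)) (XT.lf (nat_lit 0) (nat_lit 42638103339) (nat_lit 228) (nat_lit 1769549152) (nat_lit 304) (nat_lit 31735196023) (nat_lit 159) (nat_lit 5) (nat_lit 162) (nat_lit 5) (nat_lit 163) (nat_lit 5) (nat_lit 527) (nat_lit 462) (nat_lit 211)))) (XT.nd (nat_lit 156) (nat_lit 456) (nat_lit 0) (XT.nd (nat_lit 78) (nat_lit 76) (nat_lit 0) (XT.lf (nat_lit 0)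 (nat_lit 13513528844) (nat_lit 228) (nat_lit 50854065127) (nat_lit 304) (nat_lit 13203867952) (nat_lit 156) (nat_lit 5) (nat_lit 159) (nat_lit 5) (nat_lit 160) (nat_lit 5) (nat_lit 528) (nat_lit 462) (nat_lit 210)) (XT.lf (nat_lit 0) (nat_lit 6126779973) (nat_lit 304) (nat_lit 16482723071) (nat_lit 76) (nat_lit 56420988473) (nat_lit 155) (nat_lit 5) (nat_lit 159) (nat_lit 5) (nat_lit 156) (nat_lit 5) (nat_lit 529) (nat_lit 462) (nat_lit 209))) (XT.nd (nat_lit 78) (nat_lit 228) (nat_lit 0) (XT.lf (nat_lit 0) (nat_lit 26155244316) (nat_lit 304) (nat_lit 47554665378) (nat_lit 76) (nat_lit 6807961933) (nat_lit 152) (nat_lit 5) (nat_lit 156) (nat_lit 5) (nat_lit 153) (nat_lit 5) (nat_lit 530) (nat_lit 462) (nat_lit 208)) (XT.lf (nat_lit 0) (nat_lit 1997346273) (nat_lit 228) (nat_lit 45197384255) (nat_lit 304) (nat_lit 34842837594) (nat_lit 149) (nat_lit 5) (nat_lit 152) (nat_lit 5) (nat_lit 153) (nat_lit 5) (nat_lit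 531) (nat_lit 462) (nat_lit 207))))) (XT.nd (nat_lit 312) (nat_lit 456) (nat_lit 0) (XT.nd (nat_lit 156) (nat_lit 228) (nat_lit 0) (XT.nd (nat_lit 78) (nat_lit 228) (nat_lit 0) (XT.lf (nat_lit 0) (nat_lit 54009120356) (nat_lit 228) (nat_lit 15335523405) (nat_lit 304) (nat_lit 14243834496) (nat_lit 149) (nat_lit 5) (nat_lit 152) (nat_lit 5) (nat_lit 153) (nat_lit 5) (nat_lit 532) (nat_lit 462) (nat_lit 206)) (XT.lf (nat_lit 0) (nat_lit 7206081569) (nat_lit 228) (nat_lit 62557385201) (nat_lit 76) (nat_lit 15409367623) (nat_lit 146) (nat_lit 5) (nat_lit 149) (nat_lit 5) (nat_lit 147) (nat_lit 5) (nat_lit 533) (nat_lit 462) (nat_lit 205))) (XT.nd (nat_lit 78) (nat_lit 228) (nat_lit 0) (XT.lf (nat_lit 0) (nat_lit 29465754541) (nat_lit 228) (nat_lit 10110734204) (nat_lit 76) (nat_lit 47210425250) (nat_lit 146) (nat_lit 5) (nat_lit 149) (nat_lit 5) (nat_lit 147) (nat_lit 5) (nat_lit 534) (nat_lit 462) (nat_lit 204)) (XT.lf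 (nat_lit 0) (nat_lit 44781613657) (nat_lit 228) (nat_lit 8041158381) (nat_lit 304) (nat_lit 35613757334) (nat_lit 143) (nat_lit 5) (nat_lit 146) (nat_lit 5) (nat_lit 147) (nat_lit 5) (nat_lit 535) (nat_lit 462) (nat_lit 203)))) (XT.nd (nat_lit 156) (nat_lit 228) (nat_lit 0) (XT.nd (nat_lit 78) (nat_lit 76) (nat_lit 0) (XT.lf (nat_lit 0) (nat_lit 11379981956) (nat_lit 152) (nat_lit 65947045172) (nat_lit 228) (nat_lit 12795210286) (nat_lit 141) (nat_lit 5) (nat_lit 143) (nat_lit 5) (nat_lit 144) (nat_lit 5) (nat_lit 536) (nat_lit 462) (nat_lit 202)) (XT.lf (nat_lit 0) (nat_lit 11022847247) (nat_lit 228) (nat_lit 23072954921) (nat_lit 76) (nat_lit 57743909511) (nat_lit 140) (nat_lit 5) (nat_lit 143) (nat_lit 5) (nat_lit 141) (nat_lit 5) (nat_lit 537) (nat_lit 462) (nat_lit 201))) (XT.nd (nat_lit 78) (nat_lit 0) (nat_lit 0) (XT.lf (nat_lit 0) (nat_lit 34817640713) (nat_lit 228) (nat_lit 814444083) (nat_lit 304) (nat_lit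 57962810550) (nat_lit 137) (nat_lit 5) (nat_lit 140) (nat_lit 5) (nat_lit 141) (nat_lit 5) (nat_lit 538) (nat_lit 462) (nat_lit 200)) (XT.lf (nat_lit 0) (nat_lit 61535713358) (nat_lit 304) (nat_lit 803335259) (nat_lit 76) (nat_lit 33047002505) (nat_lit 137) (nat_lit 5) (nat_lit 141) (nat_lit 5) (nat_lit 138) (nat_lit 5) (nat_lit 539) (nat_lit 462) (nat_lit 199))))))) (XT.nd (nat_lit 57174) (nat_lit 0) (nat_lit 12160) (XT.nd (nat_lit 56550) (nat_lit 0) (nat_lit 15428) (XT.nd (nat_lit 312) (nat_lit 380) (nat_lit 0) (XT.nd (nat_lit 156) (nat_lit 152) (nat_lit 0) (XT.nd (nat_lit 78) (nat_lit 304) (nat_lit 0) (XT.lf (nat_lit 0) (nat_lit 60072491541) (nat_lit 152) (nat_lit 28728628003) (nat_lit 228) (nat_lit 8412281977) (nat_lit 135) (nat_lit 5) (nat_lit 137) (nat_lit 5) (nat_lit 138) (nat_lit 5) (nat_lit 540) (nat_lit 462) (nat_lit 198)) (XT.lf (nat_lit 0) (nat_lit 17740425956) (nat_lit 304) (nat_lit 75152642987) (nat_lit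 76) (nat_lit 6188414476) (nat_lit 131) (nat_lit 5) (nat_lit 135) (nat_lit 5) (nat_lit 132) (nat_lit 5) (nat_lit 541) (nat_lit 462) (nat_lit 197))) (XT.nd (nat_lit 78) (nat_lit 152) (nat_lit 0) (XT.lf (nat_lit 0) (nat_lit 45171000480) (nat_lit 304) (nat_lit 13775249751) (nat_lit 76) (nat_lit 42036987941) (nat_lit 131) (nat_lit 5) (nat_lit 135) (nat_lit 5) (nat_lit 132) (nat_lit 5) (nat_lit 542) (nat_lit 462) (nat_lit 196)) (XT.lf (nat_lit 0) (nat_lit 50426017800) (nat_lit 152) (nat_lit 23482382978) (nat_lit 228) (nat_lit 29019127544) (nat_lit 129) (nat_lit 5) (nat_lit 131) (nat_lit 5) (nat_lit 132) (nat_lit 5) (nat_lit 543) (nat_lit 462) (nat_lit 195)))) (XT.nd (nat_lit 156) (nat_lit 152) (nat_lit 0) (XT.nd (nat_lit 78) (nat_lit 76) (nat_lit 0) (XT.lf (nat_lit 0) (nat_lit 12015980988) (nat_lit 152) (nat_lit 91872514638) (nat_lit 228) (nat_lit 1030234387) (nat_lit 127) (nat_lit 5) (nat_lit 129) (nat_lit 5) (nat_lit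 130) (nat_lit 5) (nat_lit 544) (nat_lit 462) (nat_lit 194)) (XT.lf (nat_lit 0) (nat_lit 28022979299) (nat_lit 228) (nat_lit 27914945480) (nat_lit 76) (nat_lit 51000713576) (nat_lit 126) (nat_lit 5) (nat_lit 129) (nat_lit 5) (nat_lit 127) (nat_lit 5) (nat_lit 545) (nat_lit 462) (nat_lit 193))) (XT.nd (nat_lit 56004) (nat_lit 0) (nat_lit 15428) (XT.lf (nat_lit 0) (nat_lit 39787280270) (nat_lit 152) (nat_lit 18521474646) (nat_lit 228) (nat_lit 50698632865) (nat_lit 124) (nat_lit 5) (nat_lit 126) (nat_lit 5) (nat_lit 127) (nat_lit 5) (nat_lit 546) (nat_lit 462) (nat_lit 192)) (XT.lf (nat_lit 0) (nat_lit 6593735470) (nat_lit 1292) (nat_lit 3253053223) (nat_lit 1292) (nat_lit 3253053223) (nat_lit 327) (nat_lit 3) (nat_lit 344) (nat_lit 3) (nat_lit 344) (nat_lit 5) (nat_lit 463) (nat_lit 463) (nat_lit 274))))) (XT.nd (nat_lit 312) (nat_lit 0) (nat_lit 152) (XT.nd (nat_lit 156) (nat_lit 0) (nat_lit 76) (XT.nd (nat_lit 78)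 (nat_lit 0) (nat_lit 76) (XT.lf (nat_lit 76) (nat_lit 6671328195) (nat_lit 0) (nat_lit 6873475154) (nat_lit 1292) (nat_lit 13043085726) (nat_lit 328) (nat_lit 5) (nat_lit 327) (nat_lit 3) (nat_lit 344) (nat_lit 5) (nat_lit 464) (nat_lit 463) (nat_lit 273)) (XT.lf (nat_lit 0) (nat_lit 14036340302) (nat_lit 1216) (nat_lit 6671910083) (nat_lit 1292) (nat_lit 6275785728) (nat_lit 328) (nat_lit 5) (nat_lit 344) (nat_lit 5) (nat_lit 345) (nat_lit 5) (nat_lit 465) (nat_lit 463) (nat_lit 272))) (XT.nd (nat_lit 78) (nat_lit 0) (nat_lit 76) (XT.lf (nat_lit 76) (nat_lit 7037325212) (nat_lit 0) (nat_lit 7637383424) (nat_lit 1292) (nat_lit 12713396532) (nat_lit 329) (nat_lit 5) (nat_lit 328) (nat_lit 5) (nat_lit 345) (nat_lit 5) (nat_lit 466) (nat_lit 463) (nat_lit 271)) (XT.lf (nat_lit 0) (nat_lit 15452752321) (nat_lit 1216) (nat_lit 6566461558) (nat_lit 1292) (nat_lit 5781466851) (nat_lit 329) (nat_lit 5) (nat_lit 345) (nat_lit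 5) (nat_lit 346) (nat_lit 5) (nat_lit 467) (nat_lit 463) (nat_lit 270)))) (XT.nd (nat_lit 156) (nat_lit 0) (nat_lit 76) (XT.nd (nat_lit 78) (nat_lit 0) (nat_lit 76) (XT.lf (nat_lit 76) (nat_lit 7704038928) (nat_lit 0) (nat_lit 8696359074) (nat_lit 1292) (nat_lit 11820847893) (nat_lit 330) (nat_lit 5) (nat_lit 329) (nat_lit 5) (nat_lit 346) (nat_lit 5) (nat_lit 468) (nat_lit 463) (nat_lit 269)) (XT.lf (nat_lit 0) (nat_lit 17488431946) (nat_lit 1216) (nat_lit 6166305232) (nat_lit 1292) (nat_lit 4996332221) (nat_lit 330) (nat_lit 5) (nat_lit 346) (nat_lit 5) (nat_lit 347) (nat_lit 5) (nat_lit 469) (nat_lit 463) (nat_lit 268))) (XT.nd (nat_lit 78) (nat_lit 0) (nat_lit 76) (XT.lf (nat_lit 76) (nat_lit 8696630690) (nat_lit 0) (nat_lit 10078952097) (nat_lit 1292) (nat_lit 10313210695) (nat_lit 331) (nat_lit 5) (nat_lit 330) (nat_lit 5) (nat_lit 347) (nat_lit 5) (nat_lit 470) (nat_lit 463) (nat_lit 267)) (XT.lf (nat_lit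 0) (nat_lit 20198621238) (nat_lit 1216) (nat_lit 5446245900) (nat_lit 1292) (nat_lit 3891864100) (nat_lit 331) (nat_lit 5) (nat_lit 347) (nat_lit 5) (nat_lit 348) (nat_lit 5) (nat_lit 471) (nat_lit 463) (nat_lit 266)))))) (XT.nd (nat_lit 624) (nat_lit 2432) (nat_lit 0) (XT.nd (nat_lit 312) (nat_lit 1140) (nat_lit 0) (XT.nd (nat_lit 156) (nat_lit 0) (nat_lit 76) (XT.nd (nat_lit 78) (nat_lit 0) (nat_lit 76) (XT.lf (nat_lit 76) (nat_lit 10042100490) (nat_lit 0) (nat_lit 11815524538) (nat_lit 1292) (nat_lit 8134684013) (nat_lit 332) (nat_lit 5) (nat_lit 331) (nat_lit 5) (nat_lit 348) (nat_lit 5) (nat_lit 472) (nat_lit 463) (nat_lit 265)) (XT.lf (nat_lit 0) (nat_lit 23642314940) (nat_lit 1216) (nat_lit 4379246238) (nat_lit 1292) (nat_lit 2437715656) (nat_lit 332) (nat_lit 5) (nat_lit 348) (nat_lit 5) (nat_lit 349) (nat_lit 5) (nat_lit 473) (nat_lit 463) (nat_lit 264))) (XT.nd (nat_lit 78) (nat_lit 0) (nat_lit 76) (XT.lf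 (nat_lit 76) (nat_lit 11769395401) (nat_lit 0) (nat_lit 13938385653) (nat_lit 1292) (nat_lit 5225655673) (nat_lit 333) (nat_lit 5) (nat_lit 332) (nat_lit 5) (nat_lit 349) (nat_lit 5) (nat_lit 474) (nat_lit 463) (nat_lit 263)) (XT.lf (nat_lit 0) (nat_lit 27882509998) (nat_lit 1216) (nat_lit 2936317356) (nat_lit 1292) (nat_lit 601575223) (nat_lit 333) (nat_lit 5) (nat_lit 349) (nat_lit 5) (nat_lit 350) (nat_lit 5) (nat_lit 475) (nat_lit 463) (nat_lit 262)))) (XT.nd (nat_lit 156) (nat_lit 0) (nat_lit 76) (XT.nd (nat_lit 78) (nat_lit 1292) (nat_lit 0) (XT.lf (nat_lit 76) (nat_lit 13909525270) (nat_lit 0) (nat_lit 16481934298) (nat_lit 1292) (nat_lit 1522448598) (nat_lit 334) (nat_lit 5) (nat_lit 333) (nat_lit 5) (nat_lit 350) (nat_lit 5) (nat_lit 476) (nat_lit 463) (nat_lit 261)) (XT.lf (nat_lit 0) (nat_lit 569904101) (nat_lit 1292) (nat_lit 1108175442) (nat_lit 1368) (nat_lit 30743162530) (nat_lit 316) (nat_lit 5)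 (nat_lit 333) (nat_lit 5) (nat_lit 334) (nat_lit 5) (nat_lit 477) (nat_lit 463) (nat_lit 260))) (XT.nd (nat_lit 78) (nat_lit 0) (nat_lit 0) (XT.lf (nat_lit 0) (nat_lit 2983569094) (nat_lit 1292) (nat_lit 16469111843) (nat_lit 1368) (nat_lit 13481988719) (nat_lit 317) (nat_lit 5) (nat_lit 334) (nat_lit 5) (nat_lit 335) (nat_lit 5) (nat_lit 478) (nat_lit 463) (nat_lit 259)) (XT.lf (nat_lit 76) (nat_lit 1129199515) (nat_lit 0) (nat_lit 4376655216) (nat_lit 1368) (nat_lit 27956559125) (nat_lit 318) (nat_lit 5) (nat_lit 317) (nat_lit 5) (nat_lit 335) (nat_lit 5) (nat_lit 479) (nat_lit 463) (nat_lit 258))))) (XT.nd (nat_lit 312) (nat_lit 1140) (nat_lit 0) (XT.nd (nat_lit 156) (nat_lit 608) (nat_lit 0) (XT.nd (nat_lit 78) (nat_lit 836) (nat_lit 0) (XT.lf (nat_lit 0) (nat_lit 8376455483) (nat_lit 1292) (nat_lit 14519005980) (nat_lit 76) (nat_lit 11102349630) (nat_lit 318) (nat_lit 5) (nat_lit 335) (nat_lit 5) (nat_lit 319)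 (nat_lit 5) (nat_lit 480) (nat_lit 463) (nat_lit 257)) (XT.lf (nat_lit 0) (nat_lit 3859449359) (nat_lit 836) (nat_lit 7551728108) (nat_lit 912) (nat_lit 23135752786) (nat_lit 307) (nat_lit 5) (nat_lit 318) (nat_lit 5) (nat_lit 319) (nat_lit 5) (nat_lit 481) (nat_lit 463) (nat_lit 256))) (XT.nd (nat_lit 78) (nat_lit 608) (nat_lit 0) (XT.lf (nat_lit 0) (nat_lit 14761955700) (nat_lit 912) (nat_lit 12104229242) (nat_lit 76) (nat_lit 8239587711) (nat_lit 307) (nat_lit 5) (nat_lit 319) (nat_lit 5) (nat_lit 308) (nat_lit 5) (nat_lit 482) (nat_lit 463) (nat_lit 255)) (XT.lf (nat_lit 0) (nat_lit 7098114064) (nat_lit 608) (nat_lit 11255836597) (nat_lit 684) (nat_lit 17323208959) (nat_lit 299) (nat_lit 5) (nat_lit 307) (nat_lit 5) (nat_lit 308) (nat_lit 5) (nat_lit 483) (nat_lit 463) (nat_lit 254)))) (XT.nd (nat_lit 156) (nat_lit 532) (nat_lit 0) (XT.nd (nat_lit 78) (nat_lit 608) (nat_lit 0) (XT.lf (nat_lit 0) (nat_lit 22221245033)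 (nat_lit 684) (nat_lit 9187133197) (nat_lit 76) (nat_lit 4852283875) (nat_lit 299) (nat_lit 5) (nat_lit 308) (nat_lit 5) (nat_lit 300) (nat_lit 5) (nat_lit 484) (nat_lit 463) (nat_lit 253)) (XT.lf (nat_lit 0) (nat_lit 10885375127) (nat_lit 608) (nat_lit 15533070205) (nat_lit 684) (nat_lit 10436807812) (nat_lit 291) (nat_lit 5) (nat_lit 299) (nat_lit 5) (nat_lit 300) (nat_lit 5) (nat_lit 485) (nat_lit 463) (nat_lit 252))) (XT.nd (nat_lit 78) (nat_lit 532) (nat_lit 0) (XT.lf (nat_lit 0) (nat_lit 30840970394) (nat_lit 684) (nat_lit 5727473713) (nat_lit 76) (nat_lit 896255635) (nat_lit 291) (nat_lit 5) (nat_lit 300) (nat_lit 5) (nat_lit 292) (nat_lit 5) (nat_lit 486) (nat_lit 463) (nat_lit 251)) (XT.lf (nat_lit 0) (nat_lit 15264157519) (nat_lit 532) (nat_lit 20430447787) (nat_lit 608) (nat_lit 2388871494) (nat_lit 284) (nat_lit 5) (nat_lit 291) (nat_lit 5) (nat_lit 292) (nat_lit 5) (nat_lit 487) (nat_lit 463) (nat_lit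 250))))))))
noncomputable def xc215 : XT := (XT.nd (nat_lit 2418) (nat_lit 4104) (nat_lit 0) (XT.nd (nat_lit 1170) (nat_lit 3724) (nat_lit 0) (XT.nd (nat_lit 546) (nat_lit 1900) (nat_lit 0) (XT.nd (nat_lit 234) (nat_lit 988) (nat_lit 0) (XT.nd (nat_lit 78) (nat_lit 1140) (nat_lit 0) (XT.lf (nat_lit 0) (nat_lit 1990873279) (nat_lit 608) (nat_lit 1737807064) (nat_lit 76) (nat_lit 34989877667) (nat_lit 283) (nat_lit 5) (nat_lit 291) (nat_lit 5) (nat_lit 284) (nat_lit 5) (nat_lit 488) (nat_lit 463) (nat_lit 249)) (XT.nd (nat_lit 78) (nat_lit 532) (nat_lit 0) (XT.lf (nat_lit 0) (nat_lit 6779274146) (nat_lit 684) (nat_lit 19150384976) (nat_lit 76) (nat_lit 13432564716) (nat_lit 275) (nat_lit 5) (nat_lit 284) (nat_lit 5) (nat_lit 276) (nat_lit 5) (nat_lit 489) (nat_lit 463) (nat_lit 248)) (XT.lf (nat_lit 0) (nat_lit 2847286165) (nat_lit 532) (nat_lit 8944081961) (nat_lit 608) (nat_lit 28231430358) (nat_lit 268) (nat_lit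 5) (nat_lit 275) (nat_lit 5) (nat_lit 276) (nat_lit 5) (nat_lit 490) (nat_lit 463) (nat_lit 247)))) (XT.nd (nat_lit 156) (nat_lit 456) (nat_lit 0) (XT.nd (nat_lit 78) (nat_lit 532) (nat_lit 0) (XT.lf (nat_lit 0) (nat_lit 17229386172) (nat_lit 608) (nat_lit 14886193529) (nat_lit 76) (nat_lit 8579343908) (nat_lit 268) (nat_lit 5) (nat_lit 276) (nat_lit 5) (nat_lit 269) (nat_lit 5) (nat_lit 491) (nat_lit 463) (nat_lit 246)) (XT.lf (nat_lit 0) (nat_lit 8140009446) (nat_lit 532) (nat_lit 14855460818) (nat_lit 608) (nat_lit 18386794531) (nat_lit 261) (nat_lit 5) (nat_lit 268) (nat_lit 5) (nat_lit 269) (nat_lit 5) (nat_lit 492) (nat_lit 463) (nat_lit 245))) (XT.nd (nat_lit 78) (nat_lit 456) (nat_lit 0) (XT.lf (nat_lit 0) (nat_lit 29112595299) (nat_lit 608) (nat_lit 9955260340) (nat_lit 76) (nat_lit 3017028897) (nat_lit 261) (nat_lit 5) (nat_lit 269) (nat_lit 5) (nat_lit 262) (nat_lit 5) (nat_lit 493) (nat_lit 463) (nat_lit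 244)) (XT.lf (nat_lit 0) (nat_lit 14157471756) (nat_lit 456) (nat_lit 21537146313) (nat_lit 532) (nat_lit 7105523348) (nat_lit 255) (nat_lit 5) (nat_lit 261) (nat_lit 5) (nat_lit 262) (nat_lit 5) (nat_lit 494) (nat_lit 463) (nat_lit 243))))) (XT.nd (nat_lit 312) (nat_lit 912) (nat_lit 0) (XT.nd (nat_lit 156) (nat_lit 456) (nat_lit 0) (XT.nd (nat_lit 78) (nat_lit 532) (nat_lit 0) (XT.lf (nat_lit 0) (nat_lit 39195626752) (nat_lit 456) (nat_lit 3377245918) (nat_lit 532) (nat_lit 961020267) (nat_lit 255) (nat_lit 5) (nat_lit 261) (nat_lit 5) (nat_lit 262) (nat_lit 5) (nat_lit 495) (nat_lit 463) (nat_lit 242)) (XT.lf (nat_lit 0) (nat_lit 5613567106) (nat_lit 532) (nat_lit 23379465459) (nat_lit 76) (nat_lit 15284561698) (nat_lit 248) (nat_lit 5) (nat_lit 255) (nat_lit 5) (nat_lit 249) (nat_lit 5) (nat_lit 496) (nat_lit 463) (nat_lit 241))) (XT.nd (nat_lit 78) (nat_lit 0) (nat_lit 0) (XT.lf (nat_lit 0) (nat_lit 1930502017)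 (nat_lit 456) (nat_lit 10530116511) (nat_lit 532) (nat_lit 32579866451) (nat_lit 242) (nat_lit 5) (nat_lit 248) (nat_lit 5) (nat_lit 249) (nat_lit 5) (nat_lit 497) (nat_lit 463) (nat_lit 240)) (XT.lf (nat_lit 0) (nat_lit 19831416609) (nat_lit 532) (nat_lit 17426134192) (nat_lit 76) (nat_lit 8559161621) (nat_lit 242) (nat_lit 5) (nat_lit 249) (nat_lit 5) (nat_lit 243) (nat_lit 5) (nat_lit 498) (nat_lit 463) (nat_lit 239)))) (XT.nd (nat_lit 156) (nat_lit 456) (nat_lit 0) (XT.nd (nat_lit 78) (nat_lit 0) (nat_lit 0) (XT.lf (nat_lit 0) (nat_lit 9099533912) (nat_lit 456) (nat_lit 18513913814) (nat_lit 532) (nat_lit 18997075747) (nat_lit 236) (nat_lit 5) (nat_lit 242) (nat_lit 5) (nat_lit 243) (nat_lit 5) (nat_lit 499) (nat_lit 463) (nat_lit 238)) (XT.lf (nat_lit 0) (nat_lit 35812669929) (nat_lit 532) (nat_lit 10656061458) (nat_lit 76) (nat_lit 953905621) (nat_lit 236) (nat_lit 5) (nat_lit 243) (nat_lit 5) (nat_lit 237)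 (nat_lit 5) (nat_lit 500) (nat_lit 463) (nat_lit 237))) (XT.nd (nat_lit 78) (nat_lit 76) (nat_lit 0) (XT.lf (nat_lit 0) (nat_lit 17153976663) (nat_lit 380) (nat_lit 27450543788) (nat_lit 456) (nat_lit 3644194002) (nat_lit 231) (nat_lit 5) (nat_lit 236) (nat_lit 5) (nat_lit 237) (nat_lit 5) (nat_lit 501) (nat_lit 463) (nat_lit 236)) (XT.lf (nat_lit 0) (nat_lit 4578692511) (nat_lit 456) (nat_lit 3126474522) (nat_lit 76) (nat_lit 41389878084) (nat_lit 230) (nat_lit 5) (nat_lit 236) (nat_lit 5) (nat_lit 231) (nat_lit 5) (nat_lit 502) (nat_lit 463) (nat_lit 235)))))) (XT.nd (nat_lit 624) (nat_lit 1672) (nat_lit 0) (XT.nd (nat_lit 312) (nat_lit 836) (nat_lit 0) (XT.nd (nat_lit 156) (nat_lit 380) (nat_lit 0) (XT.nd (nat_lit 78) (nat_lit 380) (nat_lit 0) (XT.lf (nat_lit 0) (nat_lit 13349202602) (nat_lit 532) (nat_lit 23929283473) (nat_lit 76) (nat_lit 12675971790) (nat_lit 224) (nat_lit 5) (nat_lit 231) (nat_lit 5) (nat_lit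 225) (nat_lit 5) (nat_lit 503) (nat_lit 463) (nat_lit 234)) (XT.lf (nat_lit 0) (nat_lit 5301667430) (nat_lit 380) (nat_lit 17238824188) (nat_lit 456) (nat_lit 28294431518) (nat_lit 219) (nat_lit 5) (nat_lit 224) (nat_lit 5) (nat_lit 225) (nat_lit 5) (nat_lit 504) (nat_lit 463) (nat_lit 233))) (XT.nd (nat_lit 78) (nat_lit 380) (nat_lit 0) (XT.lf (nat_lit 0) (nat_lit 32282800910) (nat_lit 456) (nat_lit 15871536581) (nat_lit 76) (nat_lit 3579206472) (nat_lit 219) (nat_lit 5) (nat_lit 225) (nat_lit 5) (nat_lit 220) (nat_lit 5) (nat_lit 505) (nat_lit 463) (nat_lit 232)) (XT.lf (nat_lit 0) (nat_lit 14796174236) (nat_lit 380) (nat_lit 27832706772) (nat_lit 456) (nat_lit 10020897408) (nat_lit 214) (nat_lit 5) (nat_lit 219) (nat_lit 5) (nat_lit 220) (nat_lit 5) (nat_lit 506) (nat_lit 463) (nat_lit 231)))) (XT.nd (nat_lit 156) (nat_lit 380) (nat_lit 0) (XT.nd (nat_lit 78) (nat_lit 456) (nat_lit 0) (XT.lf (nat_lit 0) (nat_lit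 46707380888) (nat_lit 380) (nat_lit 6736847168) (nat_lit 456) (nat_lit 144505353) (nat_lit 214) (nat_lit 5) (nat_lit 219) (nat_lit 5) (nat_lit 220) (nat_lit 5) (nat_lit 507) (nat_lit 463) (nat_lit 230)) (XT.lf (nat_lit 0) (nat_lit 10222944188) (nat_lit 456) (nat_lit 29275351972) (nat_lit 76) (nat_lit 15042955476) (nat_lit 208) (nat_lit 5) (nat_lit 214) (nat_lit 5) (nat_lit 209) (nat_lit 5) (nat_lit 508) (nat_lit 463) (nat_lit 229))) (XT.nd (nat_lit 78) (nat_lit 0) (nat_lit 0) (XT.lf (nat_lit 0) (nat_lit 2985940157) (nat_lit 380) (nat_lit 18076810209) (nat_lit 456) (nat_lit 34454625034) (nat_lit 203) (nat_lit 5) (nat_lit 208) (nat_lit 5) (nat_lit 209) (nat_lit 5) (nat_lit 509) (nat_lit 463) (nat_lit 228)) (XT.lf (nat_lit 0) (nat_lit 32563303273) (nat_lit 456) (nat_lit 19741874492) (nat_lit 76) (nat_lit 4207538576) (nat_lit 203) (nat_lit 5) (nat_lit 209) (nat_lit 5) (nat_lit 204) (nat_lit 5) (nat_lit 510) (nat_lit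 463) (nat_lit 227))))) (XT.nd (nat_lit 312) (nat_lit 684) (nat_lit 0) (XT.nd (nat_lit 156) (nat_lit 684) (nat_lit 0) (XT.nd (nat_lit 78) (nat_lit 0) (nat_lit 0) (XT.lf (nat_lit 0) (nat_lit 14126211267) (nat_lit 304) (nat_lit 30596141602) (nat_lit 380) (nat_lit 12806160276) (nat_lit 199) (nat_lit 5) (nat_lit 203) (nat_lit 5) (nat_lit 204) (nat_lit 5) (nat_lit 511) (nat_lit 463) (nat_lit 226)) (XT.lf (nat_lit 0) (nat_lit 49413209924) (nat_lit 304) (nat_lit 8031050284) (nat_lit 380) (nat_lit 1124581094) (nat_lit 199) (nat_lit 5) (nat_lit 203) (nat_lit 5) (nat_lit 204) (nat_lit 5) (nat_lit 512) (nat_lit 463) (nat_lit 225))) (XT.nd (nat_lit 78) (nat_lit 304) (nat_lit 0) (XT.lf (nat_lit 0) (nat_lit 11098151450) (nat_lit 380) (nat_lit 33249910333) (nat_lit 76) (nat_lit 15277065600) (nat_lit 194) (nat_lit 5) (nat_lit 199) (nat_lit 5) (nat_lit 195) (nat_lit 5) (nat_lit 513) (nat_lit 463) (nat_lit 224)) (XT.lf (nat_lit 0)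 (nat_lit 2402862800) (nat_lit 304) (nat_lit 21456853283) (nat_lit 380) (nat_lit 36847209369) (nat_lit 190) (nat_lit 5) (nat_lit 194) (nat_lit 5) (nat_lit 195) (nat_lit 5) (nat_lit 514) (nat_lit 463) (nat_lit 223)))) (XT.nd (nat_lit 156) (nat_lit 380) (nat_lit 0) (XT.nd (nat_lit 78) (nat_lit 304) (nat_lit 0) (XT.lf (nat_lit 0) (nat_lit 37362383852) (nat_lit 380) (nat_lit 22029826187) (nat_lit 76) (nat_lit 2418219771) (nat_lit 190) (nat_lit 5) (nat_lit 195) (nat_lit 5) (nat_lit 191) (nat_lit 5) (nat_lit 515) (nat_lit 463) (nat_lit 222)) (XT.lf (nat_lit 0) (nat_lit 15419314986) (nat_lit 304) (nat_lit 36210299799) (nat_lit 380) (nat_lit 11306640052) (nat_lit 186) (nat_lit 5) (nat_lit 190) (nat_lit 5) (nat_lit 191) (nat_lit 5) (nat_lit 516) (nat_lit 463) (nat_lit 221))) (XT.nd (nat_lit 78) (nat_lit 304) (nat_lit 0) (XT.lf (nat_lit 0) (nat_lit 2408997859) (nat_lit 380) (nat_lit 9671060560) (nat_lit 76) (nat_lit 52008448855)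 (nat_lit 185) (nat_lit 5) (nat_lit 190) (nat_lit 5) (nat_lit 186) (nat_lit 5) (nat_lit 517) (nat_lit 463) (nat_lit 220)) (XT.lf (nat_lit 0) (nat_lit 16720681792) (nat_lit 380) (nat_lit 35612548012) (nat_lit 76) (nat_lit 12926384225) (nat_lit 181) (nat_lit 5) (nat_lit 186) (nat_lit 5) (nat_lit 182) (nat_lit 5) (nat_lit 518) (nat_lit 463) (nat_lit 219))))))) (XT.nd (nat_lit 1248) (nat_lit 1444) (nat_lit 0) (XT.nd (nat_lit 624) (nat_lit 1216) (nat_lit 0) (XT.nd (nat_lit 312) (nat_lit 836) (nat_lit 0) (XT.nd (nat_lit 156) (nat_lit 304) (nat_lit 0) (XT.nd (nat_lit 78) (nat_lit 0) (nat_lit 0) (XT.lf (nat_lit 0) (nat_lit 3832544187) (nat_lit 304) (nat_lit 27883113733) (nat_lit 380) (nat_lit 34742577846) (nat_lit 177) (nat_lit 5) (nat_lit 181) (nat_lit 5) (nat_lit 182) (nat_lit 5) (nat_lit 519) (nat_lit 463) (nat_lit 218)) (XT.lf (nat_lit 0) (nat_lit 45189297915) (nat_lit 304) (nat_lit 2329689456) (nat_lit 380) (nat_lit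 20163073690) (nat_lit 177) (nat_lit 5) (nat_lit 181) (nat_lit 5) (nat_lit 182) (nat_lit 5) (nat_lit 520) (nat_lit 463) (nat_lit 217))) (XT.nd (nat_lit 78) (nat_lit 76) (nat_lit 0) (XT.lf (nat_lit 0) (nat_lit 18982265220) (nat_lit 228) (nat_lit 45226144371) (nat_lit 304) (nat_lit 4721831764) (nat_lit 174) (nat_lit 5) (nat_lit 177) (nat_lit 5) (nat_lit 178) (nat_lit 5) (nat_lit 521) (nat_lit 463) (nat_lit 216)) (XT.lf (nat_lit 0) (nat_lit 11215800423) (nat_lit 304) (nat_lit 8180934013) (nat_lit 76) (nat_lit 50808366811) (nat_lit 173) (nat_lit 5) (nat_lit 177) (nat_lit 5) (nat_lit 174) (nat_lit 5) (nat_lit 522) (nat_lit 463) (nat_lit 215)))) (XT.nd (nat_lit 156) (nat_lit 304) (nat_lit 0) (XT.nd (nat_lit 78) (nat_lit 228) (nat_lit 0) (XT.lf (nat_lit 0) (nat_lit 27949810980) (nat_lit 380) (nat_lit 36096594959) (nat_lit 76) (nat_lit 7458003891) (nat_lit 169) (nat_lit 5) (nat_lit 174) (nat_lit 5) (nat_lit 170) (nat_lit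 5) (nat_lit 523) (nat_lit 463) (nat_lit 214)) (XT.lf (nat_lit 0) (nat_lit 7585202556) (nat_lit 228) (nat_lit 37947988638) (nat_lit 304) (nat_lit 27299086021) (nat_lit 166) (nat_lit 5) (nat_lit 169) (nat_lit 5) (nat_lit 170) (nat_lit 5) (nat_lit 524) (nat_lit 463) (nat_lit 213))) (XT.nd (nat_lit 78) (nat_lit 304) (nat_lit 0) (XT.lf (nat_lit 0) (nat_lit 53315759757) (nat_lit 228) (nat_lit 10691791968) (nat_lit 304) (nat_lit 10181524550) (nat_lit 166) (nat_lit 5) (nat_lit 169) (nat_lit 5) (nat_lit 170) (nat_lit 5) (nat_lit 525) (nat_lit 463) (nat_lit 212)) (XT.lf (nat_lit 0) (nat_lit 7716113497) (nat_lit 304) (nat_lit 50496198447) (nat_lit 76) (nat_lit 17359761566) (nat_lit 162) (nat_lit 5) (nat_lit 166) (nat_lit 5) (nat_lit 163) (nat_lit 5) (nat_lit 526) (nat_lit 463) (nat_lit 211))))) (XT.nd (nat_lit 312) (nat_lit 684) (nat_lit 0) (XT.nd (nat_lit 156) (nat_lit 304) (nat_lit 0) (XT.nd (nat_lit 78) (nat_lit 228) (nat_lit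 0) (XT.lf (nat_lit 0) (nat_lit 26263770183) (nat_lit 304) (nat_lit 4369185313) (nat_lit 76) (nat_lit 46351049131) (nat_lit 162) (nat_lit 5) (nat_lit 166) (nat_lit 5) (nat_lit 163) (nat_lit 5) (nat_lit 527) (nat_lit 463) (nat_lit 210)) (XT.lf (nat_lit 0) (nat_lit 43998637753) (nat_lit 228) (nat_lit 1791191935) (nat_lit 304) (nat_lit 32635804816) (nat_lit 159) (nat_lit 5) (nat_lit 162) (nat_lit 5) (nat_lit 163) (nat_lit 5) (nat_lit 528) (nat_lit 463) (nat_lit 209))) (XT.nd (nat_lit 78) (nat_lit 76) (nat_lit 0) (XT.lf (nat_lit 0) (nat_lit 14000713542) (nat_lit 228) (nat_lit 52347480645) (nat_lit 304) (nat_lit 13548923414) (nat_lit 156) (nat_lit 5) (nat_lit 159) (nat_lit 5) (nat_lit 160) (nat_lit 5) (nat_lit 529) (nat_lit 463) (nat_lit 208)) (XT.lf (nat_lit 0) (nat_lit 6359189392) (nat_lit 304) (nat_lit 16896839533) (nat_lit 76) (nat_lit 58143918206) (nat_lit 155) (nat_lit 5) (nat_lit 159) (nat_lit 5) (nat_lit 156)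 (nat_lit 5) (nat_lit 530) (nat_lit 463) (nat_lit 207)))) (XT.nd (nat_lit 156) (nat_lit 228) (nat_lit 0) (XT.nd (nat_lit 78) (nat_lit 228) (nat_lit 0) (XT.lf (nat_lit 0) (nat_lit 26988160873) (nat_lit 304) (nat_lit 48900592395) (nat_lit 76) (nat_lit 7043205809) (nat_lit 152) (nat_lit 5) (nat_lit 156) (nat_lit 5) (nat_lit 153) (nat_lit 5) (nat_lit 531) (nat_lit 463) (nat_lit 206)) (XT.lf (nat_lit 0) (nat_lit 2137188303) (nat_lit 228) (nat_lit 46521006016) (nat_lit 304) (nat_lit 35839071295) (nat_lit 149) (nat_lit 5) (nat_lit 152) (nat_lit 5) (nat_lit 153) (nat_lit 5) (nat_lit 532) (nat_lit 463) (nat_lit 205))) (XT.nd (nat_lit 78) (nat_lit 228) (nat_lit 0) (XT.lf (nat_lit 0) (nat_lit 55706987793) (nat_lit 228) (nat_lit 15764230110) (nat_lit 304) (nat_lit 14623526787) (nat_lit 149) (nat_lit 5) (nat_lit 152) (nat_lit 5) (nat_lit 153) (nat_lit 5) (nat_lit 533) (nat_lit 463) (nat_lit 204)) (XT.lf (nat_lit 0) (nat_lit 7468649348)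 (nat_lit 228) (nat_lit 64355273855) (nat_lit 76) (nat_lit 15902703842) (nat_lit 146) (nat_lit 5) (nat_lit 149) (nat_lit 5) (nat_lit 147) (nat_lit 5) (nat_lit 534) (nat_lit 463) (nat_lit 203)))))) (XT.nd (nat_lit 624) (nat_lit 304) (nat_lit 0) (XT.nd (nat_lit 312) (nat_lit 684) (nat_lit 0) (XT.nd (nat_lit 156) (nat_lit 228) (nat_lit 0) (XT.nd (nat_lit 78) (nat_lit 228) (nat_lit 0) (XT.lf (nat_lit 0) (nat_lit 30394761481) (nat_lit 228) (nat_lit 10337519431) (nat_lit 76) (nat_lit 48656888678) (nat_lit 146) (nat_lit 5) (nat_lit 149) (nat_lit 5) (nat_lit 147) (nat_lit 5) (nat_lit 535) (nat_lit 463) (nat_lit 202)) (XT.lf (nat_lit 0) (nat_lit 46200848504) (nat_lit 228) (nat_lit 8251057825) (nat_lit 304) (nat_lit 36636384618) (nat_lit 143) (nat_lit 5) (nat_lit 146) (nat_lit 5) (nat_lit 147) (nat_lit 5) (nat_lit 536) (nat_lit 463) (nat_lit 201))) (XT.nd (nat_lit 78) (nat_lit 76) (nat_lit 0) (XT.lf (nat_lit 0) (nat_lit 11797447812)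 (nat_lit 152) (nat_lit 67893570204) (nat_lit 228) (nat_lit 13133560368) (nat_lit 141) (nat_lit 5) (nat_lit 143) (nat_lit 5) (nat_lit 144) (nat_lit 5) (nat_lit 537) (nat_lit 463) (nat_lit 200)) (XT.lf (nat_lit 0) (nat_lit 11396851340) (nat_lit 228) (nat_lit 23690429864) (nat_lit 76) (nat_lit 59506321557) (nat_lit 140) (nat_lit 5) (nat_lit 143) (nat_lit 5) (nat_lit 141) (nat_lit 5) (nat_lit 538) (nat_lit 463) (nat_lit 199)))) (XT.nd (nat_lit 156) (nat_lit 456) (nat_lit 0) (XT.nd (nat_lit 78) (nat_lit 0) (nat_lit 0) (XT.lf (nat_lit 0) (nat_lit 35936151152) (nat_lit 228) (nat_lit 807664308) (nat_lit 304) (nat_lit 59657643016) (nat_lit 137) (nat_lit 5) (nat_lit 140) (nat_lit 5) (nat_lit 141) (nat_lit 5) (nat_lit 539) (nat_lit 463) (nat_lit 198)) (XT.lf (nat_lit 0) (nat_lit 63423598506) (nat_lit 304) (nat_lit 754653853) (nat_lit 76) (nat_lit 34068125219) (nat_lit 137) (nat_lit 5) (nat_lit 141) (nat_lit 5) (nat_lit 138)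 (nat_lit 5) (nat_lit 540) (nat_lit 463) (nat_lit 197))) (XT.nd (nat_lit 78) (nat_lit 304) (nat_lit 0) (XT.lf (nat_lit 0) (nat_lit 61946734208) (nat_lit 152) (nat_lit 29559707554) (nat_lit 228) (nat_lit 8622122499) (nat_lit 135) (nat_lit 5) (nat_lit 137) (nat_lit 5) (nat_lit 138) (nat_lit 5) (nat_lit 541) (nat_lit 463) (nat_lit 196)) (XT.lf (nat_lit 0) (nat_lit 18314114218) (nat_lit 304) (nat_lit 77334100664) (nat_lit 76) (nat_lit 6404468165) (nat_lit 131) (nat_lit 5) (nat_lit 135) (nat_lit 5) (nat_lit 132) (nat_lit 5) (nat_lit 542) (nat_lit 463) (nat_lit 195))))) (XT.nd (nat_lit 56394) (nat_lit 0) (nat_lit 15200) (XT.nd (nat_lit 156) (nat_lit 152) (nat_lit 0) (XT.nd (nat_lit 78) (nat_lit 152) (nat_lit 0) (XT.lf (nat_lit 0) (nat_lit 46566397954) (nat_lit 304) (nat_lit 14117515387) (nat_lit 76) (nat_lit 43327613361) (nat_lit 131) (nat_lit 5) (nat_lit 135) (nat_lit 5) (nat_lit 132) (nat_lit 5) (nat_lit 543) (nat_lit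 463) (nat_lit 194)) (XT.lf (nat_lit 0) (nat_lit 52009094193) (nat_lit 152) (nat_lit 24156328957) (nat_lit 228) (nat_lit 29848737338) (nat_lit 129) (nat_lit 5) (nat_lit 131) (nat_lit 5) (nat_lit 132) (nat_lit 5) (nat_lit 544) (nat_lit 463) (nat_lit 193))) (XT.nd (nat_lit 56160) (nat_lit 0) (nat_lit 15200) (XT.lf (nat_lit 0) (nat_lit 12446958530) (nat_lit 152) (nat_lit 94597766507) (nat_lit 228) (nat_lit 1020379082) (nat_lit 127) (nat_lit 5) (nat_lit 129) (nat_lit 5) (nat_lit 130) (nat_lit 5) (nat_lit 545) (nat_lit 463) (nat_lit 192)) (XT.lf (nat_lit 0) (nat_lit 6886022031) (nat_lit 1292) (nat_lit 3301988273) (nat_lit 1292) (nat_lit 3301988273) (nat_lit 327) (nat_lit 3) (nat_lit 344) (nat_lit 3) (nat_lit 344) (nat_lit 5) (nat_lit 464) (nat_lit 464) (nat_lit 272)))) (XT.nd (nat_lit 156) (nat_lit 0) (nat_lit 76) (XT.nd (nat_lit 78) (nat_lit 0) (nat_lit 76) (XT.lf (nat_lit 76) (nat_lit 6967827083) (nat_lit 0) (nat_lit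 7167692254) (nat_lit 1292) (nat_lit 13244466788) (nat_lit 328) (nat_lit 5) (nat_lit 327) (nat_lit 3) (nat_lit 344) (nat_lit 5) (nat_lit 465) (nat_lit 464) (nat_lit 271)) (XT.lf (nat_lit 0) (nat_lit 14635610952) (nat_lit 1216) (nat_lit 6772315251) (nat_lit 1292) (nat_lit 6380277360) (nat_lit 328) (nat_lit 5) (nat_lit 344) (nat_lit 5) (nat_lit 345) (nat_lit 5) (nat_lit 466) (nat_lit 464) (nat_lit 270))) (XT.nd (nat_lit 78) (nat_lit 0) (nat_lit 76) (XT.lf (nat_lit 76) (nat_lit 7347219141) (nat_lit 0) (nat_lit 7941670951) (nat_lit 1292) (nat_lit 12915632045) (nat_lit 329) (nat_lit 5) (nat_lit 328) (nat_lit 5) (nat_lit 345) (nat_lit 5) (nat_lit 467) (nat_lit 464) (nat_lit 269)) (XT.lf (nat_lit 0) (nat_lit 16084507372) (nat_lit 1216) (nat_lit 6661782686) (nat_lit 1292) (nat_lit 5883358172) (nat_lit 329) (nat_lit 5) (nat_lit 345) (nat_lit 5) (nat_lit 346) (nat_lit 5) (nat_lit 468) (nat_lit 464) (nat_lit 268))))))))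
noncomputable def xc216 : XT := (XT.nd (nat_lit 2418) (nat_lit 6536) (nat_lit 0) (XT.nd (nat_lit 1170) (nat_lit 4940) (nat_lit 0) (XT.nd (nat_lit 546) (nat_lit 1672) (nat_lit 0) (XT.nd (nat_lit 234) (nat_lit 0) (nat_lit 152) (XT.nd (nat_lit 78) (nat_lit 0) (nat_lit 76) (XT.lf (nat_lit 76) (nat_lit 8035836023) (nat_lit 0) (nat_lit 9020815930) (nat_lit 1292) (nat_lit 12006296535) (nat_lit 330) (nat_lit 5) (nat_lit 329) (nat_lit 5) (nat_lit 346) (nat_lit 5) (nat_lit 469) (nat_lit 464) (nat_lit 267)) (XT.nd (nat_lit 78) (nat_lit 0) (nat_lit 0) (XT.lf (nat_lit 0) (nat_lit 18171949930) (nat_lit 1216) (nat_lit 6248166480) (nat_lit 1292) (nat_lit 5085711818) (nat_lit 330) (nat_lit 5) (nat_lit 346) (nat_lit 5) (nat_lit 347) (nat_lit 5) (nat_lit 470) (nat_lit 464) (nat_lit 266)) (XT.lf (nat_lit 76) (nat_lit 9059646462) (nat_lit 0) (nat_lit 10434423306) (nat_lit 1292) (nat_lit 10462723842) (nat_lit 331) (nat_lit 5) (nat_lit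 330) (nat_lit 5) (nat_lit 347) (nat_lit 5) (nat_lit 471) (nat_lit 464) (nat_lit 265)))) (XT.nd (nat_lit 156) (nat_lit 0) (nat_lit 76) (XT.nd (nat_lit 78) (nat_lit 0) (nat_lit 0) (XT.lf (nat_lit 0) (nat_lit 20954782829) (nat_lit 1216) (nat_lit 5505467275) (nat_lit 1292) (nat_lit 3958070098) (nat_lit 331) (nat_lit 5) (nat_lit 347) (nat_lit 5) (nat_lit 348) (nat_lit 5) (nat_lit 472) (nat_lit 464) (nat_lit 264)) (XT.lf (nat_lit 76) (nat_lit 10446508271) (nat_lit 0) (nat_lit 12213665109) (nat_lit 1292) (nat_lit 8227493661) (nat_lit 332) (nat_lit 5) (nat_lit 331) (nat_lit 5) (nat_lit 348) (nat_lit 5) (nat_lit 473) (nat_lit 464) (nat_lit 263))) (XT.nd (nat_lit 78) (nat_lit 0) (nat_lit 0) (XT.lf (nat_lit 0) (nat_lit 24493720089) (nat_lit 1216) (nat_lit 4405792686) (nat_lit 1292) (nat_lit 2469271804) (nat_lit 332) (nat_lit 5) (nat_lit 348) (nat_lit 5) (nat_lit 349) (nat_lit 5) (nat_lit 474) (nat_lit 464) (nat_lit 262)) (XT.lf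 (nat_lit 76) (nat_lit 12226280447) (nat_lit 0) (nat_lit 14391727684) (nat_lit 1292) (nat_lit 5239255588) (nat_lit 333) (nat_lit 5) (nat_lit 332) (nat_lit 5) (nat_lit 349) (nat_lit 5) (nat_lit 475) (nat_lit 464) (nat_lit 261))))) (XT.nd (nat_lit 312) (nat_lit 684) (nat_lit 0) (XT.nd (nat_lit 156) (nat_lit 1292) (nat_lit 0) (XT.nd (nat_lit 78) (nat_lit 0) (nat_lit 0) (XT.lf (nat_lit 0) (nat_lit 28853602166) (nat_lit 1216) (nat_lit 2919244192) (nat_lit 1292) (nat_lit 586123675) (nat_lit 333) (nat_lit 5) (nat_lit 349) (nat_lit 5) (nat_lit 350) (nat_lit 5) (nat_lit 476) (nat_lit 464) (nat_lit 260)) (XT.lf (nat_lit 76) (nat_lit 14430942707) (nat_lit 0) (nat_lit 17003957614) (nat_lit 1292) (nat_lit 1432468244) (nat_lit 334) (nat_lit 5) (nat_lit 333) (nat_lit 5) (nat_lit 350) (nat_lit 5) (nat_lit 477) (nat_lit 464) (nat_lit 259))) (XT.nd (nat_lit 78) (nat_lit 0) (nat_lit 76) (XT.lf (nat_lit 0) (nat_lit 716133961) (nat_lit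 1292) (nat_lit 1037746397) (nat_lit 1368) (nat_lit 31636119400) (nat_lit 316) (nat_lit 5) (nat_lit 333) (nat_lit 5) (nat_lit 334) (nat_lit 5) (nat_lit 478) (nat_lit 464) (nat_lit 258)) (XT.lf (nat_lit 0) (nat_lit 3199206742) (nat_lit 1292) (nat_lit 16856503295) (nat_lit 1368) (nat_lit 13863210358) (nat_lit 317) (nat_lit 5) (nat_lit 334) (nat_lit 5) (nat_lit 335) (nat_lit 5) (nat_lit 479) (nat_lit 464) (nat_lit 257)))) (XT.nd (nat_lit 156) (nat_lit 760) (nat_lit 0) (XT.nd (nat_lit 78) (nat_lit 0) (nat_lit 76) (XT.lf (nat_lit 76) (nat_lit 1268711504) (nat_lit 0) (nat_lit 4525791176) (nat_lit 1368) (nat_lit 28668074147) (nat_lit 318) (nat_lit 5) (nat_lit 317) (nat_lit 5) (nat_lit 335) (nat_lit 5) (nat_lit 480) (nat_lit 464) (nat_lit 256)) (XT.lf (nat_lit 0) (nat_lit 8747458714) (nat_lit 1292) (nat_lit 14848249070) (nat_lit 76) (nat_lit 11418441232) (nat_lit 318) (nat_lit 5) (nat_lit 335) (nat_lit 5) (nat_lit 319) (nat_lit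 5) (nat_lit 481) (nat_lit 464) (nat_lit 255))) (XT.nd (nat_lit 78) (nat_lit 0) (nat_lit 0) (XT.lf (nat_lit 0) (nat_lit 4080517506) (nat_lit 836) (nat_lit 7790230226) (nat_lit 912) (nat_lit 23709068408) (nat_lit 307) (nat_lit 5) (nat_lit 318) (nat_lit 5) (nat_lit 319) (nat_lit 5) (nat_lit 482) (nat_lit 464) (nat_lit 254)) (XT.lf (nat_lit 0) (nat_lit 15318523174) (nat_lit 912) (nat_lit 12361607031) (nat_lit 76) (nat_lit 8475399535) (nat_lit 307) (nat_lit 5) (nat_lit 319) (nat_lit 5) (nat_lit 308) (nat_lit 5) (nat_lit 483) (nat_lit 464) (nat_lit 253)))))) (XT.nd (nat_lit 624) (nat_lit 1976) (nat_lit 0) (XT.nd (nat_lit 312) (nat_lit 1748) (nat_lit 0) (XT.nd (nat_lit 156) (nat_lit 608) (nat_lit 0) (XT.nd (nat_lit 78) (nat_lit 0) (nat_lit 0) (XT.lf (nat_lit 0) (nat_lit 7415769819) (nat_lit 608) (nat_lit 11600202818) (nat_lit 684) (nat_lit 17728154981) (nat_lit 299) (nat_lit 5) (nat_lit 307) (nat_lit 5) (nat_lit 308) (nat_lit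 5) (nat_lit 484) (nat_lit 464) (nat_lit 252)) (XT.lf (nat_lit 0) (nat_lit 22995978633) (nat_lit 684) (nat_lit 9357772976) (nat_lit 76) (nat_lit 4991482921) (nat_lit 299) (nat_lit 5) (nat_lit 308) (nat_lit 5) (nat_lit 300) (nat_lit 5) (nat_lit 485) (nat_lit 464) (nat_lit 251))) (XT.nd (nat_lit 78) (nat_lit 0) (nat_lit 0) (XT.lf (nat_lit 0) (nat_lit 11315881438) (nat_lit 608) (nat_lit 16001064251) (nat_lit 684) (nat_lit 10640782220) (nat_lit 291) (nat_lit 5) (nat_lit 299) (nat_lit 5) (nat_lit 300) (nat_lit 5) (nat_lit 486) (nat_lit 464) (nat_lit 250)) (XT.lf (nat_lit 0) (nat_lit 31869041985) (nat_lit 684) (nat_lit 5795271584) (nat_lit 76) (nat_lit 921237600) (nat_lit 291) (nat_lit 5) (nat_lit 300) (nat_lit 5) (nat_lit 292) (nat_lit 5) (nat_lit 487) (nat_lit 464) (nat_lit 249)))) (XT.nd (nat_lit 156) (nat_lit 1140) (nat_lit 0) (XT.nd (nat_lit 78) (nat_lit 76) (nat_lit 0) (XT.lf (nat_lit 0) (nat_lit 15825088719) (nat_lit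 532) (nat_lit 21041191976) (nat_lit 608) (nat_lit 2356671128) (nat_lit 284) (nat_lit 5) (nat_lit 291) (nat_lit 5) (nat_lit 292) (nat_lit 5) (nat_lit 488) (nat_lit 464) (nat_lit 248)) (XT.lf (nat_lit 0) (nat_lit 2149472973) (nat_lit 608) (nat_lit 1687963288) (nat_lit 76) (nat_lit 36039708358) (nat_lit 283) (nat_lit 5) (nat_lit 291) (nat_lit 5) (nat_lit 284) (nat_lit 5) (nat_lit 489) (nat_lit 464) (nat_lit 247))) (XT.nd (nat_lit 78) (nat_lit 532) (nat_lit 0) (XT.lf (nat_lit 0) (nat_lit 7079655303) (nat_lit 684) (nat_lit 19621044163) (nat_lit 76) (nat_lit 13839477187) (nat_lit 275) (nat_lit 5) (nat_lit 284) (nat_lit 5) (nat_lit 276) (nat_lit 5) (nat_lit 490) (nat_lit 464) (nat_lit 246)) (XT.lf (nat_lit 0) (nat_lit 3035538951) (nat_lit 532) (nat_lit 9204736329) (nat_lit 608) (nat_lit 28980348475) (nat_lit 268) (nat_lit 5) (nat_lit 275) (nat_lit 5) (nat_lit 276) (nat_lit 5) (nat_lit 491) (nat_lit 464) (nat_lit 245)))))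 (XT.nd (nat_lit 312) (nat_lit 988) (nat_lit 0) (XT.nd (nat_lit 156) (nat_lit 456) (nat_lit 0) (XT.nd (nat_lit 78) (nat_lit 532) (nat_lit 0) (XT.lf (nat_lit 0) (nat_lit 17838733602) (nat_lit 608) (nat_lit 15230236447) (nat_lit 76) (nat_lit 8844023700) (nat_lit 268) (nat_lit 5) (nat_lit 276) (nat_lit 5) (nat_lit 269) (nat_lit 5) (nat_lit 492) (nat_lit 464) (nat_lit 244)) (XT.lf (nat_lit 0) (nat_lit 8485747295) (nat_lit 532) (nat_lit 15290335784) (nat_lit 608) (nat_lit 18844923711) (nat_lit 261) (nat_lit 5) (nat_lit 268) (nat_lit 5) (nat_lit 269) (nat_lit 5) (nat_lit 493) (nat_lit 464) (nat_lit 243))) (XT.nd (nat_lit 78) (nat_lit 456) (nat_lit 0) (XT.lf (nat_lit 0) (nat_lit 30074179387) (nat_lit 608) (nat_lit 10152792125) (nat_lit 76) (nat_lit 3117809986) (nat_lit 261) (nat_lit 5) (nat_lit 269) (nat_lit 5) (nat_lit 262) (nat_lit 5) (nat_lit 494) (nat_lit 464) (nat_lit 242)) (XT.lf (nat_lit 0) (nat_lit 14682330502)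 (nat_lit 456) (nat_lit 22169725779) (nat_lit 532) (nat_lit 7229488100) (nat_lit 255) (nat_lit 5) (nat_lit 261) (nat_lit 5) (nat_lit 262) (nat_lit 5) (nat_lit 495) (nat_lit 464) (nat_lit 241)))) (XT.nd (nat_lit 156) (nat_lit 456) (nat_lit 0) (XT.nd (nat_lit 78) (nat_lit 532) (nat_lit 0) (XT.lf (nat_lit 0) (nat_lit 40468713606) (nat_lit 456) (nat_lit 3465422594) (nat_lit 532) (nat_lit 903248012) (nat_lit 255) (nat_lit 5) (nat_lit 261) (nat_lit 5) (nat_lit 262) (nat_lit 5) (nat_lit 496) (nat_lit 464) (nat_lit 240)) (XT.lf (nat_lit 0) (nat_lit 5865495289) (nat_lit 532) (nat_lit 23980543571) (nat_lit 76) (nat_lit 15757374587) (nat_lit 248) (nat_lit 5) (nat_lit 255) (nat_lit 5) (nat_lit 249) (nat_lit 5) (nat_lit 497) (nat_lit 464) (nat_lit 239))) (XT.nd (nat_lit 78) (nat_lit 0) (nat_lit 0) (XT.lf (nat_lit 0) (nat_lit 2087739539) (nat_lit 456) (nat_lit 10828740808) (nat_lit 532) (nat_lit 33472754962) (nat_lit 242) (nat_lit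 5) (nat_lit 248) (nat_lit 5) (nat_lit 249) (nat_lit 5) (nat_lit 498) (nat_lit 464) (nat_lit 238)) (XT.lf (nat_lit 0) (nat_lit 20506174021) (nat_lit 532) (nat_lit 17850257459) (nat_lit 76) (nat_lit 8832385032) (nat_lit 242) (nat_lit 5) (nat_lit 249) (nat_lit 5) (nat_lit 243) (nat_lit 5) (nat_lit 499) (nat_lit 464) (nat_lit 237))))))) (XT.nd (nat_lit 1170) (nat_lit 2888) (nat_lit 0) (XT.nd (nat_lit 546) (nat_lit 1900) (nat_lit 0) (XT.nd (nat_lit 234) (nat_lit 912) (nat_lit 0) (XT.nd (nat_lit 78) (nat_lit 380) (nat_lit 0) (XT.lf (nat_lit 0) (nat_lit 9470213427) (nat_lit 456) (nat_lit 19050067028) (nat_lit 532) (nat_lit 19486203090) (nat_lit 236) (nat_lit 5) (nat_lit 242) (nat_lit 5) (nat_lit 243) (nat_lit 5) (nat_lit 500) (nat_lit 464) (nat_lit 236)) (XT.nd (nat_lit 78) (nat_lit 380) (nat_lit 0) (XT.lf (nat_lit 0) (nat_lit 36963374761) (nat_lit 532) (nat_lit 10878788010) (nat_lit 76) (nat_lit 1000860932) (nat_lit 236)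 (nat_lit 5) (nat_lit 243) (nat_lit 5) (nat_lit 237) (nat_lit 5) (nat_lit 501) (nat_lit 464) (nat_lit 235)) (XT.lf (nat_lit 0) (nat_lit 17764600712) (nat_lit 380) (nat_lit 28253079893) (nat_lit 456) (nat_lit 3676241950) (nat_lit 231) (nat_lit 5) (nat_lit 236) (nat_lit 5) (nat_lit 237) (nat_lit 5) (nat_lit 502) (nat_lit 464) (nat_lit 234)))) (XT.nd (nat_lit 156) (nat_lit 380) (nat_lit 0) (XT.nd (nat_lit 78) (nat_lit 456) (nat_lit 0) (XT.lf (nat_lit 0) (nat_lit 4789616298) (nat_lit 456) (nat_lit 3125593768) (nat_lit 76) (nat_lit 42650477066) (nat_lit 230) (nat_lit 5) (nat_lit 236) (nat_lit 5) (nat_lit 231) (nat_lit 5) (nat_lit 503) (nat_lit 464) (nat_lit 233)) (XT.lf (nat_lit 0) (nat_lit 13822206184) (nat_lit 532) (nat_lit 24551449105) (nat_lit 76) (nat_lit 13077258111) (nat_lit 224) (nat_lit 5) (nat_lit 231) (nat_lit 5) (nat_lit 225) (nat_lit 5) (nat_lit 504) (nat_lit 464) (nat_lit 232))) (XT.nd (nat_lit 78) (nat_lit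 0) (nat_lit 0) (XT.lf (nat_lit 0) (nat_lit 5555491964) (nat_lit 380) (nat_lit 17732540486) (nat_lit 456) (nat_lit 29069796292) (nat_lit 219) (nat_lit 5) (nat_lit 224) (nat_lit 5) (nat_lit 225) (nat_lit 5) (nat_lit 505) (nat_lit 464) (nat_lit 231)) (XT.lf (nat_lit 0) (nat_lit 33320752398) (nat_lit 456) (nat_lit 16253807729) (nat_lit 76) (nat_lit 3708903894) (nat_lit 219) (nat_lit 5) (nat_lit 225) (nat_lit 5) (nat_lit 220) (nat_lit 5) (nat_lit 506) (nat_lit 464) (nat_lit 230))))) (XT.nd (nat_lit 312) (nat_lit 684) (nat_lit 0) (XT.nd (nat_lit 156) (nat_lit 836) (nat_lit 0) (XT.nd (nat_lit 78) (nat_lit 0) (nat_lit 0) (XT.lf (nat_lit 0) (nat_lit 15333014070) (nat_lit 380) (nat_lit 28643071040) (nat_lit 456) (nat_lit 10251134354) (nat_lit 214) (nat_lit 5) (nat_lit 219) (nat_lit 5) (nat_lit 220) (nat_lit 5) (nat_lit 507) (nat_lit 464) (nat_lit 229)) (XT.lf (nat_lit 0) (nat_lit 48198849506) (nat_lit 380) (nat_lit 6915052646)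 (nat_lit 456) (nat_lit 80500731) (nat_lit 214) (nat_lit 5) (nat_lit 219) (nat_lit 5) (nat_lit 220) (nat_lit 5) (nat_lit 508) (nat_lit 464) (nat_lit 228))) (XT.nd (nat_lit 78) (nat_lit 380) (nat_lit 0) (XT.lf (nat_lit 0) (nat_lit 10595796817) (nat_lit 456) (nat_lit 30061185823) (nat_lit 76) (nat_lit 15518519627) (nat_lit 208) (nat_lit 5) (nat_lit 214) (nat_lit 5) (nat_lit 209) (nat_lit 5) (nat_lit 509) (nat_lit 464) (nat_lit 227)) (XT.lf (nat_lit 0) (nat_lit 3167038926) (nat_lit 380) (nat_lit 18592710891) (nat_lit 456) (nat_lit 35421191406) (nat_lit 203) (nat_lit 5) (nat_lit 208) (nat_lit 5) (nat_lit 209) (nat_lit 5) (nat_lit 510) (nat_lit 464) (nat_lit 226)))) (XT.nd (nat_lit 156) (nat_lit 380) (nat_lit 0) (XT.nd (nat_lit 78) (nat_lit 304) (nat_lit 0) (XT.lf (nat_lit 0) (nat_lit 33603669116) (nat_lit 456) (nat_lit 20243623741) (nat_lit 76) (nat_lit 4358899097) (nat_lit 203) (nat_lit 5) (nat_lit 209) (nat_lit 5)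 (nat_lit 204) (nat_lit 5) (nat_lit 511) (nat_lit 464) (nat_lit 225)) (XT.lf (nat_lit 0) (nat_lit 14639617268) (nat_lit 304) (nat_lit 31486885865) (nat_lit 380) (nat_lit 13125989196) (nat_lit 199) (nat_lit 5) (nat_lit 203) (nat_lit 5) (nat_lit 204) (nat_lit 5) (nat_lit 512) (nat_lit 464) (nat_lit 224))) (XT.nd (nat_lit 78) (nat_lit 380) (nat_lit 0) (XT.lf (nat_lit 0) (nat_lit 50982615603) (nat_lit 304) (nat_lit 8245632293) (nat_lit 380) (nat_lit 1095837082) (nat_lit 199) (nat_lit 5) (nat_lit 203) (nat_lit 5) (nat_lit 204) (nat_lit 5) (nat_lit 513) (nat_lit 464) (nat_lit 223)) (XT.lf (nat_lit 0) (nat_lit 11491673672) (nat_lit 380) (nat_lit 34158491113) (nat_lit 76) (nat_lit 15761897423) (nat_lit 194) (nat_lit 5) (nat_lit 199) (nat_lit 5) (nat_lit 195) (nat_lit 5) (nat_lit 514) (nat_lit 464) (nat_lit 222)))))) (XT.nd (nat_lit 624) (nat_lit 1368) (nat_lit 0) (XT.nd (nat_lit 312) (nat_lit 836) (nat_lit 0) (XT.nd (nat_lit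 156) (nat_lit 380) (nat_lit 0) (XT.nd (nat_lit 78) (nat_lit 0) (nat_lit 0) (XT.lf (nat_lit 0) (nat_lit 2562993483) (nat_lit 304) (nat_lit 22072173703) (nat_lit 380) (nat_lit 37891174623) (nat_lit 190) (nat_lit 5) (nat_lit 194) (nat_lit 5) (nat_lit 195) (nat_lit 5) (nat_lit 515) (nat_lit 464) (nat_lit 221)) (XT.lf (nat_lit 0) (nat_lit 38541442239) (nat_lit 380) (nat_lit 22603766264) (nat_lit 76) (nat_lit 2517787025) (nat_lit 190) (nat_lit 5) (nat_lit 195) (nat_lit 5) (nat_lit 191) (nat_lit 5) (nat_lit 516) (nat_lit 464) (nat_lit 220))) (XT.nd (nat_lit 78) (nat_lit 76) (nat_lit 0) (XT.lf (nat_lit 0) (nat_lit 15967996647) (nat_lit 304) (nat_lit 37267826356) (nat_lit 380) (nat_lit 11586798361) (nat_lit 186) (nat_lit 5) (nat_lit 190) (nat_lit 5) (nat_lit 191) (nat_lit 5) (nat_lit 517) (nat_lit 464) (nat_lit 219)) (XT.lf (nat_lit 0) (nat_lit 2537470505) (nat_lit 380) (nat_lit 9876478015) (nat_lit 76) (nat_lit 53595526453)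 (nat_lit 185) (nat_lit 5) (nat_lit 190) (nat_lit 5) (nat_lit 186) (nat_lit 5) (nat_lit 518) (nat_lit 464) (nat_lit 218)))) (XT.nd (nat_lit 156) (nat_lit 228) (nat_lit 0) (XT.nd (nat_lit 78) (nat_lit 304) (nat_lit 0) (XT.lf (nat_lit 0) (nat_lit 17277948399) (nat_lit 380) (nat_lit 36595652139) (nat_lit 76) (nat_lit 13342131132) (nat_lit 181) (nat_lit 5) (nat_lit 186) (nat_lit 5) (nat_lit 182) (nat_lit 5) (nat_lit 519) (nat_lit 464) (nat_lit 217)) (XT.lf (nat_lit 0) (nat_lit 4031956822) (nat_lit 304) (nat_lit 28690007880) (nat_lit 380) (nat_lit 35728371670) (nat_lit 177) (nat_lit 5) (nat_lit 181) (nat_lit 5) (nat_lit 182) (nat_lit 5) (nat_lit 520) (nat_lit 464) (nat_lit 216))) (XT.nd (nat_lit 78) (nat_lit 228) (nat_lit 0) (XT.lf (nat_lit 0) (nat_lit 46626953852) (nat_lit 304) (nat_lit 2370842989) (nat_lit 380) (nat_lit 20713127541) (nat_lit 177) (nat_lit 5) (nat_lit 181) (nat_lit 5) (nat_lit 182) (nat_lit 5) (nat_lit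 521) (nat_lit 464) (nat_lit 215)) (XT.lf (nat_lit 0) (nat_lit 19634215789) (nat_lit 228) (nat_lit 46553196331) (nat_lit 304) (nat_lit 4809152692) (nat_lit 174) (nat_lit 5) (nat_lit 177) (nat_lit 5) (nat_lit 178) (nat_lit 5) (nat_lit 522) (nat_lit 464) (nat_lit 214))))) (XT.nd (nat_lit 312) (nat_lit 760) (nat_lit 0) (XT.nd (nat_lit 156) (nat_lit 228) (nat_lit 0) (XT.nd (nat_lit 78) (nat_lit 304) (nat_lit 0) (XT.lf (nat_lit 0) (nat_lit 11603996545) (nat_lit 304) (nat_lit 8345251253) (nat_lit 76) (nat_lit 52360453620) (nat_lit 173) (nat_lit 5) (nat_lit 177) (nat_lit 5) (nat_lit 174) (nat_lit 5) (nat_lit 523) (nat_lit 464) (nat_lit 213)) (XT.lf (nat_lit 0) (nat_lit 28839574910) (nat_lit 380) (nat_lit 37097928350) (nat_lit 76) (nat_lit 7710499609) (nat_lit 169) (nat_lit 5) (nat_lit 174) (nat_lit 5) (nat_lit 170) (nat_lit 5) (nat_lit 524) (nat_lit 464) (nat_lit 212))) (XT.nd (nat_lit 78) (nat_lit 0) (nat_lit 0) (XT.lf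 (nat_lit 0) (nat_lit 7893523439) (nat_lit 228) (nat_lit 39056216162) (nat_lit 304) (nat_lit 28065988215) (nat_lit 166) (nat_lit 5) (nat_lit 169) (nat_lit 5) (nat_lit 170) (nat_lit 5) (nat_lit 525) (nat_lit 464) (nat_lit 211)) (XT.lf (nat_lit 0) (nat_lit 54993644984) (nat_lit 228) (nat_lit 10983213557) (nat_lit 304) (nat_lit 10436416514) (nat_lit 166) (nat_lit 5) (nat_lit 169) (nat_lit 5) (nat_lit 170) (nat_lit 5) (nat_lit 526) (nat_lit 464) (nat_lit 210)))) (XT.nd (nat_lit 156) (nat_lit 456) (nat_lit 0) (XT.nd (nat_lit 78) (nat_lit 0) (nat_lit 0) (XT.lf (nat_lit 0) (nat_lit 7996762141) (nat_lit 304) (nat_lit 51931281324) (nat_lit 76) (nat_lit 17909716256) (nat_lit 162) (nat_lit 5) (nat_lit 166) (nat_lit 5) (nat_lit 163) (nat_lit 5) (nat_lit 527) (nat_lit 464) (nat_lit 209)) (XT.lf (nat_lit 0) (nat_lit 27099416529) (nat_lit 304) (nat_lit 4422782158) (nat_lit 76) (nat_lit 47769893074) (nat_lit 162) (nat_lit 5) (nat_lit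 166) (nat_lit 5) (nat_lit 163) (nat_lit 5) (nat_lit 528) (nat_lit 464) (nat_lit 208))) (XT.nd (nat_lit 78) (nat_lit 228) (nat_lit 0) (XT.lf (nat_lit 0) (nat_lit 45395316005) (nat_lit 228) (nat_lit 1815288997) (nat_lit 304) (nat_lit 33566385146) (nat_lit 159) (nat_lit 5) (nat_lit 162) (nat_lit 5) (nat_lit 163) (nat_lit 5) (nat_lit 529) (nat_lit 464) (nat_lit 207)) (XT.lf (nat_lit 0) (nat_lit 14497819342) (nat_lit 228) (nat_lit 53887547409) (nat_lit 304) (nat_lit 13907261625) (nat_lit 156) (nat_lit 5) (nat_lit 159) (nat_lit 5) (nat_lit 160) (nat_lit 5) (nat_lit 530) (nat_lit 464) (nat_lit 206))))))))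
noncomputable def xc217 : XT := (XT.nd (nat_lit 58578) (nat_lit 0) (nat_lit 5624) (XT.nd (nat_lit 57330) (nat_lit 0) (nat_lit 14212) (XT.nd (nat_lit 546) (nat_lit 1064) (nat_lit 0) (XT.nd (nat_lit 234) (nat_lit 456) (nat_lit 0) (XT.nd (nat_lit 78) (nat_lit 456) (nat_lit 0) (XT.lf (nat_lit 0) (nat_lit 6595780910) (nat_lit 304) (nat_lit 17327992782) (nat_lit 76) (nat_lit 59916796483) (nat_lit 155) (nat_lit 5) (nat_lit 159) (nat_lit 5) (nat_lit 156) (nat_lit 5) (nat_lit 531) (nat_lit 464) (nat_lit 205)) (XT.nd (nat_lit 78) (nat_lit 228) (nat_lit 0) (XT.lf (nat_lit 0) (nat_lit 27843294650) (nat_lit 304) (nat_lit 50291530475) (nat_lit 76) (nat_lit 7283727187) (nat_lit 152) (nat_lit 5) (nat_lit 156) (nat_lit 5) (nat_lit 153) (nat_lit 5) (nat_lit 532) (nat_lit 464) (nat_lit 204)) (XT.lf (nat_lit 0) (nat_lit 2276637764) (nat_lit 228) (nat_lit 47886190568) (nat_lit 304) (nat_lit 36868007760) (nat_lit 149) (nat_lit 5) (nat_lit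 152) (nat_lit 5) (nat_lit 153) (nat_lit 5) (nat_lit 533) (nat_lit 464) (nat_lit 203)))) (XT.nd (nat_lit 156) (nat_lit 228) (nat_lit 0) (XT.nd (nat_lit 78) (nat_lit 228) (nat_lit 0) (XT.lf (nat_lit 0) (nat_lit 57451337051) (nat_lit 228) (nat_lit 16207598151) (nat_lit 304) (nat_lit 15017343587) (nat_lit 149) (nat_lit 5) (nat_lit 152) (nat_lit 5) (nat_lit 153) (nat_lit 5) (nat_lit 534) (nat_lit 464) (nat_lit 202)) (XT.lf (nat_lit 0) (nat_lit 7736431453) (nat_lit 228) (nat_lit 66211624499) (nat_lit 76) (nat_lit 16409057453) (nat_lit 146) (nat_lit 5) (nat_lit 149) (nat_lit 5) (nat_lit 147) (nat_lit 5) (nat_lit 535) (nat_lit 464) (nat_lit 201))) (XT.nd (nat_lit 78) (nat_lit 228) (nat_lit 0) (XT.lf (nat_lit 0) (nat_lit 31349053475) (nat_lit 228) (nat_lit 10575501741) (nat_lit 76) (nat_lit 50145015237) (nat_lit 146) (nat_lit 5) (nat_lit 149) (nat_lit 5) (nat_lit 147) (nat_lit 5) (nat_lit 536) (nat_lit 464) (nat_lit 200))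 (XT.lf (nat_lit 0) (nat_lit 47658309946) (nat_lit 228) (nat_lit 8469053027) (nat_lit 304) (nat_lit 37692318991) (nat_lit 143) (nat_lit 5) (nat_lit 146) (nat_lit 5) (nat_lit 147) (nat_lit 5) (nat_lit 537) (nat_lit 464) (nat_lit 199))))) (XT.nd (nat_lit 312) (nat_lit 608) (nat_lit 0) (XT.nd (nat_lit 156) (nat_lit 228) (nat_lit 0) (XT.nd (nat_lit 78) (nat_lit 76) (nat_lit 0) (XT.lf (nat_lit 0) (nat_lit 12223071122) (nat_lit 152) (nat_lit 69900321393) (nat_lit 228) (nat_lit 13484673196) (nat_lit 141) (nat_lit 5) (nat_lit 143) (nat_lit 5) (nat_lit 144) (nat_lit 5) (nat_lit 538) (nat_lit 464) (nat_lit 198)) (XT.lf (nat_lit 0) (nat_lit 11779588887) (nat_lit 228) (nat_lit 24330717927) (nat_lit 76) (nat_lit 61319878403) (nat_lit 140) (nat_lit 5) (nat_lit 143) (nat_lit 5) (nat_lit 141) (nat_lit 5) (nat_lit 539) (nat_lit 464) (nat_lit 197))) (XT.nd (nat_lit 78) (nat_lit 0) (nat_lit 0) (XT.lf (nat_lit 0) (nat_lit 37083970079)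 (nat_lit 228) (nat_lit 802472900) (nat_lit 304) (nat_lit 61405849213) (nat_lit 137) (nat_lit 5) (nat_lit 140) (nat_lit 5) (nat_lit 141) (nat_lit 5) (nat_lit 540) (nat_lit 464) (nat_lit 196)) (XT.lf (nat_lit 0) (nat_lit 65365719928) (nat_lit 304) (nat_lit 708689958) (nat_lit 76) (nat_lit 35118175987) (nat_lit 137) (nat_lit 5) (nat_lit 141) (nat_lit 5) (nat_lit 138) (nat_lit 5) (nat_lit 541) (nat_lit 464) (nat_lit 195)))) (XT.nd (nat_lit 156) (nat_lit 152) (nat_lit 0) (XT.nd (nat_lit 78) (nat_lit 304) (nat_lit 0) (XT.lf (nat_lit 0) (nat_lit 63873067161) (nat_lit 152) (nat_lit 30417486349) (nat_lit 228) (nat_lit 8840699514) (nat_lit 135) (nat_lit 5) (nat_lit 137) (nat_lit 5) (nat_lit 138) (nat_lit 5) (nat_lit 542) (nat_lit 464) (nat_lit 194)) (XT.lf (nat_lit 0) (nat_lit 18902632266) (nat_lit 304) (nat_lit 79585199552) (nat_lit 76) (nat_lit 6625258308) (nat_lit 131) (nat_lit 5) (nat_lit 135) (nat_lit 5) (nat_lit 132)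 (nat_lit 5) (nat_lit 543) (nat_lit 464) (nat_lit 193))) (XT.nd (nat_lit 78) (nat_lit 152) (nat_lit 0) (XT.lf (nat_lit 0) (nat_lit 48001345835) (nat_lit 304) (nat_lit 14474124215) (nat_lit 76) (nat_lit 44655263216) (nat_lit 131) (nat_lit 5) (nat_lit 135) (nat_lit 5) (nat_lit 132) (nat_lit 5) (nat_lit 544) (nat_lit 464) (nat_lit 192)) (XT.lf (nat_lit 0) (nat_lit 53635627607) (nat_lit 152) (nat_lit 24852245604) (nat_lit 228) (nat_lit 30705586928) (nat_lit 129) (nat_lit 5) (nat_lit 131) (nat_lit 5) (nat_lit 132) (nat_lit 5) (nat_lit 545) (nat_lit 464) (nat_lit 191)))))) (XT.nd (nat_lit 624) (nat_lit 836) (nat_lit 0) (XT.nd (nat_lit 312) (nat_lit 0) (nat_lit 152) (XT.nd (nat_lit 156) (nat_lit 0) (nat_lit 76) (XT.nd (nat_lit 78) (nat_lit 0) (nat_lit 0) (XT.lf (nat_lit 0) (nat_lit 7181653966) (nat_lit 1292) (nat_lit 3355184460) (nat_lit 1292) (nat_lit 3355184460) (nat_lit 327) (nat_lit 3) (nat_lit 344) (nat_lit 3) (nat_lit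 344) (nat_lit 5) (nat_lit 465) (nat_lit 465) (nat_lit 270)) (XT.lf (nat_lit 76) (nat_lit 7267689534) (nat_lit 0) (nat_lit 7465683570) (nat_lit 1292) (nat_lit 13462790979) (nat_lit 328) (nat_lit 5) (nat_lit 327) (nat_lit 3) (nat_lit 344) (nat_lit 5) (nat_lit 466) (nat_lit 465) (nat_lit 269))) (XT.nd (nat_lit 78) (nat_lit 0) (nat_lit 0) (XT.lf (nat_lit 0) (nat_lit 15242631435) (nat_lit 1216) (nat_lit 6881458755) (nat_lit 1292) (nat_lit 6492713168) (nat_lit 328) (nat_lit 5) (nat_lit 344) (nat_lit 5) (nat_lit 345) (nat_lit 5) (nat_lit 467) (nat_lit 465) (nat_lit 268)) (XT.lf (nat_lit 76) (nat_lit 7660739846) (nat_lit 0) (nat_lit 8250772267) (nat_lit 1292) (nat_lit 13134219507) (nat_lit 329) (nat_lit 5) (nat_lit 328) (nat_lit 5) (nat_lit 345) (nat_lit 5) (nat_lit 468) (nat_lit 465) (nat_lit 267)))) (XT.nd (nat_lit 156) (nat_lit 0) (nat_lit 76) (XT.nd (nat_lit 78) (nat_lit 0) (nat_lit 0) (XT.lf (nat_lit 0) (nat_lit 16725561285)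 (nat_lit 1216) (nat_lit 6765799877) (nat_lit 1292) (nat_lit 5992413650) (nat_lit 329) (nat_lit 5) (nat_lit 345) (nat_lit 5) (nat_lit 346) (nat_lit 5) (nat_lit 469) (nat_lit 465) (nat_lit 266)) (XT.lf (nat_lit 76) (nat_lit 8371807821) (nat_lit 0) (nat_lit 9351357539) (nat_lit 1292) (nat_lit 12207020077) (nat_lit 330) (nat_lit 5) (nat_lit 329) (nat_lit 5) (nat_lit 346) (nat_lit 5) (nat_lit 470) (nat_lit 465) (nat_lit 265))) (XT.nd (nat_lit 78) (nat_lit 0) (nat_lit 0) (XT.lf (nat_lit 0) (nat_lit 18866853950) (nat_lit 1216) (nat_lit 6338403530) (nat_lit 1292) (nat_lit 5181246345) (nat_lit 330) (nat_lit 5) (nat_lit 346) (nat_lit 5) (nat_lit 347) (nat_lit 5) (nat_lit 471) (nat_lit 465) (nat_lit 264)) (XT.lf (nat_lit 76) (nat_lit 9427690782) (nat_lit 0) (nat_lit 10797510343) (nat_lit 1292) (nat_lit 10625900333) (nat_lit 331) (nat_lit 5) (nat_lit 330) (nat_lit 5) (nat_lit 347) (nat_lit 5) (nat_lit 472) (nat_lit 465) (nat_lit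 263))))) (XT.nd (nat_lit 312) (nat_lit 1140) (nat_lit 0) (XT.nd (nat_lit 156) (nat_lit 0) (nat_lit 76) (XT.nd (nat_lit 78) (nat_lit 0) (nat_lit 0) (XT.lf (nat_lit 0) (nat_lit 21725007004) (nat_lit 1216) (nat_lit 5572444847) (nat_lit 1292) (nat_lit 4029164048) (nat_lit 331) (nat_lit 5) (nat_lit 347) (nat_lit 5) (nat_lit 348) (nat_lit 5) (nat_lit 473) (nat_lit 465) (nat_lit 262)) (XT.lf (nat_lit 76) (nat_lit 10857127353) (nat_lit 0) (nat_lit 12621242784) (nat_lit 1292) (nat_lit 8331768869) (nat_lit 332) (nat_lit 5) (nat_lit 331) (nat_lit 5) (nat_lit 348) (nat_lit 5) (nat_lit 474) (nat_lit 465) (nat_lit 261))) (XT.nd (nat_lit 78) (nat_lit 0) (nat_lit 0) (XT.lf (nat_lit 0) (nat_lit 25362508222) (nat_lit 1216) (nat_lit 4439153253) (nat_lit 1292) (nat_lit 2504161229) (nat_lit 332) (nat_lit 5) (nat_lit 348) (nat_lit 5) (nat_lit 349) (nat_lit 5) (nat_lit 475) (nat_lit 465) (nat_lit 260)) (XT.lf (nat_lit 76) (nat_lit 12690913317)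 (nat_lit 0) (nat_lit 14856649900) (nat_lit 1292) (nat_lit 5261482030) (nat_lit 333) (nat_lit 5) (nat_lit 332) (nat_lit 5) (nat_lit 349) (nat_lit 5) (nat_lit 476) (nat_lit 465) (nat_lit 259)))) (XT.nd (nat_lit 156) (nat_lit 1292) (nat_lit 0) (XT.nd (nat_lit 78) (nat_lit 0) (nat_lit 0) (XT.lf (nat_lit 0) (nat_lit 29846099540) (nat_lit 1216) (nat_lit 2907695601) (nat_lit 1292) (nat_lit 572131549) (nat_lit 333) (nat_lit 5) (nat_lit 349) (nat_lit 5) (nat_lit 350) (nat_lit 5) (nat_lit 477) (nat_lit 465) (nat_lit 258)) (XT.lf (nat_lit 76) (nat_lit 14962025082) (nat_lit 0) (nat_lit 17540059270) (nat_lit 1292) (nat_lit 1347575562) (nat_lit 334) (nat_lit 5) (nat_lit 333) (nat_lit 5) (nat_lit 350) (nat_lit 5) (nat_lit 478) (nat_lit 465) (nat_lit 257))) (XT.nd (nat_lit 78) (nat_lit 0) (nat_lit 76) (XT.lf (nat_lit 0) (nat_lit 859337968) (nat_lit 1292) (nat_lit 971155809) (nat_lit 1368) (nat_lit 32557549097) (nat_lit 316) (nat_lit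 5) (nat_lit 333) (nat_lit 5) (nat_lit 334) (nat_lit 5) (nat_lit 479) (nat_lit 465) (nat_lit 256)) (XT.lf (nat_lit 0) (nat_lit 3414073108) (nat_lit 1292) (nat_lit 17261640467) (nat_lit 1368) (nat_lit 14257202604) (nat_lit 317) (nat_lit 5) (nat_lit 334) (nat_lit 5) (nat_lit 335) (nat_lit 5) (nat_lit 480) (nat_lit 465) (nat_lit 255))))))) (XT.nd (nat_lit 1248) (nat_lit 3952) (nat_lit 0) (XT.nd (nat_lit 624) (nat_lit 2736) (nat_lit 0) (XT.nd (nat_lit 312) (nat_lit 1216) (nat_lit 0) (XT.nd (nat_lit 156) (nat_lit 760) (nat_lit 0) (XT.nd (nat_lit 78) (nat_lit 0) (nat_lit 76) (XT.lf (nat_lit 76) (nat_lit 1406344913) (nat_lit 0) (nat_lit 4678377339) (nat_lit 1368) (nat_lit 29408235372) (nat_lit 318) (nat_lit 5) (nat_lit 317) (nat_lit 5) (nat_lit 335) (nat_lit 5) (nat_lit 481) (nat_lit 465) (nat_lit 254)) (XT.lf (nat_lit 0) (nat_lit 9122720223) (nat_lit 1292) (nat_lit 15193473063) (nat_lit 76) (nat_lit 11744990240) (nat_lit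 318) (nat_lit 5) (nat_lit 335) (nat_lit 5) (nat_lit 319) (nat_lit 5) (nat_lit 482) (nat_lit 465) (nat_lit 253))) (XT.nd (nat_lit 78) (nat_lit 0) (nat_lit 0) (XT.lf (nat_lit 0) (nat_lit 4302173928) (nat_lit 836) (nat_lit 8035201412) (nat_lit 912) (nat_lit 24306515442) (nat_lit 307) (nat_lit 5) (nat_lit 318) (nat_lit 5) (nat_lit 319) (nat_lit 5) (nat_lit 483) (nat_lit 465) (nat_lit 252)) (XT.lf (nat_lit 0) (nat_lit 15885260322) (nat_lit 912) (nat_lit 12632776584) (nat_lit 76) (nat_lit 8718938732) (nat_lit 307) (nat_lit 5) (nat_lit 319) (nat_lit 5) (nat_lit 308) (nat_lit 5) (nat_lit 484) (nat_lit 465) (nat_lit 251)))) (XT.nd (nat_lit 156) (nat_lit 608) (nat_lit 0) (XT.nd (nat_lit 78) (nat_lit 0) (nat_lit 0) (XT.lf (nat_lit 0) (nat_lit 7736944330) (nat_lit 608) (nat_lit 11954515927) (nat_lit 684) (nat_lit 18151836517) (nat_lit 299) (nat_lit 5) (nat_lit 307) (nat_lit 5) (nat_lit 308) (nat_lit 5) (nat_lit 485) (nat_lit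 465) (nat_lit 250)) (XT.lf (nat_lit 0) (nat_lit 23787749074) (nat_lit 684) (nat_lit 9539557898) (nat_lit 76) (nat_lit 5135223572) (nat_lit 299) (nat_lit 5) (nat_lit 308) (nat_lit 5) (nat_lit 300) (nat_lit 5) (nat_lit 486) (nat_lit 465) (nat_lit 249))) (XT.nd (nat_lit 78) (nat_lit 0) (nat_lit 0) (XT.lf (nat_lit 0) (nat_lit 11753336068) (nat_lit 608) (nat_lit 16482983200) (nat_lit 684) (nat_lit 10857140359) (nat_lit 291) (nat_lit 5) (nat_lit 299) (nat_lit 5) (nat_lit 300) (nat_lit 5) (nat_lit 487) (nat_lit 465) (nat_lit 248)) (XT.lf (nat_lit 0) (nat_lit 32922052145) (nat_lit 684) (nat_lit 5871074929) (nat_lit 76) (nat_lit 947078419) (nat_lit 291) (nat_lit 5) (nat_lit 300) (nat_lit 5) (nat_lit 292) (nat_lit 5) (nat_lit 488) (nat_lit 465) (nat_lit 247))))) (XT.nd (nat_lit 312) (nat_lit 988) (nat_lit 0) (XT.nd (nat_lit 156) (nat_lit 1140) (nat_lit 0) (XT.nd (nat_lit 78) (nat_lit 76) (nat_lit 0) (XT.lf (nat_lit 0) (nat_lit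 16396934861) (nat_lit 532) (nat_lit 21670383014) (nat_lit 608) (nat_lit 2329467114) (nat_lit 284) (nat_lit 5) (nat_lit 291) (nat_lit 5) (nat_lit 292) (nat_lit 5) (nat_lit 489) (nat_lit 465) (nat_lit 246)) (XT.lf (nat_lit 0) (nat_lit 2307154915) (nat_lit 608) (nat_lit 1642478153) (nat_lit 76) (nat_lit 37121026257) (nat_lit 283) (nat_lit 5) (nat_lit 291) (nat_lit 5) (nat_lit 284) (nat_lit 5) (nat_lit 490) (nat_lit 465) (nat_lit 245))) (XT.nd (nat_lit 78) (nat_lit 532) (nat_lit 0) (XT.lf (nat_lit 0) (nat_lit 7383479530) (nat_lit 684) (nat_lit 20111784677) (nat_lit 76) (nat_lit 14258371116) (nat_lit 275) (nat_lit 5) (nat_lit 284) (nat_lit 5) (nat_lit 276) (nat_lit 5) (nat_lit 491) (nat_lit 465) (nat_lit 244)) (XT.lf (nat_lit 0) (nat_lit 3223536217) (nat_lit 532) (nat_lit 9473650508) (nat_lit 608) (nat_lit 29757361159) (nat_lit 268) (nat_lit 5) (nat_lit 275) (nat_lit 5) (nat_lit 276) (nat_lit 5) (nat_lit 492) (nat_lit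 465) (nat_lit 243)))) (XT.nd (nat_lit 156) (nat_lit 456) (nat_lit 0) (XT.nd (nat_lit 78) (nat_lit 532) (nat_lit 0) (XT.lf (nat_lit 0) (nat_lit 18461053538) (nat_lit 608) (nat_lit 15590487034) (nat_lit 76) (nat_lit 9116224866) (nat_lit 268) (nat_lit 5) (nat_lit 276) (nat_lit 5) (nat_lit 269) (nat_lit 5) (nat_lit 493) (nat_lit 465) (nat_lit 242)) (XT.lf (nat_lit 0) (nat_lit 8836028608) (nat_lit 532) (nat_lit 15738876323) (nat_lit 608) (nat_lit 19322162594) (nat_lit 261) (nat_lit 5) (nat_lit 268) (nat_lit 5) (nat_lit 269) (nat_lit 5) (nat_lit 494) (nat_lit 465) (nat_lit 241))) (XT.nd (nat_lit 78) (nat_lit 456) (nat_lit 0) (XT.lf (nat_lit 0) (nat_lit 31059547599) (nat_lit 608) (nat_lit 10362054911) (nat_lit 76) (nat_lit 3221024956) (nat_lit 261) (nat_lit 5) (nat_lit 269) (nat_lit 5) (nat_lit 262) (nat_lit 5) (nat_lit 495) (nat_lit 465) (nat_lit 240)) (XT.lf (nat_lit 0) (nat_lit 15217186875) (nat_lit 456) (nat_lit 22822059590)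 (nat_lit 532) (nat_lit 7362292294) (nat_lit 255) (nat_lit 5) (nat_lit 261) (nat_lit 5) (nat_lit 262) (nat_lit 5) (nat_lit 496) (nat_lit 465) (nat_lit 239)))))) (XT.nd (nat_lit 624) (nat_lit 2052) (nat_lit 0) (XT.nd (nat_lit 312) (nat_lit 912) (nat_lit 0) (XT.nd (nat_lit 156) (nat_lit 456) (nat_lit 0) (XT.nd (nat_lit 78) (nat_lit 532) (nat_lit 0) (XT.lf (nat_lit 0) (nat_lit 41774412352) (nat_lit 456) (nat_lit 3556998900) (nat_lit 532) (nat_lit 848713949) (nat_lit 255) (nat_lit 5) (nat_lit 261) (nat_lit 5) (nat_lit 262) (nat_lit 5) (nat_lit 497) (nat_lit 465) (nat_lit 238)) (XT.lf (nat_lit 0) (nat_lit 6120186861) (nat_lit 532) (nat_lit 24605411992) (nat_lit 76) (nat_lit 16243552360) (nat_lit 248) (nat_lit 5) (nat_lit 255) (nat_lit 5) (nat_lit 249) (nat_lit 5) (nat_lit 498) (nat_lit 465) (nat_lit 237))) (XT.nd (nat_lit 78) (nat_lit 0) (nat_lit 0) (XT.lf (nat_lit 0) (nat_lit 2243992671) (nat_lit 456) (nat_lit 11137315731)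 (nat_lit 532) (nat_lit 34397281204) (nat_lit 242) (nat_lit 5) (nat_lit 248) (nat_lit 5) (nat_lit 249) (nat_lit 5) (nat_lit 499) (nat_lit 465) (nat_lit 236)) (XT.lf (nat_lit 0) (nat_lit 21196592453) (nat_lit 532) (nat_lit 18292767954) (nat_lit 76) (nat_lit 9112860930) (nat_lit 242) (nat_lit 5) (nat_lit 249) (nat_lit 5) (nat_lit 243) (nat_lit 5) (nat_lit 500) (nat_lit 465) (nat_lit 235)))) (XT.nd (nat_lit 156) (nat_lit 456) (nat_lit 0) (XT.nd (nat_lit 78) (nat_lit 0) (nat_lit 0) (XT.lf (nat_lit 0) (nat_lit 9846405320) (nat_lit 456) (nat_lit 19603410683) (nat_lit 532) (nat_lit 19994641639) (nat_lit 236) (nat_lit 5) (nat_lit 242) (nat_lit 5) (nat_lit 243) (nat_lit 5) (nat_lit 501) (nat_lit 465) (nat_lit 234)) (XT.lf (nat_lit 0) (nat_lit 38144219386) (nat_lit 532) (nat_lit 11113761989) (nat_lit 76) (nat_lit 1048172217) (nat_lit 236) (nat_lit 5) (nat_lit 243) (nat_lit 5) (nat_lit 237) (nat_lit 5) (nat_lit 502) (nat_lit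 465) (nat_lit 233))) (XT.nd (nat_lit 78) (nat_lit 76) (nat_lit 0) (XT.lf (nat_lit 0) (nat_lit 18388032417) (nat_lit 380) (nat_lit 29080896430) (nat_lit 456) (nat_lit 3713687403) (nat_lit 231) (nat_lit 5) (nat_lit 236) (nat_lit 5) (nat_lit 237) (nat_lit 5) (nat_lit 503) (nat_lit 465) (nat_lit 232)) (XT.lf (nat_lit 0) (nat_lit 5002644981) (nat_lit 456) (nat_lit 3130121324) (nat_lit 76) (nat_lit 43947808930) (nat_lit 230) (nat_lit 5) (nat_lit 236) (nat_lit 5) (nat_lit 231) (nat_lit 5) (nat_lit 504) (nat_lit 465) (nat_lit 231))))) (XT.nd (nat_lit 312) (nat_lit 836) (nat_lit 0) (XT.nd (nat_lit 156) (nat_lit 380) (nat_lit 0) (XT.nd (nat_lit 78) (nat_lit 380) (nat_lit 0) (XT.lf (nat_lit 0) (nat_lit 14305236498) (nat_lit 532) (nat_lit 25197774017) (nat_lit 76) (nat_lit 13489377125) (nat_lit 224) (nat_lit 5) (nat_lit 231) (nat_lit 5) (nat_lit 225) (nat_lit 5) (nat_lit 505) (nat_lit 465) (nat_lit 230)) (XT.lf (nat_lit 0)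 (nat_lit 5811490788) (nat_lit 380) (nat_lit 18242414309) (nat_lit 456) (nat_lit 29872639382) (nat_lit 219) (nat_lit 5) (nat_lit 224) (nat_lit 5) (nat_lit 225) (nat_lit 5) (nat_lit 506) (nat_lit 465) (nat_lit 229))) (XT.nd (nat_lit 78) (nat_lit 380) (nat_lit 0) (XT.lf (nat_lit 0) (nat_lit 34385854713) (nat_lit 456) (nat_lit 16652935817) (nat_lit 76) (nat_lit 3841210908) (nat_lit 219) (nat_lit 5) (nat_lit 225) (nat_lit 5) (nat_lit 220) (nat_lit 5) (nat_lit 507) (nat_lit 465) (nat_lit 228)) (XT.lf (nat_lit 0) (nat_lit 15880623125) (nat_lit 380) (nat_lit 29479159349) (nat_lit 456) (nat_lit 10492319081) (nat_lit 214) (nat_lit 5) (nat_lit 219) (nat_lit 5) (nat_lit 220) (nat_lit 5) (nat_lit 508) (nat_lit 465) (nat_lit 227)))) (XT.nd (nat_lit 156) (nat_lit 380) (nat_lit 0) (XT.nd (nat_lit 78) (nat_lit 456) (nat_lit 0) (XT.lf (nat_lit 0) (nat_lit 49729881625) (nat_lit 380) (nat_lit 7099976243) (nat_lit 456) (nat_lit 18498953)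 (nat_lit 214) (nat_lit 5) (nat_lit 219) (nat_lit 5) (nat_lit 220) (nat_lit 5) (nat_lit 509) (nat_lit 465) (nat_lit 226)) (XT.lf (nat_lit 0) (nat_lit 10976036924) (nat_lit 456) (nat_lit 30875900360) (nat_lit 76) (nat_lit 16006957190) (nat_lit 208) (nat_lit 5) (nat_lit 214) (nat_lit 5) (nat_lit 209) (nat_lit 5) (nat_lit 510) (nat_lit 465) (nat_lit 225))) (XT.nd (nat_lit 78) (nat_lit 0) (nat_lit 0) (XT.lf (nat_lit 0) (nat_lit 3348317004) (nat_lit 380) (nat_lit 19125604269) (nat_lit 456) (nat_lit 36420604998) (nat_lit 203) (nat_lit 5) (nat_lit 208) (nat_lit 5) (nat_lit 209) (nat_lit 5) (nat_lit 511) (nat_lit 465) (nat_lit 224)) (XT.lf (nat_lit 0) (nat_lit 34671602684) (nat_lit 456) (nat_lit 20765620938) (nat_lit 76) (nat_lit 4513357619) (nat_lit 203) (nat_lit 5) (nat_lit 209) (nat_lit 5) (nat_lit 204) (nat_lit 5) (nat_lit 512) (nat_lit 465) (nat_lit 223))))))))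
noncomputable def xc218 : XT := (XT.nd (nat_lit 2418) (nat_lit 304) (nat_lit 0) (XT.nd (nat_lit 1170) (nat_lit 2356) (nat_lit 0) (XT.nd (nat_lit 546) (nat_lit 1444) (nat_lit 0) (XT.nd (nat_lit 234) (nat_lit 684) (nat_lit 0) (XT.nd (nat_lit 78) (nat_lit 380) (nat_lit 0) (XT.lf (nat_lit 0) (nat_lit 15163280914) (nat_lit 304) (nat_lit 32405910402) (nat_lit 380) (nat_lit 13459107274) (nat_lit 199) (nat_lit 5) (nat_lit 203) (nat_lit 5) (nat_lit 204) (nat_lit 5) (nat_lit 513) (nat_lit 465) (nat_lit 222)) (XT.nd (nat_lit 78) (nat_lit 380) (nat_lit 0) (XT.lf (nat_lit 0) (nat_lit 52594108758) (nat_lit 304) (nat_lit 8468164331) (nat_lit 380) (nat_lit 1069817439) (nat_lit 199) (nat_lit 5) (nat_lit 203) (nat_lit 5) (nat_lit 204) (nat_lit 5) (nat_lit 514) (nat_lit 465) (nat_lit 221)) (XT.lf (nat_lit 0) (nat_lit 11893524155) (nat_lit 380) (nat_lit 35099433489) (nat_lit 76) (nat_lit 16259751852) (nat_lit 194) (nat_lit 5) (nat_lit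 199) (nat_lit 5) (nat_lit 195) (nat_lit 5) (nat_lit 515) (nat_lit 465) (nat_lit 220)))) (XT.nd (nat_lit 156) (nat_lit 380) (nat_lit 0) (XT.nd (nat_lit 78) (nat_lit 0) (nat_lit 0) (XT.lf (nat_lit 0) (nat_lit 2722873955) (nat_lit 304) (nat_lit 22707583161) (nat_lit 380) (nat_lit 38969986376) (nat_lit 190) (nat_lit 5) (nat_lit 194) (nat_lit 5) (nat_lit 195) (nat_lit 5) (nat_lit 516) (nat_lit 465) (nat_lit 219)) (XT.lf (nat_lit 0) (nat_lit 39752532212) (nat_lit 380) (nat_lit 23199916100) (nat_lit 76) (nat_lit 2618790201) (nat_lit 190) (nat_lit 5) (nat_lit 195) (nat_lit 5) (nat_lit 191) (nat_lit 5) (nat_lit 517) (nat_lit 465) (nat_lit 218))) (XT.nd (nat_lit 78) (nat_lit 76) (nat_lit 0) (XT.lf (nat_lit 0) (nat_lit 16528196139) (nat_lit 304) (nat_lit 38358730940) (nat_lit 380) (nat_lit 11878750608) (nat_lit 186) (nat_lit 5) (nat_lit 190) (nat_lit 5) (nat_lit 191) (nat_lit 5) (nat_lit 518) (nat_lit 465) (nat_lit 217)) (XT.lf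 (nat_lit 0) (nat_lit 2666571065) (nat_lit 380) (nat_lit 10092920946) (nat_lit 76) (nat_lit 55228676564) (nat_lit 185) (nat_lit 5) (nat_lit 190) (nat_lit 5) (nat_lit 186) (nat_lit 5) (nat_lit 519) (nat_lit 465) (nat_lit 216))))) (XT.nd (nat_lit 312) (nat_lit 608) (nat_lit 0) (XT.nd (nat_lit 156) (nat_lit 228) (nat_lit 0) (XT.nd (nat_lit 78) (nat_lit 304) (nat_lit 0) (XT.lf (nat_lit 0) (nat_lit 17848738688) (nat_lit 380) (nat_lit 37613144370) (nat_lit 76) (nat_lit 13768745693) (nat_lit 181) (nat_lit 5) (nat_lit 186) (nat_lit 5) (nat_lit 182) (nat_lit 5) (nat_lit 520) (nat_lit 465) (nat_lit 215)) (XT.lf (nat_lit 0) (nat_lit 4232504848) (nat_lit 304) (nat_lit 29522807970) (nat_lit 380) (nat_lit 36746981694) (nat_lit 177) (nat_lit 5) (nat_lit 181) (nat_lit 5) (nat_lit 182) (nat_lit 5) (nat_lit 521) (nat_lit 465) (nat_lit 214))) (XT.nd (nat_lit 78) (nat_lit 228) (nat_lit 0) (XT.lf (nat_lit 0) (nat_lit 48103033653) (nat_lit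 304) (nat_lit 2414880758) (nat_lit 380) (nat_lit 21282830953) (nat_lit 177) (nat_lit 5) (nat_lit 181) (nat_lit 5) (nat_lit 182) (nat_lit 5) (nat_lit 522) (nat_lit 465) (nat_lit 213)) (XT.lf (nat_lit 0) (nat_lit 20300990035) (nat_lit 228) (nat_lit 47921766609) (nat_lit 304) (nat_lit 4902212243) (nat_lit 174) (nat_lit 5) (nat_lit 177) (nat_lit 5) (nat_lit 178) (nat_lit 5) (nat_lit 523) (nat_lit 465) (nat_lit 212)))) (XT.nd (nat_lit 156) (nat_lit 228) (nat_lit 0) (XT.nd (nat_lit 78) (nat_lit 304) (nat_lit 0) (XT.lf (nat_lit 0) (nat_lit 12000869490) (nat_lit 304) (nat_lit 8519154100) (nat_lit 76) (nat_lit 53957505145) (nat_lit 173) (nat_lit 5) (nat_lit 177) (nat_lit 5) (nat_lit 174) (nat_lit 5) (nat_lit 524) (nat_lit 465) (nat_lit 211)) (XT.lf (nat_lit 0) (nat_lit 29753088672) (nat_lit 380) (nat_lit 38133983876) (nat_lit 76) (nat_lit 7968919510) (nat_lit 169) (nat_lit 5) (nat_lit 174) (nat_lit 5) (nat_lit 170) (nat_lit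 5) (nat_lit 525) (nat_lit 465) (nat_lit 210))) (XT.nd (nat_lit 78) (nat_lit 0) (nat_lit 0) (XT.lf (nat_lit 0) (nat_lit 8206457719) (nat_lit 228) (nat_lit 40199424812) (nat_lit 304) (nat_lit 28858886529) (nat_lit 166) (nat_lit 5) (nat_lit 169) (nat_lit 5) (nat_lit 170) (nat_lit 5) (nat_lit 526) (nat_lit 465) (nat_lit 209)) (XT.lf (nat_lit 0) (nat_lit 56717365572) (nat_lit 228) (nat_lit 11285061580) (nat_lit 304) (nat_lit 10701857230) (nat_lit 166) (nat_lit 5) (nat_lit 169) (nat_lit 5) (nat_lit 170) (nat_lit 5) (nat_lit 527) (nat_lit 465) (nat_lit 208)))))) (XT.nd (nat_lit 624) (nat_lit 1064) (nat_lit 0) (XT.nd (nat_lit 312) (nat_lit 532) (nat_lit 0) (XT.nd (nat_lit 156) (nat_lit 456) (nat_lit 0) (XT.nd (nat_lit 78) (nat_lit 0) (nat_lit 0) (XT.lf (nat_lit 0) (nat_lit 8283007957) (nat_lit 304) (nat_lit 53413997711) (nat_lit 76) (nat_lit 18474495577) (nat_lit 162) (nat_lit 5) (nat_lit 166) (nat_lit 5) (nat_lit 163)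 (nat_lit 5) (nat_lit 528) (nat_lit 465) (nat_lit 207)) (XT.lf (nat_lit 0) (nat_lit 27957392183) (nat_lit 304) (nat_lit 4482434503) (nat_lit 76) (nat_lit 49229677083) (nat_lit 162) (nat_lit 5) (nat_lit 166) (nat_lit 5) (nat_lit 163) (nat_lit 5) (nat_lit 529) (nat_lit 465) (nat_lit 206))) (XT.nd (nat_lit 78) (nat_lit 228) (nat_lit 0) (XT.lf (nat_lit 0) (nat_lit 46829490613) (nat_lit 228) (nat_lit 1841810354) (nat_lit 304) (nat_lit 34527666629) (nat_lit 159) (nat_lit 5) (nat_lit 162) (nat_lit 5) (nat_lit 163) (nat_lit 5) (nat_lit 530) (nat_lit 465) (nat_lit 205)) (XT.lf (nat_lit 0) (nat_lit 15005413356) (nat_lit 228) (nat_lit 55475558830) (nat_lit 304) (nat_lit 14279112813) (nat_lit 156) (nat_lit 5) (nat_lit 159) (nat_lit 5) (nat_lit 160) (nat_lit 5) (nat_lit 531) (nat_lit 465) (nat_lit 204)))) (XT.nd (nat_lit 156) (nat_lit 228) (nat_lit 0) (XT.nd (nat_lit 78) (nat_lit 228) (nat_lit 0) (XT.lf (nat_lit 0) (nat_lit 6836840157)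 (nat_lit 304) (nat_lit 17776429099) (nat_lit 76) (nat_lit 61741221606) (nat_lit 155) (nat_lit 5) (nat_lit 159) (nat_lit 5) (nat_lit 156) (nat_lit 5) (nat_lit 532) (nat_lit 465) (nat_lit 203)) (XT.lf (nat_lit 0) (nat_lit 28721471188) (nat_lit 304) (nat_lit 51728563982) (nat_lit 76) (nat_lit 7529786560) (nat_lit 152) (nat_lit 5) (nat_lit 156) (nat_lit 5) (nat_lit 153) (nat_lit 5) (nat_lit 533) (nat_lit 465) (nat_lit 202))) (XT.nd (nat_lit 78) (nat_lit 0) (nat_lit 0) (XT.lf (nat_lit 0) (nat_lit 2415946241) (nat_lit 228) (nat_lit 49294078361) (nat_lit 304) (nat_lit 37930466436) (nat_lit 149) (nat_lit 5) (nat_lit 152) (nat_lit 5) (nat_lit 153) (nat_lit 5) (nat_lit 534) (nat_lit 465) (nat_lit 201)) (XT.lf (nat_lit 0) (nat_lit 59243818273) (nat_lit 228) (nat_lit 16665964032) (nat_lit 304) (nat_lit 15425551703) (nat_lit 149) (nat_lit 5) (nat_lit 152) (nat_lit 5) (nat_lit 153) (nat_lit 5) (nat_lit 535) (nat_lit 465) (nat_lit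 200))))) (XT.nd (nat_lit 312) (nat_lit 456) (nat_lit 0) (XT.nd (nat_lit 156) (nat_lit 380) (nat_lit 0) (XT.nd (nat_lit 78) (nat_lit 0) (nat_lit 0) (XT.lf (nat_lit 0) (nat_lit 8009737164) (nat_lit 228) (nat_lit 68127931221) (nat_lit 76) (nat_lit 16928921311) (nat_lit 146) (nat_lit 5) (nat_lit 149) (nat_lit 5) (nat_lit 147) (nat_lit 5) (nat_lit 536) (nat_lit 465) (nat_lit 199)) (XT.lf (nat_lit 0) (nat_lit 32329537475) (nat_lit 228) (nat_lit 10824764839) (nat_lit 76) (nat_lit 51676154175) (nat_lit 146) (nat_lit 5) (nat_lit 149) (nat_lit 5) (nat_lit 147) (nat_lit 5) (nat_lit 537) (nat_lit 465) (nat_lit 198))) (XT.nd (nat_lit 78) (nat_lit 152) (nat_lit 0) (XT.lf (nat_lit 0) (nat_lit 49155394512) (nat_lit 228) (nat_lit 8695283602) (nat_lit 304) (nat_lit 38782408794) (nat_lit 143) (nat_lit 5) (nat_lit 146) (nat_lit 5) (nat_lit 147) (nat_lit 5) (nat_lit 538) (nat_lit 465) (nat_lit 197)) (XT.lf (nat_lit 0) (nat_lit 12657347264)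 (nat_lit 152) (nat_lit 71969000450) (nat_lit 228) (nat_lit 13848781698) (nat_lit 141) (nat_lit 5) (nat_lit 143) (nat_lit 5) (nat_lit 144) (nat_lit 5) (nat_lit 539) (nat_lit 465) (nat_lit 196)))) (XT.nd (nat_lit 156) (nat_lit 152) (nat_lit 0) (XT.nd (nat_lit 78) (nat_lit 228) (nat_lit 0) (XT.lf (nat_lit 0) (nat_lit 12171464637) (nat_lit 228) (nat_lit 24994257306) (nat_lit 76) (nat_lit 63186213561) (nat_lit 140) (nat_lit 5) (nat_lit 143) (nat_lit 5) (nat_lit 141) (nat_lit 5) (nat_lit 540) (nat_lit 465) (nat_lit 195)) (XT.lf (nat_lit 0) (nat_lit 38262220535) (nat_lit 228) (nat_lit 798814654) (nat_lit 304) (nat_lit 63208885192) (nat_lit 137) (nat_lit 5) (nat_lit 140) (nat_lit 5) (nat_lit 141) (nat_lit 5) (nat_lit 541) (nat_lit 465) (nat_lit 194))) (XT.nd (nat_lit 78) (nat_lit 152) (nat_lit 0) (XT.lf (nat_lit 0) (nat_lit 67363842498) (nat_lit 304) (nat_lit 665285269) (nat_lit 76) (nat_lit 36198120561) (nat_lit 137) (nat_lit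 5) (nat_lit 141) (nat_lit 5) (nat_lit 138) (nat_lit 5) (nat_lit 542) (nat_lit 465) (nat_lit 193)) (XT.lf (nat_lit 0) (nat_lit 65853290590) (nat_lit 152) (nat_lit 31302663941) (nat_lit 228) (nat_lit 9068134978) (nat_lit 135) (nat_lit 5) (nat_lit 137) (nat_lit 5) (nat_lit 138) (nat_lit 5) (nat_lit 543) (nat_lit 465) (nat_lit 192))))))) (XT.nd (nat_lit 57486) (nat_lit 0) (nat_lit 9880) (XT.nd (nat_lit 56862) (nat_lit 0) (nat_lit 15124) (XT.nd (nat_lit 56550) (nat_lit 0) (nat_lit 14972) (XT.nd (nat_lit 56394) (nat_lit 0) (nat_lit 14896) (XT.nd (nat_lit 78) (nat_lit 0) (nat_lit 0) (XT.lf (nat_lit 0) (nat_lit 19506561663) (nat_lit 304) (nat_lit 81907787933) (nat_lit 76) (nat_lit 6851027179) (nat_lit 131) (nat_lit 5) (nat_lit 135) (nat_lit 5) (nat_lit 132) (nat_lit 5) (nat_lit 544) (nat_lit 465) (nat_lit 191)) (XT.lf (nat_lit 0) (nat_lit 49477163326) (nat_lit 304) (nat_lit 14845272596) (nat_lit 76) (nat_lit 46021145502)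 (nat_lit 131) (nat_lit 5) (nat_lit 135) (nat_lit 5) (nat_lit 132) (nat_lit 5) (nat_lit 545) (nat_lit 465) (nat_lit 190))) (XT.nd (nat_lit 78) (nat_lit 0) (nat_lit 0) (XT.lf (nat_lit 0) (nat_lit 7481042952) (nat_lit 1292) (nat_lit 3412609283) (nat_lit 1292) (nat_lit 3412609283) (nat_lit 327) (nat_lit 3) (nat_lit 344) (nat_lit 3) (nat_lit 344) (nat_lit 5) (nat_lit 466) (nat_lit 466) (nat_lit 268)) (XT.lf (nat_lit 76) (nat_lit 7571333981) (nat_lit 0) (nat_lit 7767852350) (nat_lit 1292) (nat_lit 13697940791) (nat_lit 328) (nat_lit 5) (nat_lit 327) (nat_lit 3) (nat_lit 344) (nat_lit 5) (nat_lit 467) (nat_lit 466) (nat_lit 267)))) (XT.nd (nat_lit 156) (nat_lit 0) (nat_lit 76) (XT.nd (nat_lit 78) (nat_lit 0) (nat_lit 0) (XT.lf (nat_lit 0) (nat_lit 15858221391) (nat_lit 1216) (nat_lit 6999274038) (nat_lit 1292) (nat_lit 6613055395) (nat_lit 328) (nat_lit 5) (nat_lit 344) (nat_lit 5) (nat_lit 345) (nat_lit 5) (nat_lit 468)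 (nat_lit 466) (nat_lit 266)) (XT.lf (nat_lit 76) (nat_lit 7978321614) (nat_lit 0) (nat_lit 8565079474) (nat_lit 1292) (nat_lit 13369059081) (nat_lit 329) (nat_lit 5) (nat_lit 328) (nat_lit 5) (nat_lit 345) (nat_lit 5) (nat_lit 469) (nat_lit 466) (nat_lit 265))) (XT.nd (nat_lit 78) (nat_lit 0) (nat_lit 0) (XT.lf (nat_lit 0) (nat_lit 17376747195) (nat_lit 1216) (nat_lit 6878438980) (nat_lit 1292) (nat_lit 6108612426) (nat_lit 329) (nat_lit 5) (nat_lit 345) (nat_lit 5) (nat_lit 346) (nat_lit 5) (nat_lit 470) (nat_lit 466) (nat_lit 264)) (XT.lf (nat_lit 76) (nat_lit 8712411313) (nat_lit 0) (nat_lit 9688375908) (nat_lit 1292) (nat_lit 12422919289) (nat_lit 330) (nat_lit 5) (nat_lit 329) (nat_lit 5) (nat_lit 346) (nat_lit 5) (nat_lit 471) (nat_lit 466) (nat_lit 263))))) (XT.nd (nat_lit 312) (nat_lit 0) (nat_lit 152) (XT.nd (nat_lit 156) (nat_lit 0) (nat_lit 76) (XT.nd (nat_lit 78) (nat_lit 0) (nat_lit 0) (XT.lf (nat_lit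 0) (nat_lit 19574009086) (nat_lit 1216) (nat_lit 6436927824) (nat_lit 1292) (nat_lit 5282921056) (nat_lit 330) (nat_lit 5) (nat_lit 346) (nat_lit 5) (nat_lit 347) (nat_lit 5) (nat_lit 472) (nat_lit 466) (nat_lit 262)) (XT.lf (nat_lit 76) (nat_lit 9801251005) (nat_lit 0) (nat_lit 11168616668) (nat_lit 1292) (nat_lit 10802623214) (nat_lit 331) (nat_lit 5) (nat_lit 330) (nat_lit 5) (nat_lit 347) (nat_lit 5) (nat_lit 473) (nat_lit 466) (nat_lit 261))) (XT.nd (nat_lit 78) (nat_lit 0) (nat_lit 0) (XT.lf (nat_lit 0) (nat_lit 22510210594) (nat_lit 1216) (nat_lit 5647068049) (nat_lit 1292) (nat_lit 4105126016) (nat_lit 331) (nat_lit 5) (nat_lit 347) (nat_lit 5) (nat_lit 348) (nat_lit 5) (nat_lit 474) (nat_lit 466) (nat_lit 260)) (XT.lf (nat_lit 76) (nat_lit 11274483963) (nat_lit 0) (nat_lit 13038684593) (nat_lit 1292) (nat_lit 8447355263) (nat_lit 332) (nat_lit 5) (nat_lit 331) (nat_lit 5) (nat_lit 348) (nat_lit 5) (nat_lit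 475) (nat_lit 466) (nat_lit 259)))) (XT.nd (nat_lit 156) (nat_lit 0) (nat_lit 76) (XT.nd (nat_lit 78) (nat_lit 0) (nat_lit 0) (XT.lf (nat_lit 0) (nat_lit 26249669198) (nat_lit 1216) (nat_lit 4479186919) (nat_lit 1292) (nat_lit 2542346931) (nat_lit 332) (nat_lit 5) (nat_lit 348) (nat_lit 5) (nat_lit 349) (nat_lit 5) (nat_lit 476) (nat_lit 466) (nat_lit 258)) (XT.lf (nat_lit 76) (nat_lit 13163868502) (nat_lit 0) (nat_lit 15333615666) (nat_lit 1292) (nat_lit 5292122018) (nat_lit 333) (nat_lit 5) (nat_lit 332) (nat_lit 5) (nat_lit 349) (nat_lit 5) (nat_lit 477) (nat_lit 466) (nat_lit 257))) (XT.nd (nat_lit 78) (nat_lit 0) (nat_lit 0) (XT.lf (nat_lit 0) (nat_lit 30861087870) (nat_lit 1216) (nat_lit 2901490785) (nat_lit 1292) (nat_lit 559532241) (nat_lit 333) (nat_lit 5) (nat_lit 349) (nat_lit 5) (nat_lit 350) (nat_lit 5) (nat_lit 478) (nat_lit 466) (nat_lit 256)) (XT.lf (nat_lit 76) (nat_lit 15503405482) (nat_lit 0)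 (nat_lit 18090752448) (nat_lit 1292) (nat_lit 1267476174) (nat_lit 334) (nat_lit 5) (nat_lit 333) (nat_lit 5) (nat_lit 350) (nat_lit 5) (nat_lit 479) (nat_lit 466) (nat_lit 255)))))) (XT.nd (nat_lit 624) (nat_lit 2888) (nat_lit 0) (XT.nd (nat_lit 312) (nat_lit 1292) (nat_lit 0) (XT.nd (nat_lit 156) (nat_lit 0) (nat_lit 76) (XT.nd (nat_lit 78) (nat_lit 0) (nat_lit 76) (XT.lf (nat_lit 0) (nat_lit 999850871) (nat_lit 1292) (nat_lit 908177203) (nat_lit 1368) (nat_lit 33508209131) (nat_lit 316) (nat_lit 5) (nat_lit 333) (nat_lit 5) (nat_lit 334) (nat_lit 5) (nat_lit 480) (nat_lit 466) (nat_lit 254)) (XT.lf (nat_lit 0) (nat_lit 3628560684) (nat_lit 1292) (nat_lit 17684704191) (nat_lit 1368) (nat_lit 14664272000) (nat_lit 317) (nat_lit 5) (nat_lit 334) (nat_lit 5) (nat_lit 335) (nat_lit 5) (nat_lit 481) (nat_lit 466) (nat_lit 253))) (XT.nd (nat_lit 78) (nat_lit 0) (nat_lit 76) (XT.lf (nat_lit 76) (nat_lit 1542391481) (nat_lit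 0) (nat_lit 4834575984) (nat_lit 1368) (nat_lit 30177483094) (nat_lit 318) (nat_lit 5) (nat_lit 317) (nat_lit 5) (nat_lit 335) (nat_lit 5) (nat_lit 482) (nat_lit 466) (nat_lit 252)) (XT.lf (nat_lit 0) (nat_lit 9502762229) (nat_lit 1292) (nat_lit 15554807014) (nat_lit 76) (nat_lit 12082254426) (nat_lit 318) (nat_lit 5) (nat_lit 335) (nat_lit 5) (nat_lit 319) (nat_lit 5) (nat_lit 483) (nat_lit 466) (nat_lit 251)))) (XT.nd (nat_lit 156) (nat_lit 608) (nat_lit 0) (XT.nd (nat_lit 78) (nat_lit 0) (nat_lit 0) (XT.lf (nat_lit 0) (nat_lit 4524783208) (nat_lit 836) (nat_lit 8286875118) (nat_lit 912) (nat_lit 24928419908) (nat_lit 307) (nat_lit 5) (nat_lit 318) (nat_lit 5) (nat_lit 319) (nat_lit 5) (nat_lit 484) (nat_lit 466) (nat_lit 250)) (XT.lf (nat_lit 0) (nat_lit 16462846931) (nat_lit 912) (nat_lit 12917803186) (nat_lit 76) (nat_lit 8970399637) (nat_lit 307) (nat_lit 5) (nat_lit 319) (nat_lit 5) (nat_lit 308) (nat_lit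 5) (nat_lit 485) (nat_lit 466) (nat_lit 249))) (XT.nd (nat_lit 78) (nat_lit 0) (nat_lit 0) (XT.lf (nat_lit 0) (nat_lit 8062088211) (nat_lit 608) (nat_lit 12319096380) (nat_lit 684) (nat_lit 18594437505) (nat_lit 299) (nat_lit 5) (nat_lit 307) (nat_lit 5) (nat_lit 308) (nat_lit 5) (nat_lit 486) (nat_lit 466) (nat_lit 248)) (XT.lf (nat_lit 0) (nat_lit 24597423663) (nat_lit 684) (nat_lit 9732476403) (nat_lit 76) (nat_lit 5283621087) (nat_lit 299) (nat_lit 5) (nat_lit 308) (nat_lit 5) (nat_lit 300) (nat_lit 5) (nat_lit 487) (nat_lit 466) (nat_lit 247))))) (XT.nd (nat_lit 312) (nat_lit 1672) (nat_lit 0) (XT.nd (nat_lit 156) (nat_lit 608) (nat_lit 0) (XT.nd (nat_lit 78) (nat_lit 0) (nat_lit 0) (XT.lf (nat_lit 0) (nat_lit 12198289987) (nat_lit 608) (nat_lit 16979251393) (nat_lit 684) (nat_lit 11085894133) (nat_lit 291) (nat_lit 5) (nat_lit 299) (nat_lit 5) (nat_lit 300) (nat_lit 5) (nat_lit 488) (nat_lit 466) (nat_lit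 246)) (XT.lf (nat_lit 0) (nat_lit 34001087921) (nat_lit 684) (nat_lit 5954781121) (nat_lit 76) (nat_lit 973797579) (nat_lit 291) (nat_lit 5) (nat_lit 300) (nat_lit 5) (nat_lit 292) (nat_lit 5) (nat_lit 489) (nat_lit 466) (nat_lit 245))) (XT.nd (nat_lit 78) (nat_lit 76) (nat_lit 0) (XT.lf (nat_lit 0) (nat_lit 16980362825) (nat_lit 532) (nat_lit 22318567158) (nat_lit 608) (nat_lit 2307067078) (nat_lit 284) (nat_lit 5) (nat_lit 291) (nat_lit 5) (nat_lit 292) (nat_lit 5) (nat_lit 490) (nat_lit 466) (nat_lit 244)) (XT.lf (nat_lit 0) (nat_lit 2464217383) (nat_lit 608) (nat_lit 1601146376) (nat_lit 76) (nat_lit 38234776422) (nat_lit 283) (nat_lit 5) (nat_lit 291) (nat_lit 5) (nat_lit 284) (nat_lit 5) (nat_lit 491) (nat_lit 466) (nat_lit 243)))) (XT.nd (nat_lit 156) (nat_lit 532) (nat_lit 0) (XT.nd (nat_lit 78) (nat_lit 532) (nat_lit 0) (XT.lf (nat_lit 0) (nat_lit 7691169766) (nat_lit 684) (nat_lit 20622866739) (nat_lit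 76) (nat_lit 14689618916) (nat_lit 275) (nat_lit 5) (nat_lit 284) (nat_lit 5) (nat_lit 276) (nat_lit 5) (nat_lit 492) (nat_lit 466) (nat_lit 242)) (XT.lf (nat_lit 0) (nat_lit 3411609160) (nat_lit 532) (nat_lit 9751047024) (nat_lit 608) (nat_lit 30562988234) (nat_lit 268) (nat_lit 5) (nat_lit 275) (nat_lit 5) (nat_lit 276) (nat_lit 5) (nat_lit 493) (nat_lit 466) (nat_lit 241))) (XT.nd (nat_lit 78) (nat_lit 532) (nat_lit 0) (XT.lf (nat_lit 0) (nat_lit 19097039850) (nat_lit 608) (nat_lit 15967093617) (nat_lit 76) (nat_lit 9396197101) (nat_lit 268) (nat_lit 5) (nat_lit 276) (nat_lit 5) (nat_lit 269) (nat_lit 5) (nat_lit 494) (nat_lit 466) (nat_lit 240)) (XT.lf (nat_lit 0) (nat_lit 9191324278) (nat_lit 532) (nat_lit 16201456851) (nat_lit 608) (nat_lit 19818776451) (nat_lit 261) (nat_lit 5) (nat_lit 268) (nat_lit 5) (nat_lit 269) (nat_lit 5) (nat_lit 495) (nat_lit 466) (nat_lit 239))))))))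
noncomputable def xc219 : XT := (XT.nd (nat_lit 2418) (nat_lit 2888) (nat_lit 0) (XT.nd (nat_lit 1170) (nat_lit 3344) (nat_lit 0) (XT.nd (nat_lit 546) (nat_lit 1748) (nat_lit 0) (XT.nd (nat_lit 234) (nat_lit 1444) (nat_lit 0) (XT.nd (nat_lit 78) (nat_lit 456) (nat_lit 0) (XT.lf (nat_lit 0) (nat_lit 32069704119) (nat_lit 608) (nat_lit 10583067395) (nat_lit 76) (nat_lit 3326780665) (nat_lit 261) (nat_lit 5) (nat_lit 269) (nat_lit 5) (nat_lit 262) (nat_lit 5) (nat_lit 496) (nat_lit 466) (nat_lit 238)) (XT.nd (nat_lit 78) (nat_lit 0) (nat_lit 0) (XT.lf (nat_lit 0) (nat_lit 15762670770) (nat_lit 456) (nat_lit 23494695774) (nat_lit 532) (nat_lit 7503907176) (nat_lit 255) (nat_lit 5) (nat_lit 261) (nat_lit 5) (nat_lit 262) (nat_lit 5) (nat_lit 497) (nat_lit 466) (nat_lit 237)) (XT.lf (nat_lit 0) (nat_lit 43114021703) (nat_lit 456) (nat_lit 3652033523) (nat_lit 532) (nat_lit 797229846) (nat_lit 255) (nat_lit 5) (nat_lit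 261) (nat_lit 5) (nat_lit 262) (nat_lit 5) (nat_lit 498) (nat_lit 466) (nat_lit 236)))) (XT.nd (nat_lit 156) (nat_lit 456) (nat_lit 0) (XT.nd (nat_lit 78) (nat_lit 456) (nat_lit 0) (XT.lf (nat_lit 0) (nat_lit 6377999945) (nat_lit 532) (nat_lit 25254453901) (nat_lit 76) (nat_lit 16743543006) (nat_lit 248) (nat_lit 5) (nat_lit 255) (nat_lit 5) (nat_lit 249) (nat_lit 5) (nat_lit 499) (nat_lit 466) (nat_lit 235)) (XT.lf (nat_lit 0) (nat_lit 2399559171) (nat_lit 456) (nat_lit 11456082858) (nat_lit 532) (nat_lit 35354115838) (nat_lit 242) (nat_lit 5) (nat_lit 248) (nat_lit 5) (nat_lit 249) (nat_lit 5) (nat_lit 500) (nat_lit 466) (nat_lit 234))) (XT.nd (nat_lit 78) (nat_lit 456) (nat_lit 0) (XT.lf (nat_lit 0) (nat_lit 21903404743) (nat_lit 532) (nat_lit 18753892186) (nat_lit 76) (nat_lit 9400861093) (nat_lit 242) (nat_lit 5) (nat_lit 249) (nat_lit 5) (nat_lit 243) (nat_lit 5) (nat_lit 501) (nat_lit 466) (nat_lit 233))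 (XT.lf (nat_lit 0) (nat_lit 10228596887) (nat_lit 456) (nat_lit 20174397012) (nat_lit 532) (nat_lit 20522704525) (nat_lit 236) (nat_lit 5) (nat_lit 242) (nat_lit 5) (nat_lit 243) (nat_lit 5) (nat_lit 502) (nat_lit 466) (nat_lit 232))))) (XT.nd (nat_lit 312) (nat_lit 836) (nat_lit 0) (XT.nd (nat_lit 156) (nat_lit 532) (nat_lit 0) (XT.nd (nat_lit 78) (nat_lit 380) (nat_lit 0) (XT.lf (nat_lit 0) (nat_lit 39356359506) (nat_lit 532) (nat_lit 11361031328) (nat_lit 76) (nat_lit 1095910585) (nat_lit 236) (nat_lit 5) (nat_lit 243) (nat_lit 5) (nat_lit 237) (nat_lit 5) (nat_lit 503) (nat_lit 466) (nat_lit 231)) (XT.lf (nat_lit 0) (nat_lit 19024972366) (nat_lit 380) (nat_lit 29934682679) (nat_lit 456) (nat_lit 3756437637) (nat_lit 231) (nat_lit 5) (nat_lit 236) (nat_lit 5) (nat_lit 237) (nat_lit 5) (nat_lit 504) (nat_lit 466) (nat_lit 230))) (XT.nd (nat_lit 78) (nat_lit 456) (nat_lit 0) (XT.lf (nat_lit 0) (nat_lit 5218084113)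 (nat_lit 456) (nat_lit 3139907462) (nat_lit 76) (nat_lit 45283037949) (nat_lit 230) (nat_lit 5) (nat_lit 236) (nat_lit 5) (nat_lit 231) (nat_lit 5) (nat_lit 505) (nat_lit 466) (nat_lit 229)) (XT.lf (nat_lit 0) (nat_lit 14798833341) (nat_lit 532) (nat_lit 25868667590) (nat_lit 76) (nat_lit 13912723035) (nat_lit 224) (nat_lit 5) (nat_lit 231) (nat_lit 5) (nat_lit 225) (nat_lit 5) (nat_lit 506) (nat_lit 466) (nat_lit 228)))) (XT.nd (nat_lit 156) (nat_lit 456) (nat_lit 0) (XT.nd (nat_lit 78) (nat_lit 0) (nat_lit 0) (XT.lf (nat_lit 0) (nat_lit 6070041437) (nat_lit 380) (nat_lit 18768853114) (nat_lit 456) (nat_lit 30703543045) (nat_lit 219) (nat_lit 5) (nat_lit 224) (nat_lit 5) (nat_lit 225) (nat_lit 5) (nat_lit 507) (nat_lit 466) (nat_lit 227)) (XT.lf (nat_lit 0) (nat_lit 35479151293) (nat_lit 456) (nat_lit 17069117214) (nat_lit 76) (nat_lit 3976279357) (nat_lit 219) (nat_lit 5) (nat_lit 225) (nat_lit 5) (nat_lit 220)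 (nat_lit 5) (nat_lit 508) (nat_lit 466) (nat_lit 226))) (XT.nd (nat_lit 78) (nat_lit 76) (nat_lit 0) (XT.lf (nat_lit 0) (nat_lit 16439630783) (nat_lit 380) (nat_lit 30341662302) (nat_lit 456) (nat_lit 10744548072) (nat_lit 214) (nat_lit 5) (nat_lit 219) (nat_lit 5) (nat_lit 220) (nat_lit 5) (nat_lit 509) (nat_lit 466) (nat_lit 225)) (XT.lf (nat_lit 0) (nat_lit 40852053) (nat_lit 456) (nat_lit 7250476167) (nat_lit 76) (nat_lit 51260696955) (nat_lit 213) (nat_lit 5) (nat_lit 219) (nat_lit 5) (nat_lit 214) (nat_lit 5) (nat_lit 510) (nat_lit 466) (nat_lit 224)))))) (XT.nd (nat_lit 624) (nat_lit 1596) (nat_lit 0) (XT.nd (nat_lit 312) (nat_lit 684) (nat_lit 0) (XT.nd (nat_lit 156) (nat_lit 304) (nat_lit 0) (XT.nd (nat_lit 78) (nat_lit 380) (nat_lit 0) (XT.lf (nat_lit 0) (nat_lit 11364104158) (nat_lit 456) (nat_lit 31720057437) (nat_lit 76) (nat_lit 16508734361) (nat_lit 208) (nat_lit 5) (nat_lit 214) (nat_lit 5) (nat_lit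 209) (nat_lit 5) (nat_lit 511) (nat_lit 466) (nat_lit 223)) (XT.lf (nat_lit 0) (nat_lit 3530081350) (nat_lit 380) (nat_lit 19675913118) (nat_lit 456) (nat_lit 37453630208) (nat_lit 203) (nat_lit 5) (nat_lit 208) (nat_lit 5) (nat_lit 209) (nat_lit 5) (nat_lit 512) (nat_lit 466) (nat_lit 222))) (XT.nd (nat_lit 78) (nat_lit 304) (nat_lit 0) (XT.lf (nat_lit 0) (nat_lit 35768140146) (nat_lit 456) (nat_lit 21308175281) (nat_lit 76) (nat_lit 4671089905) (nat_lit 203) (nat_lit 5) (nat_lit 209) (nat_lit 5) (nat_lit 204) (nat_lit 5) (nat_lit 513) (nat_lit 466) (nat_lit 221)) (XT.lf (nat_lit 0) (nat_lit 15697805252) (nat_lit 304) (nat_lit 33353974189) (nat_lit 380) (nat_lit 13805701119) (nat_lit 199) (nat_lit 5) (nat_lit 203) (nat_lit 5) (nat_lit 204) (nat_lit 5) (nat_lit 514) (nat_lit 466) (nat_lit 220)))) (XT.nd (nat_lit 156) (nat_lit 304) (nat_lit 0) (XT.nd (nat_lit 78) (nat_lit 380) (nat_lit 0) (XT.lf (nat_lit 0) (nat_lit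 54249238730) (nat_lit 304) (nat_lit 8698798072) (nat_lit 380) (nat_lit 1046398007) (nat_lit 199) (nat_lit 5) (nat_lit 203) (nat_lit 5) (nat_lit 204) (nat_lit 5) (nat_lit 515) (nat_lit 466) (nat_lit 219)) (XT.lf (nat_lit 0) (nat_lit 12304152363) (nat_lit 380) (nat_lit 36073415308) (nat_lit 76) (nat_lit 16771106955) (nat_lit 194) (nat_lit 5) (nat_lit 199) (nat_lit 5) (nat_lit 195) (nat_lit 5) (nat_lit 516) (nat_lit 466) (nat_lit 218))) (XT.nd (nat_lit 78) (nat_lit 0) (nat_lit 0) (XT.lf (nat_lit 0) (nat_lit 2882786838) (nat_lit 304) (nat_lit 23363590793) (nat_lit 380) (nat_lit 40084487525) (nat_lit 190) (nat_lit 5) (nat_lit 194) (nat_lit 5) (nat_lit 195) (nat_lit 5) (nat_lit 517) (nat_lit 466) (nat_lit 217)) (XT.lf (nat_lit 0) (nat_lit 40996806459) (nat_lit 380) (nat_lit 23818655451) (nat_lit 76) (nat_lit 2721361415) (nat_lit 190) (nat_lit 5) (nat_lit 195) (nat_lit 5) (nat_lit 191) (nat_lit 5) (nat_lit 518) (nat_lit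 466) (nat_lit 216))))) (XT.nd (nat_lit 312) (nat_lit 608) (nat_lit 0) (XT.nd (nat_lit 156) (nat_lit 608) (nat_lit 0) (XT.nd (nat_lit 78) (nat_lit 76) (nat_lit 0) (XT.lf (nat_lit 0) (nat_lit 17100542722) (nat_lit 304) (nat_lit 39483920046) (nat_lit 380) (nat_lit 12182656059) (nat_lit 186) (nat_lit 5) (nat_lit 190) (nat_lit 5) (nat_lit 191) (nat_lit 5) (nat_lit 519) (nat_lit 466) (nat_lit 215)) (XT.lf (nat_lit 0) (nat_lit 2796503578) (nat_lit 380) (nat_lit 10320440962) (nat_lit 76) (nat_lit 56909369754) (nat_lit 185) (nat_lit 5) (nat_lit 190) (nat_lit 5) (nat_lit 186) (nat_lit 5) (nat_lit 520) (nat_lit 466) (nat_lit 214))) (XT.nd (nat_lit 78) (nat_lit 304) (nat_lit 0) (XT.lf (nat_lit 0) (nat_lit 18433641735) (nat_lit 380) (nat_lit 38665775355) (nat_lit 76) (nat_lit 14206646057) (nat_lit 181) (nat_lit 5) (nat_lit 186) (nat_lit 5) (nat_lit 182) (nat_lit 5) (nat_lit 521) (nat_lit 466) (nat_lit 213)) (XT.lf (nat_lit 0)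 (nat_lit 4434500561) (nat_lit 304) (nat_lit 30382193646) (nat_lit 380) (nat_lit 37799206277) (nat_lit 177) (nat_lit 5) (nat_lit 181) (nat_lit 5) (nat_lit 182) (nat_lit 5) (nat_lit 522) (nat_lit 466) (nat_lit 212)))) (XT.nd (nat_lit 156) (nat_lit 380) (nat_lit 0) (XT.nd (nat_lit 78) (nat_lit 228) (nat_lit 0) (XT.lf (nat_lit 0) (nat_lit 49618960165) (nat_lit 304) (nat_lit 2461794595) (nat_lit 380) (nat_lit 21872592709) (nat_lit 177) (nat_lit 5) (nat_lit 181) (nat_lit 5) (nat_lit 182) (nat_lit 5) (nat_lit 523) (nat_lit 466) (nat_lit 211)) (XT.lf (nat_lit 0) (nat_lit 20983304469) (nat_lit 228) (nat_lit 49333002781) (nat_lit 304) (nat_lit 5001003533) (nat_lit 174) (nat_lit 5) (nat_lit 177) (nat_lit 5) (nat_lit 178) (nat_lit 5) (nat_lit 524) (nat_lit 466) (nat_lit 210))) (XT.nd (nat_lit 78) (nat_lit 304) (nat_lit 0) (XT.lf (nat_lit 0) (nat_lit 12406849999) (nat_lit 304) (nat_lit 8702662845) (nat_lit 76) (nat_lit 55600962051)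 (nat_lit 173) (nat_lit 5) (nat_lit 177) (nat_lit 5) (nat_lit 174) (nat_lit 5) (nat_lit 525) (nat_lit 466) (nat_lit 209)) (XT.lf (nat_lit 0) (nat_lit 30691233708) (nat_lit 380) (nat_lit 39205534427) (nat_lit 76) (nat_lit 8233536075) (nat_lit 169) (nat_lit 5) (nat_lit 174) (nat_lit 5) (nat_lit 170) (nat_lit 5) (nat_lit 526) (nat_lit 466) (nat_lit 208))))))) (XT.nd (nat_lit 1248) (nat_lit 456) (nat_lit 0) (XT.nd (nat_lit 624) (nat_lit 1140) (nat_lit 0) (XT.nd (nat_lit 312) (nat_lit 760) (nat_lit 0) (XT.nd (nat_lit 156) (nat_lit 304) (nat_lit 0) (XT.nd (nat_lit 78) (nat_lit 0) (nat_lit 0) (XT.lf (nat_lit 0) (nat_lit 8524409935) (nat_lit 228) (nat_lit 41378564465) (nat_lit 304) (nat_lit 29678389261) (nat_lit 166) (nat_lit 5) (nat_lit 169) (nat_lit 5) (nat_lit 170) (nat_lit 5) (nat_lit 527) (nat_lit 466) (nat_lit 207)) (XT.lf (nat_lit 0) (nat_lit 58488554971) (nat_lit 228) (nat_lit 11597552174) (nat_lit 304) (nat_lit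 10977996575) (nat_lit 166) (nat_lit 5) (nat_lit 169) (nat_lit 5) (nat_lit 170) (nat_lit 5) (nat_lit 528) (nat_lit 466) (nat_lit 206))) (XT.nd (nat_lit 78) (nat_lit 0) (nat_lit 0) (XT.lf (nat_lit 0) (nat_lit 8575180873) (nat_lit 304) (nat_lit 54945513643) (nat_lit 76) (nat_lit 19054640363) (nat_lit 162) (nat_lit 5) (nat_lit 166) (nat_lit 5) (nat_lit 163) (nat_lit 5) (nat_lit 529) (nat_lit 466) (nat_lit 205)) (XT.lf (nat_lit 0) (nat_lit 28838524315) (nat_lit 304) (nat_lit 4548068704) (nat_lit 76) (nat_lit 50731722657) (nat_lit 162) (nat_lit 5) (nat_lit 166) (nat_lit 5) (nat_lit 163) (nat_lit 5) (nat_lit 530) (nat_lit 466) (nat_lit 204)))) (XT.nd (nat_lit 156) (nat_lit 304) (nat_lit 0) (XT.nd (nat_lit 78) (nat_lit 228) (nat_lit 0) (XT.lf (nat_lit 0) (nat_lit 48302539275) (nat_lit 228) (nat_lit 1870731067) (nat_lit 304) (nat_lit 35520410501) (nat_lit 159) (nat_lit 5) (nat_lit 162) (nat_lit 5) (nat_lit 163) (nat_lit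 5) (nat_lit 531) (nat_lit 466) (nat_lit 203)) (XT.lf (nat_lit 0) (nat_lit 15524064242) (nat_lit 228) (nat_lit 57112853212) (nat_lit 304) (nat_lit 14664723769) (nat_lit 156) (nat_lit 5) (nat_lit 159) (nat_lit 5) (nat_lit 160) (nat_lit 5) (nat_lit 532) (nat_lit 466) (nat_lit 202))) (XT.nd (nat_lit 78) (nat_lit 228) (nat_lit 0) (XT.lf (nat_lit 0) (nat_lit 7082652138) (nat_lit 304) (nat_lit 18242417357) (nat_lit 76) (nat_lit 63618834093) (nat_lit 155) (nat_lit 5) (nat_lit 159) (nat_lit 5) (nat_lit 156) (nat_lit 5) (nat_lit 533) (nat_lit 466) (nat_lit 201)) (XT.lf (nat_lit 0) (nat_lit 29623531667) (nat_lit 304) (nat_lit 53212825081) (nat_lit 76) (nat_lit 7781646371) (nat_lit 152) (nat_lit 5) (nat_lit 156) (nat_lit 5) (nat_lit 153) (nat_lit 5) (nat_lit 534) (nat_lit 466) (nat_lit 200))))) (XT.nd (nat_lit 312) (nat_lit 684) (nat_lit 0) (XT.nd (nat_lit 156) (nat_lit 228) (nat_lit 0) (XT.nd (nat_lit 78) (nat_lit 0) (nat_lit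 0) (XT.lf (nat_lit 0) (nat_lit 2555357745) (nat_lit 228) (nat_lit 50745850165) (nat_lit 304) (nat_lit 39027300631) (nat_lit 149) (nat_lit 5) (nat_lit 152) (nat_lit 5) (nat_lit 153) (nat_lit 5) (nat_lit 535) (nat_lit 466) (nat_lit 199)) (XT.lf (nat_lit 0) (nat_lit 61086116430) (nat_lit 228) (nat_lit 17139680287) (nat_lit 304) (nat_lit 15848434955) (nat_lit 149) (nat_lit 5) (nat_lit 152) (nat_lit 5) (nat_lit 153) (nat_lit 5) (nat_lit 536) (nat_lit 466) (nat_lit 198))) (XT.nd (nat_lit 78) (nat_lit 0) (nat_lit 0) (XT.lf (nat_lit 0) (nat_lit 8288876264) (nat_lit 228) (nat_lit 70105747843) (nat_lit 76) (nat_lit 17462797184) (nat_lit 146) (nat_lit 5) (nat_lit 149) (nat_lit 5) (nat_lit 147) (nat_lit 5) (nat_lit 537) (nat_lit 466) (nat_lit 197)) (XT.lf (nat_lit 0) (nat_lit 33337139119) (nat_lit 228) (nat_lit 11085409420) (nat_lit 76) (nat_lit 53251689512) (nat_lit 146) (nat_lit 5) (nat_lit 149) (nat_lit 5) (nat_lit 147)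 (nat_lit 5) (nat_lit 538) (nat_lit 466) (nat_lit 196)))) (XT.nd (nat_lit 156) (nat_lit 304) (nat_lit 0) (XT.nd (nat_lit 78) (nat_lit 152) (nat_lit 0) (XT.lf (nat_lit 0) (nat_lit 50693526296) (nat_lit 228) (nat_lit 8929899284) (nat_lit 304) (nat_lit 39907536475) (nat_lit 143) (nat_lit 5) (nat_lit 146) (nat_lit 5) (nat_lit 147) (nat_lit 5) (nat_lit 539) (nat_lit 466) (nat_lit 195)) (XT.lf (nat_lit 0) (nat_lit 13100772092) (nat_lit 152) (nat_lit 74101366170) (nat_lit 228) (nat_lit 14226134401) (nat_lit 141) (nat_lit 5) (nat_lit 143) (nat_lit 5) (nat_lit 144) (nat_lit 5) (nat_lit 540) (nat_lit 466) (nat_lit 194))) (XT.nd (nat_lit 78) (nat_lit 228) (nat_lit 0) (XT.lf (nat_lit 0) (nat_lit 12572887285) (nat_lit 228) (nat_lit 25681513474) (nat_lit 76) (nat_lit 65107003856) (nat_lit 140) (nat_lit 5) (nat_lit 143) (nat_lit 5) (nat_lit 141) (nat_lit 5) (nat_lit 541) (nat_lit 466) (nat_lit 193)) (XT.lf (nat_lit 0) (nat_lit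 39472045256) (nat_lit 228) (nat_lit 796638615) (nat_lit 304) (nat_lit 65068259017) (nat_lit 137) (nat_lit 5) (nat_lit 140) (nat_lit 5) (nat_lit 141) (nat_lit 5) (nat_lit 542) (nat_lit 466) (nat_lit 192)))))) (XT.nd (nat_lit 56940) (nat_lit 0) (nat_lit 15048) (XT.nd (nat_lit 56628) (nat_lit 0) (nat_lit 14896) (XT.nd (nat_lit 156) (nat_lit 304) (nat_lit 0) (XT.nd (nat_lit 78) (nat_lit 152) (nat_lit 0) (XT.lf (nat_lit 0) (nat_lit 69419776128) (nat_lit 304) (nat_lit 624290496) (nat_lit 76) (nat_lit 37308948044) (nat_lit 137) (nat_lit 5) (nat_lit 141) (nat_lit 5) (nat_lit 138) (nat_lit 5) (nat_lit 543) (nat_lit 466) (nat_lit 191)) (XT.lf (nat_lit 0) (nat_lit 67889245056) (nat_lit 152) (nat_lit 32215966689) (nat_lit 228) (nat_lit 9304562549) (nat_lit 135) (nat_lit 5) (nat_lit 137) (nat_lit 5) (nat_lit 138) (nat_lit 5) (nat_lit 544) (nat_lit 466) (nat_lit 190))) (XT.nd (nat_lit 56394) (nat_lit 0) (nat_lit 14896) (XT.lf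 (nat_lit 0) (nat_lit 20126493578) (nat_lit 304) (nat_lit 84303783371) (nat_lit 76) (nat_lit 7082018566) (nat_lit 131) (nat_lit 5) (nat_lit 135) (nat_lit 5) (nat_lit 132) (nat_lit 5) (nat_lit 545) (nat_lit 466) (nat_lit 189)) (XT.lf (nat_lit 0) (nat_lit 7784595145) (nat_lit 1292) (nat_lit 3474238470) (nat_lit 1292) (nat_lit 3474238470) (nat_lit 327) (nat_lit 3) (nat_lit 344) (nat_lit 3) (nat_lit 344) (nat_lit 5) (nat_lit 467) (nat_lit 467) (nat_lit 266)))) (XT.nd (nat_lit 156) (nat_lit 0) (nat_lit 76) (XT.nd (nat_lit 78) (nat_lit 0) (nat_lit 76) (XT.lf (nat_lit 76) (nat_lit 7879173182) (nat_lit 0) (nat_lit 8074597292) (nat_lit 1292) (nat_lit 13949831115) (nat_lit 328) (nat_lit 5) (nat_lit 327) (nat_lit 3) (nat_lit 344) (nat_lit 5) (nat_lit 468) (nat_lit 467) (nat_lit 265)) (XT.lf (nat_lit 0) (nat_lit 16483191347) (nat_lit 1216) (nat_lit 7125711417) (nat_lit 1292) (nat_lit 6741281002) (nat_lit 328) (nat_lit 5) (nat_lit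 344) (nat_lit 5) (nat_lit 345) (nat_lit 5) (nat_lit 469) (nat_lit 467) (nat_lit 264))) (XT.nd (nat_lit 78) (nat_lit 0) (nat_lit 76) (XT.lf (nat_lit 76) (nat_lit 8300393077) (nat_lit 0) (nat_lit 8884982221) (nat_lit 1292) (nat_lit 13620081828) (nat_lit 329) (nat_lit 5) (nat_lit 328) (nat_lit 5) (nat_lit 345) (nat_lit 5) (nat_lit 470) (nat_lit 467) (nat_lit 263)) (XT.lf (nat_lit 0) (nat_lit 18038891416) (nat_lit 1216) (nat_lit 6999642848) (nat_lit 1292) (nat_lit 6231946552) (nat_lit 329) (nat_lit 5) (nat_lit 345) (nat_lit 5) (nat_lit 346) (nat_lit 5) (nat_lit 471) (nat_lit 467) (nat_lit 262))))) (XT.nd (nat_lit 312) (nat_lit 0) (nat_lit 152) (XT.nd (nat_lit 156) (nat_lit 0) (nat_lit 76) (XT.nd (nat_lit 78) (nat_lit 0) (nat_lit 76) (XT.lf (nat_lit 76) (nat_lit 9058098157) (nat_lit 0) (nat_lit 10032262780) (nat_lit 1292) (nat_lit 12653923966) (nat_lit 330) (nat_lit 5) (nat_lit 329) (nat_lit 5) (nat_lit 346) (nat_lit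 5) (nat_lit 472) (nat_lit 467) (nat_lit 261)) (XT.lf (nat_lit 0) (nat_lit 20294276315) (nat_lit 1216) (nat_lit 6543667659) (nat_lit 1292) (nat_lit 5390732205) (nat_lit 330) (nat_lit 5) (nat_lit 346) (nat_lit 5) (nat_lit 347) (nat_lit 5) (nat_lit 473) (nat_lit 467) (nat_lit 260))) (XT.nd (nat_lit 78) (nat_lit 0) (nat_lit 76) (XT.lf (nat_lit 76) (nat_lit 10180809790) (nat_lit 0) (nat_lit 11548147799) (nat_lit 1292) (nat_lit 10992802270) (nat_lit 331) (nat_lit 5) (nat_lit 330) (nat_lit 5) (nat_lit 347) (nat_lit 5) (nat_lit 474) (nat_lit 467) (nat_lit 259)) (XT.lf (nat_lit 0) (nat_lit 23311309521) (nat_lit 1216) (nat_lit 5729242704) (nat_lit 1292) (nat_lit 4185945030) (nat_lit 331) (nat_lit 5) (nat_lit 347) (nat_lit 5) (nat_lit 348) (nat_lit 5) (nat_lit 475) (nat_lit 467) (nat_lit 258)))) (XT.nd (nat_lit 156) (nat_lit 0) (nat_lit 76) (XT.nd (nat_lit 78) (nat_lit 0) (nat_lit 76) (XT.lf (nat_lit 76) (nat_lit 11699100600)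 (nat_lit 0) (nat_lit 13466422117) (nat_lit 1292) (nat_lit 8574122446) (nat_lit 332) (nat_lit 5) (nat_lit 331) (nat_lit 5) (nat_lit 348) (nat_lit 5) (nat_lit 476) (nat_lit 467) (nat_lit 257)) (XT.lf (nat_lit 0) (nat_lit 27156195686) (nat_lit 1216) (nat_lit 4525768266) (nat_lit 1292) (nat_lit 2583798661) (nat_lit 332) (nat_lit 5) (nat_lit 348) (nat_lit 5) (nat_lit 349) (nat_lit 5) (nat_lit 477) (nat_lit 467) (nat_lit 256))) (XT.nd (nat_lit 78) (nat_lit 0) (nat_lit 76) (XT.lf (nat_lit 76) (nat_lit 13645718090) (nat_lit 0) (nat_lit 15823095594) (nat_lit 1292) (nat_lit 5330983262) (nat_lit 333) (nat_lit 5) (nat_lit 332) (nat_lit 5) (nat_lit 349) (nat_lit 5) (nat_lit 478) (nat_lit 467) (nat_lit 255)) (XT.lf (nat_lit 0) (nat_lit 31899660013) (nat_lit 1216) (nat_lit 2900463415) (nat_lit 1292) (nat_lit 548263487) (nat_lit 333) (nat_lit 5) (nat_lit 349) (nat_lit 5) (nat_lit 350) (nat_lit 5) (nat_lit 479) (nat_lit 467) (nat_lit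 254))))))))
noncomputable def xc220 : XT := (XT.nd (nat_lit 2418) (nat_lit 5548) (nat_lit 0) (XT.nd (nat_lit 1170) (nat_lit 4104) (nat_lit 0) (XT.nd (nat_lit 546) (nat_lit 2964) (nat_lit 0) (XT.nd (nat_lit 234) (nat_lit 684) (nat_lit 0) (XT.nd (nat_lit 78) (nat_lit 1292) (nat_lit 0) (XT.lf (nat_lit 76) (nat_lit 16055716288) (nat_lit 0) (nat_lit 18656560516) (nat_lit 1292) (nat_lit 1191892526) (nat_lit 334) (nat_lit 5) (nat_lit 333) (nat_lit 5) (nat_lit 350) (nat_lit 5) (nat_lit 480) (nat_lit 467) (nat_lit 253)) (XT.nd (nat_lit 78) (nat_lit 0) (nat_lit 76) (XT.lf (nat_lit 0) (nat_lit 1137993030) (nat_lit 1292) (nat_lit 848596917) (nat_lit 1368) (nat_lit 34488885286) (nat_lit 316) (nat_lit 5) (nat_lit 333) (nat_lit 5) (nat_lit 334) (nat_lit 5) (nat_lit 481) (nat_lit 467) (nat_lit 252)) (XT.lf (nat_lit 0) (nat_lit 3843049875) (nat_lit 1292) (nat_lit 18125900902) (nat_lit 1368) (nat_lit 15084738682) (nat_lit 317) (nat_lit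 5) (nat_lit 334) (nat_lit 5) (nat_lit 335) (nat_lit 5) (nat_lit 482) (nat_lit 467) (nat_lit 251)))) (XT.nd (nat_lit 156) (nat_lit 760) (nat_lit 0) (XT.nd (nat_lit 78) (nat_lit 0) (nat_lit 76) (XT.lf (nat_lit 76) (nat_lit 1677131715) (nat_lit 0) (nat_lit 4994550887) (nat_lit 1368) (nat_lit 30976294871) (nat_lit 318) (nat_lit 5) (nat_lit 317) (nat_lit 5) (nat_lit 335) (nat_lit 5) (nat_lit 483) (nat_lit 467) (nat_lit 250)) (XT.lf (nat_lit 0) (nat_lit 9888099973) (nat_lit 1292) (nat_lit 15932403961) (nat_lit 76) (nat_lit 12430502509) (nat_lit 318) (nat_lit 5) (nat_lit 335) (nat_lit 5) (nat_lit 319) (nat_lit 5) (nat_lit 484) (nat_lit 467) (nat_lit 249))) (XT.nd (nat_lit 78) (nat_lit 0) (nat_lit 0) (XT.lf (nat_lit 0) (nat_lit 4748700955) (nat_lit 836) (nat_lit 8545489538) (nat_lit 912) (nat_lit 25575140451) (nat_lit 307) (nat_lit 5) (nat_lit 318) (nat_lit 5) (nat_lit 319) (nat_lit 5) (nat_lit 485) (nat_lit 467) (nat_lit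 248)) (XT.lf (nat_lit 0) (nat_lit 17051961671) (nat_lit 912) (nat_lit 13216774084) (nat_lit 76) (nat_lit 9229984566) (nat_lit 307) (nat_lit 5) (nat_lit 319) (nat_lit 5) (nat_lit 308) (nat_lit 5) (nat_lit 486) (nat_lit 467) (nat_lit 247))))) (XT.nd (nat_lit 312) (nat_lit 1748) (nat_lit 0) (XT.nd (nat_lit 156) (nat_lit 608) (nat_lit 0) (XT.nd (nat_lit 78) (nat_lit 0) (nat_lit 0) (XT.lf (nat_lit 0) (nat_lit 8391645788) (nat_lit 608) (nat_lit 12694272982) (nat_lit 684) (nat_lit 19056169105) (nat_lit 299) (nat_lit 5) (nat_lit 307) (nat_lit 5) (nat_lit 308) (nat_lit 5) (nat_lit 487) (nat_lit 467) (nat_lit 246)) (XT.lf (nat_lit 0) (nat_lit 25425875279) (nat_lit 684) (nat_lit 9936536441) (nat_lit 76) (nat_lit 5436795388) (nat_lit 299) (nat_lit 5) (nat_lit 308) (nat_lit 5) (nat_lit 300) (nat_lit 5) (nat_lit 488) (nat_lit 467) (nat_lit 245))) (XT.nd (nat_lit 78) (nat_lit 0) (nat_lit 0) (XT.lf (nat_lit 0) (nat_lit 12651291036)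 (nat_lit 608) (nat_lit 17490305528) (nat_lit 684) (nat_lit 11327076445) (nat_lit 291) (nat_lit 5) (nat_lit 299) (nat_lit 5) (nat_lit 300) (nat_lit 5) (nat_lit 489) (nat_lit 467) (nat_lit 244)) (XT.lf (nat_lit 0) (nat_lit 35107249516) (nat_lit 684) (nat_lit 6046304133) (nat_lit 76) (nat_lit 1001415509) (nat_lit 291) (nat_lit 5) (nat_lit 300) (nat_lit 5) (nat_lit 292) (nat_lit 5) (nat_lit 490) (nat_lit 467) (nat_lit 243)))) (XT.nd (nat_lit 156) (nat_lit 1140) (nat_lit 0) (XT.nd (nat_lit 78) (nat_lit 76) (nat_lit 0) (XT.lf (nat_lit 0) (nat_lit 17576040010) (nat_lit 532) (nat_lit 22986307464) (nat_lit 608) (nat_lit 2289292523) (nat_lit 284) (nat_lit 5) (nat_lit 291) (nat_lit 5) (nat_lit 292) (nat_lit 5) (nat_lit 491) (nat_lit 467) (nat_lit 242)) (XT.lf (nat_lit 0) (nat_lit 2620948900) (nat_lit 608) (nat_lit 1563775809) (nat_lit 76) (nat_lit 39381932240) (nat_lit 283) (nat_lit 5) (nat_lit 291) (nat_lit 5) (nat_lit 284)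 (nat_lit 5) (nat_lit 492) (nat_lit 467) (nat_lit 241))) (XT.nd (nat_lit 78) (nat_lit 532) (nat_lit 0) (XT.lf (nat_lit 0) (nat_lit 8003143289) (nat_lit 684) (nat_lit 21154578023) (nat_lit 76) (nat_lit 15133603427) (nat_lit 275) (nat_lit 5) (nat_lit 284) (nat_lit 5) (nat_lit 276) (nat_lit 5) (nat_lit 493) (nat_lit 467) (nat_lit 240)) (XT.lf (nat_lit 0) (nat_lit 3600079459) (nat_lit 532) (nat_lit 10037156529) (nat_lit 608) (nat_lit 31397783659) (nat_lit 268) (nat_lit 5) (nat_lit 275) (nat_lit 5) (nat_lit 276) (nat_lit 5) (nat_lit 494) (nat_lit 467) (nat_lit 239)))))) (XT.nd (nat_lit 624) (nat_lit 2128) (nat_lit 0) (XT.nd (nat_lit 312) (nat_lit 988) (nat_lit 0) (XT.nd (nat_lit 156) (nat_lit 456) (nat_lit 0) (XT.nd (nat_lit 78) (nat_lit 532) (nat_lit 0) (XT.lf (nat_lit 0) (nat_lit 19747389735) (nat_lit 608) (nat_lit 16360228371) (nat_lit 76) (nat_lit 9684196209) (nat_lit 268) (nat_lit 5) (nat_lit 276) (nat_lit 5) (nat_lit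 269) (nat_lit 5) (nat_lit 495) (nat_lit 467) (nat_lit 238)) (XT.lf (nat_lit 0) (nat_lit 9552100119) (nat_lit 532) (nat_lit 16678465057) (nat_lit 608) (nat_lit 20335056192) (nat_lit 261) (nat_lit 5) (nat_lit 268) (nat_lit 5) (nat_lit 269) (nat_lit 5) (nat_lit 496) (nat_lit 467) (nat_lit 237))) (XT.nd (nat_lit 78) (nat_lit 456) (nat_lit 0) (XT.lf (nat_lit 0) (nat_lit 33105666571) (nat_lit 608) (nat_lit 10815867963) (nat_lit 76) (nat_lit 3435185234) (nat_lit 261) (nat_lit 5) (nat_lit 269) (nat_lit 5) (nat_lit 262) (nat_lit 5) (nat_lit 497) (nat_lit 467) (nat_lit 236)) (XT.lf (nat_lit 0) (nat_lit 16319412039) (nat_lit 456) (nat_lit 24188201362) (nat_lit 532) (nat_lit 7654320001) (nat_lit 255) (nat_lit 5) (nat_lit 261) (nat_lit 5) (nat_lit 262) (nat_lit 5) (nat_lit 498) (nat_lit 467) (nat_lit 235)))) (XT.nd (nat_lit 156) (nat_lit 456) (nat_lit 0) (XT.nd (nat_lit 78) (nat_lit 532) (nat_lit 0) (XT.lf (nat_lit 0) (nat_lit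 44488860942) (nat_lit 456) (nat_lit 3750589398) (nat_lit 532) (nat_lit 748618208) (nat_lit 255) (nat_lit 5) (nat_lit 261) (nat_lit 5) (nat_lit 262) (nat_lit 5) (nat_lit 499) (nat_lit 467) (nat_lit 234)) (XT.lf (nat_lit 0) (nat_lit 6639287608) (nat_lit 532) (nat_lit 25928082946) (nat_lit 76) (nat_lit 17257805253) (nat_lit 248) (nat_lit 5) (nat_lit 255) (nat_lit 5) (nat_lit 249) (nat_lit 5) (nat_lit 500) (nat_lit 467) (nat_lit 233))) (XT.nd (nat_lit 78) (nat_lit 0) (nat_lit 0) (XT.lf (nat_lit 0) (nat_lit 2554726944) (nat_lit 456) (nat_lit 11785294287) (nat_lit 532) (nat_lit 36343965627) (nat_lit 242) (nat_lit 5) (nat_lit 248) (nat_lit 5) (nat_lit 249) (nat_lit 5) (nat_lit 501) (nat_lit 467) (nat_lit 232)) (XT.lf (nat_lit 0) (nat_lit 22627350619) (nat_lit 532) (nat_lit 19233882119) (nat_lit 76) (nat_lit 9696662337) (nat_lit 242) (nat_lit 5) (nat_lit 249) (nat_lit 5) (nat_lit 243) (nat_lit 5) (nat_lit 502) (nat_lit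 467) (nat_lit 231))))) (XT.nd (nat_lit 312) (nat_lit 1216) (nat_lit 0) (XT.nd (nat_lit 156) (nat_lit 456) (nat_lit 0) (XT.nd (nat_lit 78) (nat_lit 0) (nat_lit 0) (XT.lf (nat_lit 0) (nat_lit 10617271559) (nat_lit 456) (nat_lit 20763495458) (nat_lit 532) (nat_lit 21070729554) (nat_lit 236) (nat_lit 5) (nat_lit 242) (nat_lit 5) (nat_lit 243) (nat_lit 5) (nat_lit 503) (nat_lit 467) (nat_lit 230)) (XT.lf (nat_lit 0) (nat_lit 40600971054) (nat_lit 532) (nat_lit 11620663738) (nat_lit 76) (nat_lit 1144145807) (nat_lit 236) (nat_lit 5) (nat_lit 243) (nat_lit 5) (nat_lit 237) (nat_lit 5) (nat_lit 504) (nat_lit 467) (nat_lit 229))) (XT.nd (nat_lit 78) (nat_lit 76) (nat_lit 0) (XT.lf (nat_lit 0) (nat_lit 19676124003) (nat_lit 380) (nat_lit 30815152565) (nat_lit 456) (nat_lit 3804411765) (nat_lit 231) (nat_lit 5) (nat_lit 236) (nat_lit 5) (nat_lit 237) (nat_lit 5) (nat_lit 505) (nat_lit 467) (nat_lit 228)) (XT.lf (nat_lit 0)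 (nat_lit 5436234501) (nat_lit 456) (nat_lit 3154815873) (nat_lit 76) (nat_lit 46657359751) (nat_lit 230) (nat_lit 5) (nat_lit 236) (nat_lit 5) (nat_lit 231) (nat_lit 5) (nat_lit 506) (nat_lit 467) (nat_lit 227)))) (XT.nd (nat_lit 156) (nat_lit 380) (nat_lit 0) (XT.nd (nat_lit 78) (nat_lit 380) (nat_lit 0) (XT.lf (nat_lit 0) (nat_lit 15303538984) (nat_lit 532) (nat_lit 26564569595) (nat_lit 76) (nat_lit 14347697898) (nat_lit 224) (nat_lit 5) (nat_lit 231) (nat_lit 5) (nat_lit 225) (nat_lit 5) (nat_lit 507) (nat_lit 467) (nat_lit 226)) (XT.lf (nat_lit 0) (nat_lit 6331514841) (nat_lit 380) (nat_lit 19312281019) (nat_lit 456) (nat_lit 31563120899) (nat_lit 219) (nat_lit 5) (nat_lit 224) (nat_lit 5) (nat_lit 225) (nat_lit 5) (nat_lit 508) (nat_lit 467) (nat_lit 225))) (XT.nd (nat_lit 78) (nat_lit 380) (nat_lit 0) (XT.lf (nat_lit 0) (nat_lit 36601703736) (nat_lit 456) (nat_lit 17502571938) (nat_lit 76) (nat_lit 4114261414)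 (nat_lit 219) (nat_lit 5) (nat_lit 225) (nat_lit 5) (nat_lit 220) (nat_lit 5) (nat_lit 509) (nat_lit 467) (nat_lit 224)) (XT.lf (nat_lit 0) (nat_lit 17010667727) (nat_lit 380) (nat_lit 31231295876) (nat_lit 456) (nat_lit 11007934017) (nat_lit 214) (nat_lit 5) (nat_lit 219) (nat_lit 5) (nat_lit 220) (nat_lit 5) (nat_lit 510) (nat_lit 467) (nat_lit 223))))))) (XT.nd (nat_lit 1170) (nat_lit 2508) (nat_lit 0) (XT.nd (nat_lit 546) (nat_lit 1520) (nat_lit 0) (XT.nd (nat_lit 234) (nat_lit 684) (nat_lit 0) (XT.nd (nat_lit 78) (nat_lit 760) (nat_lit 0) (XT.lf (nat_lit 0) (nat_lit 98194275) (nat_lit 456) (nat_lit 7391291302) (nat_lit 76) (nat_lit 52817415137) (nat_lit 213) (nat_lit 5) (nat_lit 219) (nat_lit 5) (nat_lit 214) (nat_lit 5) (nat_lit 511) (nat_lit 467) (nat_lit 222)) (XT.nd (nat_lit 78) (nat_lit 380) (nat_lit 0) (XT.lf (nat_lit 0) (nat_lit 11760438846) (nat_lit 456) (nat_lit 32594253247) (nat_lit 76) (nat_lit 17024326730)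 (nat_lit 208) (nat_lit 5) (nat_lit 214) (nat_lit 5) (nat_lit 209) (nat_lit 5) (nat_lit 512) (nat_lit 467) (nat_lit 221)) (XT.lf (nat_lit 0) (nat_lit 3712630822) (nat_lit 380) (nat_lit 20244077892) (nat_lit 456) (nat_lit 38521067053) (nat_lit 203) (nat_lit 5) (nat_lit 208) (nat_lit 5) (nat_lit 209) (nat_lit 5) (nat_lit 513) (nat_lit 467) (nat_lit 220)))) (XT.nd (nat_lit 156) (nat_lit 380) (nat_lit 0) (XT.nd (nat_lit 78) (nat_lit 304) (nat_lit 0) (XT.lf (nat_lit 0) (nat_lit 36894336750) (nat_lit 456) (nat_lit 21871622363) (nat_lit 76) (nat_lit 4832272236) (nat_lit 203) (nat_lit 5) (nat_lit 209) (nat_lit 5) (nat_lit 204) (nat_lit 5) (nat_lit 514) (nat_lit 467) (nat_lit 219)) (XT.lf (nat_lit 0) (nat_lit 16243794466) (nat_lit 304) (nat_lit 34331864105) (nat_lit 380) (nat_lit 14165975108) (nat_lit 199) (nat_lit 5) (nat_lit 203) (nat_lit 5) (nat_lit 204) (nat_lit 5) (nat_lit 515) (nat_lit 467) (nat_lit 218))) (XT.nd (nat_lit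 78) (nat_lit 380) (nat_lit 0) (XT.lf (nat_lit 0) (nat_lit 55949584879) (nat_lit 304) (nat_lit 8937694722) (nat_lit 380) (nat_lit 1025462721) (nat_lit 199) (nat_lit 5) (nat_lit 203) (nat_lit 5) (nat_lit 204) (nat_lit 5) (nat_lit 516) (nat_lit 467) (nat_lit 217)) (XT.lf (nat_lit 0) (nat_lit 12724009786) (nat_lit 380) (nat_lit 37081151573) (nat_lit 76) (nat_lit 17296450124) (nat_lit 194) (nat_lit 5) (nat_lit 199) (nat_lit 5) (nat_lit 195) (nat_lit 5) (nat_lit 517) (nat_lit 467) (nat_lit 216))))) (XT.nd (nat_lit 312) (nat_lit 836) (nat_lit 0) (XT.nd (nat_lit 156) (nat_lit 380) (nat_lit 0) (XT.nd (nat_lit 78) (nat_lit 0) (nat_lit 0) (XT.lf (nat_lit 0) (nat_lit 3043006576) (nat_lit 304) (nat_lit 24040726376) (nat_lit 380) (nat_lit 41235557883) (nat_lit 190) (nat_lit 5) (nat_lit 194) (nat_lit 5) (nat_lit 195) (nat_lit 5) (nat_lit 518) (nat_lit 467) (nat_lit 215)) (XT.lf (nat_lit 0) (nat_lit 42275441241) (nat_lit 380) (nat_lit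 24460391915) (nat_lit 76) (nat_lit 2825631636) (nat_lit 190) (nat_lit 5) (nat_lit 195) (nat_lit 5) (nat_lit 191) (nat_lit 5) (nat_lit 519) (nat_lit 467) (nat_lit 214))) (XT.nd (nat_lit 78) (nat_lit 76) (nat_lit 0) (XT.lf (nat_lit 0) (nat_lit 17685668250) (nat_lit 304) (nat_lit 40644332809) (nat_lit 380) (nat_lit 12498689923) (nat_lit 186) (nat_lit 5) (nat_lit 190) (nat_lit 5) (nat_lit 191) (nat_lit 5) (nat_lit 520) (nat_lit 467) (nat_lit 213)) (XT.lf (nat_lit 0) (nat_lit 2927467570) (nat_lit 380) (nat_lit 10559107247) (nat_lit 76) (nat_lit 58639115635) (nat_lit 185) (nat_lit 5) (nat_lit 190) (nat_lit 5) (nat_lit 186) (nat_lit 5) (nat_lit 521) (nat_lit 467) (nat_lit 212)))) (XT.nd (nat_lit 156) (nat_lit 228) (nat_lit 0) (XT.nd (nat_lit 78) (nat_lit 304) (nat_lit 0) (XT.lf (nat_lit 0) (nat_lit 19033253764) (nat_lit 380) (nat_lit 39754334396) (nat_lit 76) (nat_lit 14656257629) (nat_lit 181) (nat_lit 5) (nat_lit 186)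 (nat_lit 5) (nat_lit 182) (nat_lit 5) (nat_lit 522) (nat_lit 467) (nat_lit 211)) (XT.lf (nat_lit 0) (nat_lit 4638249658) (nat_lit 304) (nat_lit 31268870537) (nat_lit 380) (nat_lit 38885878414) (nat_lit 177) (nat_lit 5) (nat_lit 181) (nat_lit 5) (nat_lit 182) (nat_lit 5) (nat_lit 523) (nat_lit 467) (nat_lit 210))) (XT.nd (nat_lit 78) (nat_lit 228) (nat_lit 0) (XT.lf (nat_lit 0) (nat_lit 51176183417) (nat_lit 304) (nat_lit 2511581522) (nat_lit 380) (nat_lit 22482844227) (nat_lit 177) (nat_lit 5) (nat_lit 181) (nat_lit 5) (nat_lit 182) (nat_lit 5) (nat_lit 524) (nat_lit 467) (nat_lit 209)) (XT.lf (nat_lit 0) (nat_lit 21681881492) (nat_lit 228) (nat_lit 50788092471) (nat_lit 304) (nat_lit 5105529749) (nat_lit 174) (nat_lit 5) (nat_lit 177) (nat_lit 5) (nat_lit 178) (nat_lit 5) (nat_lit 525) (nat_lit 467) (nat_lit 208)))))) (XT.nd (nat_lit 624) (nat_lit 1140) (nat_lit 0) (XT.nd (nat_lit 312) (nat_lit 760) (nat_lit 0)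 (XT.nd (nat_lit 156) (nat_lit 228) (nat_lit 0) (XT.nd (nat_lit 78) (nat_lit 304) (nat_lit 0) (XT.lf (nat_lit 0) (nat_lit 12822371951) (nat_lit 304) (nat_lit 8895813728) (nat_lit 76) (nat_lit 57292302961) (nat_lit 173) (nat_lit 5) (nat_lit 177) (nat_lit 5) (nat_lit 174) (nat_lit 5) (nat_lit 526) (nat_lit 467) (nat_lit 207)) (XT.lf (nat_lit 0) (nat_lit 31654908202) (nat_lit 380) (nat_lit 40313391510) (nat_lit 76) (nat_lit 8504624521) (nat_lit 169) (nat_lit 5) (nat_lit 174) (nat_lit 5) (nat_lit 170) (nat_lit 5) (nat_lit 527) (nat_lit 467) (nat_lit 206))) (XT.nd (nat_lit 78) (nat_lit 0) (nat_lit 0) (XT.lf (nat_lit 0) (nat_lit 8847781487) (nat_lit 228) (nat_lit 42594619211) (nat_lit 304) (nat_lit 30525132810) (nat_lit 166) (nat_lit 5) (nat_lit 169) (nat_lit 5) (nat_lit 170) (nat_lit 5) (nat_lit 528) (nat_lit 467) (nat_lit 205)) (XT.lf (nat_lit 0) (nat_lit 60308880799) (nat_lit 228) (nat_lit 11920913509) (nat_lit 304)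 (nat_lit 11264998483) (nat_lit 166) (nat_lit 5) (nat_lit 169) (nat_lit 5) (nat_lit 170) (nat_lit 5) (nat_lit 529) (nat_lit 467) (nat_lit 204)))) (XT.nd (nat_lit 156) (nat_lit 456) (nat_lit 0) (XT.nd (nat_lit 78) (nat_lit 0) (nat_lit 0) (XT.lf (nat_lit 0) (nat_lit 8873611412) (nat_lit 304) (nat_lit 56527045233) (nat_lit 76) (nat_lit 19650702158) (nat_lit 162) (nat_lit 5) (nat_lit 166) (nat_lit 5) (nat_lit 163) (nat_lit 5) (nat_lit 530) (nat_lit 467) (nat_lit 203)) (XT.lf (nat_lit 0) (nat_lit 29743655882) (nat_lit 304) (nat_lit 4619623562) (nat_lit 76) (nat_lit 52277385583) (nat_lit 162) (nat_lit 5) (nat_lit 166) (nat_lit 5) (nat_lit 163) (nat_lit 5) (nat_lit 531) (nat_lit 467) (nat_lit 202))) (XT.nd (nat_lit 78) (nat_lit 228) (nat_lit 0) (XT.lf (nat_lit 0) (nat_lit 49815866508) (nat_lit 228) (nat_lit 1902031058) (nat_lit 304) (nat_lit 36545410010) (nat_lit 159) (nat_lit 5) (nat_lit 162) (nat_lit 5) (nat_lit 163)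 (nat_lit 5) (nat_lit 532) (nat_lit 467) (nat_lit 201)) (XT.lf (nat_lit 0) (nat_lit 16054343135) (nat_lit 228) (nat_lit 58800814750) (nat_lit 304) (nat_lit 15064357791) (nat_lit 156) (nat_lit 5) (nat_lit 159) (nat_lit 5) (nat_lit 160) (nat_lit 5) (nat_lit 533) (nat_lit 467) (nat_lit 200))))) (XT.nd (nat_lit 312) (nat_lit 608) (nat_lit 0) (XT.nd (nat_lit 156) (nat_lit 228) (nat_lit 0) (XT.nd (nat_lit 78) (nat_lit 228) (nat_lit 0) (XT.lf (nat_lit 0) (nat_lit 7333501744) (nat_lit 304) (nat_lit 18726248823) (nat_lit 76) (nat_lit 65551318279) (nat_lit 155) (nat_lit 5) (nat_lit 159) (nat_lit 5) (nat_lit 156) (nat_lit 5) (nat_lit 534) (nat_lit 467) (nat_lit 199)) (XT.lf (nat_lit 0) (nat_lit 30550333897) (nat_lit 304) (nat_lit 54745494289) (nat_lit 76) (nat_lit 8039571410) (nat_lit 152) (nat_lit 5) (nat_lit 156) (nat_lit 5) (nat_lit 153) (nat_lit 5) (nat_lit 535) (nat_lit 467) (nat_lit 198))) (XT.nd (nat_lit 78) (nat_lit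 0) (nat_lit 0) (XT.lf (nat_lit 0) (nat_lit 2695109359) (nat_lit 228) (nat_lit 52242727936) (nat_lit 304) (nat_lit 40159398001) (nat_lit 149) (nat_lit 5) (nat_lit 152) (nat_lit 5) (nat_lit 153) (nat_lit 5) (nat_lit 536) (nat_lit 467) (nat_lit 197)) (XT.lf (nat_lit 0) (nat_lit 62979953206) (nat_lit 228) (nat_lit 17629115614) (nat_lit 304) (nat_lit 16286294170) (nat_lit 149) (nat_lit 5) (nat_lit 152) (nat_lit 5) (nat_lit 153) (nat_lit 5) (nat_lit 537) (nat_lit 467) (nat_lit 196)))) (XT.nd (nat_lit 156) (nat_lit 380) (nat_lit 0) (XT.nd (nat_lit 78) (nat_lit 0) (nat_lit 0) (XT.lf (nat_lit 0) (nat_lit 8574159562) (nat_lit 228) (nat_lit 72146688857) (nat_lit 76) (nat_lit 18011196354) (nat_lit 146) (nat_lit 5) (nat_lit 149) (nat_lit 5) (nat_lit 147) (nat_lit 5) (nat_lit 538) (nat_lit 467) (nat_lit 195)) (XT.lf (nat_lit 0) (nat_lit 34372803787) (nat_lit 228) (nat_lit 11357552848) (nat_lit 76) (nat_lit 54873041415) (nat_lit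 146) (nat_lit 5) (nat_lit 149) (nat_lit 5) (nat_lit 147) (nat_lit 5) (nat_lit 539) (nat_lit 467) (nat_lit 194))) (XT.nd (nat_lit 78) (nat_lit 152) (nat_lit 0) (XT.lf (nat_lit 0) (nat_lit 52274158599) (nat_lit 228) (nat_lit 9173059881) (nat_lit 304) (nat_lit 41068619123) (nat_lit 143) (nat_lit 5) (nat_lit 146) (nat_lit 5) (nat_lit 147) (nat_lit 5) (nat_lit 540) (nat_lit 467) (nat_lit 193)) (XT.lf (nat_lit 0) (nat_lit 13553842772) (nat_lit 152) (nat_lit 76299235798) (nat_lit 228) (nat_lit 14616995397) (nat_lit 141) (nat_lit 5) (nat_lit 143) (nat_lit 5) (nat_lit 144) (nat_lit 5) (nat_lit 541) (nat_lit 467) (nat_lit 192))))))))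
noncomputable def xc221 : XT := (XT.nd (nat_lit 58812) (nat_lit 0) (nat_lit 2964) (XT.nd (nat_lit 57564) (nat_lit 0) (nat_lit 10640) (XT.nd (nat_lit 56940) (nat_lit 0) (nat_lit 14668) (XT.nd (nat_lit 234) (nat_lit 152) (nat_lit 0) (XT.nd (nat_lit 78) (nat_lit 228) (nat_lit 0) (XT.lf (nat_lit 0) (nat_lit 12984270067) (nat_lit 228) (nat_lit 26392979189) (nat_lit 76) (nat_lit 67083971055) (nat_lit 140) (nat_lit 5) (nat_lit 143) (nat_lit 5) (nat_lit 141) (nat_lit 5) (nat_lit 542) (nat_lit 467) (nat_lit 191)) (XT.nd (nat_lit 78) (nat_lit 0) (nat_lit 0) (XT.lf (nat_lit 0) (nat_lit 40714608070) (nat_lit 228) (nat_lit 795897866) (nat_lit 304) (nat_lit 66985531850) (nat_lit 137) (nat_lit 5) (nat_lit 140) (nat_lit 5) (nat_lit 141) (nat_lit 5) (nat_lit 543) (nat_lit 467) (nat_lit 190)) (XT.lf (nat_lit 0) (nat_lit 71535377569) (nat_lit 304) (nat_lit 585564851) (nat_lit 76) (nat_lit 38451671917) (nat_lit 137) (nat_lit 5) (nat_lit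 141) (nat_lit 5) (nat_lit 138) (nat_lit 5) (nat_lit 544) (nat_lit 467) (nat_lit 189)))) (XT.nd (nat_lit 56550) (nat_lit 0) (nat_lit 14592) (XT.nd (nat_lit 56472) (nat_lit 0) (nat_lit 14592) (XT.lf (nat_lit 0) (nat_lit 69982813490) (nat_lit 152) (nat_lit 33158148235) (nat_lit 228) (nat_lit 9550127479) (nat_lit 135) (nat_lit 5) (nat_lit 137) (nat_lit 5) (nat_lit 138) (nat_lit 5) (nat_lit 545) (nat_lit 467) (nat_lit 188)) (XT.lf (nat_lit 0) (nat_lit 8092712039) (nat_lit 1292) (nat_lit 3540055698) (nat_lit 1292) (nat_lit 3540055698) (nat_lit 327) (nat_lit 3) (nat_lit 344) (nat_lit 3) (nat_lit 344) (nat_lit 5) (nat_lit 468) (nat_lit 468) (nat_lit 264))) (XT.nd (nat_lit 78) (nat_lit 0) (nat_lit 76) (XT.lf (nat_lit 76) (nat_lit 8191615095) (nat_lit 0) (nat_lit 8386313364) (nat_lit 1292) (nat_lit 14218408148) (nat_lit 328) (nat_lit 5) (nat_lit 327) (nat_lit 3) (nat_lit 344) (nat_lit 5) (nat_lit 469) (nat_lit 468) (nat_lit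 263)) (XT.lf (nat_lit 0) (nat_lit 17118344373) (nat_lit 1216) (nat_lit 7260737503) (nat_lit 1292) (nat_lit 6877381195) (nat_lit 328) (nat_lit 5) (nat_lit 344) (nat_lit 5) (nat_lit 345) (nat_lit 5) (nat_lit 470) (nat_lit 468) (nat_lit 262))))) (XT.nd (nat_lit 312) (nat_lit 0) (nat_lit 152) (XT.nd (nat_lit 156) (nat_lit 0) (nat_lit 76) (XT.nd (nat_lit 78) (nat_lit 0) (nat_lit 76) (XT.lf (nat_lit 76) (nat_lit 8627378113) (nat_lit 0) (nat_lit 9210868442) (nat_lit 1292) (nat_lit 13887248685) (nat_lit 329) (nat_lit 5) (nat_lit 328) (nat_lit 5) (nat_lit 345) (nat_lit 5) (nat_lit 471) (nat_lit 468) (nat_lit 261)) (XT.lf (nat_lit 0) (nat_lit 18712815067) (nat_lit 1216) (nat_lit 7129370750) (nat_lit 1292) (nat_lit 6362420599) (nat_lit 329) (nat_lit 5) (nat_lit 345) (nat_lit 5) (nat_lit 346) (nat_lit 5) (nat_lit 472) (nat_lit 468) (nat_lit 260))) (XT.nd (nat_lit 78) (nat_lit 0) (nat_lit 76) (XT.lf (nat_lit 76) (nat_lit 9409315609)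 (nat_lit 0) (nat_lit 10383410317) (nat_lit 1292) (nat_lit 12899991961) (nat_lit 330) (nat_lit 5) (nat_lit 329) (nat_lit 5) (nat_lit 346) (nat_lit 5) (nat_lit 473) (nat_lit 468) (nat_lit 259)) (XT.lf (nat_lit 0) (nat_lit 21028514123) (nat_lit 1216) (nat_lit 6658567565) (nat_lit 1292) (nat_lit 5504686727) (nat_lit 330) (nat_lit 5) (nat_lit 346) (nat_lit 5) (nat_lit 347) (nat_lit 5) (nat_lit 474) (nat_lit 468) (nat_lit 258)))) (XT.nd (nat_lit 156) (nat_lit 0) (nat_lit 76) (XT.nd (nat_lit 78) (nat_lit 0) (nat_lit 76) (XT.lf (nat_lit 76) (nat_lit 10566846069) (nat_lit 0) (nat_lit 11936511952) (nat_lit 1292) (nat_lit 11196373085) (nat_lit 331) (nat_lit 5) (nat_lit 330) (nat_lit 5) (nat_lit 347) (nat_lit 5) (nat_lit 475) (nat_lit 468) (nat_lit 257)) (XT.lf (nat_lit 0) (nat_lit 24129220406) (nat_lit 1216) (nat_lit 5818890382) (nat_lit 1292) (nat_lit 4271618803) (nat_lit 331) (nat_lit 5) (nat_lit 347) (nat_lit 5) (nat_lit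 348) (nat_lit 5) (nat_lit 476) (nat_lit 468) (nat_lit 256))) (XT.nd (nat_lit 78) (nat_lit 0) (nat_lit 76) (XT.lf (nat_lit 76) (nat_lit 12131497048) (nat_lit 0) (nat_lit 13904892099) (nat_lit 1292) (nat_lit 8711963071) (nat_lit 332) (nat_lit 5) (nat_lit 331) (nat_lit 5) (nat_lit 348) (nat_lit 5) (nat_lit 477) (nat_lit 468) (nat_lit 255)) (XT.lf (nat_lit 0) (nat_lit 28083084792) (nat_lit 1216) (nat_lit 4578786803) (nat_lit 1292) (nat_lit 2628492677) (nat_lit 332) (nat_lit 5) (nat_lit 348) (nat_lit 5) (nat_lit 349) (nat_lit 5) (nat_lit 478) (nat_lit 468) (nat_lit 254)))))) (XT.nd (nat_lit 624) (nat_lit 2432) (nat_lit 0) (XT.nd (nat_lit 312) (nat_lit 684) (nat_lit 0) (XT.nd (nat_lit 156) (nat_lit 1216) (nat_lit 0) (XT.nd (nat_lit 78) (nat_lit 0) (nat_lit 76) (XT.lf (nat_lit 76) (nat_lit 14137032825) (nat_lit 0) (nat_lit 16325568137) (nat_lit 1292) (nat_lit 5377893233) (nat_lit 333) (nat_lit 5) (nat_lit 332) (nat_lit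 5) (nat_lit 349) (nat_lit 5) (nat_lit 479) (nat_lit 468) (nat_lit 253)) (XT.lf (nat_lit 0) (nat_lit 32962917612) (nat_lit 1216) (nat_lit 2904460923) (nat_lit 1292) (nat_lit 538267126) (nat_lit 333) (nat_lit 5) (nat_lit 349) (nat_lit 5) (nat_lit 350) (nat_lit 5) (nat_lit 480) (nat_lit 468) (nat_lit 252))) (XT.nd (nat_lit 78) (nat_lit 1292) (nat_lit 0) (XT.lf (nat_lit 76) (nat_lit 16619590286) (nat_lit 0) (nat_lit 19238017623) (nat_lit 1292) (nat_lit 1120562930) (nat_lit 334) (nat_lit 5) (nat_lit 333) (nat_lit 5) (nat_lit 350) (nat_lit 5) (nat_lit 481) (nat_lit 468) (nat_lit 251)) (XT.lf (nat_lit 0) (nat_lit 1274071396) (nat_lit 1292) (nat_lit 792213368) (nat_lit 1368) (nat_lit 35500392152) (nat_lit 316) (nat_lit 5) (nat_lit 333) (nat_lit 5) (nat_lit 334) (nat_lit 5) (nat_lit 482) (nat_lit 468) (nat_lit 250)))) (XT.nd (nat_lit 156) (nat_lit 760) (nat_lit 0) (XT.nd (nat_lit 78) (nat_lit 0) (nat_lit 0) (XT.lf (nat_lit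 0) (nat_lit 4057910012) (nat_lit 1292) (nat_lit 18585462249) (nat_lit 1368) (nat_lit 15518936533) (nat_lit 317) (nat_lit 5) (nat_lit 334) (nat_lit 5) (nat_lit 335) (nat_lit 5) (nat_lit 483) (nat_lit 468) (nat_lit 249)) (XT.lf (nat_lit 76) (nat_lit 1810835703) (nat_lit 0) (nat_lit 5158467557) (nat_lit 1368) (nat_lit 31805185268) (nat_lit 318) (nat_lit 5) (nat_lit 317) (nat_lit 5) (nat_lit 335) (nat_lit 5) (nat_lit 484) (nat_lit 468) (nat_lit 248))) (XT.nd (nat_lit 78) (nat_lit 836) (nat_lit 0) (XT.lf (nat_lit 0) (nat_lit 10279242809) (nat_lit 1292) (nat_lit 16326440494) (nat_lit 76) (nat_lit 12790014294) (nat_lit 318) (nat_lit 5) (nat_lit 335) (nat_lit 5) (nat_lit 319) (nat_lit 5) (nat_lit 485) (nat_lit 468) (nat_lit 247)) (XT.lf (nat_lit 0) (nat_lit 4974274672) (nat_lit 836) (nat_lit 8811287881) (nat_lit 912) (nat_lit 26247068003) (nat_lit 307) (nat_lit 5) (nat_lit 318) (nat_lit 5) (nat_lit 319) (nat_lit 5) (nat_lit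 486) (nat_lit 468) (nat_lit 246))))) (XT.nd (nat_lit 312) (nat_lit 1216) (nat_lit 0) (XT.nd (nat_lit 156) (nat_lit 608) (nat_lit 0) (XT.nd (nat_lit 78) (nat_lit 608) (nat_lit 0) (XT.lf (nat_lit 0) (nat_lit 17653283301) (nat_lit 912) (nat_lit 13529798000) (nat_lit 76) (nat_lit 9497903936) (nat_lit 307) (nat_lit 5) (nat_lit 319) (nat_lit 5) (nat_lit 308) (nat_lit 5) (nat_lit 487) (nat_lit 468) (nat_lit 245)) (XT.lf (nat_lit 0) (nat_lit 8726056044) (nat_lit 608) (nat_lit 13080383205) (nat_lit 684) (nat_lit 19537269274) (nat_lit 299) (nat_lit 5) (nat_lit 307) (nat_lit 5) (nat_lit 308) (nat_lit 5) (nat_lit 488) (nat_lit 468) (nat_lit 244))) (XT.nd (nat_lit 78) (nat_lit 608) (nat_lit 0) (XT.lf (nat_lit 0) (nat_lit 26273983715) (nat_lit 684) (nat_lit 10151764918) (nat_lit 76) (nat_lit 5594871131) (nat_lit 299) (nat_lit 5) (nat_lit 308) (nat_lit 5) (nat_lit 300) (nat_lit 5) (nat_lit 489) (nat_lit 468) (nat_lit 243)) (XT.lf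 (nat_lit 0) (nat_lit 13112884956) (nat_lit 608) (nat_lit 18016595044) (nat_lit 684) (nat_lit 11580740646) (nat_lit 291) (nat_lit 5) (nat_lit 299) (nat_lit 5) (nat_lit 300) (nat_lit 5) (nat_lit 490) (nat_lit 468) (nat_lit 242)))) (XT.nd (nat_lit 156) (nat_lit 684) (nat_lit 0) (XT.nd (nat_lit 78) (nat_lit 532) (nat_lit 0) (XT.lf (nat_lit 0) (nat_lit 36241651805) (nat_lit 684) (nat_lit 6145573904) (nat_lit 76) (nat_lit 1029953594) (nat_lit 291) (nat_lit 5) (nat_lit 300) (nat_lit 5) (nat_lit 292) (nat_lit 5) (nat_lit 491) (nat_lit 468) (nat_lit 241)) (XT.lf (nat_lit 0) (nat_lit 18184635472) (nat_lit 532) (nat_lit 23674184266) (nat_lit 608) (nat_lit 2275978116) (nat_lit 284) (nat_lit 5) (nat_lit 291) (nat_lit 5) (nat_lit 292) (nat_lit 5) (nat_lit 492) (nat_lit 468) (nat_lit 240))) (XT.nd (nat_lit 78) (nat_lit 608) (nat_lit 0) (XT.lf (nat_lit 0) (nat_lit 2777629018) (nat_lit 608) (nat_lit 1530186718) (nat_lit 76) (nat_lit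 40563496273) (nat_lit 283) (nat_lit 5) (nat_lit 291) (nat_lit 5) (nat_lit 284) (nat_lit 5) (nat_lit 493) (nat_lit 468) (nat_lit 239)) (XT.lf (nat_lit 0) (nat_lit 8319812598) (nat_lit 684) (nat_lit 21707233351) (nat_lit 76) (nat_lit 15590718272) (nat_lit 275) (nat_lit 5) (nat_lit 284) (nat_lit 5) (nat_lit 276) (nat_lit 5) (nat_lit 494) (nat_lit 468) (nat_lit 238))))))) (XT.nd (nat_lit 1248) (nat_lit 3420) (nat_lit 0) (XT.nd (nat_lit 624) (nat_lit 1748) (nat_lit 0) (XT.nd (nat_lit 312) (nat_lit 1444) (nat_lit 0) (XT.nd (nat_lit 156) (nat_lit 532) (nat_lit 0) (XT.nd (nat_lit 78) (nat_lit 0) (nat_lit 0) (XT.lf (nat_lit 0) (nat_lit 3789260111) (nat_lit 532) (nat_lit 10332217963) (nat_lit 608) (nat_lit 32262335491) (nat_lit 268) (nat_lit 5) (nat_lit 275) (nat_lit 5) (nat_lit 276) (nat_lit 5) (nat_lit 495) (nat_lit 468) (nat_lit 237)) (XT.lf (nat_lit 0) (nat_lit 20412804819) (nat_lit 608) (nat_lit 16770086920) (nat_lit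 76) (nat_lit 9980484368) (nat_lit 268) (nat_lit 5) (nat_lit 276) (nat_lit 5) (nat_lit 269) (nat_lit 5) (nat_lit 496) (nat_lit 468) (nat_lit 236))) (XT.nd (nat_lit 78) (nat_lit 0) (nat_lit 0) (XT.lf (nat_lit 0) (nat_lit 9918817814) (nat_lit 532) (nat_lit 17170302184) (nat_lit 608) (nat_lit 20871318122) (nat_lit 261) (nat_lit 5) (nat_lit 268) (nat_lit 5) (nat_lit 269) (nat_lit 5) (nat_lit 497) (nat_lit 468) (nat_lit 235)) (XT.lf (nat_lit 0) (nat_lit 34168467379) (nat_lit 608) (nat_lit 11060514184) (nat_lit 76) (nat_lit 3546348200) (nat_lit 261) (nat_lit 5) (nat_lit 269) (nat_lit 5) (nat_lit 262) (nat_lit 5) (nat_lit 498) (nat_lit 468) (nat_lit 234)))) (XT.nd (nat_lit 156) (nat_lit 988) (nat_lit 0) (XT.nd (nat_lit 78) (nat_lit 0) (nat_lit 0) (XT.lf (nat_lit 0) (nat_lit 16888041573) (nat_lit 456) (nat_lit 24903162810) (nat_lit 532) (nat_lit 7813533549) (nat_lit 255) (nat_lit 5) (nat_lit 261) (nat_lit 5) (nat_lit 262)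 (nat_lit 5) (nat_lit 499) (nat_lit 468) (nat_lit 233)) (XT.lf (nat_lit 0) (nat_lit 45900271598) (nat_lit 456) (nat_lit 3852733688) (nat_lit 532) (nat_lit 702711655) (nat_lit 255) (nat_lit 5) (nat_lit 261) (nat_lit 5) (nat_lit 262) (nat_lit 5) (nat_lit 500) (nat_lit 468) (nat_lit 232))) (XT.nd (nat_lit 78) (nat_lit 456) (nat_lit 0) (XT.lf (nat_lit 0) (nat_lit 6904398619) (nat_lit 532) (nat_lit 26626743069) (nat_lit 76) (nat_lit 17786809047) (nat_lit 248) (nat_lit 5) (nat_lit 255) (nat_lit 5) (nat_lit 249) (nat_lit 5) (nat_lit 501) (nat_lit 468) (nat_lit 231)) (XT.lf (nat_lit 0) (nat_lit 2709774821) (nat_lit 456) (nat_lit 12125212757) (nat_lit 532) (nat_lit 37367573609) (nat_lit 242) (nat_lit 5) (nat_lit 248) (nat_lit 5) (nat_lit 249) (nat_lit 5) (nat_lit 502) (nat_lit 468) (nat_lit 230))))) (XT.nd (nat_lit 312) (nat_lit 912) (nat_lit 0) (XT.nd (nat_lit 156) (nat_lit 380) (nat_lit 0) (XT.nd (nat_lit 78) (nat_lit 456)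 (nat_lit 0) (XT.lf (nat_lit 0) (nat_lit 23369177768) (nat_lit 532) (nat_lit 19733014868) (nat_lit 76) (nat_lit 10000546854) (nat_lit 242) (nat_lit 5) (nat_lit 249) (nat_lit 5) (nat_lit 243) (nat_lit 5) (nat_lit 503) (nat_lit 468) (nat_lit 229)) (XT.lf (nat_lit 0) (nat_lit 11012909854) (nat_lit 456) (nat_lit 21371192984) (nat_lit 532) (nat_lit 21639079071) (nat_lit 236) (nat_lit 5) (nat_lit 242) (nat_lit 5) (nat_lit 243) (nat_lit 5) (nat_lit 504) (nat_lit 468) (nat_lit 228))) (XT.nd (nat_lit 78) (nat_lit 380) (nat_lit 0) (XT.lf (nat_lit 0) (nat_lit 41879251636) (nat_lit 532) (nat_lit 11892746248) (nat_lit 76) (nat_lit 1192946480) (nat_lit 236) (nat_lit 5) (nat_lit 243) (nat_lit 5) (nat_lit 237) (nat_lit 5) (nat_lit 505) (nat_lit 468) (nat_lit 227)) (XT.lf (nat_lit 0) (nat_lit 20342194759) (nat_lit 380) (nat_lit 31723045171) (nat_lit 456) (nat_lit 3857540252) (nat_lit 231) (nat_lit 5) (nat_lit 236) (nat_lit 5) (nat_lit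 237) (nat_lit 5) (nat_lit 506) (nat_lit 468) (nat_lit 226)))) (XT.nd (nat_lit 156) (nat_lit 380) (nat_lit 0) (XT.nd (nat_lit 78) (nat_lit 456) (nat_lit 0) (XT.lf (nat_lit 0) (nat_lit 5657392857) (nat_lit 456) (nat_lit 3174723039) (nat_lit 76) (nat_lit 48072002463) (nat_lit 230) (nat_lit 5) (nat_lit 236) (nat_lit 5) (nat_lit 231) (nat_lit 5) (nat_lit 507) (nat_lit 468) (nat_lit 225)) (XT.lf (nat_lit 0) (nat_lit 15819899035) (nat_lit 532) (nat_lit 27285950057) (nat_lit 76) (nat_lit 14794712087) (nat_lit 224) (nat_lit 5) (nat_lit 231) (nat_lit 5) (nat_lit 225) (nat_lit 5) (nat_lit 508) (nat_lit 468) (nat_lit 224))) (XT.nd (nat_lit 78) (nat_lit 0) (nat_lit 0) (XT.lf (nat_lit 0) (nat_lit 6596276160) (nat_lit 380) (nat_lit 19873139044) (nat_lit 456) (nat_lit 32452018073) (nat_lit 219) (nat_lit 5) (nat_lit 224) (nat_lit 5) (nat_lit 225) (nat_lit 5) (nat_lit 509) (nat_lit 468) (nat_lit 223)) (XT.lf (nat_lit 0) (nat_lit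 37754593102) (nat_lit 456) (nat_lit 17953543344) (nat_lit 76) (nat_lit 4255309839) (nat_lit 219) (nat_lit 5) (nat_lit 225) (nat_lit 5) (nat_lit 220) (nat_lit 5) (nat_lit 510) (nat_lit 468) (nat_lit 222)))))) (XT.nd (nat_lit 624) (nat_lit 1520) (nat_lit 0) (XT.nd (nat_lit 312) (nat_lit 684) (nat_lit 0) (XT.nd (nat_lit 156) (nat_lit 760) (nat_lit 0) (XT.nd (nat_lit 78) (nat_lit 76) (nat_lit 0) (XT.lf (nat_lit 0) (nat_lit 17594366984) (nat_lit 380) (nat_lit 32148801916) (nat_lit 456) (nat_lit 11282605540) (nat_lit 214) (nat_lit 5) (nat_lit 219) (nat_lit 5) (nat_lit 220) (nat_lit 5) (nat_lit 511) (nat_lit 468) (nat_lit 221)) (XT.lf (nat_lit 0) (nat_lit 154035438) (nat_lit 456) (nat_lit 7540733737) (nat_lit 76) (nat_lit 54419750084) (nat_lit 213) (nat_lit 5) (nat_lit 219) (nat_lit 5) (nat_lit 214) (nat_lit 5) (nat_lit 512) (nat_lit 468) (nat_lit 220))) (XT.nd (nat_lit 78) (nat_lit 380) (nat_lit 0) (XT.lf (nat_lit 0)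 (nat_lit 12165482723) (nat_lit 456) (nat_lit 33499118347) (nat_lit 76) (nat_lit 17554219825) (nat_lit 208) (nat_lit 5) (nat_lit 214) (nat_lit 5) (nat_lit 209) (nat_lit 5) (nat_lit 513) (nat_lit 468) (nat_lit 219)) (XT.lf (nat_lit 0) (nat_lit 3896256926) (nat_lit 380) (nat_lit 20830556964) (nat_lit 456) (nat_lit 39623751509) (nat_lit 203) (nat_lit 5) (nat_lit 208) (nat_lit 5) (nat_lit 209) (nat_lit 5) (nat_lit 514) (nat_lit 468) (nat_lit 218)))) (XT.nd (nat_lit 156) (nat_lit 380) (nat_lit 0) (XT.nd (nat_lit 78) (nat_lit 304) (nat_lit 0) (XT.lf (nat_lit 0) (nat_lit 38051268087) (nat_lit 456) (nat_lit 22456323983) (nat_lit 76) (nat_lit 4997081702) (nat_lit 203) (nat_lit 5) (nat_lit 209) (nat_lit 5) (nat_lit 204) (nat_lit 5) (nat_lit 515) (nat_lit 468) (nat_lit 217)) (XT.lf (nat_lit 0) (nat_lit 16801854889) (nat_lit 304) (nat_lit 35340395473) (nat_lit 380) (nat_lit 14540151229) (nat_lit 199) (nat_lit 5) (nat_lit 203)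 (nat_lit 5) (nat_lit 204) (nat_lit 5) (nat_lit 516) (nat_lit 468) (nat_lit 216))) (XT.nd (nat_lit 78) (nat_lit 380) (nat_lit 0) (XT.lf (nat_lit 0) (nat_lit 57696758435) (nat_lit 304) (nat_lit 9185025026) (nat_lit 380) (nat_lit 1006903172) (nat_lit 199) (nat_lit 5) (nat_lit 203) (nat_lit 5) (nat_lit 204) (nat_lit 5) (nat_lit 517) (nat_lit 468) (nat_lit 215)) (XT.lf (nat_lit 0) (nat_lit 13153550659) (nat_lit 380) (nat_lit 38123394591) (nat_lit 76) (nat_lit 17836278646) (nat_lit 194) (nat_lit 5) (nat_lit 199) (nat_lit 5) (nat_lit 195) (nat_lit 5) (nat_lit 518) (nat_lit 468) (nat_lit 214))))) (XT.nd (nat_lit 312) (nat_lit 836) (nat_lit 0) (XT.nd (nat_lit 156) (nat_lit 380) (nat_lit 0) (XT.nd (nat_lit 78) (nat_lit 0) (nat_lit 0) (XT.lf (nat_lit 0) (nat_lit 3203800151) (nat_lit 304) (nat_lit 24739540646) (nat_lit 380) (nat_lit 42424114612) (nat_lit 190) (nat_lit 5) (nat_lit 194) (nat_lit 5) (nat_lit 195) (nat_lit 5) (nat_lit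 519) (nat_lit 468) (nat_lit 213)) (XT.lf (nat_lit 0) (nat_lit 43589637731) (nat_lit 380) (nat_lit 25125560823) (nat_lit 76) (nat_lit 2931730944) (nat_lit 190) (nat_lit 5) (nat_lit 195) (nat_lit 5) (nat_lit 191) (nat_lit 5) (nat_lit 520) (nat_lit 468) (nat_lit 212))) (XT.nd (nat_lit 78) (nat_lit 76) (nat_lit 0) (XT.lf (nat_lit 0) (nat_lit 18284208179) (nat_lit 304) (nat_lit 41840941672) (nat_lit 380) (nat_lit 12827043195) (nat_lit 186) (nat_lit 5) (nat_lit 190) (nat_lit 5) (nat_lit 191) (nat_lit 5) (nat_lit 521) (nat_lit 468) (nat_lit 211)) (XT.lf (nat_lit 0) (nat_lit 3059658536) (nat_lit 380) (nat_lit 10809006166) (nat_lit 76) (nat_lit 60419464322) (nat_lit 185) (nat_lit 5) (nat_lit 190) (nat_lit 5) (nat_lit 186) (nat_lit 5) (nat_lit 522) (nat_lit 468) (nat_lit 210)))) (XT.nd (nat_lit 156) (nat_lit 228) (nat_lit 0) (XT.nd (nat_lit 78) (nat_lit 304) (nat_lit 0) (XT.lf (nat_lit 0) (nat_lit 19648178964) (nat_lit 380)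 (nat_lit 40879649676) (nat_lit 76) (nat_lit 15118013594) (nat_lit 181) (nat_lit 5) (nat_lit 186) (nat_lit 5) (nat_lit 182) (nat_lit 5) (nat_lit 523) (nat_lit 468) (nat_lit 209)) (XT.lf (nat_lit 0) (nat_lit 4844051951) (nat_lit 304) (nat_lit 32183570720) (nat_lit 380) (nat_lit 40007866162) (nat_lit 177) (nat_lit 5) (nat_lit 181) (nat_lit 5) (nat_lit 182) (nat_lit 5) (nat_lit 524) (nat_lit 468) (nat_lit 208))) (XT.nd (nat_lit 78) (nat_lit 228) (nat_lit 0) (XT.lf (nat_lit 0) (nat_lit 52776182321) (nat_lit 304) (nat_lit 2564243595) (nat_lit 380) (nat_lit 23114039646) (nat_lit 177) (nat_lit 5) (nat_lit 181) (nat_lit 5) (nat_lit 182) (nat_lit 5) (nat_lit 525) (nat_lit 468) (nat_lit 207)) (XT.lf (nat_lit 0) (nat_lit 22397450473) (nat_lit 228) (nat_lit 52288264237) (nat_lit 304) (nat_lit 5215803860) (nat_lit 174) (nat_lit 5) (nat_lit 177) (nat_lit 5) (nat_lit 178) (nat_lit 5) (nat_lit 526) (nat_lit 468) (nat_lit 206))))))))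
noncomputable def xc222 : XT := (XT.nd (nat_lit 58968) (nat_lit 0) (nat_lit 5776) (XT.nd (nat_lit 1170) (nat_lit 456) (nat_lit 0) (XT.nd (nat_lit 546) (nat_lit 1216) (nat_lit 0) (XT.nd (nat_lit 234) (nat_lit 532) (nat_lit 0) (XT.nd (nat_lit 78) (nat_lit 532) (nat_lit 0) (XT.lf (nat_lit 0) (nat_lit 13247873020) (nat_lit 304) (nat_lit 9098658541) (nat_lit 76) (nat_lit 59033045892) (nat_lit 173) (nat_lit 5) (nat_lit 177) (nat_lit 5) (nat_lit 174) (nat_lit 5) (nat_lit 527) (nat_lit 468) (nat_lit 205)) (XT.nd (nat_lit 78) (nat_lit 228) (nat_lit 0) (XT.lf (nat_lit 0) (nat_lit 32645028144) (nat_lit 380) (nat_lit 41458405519) (nat_lit 76) (nat_lit 8782463195) (nat_lit 169) (nat_lit 5) (nat_lit 174) (nat_lit 5) (nat_lit 170) (nat_lit 5) (nat_lit 528) (nat_lit 468) (nat_lit 204)) (XT.lf (nat_lit 0) (nat_lit 9176971416) (nat_lit 228) (nat_lit 43848608049) (nat_lit 304) (nat_lit 31399781951) (nat_lit 166) (nat_lit 5) (nat_lit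 169) (nat_lit 5) (nat_lit 170) (nat_lit 5) (nat_lit 529) (nat_lit 468) (nat_lit 203)))) (XT.nd (nat_lit 156) (nat_lit 228) (nat_lit 0) (XT.nd (nat_lit 78) (nat_lit 304) (nat_lit 0) (XT.lf (nat_lit 0) (nat_lit 62180046723) (nat_lit 228) (nat_lit 12255385828) (nat_lit 304) (nat_lit 11563040822) (nat_lit 166) (nat_lit 5) (nat_lit 169) (nat_lit 5) (nat_lit 170) (nat_lit 5) (nat_lit 530) (nat_lit 468) (nat_lit 202)) (XT.lf (nat_lit 0) (nat_lit 9178631248) (nat_lit 304) (nat_lit 58159859305) (nat_lit 76) (nat_lit 20263243851) (nat_lit 162) (nat_lit 5) (nat_lit 166) (nat_lit 5) (nat_lit 163) (nat_lit 5) (nat_lit 531) (nat_lit 468) (nat_lit 201))) (XT.nd (nat_lit 78) (nat_lit 228) (nat_lit 0) (XT.lf (nat_lit 0) (nat_lit 30673646620) (nat_lit 304) (nat_lit 4697049856) (nat_lit 76) (nat_lit 53868057274) (nat_lit 162) (nat_lit 5) (nat_lit 166) (nat_lit 5) (nat_lit 163) (nat_lit 5) (nat_lit 532) (nat_lit 468) (nat_lit 200))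 (XT.lf (nat_lit 0) (nat_lit 51370905284) (nat_lit 228) (nat_lit 1935694930) (nat_lit 304) (nat_lit 37603490845) (nat_lit 159) (nat_lit 5) (nat_lit 162) (nat_lit 5) (nat_lit 163) (nat_lit 5) (nat_lit 533) (nat_lit 468) (nat_lit 199))))) (XT.nd (nat_lit 312) (nat_lit 456) (nat_lit 0) (XT.nd (nat_lit 156) (nat_lit 456) (nat_lit 0) (XT.nd (nat_lit 78) (nat_lit 76) (nat_lit 0) (XT.lf (nat_lit 0) (nat_lit 16596824561) (nat_lit 228) (nat_lit 60540874579) (nat_lit 304) (nat_lit 15478294660) (nat_lit 156) (nat_lit 5) (nat_lit 159) (nat_lit 5) (nat_lit 160) (nat_lit 5) (nat_lit 534) (nat_lit 468) (nat_lit 198)) (XT.lf (nat_lit 0) (nat_lit 7589674240) (nat_lit 304) (nat_lit 19228237009) (nat_lit 76) (nat_lit 67540403932) (nat_lit 155) (nat_lit 5) (nat_lit 159) (nat_lit 5) (nat_lit 156) (nat_lit 5) (nat_lit 535) (nat_lit 468) (nat_lit 197))) (XT.nd (nat_lit 78) (nat_lit 228) (nat_lit 0) (XT.lf (nat_lit 0) (nat_lit 31502753312)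 (nat_lit 304) (nat_lit 56327801107) (nat_lit 76) (nat_lit 8303829198) (nat_lit 152) (nat_lit 5) (nat_lit 156) (nat_lit 5) (nat_lit 153) (nat_lit 5) (nat_lit 536) (nat_lit 468) (nat_lit 196)) (XT.lf (nat_lit 0) (nat_lit 2835431847) (nat_lit 228) (nat_lit 53785975714) (nat_lit 304) (nat_lit 41327681073) (nat_lit 149) (nat_lit 5) (nat_lit 152) (nat_lit 5) (nat_lit 153) (nat_lit 5) (nat_lit 537) (nat_lit 468) (nat_lit 195)))) (XT.nd (nat_lit 156) (nat_lit 228) (nat_lit 0) (XT.nd (nat_lit 78) (nat_lit 228) (nat_lit 0) (XT.lf (nat_lit 0) (nat_lit 64927088897) (nat_lit 228) (nat_lit 18134655044) (nat_lit 304) (nat_lit 16739447201) (nat_lit 149) (nat_lit 5) (nat_lit 152) (nat_lit 5) (nat_lit 153) (nat_lit 5) (nat_lit 538) (nat_lit 468) (nat_lit 194)) (XT.lf (nat_lit 0) (nat_lit 8865899392) (nat_lit 228) (nat_lit 74252430440) (nat_lit 76) (nat_lit 18574640223) (nat_lit 146) (nat_lit 5) (nat_lit 149) (nat_lit 5) (nat_lit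 147) (nat_lit 5) (nat_lit 539) (nat_lit 468) (nat_lit 193))) (XT.nd (nat_lit 78) (nat_lit 228) (nat_lit 0) (XT.lf (nat_lit 0) (nat_lit 35437497652) (nat_lit 228) (nat_lit 11641328867) (nat_lit 76) (nat_lit 56541667588) (nat_lit 146) (nat_lit 5) (nat_lit 149) (nat_lit 5) (nat_lit 147) (nat_lit 5) (nat_lit 540) (nat_lit 468) (nat_lit 192)) (XT.lf (nat_lit 0) (nat_lit 53898775584) (nat_lit 228) (nat_lit 9424935266) (nat_lit 304) (nat_lit 42266609032) (nat_lit 143) (nat_lit 5) (nat_lit 146) (nat_lit 5) (nat_lit 147) (nat_lit 5) (nat_lit 541) (nat_lit 468) (nat_lit 191)))))) (XT.nd (nat_lit 57174) (nat_lit 0) (nat_lit 14592) (XT.nd (nat_lit 56862) (nat_lit 0) (nat_lit 14440) (XT.nd (nat_lit 156) (nat_lit 228) (nat_lit 0) (XT.nd (nat_lit 78) (nat_lit 76) (nat_lit 0) (XT.lf (nat_lit 0) (nat_lit 14017058598) (nat_lit 152) (nat_lit 78564486453) (nat_lit 228) (nat_lit 15021644352) (nat_lit 141) (nat_lit 5) (nat_lit 143) (nat_lit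 5) (nat_lit 144) (nat_lit 5) (nat_lit 542) (nat_lit 468) (nat_lit 190)) (XT.lf (nat_lit 0) (nat_lit 13406031332) (nat_lit 228) (nat_lit 27129174552) (nat_lit 76) (nat_lit 69118883515) (nat_lit 140) (nat_lit 5) (nat_lit 143) (nat_lit 5) (nat_lit 141) (nat_lit 5) (nat_lit 543) (nat_lit 468) (nat_lit 189))) (XT.nd (nat_lit 56628) (nat_lit 0) (nat_lit 14440) (XT.lf (nat_lit 0) (nat_lit 41991095286) (nat_lit 228) (nat_lit 796549326) (nat_lit 304) (nat_lit 68962319093) (nat_lit 137) (nat_lit 5) (nat_lit 140) (nat_lit 5) (nat_lit 141) (nat_lit 5) (nat_lit 544) (nat_lit 468) (nat_lit 188)) (XT.lf (nat_lit 0) (nat_lit 8405791299) (nat_lit 1292) (nat_lit 3610052329) (nat_lit 1292) (nat_lit 3610052329) (nat_lit 327) (nat_lit 3) (nat_lit 344) (nat_lit 3) (nat_lit 344) (nat_lit 5) (nat_lit 469) (nat_lit 469) (nat_lit 262)))) (XT.nd (nat_lit 156) (nat_lit 0) (nat_lit 76) (XT.nd (nat_lit 78) (nat_lit 0) (nat_lit 76) (XT.lf (nat_lit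 76) (nat_lit 8509063725) (nat_lit 0) (nat_lit 8703392587) (nat_lit 1292) (nat_lit 14503648393) (nat_lit 328) (nat_lit 5) (nat_lit 327) (nat_lit 3) (nat_lit 344) (nat_lit 5) (nat_lit 470) (nat_lit 469) (nat_lit 261)) (XT.lf (nat_lit 0) (nat_lit 17764477686) (nat_lit 1216) (nat_lit 7404334672) (nat_lit 1292) (nat_lit 7021361000) (nat_lit 328) (nat_lit 5) (nat_lit 344) (nat_lit 5) (nat_lit 345) (nat_lit 5) (nat_lit 471) (nat_lit 469) (nat_lit 260))) (XT.nd (nat_lit 78) (nat_lit 0) (nat_lit 76) (XT.lf (nat_lit 76) (nat_lit 8959696717) (nat_lit 0) (nat_lit 9543125076) (nat_lit 1292) (nat_lit 14170549531) (nat_lit 329) (nat_lit 5) (nat_lit 328) (nat_lit 5) (nat_lit 345) (nat_lit 5) (nat_lit 472) (nat_lit 469) (nat_lit 259)) (XT.lf (nat_lit 0) (nat_lit 19399335639) (nat_lit 1216) (nat_lit 7267597821) (nat_lit 1292) (nat_lit 6500051300) (nat_lit 329) (nat_lit 5) (nat_lit 345) (nat_lit 5) (nat_lit 346) (nat_lit 5) (nat_lit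 473) (nat_lit 469) (nat_lit 258))))) (XT.nd (nat_lit 312) (nat_lit 0) (nat_lit 152) (XT.nd (nat_lit 156) (nat_lit 0) (nat_lit 76) (XT.nd (nat_lit 78) (nat_lit 0) (nat_lit 76) (XT.lf (nat_lit 76) (nat_lit 9766507422) (nat_lit 0) (nat_lit 10742211763) (nat_lit 1292) (nat_lit 13161108297) (nat_lit 330) (nat_lit 5) (nat_lit 329) (nat_lit 5) (nat_lit 346) (nat_lit 5) (nat_lit 474) (nat_lit 469) (nat_lit 257)) (XT.lf (nat_lit 0) (nat_lit 21777580045) (nat_lit 1216) (nat_lit 6781587742) (nat_lit 1292) (nat_lit 5624801930) (nat_lit 330) (nat_lit 5) (nat_lit 346) (nat_lit 5) (nat_lit 347) (nat_lit 5) (nat_lit 475) (nat_lit 469) (nat_lit 256))) (XT.nd (nat_lit 78) (nat_lit 0) (nat_lit 76) (XT.lf (nat_lit 76) (nat_lit 10959835978) (nat_lit 0) (nat_lit 12334120667) (nat_lit 1292) (nat_lit 11413296181) (nat_lit 331) (nat_lit 5) (nat_lit 330) (nat_lit 5) (nat_lit 347) (nat_lit 5) (nat_lit 476) (nat_lit 469) (nat_lit 255)) (XT.lf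 (nat_lit 0) (nat_lit 24964862122) (nat_lit 1216) (nat_lit 5915947806) (nat_lit 1292) (nat_lit 4362153475) (nat_lit 331) (nat_lit 5) (nat_lit 347) (nat_lit 5) (nat_lit 348) (nat_lit 5) (nat_lit 477) (nat_lit 469) (nat_lit 254)))) (XT.nd (nat_lit 156) (nat_lit 0) (nat_lit 76) (XT.nd (nat_lit 78) (nat_lit 0) (nat_lit 76) (XT.lf (nat_lit 76) (nat_lit 12572191353) (nat_lit 0) (nat_lit 14354537041) (nat_lit 1292) (nat_lit 8860791991) (nat_lit 332) (nat_lit 5) (nat_lit 331) (nat_lit 5) (nat_lit 348) (nat_lit 5) (nat_lit 478) (nat_lit 469) (nat_lit 253)) (XT.lf (nat_lit 0) (nat_lit 29031339646) (nat_lit 1216) (nat_lit 4638146343) (nat_lit 1292) (nat_lit 2676411513) (nat_lit 332) (nat_lit 5) (nat_lit 348) (nat_lit 5) (nat_lit 349) (nat_lit 5) (nat_lit 479) (nat_lit 469) (nat_lit 252))) (XT.nd (nat_lit 78) (nat_lit 0) (nat_lit 76) (XT.lf (nat_lit 76) (nat_lit 14638383127) (nat_lit 0) (nat_lit 16841520189) (nat_lit 1292) (nat_lit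 5432698287) (nat_lit 333) (nat_lit 5) (nat_lit 332) (nat_lit 5) (nat_lit 349) (nat_lit 5) (nat_lit 480) (nat_lit 469) (nat_lit 251)) (XT.lf (nat_lit 0) (nat_lit 34051972733) (nat_lit 1216) (nat_lit 2913343836) (nat_lit 1292) (nat_lit 529488882) (nat_lit 333) (nat_lit 5) (nat_lit 349) (nat_lit 5) (nat_lit 350) (nat_lit 5) (nat_lit 481) (nat_lit 469) (nat_lit 250))))))) (XT.nd (nat_lit 1248) (nat_lit 4180) (nat_lit 0) (XT.nd (nat_lit 624) (nat_lit 2356) (nat_lit 0) (XT.nd (nat_lit 312) (nat_lit 1292) (nat_lit 0) (XT.nd (nat_lit 156) (nat_lit 0) (nat_lit 76) (XT.nd (nat_lit 78) (nat_lit 1292) (nat_lit 0) (XT.lf (nat_lit 76) (nat_lit 17195661742) (nat_lit 0) (nat_lit 19835669314) (nat_lit 1292) (nat_lit 1053240641) (nat_lit 334) (nat_lit 5) (nat_lit 333) (nat_lit 5) (nat_lit 350) (nat_lit 5) (nat_lit 482) (nat_lit 469) (nat_lit 249)) (XT.lf (nat_lit 0) (nat_lit 1408380421) (nat_lit 1292) (nat_lit 738836347) (nat_lit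 1368) (nat_lit 36543573684) (nat_lit 316) (nat_lit 5) (nat_lit 333) (nat_lit 5) (nat_lit 334) (nat_lit 5) (nat_lit 483) (nat_lit 469) (nat_lit 248))) (XT.nd (nat_lit 78) (nat_lit 0) (nat_lit 0) (XT.lf (nat_lit 0) (nat_lit 4273500306) (nat_lit 1292) (nat_lit 19063644760) (nat_lit 1368) (nat_lit 15967213358) (nat_lit 317) (nat_lit 5) (nat_lit 334) (nat_lit 5) (nat_lit 335) (nat_lit 5) (nat_lit 484) (nat_lit 469) (nat_lit 247)) (XT.lf (nat_lit 76) (nat_lit 1943763881) (nat_lit 0) (nat_lit 5326493469) (nat_lit 1368) (nat_lit 32664705658) (nat_lit 318) (nat_lit 5) (nat_lit 317) (nat_lit 5) (nat_lit 335) (nat_lit 5) (nat_lit 485) (nat_lit 469) (nat_lit 246)))) (XT.nd (nat_lit 156) (nat_lit 608) (nat_lit 0) (XT.nd (nat_lit 78) (nat_lit 836) (nat_lit 0) (XT.lf (nat_lit 0) (nat_lit 10676695254) (nat_lit 1292) (nat_lit 16737116369) (nat_lit 76) (nat_lit 13161080837) (nat_lit 318) (nat_lit 5) (nat_lit 335) (nat_lit 5) (nat_lit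 319) (nat_lit 5) (nat_lit 486) (nat_lit 469) (nat_lit 245)) (XT.lf (nat_lit 0) (nat_lit 5201844592) (nat_lit 836) (nat_lit 9084518644) (nat_lit 912) (nat_lit 26944625523) (nat_lit 307) (nat_lit 5) (nat_lit 318) (nat_lit 5) (nat_lit 319) (nat_lit 5) (nat_lit 487) (nat_lit 469) (nat_lit 244))) (XT.nd (nat_lit 78) (nat_lit 608) (nat_lit 0) (XT.lf (nat_lit 0) (nat_lit 18267491828) (nat_lit 912) (nat_lit 13857004687) (nat_lit 76) (nat_lit 9774376386) (nat_lit 307) (nat_lit 5) (nat_lit 319) (nat_lit 5) (nat_lit 308) (nat_lit 5) (nat_lit 488) (nat_lit 469) (nat_lit 243)) (XT.lf (nat_lit 0) (nat_lit 9065753535) (nat_lit 608) (nat_lit 13477773525) (nat_lit 684) (nat_lit 20038002392) (nat_lit 299) (nat_lit 5) (nat_lit 307) (nat_lit 5) (nat_lit 308) (nat_lit 5) (nat_lit 489) (nat_lit 469) (nat_lit 242))))) (XT.nd (nat_lit 312) (nat_lit 1216) (nat_lit 0) (XT.nd (nat_lit 156) (nat_lit 532) (nat_lit 0) (XT.nd (nat_lit 78) (nat_lit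 608) (nat_lit 0) (XT.lf (nat_lit 0) (nat_lit 27142636987) (nat_lit 684) (nat_lit 10378207190) (nat_lit 76) (nat_lit 5757977781) (nat_lit 299) (nat_lit 5) (nat_lit 308) (nat_lit 5) (nat_lit 300) (nat_lit 5) (nat_lit 490) (nat_lit 469) (nat_lit 241)) (XT.lf (nat_lit 0) (nat_lit 13583616389) (nat_lit 608) (nat_lit 18558582527) (nat_lit 684) (nat_lit 11846960026) (nat_lit 291) (nat_lit 5) (nat_lit 299) (nat_lit 5) (nat_lit 300) (nat_lit 5) (nat_lit 491) (nat_lit 469) (nat_lit 240))) (XT.nd (nat_lit 78) (nat_lit 532) (nat_lit 0) (XT.lf (nat_lit 0) (nat_lit 37405425822) (nat_lit 684) (nat_lit 6252535754) (nat_lit 76) (nat_lit 1059434179) (nat_lit 291) (nat_lit 5) (nat_lit 300) (nat_lit 5) (nat_lit 292) (nat_lit 5) (nat_lit 492) (nat_lit 469) (nat_lit 239)) (XT.lf (nat_lit 0) (nat_lit 18806821026) (nat_lit 532) (nat_lit 24382795672) (nat_lit 608) (nat_lit 2266971021) (nat_lit 284) (nat_lit 5) (nat_lit 291) (nat_lit 5)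 (nat_lit 292) (nat_lit 5) (nat_lit 493) (nat_lit 469) (nat_lit 238)))) (XT.nd (nat_lit 156) (nat_lit 532) (nat_lit 0) (XT.nd (nat_lit 78) (nat_lit 608) (nat_lit 0) (XT.lf (nat_lit 0) (nat_lit 2934529055) (nat_lit 608) (nat_lit 1500211120) (nat_lit 76) (nat_lit 41780501139) (nat_lit 283) (nat_lit 5) (nat_lit 291) (nat_lit 5) (nat_lit 284) (nat_lit 5) (nat_lit 494) (nat_lit 469) (nat_lit 237)) (XT.lf (nat_lit 0) (nat_lit 8641586269) (nat_lit 684) (nat_lit 22281174441) (nat_lit 76) (nat_lit 16061368224) (nat_lit 275) (nat_lit 5) (nat_lit 284) (nat_lit 5) (nat_lit 276) (nat_lit 5) (nat_lit 495) (nat_lit 469) (nat_lit 236))) (XT.nd (nat_lit 78) (nat_lit 0) (nat_lit 0) (XT.lf (nat_lit 0) (nat_lit 3979456218) (nat_lit 532) (nat_lit 10636478722) (nat_lit 608) (nat_lit 33157265903) (nat_lit 268) (nat_lit 5) (nat_lit 275) (nat_lit 5) (nat_lit 276) (nat_lit 5) (nat_lit 496) (nat_lit 469) (nat_lit 235)) (XT.lf (nat_lit 0) (nat_lit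 21093992237) (nat_lit 608) (nat_lit 17196887988) (nat_lit 76) (nat_lit 10285330394) (nat_lit 268) (nat_lit 5) (nat_lit 276) (nat_lit 5) (nat_lit 269) (nat_lit 5) (nat_lit 497) (nat_lit 469) (nat_lit 234)))))) (XT.nd (nat_lit 624) (nat_lit 1748) (nat_lit 0) (XT.nd (nat_lit 312) (nat_lit 1444) (nat_lit 0) (XT.nd (nat_lit 156) (nat_lit 456) (nat_lit 0) (XT.nd (nat_lit 78) (nat_lit 0) (nat_lit 0) (XT.lf (nat_lit 0) (nat_lit 10291935834) (nat_lit 532) (nat_lit 17677383325) (nat_lit 608) (nat_lit 21427903743) (nat_lit 261) (nat_lit 5) (nat_lit 268) (nat_lit 5) (nat_lit 269) (nat_lit 5) (nat_lit 498) (nat_lit 469) (nat_lit 233)) (XT.lf (nat_lit 0) (nat_lit 35259155119) (nat_lit 608) (nat_lit 11317082350) (nat_lit 76) (nat_lit 3660380656) (nat_lit 261) (nat_lit 5) (nat_lit 269) (nat_lit 5) (nat_lit 262) (nat_lit 5) (nat_lit 499) (nat_lit 469) (nat_lit 232))) (XT.nd (nat_lit 78) (nat_lit 0) (nat_lit 0) (XT.lf (nat_lit 0)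 (nat_lit 17469192362) (nat_lit 456) (nat_lit 25640186440) (nat_lit 532) (nat_lit 7981565673) (nat_lit 255) (nat_lit 5) (nat_lit 261) (nat_lit 5) (nat_lit 262) (nat_lit 5) (nat_lit 500) (nat_lit 469) (nat_lit 231)) (XT.lf (nat_lit 0) (nat_lit 47349619106) (nat_lit 456) (nat_lit 3958537783) (nat_lit 532) (nat_lit 659352341) (nat_lit 255) (nat_lit 5) (nat_lit 261) (nat_lit 5) (nat_lit 262) (nat_lit 5) (nat_lit 501) (nat_lit 469) (nat_lit 230)))) (XT.nd (nat_lit 156) (nat_lit 456) (nat_lit 0) (XT.nd (nat_lit 78) (nat_lit 456) (nat_lit 0) (XT.lf (nat_lit 0) (nat_lit 7173678172) (nat_lit 532) (nat_lit 27350908387) (nat_lit 76) (nat_lit 18331036031) (nat_lit 248) (nat_lit 5) (nat_lit 255) (nat_lit 5) (nat_lit 249) (nat_lit 5) (nat_lit 502) (nat_lit 469) (nat_lit 229)) (XT.lf (nat_lit 0) (nat_lit 2864973304) (nat_lit 456) (nat_lit 12476111794) (nat_lit 532) (nat_lit 38425719315) (nat_lit 242) (nat_lit 5) (nat_lit 248) (nat_lit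 5) (nat_lit 249) (nat_lit 5) (nat_lit 503) (nat_lit 469) (nat_lit 228))) (XT.nd (nat_lit 78) (nat_lit 456) (nat_lit 0) (XT.lf (nat_lit 0) (nat_lit 24129642892) (nat_lit 532) (nat_lit 20251592443) (nat_lit 76) (nat_lit 10312802535) (nat_lit 242) (nat_lit 5) (nat_lit 249) (nat_lit 5) (nat_lit 243) (nat_lit 5) (nat_lit 504) (nat_lit 469) (nat_lit 227)) (XT.lf (nat_lit 0) (nat_lit 11415990287) (nat_lit 456) (nat_lit 21997994400) (nat_lit 532) (nat_lit 22228139869) (nat_lit 236) (nat_lit 5) (nat_lit 242) (nat_lit 5) (nat_lit 243) (nat_lit 5) (nat_lit 505) (nat_lit 469) (nat_lit 226))))) (XT.nd (nat_lit 312) (nat_lit 836) (nat_lit 0) (XT.nd (nat_lit 156) (nat_lit 532) (nat_lit 0) (XT.nd (nat_lit 78) (nat_lit 380) (nat_lit 0) (XT.lf (nat_lit 0) (nat_lit 43192421956) (nat_lit 532) (nat_lit 12177384793) (nat_lit 76) (nat_lit 1242380174) (nat_lit 236) (nat_lit 5) (nat_lit 243) (nat_lit 5) (nat_lit 237) (nat_lit 5) (nat_lit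 506) (nat_lit 469) (nat_lit 225)) (XT.lf (nat_lit 0) (nat_lit 21023897151) (nat_lit 380) (nat_lit 32659125280) (nat_lit 456) (nat_lit 3915764465) (nat_lit 231) (nat_lit 5) (nat_lit 236) (nat_lit 5) (nat_lit 237) (nat_lit 5) (nat_lit 507) (nat_lit 469) (nat_lit 224))) (XT.nd (nat_lit 78) (nat_lit 456) (nat_lit 0) (XT.lf (nat_lit 0) (nat_lit 5881852432) (nat_lit 456) (nat_lit 3199517647) (nat_lit 76) (nat_lit 49528227877) (nat_lit 230) (nat_lit 5) (nat_lit 236) (nat_lit 5) (nat_lit 231) (nat_lit 5) (nat_lit 508) (nat_lit 469) (nat_lit 223)) (XT.lf (nat_lit 0) (nat_lit 16348463281) (nat_lit 532) (nat_lit 28033309193) (nat_lit 76) (nat_lit 15254184755) (nat_lit 224) (nat_lit 5) (nat_lit 231) (nat_lit 5) (nat_lit 225) (nat_lit 5) (nat_lit 509) (nat_lit 469) (nat_lit 222)))) (XT.nd (nat_lit 156) (nat_lit 456) (nat_lit 0) (XT.nd (nat_lit 78) (nat_lit 0) (nat_lit 0) (XT.lf (nat_lit 0) (nat_lit 6864685581) (nat_lit 380)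 (nat_lit 20451885384) (nat_lit 456) (nat_lit 33370911396) (nat_lit 219) (nat_lit 5) (nat_lit 224) (nat_lit 5) (nat_lit 225) (nat_lit 5) (nat_lit 510) (nat_lit 469) (nat_lit 221)) (XT.lf (nat_lit 0) (nat_lit 38938921210) (nat_lit 456) (nat_lit 18422297865) (nat_lit 76) (nat_lit 4399578224) (nat_lit 219) (nat_lit 5) (nat_lit 225) (nat_lit 5) (nat_lit 220) (nat_lit 5) (nat_lit 511) (nat_lit 469) (nat_lit 220))) (XT.nd (nat_lit 78) (nat_lit 76) (nat_lit 0) (XT.lf (nat_lit 0) (nat_lit 18191364951) (nat_lit 380) (nat_lit 33094948663) (nat_lit 456) (nat_lit 11568706953) (nat_lit 214) (nat_lit 5) (nat_lit 219) (nat_lit 5) (nat_lit 220) (nat_lit 5) (nat_lit 512) (nat_lit 469) (nat_lit 219)) (XT.lf (nat_lit 0) (nat_lit 208515427) (nat_lit 456) (nat_lit 7698809548) (nat_lit 76) (nat_lit 56069132569) (nat_lit 213) (nat_lit 5) (nat_lit 219) (nat_lit 5) (nat_lit 214) (nat_lit 5) (nat_lit 513) (nat_lit 469) (nat_lit 218))))))))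
noncomputable def xc223 : XT := (XT.nd (nat_lit 59046) (nat_lit 0) (nat_lit 8740) (XT.nd (nat_lit 1170) (nat_lit 2508) (nat_lit 0) (XT.nd (nat_lit 546) (nat_lit 1292) (nat_lit 0) (XT.nd (nat_lit 234) (nat_lit 988) (nat_lit 0) (XT.nd (nat_lit 78) (nat_lit 380) (nat_lit 0) (XT.lf (nat_lit 0) (nat_lit 12579679661) (nat_lit 456) (nat_lit 34435317746) (nat_lit 76) (nat_lit 18098909662) (nat_lit 208) (nat_lit 5) (nat_lit 214) (nat_lit 5) (nat_lit 209) (nat_lit 5) (nat_lit 514) (nat_lit 469) (nat_lit 217)) (XT.nd (nat_lit 78) (nat_lit 0) (nat_lit 0) (XT.lf (nat_lit 0) (nat_lit 4081244528) (nat_lit 380) (nat_lit 21435826896) (nat_lit 456) (nat_lit 40762555905) (nat_lit 203) (nat_lit 5) (nat_lit 208) (nat_lit 5) (nat_lit 209) (nat_lit 5) (nat_lit 515) (nat_lit 469) (nat_lit 216)) (XT.lf (nat_lit 0) (nat_lit 39240031348) (nat_lit 456) (nat_lit 23062668005) (nat_lit 76) (nat_lit 5165696480) (nat_lit 203) (nat_lit 5) (nat_lit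 209) (nat_lit 5) (nat_lit 204) (nat_lit 5) (nat_lit 516) (nat_lit 469) (nat_lit 215)))) (XT.nd (nat_lit 156) (nat_lit 684) (nat_lit 0) (XT.nd (nat_lit 78) (nat_lit 0) (nat_lit 0) (XT.lf (nat_lit 0) (nat_lit 17372595982) (nat_lit 304) (nat_lit 36380412640) (nat_lit 380) (nat_lit 14928468940) (nat_lit 199) (nat_lit 5) (nat_lit 203) (nat_lit 5) (nat_lit 204) (nat_lit 5) (nat_lit 517) (nat_lit 469) (nat_lit 214)) (XT.lf (nat_lit 0) (nat_lit 59492404339) (nat_lit 304) (nat_lit 9440969274) (nat_lit 380) (nat_lit 990618204) (nat_lit 199) (nat_lit 5) (nat_lit 203) (nat_lit 5) (nat_lit 204) (nat_lit 5) (nat_lit 518) (nat_lit 469) (nat_lit 213))) (XT.nd (nat_lit 78) (nat_lit 304) (nat_lit 0) (XT.lf (nat_lit 0) (nat_lit 13593232661) (nat_lit 380) (nat_lit 39200934180) (nat_lit 76) (nat_lit 18391100268) (nat_lit 194) (nat_lit 5) (nat_lit 199) (nat_lit 5) (nat_lit 195) (nat_lit 5) (nat_lit 519) (nat_lit 469) (nat_lit 212)) (XT.lf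 (nat_lit 0) (nat_lit 3365427755) (nat_lit 304) (nat_lit 25460605627) (nat_lit 380) (nat_lit 43651112715) (nat_lit 190) (nat_lit 5) (nat_lit 194) (nat_lit 5) (nat_lit 195) (nat_lit 5) (nat_lit 520) (nat_lit 469) (nat_lit 211))))) (XT.nd (nat_lit 312) (nat_lit 608) (nat_lit 0) (XT.nd (nat_lit 156) (nat_lit 380) (nat_lit 0) (XT.nd (nat_lit 78) (nat_lit 304) (nat_lit 0) (XT.lf (nat_lit 0) (nat_lit 44940623359) (nat_lit 380) (nat_lit 25814625178) (nat_lit 76) (nat_lit 3039788782) (nat_lit 190) (nat_lit 5) (nat_lit 195) (nat_lit 5) (nat_lit 191) (nat_lit 5) (nat_lit 521) (nat_lit 469) (nat_lit 210)) (XT.lf (nat_lit 0) (nat_lit 18896802555) (nat_lit 304) (nat_lit 43074753087) (nat_lit 380) (nat_lit 13167922522) (nat_lit 186) (nat_lit 5) (nat_lit 190) (nat_lit 5) (nat_lit 191) (nat_lit 5) (nat_lit 522) (nat_lit 469) (nat_lit 209))) (XT.nd (nat_lit 78) (nat_lit 304) (nat_lit 0) (XT.lf (nat_lit 0) (nat_lit 3193268387) (nat_lit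 380) (nat_lit 11070240910) (nat_lit 76) (nat_lit 62252007925) (nat_lit 185) (nat_lit 5) (nat_lit 190) (nat_lit 5) (nat_lit 186) (nat_lit 5) (nat_lit 523) (nat_lit 469) (nat_lit 208)) (XT.lf (nat_lit 0) (nat_lit 20279030298) (nat_lit 380) (nat_lit 42042588557) (nat_lit 76) (nat_lit 15592355430) (nat_lit 181) (nat_lit 5) (nat_lit 186) (nat_lit 5) (nat_lit 182) (nat_lit 5) (nat_lit 524) (nat_lit 469) (nat_lit 207)))) (XT.nd (nat_lit 156) (nat_lit 304) (nat_lit 0) (XT.nd (nat_lit 78) (nat_lit 0) (nat_lit 0) (XT.lf (nat_lit 0) (nat_lit 5052202054) (nat_lit 304) (nat_lit 33127053208) (nat_lit 380) (nat_lit 41166073110) (nat_lit 177) (nat_lit 5) (nat_lit 181) (nat_lit 5) (nat_lit 182) (nat_lit 5) (nat_lit 525) (nat_lit 469) (nat_lit 206)) (XT.lf (nat_lit 0) (nat_lit 54420466377) (nat_lit 304) (nat_lit 2619787764) (nat_lit 380) (nat_lit 23766655945) (nat_lit 177) (nat_lit 5) (nat_lit 181) (nat_lit 5) (nat_lit 182) (nat_lit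 5) (nat_lit 526) (nat_lit 469) (nat_lit 205))) (XT.nd (nat_lit 78) (nat_lit 76) (nat_lit 0) (XT.lf (nat_lit 0) (nat_lit 23130748797) (nat_lit 228) (nat_lit 53834788488) (nat_lit 304) (nat_lit 5331848359) (nat_lit 174) (nat_lit 5) (nat_lit 177) (nat_lit 5) (nat_lit 178) (nat_lit 5) (nat_lit 527) (nat_lit 469) (nat_lit 204)) (XT.lf (nat_lit 0) (nat_lit 13683795317) (nat_lit 304) (nat_lit 9311264259) (nat_lit 76) (nat_lit 60824749721) (nat_lit 173) (nat_lit 5) (nat_lit 177) (nat_lit 5) (nat_lit 174) (nat_lit 5) (nat_lit 528) (nat_lit 469) (nat_lit 203)))))) (XT.nd (nat_lit 624) (nat_lit 1140) (nat_lit 0) (XT.nd (nat_lit 312) (nat_lit 532) (nat_lit 0) (XT.nd (nat_lit 156) (nat_lit 304) (nat_lit 0) (XT.nd (nat_lit 78) (nat_lit 228) (nat_lit 0) (XT.lf (nat_lit 0) (nat_lit 33662528386) (nat_lit 380) (nat_lit 42641466067) (nat_lit 76) (nat_lit 9067333959) (nat_lit 169) (nat_lit 5) (nat_lit 174) (nat_lit 5) (nat_lit 170)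 (nat_lit 5) (nat_lit 529) (nat_lit 469) (nat_lit 202)) (XT.lf (nat_lit 0) (nat_lit 9512377160) (nat_lit 228) (nat_lit 45141585625) (nat_lit 304) (nat_lit 32303030152) (nat_lit 166) (nat_lit 5) (nat_lit 169) (nat_lit 5) (nat_lit 170) (nat_lit 5) (nat_lit 530) (nat_lit 469) (nat_lit 201))) (XT.nd (nat_lit 78) (nat_lit 304) (nat_lit 0) (XT.lf (nat_lit 0) (nat_lit 64103794339) (nat_lit 228) (nat_lit 12601221513) (nat_lit 304) (nat_lit 11872315292) (nat_lit 166) (nat_lit 5) (nat_lit 169) (nat_lit 5) (nat_lit 170) (nat_lit 5) (nat_lit 531) (nat_lit 469) (nat_lit 200)) (XT.lf (nat_lit 0) (nat_lit 9490573740) (nat_lit 304) (nat_lit 59845274101) (nat_lit 76) (nat_lit 20892840316) (nat_lit 162) (nat_lit 5) (nat_lit 166) (nat_lit 5) (nat_lit 163) (nat_lit 5) (nat_lit 532) (nat_lit 469) (nat_lit 199)))) (XT.nd (nat_lit 156) (nat_lit 304) (nat_lit 0) (XT.nd (nat_lit 78) (nat_lit 228) (nat_lit 0) (XT.lf (nat_lit 0) (nat_lit 31629374032)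 (nat_lit 304) (nat_lit 4780309912) (nat_lit 76) (nat_lit 55505166128) (nat_lit 162) (nat_lit 5) (nat_lit 166) (nat_lit 5) (nat_lit 163) (nat_lit 5) (nat_lit 533) (nat_lit 469) (nat_lit 198)) (XT.lf (nat_lit 0) (nat_lit 52969118672) (nat_lit 228) (nat_lit 1971711805) (nat_lit 304) (nat_lit 38695511618) (nat_lit 159) (nat_lit 5) (nat_lit 162) (nat_lit 5) (nat_lit 163) (nat_lit 5) (nat_lit 534) (nat_lit 469) (nat_lit 197))) (XT.nd (nat_lit 78) (nat_lit 76) (nat_lit 0) (XT.lf (nat_lit 0) (nat_lit 17152087325) (nat_lit 228) (nat_lit 62334511871) (nat_lit 304) (nat_lit 15906830639) (nat_lit 156) (nat_lit 5) (nat_lit 159) (nat_lit 5) (nat_lit 160) (nat_lit 5) (nat_lit 535) (nat_lit 469) (nat_lit 196)) (XT.lf (nat_lit 0) (nat_lit 7851455752) (nat_lit 304) (nat_lit 19748717563) (nat_lit 76) (nat_lit 69587867916) (nat_lit 155) (nat_lit 5) (nat_lit 159) (nat_lit 5) (nat_lit 156) (nat_lit 5) (nat_lit 536) (nat_lit 469) (nat_lit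 195))))) (XT.nd (nat_lit 312) (nat_lit 456) (nat_lit 0) (XT.nd (nat_lit 156) (nat_lit 228) (nat_lit 0) (XT.nd (nat_lit 78) (nat_lit 228) (nat_lit 0) (XT.lf (nat_lit 0) (nat_lit 32481683963) (nat_lit 304) (nat_lit 57961024704) (nat_lit 76) (nat_lit 8574690370) (nat_lit 152) (nat_lit 5) (nat_lit 156) (nat_lit 5) (nat_lit 153) (nat_lit 5) (nat_lit 537) (nat_lit 469) (nat_lit 194)) (XT.lf (nat_lit 0) (nat_lit 2976550234) (nat_lit 228) (nat_lit 55376900579) (nat_lit 304) (nat_lit 42533107822) (nat_lit 149) (nat_lit 5) (nat_lit 152) (nat_lit 5) (nat_lit 153) (nat_lit 5) (nat_lit 538) (nat_lit 469) (nat_lit 193))) (XT.nd (nat_lit 78) (nat_lit 228) (nat_lit 0) (XT.lf (nat_lit 0) (nat_lit 66929324313) (nat_lit 228) (nat_lit 18656700125) (nat_lit 304) (nat_lit 17208228982) (nat_lit 149) (nat_lit 5) (nat_lit 152) (nat_lit 5) (nat_lit 153) (nat_lit 5) (nat_lit 539) (nat_lit 469) (nat_lit 192)) (XT.lf (nat_lit 0) (nat_lit 9164410113)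 (nat_lit 228) (nat_lit 76424711541) (nat_lit 76) (nat_lit 19153660916) (nat_lit 146) (nat_lit 5) (nat_lit 149) (nat_lit 5) (nat_lit 147) (nat_lit 5) (nat_lit 540) (nat_lit 469) (nat_lit 191)))) (XT.nd (nat_lit 156) (nat_lit 228) (nat_lit 0) (XT.nd (nat_lit 78) (nat_lit 228) (nat_lit 0) (XT.lf (nat_lit 0) (nat_lit 36532208736) (nat_lit 228) (nat_lit 11936887362) (nat_lit 76) (nat_lit 58259064690) (nat_lit 146) (nat_lit 5) (nat_lit 149) (nat_lit 5) (nat_lit 147) (nat_lit 5) (nat_lit 541) (nat_lit 469) (nat_lit 190)) (XT.lf (nat_lit 0) (nat_lit 55568893934) (nat_lit 228) (nat_lit 9685705369) (nat_lit 304) (nat_lit 43502494319) (nat_lit 143) (nat_lit 5) (nat_lit 146) (nat_lit 5) (nat_lit 147) (nat_lit 5) (nat_lit 542) (nat_lit 469) (nat_lit 189))) (XT.nd (nat_lit 78) (nat_lit 76) (nat_lit 0) (XT.lf (nat_lit 0) (nat_lit 14490921797) (nat_lit 152) (nat_lit 80899056621) (nat_lit 228) (nat_lit 15440376531) (nat_lit 141)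 (nat_lit 5) (nat_lit 143) (nat_lit 5) (nat_lit 144) (nat_lit 5) (nat_lit 543) (nat_lit 469) (nat_lit 188)) (XT.lf (nat_lit 0) (nat_lit 13838595120) (nat_lit 228) (nat_lit 27890647099) (nat_lit 76) (nat_lit 71213557881) (nat_lit 140) (nat_lit 5) (nat_lit 143) (nat_lit 5) (nat_lit 141) (nat_lit 5) (nat_lit 544) (nat_lit 469) (nat_lit 187))))))) (XT.nd (nat_lit 1248) (nat_lit 4636) (nat_lit 0) (XT.nd (nat_lit 624) (nat_lit 836) (nat_lit 0) (XT.nd (nat_lit 312) (nat_lit 0) (nat_lit 152) (XT.nd (nat_lit 156) (nat_lit 0) (nat_lit 76) (XT.nd (nat_lit 78) (nat_lit 0) (nat_lit 0) (XT.lf (nat_lit 0) (nat_lit 8724227549) (nat_lit 1292) (nat_lit 3684227176) (nat_lit 1292) (nat_lit 3684227176) (nat_lit 327) (nat_lit 3) (nat_lit 344) (nat_lit 3) (nat_lit 344) (nat_lit 5) (nat_lit 470) (nat_lit 470) (nat_lit 260)) (XT.lf (nat_lit 76) (nat_lit 8831919930) (nat_lit 0) (nat_lit 9026224804) (nat_lit 1292) (nat_lit 14805557733) (nat_lit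 328) (nat_lit 5) (nat_lit 327) (nat_lit 3) (nat_lit 344) (nat_lit 5) (nat_lit 471) (nat_lit 470) (nat_lit 259))) (XT.nd (nat_lit 78) (nat_lit 0) (nat_lit 0) (XT.lf (nat_lit 0) (nat_lit 18422384193) (nat_lit 1216) (nat_lit 7556500572) (nat_lit 1292) (nat_lit 7173238863) (nat_lit 328) (nat_lit 5) (nat_lit 344) (nat_lit 5) (nat_lit 345) (nat_lit 5) (nat_lit 472) (nat_lit 470) (nat_lit 258)) (XT.lf (nat_lit 76) (nat_lit 9297765836) (nat_lit 0) (nat_lit 9882138766) (nat_lit 1292) (nat_lit 14470002320) (nat_lit 329) (nat_lit 5) (nat_lit 328) (nat_lit 5) (nat_lit 345) (nat_lit 5) (nat_lit 473) (nat_lit 470) (nat_lit 257)))) (XT.nd (nat_lit 156) (nat_lit 0) (nat_lit 76) (XT.nd (nat_lit 78) (nat_lit 0) (nat_lit 0) (XT.lf (nat_lit 0) (nat_lit 20099268502) (nat_lit 1216) (nat_lit 7414314557) (nat_lit 1292) (nat_lit 6644867226) (nat_lit 329) (nat_lit 5) (nat_lit 345) (nat_lit 5) (nat_lit 346) (nat_lit 5) (nat_lit 474) (nat_lit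 470) (nat_lit 256)) (XT.lf (nat_lit 76) (nat_lit 10130114714) (nat_lit 0) (nat_lit 11109062089) (nat_lit 1292) (nat_lit 13437284346) (nat_lit 330) (nat_lit 5) (nat_lit 329) (nat_lit 5) (nat_lit 346) (nat_lit 5) (nat_lit 475) (nat_lit 470) (nat_lit 255))) (XT.nd (nat_lit 78) (nat_lit 0) (nat_lit 0) (XT.lf (nat_lit 0) (nat_lit 22542332178) (nat_lit 1216) (nat_lit 6912703534) (nat_lit 1292) (nat_lit 5751105232) (nat_lit 330) (nat_lit 5) (nat_lit 346) (nat_lit 5) (nat_lit 347) (nat_lit 5) (nat_lit 476) (nat_lit 470) (nat_lit 254)) (XT.lf (nat_lit 76) (nat_lit 11360253762) (nat_lit 0) (nat_lit 12741389416) (nat_lit 1292) (nat_lit 11643556225) (nat_lit 331) (nat_lit 5) (nat_lit 330) (nat_lit 5) (nat_lit 347) (nat_lit 5) (nat_lit 477) (nat_lit 470) (nat_lit 253))))) (XT.nd (nat_lit 312) (nat_lit 1140) (nat_lit 0) (XT.nd (nat_lit 156) (nat_lit 0) (nat_lit 76) (XT.nd (nat_lit 78) (nat_lit 0) (nat_lit 0) (XT.lf (nat_lit 0)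 (nat_lit 25819157316) (nat_lit 1216) (nat_lit 6020366302) (nat_lit 1292) (nat_lit 4457563379) (nat_lit 331) (nat_lit 5) (nat_lit 347) (nat_lit 5) (nat_lit 348) (nat_lit 5) (nat_lit 478) (nat_lit 470) (nat_lit 252)) (XT.lf (nat_lit 76) (nat_lit 13021700757) (nat_lit 0) (nat_lit 14815805803) (nat_lit 1292) (nat_lit 9020545460) (nat_lit 332) (nat_lit 5) (nat_lit 331) (nat_lit 5) (nat_lit 348) (nat_lit 5) (nat_lit 479) (nat_lit 470) (nat_lit 251))) (XT.nd (nat_lit 78) (nat_lit 0) (nat_lit 0) (XT.lf (nat_lit 0) (nat_lit 30001970956) (nat_lit 1216) (nat_lit 4703764423) (nat_lit 1292) (nat_lit 2727543764) (nat_lit 332) (nat_lit 5) (nat_lit 348) (nat_lit 5) (nat_lit 349) (nat_lit 5) (nat_lit 480) (nat_lit 470) (nat_lit 250)) (XT.lf (nat_lit 76) (nat_lit 15150340086) (nat_lit 0) (nat_lit 17371447677) (nat_lit 1292) (nat_lit 5495262850) (nat_lit 333) (nat_lit 5) (nat_lit 332) (nat_lit 5) (nat_lit 349) (nat_lit 5) (nat_lit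 481) (nat_lit 470) (nat_lit 249)))) (XT.nd (nat_lit 156) (nat_lit 1292) (nat_lit 0) (XT.nd (nat_lit 78) (nat_lit 0) (nat_lit 0) (XT.lf (nat_lit 0) (nat_lit 35167949477) (nat_lit 1216) (nat_lit 2926985160) (nat_lit 1292) (nat_lit 521878161) (nat_lit 333) (nat_lit 5) (nat_lit 349) (nat_lit 5) (nat_lit 350) (nat_lit 5) (nat_lit 482) (nat_lit 470) (nat_lit 248)) (XT.lf (nat_lit 76) (nat_lit 17784567459) (nat_lit 0) (nat_lit 20450073131) (nat_lit 1292) (nat_lit 989693006) (nat_lit 334) (nat_lit 5) (nat_lit 333) (nat_lit 5) (nat_lit 350) (nat_lit 5) (nat_lit 483) (nat_lit 470) (nat_lit 247))) (XT.nd (nat_lit 78) (nat_lit 0) (nat_lit 76) (XT.lf (nat_lit 0) (nat_lit 1541202936) (nat_lit 1292) (nat_lit 688286363) (nat_lit 1368) (nat_lit 37619303807) (nat_lit 316) (nat_lit 5) (nat_lit 333) (nat_lit 5) (nat_lit 334) (nat_lit 5) (nat_lit 484) (nat_lit 470) (nat_lit 246)) (XT.lf (nat_lit 0) (nat_lit 4490170763) (nat_lit 1292)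 (nat_lit 19560729562) (nat_lit 1368) (nat_lit 16429931077) (nat_lit 317) (nat_lit 5) (nat_lit 334) (nat_lit 5) (nat_lit 335) (nat_lit 5) (nat_lit 485) (nat_lit 470) (nat_lit 245)))))) (XT.nd (nat_lit 624) (nat_lit 2736) (nat_lit 0) (XT.nd (nat_lit 312) (nat_lit 1216) (nat_lit 0) (XT.nd (nat_lit 156) (nat_lit 760) (nat_lit 0) (XT.nd (nat_lit 78) (nat_lit 0) (nat_lit 76) (XT.lf (nat_lit 76) (nat_lit 2076167764) (nat_lit 0) (nat_lit 5498798298) (nat_lit 1368) (nat_lit 33555444106) (nat_lit 318) (nat_lit 5) (nat_lit 317) (nat_lit 5) (nat_lit 335) (nat_lit 5) (nat_lit 486) (nat_lit 470) (nat_lit 244)) (XT.lf (nat_lit 0) (nat_lit 11080957993) (nat_lit 1292) (nat_lit 17164654179) (nat_lit 76) (nat_lit 13544004612) (nat_lit 318) (nat_lit 5) (nat_lit 335) (nat_lit 5) (nat_lit 319) (nat_lit 5) (nat_lit 487) (nat_lit 470) (nat_lit 243))) (XT.nd (nat_lit 78) (nat_lit 0) (nat_lit 0) (XT.lf (nat_lit 0) (nat_lit 5431744476) (nat_lit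 836) (nat_lit 9365435885) (nat_lit 912) (nat_lit 27668267785) (nat_lit 307) (nat_lit 5) (nat_lit 318) (nat_lit 5) (nat_lit 319) (nat_lit 5) (nat_lit 488) (nat_lit 470) (nat_lit 242)) (XT.lf (nat_lit 0) (nat_lit 18895269650) (nat_lit 912) (nat_lit 14198544544) (nat_lit 76) (nat_lit 10059628915) (nat_lit 307) (nat_lit 5) (nat_lit 319) (nat_lit 5) (nat_lit 308) (nat_lit 5) (nat_lit 489) (nat_lit 470) (nat_lit 241)))) (XT.nd (nat_lit 156) (nat_lit 608) (nat_lit 0) (XT.nd (nat_lit 78) (nat_lit 0) (nat_lit 0) (XT.lf (nat_lit 0) (nat_lit 9411169265) (nat_lit 608) (nat_lit 13886799749) (nat_lit 684) (nat_lit 20558658950) (nat_lit 299) (nat_lit 5) (nat_lit 307) (nat_lit 5) (nat_lit 308) (nat_lit 5) (nat_lit 490) (nat_lit 470) (nat_lit 240)) (XT.lf (nat_lit 0) (nat_lit 28032732631) (nat_lit 684) (nat_lit 10615926602) (nat_lit 76) (nat_lit 5926249696) (nat_lit 299) (nat_lit 5) (nat_lit 308) (nat_lit 5) (nat_lit 300) (nat_lit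 5) (nat_lit 491) (nat_lit 470) (nat_lit 239))) (XT.nd (nat_lit 78) (nat_lit 0) (nat_lit 0) (XT.lf (nat_lit 0) (nat_lit 14064029853) (nat_lit 608) (nat_lit 19116744123) (nat_lit 684) (nat_lit 12125827362) (nat_lit 291) (nat_lit 5) (nat_lit 299) (nat_lit 5) (nat_lit 300) (nat_lit 5) (nat_lit 492) (nat_lit 470) (nat_lit 238)) (XT.lf (nat_lit 0) (nat_lit 38599720243) (nat_lit 684) (nat_lit 6367149845) (nat_lit 76) (nat_lit 1089880582) (nat_lit 291) (nat_lit 5) (nat_lit 300) (nat_lit 5) (nat_lit 292) (nat_lit 5) (nat_lit 493) (nat_lit 470) (nat_lit 237))))) (XT.nd (nat_lit 312) (nat_lit 988) (nat_lit 0) (XT.nd (nat_lit 156) (nat_lit 1140) (nat_lit 0) (XT.nd (nat_lit 78) (nat_lit 76) (nat_lit 0) (XT.lf (nat_lit 0) (nat_lit 19443272325) (nat_lit 532) (nat_lit 25112758077) (nat_lit 608) (nat_lit 2262130271) (nat_lit 284) (nat_lit 5) (nat_lit 291) (nat_lit 5) (nat_lit 292) (nat_lit 5) (nat_lit 494) (nat_lit 470) (nat_lit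 236)) (XT.lf (nat_lit 0) (nat_lit 3091912808) (nat_lit 608) (nat_lit 1473692144) (nat_lit 76) (nat_lit 43034010411) (nat_lit 283) (nat_lit 5) (nat_lit 291) (nat_lit 5) (nat_lit 284) (nat_lit 5) (nat_lit 495) (nat_lit 470) (nat_lit 235))) (XT.nd (nat_lit 78) (nat_lit 532) (nat_lit 0) (XT.lf (nat_lit 0) (nat_lit 8968869763) (nat_lit 684) (nat_lit 22876769717) (nat_lit 76) (nat_lit 16545969571) (nat_lit 275) (nat_lit 5) (nat_lit 284) (nat_lit 5) (nat_lit 276) (nat_lit 5) (nat_lit 496) (nat_lit 470) (nat_lit 234)) (XT.lf (nat_lit 0) (nat_lit 4170965744) (nat_lit 532) (nat_lit 10950194839) (nat_lit 608) (nat_lit 34083231262) (nat_lit 268) (nat_lit 5) (nat_lit 275) (nat_lit 5) (nat_lit 276) (nat_lit 5) (nat_lit 497) (nat_lit 470) (nat_lit 233)))) (XT.nd (nat_lit 156) (nat_lit 456) (nat_lit 0) (XT.nd (nat_lit 78) (nat_lit 532) (nat_lit 0) (XT.lf (nat_lit 0) (nat_lit 21791665688) (nat_lit 608) (nat_lit 17640873110) (nat_lit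 76) (nat_lit 10599010010) (nat_lit 268) (nat_lit 5) (nat_lit 276) (nat_lit 5) (nat_lit 269) (nat_lit 5) (nat_lit 498) (nat_lit 470) (nat_lit 232)) (XT.lf (nat_lit 0) (nat_lit 10671910314) (nat_lit 532) (nat_lit 18200137736) (nat_lit 608) (nat_lit 22005179612) (nat_lit 261) (nat_lit 5) (nat_lit 268) (nat_lit 5) (nat_lit 269) (nat_lit 5) (nat_lit 499) (nat_lit 470) (nat_lit 231))) (XT.nd (nat_lit 78) (nat_lit 456) (nat_lit 0) (XT.lf (nat_lit 0) (nat_lit 36378795847) (nat_lit 608) (nat_lit 11585667061) (nat_lit 76) (nat_lit 3777395404) (nat_lit 261) (nat_lit 5) (nat_lit 269) (nat_lit 5) (nat_lit 262) (nat_lit 5) (nat_lit 500) (nat_lit 470) (nat_lit 230)) (XT.lf (nat_lit 0) (nat_lit 18063500522) (nat_lit 456) (nat_lit 26399898911) (nat_lit 532) (nat_lit 8158448893) (nat_lit 255) (nat_lit 5) (nat_lit 261) (nat_lit 5) (nat_lit 262) (nat_lit 5) (nat_lit 501) (nat_lit 470) (nat_lit 229))))))))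
noncomputable def xc224 : XT := (XT.nd (nat_lit 2418) (nat_lit 1900) (nat_lit 0) (XT.nd (nat_lit 1170) (nat_lit 2812) (nat_lit 0) (XT.nd (nat_lit 546) (nat_lit 2128) (nat_lit 0) (XT.nd (nat_lit 234) (nat_lit 836) (nat_lit 0) (XT.nd (nat_lit 78) (nat_lit 988) (nat_lit 0) (XT.lf (nat_lit 0) (nat_lit 48838294465) (nat_lit 456) (nat_lit 4068077292) (nat_lit 532) (nat_lit 618391406) (nat_lit 255) (nat_lit 5) (nat_lit 261) (nat_lit 5) (nat_lit 262) (nat_lit 5) (nat_lit 502) (nat_lit 470) (nat_lit 228)) (XT.nd (nat_lit 78) (nat_lit 456) (nat_lit 0) (XT.lf (nat_lit 0) (nat_lit 7447468586) (nat_lit 532) (nat_lit 28101083132) (nat_lit 76) (nat_lit 18890980038) (nat_lit 248) (nat_lit 5) (nat_lit 255) (nat_lit 5) (nat_lit 249) (nat_lit 5) (nat_lit 503) (nat_lit 470) (nat_lit 227)) (XT.lf (nat_lit 0) (nat_lit 3020585280) (nat_lit 456) (nat_lit 12838275865) (nat_lit 532) (nat_lit 39519219046) (nat_lit 242) (nat_lit 5) (nat_lit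 248) (nat_lit 5) (nat_lit 249) (nat_lit 5) (nat_lit 504) (nat_lit 470) (nat_lit 226)))) (XT.nd (nat_lit 156) (nat_lit 380) (nat_lit 0) (XT.nd (nat_lit 78) (nat_lit 456) (nat_lit 0) (XT.lf (nat_lit 0) (nat_lit 24909512754) (nat_lit 532) (nat_lit 20789941545) (nat_lit 76) (nat_lit 10633723302) (nat_lit 242) (nat_lit 5) (nat_lit 249) (nat_lit 5) (nat_lit 243) (nat_lit 5) (nat_lit 505) (nat_lit 470) (nat_lit 225)) (XT.lf (nat_lit 0) (nat_lit 11826990248) (nat_lit 456) (nat_lit 22644422710) (nat_lit 532) (nat_lit 22838323141) (nat_lit 236) (nat_lit 5) (nat_lit 242) (nat_lit 5) (nat_lit 243) (nat_lit 5) (nat_lit 506) (nat_lit 470) (nat_lit 224))) (XT.nd (nat_lit 78) (nat_lit 380) (nat_lit 0) (XT.lf (nat_lit 0) (nat_lit 44541727247) (nat_lit 532) (nat_lit 12474703846) (nat_lit 76) (nat_lit 1292513583) (nat_lit 236) (nat_lit 5) (nat_lit 243) (nat_lit 5) (nat_lit 237) (nat_lit 5) (nat_lit 507) (nat_lit 470) (nat_lit 223))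 (XT.lf (nat_lit 0) (nat_lit 21721949865) (nat_lit 380) (nat_lit 33624183942) (nat_lit 456) (nat_lit 3979036255) (nat_lit 231) (nat_lit 5) (nat_lit 236) (nat_lit 5) (nat_lit 237) (nat_lit 5) (nat_lit 508) (nat_lit 470) (nat_lit 222))))) (XT.nd (nat_lit 312) (nat_lit 1216) (nat_lit 0) (XT.nd (nat_lit 156) (nat_lit 380) (nat_lit 0) (XT.nd (nat_lit 78) (nat_lit 456) (nat_lit 0) (XT.lf (nat_lit 0) (nat_lit 6109903622) (nat_lit 456) (nat_lit 3229100044) (nat_lit 76) (nat_lit 51027332645) (nat_lit 230) (nat_lit 5) (nat_lit 236) (nat_lit 5) (nat_lit 231) (nat_lit 5) (nat_lit 509) (nat_lit 470) (nat_lit 221)) (XT.lf (nat_lit 0) (nat_lit 16889786512) (nat_lit 532) (nat_lit 28807177387) (nat_lit 76) (nat_lit 15726544303) (nat_lit 224) (nat_lit 5) (nat_lit 231) (nat_lit 5) (nat_lit 225) (nat_lit 5) (nat_lit 510) (nat_lit 470) (nat_lit 220))) (XT.nd (nat_lit 78) (nat_lit 0) (nat_lit 0) (XT.lf (nat_lit 0) (nat_lit 7137099083)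 (nat_lit 380) (nat_lit 21048995690) (nat_lit 456) (nat_lit 34320509641) (nat_lit 219) (nat_lit 5) (nat_lit 224) (nat_lit 5) (nat_lit 225) (nat_lit 5) (nat_lit 511) (nat_lit 470) (nat_lit 219)) (XT.lf (nat_lit 0) (nat_lit 40155811925) (nat_lit 456) (nat_lit 18909124800) (nat_lit 76) (nat_lit 4547221230) (nat_lit 219) (nat_lit 5) (nat_lit 225) (nat_lit 5) (nat_lit 220) (nat_lit 5) (nat_lit 512) (nat_lit 470) (nat_lit 218)))) (XT.nd (nat_lit 156) (nat_lit 760) (nat_lit 0) (XT.nd (nat_lit 78) (nat_lit 76) (nat_lit 0) (XT.lf (nat_lit 0) (nat_lit 18802302391) (nat_lit 380) (nat_lit 34070531300) (nat_lit 456) (nat_lit 11866398049) (nat_lit 214) (nat_lit 5) (nat_lit 219) (nat_lit 5) (nat_lit 220) (nat_lit 5) (nat_lit 513) (nat_lit 470) (nat_lit 217)) (XT.lf (nat_lit 0) (nat_lit 261767710) (nat_lit 456) (nat_lit 7865539504) (nat_lit 76) (nat_lit 57767032715) (nat_lit 213) (nat_lit 5) (nat_lit 219) (nat_lit 5) (nat_lit 214)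 (nat_lit 5) (nat_lit 514) (nat_lit 470) (nat_lit 216))) (XT.nd (nat_lit 78) (nat_lit 380) (nat_lit 0) (XT.lf (nat_lit 0) (nat_lit 13003476362) (nat_lit 456) (nat_lit 35403551045) (nat_lit 76) (nat_lit 18658903290) (nat_lit 208) (nat_lit 5) (nat_lit 214) (nat_lit 5) (nat_lit 209) (nat_lit 5) (nat_lit 515) (nat_lit 470) (nat_lit 215)) (XT.lf (nat_lit 0) (nat_lit 4267872547) (nat_lit 380) (nat_lit 22060382732) (nat_lit 456) (nat_lit 41938389365) (nat_lit 203) (nat_lit 5) (nat_lit 208) (nat_lit 5) (nat_lit 209) (nat_lit 5) (nat_lit 516) (nat_lit 470) (nat_lit 214)))))) (XT.nd (nat_lit 624) (nat_lit 1444) (nat_lit 0) (XT.nd (nat_lit 312) (nat_lit 684) (nat_lit 0) (XT.nd (nat_lit 156) (nat_lit 380) (nat_lit 0) (XT.nd (nat_lit 78) (nat_lit 304) (nat_lit 0) (XT.lf (nat_lit 0) (nat_lit 40461746587) (nat_lit 456) (nat_lit 23691068266) (nat_lit 76) (nat_lit 5338296112) (nat_lit 203) (nat_lit 5) (nat_lit 209) (nat_lit 5) (nat_lit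 204) (nat_lit 5) (nat_lit 517) (nat_lit 470) (nat_lit 213)) (XT.lf (nat_lit 0) (nat_lit 17956631290) (nat_lit 304) (nat_lit 37452789580) (nat_lit 380) (nat_lit 15331185083) (nat_lit 199) (nat_lit 5) (nat_lit 203) (nat_lit 5) (nat_lit 204) (nat_lit 5) (nat_lit 518) (nat_lit 470) (nat_lit 212))) (XT.nd (nat_lit 78) (nat_lit 380) (nat_lit 0) (XT.lf (nat_lit 0) (nat_lit 61338203099) (nat_lit 304) (nat_lit 9705717343) (nat_lit 380) (nat_lit 976513521) (nat_lit 199) (nat_lit 5) (nat_lit 203) (nat_lit 5) (nat_lit 204) (nat_lit 5) (nat_lit 519) (nat_lit 470) (nat_lit 211)) (XT.lf (nat_lit 0) (nat_lit 14043517606) (nat_lit 380) (nat_lit 40314597940) (nat_lit 76) (nat_lit 18961433769) (nat_lit 194) (nat_lit 5) (nat_lit 199) (nat_lit 5) (nat_lit 195) (nat_lit 5) (nat_lit 520) (nat_lit 470) (nat_lit 210)))) (XT.nd (nat_lit 156) (nat_lit 380) (nat_lit 0) (XT.nd (nat_lit 78) (nat_lit 0) (nat_lit 0) (XT.lf (nat_lit 0) (nat_lit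 3528143438) (nat_lit 304) (nat_lit 26204515003) (nat_lit 380) (nat_lit 44917545582) (nat_lit 190) (nat_lit 5) (nat_lit 194) (nat_lit 5) (nat_lit 195) (nat_lit 5) (nat_lit 521) (nat_lit 470) (nat_lit 209)) (XT.lf (nat_lit 0) (nat_lit 46329653160) (nat_lit 380) (nat_lit 26528075651) (nat_lit 76) (nat_lit 3149934194) (nat_lit 190) (nat_lit 5) (nat_lit 195) (nat_lit 5) (nat_lit 191) (nat_lit 5) (nat_lit 522) (nat_lit 470) (nat_lit 208))) (XT.nd (nat_lit 78) (nat_lit 76) (nat_lit 0) (XT.lf (nat_lit 0) (nat_lit 19524096991) (nat_lit 304) (nat_lit 44346808257) (nat_lit 380) (nat_lit 13521550104) (nat_lit 186) (nat_lit 5) (nat_lit 190) (nat_lit 5) (nat_lit 191) (nat_lit 5) (nat_lit 523) (nat_lit 470) (nat_lit 207)) (XT.lf (nat_lit 0) (nat_lit 3328485889) (nat_lit 380) (nat_lit 11342931189) (nat_lit 76) (nat_lit 64138382070) (nat_lit 185) (nat_lit 5) (nat_lit 190) (nat_lit 5) (nat_lit 186) (nat_lit 5) (nat_lit 524) (nat_lit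 470) (nat_lit 206))))) (XT.nd (nat_lit 312) (nat_lit 608) (nat_lit 0) (XT.nd (nat_lit 156) (nat_lit 228) (nat_lit 0) (XT.nd (nat_lit 78) (nat_lit 304) (nat_lit 0) (XT.lf (nat_lit 0) (nat_lit 20926430299) (nat_lit 380) (nat_lit 43244057929) (nat_lit 76) (nat_lit 16079733434) (nat_lit 181) (nat_lit 5) (nat_lit 186) (nat_lit 5) (nat_lit 182) (nat_lit 5) (nat_lit 525) (nat_lit 470) (nat_lit 205)) (XT.lf (nat_lit 0) (nat_lit 5262990045) (nat_lit 304) (nat_lit 34100104475) (nat_lit 380) (nat_lit 42361438905) (nat_lit 177) (nat_lit 5) (nat_lit 181) (nat_lit 5) (nat_lit 182) (nat_lit 5) (nat_lit 526) (nat_lit 470) (nat_lit 204))) (XT.nd (nat_lit 78) (nat_lit 228) (nat_lit 0) (XT.lf (nat_lit 0) (nat_lit 56110577387) (nat_lit 304) (nat_lit 2678225738) (nat_lit 380) (nat_lit 24441193101) (nat_lit 177) (nat_lit 5) (nat_lit 181) (nat_lit 5) (nat_lit 182) (nat_lit 5) (nat_lit 527) (nat_lit 470) (nat_lit 203)) (XT.lf (nat_lit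 0) (nat_lit 23882522905) (nat_lit 228) (nat_lit 55428978455) (nat_lit 304) (nat_lit 5453695017) (nat_lit 174) (nat_lit 5) (nat_lit 177) (nat_lit 5) (nat_lit 178) (nat_lit 5) (nat_lit 528) (nat_lit 470) (nat_lit 202)))) (XT.nd (nat_lit 156) (nat_lit 228) (nat_lit 0) (XT.nd (nat_lit 78) (nat_lit 304) (nat_lit 0) (XT.lf (nat_lit 0) (nat_lit 14130586023) (nat_lit 304) (nat_lit 9533712717) (nat_lit 76) (nat_lit 62669015687) (nat_lit 173) (nat_lit 5) (nat_lit 177) (nat_lit 5) (nat_lit 174) (nat_lit 5) (nat_lit 529) (nat_lit 470) (nat_lit 201)) (XT.lf (nat_lit 0) (nat_lit 34708363704) (nat_lit 380) (nat_lit 43863502379) (nat_lit 76) (nat_lit 9359522578) (nat_lit 169) (nat_lit 5) (nat_lit 174) (nat_lit 5) (nat_lit 170) (nat_lit 5) (nat_lit 530) (nat_lit 470) (nat_lit 200))) (XT.nd (nat_lit 78) (nat_lit 0) (nat_lit 0) (XT.lf (nat_lit 0) (nat_lit 9854395285) (nat_lit 228) (nat_lit 46474643009) (nat_lit 304) (nat_lit 33235599936)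 (nat_lit 166) (nat_lit 5) (nat_lit 169) (nat_lit 5) (nat_lit 170) (nat_lit 5) (nat_lit 531) (nat_lit 470) (nat_lit 199)) (XT.lf (nat_lit 0) (nat_lit 66081905073) (nat_lit 228) (nat_lit 12958685165) (nat_lit 304) (nat_lit 12193027352) (nat_lit 166) (nat_lit 5) (nat_lit 169) (nat_lit 5) (nat_lit 170) (nat_lit 5) (nat_lit 532) (nat_lit 470) (nat_lit 198))))))) (XT.nd (nat_lit 57876) (nat_lit 0) (nat_lit 12616) (XT.nd (nat_lit 546) (nat_lit 608) (nat_lit 0) (XT.nd (nat_lit 234) (nat_lit 760) (nat_lit 0) (XT.nd (nat_lit 78) (nat_lit 228) (nat_lit 0) (XT.lf (nat_lit 0) (nat_lit 9809774461) (nat_lit 304) (nat_lit 61584660052) (nat_lit 76) (nat_lit 21540079055) (nat_lit 162) (nat_lit 5) (nat_lit 166) (nat_lit 5) (nat_lit 163) (nat_lit 5) (nat_lit 533) (nat_lit 470) (nat_lit 197)) (XT.nd (nat_lit 78) (nat_lit 228) (nat_lit 0) (XT.lf (nat_lit 0) (nat_lit 32611734388) (nat_lit 304) (nat_lit 4869377198) (nat_lit 76) (nat_lit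 57190178907) (nat_lit 162) (nat_lit 5) (nat_lit 166) (nat_lit 5) (nat_lit 163) (nat_lit 5) (nat_lit 534) (nat_lit 470) (nat_lit 196)) (XT.lf (nat_lit 0) (nat_lit 54612001479) (nat_lit 228) (nat_lit 2010075174) (nat_lit 304) (nat_lit 39822364381) (nat_lit 159) (nat_lit 5) (nat_lit 162) (nat_lit 5) (nat_lit 163) (nat_lit 5) (nat_lit 535) (nat_lit 470) (nat_lit 195)))) (XT.nd (nat_lit 156) (nat_lit 456) (nat_lit 0) (XT.nd (nat_lit 78) (nat_lit 76) (nat_lit 0) (XT.lf (nat_lit 0) (nat_lit 17720715388) (nat_lit 228) (nat_lit 64183254978) (nat_lit 304) (nat_lit 16350278502) (nat_lit 156) (nat_lit 5) (nat_lit 159) (nat_lit 5) (nat_lit 160) (nat_lit 5) (nat_lit 536) (nat_lit 470) (nat_lit 194)) (XT.lf (nat_lit 0) (nat_lit 8119133730) (nat_lit 304) (nat_lit 20288048206) (nat_lit 76) (nat_lit 71695535875) (nat_lit 155) (nat_lit 5) (nat_lit 159) (nat_lit 5) (nat_lit 156) (nat_lit 5) (nat_lit 537) (nat_lit 470) (nat_lit 193)))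 (XT.nd (nat_lit 78) (nat_lit 228) (nat_lit 0) (XT.lf (nat_lit 0) (nat_lit 33488039516) (nat_lit 304) (nat_lit 59646494680) (nat_lit 76) (nat_lit 8852429050) (nat_lit 152) (nat_lit 5) (nat_lit 156) (nat_lit 5) (nat_lit 153) (nat_lit 5) (nat_lit 538) (nat_lit 470) (nat_lit 192)) (XT.lf (nat_lit 0) (nat_lit 3118684362) (nat_lit 228) (nat_lit 57016853645) (nat_lit 304) (nat_lit 43776672285) (nat_lit 149) (nat_lit 5) (nat_lit 152) (nat_lit 5) (nat_lit 153) (nat_lit 5) (nat_lit 539) (nat_lit 470) (nat_lit 191))))) (XT.nd (nat_lit 312) (nat_lit 152) (nat_lit 0) (XT.nd (nat_lit 156) (nat_lit 228) (nat_lit 0) (XT.nd (nat_lit 78) (nat_lit 228) (nat_lit 0) (XT.lf (nat_lit 0) (nat_lit 68988502703) (nat_lit 228) (nat_lit 19195669138) (nat_lit 304) (nat_lit 17692991608) (nat_lit 149) (nat_lit 5) (nat_lit 152) (nat_lit 5) (nat_lit 153) (nat_lit 5) (nat_lit 540) (nat_lit 470) (nat_lit 190)) (XT.lf (nat_lit 0) (nat_lit 9470008585)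 (nat_lit 228) (nat_lit 78665335052) (nat_lit 76) (nat_lit 19748801883) (nat_lit 146) (nat_lit 5) (nat_lit 149) (nat_lit 5) (nat_lit 147) (nat_lit 5) (nat_lit 541) (nat_lit 470) (nat_lit 189))) (XT.nd (nat_lit 78) (nat_lit 228) (nat_lit 0) (XT.lf (nat_lit 0) (nat_lit 37657947977) (nat_lit 228) (nat_lit 12244394143) (nat_lit 76) (nat_lit 60026769775) (nat_lit 146) (nat_lit 5) (nat_lit 149) (nat_lit 5) (nat_lit 147) (nat_lit 5) (nat_lit 542) (nat_lit 470) (nat_lit 188)) (XT.lf (nat_lit 0) (nat_lit 57286064516) (nat_lit 228) (nat_lit 9955560200) (nat_lit 304) (nat_lit 44777299582) (nat_lit 143) (nat_lit 5) (nat_lit 146) (nat_lit 5) (nat_lit 147) (nat_lit 5) (nat_lit 543) (nat_lit 470) (nat_lit 187)))) (XT.nd (nat_lit 56862) (nat_lit 0) (nat_lit 14136) (XT.nd (nat_lit 56784) (nat_lit 0) (nat_lit 14136) (XT.lf (nat_lit 0) (nat_lit 14975938300) (nat_lit 152) (nat_lit 83304947704) (nat_lit 228) (nat_lit 15873502850) (nat_lit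 141) (nat_lit 5) (nat_lit 143) (nat_lit 5) (nat_lit 144) (nat_lit 5) (nat_lit 544) (nat_lit 470) (nat_lit 186)) (XT.lf (nat_lit 0) (nat_lit 9048413148) (nat_lit 1292) (nat_lit 3762586282) (nat_lit 1292) (nat_lit 3762586282) (nat_lit 327) (nat_lit 3) (nat_lit 344) (nat_lit 3) (nat_lit 344) (nat_lit 5) (nat_lit 471) (nat_lit 471) (nat_lit 258))) (XT.nd (nat_lit 78) (nat_lit 0) (nat_lit 76) (XT.lf (nat_lit 76) (nat_lit 9160582206) (nat_lit 0) (nat_lit 9355198407) (nat_lit 1292) (nat_lit 15124170584) (nat_lit 328) (nat_lit 5) (nat_lit 327) (nat_lit 3) (nat_lit 344) (nat_lit 5) (nat_lit 472) (nat_lit 471) (nat_lit 257)) (XT.lf (nat_lit 0) (nat_lit 19092853981) (nat_lit 1216) (nat_lit 7717247677) (nat_lit 1292) (nat_lit 7333046297) (nat_lit 328) (nat_lit 5) (nat_lit 344) (nat_lit 5) (nat_lit 345) (nat_lit 5) (nat_lit 473) (nat_lit 471) (nat_lit 256)))))) (XT.nd (nat_lit 624) (nat_lit 1596) (nat_lit 0) (XT.nd (nat_lit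 312) (nat_lit 0) (nat_lit 152) (XT.nd (nat_lit 156) (nat_lit 0) (nat_lit 76) (XT.nd (nat_lit 78) (nat_lit 0) (nat_lit 76) (XT.lf (nat_lit 76) (nat_lit 9642000175) (nat_lit 0) (nat_lit 10228296526) (nat_lit 1292) (nat_lit 14785652304) (nat_lit 329) (nat_lit 5) (nat_lit 328) (nat_lit 5) (nat_lit 345) (nat_lit 5) (nat_lit 474) (nat_lit 471) (nat_lit 255)) (XT.lf (nat_lit 0) (nat_lit 20813428379) (nat_lit 1216) (nat_lit 7569526349) (nat_lit 1292) (nat_lit 6796908489) (nat_lit 329) (nat_lit 5) (nat_lit 345) (nat_lit 5) (nat_lit 346) (nat_lit 5) (nat_lit 475) (nat_lit 471) (nat_lit 254))) (XT.nd (nat_lit 78) (nat_lit 0) (nat_lit 76) (XT.lf (nat_lit 76) (nat_lit 10500576804) (nat_lit 0) (nat_lit 11484358621) (nat_lit 1292) (nat_lit 13728557085) (nat_lit 330) (nat_lit 5) (nat_lit 329) (nat_lit 5) (nat_lit 346) (nat_lit 5) (nat_lit 476) (nat_lit 471) (nat_lit 253)) (XT.lf (nat_lit 0) (nat_lit 23323630640) (nat_lit 1216)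 (nat_lit 7051904944) (nat_lit 1292) (nat_lit 5883633906) (nat_lit 330) (nat_lit 5) (nat_lit 346) (nat_lit 5) (nat_lit 347) (nat_lit 5) (nat_lit 477) (nat_lit 471) (nat_lit 252)))) (XT.nd (nat_lit 156) (nat_lit 0) (nat_lit 76) (XT.nd (nat_lit 78) (nat_lit 0) (nat_lit 76) (XT.lf (nat_lit 76) (nat_lit 11768572644) (nat_lit 0) (nat_lit 13158738203) (nat_lit 1292) (nat_lit 11887161299) (nat_lit 331) (nat_lit 5) (nat_lit 330) (nat_lit 5) (nat_lit 347) (nat_lit 5) (nat_lit 478) (nat_lit 471) (nat_lit 251)) (XT.lf (nat_lit 0) (nat_lit 26693033883) (nat_lit 1216) (nat_lit 6132111293) (nat_lit 1292) (nat_lit 4557870825) (nat_lit 331) (nat_lit 5) (nat_lit 347) (nat_lit 5) (nat_lit 348) (nat_lit 5) (nat_lit 479) (nat_lit 471) (nat_lit 250))) (XT.nd (nat_lit 78) (nat_lit 0) (nat_lit 76) (XT.lf (nat_lit 76) (nat_lit 13480542621) (nat_lit 0) (nat_lit 15289154189) (nat_lit 1292) (nat_lit 9191180401) (nat_lit 332) (nat_lit 5) (nat_lit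 331) (nat_lit 5) (nat_lit 348) (nat_lit 5) (nat_lit 480) (nat_lit 471) (nat_lit 249)) (XT.lf (nat_lit 0) (nat_lit 30995998528) (nat_lit 1216) (nat_lit 4775571755) (nat_lit 1292) (nat_lit 2781883891) (nat_lit 332) (nat_lit 5) (nat_lit 348) (nat_lit 5) (nat_lit 349) (nat_lit 5) (nat_lit 481) (nat_lit 471) (nat_lit 248))))) (XT.nd (nat_lit 312) (nat_lit 684) (nat_lit 0) (XT.nd (nat_lit 156) (nat_lit 1216) (nat_lit 0) (XT.nd (nat_lit 78) (nat_lit 0) (nat_lit 76) (XT.lf (nat_lit 76) (nat_lit 15673476422) (nat_lit 0) (nat_lit 17915856148) (nat_lit 1292) (nat_lit 5565468661) (nat_lit 333) (nat_lit 5) (nat_lit 332) (nat_lit 5) (nat_lit 349) (nat_lit 5) (nat_lit 482) (nat_lit 471) (nat_lit 247)) (XT.lf (nat_lit 0) (nat_lit 36311985570) (nat_lit 1216) (nat_lit 2945269791) (nat_lit 1292) (nat_lit 515387850) (nat_lit 333) (nat_lit 5) (nat_lit 349) (nat_lit 5) (nat_lit 350) (nat_lit 5) (nat_lit 483) (nat_lit 471) (nat_lit 246)))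 (XT.nd (nat_lit 78) (nat_lit 1292) (nat_lit 0) (XT.lf (nat_lit 76) (nat_lit 18386947790) (nat_lit 0) (nat_lit 21081799227) (nat_lit 1292) (nat_lit 929700645) (nat_lit 334) (nat_lit 5) (nat_lit 333) (nat_lit 5) (nat_lit 350) (nat_lit 5) (nat_lit 484) (nat_lit 471) (nat_lit 245)) (XT.lf (nat_lit 0) (nat_lit 1672810975) (nat_lit 1292) (nat_lit 640394022) (nat_lit 1368) (nat_lit 38728487043) (nat_lit 316) (nat_lit 5) (nat_lit 333) (nat_lit 5) (nat_lit 334) (nat_lit 5) (nat_lit 485) (nat_lit 471) (nat_lit 244)))) (XT.nd (nat_lit 156) (nat_lit 760) (nat_lit 0) (XT.nd (nat_lit 78) (nat_lit 0) (nat_lit 0) (XT.lf (nat_lit 0) (nat_lit 4708263055) (nat_lit 1292) (nat_lit 20077022143) (nat_lit 1368) (nat_lit 16907465939) (nat_lit 317) (nat_lit 5) (nat_lit 334) (nat_lit 5) (nat_lit 335) (nat_lit 5) (nat_lit 486) (nat_lit 471) (nat_lit 243)) (XT.lf (nat_lit 76) (nat_lit 2208290640) (nat_lit 0) (nat_lit 5675554145) (nat_lit 1368)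 (nat_lit 34478025308) (nat_lit 318) (nat_lit 5) (nat_lit 317) (nat_lit 5) (nat_lit 335) (nat_lit 5) (nat_lit 487) (nat_lit 471) (nat_lit 242))) (XT.nd (nat_lit 78) (nat_lit 836) (nat_lit 0) (XT.lf (nat_lit 0) (nat_lit 11492528858) (nat_lit 1292) (nat_lit 17609299072) (nat_lit 76) (nat_lit 13939099706) (nat_lit 318) (nat_lit 5) (nat_lit 335) (nat_lit 5) (nat_lit 319) (nat_lit 5) (nat_lit 488) (nat_lit 471) (nat_lit 241)) (XT.lf (nat_lit 0) (nat_lit 5664302378) (nat_lit 836) (nat_lit 9654299501) (nat_lit 912) (nat_lit 28418481241) (nat_lit 307) (nat_lit 5) (nat_lit 318) (nat_lit 5) (nat_lit 319) (nat_lit 5) (nat_lit 489) (nat_lit 471) (nat_lit 240))))))))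
noncomputable def xc225 : XT := (XT.nd (nat_lit 2418) (nat_lit 4256) (nat_lit 0) (XT.nd (nat_lit 1170) (nat_lit 3724) (nat_lit 0) (XT.nd (nat_lit 546) (nat_lit 2660) (nat_lit 0) (XT.nd (nat_lit 234) (nat_lit 1216) (nat_lit 0) (XT.nd (nat_lit 78) (nat_lit 608) (nat_lit 0) (XT.lf (nat_lit 0) (nat_lit 19537302654) (nat_lit 912) (nat_lit 14554588275) (nat_lit 76) (nat_lit 10353897034) (nat_lit 307) (nat_lit 5) (nat_lit 319) (nat_lit 5) (nat_lit 308) (nat_lit 5) (nat_lit 490) (nat_lit 471) (nat_lit 239)) (XT.nd (nat_lit 78) (nat_lit 0) (nat_lit 0) (XT.lf (nat_lit 0) (nat_lit 9762731530) (nat_lit 608) (nat_lit 14307827362) (nat_lit 684) (nat_lit 21099555287) (nat_lit 299) (nat_lit 5) (nat_lit 307) (nat_lit 5) (nat_lit 308) (nat_lit 5) (nat_lit 491) (nat_lit 471) (nat_lit 238)) (XT.lf (nat_lit 0) (nat_lit 28945178965) (nat_lit 684) (nat_lit 10865004076) (nat_lit 76) (nat_lit 6099826216) (nat_lit 299) (nat_lit 5) (nat_lit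 308) (nat_lit 5) (nat_lit 300) (nat_lit 5) (nat_lit 492) (nat_lit 471) (nat_lit 237)))) (XT.nd (nat_lit 156) (nat_lit 608) (nat_lit 0) (XT.nd (nat_lit 78) (nat_lit 0) (nat_lit 0) (XT.lf (nat_lit 0) (nat_lit 14554670677) (nat_lit 608) (nat_lit 19691569965) (nat_lit 684) (nat_lit 12417454512) (nat_lit 291) (nat_lit 5) (nat_lit 299) (nat_lit 5) (nat_lit 300) (nat_lit 5) (nat_lit 493) (nat_lit 471) (nat_lit 236)) (XT.lf (nat_lit 0) (nat_lit 39825702844) (nat_lit 684) (nat_lit 6489390675) (nat_lit 76) (nat_lit 1121317105) (nat_lit 291) (nat_lit 5) (nat_lit 300) (nat_lit 5) (nat_lit 292) (nat_lit 5) (nat_lit 494) (nat_lit 471) (nat_lit 235))) (XT.nd (nat_lit 78) (nat_lit 76) (nat_lit 0) (XT.lf (nat_lit 0) (nat_lit 20094669909) (nat_lit 532) (nat_lit 25864706693) (nat_lit 608) (nat_lit 2261326180) (nat_lit 284) (nat_lit 5) (nat_lit 291) (nat_lit 5) (nat_lit 292) (nat_lit 5) (nat_lit 495) (nat_lit 471) (nat_lit 234)) (XT.lf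 (nat_lit 0) (nat_lit 3250037221) (nat_lit 608) (nat_lit 1450483446) (nat_lit 76) (nat_lit 44325119552) (nat_lit 283) (nat_lit 5) (nat_lit 291) (nat_lit 5) (nat_lit 284) (nat_lit 5) (nat_lit 496) (nat_lit 471) (nat_lit 233))))) (XT.nd (nat_lit 312) (nat_lit 988) (nat_lit 0) (XT.nd (nat_lit 156) (nat_lit 532) (nat_lit 0) (XT.nd (nat_lit 78) (nat_lit 532) (nat_lit 0) (XT.lf (nat_lit 0) (nat_lit 9302066222) (nat_lit 684) (nat_lit 23494414163) (nat_lit 76) (nat_lit 17044950507) (nat_lit 275) (nat_lit 5) (nat_lit 284) (nat_lit 5) (nat_lit 276) (nat_lit 5) (nat_lit 497) (nat_lit 471) (nat_lit 232)) (XT.lf (nat_lit 0) (nat_lit 4364080238) (nat_lit 532) (nat_lit 11273631173) (nat_lit 608) (nat_lit 35040922263) (nat_lit 268) (nat_lit 5) (nat_lit 275) (nat_lit 5) (nat_lit 276) (nat_lit 5) (nat_lit 498) (nat_lit 471) (nat_lit 231))) (XT.nd (nat_lit 78) (nat_lit 532) (nat_lit 0) (XT.lf (nat_lit 0) (nat_lit 22506546475) (nat_lit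 608) (nat_lit 18102306374) (nat_lit 76) (nat_lit 10921806123) (nat_lit 268) (nat_lit 5) (nat_lit 276) (nat_lit 5) (nat_lit 269) (nat_lit 5) (nat_lit 499) (nat_lit 471) (nat_lit 230)) (XT.lf (nat_lit 0) (nat_lit 11059195916) (nat_lit 532) (nat_lit 18739009162) (nat_lit 608) (nat_lit 22603537241) (nat_lit 261) (nat_lit 5) (nat_lit 268) (nat_lit 5) (nat_lit 269) (nat_lit 5) (nat_lit 500) (nat_lit 471) (nat_lit 229)))) (XT.nd (nat_lit 156) (nat_lit 532) (nat_lit 0) (XT.nd (nat_lit 78) (nat_lit 456) (nat_lit 0) (XT.lf (nat_lit 0) (nat_lit 37528474430) (nat_lit 608) (nat_lit 11866380858) (nat_lit 76) (nat_lit 3897507093) (nat_lit 261) (nat_lit 5) (nat_lit 269) (nat_lit 5) (nat_lit 262) (nat_lit 5) (nat_lit 501) (nat_lit 471) (nat_lit 228)) (XT.lf (nat_lit 0) (nat_lit 18671606300) (nat_lit 456) (nat_lit 27182947700) (nat_lit 532) (nat_lit 8344230024) (nat_lit 255) (nat_lit 5) (nat_lit 261) (nat_lit 5) (nat_lit 262) (nat_lit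 5) (nat_lit 502) (nat_lit 471) (nat_lit 227))) (XT.nd (nat_lit 78) (nat_lit 532) (nat_lit 0) (XT.lf (nat_lit 0) (nat_lit 50367715884) (nat_lit 456) (nat_lit 4181432059) (nat_lit 532) (nat_lit 579688454) (nat_lit 255) (nat_lit 5) (nat_lit 261) (nat_lit 5) (nat_lit 262) (nat_lit 5) (nat_lit 503) (nat_lit 471) (nat_lit 226)) (XT.lf (nat_lit 0) (nat_lit 7726109976) (nat_lit 532) (nat_lit 28877801641) (nat_lit 76) (nat_lit 19467147582) (nat_lit 248) (nat_lit 5) (nat_lit 255) (nat_lit 5) (nat_lit 249) (nat_lit 5) (nat_lit 504) (nat_lit 471) (nat_lit 225)))))) (XT.nd (nat_lit 624) (nat_lit 1520) (nat_lit 0) (XT.nd (nat_lit 312) (nat_lit 1292) (nat_lit 0) (XT.nd (nat_lit 156) (nat_lit 456) (nat_lit 0) (XT.nd (nat_lit 78) (nat_lit 0) (nat_lit 0) (XT.lf (nat_lit 0) (nat_lit 3176866686) (nat_lit 456) (nat_lit 13212000555) (nat_lit 532) (nat_lit 40648926217) (nat_lit 242) (nat_lit 5) (nat_lit 248) (nat_lit 5) (nat_lit 249)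 (nat_lit 5) (nat_lit 505) (nat_lit 471) (nat_lit 224)) (XT.lf (nat_lit 0) (nat_lit 25709565197) (nat_lit 532) (nat_lit 21348413407) (nat_lit 76) (nat_lit 10963609438) (nat_lit 242) (nat_lit 5) (nat_lit 249) (nat_lit 5) (nat_lit 243) (nat_lit 5) (nat_lit 506) (nat_lit 471) (nat_lit 223))) (XT.nd (nat_lit 78) (nat_lit 0) (nat_lit 0) (XT.lf (nat_lit 0) (nat_lit 12246386866) (nat_lit 456) (nat_lit 23311019485) (nat_lit 532) (nat_lit 23470064480) (nat_lit 236) (nat_lit 5) (nat_lit 242) (nat_lit 5) (nat_lit 243) (nat_lit 5) (nat_lit 507) (nat_lit 471) (nat_lit 222)) (XT.lf (nat_lit 0) (nat_lit 45928438706) (nat_lit 532) (nat_lit 12784846092) (nat_lit 76) (nat_lit 1343412663) (nat_lit 236) (nat_lit 5) (nat_lit 243) (nat_lit 5) (nat_lit 237) (nat_lit 5) (nat_lit 508) (nat_lit 471) (nat_lit 221)))) (XT.nd (nat_lit 156) (nat_lit 836) (nat_lit 0) (XT.nd (nat_lit 78) (nat_lit 76) (nat_lit 0) (XT.lf (nat_lit 0) (nat_lit 22437078811)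 (nat_lit 380) (nat_lit 34619039071) (nat_lit 456) (nat_lit 4047317565) (nat_lit 231) (nat_lit 5) (nat_lit 236) (nat_lit 5) (nat_lit 237) (nat_lit 5) (nat_lit 509) (nat_lit 471) (nat_lit 220)) (XT.lf (nat_lit 0) (nat_lit 6341834547) (nat_lit 456) (nat_lit 3263381724) (nat_lit 76) (nat_lit 52570649496) (nat_lit 230) (nat_lit 5) (nat_lit 236) (nat_lit 5) (nat_lit 231) (nat_lit 5) (nat_lit 510) (nat_lit 471) (nat_lit 219))) (XT.nd (nat_lit 78) (nat_lit 380) (nat_lit 0) (XT.lf (nat_lit 0) (nat_lit 17444429331) (nat_lit 532) (nat_lit 29608115224) (nat_lit 76) (nat_lit 16212228844) (nat_lit 224) (nat_lit 5) (nat_lit 231) (nat_lit 5) (nat_lit 225) (nat_lit 5) (nat_lit 511) (nat_lit 471) (nat_lit 218)) (XT.lf (nat_lit 0) (nat_lit 7413869172) (nat_lit 380) (nat_lit 21664963388) (nat_lit 456) (nat_lit 35301553813) (nat_lit 219) (nat_lit 5) (nat_lit 224) (nat_lit 5) (nat_lit 225) (nat_lit 5) (nat_lit 512) (nat_lit 471) (nat_lit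 217))))) (XT.nd (nat_lit 312) (nat_lit 684) (nat_lit 0) (XT.nd (nat_lit 156) (nat_lit 456) (nat_lit 0) (XT.nd (nat_lit 78) (nat_lit 380) (nat_lit 0) (XT.lf (nat_lit 0) (nat_lit 41406412457) (nat_lit 456) (nat_lit 19414336143) (nat_lit 76) (nat_lit 4698394828) (nat_lit 219) (nat_lit 5) (nat_lit 225) (nat_lit 5) (nat_lit 220) (nat_lit 5) (nat_lit 513) (nat_lit 471) (nat_lit 216)) (XT.lf (nat_lit 0) (nat_lit 19427825408) (nat_lit 380) (nat_lit 35076372545) (nat_lit 456) (nat_lit 12175853924) (nat_lit 214) (nat_lit 5) (nat_lit 219) (nat_lit 5) (nat_lit 220) (nat_lit 5) (nat_lit 514) (nat_lit 471) (nat_lit 215))) (XT.nd (nat_lit 78) (nat_lit 380) (nat_lit 0) (XT.lf (nat_lit 0) (nat_lit 313919751) (nat_lit 456) (nat_lit 8040958672) (nat_lit 76) (nat_lit 59514961379) (nat_lit 213) (nat_lit 5) (nat_lit 219) (nat_lit 5) (nat_lit 214) (nat_lit 5) (nat_lit 515) (nat_lit 471) (nat_lit 214)) (XT.lf (nat_lit 0) (nat_lit 13437323052)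 (nat_lit 456) (nat_lit 36404552634) (nat_lit 76) (nat_lit 19234719345) (nat_lit 208) (nat_lit 5) (nat_lit 214) (nat_lit 5) (nat_lit 209) (nat_lit 5) (nat_lit 516) (nat_lit 471) (nat_lit 213)))) (XT.nd (nat_lit 156) (nat_lit 304) (nat_lit 0) (XT.nd (nat_lit 78) (nat_lit 0) (nat_lit 0) (XT.lf (nat_lit 0) (nat_lit 4456414598) (nat_lit 380) (nat_lit 22704738307) (nat_lit 456) (nat_lit 43152198302) (nat_lit 203) (nat_lit 5) (nat_lit 208) (nat_lit 5) (nat_lit 209) (nat_lit 5) (nat_lit 517) (nat_lit 471) (nat_lit 212)) (XT.lf (nat_lit 0) (nat_lit 41717557980) (nat_lit 456) (nat_lit 24341964533) (nat_lit 76) (nat_lit 5515061771) (nat_lit 203) (nat_lit 5) (nat_lit 209) (nat_lit 5) (nat_lit 204) (nat_lit 5) (nat_lit 518) (nat_lit 471) (nat_lit 211))) (XT.nd (nat_lit 78) (nat_lit 0) (nat_lit 0) (XT.lf (nat_lit 0) (nat_lit 18554579384) (nat_lit 304) (nat_lit 38558430540) (nat_lit 380) (nat_lit 15748573811) (nat_lit 199) (nat_lit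 5) (nat_lit 203) (nat_lit 5) (nat_lit 204) (nat_lit 5) (nat_lit 519) (nat_lit 471) (nat_lit 210)) (XT.lf (nat_lit 0) (nat_lit 63235872643) (nat_lit 304) (nat_lit 9979468740) (nat_lit 380) (nat_lit 964501331) (nat_lit 199) (nat_lit 5) (nat_lit 203) (nat_lit 5) (nat_lit 204) (nat_lit 5) (nat_lit 520) (nat_lit 471) (nat_lit 209))))))) (XT.nd (nat_lit 1248) (nat_lit 1216) (nat_lit 0) (XT.nd (nat_lit 624) (nat_lit 1368) (nat_lit 0) (XT.nd (nat_lit 312) (nat_lit 684) (nat_lit 0) (XT.nd (nat_lit 156) (nat_lit 304) (nat_lit 0) (XT.nd (nat_lit 78) (nat_lit 304) (nat_lit 0) (XT.lf (nat_lit 0) (nat_lit 14504872116) (nat_lit 380) (nat_lit 41465251577) (nat_lit 76) (nat_lit 19547809530) (nat_lit 194) (nat_lit 5) (nat_lit 199) (nat_lit 5) (nat_lit 195) (nat_lit 5) (nat_lit 521) (nat_lit 471) (nat_lit 208)) (XT.lf (nat_lit 0) (nat_lit 3692195726) (nat_lit 304) (nat_lit 26971884506) (nat_lit 380) (nat_lit 46224445582) (nat_lit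 190) (nat_lit 5) (nat_lit 194) (nat_lit 5) (nat_lit 195) (nat_lit 5) (nat_lit 522) (nat_lit 471) (nat_lit 207))) (XT.nd (nat_lit 78) (nat_lit 304) (nat_lit 0) (XT.lf (nat_lit 0) (nat_lit 47758011131) (nat_lit 380) (nat_lit 27266430614) (nat_lit 76) (nat_lit 3262296060) (nat_lit 190) (nat_lit 5) (nat_lit 195) (nat_lit 5) (nat_lit 191) (nat_lit 5) (nat_lit 523) (nat_lit 471) (nat_lit 206)) (XT.lf (nat_lit 0) (nat_lit 20166743605) (nat_lit 304) (nat_lit 45658183924) (nat_lit 380) (nat_lit 13888163622) (nat_lit 186) (nat_lit 5) (nat_lit 190) (nat_lit 5) (nat_lit 191) (nat_lit 5) (nat_lit 524) (nat_lit 471) (nat_lit 205)))) (XT.nd (nat_lit 156) (nat_lit 304) (nat_lit 0) (XT.nd (nat_lit 78) (nat_lit 304) (nat_lit 0) (XT.lf (nat_lit 0) (nat_lit 3465497078) (nat_lit 380) (nat_lit 11627212952) (nat_lit 76) (nat_lit 66080267443) (nat_lit 185) (nat_lit 5) (nat_lit 190) (nat_lit 5) (nat_lit 186) (nat_lit 5) (nat_lit 525) (nat_lit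 471) (nat_lit 204)) (XT.lf (nat_lit 0) (nat_lit 21591011871) (nat_lit 380) (nat_lit 44485004622) (nat_lit 76) (nat_lit 16580607236) (nat_lit 181) (nat_lit 5) (nat_lit 186) (nat_lit 5) (nat_lit 182) (nat_lit 5) (nat_lit 526) (nat_lit 471) (nat_lit 203))) (XT.nd (nat_lit 78) (nat_lit 0) (nat_lit 0) (XT.lf (nat_lit 0) (nat_lit 5476702095) (nat_lit 304) (nat_lit 35103539008) (nat_lit 380) (nat_lit 43594939817) (nat_lit 177) (nat_lit 5) (nat_lit 181) (nat_lit 5) (nat_lit 182) (nat_lit 5) (nat_lit 527) (nat_lit 471) (nat_lit 202)) (XT.lf (nat_lit 0) (nat_lit 57848091163) (nat_lit 304) (nat_lit 2739573868) (nat_lit 380) (nat_lit 25138174278) (nat_lit 177) (nat_lit 5) (nat_lit 181) (nat_lit 5) (nat_lit 182) (nat_lit 5) (nat_lit 528) (nat_lit 471) (nat_lit 201))))) (XT.nd (nat_lit 312) (nat_lit 532) (nat_lit 0) (XT.nd (nat_lit 156) (nat_lit 532) (nat_lit 0) (XT.nd (nat_lit 78) (nat_lit 76) (nat_lit 0) (XT.lf (nat_lit 0)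 (nat_lit 24653529316) (nat_lit 228) (nat_lit 57072191209) (nat_lit 304) (nat_lit 5581384677) (nat_lit 174) (nat_lit 5) (nat_lit 177) (nat_lit 5) (nat_lit 178) (nat_lit 5) (nat_lit 529) (nat_lit 471) (nat_lit 200)) (XT.lf (nat_lit 0) (nat_lit 14588698011) (nat_lit 304) (nat_lit 9766100317) (nat_lit 76) (nat_lit 64567488903) (nat_lit 173) (nat_lit 5) (nat_lit 177) (nat_lit 5) (nat_lit 174) (nat_lit 5) (nat_lit 530) (nat_lit 471) (nat_lit 199))) (XT.nd (nat_lit 78) (nat_lit 228) (nat_lit 0) (XT.lf (nat_lit 0) (nat_lit 35783509860) (nat_lit 380) (nat_lit 45125483735) (nat_lit 76) (nat_lit 9659319096) (nat_lit 169) (nat_lit 5) (nat_lit 174) (nat_lit 5) (nat_lit 170) (nat_lit 5) (nat_lit 531) (nat_lit 471) (nat_lit 198)) (XT.lf (nat_lit 0) (nat_lit 10203422196) (nat_lit 228) (nat_lit 47848908519) (nat_lit 304) (nat_lit 34198243275) (nat_lit 166) (nat_lit 5) (nat_lit 169) (nat_lit 5) (nat_lit 170) (nat_lit 5) (nat_lit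 532) (nat_lit 471) (nat_lit 197)))) (XT.nd (nat_lit 156) (nat_lit 228) (nat_lit 0) (XT.nd (nat_lit 78) (nat_lit 304) (nat_lit 0) (XT.lf (nat_lit 0) (nat_lit 68116202081) (nat_lit 228) (nat_lit 13328053700) (nat_lit 304) (nat_lit 12525396173) (nat_lit 166) (nat_lit 5) (nat_lit 169) (nat_lit 5) (nat_lit 170) (nat_lit 5) (nat_lit 533) (nat_lit 471) (nat_lit 196)) (XT.lf (nat_lit 0) (nat_lit 10136571709) (nat_lit 304) (nat_lit 63379440620) (nat_lit 76) (nat_lit 22205560839) (nat_lit 162) (nat_lit 5) (nat_lit 166) (nat_lit 5) (nat_lit 163) (nat_lit 5) (nat_lit 534) (nat_lit 471) (nat_lit 195))) (XT.nd (nat_lit 78) (nat_lit 228) (nat_lit 0) (XT.lf (nat_lit 0) (nat_lit 33621643715) (nat_lit 304) (nat_lit 4964235956) (nat_lit 76) (nat_lit 58924602151) (nat_lit 162) (nat_lit 5) (nat_lit 166) (nat_lit 5) (nat_lit 163) (nat_lit 5) (nat_lit 535) (nat_lit 471) (nat_lit 194)) (XT.lf (nat_lit 0) (nat_lit 56301081899) (nat_lit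 228) (nat_lit 2050782760) (nat_lit 304) (nat_lit 40984975188) (nat_lit 159) (nat_lit 5) (nat_lit 162) (nat_lit 5) (nat_lit 163) (nat_lit 5) (nat_lit 536) (nat_lit 471) (nat_lit 193)))))) (XT.nd (nat_lit 57408) (nat_lit 0) (nat_lit 13984) (XT.nd (nat_lit 312) (nat_lit 456) (nat_lit 0) (XT.nd (nat_lit 156) (nat_lit 456) (nat_lit 0) (XT.nd (nat_lit 78) (nat_lit 76) (nat_lit 0) (XT.lf (nat_lit 0) (nat_lit 18303298714) (nat_lit 228) (nat_lit 66088682642) (nat_lit 304) (nat_lit 16808967594) (nat_lit 156) (nat_lit 5) (nat_lit 159) (nat_lit 5) (nat_lit 160) (nat_lit 5) (nat_lit 537) (nat_lit 471) (nat_lit 192)) (XT.lf (nat_lit 0) (nat_lit 8392997406) (nat_lit 304) (nat_lit 20846608697) (nat_lit 76) (nat_lit 73865283959) (nat_lit 155) (nat_lit 5) (nat_lit 159) (nat_lit 5) (nat_lit 156) (nat_lit 5) (nat_lit 538) (nat_lit 471) (nat_lit 191))) (XT.nd (nat_lit 78) (nat_lit 228) (nat_lit 0) (XT.lf (nat_lit 0) (nat_lit 34522754257)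 (nat_lit 304) (nat_lit 61385591881) (nat_lit 76) (nat_lit 9137323224) (nat_lit 152) (nat_lit 5) (nat_lit 156) (nat_lit 5) (nat_lit 153) (nat_lit 5) (nat_lit 539) (nat_lit 471) (nat_lit 190)) (XT.lf (nat_lit 0) (nat_lit 3262049418) (nat_lit 228) (nat_lit 58707231108) (nat_lit 304) (nat_lit 45059405226) (nat_lit 149) (nat_lit 5) (nat_lit 152) (nat_lit 5) (nat_lit 153) (nat_lit 5) (nat_lit 540) (nat_lit 471) (nat_lit 189)))) (XT.nd (nat_lit 156) (nat_lit 228) (nat_lit 0) (XT.nd (nat_lit 78) (nat_lit 228) (nat_lit 0) (XT.lf (nat_lit 0) (nat_lit 71106511691) (nat_lit 228) (nat_lit 19751997322) (nat_lit 304) (nat_lit 18194104436) (nat_lit 149) (nat_lit 5) (nat_lit 152) (nat_lit 5) (nat_lit 153) (nat_lit 5) (nat_lit 541) (nat_lit 471) (nat_lit 188)) (XT.lf (nat_lit 0) (nat_lit 9783014648) (nat_lit 228) (nat_lit 80976169045) (nat_lit 76) (nat_lit 20360618507) (nat_lit 146) (nat_lit 5) (nat_lit 149) (nat_lit 5) (nat_lit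 147) (nat_lit 5) (nat_lit 542) (nat_lit 471) (nat_lit 187))) (XT.nd (nat_lit 78) (nat_lit 228) (nat_lit 0) (XT.lf (nat_lit 0) (nat_lit 38815750306) (nat_lit 228) (nat_lit 12564030765) (nat_lit 76) (nat_lit 61846361770) (nat_lit 146) (nat_lit 5) (nat_lit 149) (nat_lit 5) (nat_lit 147) (nat_lit 5) (nat_lit 543) (nat_lit 471) (nat_lit 186)) (XT.lf (nat_lit 0) (nat_lit 59051874054) (nat_lit 228) (nat_lit 10234699879) (nat_lit 304) (nat_lit 46092086599) (nat_lit 143) (nat_lit 5) (nat_lit 146) (nat_lit 5) (nat_lit 147) (nat_lit 5) (nat_lit 544) (nat_lit 471) (nat_lit 185))))) (XT.nd (nat_lit 312) (nat_lit 0) (nat_lit 152) (XT.nd (nat_lit 156) (nat_lit 0) (nat_lit 76) (XT.nd (nat_lit 78) (nat_lit 0) (nat_lit 0) (XT.lf (nat_lit 0) (nat_lit 9378738925) (nat_lit 1292) (nat_lit 3845142720) (nat_lit 1292) (nat_lit 3845142720) (nat_lit 327) (nat_lit 3) (nat_lit 344) (nat_lit 3) (nat_lit 344) (nat_lit 5) (nat_lit 472) (nat_lit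 472) (nat_lit 256)) (XT.lf (nat_lit 76) (nat_lit 9495447442) (nat_lit 0) (nat_lit 9690701054) (nat_lit 1292) (nat_lit 15459549127) (nat_lit 328) (nat_lit 5) (nat_lit 327) (nat_lit 3) (nat_lit 344) (nat_lit 5) (nat_lit 473) (nat_lit 472) (nat_lit 255))) (XT.nd (nat_lit 78) (nat_lit 0) (nat_lit 0) (XT.lf (nat_lit 0) (nat_lit 19776675760) (nat_lit 1216) (nat_lit 7886602875) (nat_lit 1292) (nat_lit 7500827551) (nat_lit 328) (nat_lit 5) (nat_lit 344) (nat_lit 5) (nat_lit 345) (nat_lit 5) (nat_lit 474) (nat_lit 472) (nat_lit 254)) (XT.lf (nat_lit 76) (nat_lit 9992812979) (nat_lit 0) (nat_lit 10581986404) (nat_lit 1292) (nat_lit 15117571306) (nat_lit 329) (nat_lit 5) (nat_lit 328) (nat_lit 5) (nat_lit 345) (nat_lit 5) (nat_lit 475) (nat_lit 472) (nat_lit 253)))) (XT.nd (nat_lit 156) (nat_lit 0) (nat_lit 76) (XT.nd (nat_lit 78) (nat_lit 0) (nat_lit 0) (XT.lf (nat_lit 0) (nat_lit 21542630760) (nat_lit 1216) (nat_lit 7733253062)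 (nat_lit 1292) (nat_lit 6956226477) (nat_lit 329) (nat_lit 5) (nat_lit 345) (nat_lit 5) (nat_lit 346) (nat_lit 5) (nat_lit 476) (nat_lit 472) (nat_lit 252)) (XT.lf (nat_lit 76) (nat_lit 10878332018) (nat_lit 0) (nat_lit 11868501662) (nat_lit 1292) (nat_lit 14034988413) (nat_lit 330) (nat_lit 5) (nat_lit 329) (nat_lit 5) (nat_lit 346) (nat_lit 5) (nat_lit 477) (nat_lit 472) (nat_lit 251))) (XT.nd (nat_lit 78) (nat_lit 0) (nat_lit 0) (XT.lf (nat_lit 0) (nat_lit 24122338991) (nat_lit 1216) (nat_lit 7199196189) (nat_lit 1292) (nat_lit 6022434862) (nat_lit 330) (nat_lit 5) (nat_lit 346) (nat_lit 5) (nat_lit 347) (nat_lit 5) (nat_lit 478) (nat_lit 472) (nat_lit 250)) (XT.lf (nat_lit 76) (nat_lit 12185265669) (nat_lit 0) (nat_lit 13586592163) (nat_lit 1292) (nat_lit 12144142231) (nat_lit 331) (nat_lit 5) (nat_lit 330) (nat_lit 5) (nat_lit 347) (nat_lit 5) (nat_lit 479) (nat_lit 472) (nat_lit 249))))))))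
noncomputable def xc226 : XT := (XT.nd (nat_lit 2418) (nat_lit 6232) (nat_lit 0) (XT.nd (nat_lit 1170) (nat_lit 4560) (nat_lit 0) (XT.nd (nat_lit 546) (nat_lit 1900) (nat_lit 0) (XT.nd (nat_lit 234) (nat_lit 1140) (nat_lit 0) (XT.nd (nat_lit 78) (nat_lit 0) (nat_lit 0) (XT.lf (nat_lit 0) (nat_lit 27587426414) (nat_lit 1216) (nat_lit 6251161823) (nat_lit 1292) (nat_lit 4663105907) (nat_lit 331) (nat_lit 5) (nat_lit 347) (nat_lit 5) (nat_lit 348) (nat_lit 5) (nat_lit 480) (nat_lit 472) (nat_lit 248)) (XT.nd (nat_lit 78) (nat_lit 0) (nat_lit 76) (XT.lf (nat_lit 76) (nat_lit 13949235308) (nat_lit 0) (nat_lit 15775045528) (nat_lit 1292) (nat_lit 9372673732) (nat_lit 332) (nat_lit 5) (nat_lit 331) (nat_lit 5) (nat_lit 348) (nat_lit 5) (nat_lit 481) (nat_lit 472) (nat_lit 247)) (XT.lf (nat_lit 0) (nat_lit 32014452754) (nat_lit 1216) (nat_lit 4853511733) (nat_lit 1292) (nat_lit 2839432042) (nat_lit 332) (nat_lit 5) (nat_lit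 348) (nat_lit 5) (nat_lit 349) (nat_lit 5) (nat_lit 482) (nat_lit 472) (nat_lit 246)))) (XT.nd (nat_lit 156) (nat_lit 1216) (nat_lit 0) (XT.nd (nat_lit 78) (nat_lit 0) (nat_lit 76) (XT.lf (nat_lit 76) (nat_lit 16208367428) (nat_lit 0) (nat_lit 18475261365) (nat_lit 1292) (nat_lit 5643214062) (nat_lit 333) (nat_lit 5) (nat_lit 332) (nat_lit 5) (nat_lit 349) (nat_lit 5) (nat_lit 483) (nat_lit 472) (nat_lit 245)) (XT.lf (nat_lit 0) (nat_lit 37485233919) (nat_lit 1216) (nat_lit 2968093976) (nat_lit 1292) (nat_lit 509974138) (nat_lit 333) (nat_lit 5) (nat_lit 349) (nat_lit 5) (nat_lit 350) (nat_lit 5) (nat_lit 484) (nat_lit 472) (nat_lit 244))) (XT.nd (nat_lit 78) (nat_lit 1292) (nat_lit 0) (XT.lf (nat_lit 76) (nat_lit 19003447643) (nat_lit 0) (nat_lit 21731430980) (nat_lit 1292) (nat_lit 873056693) (nat_lit 334) (nat_lit 5) (nat_lit 333) (nat_lit 5) (nat_lit 350) (nat_lit 5) (nat_lit 485) (nat_lit 472) (nat_lit 243))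 (XT.lf (nat_lit 0) (nat_lit 1803466556) (nat_lit 1292) (nat_lit 594999441) (nat_lit 1368) (nat_lit 39872059178) (nat_lit 316) (nat_lit 5) (nat_lit 333) (nat_lit 5) (nat_lit 334) (nat_lit 5) (nat_lit 486) (nat_lit 472) (nat_lit 242))))) (XT.nd (nat_lit 312) (nat_lit 1216) (nat_lit 0) (XT.nd (nat_lit 156) (nat_lit 760) (nat_lit 0) (XT.nd (nat_lit 78) (nat_lit 0) (nat_lit 0) (XT.lf (nat_lit 0) (nat_lit 4928111351) (nat_lit 1292) (nat_lit 20612852171) (nat_lit 1368) (nat_lit 17400208750) (nat_lit 317) (nat_lit 5) (nat_lit 334) (nat_lit 5) (nat_lit 335) (nat_lit 5) (nat_lit 487) (nat_lit 472) (nat_lit 241)) (XT.lf (nat_lit 76) (nat_lit 2340368224) (nat_lit 0) (nat_lit 5856935764) (nat_lit 1368) (nat_lit 35433110604) (nat_lit 318) (nat_lit 5) (nat_lit 317) (nat_lit 5) (nat_lit 335) (nat_lit 5) (nat_lit 488) (nat_lit 472) (nat_lit 240))) (XT.nd (nat_lit 78) (nat_lit 836) (nat_lit 0) (XT.lf (nat_lit 0) (nat_lit 11911903768)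 (nat_lit 1292) (nat_lit 18071318518) (nat_lit 76) (nat_lit 14346692016) (nat_lit 318) (nat_lit 5) (nat_lit 335) (nat_lit 5) (nat_lit 319) (nat_lit 5) (nat_lit 489) (nat_lit 472) (nat_lit 239)) (XT.lf (nat_lit 0) (nat_lit 5899841373) (nat_lit 836) (nat_lit 9951375501) (nat_lit 912) (nat_lit 29195783932) (nat_lit 307) (nat_lit 5) (nat_lit 318) (nat_lit 5) (nat_lit 319) (nat_lit 5) (nat_lit 490) (nat_lit 472) (nat_lit 238)))) (XT.nd (nat_lit 156) (nat_lit 608) (nat_lit 0) (XT.nd (nat_lit 78) (nat_lit 608) (nat_lit 0) (XT.lf (nat_lit 0) (nat_lit 20194281300) (nat_lit 912) (nat_lit 14925326587) (nat_lit 76) (nat_lit 10657424918) (nat_lit 307) (nat_lit 5) (nat_lit 319) (nat_lit 5) (nat_lit 308) (nat_lit 5) (nat_lit 491) (nat_lit 472) (nat_lit 237)) (XT.lf (nat_lit 0) (nat_lit 10120866740) (nat_lit 608) (nat_lit 14741231869) (nat_lit 684) (nat_lit 21661033385) (nat_lit 299) (nat_lit 5) (nat_lit 307) (nat_lit 5) (nat_lit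 308) (nat_lit 5) (nat_lit 492) (nat_lit 472) (nat_lit 236))) (XT.nd (nat_lit 78) (nat_lit 608) (nat_lit 0) (XT.lf (nat_lit 0) (nat_lit 29880896342) (nat_lit 684) (nat_lit 11125537737) (nat_lit 76) (nat_lit 6278851759) (nat_lit 299) (nat_lit 5) (nat_lit 308) (nat_lit 5) (nat_lit 300) (nat_lit 5) (nat_lit 493) (nat_lit 472) (nat_lit 235)) (XT.lf (nat_lit 0) (nat_lit 15056085921) (nat_lit 608) (nat_lit 20283564607) (nat_lit 684) (nat_lit 12721972047) (nat_lit 291) (nat_lit 5) (nat_lit 299) (nat_lit 5) (nat_lit 300) (nat_lit 5) (nat_lit 494) (nat_lit 472) (nat_lit 234)))))) (XT.nd (nat_lit 624) (nat_lit 2280) (nat_lit 0) (XT.nd (nat_lit 312) (nat_lit 1064) (nat_lit 0) (XT.nd (nat_lit 156) (nat_lit 684) (nat_lit 0) (XT.nd (nat_lit 78) (nat_lit 532) (nat_lit 0) (XT.lf (nat_lit 0) (nat_lit 41084561963) (nat_lit 684) (nat_lit 6619246619) (nat_lit 76) (nat_lit 1153769047) (nat_lit 291) (nat_lit 5) (nat_lit 300) (nat_lit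 5) (nat_lit 292) (nat_lit 5) (nat_lit 495) (nat_lit 472) (nat_lit 233)) (XT.lf (nat_lit 0) (nat_lit 20761700235) (nat_lit 532) (nat_lit 26639296092) (nat_lit 608) (nat_lit 2264439790) (nat_lit 284) (nat_lit 5) (nat_lit 291) (nat_lit 5) (nat_lit 292) (nat_lit 5) (nat_lit 496) (nat_lit 472) (nat_lit 232))) (XT.nd (nat_lit 78) (nat_lit 608) (nat_lit 0) (XT.lf (nat_lit 0) (nat_lit 3409153031) (nat_lit 608) (nat_lit 1430448639) (nat_lit 76) (nat_lit 45654956867) (nat_lit 283) (nat_lit 5) (nat_lit 291) (nat_lit 5) (nat_lit 284) (nat_lit 5) (nat_lit 497) (nat_lit 472) (nat_lit 231)) (XT.lf (nat_lit 0) (nat_lit 9641577229) (nat_lit 684) (nat_lit 24134529230) (nat_lit 76) (nat_lit 17558751513) (nat_lit 275) (nat_lit 5) (nat_lit 284) (nat_lit 5) (nat_lit 276) (nat_lit 5) (nat_lit 498) (nat_lit 472) (nat_lit 230)))) (XT.nd (nat_lit 156) (nat_lit 532) (nat_lit 0) (XT.nd (nat_lit 78) (nat_lit 0) (nat_lit 0) (XT.lf (nat_lit 0)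 (nat_lit 4559085520) (nat_lit 532) (nat_lit 11607061608) (nat_lit 608) (nat_lit 36031064120) (nat_lit 268) (nat_lit 5) (nat_lit 275) (nat_lit 5) (nat_lit 276) (nat_lit 5) (nat_lit 499) (nat_lit 472) (nat_lit 229)) (XT.lf (nat_lit 0) (nat_lit 23239364527) (nat_lit 608) (nat_lit 18581474227) (nat_lit 76) (nat_lit 11254009098) (nat_lit 268) (nat_lit 5) (nat_lit 276) (nat_lit 5) (nat_lit 269) (nat_lit 5) (nat_lit 500) (nat_lit 472) (nat_lit 228))) (XT.nd (nat_lit 78) (nat_lit 0) (nat_lit 0) (XT.lf (nat_lit 0) (nat_lit 11454246648) (nat_lit 532) (nat_lit 19294456176) (nat_lit 608) (nat_lit 23223393043) (nat_lit 261) (nat_lit 5) (nat_lit 268) (nat_lit 5) (nat_lit 269) (nat_lit 5) (nat_lit 501) (nat_lit 472) (nat_lit 227)) (XT.lf (nat_lit 0) (nat_lit 38709295869) (nat_lit 608) (nat_lit 12159353888) (nat_lit 76) (nat_lit 4020832369) (nat_lit 261) (nat_lit 5) (nat_lit 269) (nat_lit 5) (nat_lit 262) (nat_lit 5) (nat_lit 502)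 (nat_lit 472) (nat_lit 226))))) (XT.nd (nat_lit 312) (nat_lit 836) (nat_lit 0) (XT.nd (nat_lit 156) (nat_lit 988) (nat_lit 0) (XT.nd (nat_lit 78) (nat_lit 0) (nat_lit 0) (XT.lf (nat_lit 0) (nat_lit 19294155057) (nat_lit 456) (nat_lit 27990001614) (nat_lit 532) (nat_lit 8538969843) (nat_lit 255) (nat_lit 5) (nat_lit 261) (nat_lit 5) (nat_lit 262) (nat_lit 5) (nat_lit 503) (nat_lit 472) (nat_lit 225)) (XT.lf (nat_lit 0) (nat_lit 51939330436) (nat_lit 456) (nat_lit 4298686170) (nat_lit 532) (nat_lit 543111067) (nat_lit 255) (nat_lit 5) (nat_lit 261) (nat_lit 5) (nat_lit 262) (nat_lit 5) (nat_lit 504) (nat_lit 472) (nat_lit 224))) (XT.nd (nat_lit 78) (nat_lit 456) (nat_lit 0) (XT.lf (nat_lit 0) (nat_lit 8009940907) (nat_lit 532) (nat_lit 29681628400) (nat_lit 76) (nat_lit 20060058365) (nat_lit 248) (nat_lit 5) (nat_lit 255) (nat_lit 5) (nat_lit 249) (nat_lit 5) (nat_lit 505) (nat_lit 472) (nat_lit 223)) (XT.lf (nat_lit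 0) (nat_lit 3334067160) (nat_lit 456) (nat_lit 13597592747) (nat_lit 532) (nat_lit 41815731735) (nat_lit 242) (nat_lit 5) (nat_lit 248) (nat_lit 5) (nat_lit 249) (nat_lit 5) (nat_lit 506) (nat_lit 472) (nat_lit 222)))) (XT.nd (nat_lit 156) (nat_lit 380) (nat_lit 0) (XT.nd (nat_lit 78) (nat_lit 456) (nat_lit 0) (XT.lf (nat_lit 0) (nat_lit 26530590168) (nat_lit 532) (nat_lit 21927383686) (nat_lit 76) (nat_lit 11302767922) (nat_lit 242) (nat_lit 5) (nat_lit 249) (nat_lit 5) (nat_lit 243) (nat_lit 5) (nat_lit 507) (nat_lit 472) (nat_lit 221)) (XT.lf (nat_lit 0) (nat_lit 12674657830) (nat_lit 456) (nat_lit 23998345257) (nat_lit 532) (nat_lit 24123823917) (nat_lit 236) (nat_lit 5) (nat_lit 242) (nat_lit 5) (nat_lit 243) (nat_lit 5) (nat_lit 508) (nat_lit 472) (nat_lit 220))) (XT.nd (nat_lit 78) (nat_lit 380) (nat_lit 0) (XT.lf (nat_lit 0) (nat_lit 47353854918) (nat_lit 532) (nat_lit 13107972143) (nat_lit 76) (nat_lit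 1395142766) (nat_lit 236) (nat_lit 5) (nat_lit 243) (nat_lit 5) (nat_lit 237) (nat_lit 5) (nat_lit 509) (nat_lit 472) (nat_lit 219)) (XT.lf (nat_lit 0) (nat_lit 23170018161) (nat_lit 380) (nat_lit 35644536070) (nat_lit 456) (nat_lit 4120580078) (nat_lit 231) (nat_lit 5) (nat_lit 236) (nat_lit 5) (nat_lit 237) (nat_lit 5) (nat_lit 510) (nat_lit 472) (nat_lit 218))))))) (XT.nd (nat_lit 1248) (nat_lit 2736) (nat_lit 0) (XT.nd (nat_lit 624) (nat_lit 1368) (nat_lit 0) (XT.nd (nat_lit 312) (nat_lit 1216) (nat_lit 0) (XT.nd (nat_lit 156) (nat_lit 380) (nat_lit 0) (XT.nd (nat_lit 78) (nat_lit 456) (nat_lit 0) (XT.lf (nat_lit 0) (nat_lit 6577931621) (nat_lit 456) (nat_lit 3302284853) (nat_lit 76) (nat_lit 54159548482) (nat_lit 230) (nat_lit 5) (nat_lit 236) (nat_lit 5) (nat_lit 231) (nat_lit 5) (nat_lit 511) (nat_lit 472) (nat_lit 217)) (XT.lf (nat_lit 0) (nat_lit 18012958954) (nat_lit 532) (nat_lit 30436713583) (nat_lit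 76) (nat_lit 16711686682) (nat_lit 224) (nat_lit 5) (nat_lit 231) (nat_lit 5) (nat_lit 225) (nat_lit 5) (nat_lit 512) (nat_lit 472) (nat_lit 216))) (XT.nd (nat_lit 78) (nat_lit 0) (nat_lit 0) (XT.lf (nat_lit 0) (nat_lit 7695345589) (nat_lit 380) (nat_lit 22300300005) (nat_lit 456) (nat_lit 36314817492) (nat_lit 219) (nat_lit 5) (nat_lit 224) (nat_lit 5) (nat_lit 225) (nat_lit 5) (nat_lit 513) (nat_lit 472) (nat_lit 215)) (XT.lf (nat_lit 0) (nat_lit 42691894655) (nat_lit 456) (nat_lit 19938266462) (nat_lit 76) (nat_lit 4853256524) (nat_lit 219) (nat_lit 5) (nat_lit 225) (nat_lit 5) (nat_lit 220) (nat_lit 5) (nat_lit 514) (nat_lit 472) (nat_lit 214)))) (XT.nd (nat_lit 156) (nat_lit 760) (nat_lit 0) (XT.nd (nat_lit 78) (nat_lit 76) (nat_lit 0) (XT.lf (nat_lit 0) (nat_lit 20068586409) (nat_lit 380) (nat_lit 36113323261) (nat_lit 456) (nat_lit 12497264835) (nat_lit 214) (nat_lit 5) (nat_lit 219) (nat_lit 5) (nat_lit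 220) (nat_lit 5) (nat_lit 515) (nat_lit 472) (nat_lit 213)) (XT.lf (nat_lit 0) (nat_lit 365093409) (nat_lit 456) (nat_lit 8225116062) (nat_lit 76) (nat_lit 61314471566) (nat_lit 213) (nat_lit 5) (nat_lit 219) (nat_lit 5) (nat_lit 214) (nat_lit 5) (nat_lit 516) (nat_lit 472) (nat_lit 212))) (XT.nd (nat_lit 78) (nat_lit 380) (nat_lit 0) (XT.lf (nat_lit 0) (nat_lit 13881674150) (nat_lit 456) (nat_lit 37439091944) (nat_lit 76) (nat_lit 19826888606) (nat_lit 208) (nat_lit 5) (nat_lit 214) (nat_lit 5) (nat_lit 209) (nat_lit 5) (nat_lit 517) (nat_lit 472) (nat_lit 211)) (XT.lf (nat_lit 0) (nat_lit 4647139626) (nat_lit 380) (nat_lit 23369426591) (nat_lit 456) (nat_lit 44404966962) (nat_lit 203) (nat_lit 5) (nat_lit 208) (nat_lit 5) (nat_lit 209) (nat_lit 5) (nat_lit 518) (nat_lit 472) (nat_lit 210))))) (XT.nd (nat_lit 312) (nat_lit 684) (nat_lit 0) (XT.nd (nat_lit 156) (nat_lit 380) (nat_lit 0) (XT.nd (nat_lit 78) (nat_lit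 304) (nat_lit 0) (XT.lf (nat_lit 0) (nat_lit 43008635096) (nat_lit 456) (nat_lit 25015822508) (nat_lit 76) (nat_lit 5696176529) (nat_lit 203) (nat_lit 5) (nat_lit 209) (nat_lit 5) (nat_lit 204) (nat_lit 5) (nat_lit 519) (nat_lit 472) (nat_lit 209)) (XT.lf (nat_lit 0) (nat_lit 19167064776) (nat_lit 304) (nat_lit 39698270715) (nat_lit 380) (nat_lit 16180926563) (nat_lit 199) (nat_lit 5) (nat_lit 203) (nat_lit 5) (nat_lit 204) (nat_lit 5) (nat_lit 520) (nat_lit 472) (nat_lit 208))) (XT.nd (nat_lit 78) (nat_lit 380) (nat_lit 0) (XT.lf (nat_lit 0) (nat_lit 65187170192) (nat_lit 304) (nat_lit 10262432665) (nat_lit 380) (nat_lit 954500000) (nat_lit 199) (nat_lit 5) (nat_lit 203) (nat_lit 5) (nat_lit 204) (nat_lit 5) (nat_lit 521) (nat_lit 472) (nat_lit 207)) (XT.lf (nat_lit 0) (nat_lit 14977768286) (nat_lit 380) (nat_lit 42653799282) (nat_lit 76) (nat_lit 20150770113) (nat_lit 194) (nat_lit 5) (nat_lit 199) (nat_lit 5)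 (nat_lit 195) (nat_lit 5) (nat_lit 522) (nat_lit 472) (nat_lit 206)))) (XT.nd (nat_lit 156) (nat_lit 380) (nat_lit 0) (XT.nd (nat_lit 78) (nat_lit 0) (nat_lit 0) (XT.lf (nat_lit 0) (nat_lit 3857828206) (nat_lit 304) (nat_lit 27763352336) (nat_lit 380) (nat_lit 47572884701) (nat_lit 190) (nat_lit 5) (nat_lit 194) (nat_lit 5) (nat_lit 195) (nat_lit 5) (nat_lit 523) (nat_lit 472) (nat_lit 205)) (XT.lf (nat_lit 0) (nat_lit 49227011599) (nat_lit 380) (nat_lit 28030236233) (nat_lit 76) (nat_lit 3377003325) (nat_lit 190) (nat_lit 5) (nat_lit 195) (nat_lit 5) (nat_lit 191) (nat_lit 5) (nat_lit 524) (nat_lit 472) (nat_lit 204))) (XT.nd (nat_lit 78) (nat_lit 76) (nat_lit 0) (XT.lf (nat_lit 0) (nat_lit 20825401965) (nat_lit 304) (nat_lit 47009993178) (nat_lit 380) (nat_lit 14268016198) (nat_lit 186) (nat_lit 5) (nat_lit 190) (nat_lit 5) (nat_lit 191) (nat_lit 5) (nat_lit 525) (nat_lit 472) (nat_lit 203)) (XT.lf (nat_lit 0)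 (nat_lit 3604485661) (nat_lit 380) (nat_lit 11923238152) (nat_lit 76) (nat_lit 68079391379) (nat_lit 185) (nat_lit 5) (nat_lit 190) (nat_lit 5) (nat_lit 186) (nat_lit 5) (nat_lit 526) (nat_lit 472) (nat_lit 202)))))) (XT.nd (nat_lit 624) (nat_lit 1292) (nat_lit 0) (XT.nd (nat_lit 312) (nat_lit 608) (nat_lit 0) (XT.nd (nat_lit 156) (nat_lit 228) (nat_lit 0) (XT.nd (nat_lit 78) (nat_lit 304) (nat_lit 0) (XT.lf (nat_lit 0) (nat_lit 22273419070) (nat_lit 380) (nat_lit 45766415875) (nat_lit 76) (nat_lit 17095446322) (nat_lit 181) (nat_lit 5) (nat_lit 186) (nat_lit 5) (nat_lit 182) (nat_lit 5) (nat_lit 527) (nat_lit 472) (nat_lit 201)) (XT.lf (nat_lit 0) (nat_lit 5693621074) (nat_lit 304) (nat_lit 36138199895) (nat_lit 380) (nat_lit 44867589355) (nat_lit 177) (nat_lit 5) (nat_lit 181) (nat_lit 5) (nat_lit 182) (nat_lit 5) (nat_lit 528) (nat_lit 472) (nat_lit 200))) (XT.nd (nat_lit 78) (nat_lit 228) (nat_lit 0) (XT.lf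 (nat_lit 0) (nat_lit 59634619254) (nat_lit 304) (nat_lit 2803853042) (nat_lit 380) (nat_lit 25858146053) (nat_lit 177) (nat_lit 5) (nat_lit 181) (nat_lit 5) (nat_lit 182) (nat_lit 5) (nat_lit 529) (nat_lit 472) (nat_lit 199)) (XT.lf (nat_lit 0) (nat_lit 25444535632) (nat_lit 228) (nat_lit 58765828714) (nat_lit 304) (nat_lit 5714967049) (nat_lit 174) (nat_lit 5) (nat_lit 177) (nat_lit 5) (nat_lit 178) (nat_lit 5) (nat_lit 530) (nat_lit 472) (nat_lit 198)))) (XT.nd (nat_lit 156) (nat_lit 228) (nat_lit 0) (XT.nd (nat_lit 78) (nat_lit 304) (nat_lit 0) (XT.lf (nat_lit 0) (nat_lit 15058590460) (nat_lit 304) (nat_lit 10008537769) (nat_lit 76) (nat_lit 66521859924) (nat_lit 173) (nat_lit 5) (nat_lit 177) (nat_lit 5) (nat_lit 174) (nat_lit 5) (nat_lit 531) (nat_lit 472) (nat_lit 197)) (XT.lf (nat_lit 0) (nat_lit 36888964676) (nat_lit 380) (nat_lit 46428419973) (nat_lit 76) (nat_lit 9967018209) (nat_lit 169) (nat_lit 5) (nat_lit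 174) (nat_lit 5) (nat_lit 170) (nat_lit 5) (nat_lit 532) (nat_lit 472) (nat_lit 196))) (XT.nd (nat_lit 78) (nat_lit 0) (nat_lit 0) (XT.lf (nat_lit 0) (nat_lit 10559854819) (nat_lit 228) (nat_lit 49265548571) (nat_lit 304) (nat_lit 35191742030) (nat_lit 166) (nat_lit 5) (nat_lit 169) (nat_lit 5) (nat_lit 170) (nat_lit 5) (nat_lit 533) (nat_lit 472) (nat_lit 195)) (XT.lf (nat_lit 0) (nat_lit 70208552180) (nat_lit 228) (nat_lit 13709616472) (nat_lit 304) (nat_lit 12869654618) (nat_lit 166) (nat_lit 5) (nat_lit 169) (nat_lit 5) (nat_lit 170) (nat_lit 5) (nat_lit 534) (nat_lit 472) (nat_lit 194))))) (XT.nd (nat_lit 312) (nat_lit 532) (nat_lit 0) (XT.nd (nat_lit 156) (nat_lit 456) (nat_lit 0) (XT.nd (nat_lit 78) (nat_lit 0) (nat_lit 0) (XT.lf (nat_lit 0) (nat_lit 10471307011) (nat_lit 304) (nat_lit 65231093200) (nat_lit 76) (nat_lit 22889900361) (nat_lit 162) (nat_lit 5) (nat_lit 166) (nat_lit 5) (nat_lit 163) (nat_lit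 5) (nat_lit 535) (nat_lit 472) (nat_lit 193)) (XT.lf (nat_lit 0) (nat_lit 34660038804) (nat_lit 304) (nat_lit 5064880862) (nat_lit 76) (nat_lit 60709983610) (nat_lit 162) (nat_lit 5) (nat_lit 166) (nat_lit 5) (nat_lit 163) (nat_lit 5) (nat_lit 536) (nat_lit 472) (nat_lit 192))) (XT.nd (nat_lit 78) (nat_lit 228) (nat_lit 0) (XT.lf (nat_lit 0) (nat_lit 58037923175) (nat_lit 228) (nat_lit 2093836387) (nat_lit 304) (nat_lit 42184304701) (nat_lit 159) (nat_lit 5) (nat_lit 162) (nat_lit 5) (nat_lit 163) (nat_lit 5) (nat_lit 537) (nat_lit 472) (nat_lit 191)) (XT.lf (nat_lit 0) (nat_lit 18900434121) (nat_lit 228) (nat_lit 68052425234) (nat_lit 304) (nat_lit 17283243914) (nat_lit 156) (nat_lit 5) (nat_lit 159) (nat_lit 5) (nat_lit 160) (nat_lit 5) (nat_lit 538) (nat_lit 472) (nat_lit 190)))) (XT.nd (nat_lit 156) (nat_lit 228) (nat_lit 0) (XT.nd (nat_lit 78) (nat_lit 228) (nat_lit 0) (XT.lf (nat_lit 0) (nat_lit 8673338243)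 (nat_lit 304) (nat_lit 21424800855) (nat_lit 76) (nat_lit 76099040581) (nat_lit 155) (nat_lit 5) (nat_lit 159) (nat_lit 5) (nat_lit 156) (nat_lit 5) (nat_lit 539) (nat_lit 472) (nat_lit 189)) (XT.lf (nat_lit 0) (nat_lit 35586784095) (nat_lit 304) (nat_lit 63179749289) (nat_lit 76) (nat_lit 9429655102) (nat_lit 152) (nat_lit 5) (nat_lit 156) (nat_lit 5) (nat_lit 153) (nat_lit 5) (nat_lit 540) (nat_lit 472) (nat_lit 188))) (XT.nd (nat_lit 78) (nat_lit 0) (nat_lit 0) (XT.lf (nat_lit 0) (nat_lit 3406856442) (nat_lit 228) (nat_lit 60449475332) (nat_lit 304) (nat_lit 46382374839) (nat_lit 149) (nat_lit 5) (nat_lit 152) (nat_lit 5) (nat_lit 153) (nat_lit 5) (nat_lit 541) (nat_lit 472) (nat_lit 187)) (XT.lf (nat_lit 0) (nat_lit 73285285238) (nat_lit 228) (nat_lit 20326137136) (nat_lit 304) (nat_lit 18711954226) (nat_lit 149) (nat_lit 5) (nat_lit 152) (nat_lit 5) (nat_lit 153) (nat_lit 5) (nat_lit 542) (nat_lit 472) (nat_lit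 186))))))))
noncomputable def xc227 : XT := (XT.nd (nat_lit 59358) (nat_lit 0) (nat_lit 1520) (XT.nd (nat_lit 58110) (nat_lit 0) (nat_lit 8740) (XT.nd (nat_lit 57486) (nat_lit 0) (nat_lit 13984) (XT.nd (nat_lit 57174) (nat_lit 0) (nat_lit 13832) (XT.nd (nat_lit 57018) (nat_lit 0) (nat_lit 13756) (XT.lf (nat_lit 0) (nat_lit 10103751582) (nat_lit 228) (nat_lit 83359148094) (nat_lit 76) (nat_lit 20989678714) (nat_lit 146) (nat_lit 5) (nat_lit 149) (nat_lit 5) (nat_lit 147) (nat_lit 5) (nat_lit 543) (nat_lit 472) (nat_lit 185)) (XT.nd (nat_lit 78) (nat_lit 0) (nat_lit 0) (XT.lf (nat_lit 0) (nat_lit 9715594903) (nat_lit 1292) (nat_lit 3931916409) (nat_lit 1292) (nat_lit 3931916409) (nat_lit 327) (nat_lit 3) (nat_lit 344) (nat_lit 3) (nat_lit 344) (nat_lit 5) (nat_lit 473) (nat_lit 473) (nat_lit 254)) (XT.lf (nat_lit 76) (nat_lit 9836911647) (nat_lit 0) (nat_lit 10033120357) (nat_lit 1292) (nat_lit 15811782604) (nat_lit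 328) (nat_lit 5) (nat_lit 327) (nat_lit 3) (nat_lit 344) (nat_lit 5) (nat_lit 474) (nat_lit 473) (nat_lit 253)))) (XT.nd (nat_lit 156) (nat_lit 0) (nat_lit 76) (XT.nd (nat_lit 78) (nat_lit 0) (nat_lit 0) (XT.lf (nat_lit 0) (nat_lit 20474638263) (nat_lit 1216) (nat_lit 8064607096) (nat_lit 1292) (nat_lit 7676639319) (nat_lit 328) (nat_lit 5) (nat_lit 344) (nat_lit 5) (nat_lit 345) (nat_lit 5) (nat_lit 475) (nat_lit 473) (nat_lit 252)) (XT.lf (nat_lit 76) (nat_lit 10350616784) (nat_lit 0) (nat_lit 10943598113) (nat_lit 1292) (nat_lit 15465857078) (nat_lit 329) (nat_lit 5) (nat_lit 328) (nat_lit 5) (nat_lit 345) (nat_lit 5) (nat_lit 476) (nat_lit 473) (nat_lit 251))) (XT.nd (nat_lit 78) (nat_lit 0) (nat_lit 0) (XT.lf (nat_lit 0) (nat_lit 22287693292) (nat_lit 1216) (nat_lit 7905528647) (nat_lit 1292) (nat_lit 7122883610) (nat_lit 329) (nat_lit 5) (nat_lit 345) (nat_lit 5) (nat_lit 346) (nat_lit 5) (nat_lit 477) (nat_lit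 473) (nat_lit 250)) (XT.lf (nat_lit 76) (nat_lit 11263818475) (nat_lit 0) (nat_lit 12261895087) (nat_lit 1292) (nat_lit 14356664528) (nat_lit 330) (nat_lit 5) (nat_lit 329) (nat_lit 5) (nat_lit 346) (nat_lit 5) (nat_lit 478) (nat_lit 473) (nat_lit 249))))) (XT.nd (nat_lit 312) (nat_lit 0) (nat_lit 152) (XT.nd (nat_lit 156) (nat_lit 0) (nat_lit 76) (XT.nd (nat_lit 78) (nat_lit 0) (nat_lit 0) (XT.lf (nat_lit 0) (nat_lit 24939325619) (nat_lit 1216) (nat_lit 7354595297) (nat_lit 1292) (nat_lit 6167564442) (nat_lit 330) (nat_lit 5) (nat_lit 346) (nat_lit 5) (nat_lit 347) (nat_lit 5) (nat_lit 479) (nat_lit 473) (nat_lit 248)) (XT.lf (nat_lit 76) (nat_lit 12610806526) (nat_lit 0) (nat_lit 14025382137) (nat_lit 1292) (nat_lit 12414551984) (nat_lit 331) (nat_lit 5) (nat_lit 330) (nat_lit 5) (nat_lit 347) (nat_lit 5) (nat_lit 480) (nat_lit 473) (nat_lit 247))) (XT.nd (nat_lit 78) (nat_lit 0) (nat_lit 0) (XT.lf (nat_lit 0)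 (nat_lit 28503277612) (nat_lit 1216) (nat_lit 6377510131) (nat_lit 1292) (nat_lit 4773306331) (nat_lit 331) (nat_lit 5) (nat_lit 347) (nat_lit 5) (nat_lit 348) (nat_lit 5) (nat_lit 481) (nat_lit 473) (nat_lit 246)) (XT.lf (nat_lit 76) (nat_lit 14428299047) (nat_lit 0) (nat_lit 16273951256) (nat_lit 1292) (nat_lit 9565021745) (nat_lit 332) (nat_lit 5) (nat_lit 331) (nat_lit 5) (nat_lit 348) (nat_lit 5) (nat_lit 482) (nat_lit 473) (nat_lit 245)))) (XT.nd (nat_lit 156) (nat_lit 0) (nat_lit 76) (XT.nd (nat_lit 78) (nat_lit 0) (nat_lit 0) (XT.lf (nat_lit 0) (nat_lit 33058376081) (nat_lit 1216) (nat_lit 4937539956) (nat_lit 1292) (nat_lit 2900193883) (nat_lit 332) (nat_lit 5) (nat_lit 348) (nat_lit 5) (nat_lit 349) (nat_lit 5) (nat_lit 483) (nat_lit 473) (nat_lit 244)) (XT.lf (nat_lit 76) (nat_lit 16755591881) (nat_lit 0) (nat_lit 19050189893) (nat_lit 1292) (nat_lit 5728413342) (nat_lit 333) (nat_lit 5) (nat_lit 332)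 (nat_lit 5) (nat_lit 349) (nat_lit 5) (nat_lit 484) (nat_lit 473) (nat_lit 243))) (XT.nd (nat_lit 78) (nat_lit 0) (nat_lit 0) (XT.lf (nat_lit 0) (nat_lit 38688864158) (nat_lit 1216) (nat_lit 2995364801) (nat_lit 1292) (nat_lit 505596344) (nat_lit 333) (nat_lit 5) (nat_lit 349) (nat_lit 5) (nat_lit 350) (nat_lit 5) (nat_lit 485) (nat_lit 473) (nat_lit 242)) (XT.lf (nat_lit 76) (nat_lit 19634717458) (nat_lit 0) (nat_lit 22399565610) (nat_lit 1292) (nat_lit 819566076) (nat_lit 334) (nat_lit 5) (nat_lit 333) (nat_lit 5) (nat_lit 350) (nat_lit 5) (nat_lit 486) (nat_lit 473) (nat_lit 241)))))) (XT.nd (nat_lit 624) (nat_lit 2888) (nat_lit 0) (XT.nd (nat_lit 312) (nat_lit 1292) (nat_lit 0) (XT.nd (nat_lit 156) (nat_lit 0) (nat_lit 76) (XT.nd (nat_lit 78) (nat_lit 0) (nat_lit 76) (XT.lf (nat_lit 0) (nat_lit 1933422426) (nat_lit 1292) (nat_lit 551951694) (nat_lit 1368) (nat_lit 41050987967) (nat_lit 316) (nat_lit 5) (nat_lit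 333) (nat_lit 5) (nat_lit 334) (nat_lit 5) (nat_lit 487) (nat_lit 473) (nat_lit 240)) (XT.lf (nat_lit 0) (nat_lit 5150043111) (nat_lit 1292) (nat_lit 21168573361) (nat_lit 1368) (nat_lit 17908565123) (nat_lit 317) (nat_lit 5) (nat_lit 334) (nat_lit 5) (nat_lit 335) (nat_lit 5) (nat_lit 488) (nat_lit 473) (nat_lit 239))) (XT.nd (nat_lit 78) (nat_lit 0) (nat_lit 76) (XT.lf (nat_lit 76) (nat_lit 2472629289) (nat_lit 0) (nat_lit 6043120786) (nat_lit 1368) (nat_lit 36421398047) (nat_lit 318) (nat_lit 5) (nat_lit 317) (nat_lit 5) (nat_lit 335) (nat_lit 5) (nat_lit 489) (nat_lit 473) (nat_lit 238)) (XT.lf (nat_lit 0) (nat_lit 12339577635) (nat_lit 1292) (nat_lit 18551002115) (nat_lit 76) (nat_lit 14767119470) (nat_lit 318) (nat_lit 5) (nat_lit 335) (nat_lit 5) (nat_lit 319) (nat_lit 5) (nat_lit 490) (nat_lit 473) (nat_lit 237)))) (XT.nd (nat_lit 156) (nat_lit 608) (nat_lit 0) (XT.nd (nat_lit 78) (nat_lit 0) (nat_lit 0)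 (XT.lf (nat_lit 0) (nat_lit 6138680260) (nat_lit 836) (nat_lit 10256936293) (nat_lit 912) (nat_lit 30000725461) (nat_lit 307) (nat_lit 5) (nat_lit 318) (nat_lit 5) (nat_lit 319) (nat_lit 5) (nat_lit 491) (nat_lit 473) (nat_lit 236)) (XT.lf (nat_lit 0) (nat_lit 20866901677) (nat_lit 912) (nat_lit 15310969941) (nat_lit 76) (nat_lit 10970465578) (nat_lit 307) (nat_lit 5) (nat_lit 319) (nat_lit 5) (nat_lit 308) (nat_lit 5) (nat_lit 492) (nat_lit 473) (nat_lit 235))) (XT.nd (nat_lit 78) (nat_lit 0) (nat_lit 0) (XT.lf (nat_lit 0) (nat_lit 10486000202) (nat_lit 608) (nat_lit 15187399155) (nat_lit 684) (nat_lit 22243460711) (nat_lit 299) (nat_lit 5) (nat_lit 307) (nat_lit 5) (nat_lit 308) (nat_lit 5) (nat_lit 493) (nat_lit 473) (nat_lit 234)) (XT.lf (nat_lit 0) (nat_lit 30840818386) (nat_lit 684) (nat_lit 11397642580) (nat_lit 76) (nat_lit 6463475919) (nat_lit 299) (nat_lit 5) (nat_lit 308) (nat_lit 5) (nat_lit 300) (nat_lit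 5) (nat_lit 494) (nat_lit 473) (nat_lit 233))))) (XT.nd (nat_lit 312) (nat_lit 1672) (nat_lit 0) (XT.nd (nat_lit 156) (nat_lit 608) (nat_lit 0) (XT.nd (nat_lit 78) (nat_lit 0) (nat_lit 0) (XT.lf (nat_lit 0) (nat_lit 15568825265) (nat_lit 608) (nat_lit 20893247474) (nat_lit 684) (nat_lit 13039528937) (nat_lit 291) (nat_lit 5) (nat_lit 299) (nat_lit 5) (nat_lit 300) (nat_lit 5) (nat_lit 495) (nat_lit 473) (nat_lit 232)) (XT.lf (nat_lit 0) (nat_lit 42377507940) (nat_lit 684) (nat_lit 6756719507) (nat_lit 76) (nat_lit 1187262718) (nat_lit 291) (nat_lit 5) (nat_lit 300) (nat_lit 5) (nat_lit 292) (nat_lit 5) (nat_lit 496) (nat_lit 473) (nat_lit 231))) (XT.nd (nat_lit 78) (nat_lit 76) (nat_lit 0) (XT.lf (nat_lit 0) (nat_lit 21445056690) (nat_lit 532) (nat_lit 27437200772) (nat_lit 608) (nat_lit 2271362355) (nat_lit 284) (nat_lit 5) (nat_lit 291) (nat_lit 5) (nat_lit 292) (nat_lit 5) (nat_lit 497) (nat_lit 473) (nat_lit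 230)) (XT.lf (nat_lit 0) (nat_lit 3569505380) (nat_lit 608) (nat_lit 1413460778) (nat_lit 76) (nat_lit 47024684496) (nat_lit 283) (nat_lit 5) (nat_lit 291) (nat_lit 5) (nat_lit 284) (nat_lit 5) (nat_lit 498) (nat_lit 473) (nat_lit 229)))) (XT.nd (nat_lit 156) (nat_lit 532) (nat_lit 0) (XT.nd (nat_lit 78) (nat_lit 532) (nat_lit 0) (XT.lf (nat_lit 0) (nat_lit 9987803546) (nat_lit 684) (nat_lit 24797562789) (nat_lit 76) (nat_lit 18087825767) (nat_lit 275) (nat_lit 5) (nat_lit 284) (nat_lit 5) (nat_lit 276) (nat_lit 5) (nat_lit 499) (nat_lit 473) (nat_lit 228)) (XT.lf (nat_lit 0) (nat_lit 4756262340) (nat_lit 532) (nat_lit 11950769261) (nat_lit 608) (nat_lit 37054416808) (nat_lit 268) (nat_lit 5) (nat_lit 275) (nat_lit 5) (nat_lit 276) (nat_lit 5) (nat_lit 500) (nat_lit 473) (nat_lit 227))) (XT.nd (nat_lit 78) (nat_lit 532) (nat_lit 0) (XT.lf (nat_lit 0) (nat_lit 23990859402) (nat_lit 608) (nat_lit 19078685315) (nat_lit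 76) (nat_lit 11595917043) (nat_lit 268) (nat_lit 5) (nat_lit 276) (nat_lit 5) (nat_lit 269) (nat_lit 5) (nat_lit 501) (nat_lit 473) (nat_lit 226)) (XT.lf (nat_lit 0) (nat_lit 11857516665) (nat_lit 532) (nat_lit 19866952544) (nat_lit 608) (nat_lit 23865188326) (nat_lit 261) (nat_lit 5) (nat_lit 268) (nat_lit 5) (nat_lit 269) (nat_lit 5) (nat_lit 502) (nat_lit 473) (nat_lit 225))))))) (XT.nd (nat_lit 1248) (nat_lit 3192) (nat_lit 0) (XT.nd (nat_lit 624) (nat_lit 2128) (nat_lit 0) (XT.nd (nat_lit 312) (nat_lit 912) (nat_lit 0) (XT.nd (nat_lit 156) (nat_lit 532) (nat_lit 0) (XT.nd (nat_lit 78) (nat_lit 456) (nat_lit 0) (XT.lf (nat_lit 0) (nat_lit 39922386608) (nat_lit 608) (nat_lit 12464733623) (nat_lit 76) (nat_lit 4147490014) (nat_lit 261) (nat_lit 5) (nat_lit 269) (nat_lit 5) (nat_lit 262) (nat_lit 5) (nat_lit 503) (nat_lit 473) (nat_lit 224)) (XT.lf (nat_lit 0) (nat_lit 19931798229) (nat_lit 456) (nat_lit 28821751322)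 (nat_lit 532) (nat_lit 8742742782) (nat_lit 255) (nat_lit 5) (nat_lit 261) (nat_lit 5) (nat_lit 262) (nat_lit 5) (nat_lit 504) (nat_lit 473) (nat_lit 223))) (XT.nd (nat_lit 78) (nat_lit 532) (nat_lit 0) (XT.lf (nat_lit 0) (nat_lit 53554615709) (nat_lit 456) (nat_lit 4419927978) (nat_lit 532) (nat_lit 508534345) (nat_lit 255) (nat_lit 5) (nat_lit 261) (nat_lit 5) (nat_lit 262) (nat_lit 5) (nat_lit 505) (nat_lit 473) (nat_lit 222)) (XT.lf (nat_lit 0) (nat_lit 8299299019) (nat_lit 532) (nat_lit 30513158135) (nat_lit 76) (nat_lit 20670245783) (nat_lit 248) (nat_lit 5) (nat_lit 255) (nat_lit 5) (nat_lit 249) (nat_lit 5) (nat_lit 506) (nat_lit 473) (nat_lit 221)))) (XT.nd (nat_lit 156) (nat_lit 456) (nat_lit 0) (XT.nd (nat_lit 78) (nat_lit 0) (nat_lit 0) (XT.lf (nat_lit 0) (nat_lit 3492430653) (nat_lit 456) (nat_lit 13995370821) (nat_lit 532) (nat_lit 43020564447) (nat_lit 242) (nat_lit 5) (nat_lit 248) (nat_lit 5) (nat_lit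 249) (nat_lit 5) (nat_lit 507) (nat_lit 473) (nat_lit 220)) (XT.lf (nat_lit 0) (nat_lit 27373390723) (nat_lit 532) (nat_lit 22527252398) (nat_lit 76) (nat_lit 11651512756) (nat_lit 242) (nat_lit 5) (nat_lit 249) (nat_lit 5) (nat_lit 243) (nat_lit 5) (nat_lit 508) (nat_lit 473) (nat_lit 219))) (XT.nd (nat_lit 78) (nat_lit 0) (nat_lit 0) (XT.lf (nat_lit 0) (nat_lit 13112282198) (nat_lit 456) (nat_lit 24706979928) (nat_lit 532) (nat_lit 24800086002) (nat_lit 236) (nat_lit 5) (nat_lit 242) (nat_lit 5) (nat_lit 243) (nat_lit 5) (nat_lit 509) (nat_lit 473) (nat_lit 218)) (XT.lf (nat_lit 0) (nat_lit 48819303303) (nat_lit 532) (nat_lit 13444260292) (nat_lit 76) (nat_lit 1447768775) (nat_lit 236) (nat_lit 5) (nat_lit 243) (nat_lit 5) (nat_lit 237) (nat_lit 5) (nat_lit 510) (nat_lit 473) (nat_lit 217))))) (XT.nd (nat_lit 312) (nat_lit 836) (nat_lit 0) (XT.nd (nat_lit 156) (nat_lit 836) (nat_lit 0) (XT.nd (nat_lit 78) (nat_lit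 76) (nat_lit 0) (XT.lf (nat_lit 0) (nat_lit 23921511377) (nat_lit 380) (nat_lit 36701548490) (nat_lit 456) (nat_lit 4198804875) (nat_lit 231) (nat_lit 5) (nat_lit 236) (nat_lit 5) (nat_lit 237) (nat_lit 5) (nat_lit 511) (nat_lit 473) (nat_lit 216)) (XT.lf (nat_lit 0) (nat_lit 6818480086) (nat_lit 456) (nat_lit 3345741820) (nat_lit 76) (nat_lit 55795438245) (nat_lit 230) (nat_lit 5) (nat_lit 236) (nat_lit 5) (nat_lit 231) (nat_lit 5) (nat_lit 512) (nat_lit 473) (nat_lit 215))) (XT.nd (nat_lit 78) (nat_lit 380) (nat_lit 0) (XT.lf (nat_lit 0) (nat_lit 18595949987) (nat_lit 532) (nat_lit 31293593766) (nat_lit 76) (nat_lit 17225376780) (nat_lit 224) (nat_lit 5) (nat_lit 231) (nat_lit 5) (nat_lit 225) (nat_lit 5) (nat_lit 513) (nat_lit 473) (nat_lit 214)) (XT.lf (nat_lit 0) (nat_lit 7981875993) (nat_lit 380) (nat_lit 22955535525) (nat_lit 456) (nat_lit 37361107209) (nat_lit 219) (nat_lit 5) (nat_lit 224) (nat_lit 5) (nat_lit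 225) (nat_lit 5) (nat_lit 514) (nat_lit 473) (nat_lit 213)))) (XT.nd (nat_lit 156) (nat_lit 456) (nat_lit 0) (XT.nd (nat_lit 78) (nat_lit 380) (nat_lit 0) (XT.lf (nat_lit 0) (nat_lit 44013456306) (nat_lit 456) (nat_lit 20481272817) (nat_lit 76) (nat_lit 5011965588) (nat_lit 219) (nat_lit 5) (nat_lit 225) (nat_lit 5) (nat_lit 220) (nat_lit 5) (nat_lit 515) (nat_lit 473) (nat_lit 212)) (XT.lf (nat_lit 0) (nat_lit 20725245036) (nat_lit 380) (nat_lit 37182263104) (nat_lit 456) (nat_lit 12830836088) (nat_lit 214) (nat_lit 5) (nat_lit 219) (nat_lit 5) (nat_lit 220) (nat_lit 5) (nat_lit 516) (nat_lit 473) (nat_lit 211))) (XT.nd (nat_lit 78) (nat_lit 380) (nat_lit 0) (XT.lf (nat_lit 0) (nat_lit 415405308) (nat_lit 456) (nat_lit 8418074304) (nat_lit 76) (nat_lit 63167159880) (nat_lit 213) (nat_lit 5) (nat_lit 219) (nat_lit 5) (nat_lit 214) (nat_lit 5) (nat_lit 517) (nat_lit 473) (nat_lit 210)) (XT.lf (nat_lit 0) (nat_lit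 14336988930) (nat_lit 456) (nat_lit 38507973752) (nat_lit 76) (nat_lit 20435954554) (nat_lit 208) (nat_lit 5) (nat_lit 214) (nat_lit 5) (nat_lit 209) (nat_lit 5) (nat_lit 518) (nat_lit 473) (nat_lit 209)))))) (XT.nd (nat_lit 624) (nat_lit 1520) (nat_lit 0) (XT.nd (nat_lit 312) (nat_lit 988) (nat_lit 0) (XT.nd (nat_lit 156) (nat_lit 304) (nat_lit 0) (XT.nd (nat_lit 78) (nat_lit 0) (nat_lit 0) (XT.lf (nat_lit 0) (nat_lit 4840312501) (nat_lit 380) (nat_lit 24055000041) (nat_lit 456) (nat_lit 45697718017) (nat_lit 203) (nat_lit 5) (nat_lit 208) (nat_lit 5) (nat_lit 209) (nat_lit 5) (nat_lit 519) (nat_lit 473) (nat_lit 208)) (XT.lf (nat_lit 0) (nat_lit 44336174173) (nat_lit 456) (nat_lit 25713133867) (nat_lit 76) (nat_lit 5881825614) (nat_lit 203) (nat_lit 5) (nat_lit 209) (nat_lit 5) (nat_lit 204) (nat_lit 5) (nat_lit 520) (nat_lit 473) (nat_lit 207))) (XT.nd (nat_lit 78) (nat_lit 0) (nat_lit 0) (XT.lf (nat_lit 0) (nat_lit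 19794718827) (nat_lit 304) (nat_lit 40873276956) (nat_lit 380) (nat_lit 16628552058) (nat_lit 199) (nat_lit 5) (nat_lit 203) (nat_lit 5) (nat_lit 204) (nat_lit 5) (nat_lit 521) (nat_lit 473) (nat_lit 206)) (XT.lf (nat_lit 0) (nat_lit 67193894140) (nat_lit 304) (nat_lit 10554828091) (nat_lit 380) (nat_lit 946433736) (nat_lit 199) (nat_lit 5) (nat_lit 203) (nat_lit 5) (nat_lit 204) (nat_lit 5) (nat_lit 522) (nat_lit 473) (nat_lit 205)))) (XT.nd (nat_lit 156) (nat_lit 304) (nat_lit 0) (XT.nd (nat_lit 78) (nat_lit 304) (nat_lit 0) (XT.lf (nat_lit 0) (nat_lit 15462684337) (nat_lit 380) (nat_lit 43881184171) (nat_lit 76) (nat_lit 20770870836) (nat_lit 194) (nat_lit 5) (nat_lit 199) (nat_lit 5) (nat_lit 195) (nat_lit 5) (nat_lit 523) (nat_lit 473) (nat_lit 204)) (XT.lf (nat_lit 0) (nat_lit 4025280092) (nat_lit 304) (nat_lit 28579579606) (nat_lit 380) (nat_lit 48963975240) (nat_lit 190) (nat_lit 5) (nat_lit 194) (nat_lit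 5) (nat_lit 195) (nat_lit 5) (nat_lit 524) (nat_lit 473) (nat_lit 203))) (XT.nd (nat_lit 78) (nat_lit 304) (nat_lit 0) (XT.lf (nat_lit 0) (nat_lit 50738000601) (nat_lit 380) (nat_lit 28820066593) (nat_lit 76) (nat_lit 3494185216) (nat_lit 190) (nat_lit 5) (nat_lit 195) (nat_lit 5) (nat_lit 191) (nat_lit 5) (nat_lit 525) (nat_lit 473) (nat_lit 202)) (XT.lf (nat_lit 0) (nat_lit 21500739998) (nat_lit 304) (nat_lit 48403386325) (nat_lit 380) (nat_lit 14661376383) (nat_lit 186) (nat_lit 5) (nat_lit 190) (nat_lit 5) (nat_lit 191) (nat_lit 5) (nat_lit 526) (nat_lit 473) (nat_lit 201))))) (XT.nd (nat_lit 312) (nat_lit 836) (nat_lit 0) (XT.nd (nat_lit 156) (nat_lit 304) (nat_lit 0) (XT.nd (nat_lit 78) (nat_lit 304) (nat_lit 0) (XT.lf (nat_lit 0) (nat_lit 3745633400) (nat_lit 380) (nat_lit 12231174538) (nat_lit 76) (nat_lit 70137529471) (nat_lit 185) (nat_lit 5) (nat_lit 190) (nat_lit 5) (nat_lit 186) (nat_lit 5) (nat_lit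 527) (nat_lit 473) (nat_lit 200)) (XT.lf (nat_lit 0) (nat_lit 22974307892) (nat_lit 380) (nat_lit 47089319854) (nat_lit 76) (nat_lit 17624730551) (nat_lit 181) (nat_lit 5) (nat_lit 186) (nat_lit 5) (nat_lit 182) (nat_lit 5) (nat_lit 528) (nat_lit 473) (nat_lit 199))) (XT.nd (nat_lit 78) (nat_lit 0) (nat_lit 0) (XT.lf (nat_lit 0) (nat_lit 5914027140) (nat_lit 304) (nat_lit 37204959443) (nat_lit 380) (nat_lit 46180438926) (nat_lit 177) (nat_lit 5) (nat_lit 181) (nat_lit 5) (nat_lit 182) (nat_lit 5) (nat_lit 529) (nat_lit 473) (nat_lit 198)) (XT.lf (nat_lit 0) (nat_lit 61471810680) (nat_lit 304) (nat_lit 2871088586) (nat_lit 380) (nat_lit 26601678678) (nat_lit 177) (nat_lit 5) (nat_lit 181) (nat_lit 5) (nat_lit 182) (nat_lit 5) (nat_lit 530) (nat_lit 473) (nat_lit 197)))) (XT.nd (nat_lit 156) (nat_lit 532) (nat_lit 0) (XT.nd (nat_lit 78) (nat_lit 76) (nat_lit 0) (XT.lf (nat_lit 0) (nat_lit 26256321543) (nat_lit 228)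 (nat_lit 60511338941) (nat_lit 304) (nat_lit 5854500547) (nat_lit 174) (nat_lit 5) (nat_lit 177) (nat_lit 5) (nat_lit 178) (nat_lit 5) (nat_lit 531) (nat_lit 473) (nat_lit 196)) (XT.lf (nat_lit 0) (nat_lit 15540729462) (nat_lit 304) (nat_lit 10261149867) (nat_lit 76) (nat_lit 68533866323) (nat_lit 173) (nat_lit 5) (nat_lit 177) (nat_lit 5) (nat_lit 174) (nat_lit 5) (nat_lit 532) (nat_lit 473) (nat_lit 195))) (XT.nd (nat_lit 78) (nat_lit 228) (nat_lit 0) (XT.lf (nat_lit 0) (nat_lit 38025749103) (nat_lit 380) (nat_lit 47773362050) (nat_lit 76) (nat_lit 10282919641) (nat_lit 169) (nat_lit 5) (nat_lit 174) (nat_lit 5) (nat_lit 170) (nat_lit 5) (nat_lit 533) (nat_lit 473) (nat_lit 194)) (XT.lf (nat_lit 0) (nat_lit 10924091276) (nat_lit 228) (nat_lit 50725768583) (nat_lit 304) (nat_lit 36216908427) (nat_lit 166) (nat_lit 5) (nat_lit 169) (nat_lit 5) (nat_lit 170) (nat_lit 5) (nat_lit 534) (nat_lit 473) (nat_lit 193))))))))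
noncomputable def xc228 : XT := (XT.nd (nat_lit 59436) (nat_lit 0) (nat_lit 3116) (XT.nd (nat_lit 58188) (nat_lit 0) (nat_lit 11400) (XT.nd (nat_lit 546) (nat_lit 228) (nat_lit 0) (XT.nd (nat_lit 234) (nat_lit 760) (nat_lit 0) (XT.nd (nat_lit 78) (nat_lit 304) (nat_lit 0) (XT.lf (nat_lit 0) (nat_lit 72360867786) (nat_lit 228) (nat_lit 14103675408) (nat_lit 304) (nat_lit 13226049243) (nat_lit 166) (nat_lit 5) (nat_lit 169) (nat_lit 5) (nat_lit 170) (nat_lit 5) (nat_lit 535) (nat_lit 473) (nat_lit 192)) (XT.nd (nat_lit 78) (nat_lit 0) (nat_lit 0) (XT.lf (nat_lit 0) (nat_lit 10814325618) (nat_lit 304) (nat_lit 67141150099) (nat_lit 76) (nat_lit 23593726880) (nat_lit 162) (nat_lit 5) (nat_lit 166) (nat_lit 5) (nat_lit 163) (nat_lit 5) (nat_lit 536) (nat_lit 473) (nat_lit 191)) (XT.lf (nat_lit 0) (nat_lit 35727878217) (nat_lit 304) (nat_lit 5171316708) (nat_lit 76) (nat_lit 62547913710) (nat_lit 162) (nat_lit 5) (nat_lit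 166) (nat_lit 5) (nat_lit 163) (nat_lit 5) (nat_lit 537) (nat_lit 473) (nat_lit 190)))) (XT.nd (nat_lit 156) (nat_lit 304) (nat_lit 0) (XT.nd (nat_lit 78) (nat_lit 228) (nat_lit 0) (XT.lf (nat_lit 0) (nat_lit 59824125267) (nat_lit 228) (nat_lit 2139241869) (nat_lit 304) (nat_lit 43421348837) (nat_lit 159) (nat_lit 5) (nat_lit 162) (nat_lit 5) (nat_lit 163) (nat_lit 5) (nat_lit 538) (nat_lit 473) (nat_lit 189)) (XT.lf (nat_lit 0) (nat_lit 19512726102) (nat_lit 228) (nat_lit 70076166068) (nat_lit 304) (nat_lit 17773470228) (nat_lit 156) (nat_lit 5) (nat_lit 159) (nat_lit 5) (nat_lit 160) (nat_lit 5) (nat_lit 539) (nat_lit 473) (nat_lit 188))) (XT.nd (nat_lit 78) (nat_lit 228) (nat_lit 0) (XT.lf (nat_lit 0) (nat_lit 8960450365) (nat_lit 304) (nat_lit 22023048601) (nat_lit 76) (nat_lit 78398788218) (nat_lit 155) (nat_lit 5) (nat_lit 159) (nat_lit 5) (nat_lit 156) (nat_lit 5) (nat_lit 540) (nat_lit 473) (nat_lit 187))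 (XT.lf (nat_lit 0) (nat_lit 36681107582) (nat_lit 304) (nat_lit 65030452967) (nat_lit 76) (nat_lit 9729711482) (nat_lit 152) (nat_lit 5) (nat_lit 156) (nat_lit 5) (nat_lit 153) (nat_lit 5) (nat_lit 541) (nat_lit 473) (nat_lit 186))))) (XT.nd (nat_lit 57330) (nat_lit 0) (nat_lit 13604) (XT.nd (nat_lit 57174) (nat_lit 0) (nat_lit 13528) (XT.nd (nat_lit 78) (nat_lit 0) (nat_lit 0) (XT.lf (nat_lit 0) (nat_lit 3553312810) (nat_lit 228) (nat_lit 62245075994) (nat_lit 304) (nat_lit 47746687499) (nat_lit 149) (nat_lit 5) (nat_lit 152) (nat_lit 5) (nat_lit 153) (nat_lit 5) (nat_lit 542) (nat_lit 473) (nat_lit 185)) (XT.lf (nat_lit 0) (nat_lit 75526805616) (nat_lit 228) (nat_lit 20918558533) (nat_lit 304) (nat_lit 19246945294) (nat_lit 149) (nat_lit 5) (nat_lit 152) (nat_lit 5) (nat_lit 153) (nat_lit 5) (nat_lit 543) (nat_lit 473) (nat_lit 184))) (XT.nd (nat_lit 78) (nat_lit 0) (nat_lit 0) (XT.lf (nat_lit 0) (nat_lit 10059370989)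 (nat_lit 1292) (nat_lit 4022933951) (nat_lit 1292) (nat_lit 4022933951) (nat_lit 327) (nat_lit 3) (nat_lit 344) (nat_lit 3) (nat_lit 344) (nat_lit 5) (nat_lit 474) (nat_lit 474) (nat_lit 252)) (XT.lf (nat_lit 76) (nat_lit 10185370662) (nat_lit 0) (nat_lit 10382844546) (nat_lit 1292) (nat_lit 16180986683) (nat_lit 328) (nat_lit 5) (nat_lit 327) (nat_lit 3) (nat_lit 344) (nat_lit 5) (nat_lit 475) (nat_lit 474) (nat_lit 251)))) (XT.nd (nat_lit 156) (nat_lit 0) (nat_lit 76) (XT.nd (nat_lit 78) (nat_lit 0) (nat_lit 0) (XT.lf (nat_lit 0) (nat_lit 21187531601) (nat_lit 1216) (nat_lit 8251314970) (nat_lit 1292) (nat_lit 7860550470) (nat_lit 328) (nat_lit 5) (nat_lit 344) (nat_lit 5) (nat_lit 345) (nat_lit 5) (nat_lit 476) (nat_lit 474) (nat_lit 250)) (XT.lf (nat_lit 76) (nat_lit 10715824152) (nat_lit 0) (nat_lit 11313523662) (nat_lit 1292) (nat_lit 15830632708) (nat_lit 329) (nat_lit 5) (nat_lit 328) (nat_lit 5) (nat_lit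 345) (nat_lit 5) (nat_lit 477) (nat_lit 474) (nat_lit 249))) (XT.nd (nat_lit 78) (nat_lit 0) (nat_lit 0) (XT.lf (nat_lit 0) (nat_lit 23049437115) (nat_lit 1216) (nat_lit 8086400787) (nat_lit 1292) (nat_lit 7296953132) (nat_lit 329) (nat_lit 5) (nat_lit 345) (nat_lit 5) (nat_lit 346) (nat_lit 5) (nat_lit 478) (nat_lit 474) (nat_lit 248)) (XT.lf (nat_lit 76) (nat_lit 11657474850) (nat_lit 0) (nat_lit 12664946940) (nat_lit 1292) (nat_lit 14693695375) (nat_lit 330) (nat_lit 5) (nat_lit 329) (nat_lit 5) (nat_lit 346) (nat_lit 5) (nat_lit 479) (nat_lit 474) (nat_lit 247)))))) (XT.nd (nat_lit 624) (nat_lit 2356) (nat_lit 0) (XT.nd (nat_lit 312) (nat_lit 0) (nat_lit 152) (XT.nd (nat_lit 156) (nat_lit 0) (nat_lit 76) (XT.nd (nat_lit 78) (nat_lit 0) (nat_lit 0) (XT.lf (nat_lit 0) (nat_lit 25775465100) (nat_lit 1216) (nat_lit 7518133733) (nat_lit 1292) (nat_lit 6319088251) (nat_lit 330) (nat_lit 5) (nat_lit 346) (nat_lit 5)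 (nat_lit 347) (nat_lit 5) (nat_lit 480) (nat_lit 474) (nat_lit 246)) (XT.lf (nat_lit 76) (nat_lit 13045670347) (nat_lit 0) (nat_lit 14475545249) (nat_lit 1292) (nat_lit 12698465107) (nat_lit 331) (nat_lit 5) (nat_lit 330) (nat_lit 5) (nat_lit 347) (nat_lit 5) (nat_lit 481) (nat_lit 474) (nat_lit 245))) (XT.nd (nat_lit 78) (nat_lit 0) (nat_lit 0) (XT.lf (nat_lit 0) (nat_lit 29441539674) (nat_lit 1216) (nat_lit 6511161245) (nat_lit 1292) (nat_lit 4888517253) (nat_lit 331) (nat_lit 5) (nat_lit 347) (nat_lit 5) (nat_lit 348) (nat_lit 5) (nat_lit 482) (nat_lit 474) (nat_lit 244)) (XT.lf (nat_lit 76) (nat_lit 14918256774) (nat_lit 0) (nat_lit 16786351491) (nat_lit 1292) (nat_lit 9768239530) (nat_lit 332) (nat_lit 5) (nat_lit 331) (nat_lit 5) (nat_lit 348) (nat_lit 5) (nat_lit 483) (nat_lit 474) (nat_lit 243)))) (XT.nd (nat_lit 156) (nat_lit 0) (nat_lit 76) (XT.nd (nat_lit 78) (nat_lit 0) (nat_lit 0) (XT.lf (nat_lit 0)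 (nat_lit 34128824455) (nat_lit 1216) (nat_lit 5027623806) (nat_lit 1292) (nat_lit 2964180451) (nat_lit 332) (nat_lit 5) (nat_lit 348) (nat_lit 5) (nat_lit 349) (nat_lit 5) (nat_lit 484) (nat_lit 474) (nat_lit 242)) (XT.lf (nat_lit 76) (nat_lit 17315732944) (nat_lit 0) (nat_lit 19641179695) (nat_lit 1292) (nat_lit 5820996120) (nat_lit 333) (nat_lit 5) (nat_lit 332) (nat_lit 5) (nat_lit 349) (nat_lit 5) (nat_lit 485) (nat_lit 474) (nat_lit 241))) (XT.nd (nat_lit 78) (nat_lit 0) (nat_lit 0) (XT.lf (nat_lit 0) (nat_lit 39924064179) (nat_lit 1216) (nat_lit 3026999716) (nat_lit 1292) (nat_lit 502216759) (nat_lit 333) (nat_lit 5) (nat_lit 349) (nat_lit 5) (nat_lit 350) (nat_lit 5) (nat_lit 486) (nat_lit 474) (nat_lit 240)) (XT.lf (nat_lit 76) (nat_lit 20281414168) (nat_lit 0) (nat_lit 23086814810) (nat_lit 1292) (nat_lit 769044831) (nat_lit 334) (nat_lit 5) (nat_lit 333) (nat_lit 5) (nat_lit 350) (nat_lit 5) (nat_lit 487)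 (nat_lit 474) (nat_lit 239))))) (XT.nd (nat_lit 312) (nat_lit 1292) (nat_lit 0) (XT.nd (nat_lit 156) (nat_lit 0) (nat_lit 76) (XT.nd (nat_lit 78) (nat_lit 0) (nat_lit 76) (XT.lf (nat_lit 0) (nat_lit 2062922764) (nat_lit 1292) (nat_lit 511108294) (nat_lit 1368) (nat_lit 42266273863) (nat_lit 316) (nat_lit 5) (nat_lit 333) (nat_lit 5) (nat_lit 334) (nat_lit 5) (nat_lit 488) (nat_lit 474) (nat_lit 238)) (XT.lf (nat_lit 0) (nat_lit 5374379846) (nat_lit 1292) (nat_lit 21744563379) (nat_lit 1368) (nat_lit 18432955747) (nat_lit 317) (nat_lit 5) (nat_lit 334) (nat_lit 5) (nat_lit 335) (nat_lit 5) (nat_lit 489) (nat_lit 474) (nat_lit 237))) (XT.nd (nat_lit 78) (nat_lit 0) (nat_lit 76) (XT.lf (nat_lit 76) (nat_lit 2605296261) (nat_lit 0) (nat_lit 6234289938) (nat_lit 1368) (nat_lit 37443622536) (nat_lit 318) (nat_lit 5) (nat_lit 317) (nat_lit 5) (nat_lit 335) (nat_lit 5) (nat_lit 490) (nat_lit 474) (nat_lit 236)) (XT.lf (nat_lit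 0) (nat_lit 12776045249) (nat_lit 1292) (nat_lit 19048661447) (nat_lit 76) (nat_lit 15200732257) (nat_lit 318) (nat_lit 5) (nat_lit 335) (nat_lit 5) (nat_lit 319) (nat_lit 5) (nat_lit 491) (nat_lit 474) (nat_lit 235)))) (XT.nd (nat_lit 156) (nat_lit 608) (nat_lit 0) (XT.nd (nat_lit 78) (nat_lit 0) (nat_lit 0) (XT.lf (nat_lit 0) (nat_lit 6381134234) (nat_lit 836) (nat_lit 10571260959) (nat_lit 912) (nat_lit 30833887023) (nat_lit 307) (nat_lit 5) (nat_lit 318) (nat_lit 5) (nat_lit 319) (nat_lit 5) (nat_lit 492) (nat_lit 474) (nat_lit 234)) (XT.lf (nat_lit 0) (nat_lit 21555866535) (nat_lit 912) (nat_lit 15711748333) (nat_lit 76) (nat_lit 11293281037) (nat_lit 307) (nat_lit 5) (nat_lit 319) (nat_lit 5) (nat_lit 308) (nat_lit 5) (nat_lit 493) (nat_lit 474) (nat_lit 233))) (XT.nd (nat_lit 78) (nat_lit 0) (nat_lit 0) (XT.lf (nat_lit 0) (nat_lit 10858556888) (nat_lit 608) (nat_lit 15646725842) (nat_lit 684) (nat_lit 22847230103)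 (nat_lit 299) (nat_lit 5) (nat_lit 307) (nat_lit 5) (nat_lit 308) (nat_lit 5) (nat_lit 494) (nat_lit 474) (nat_lit 232)) (XT.lf (nat_lit 0) (nat_lit 31825893210) (nat_lit 684) (nat_lit 11681450179) (nat_lit 76) (nat_lit 6653853576) (nat_lit 299) (nat_lit 5) (nat_lit 308) (nat_lit 5) (nat_lit 300) (nat_lit 5) (nat_lit 495) (nat_lit 474) (nat_lit 231))))))) (XT.nd (nat_lit 1170) (nat_lit 3496) (nat_lit 0) (XT.nd (nat_lit 546) (nat_lit 2432) (nat_lit 0) (XT.nd (nat_lit 234) (nat_lit 1216) (nat_lit 0) (XT.nd (nat_lit 78) (nat_lit 532) (nat_lit 0) (XT.lf (nat_lit 0) (nat_lit 16093441881) (nat_lit 608) (nat_lit 21521153324) (nat_lit 684) (nat_lit 13370292266) (nat_lit 291) (nat_lit 5) (nat_lit 299) (nat_lit 5) (nat_lit 300) (nat_lit 5) (nat_lit 496) (nat_lit 474) (nat_lit 230)) (XT.nd (nat_lit 78) (nat_lit 532) (nat_lit 0) (XT.lf (nat_lit 0) (nat_lit 43705774565) (nat_lit 684) (nat_lit 6901824230) (nat_lit 76) (nat_lit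 1221825457) (nat_lit 291) (nat_lit 5) (nat_lit 300) (nat_lit 5) (nat_lit 292) (nat_lit 5) (nat_lit 497) (nat_lit 474) (nat_lit 229)) (XT.lf (nat_lit 0) (nat_lit 22145440577) (nat_lit 532) (nat_lit 28259115737) (nat_lit 608) (nat_lit 2281994858) (nat_lit 284) (nat_lit 5) (nat_lit 291) (nat_lit 5) (nat_lit 292) (nat_lit 5) (nat_lit 498) (nat_lit 474) (nat_lit 228)))) (XT.nd (nat_lit 156) (nat_lit 532) (nat_lit 0) (XT.nd (nat_lit 78) (nat_lit 608) (nat_lit 0) (XT.lf (nat_lit 0) (nat_lit 3731334399) (nat_lit 608) (nat_lit 1399401862) (nat_lit 76) (nat_lit 48435499424) (nat_lit 283) (nat_lit 5) (nat_lit 291) (nat_lit 5) (nat_lit 284) (nat_lit 5) (nat_lit 499) (nat_lit 474) (nat_lit 227)) (XT.lf (nat_lit 0) (nat_lit 10341145825) (nat_lit 684) (nat_lit 25483989138) (nat_lit 76) (nat_lit 18632639547) (nat_lit 275) (nat_lit 5) (nat_lit 284) (nat_lit 5) (nat_lit 276) (nat_lit 5) (nat_lit 500) (nat_lit 474) (nat_lit 226)))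 (XT.nd (nat_lit 78) (nat_lit 0) (nat_lit 0) (XT.lf (nat_lit 0) (nat_lit 4955887015) (nat_lit 532) (nat_lit 12305046702) (nat_lit 608) (nat_lit 38111775361) (nat_lit 268) (nat_lit 5) (nat_lit 275) (nat_lit 5) (nat_lit 276) (nat_lit 5) (nat_lit 501) (nat_lit 474) (nat_lit 225)) (XT.lf (nat_lit 0) (nat_lit 24761781281) (nat_lit 608) (nat_lit 19594270363) (nat_lit 76) (nat_lit 11947836096) (nat_lit 268) (nat_lit 5) (nat_lit 276) (nat_lit 5) (nat_lit 269) (nat_lit 5) (nat_lit 502) (nat_lit 474) (nat_lit 224))))) (XT.nd (nat_lit 312) (nat_lit 1444) (nat_lit 0) (XT.nd (nat_lit 156) (nat_lit 456) (nat_lit 0) (XT.nd (nat_lit 78) (nat_lit 0) (nat_lit 0) (XT.lf (nat_lit 0) (nat_lit 12269461054) (nat_lit 532) (nat_lit 20456987591) (nat_lit 608) (nat_lit 24529389325) (nat_lit 261) (nat_lit 5) (nat_lit 268) (nat_lit 5) (nat_lit 269) (nat_lit 5) (nat_lit 503) (nat_lit 474) (nat_lit 223)) (XT.lf (nat_lit 0) (nat_lit 41168895857)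 (nat_lit 608) (nat_lit 12782684603) (nat_lit 76) (nat_lit 4277601088) (nat_lit 261) (nat_lit 5) (nat_lit 269) (nat_lit 5) (nat_lit 262) (nat_lit 5) (nat_lit 504) (nat_lit 474) (nat_lit 222))) (XT.nd (nat_lit 78) (nat_lit 0) (nat_lit 0) (XT.lf (nat_lit 0) (nat_lit 20585194272) (nat_lit 456) (nat_lit 29678909903) (nat_lit 532) (nat_lit 8955636664) (nat_lit 255) (nat_lit 5) (nat_lit 261) (nat_lit 5) (nat_lit 262) (nat_lit 5) (nat_lit 505) (nat_lit 474) (nat_lit 221)) (XT.lf (nat_lit 0) (nat_lit 55215081458) (nat_lit 456) (nat_lit 4545250129) (nat_lit 532) (nat_lit 475840470) (nat_lit 255) (nat_lit 5) (nat_lit 261) (nat_lit 5) (nat_lit 262) (nat_lit 5) (nat_lit 506) (nat_lit 474) (nat_lit 220)))) (XT.nd (nat_lit 156) (nat_lit 456) (nat_lit 0) (XT.nd (nat_lit 78) (nat_lit 456) (nat_lit 0) (XT.lf (nat_lit 0) (nat_lit 8594521637) (nat_lit 532) (nat_lit 31373015961) (nat_lit 76) (nat_lit 21298257453) (nat_lit 248) (nat_lit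 5) (nat_lit 255) (nat_lit 5) (nat_lit 249) (nat_lit 5) (nat_lit 507) (nat_lit 474) (nat_lit 219)) (XT.lf (nat_lit 0) (nat_lit 3652196012) (nat_lit 456) (nat_lit 14405664873) (nat_lit 532) (nat_lit 44264391637) (nat_lit 242) (nat_lit 5) (nat_lit 248) (nat_lit 5) (nat_lit 249) (nat_lit 5) (nat_lit 508) (nat_lit 474) (nat_lit 218))) (XT.nd (nat_lit 78) (nat_lit 456) (nat_lit 0) (XT.lf (nat_lit 0) (nat_lit 28238784027) (nat_lit 532) (nat_lit 23148443900) (nat_lit 76) (nat_lit 12010165309) (nat_lit 242) (nat_lit 5) (nat_lit 249) (nat_lit 5) (nat_lit 243) (nat_lit 5) (nat_lit 509) (nat_lit 474) (nat_lit 217)) (XT.lf (nat_lit 0) (nat_lit 13559741185) (nat_lit 456) (nat_lit 25437523205) (nat_lit 532) (nat_lit 25499359926) (nat_lit 236) (nat_lit 5) (nat_lit 242) (nat_lit 5) (nat_lit 243) (nat_lit 5) (nat_lit 510) (nat_lit 474) (nat_lit 216)))))) (XT.nd (nat_lit 624) (nat_lit 1748) (nat_lit 0) (XT.nd (nat_lit 312) (nat_lit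 836) (nat_lit 0) (XT.nd (nat_lit 156) (nat_lit 532) (nat_lit 0) (XT.nd (nat_lit 78) (nat_lit 380) (nat_lit 0) (XT.lf (nat_lit 0) (nat_lit 50326141557) (nat_lit 532) (nat_lit 13793906306) (nat_lit 76) (nat_lit 1501355222) (nat_lit 236) (nat_lit 5) (nat_lit 243) (nat_lit 5) (nat_lit 237) (nat_lit 5) (nat_lit 511) (nat_lit 474) (nat_lit 215)) (XT.lf (nat_lit 0) (nat_lit 24692312221) (nat_lit 380) (nat_lit 37790978712) (nat_lit 456) (nat_lit 4281982137) (nat_lit 231) (nat_lit 5) (nat_lit 236) (nat_lit 5) (nat_lit 237) (nat_lit 5) (nat_lit 512) (nat_lit 474) (nat_lit 214))) (XT.nd (nat_lit 78) (nat_lit 456) (nat_lit 0) (XT.lf (nat_lit 0) (nat_lit 7063764544) (nat_lit 456) (nat_lit 3393694829) (nat_lit 76) (nat_lit 57479767326) (nat_lit 230) (nat_lit 5) (nat_lit 236) (nat_lit 5) (nat_lit 231) (nat_lit 5) (nat_lit 513) (nat_lit 474) (nat_lit 213)) (XT.lf (nat_lit 0) (nat_lit 19193985208) (nat_lit 532) (nat_lit 32179407683)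 (nat_lit 76) (nat_lit 17753769242) (nat_lit 224) (nat_lit 5) (nat_lit 231) (nat_lit 5) (nat_lit 225) (nat_lit 5) (nat_lit 514) (nat_lit 474) (nat_lit 212)))) (XT.nd (nat_lit 156) (nat_lit 456) (nat_lit 0) (XT.nd (nat_lit 78) (nat_lit 0) (nat_lit 0) (XT.lf (nat_lit 0) (nat_lit 8273806622) (nat_lit 380) (nat_lit 23631218765) (nat_lit 456) (nat_lit 38441262880) (nat_lit 219) (nat_lit 5) (nat_lit 224) (nat_lit 5) (nat_lit 225) (nat_lit 5) (nat_lit 515) (nat_lit 474) (nat_lit 211)) (XT.lf (nat_lit 0) (nat_lit 45372322444) (nat_lit 456) (nat_lit 21043734718) (nat_lit 76) (nat_lit 5174683278) (nat_lit 219) (nat_lit 5) (nat_lit 225) (nat_lit 5) (nat_lit 220) (nat_lit 5) (nat_lit 516) (nat_lit 474) (nat_lit 210))) (XT.nd (nat_lit 78) (nat_lit 76) (nat_lit 0) (XT.lf (nat_lit 0) (nat_lit 21398469099) (nat_lit 380) (nat_lit 38284101197) (nat_lit 456) (nat_lit 13176787948) (nat_lit 214) (nat_lit 5) (nat_lit 219) (nat_lit 5)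 (nat_lit 220) (nat_lit 5) (nat_lit 517) (nat_lit 474) (nat_lit 209)) (XT.lf (nat_lit 0) (nat_lit 464967191) (nat_lit 456) (nat_lit 8619909359) (nat_lit 76) (nat_lit 65074668001) (nat_lit 213) (nat_lit 5) (nat_lit 219) (nat_lit 5) (nat_lit 214) (nat_lit 5) (nat_lit 518) (nat_lit 474) (nat_lit 208))))) (XT.nd (nat_lit 312) (nat_lit 684) (nat_lit 0) (XT.nd (nat_lit 156) (nat_lit 304) (nat_lit 0) (XT.nd (nat_lit 78) (nat_lit 380) (nat_lit 0) (XT.lf (nat_lit 0) (nat_lit 14803732169) (nat_lit 456) (nat_lit 39612038537) (nat_lit 76) (nat_lit 21062473939) (nat_lit 208) (nat_lit 5) (nat_lit 214) (nat_lit 5) (nat_lit 209) (nat_lit 5) (nat_lit 519) (nat_lit 474) (nat_lit 207)) (XT.lf (nat_lit 0) (nat_lit 5036194593) (nat_lit 380) (nat_lit 24762030996) (nat_lit 456) (nat_lit 47031513208) (nat_lit 203) (nat_lit 5) (nat_lit 208) (nat_lit 5) (nat_lit 209) (nat_lit 5) (nat_lit 520) (nat_lit 474) (nat_lit 206))) (XT.nd (nat_lit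 78) (nat_lit 304) (nat_lit 0) (XT.lf (nat_lit 0) (nat_lit 45701399396) (nat_lit 456) (nat_lit 26434416359) (nat_lit 76) (nat_lit 6072196671) (nat_lit 203) (nat_lit 5) (nat_lit 209) (nat_lit 5) (nat_lit 204) (nat_lit 5) (nat_lit 521) (nat_lit 474) (nat_lit 205)) (XT.lf (nat_lit 0) (nat_lit 20438180626) (nat_lit 304) (nat_lit 42084448513) (nat_lit 380) (nat_lit 17091776325) (nat_lit 199) (nat_lit 5) (nat_lit 203) (nat_lit 5) (nat_lit 204) (nat_lit 5) (nat_lit 522) (nat_lit 474) (nat_lit 204)))) (XT.nd (nat_lit 156) (nat_lit 304) (nat_lit 0) (XT.nd (nat_lit 78) (nat_lit 380) (nat_lit 0) (XT.lf (nat_lit 0) (nat_lit 69257885949) (nat_lit 304) (nat_lit 10856883854) (nat_lit 380) (nat_lit 940232286) (nat_lit 199) (nat_lit 5) (nat_lit 203) (nat_lit 5) (nat_lit 204) (nat_lit 5) (nat_lit 523) (nat_lit 474) (nat_lit 203)) (XT.lf (nat_lit 0) (nat_lit 15960105259) (nat_lit 380) (nat_lit 45148388769) (nat_lit 76) (nat_lit 21408680362)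 (nat_lit 194) (nat_lit 5) (nat_lit 199) (nat_lit 5) (nat_lit 195) (nat_lit 5) (nat_lit 524) (nat_lit 474) (nat_lit 202))) (XT.nd (nat_lit 78) (nat_lit 0) (nat_lit 0) (XT.lf (nat_lit 0) (nat_lit 4194786766) (nat_lit 304) (nat_lit 29421250809) (nat_lit 380) (nat_lit 50398870553) (nat_lit 190) (nat_lit 5) (nat_lit 194) (nat_lit 5) (nat_lit 195) (nat_lit 5) (nat_lit 525) (nat_lit 474) (nat_lit 201)) (XT.lf (nat_lit 0) (nat_lit 52292357279) (nat_lit 380) (nat_lit 29636523877) (nat_lit 76) (nat_lit 3613971457) (nat_lit 190) (nat_lit 5) (nat_lit 195) (nat_lit 5) (nat_lit 191) (nat_lit 5) (nat_lit 526) (nat_lit 474) (nat_lit 200))))))))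
noncomputable def xc229 : XT := (XT.nd (nat_lit 59514) (nat_lit 0) (nat_lit 4484) (XT.nd (nat_lit 1170) (nat_lit 456) (nat_lit 0) (XT.nd (nat_lit 546) (nat_lit 1368) (nat_lit 0) (XT.nd (nat_lit 234) (nat_lit 608) (nat_lit 0) (XT.nd (nat_lit 78) (nat_lit 380) (nat_lit 0) (XT.lf (nat_lit 0) (nat_lit 22193434905) (nat_lit 304) (nat_lit 49839551778) (nat_lit 380) (nat_lit 15068528164) (nat_lit 186) (nat_lit 5) (nat_lit 190) (nat_lit 5) (nat_lit 191) (nat_lit 5) (nat_lit 527) (nat_lit 474) (nat_lit 199)) (XT.nd (nat_lit 78) (nat_lit 304) (nat_lit 0) (XT.lf (nat_lit 0) (nat_lit 3889120480) (nat_lit 380) (nat_lit 12551205486) (nat_lit 76) (nat_lit 72256507227) (nat_lit 185) (nat_lit 5) (nat_lit 190) (nat_lit 5) (nat_lit 186) (nat_lit 5) (nat_lit 528) (nat_lit 474) (nat_lit 198)) (XT.lf (nat_lit 0) (nat_lit 23694347055) (nat_lit 380) (nat_lit 48454786237) (nat_lit 76) (nat_lit 18168950684) (nat_lit 181) (nat_lit 5) (nat_lit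 186) (nat_lit 5) (nat_lit 182) (nat_lit 5) (nat_lit 529) (nat_lit 474) (nat_lit 197)))) (XT.nd (nat_lit 156) (nat_lit 304) (nat_lit 0) (XT.nd (nat_lit 78) (nat_lit 0) (nat_lit 0) (XT.lf (nat_lit 0) (nat_lit 6138198292) (nat_lit 304) (nat_lit 38304719831) (nat_lit 380) (nat_lit 47534578543) (nat_lit 177) (nat_lit 5) (nat_lit 181) (nat_lit 5) (nat_lit 182) (nat_lit 5) (nat_lit 530) (nat_lit 474) (nat_lit 196)) (XT.lf (nat_lit 0) (nat_lit 63361353678) (nat_lit 304) (nat_lit 2941310180) (nat_lit 380) (nat_lit 27369366368) (nat_lit 177) (nat_lit 5) (nat_lit 181) (nat_lit 5) (nat_lit 182) (nat_lit 5) (nat_lit 531) (nat_lit 474) (nat_lit 195))) (XT.nd (nat_lit 78) (nat_lit 76) (nat_lit 0) (XT.lf (nat_lit 0) (nat_lit 27089679812) (nat_lit 228) (nat_lit 62310217017) (nat_lit 304) (nat_lit 6000052131) (nat_lit 174) (nat_lit 5) (nat_lit 177) (nat_lit 5) (nat_lit 178) (nat_lit 5) (nat_lit 532) (nat_lit 474) (nat_lit 194)) (XT.lf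 (nat_lit 0) (nat_lit 16035588624) (nat_lit 304) (nat_lit 10524075290) (nat_lit 76) (nat_lit 70605294323) (nat_lit 173) (nat_lit 5) (nat_lit 177) (nat_lit 5) (nat_lit 174) (nat_lit 5) (nat_lit 533) (nat_lit 474) (nat_lit 193))))) (XT.nd (nat_lit 312) (nat_lit 532) (nat_lit 0) (XT.nd (nat_lit 156) (nat_lit 304) (nat_lit 0) (XT.nd (nat_lit 78) (nat_lit 228) (nat_lit 0) (XT.lf (nat_lit 0) (nat_lit 39194908310) (nat_lit 380) (nat_lit 49161402648) (nat_lit 76) (nat_lit 10607328510) (nat_lit 169) (nat_lit 5) (nat_lit 174) (nat_lit 5) (nat_lit 170) (nat_lit 5) (nat_lit 534) (nat_lit 474) (nat_lit 192)) (XT.lf (nat_lit 0) (nat_lit 11296531529) (nat_lit 228) (nat_lit 52230813913) (nat_lit 304) (nat_lit 37274585569) (nat_lit 166) (nat_lit 5) (nat_lit 169) (nat_lit 5) (nat_lit 170) (nat_lit 5) (nat_lit 535) (nat_lit 474) (nat_lit 191))) (XT.nd (nat_lit 78) (nat_lit 304) (nat_lit 0) (XT.lf (nat_lit 0) (nat_lit 74575108883) (nat_lit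 228) (nat_lit 14510545158) (nat_lit 304) (nat_lit 13594840323) (nat_lit 166) (nat_lit 5) (nat_lit 169) (nat_lit 5) (nat_lit 170) (nat_lit 5) (nat_lit 536) (nat_lit 474) (nat_lit 190)) (XT.lf (nat_lit 0) (nat_lit 11165976986) (nat_lit 304) (nat_lit 69111199574) (nat_lit 76) (nat_lit 24317684892) (nat_lit 162) (nat_lit 5) (nat_lit 166) (nat_lit 5) (nat_lit 163) (nat_lit 5) (nat_lit 537) (nat_lit 474) (nat_lit 189)))) (XT.nd (nat_lit 156) (nat_lit 304) (nat_lit 0) (XT.nd (nat_lit 78) (nat_lit 228) (nat_lit 0) (XT.lf (nat_lit 0) (nat_lit 36826143302) (nat_lit 304) (nat_lit 5283558124) (nat_lit 76) (nat_lit 64440027048) (nat_lit 162) (nat_lit 5) (nat_lit 166) (nat_lit 5) (nat_lit 163) (nat_lit 5) (nat_lit 538) (nat_lit 474) (nat_lit 188)) (XT.lf (nat_lit 0) (nat_lit 61661326541) (nat_lit 228) (nat_lit 2187008898) (nat_lit 304) (nat_lit 44697139453) (nat_lit 159) (nat_lit 5) (nat_lit 162) (nat_lit 5) (nat_lit 163) (nat_lit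 5) (nat_lit 539) (nat_lit 474) (nat_lit 187))) (XT.nd (nat_lit 78) (nat_lit 76) (nat_lit 0) (XT.lf (nat_lit 0) (nat_lit 20140787645) (nat_lit 228) (nat_lit 72161642753) (nat_lit 304) (nat_lit 18280026203) (nat_lit 156) (nat_lit 5) (nat_lit 159) (nat_lit 5) (nat_lit 160) (nat_lit 5) (nat_lit 540) (nat_lit 474) (nat_lit 186)) (XT.lf (nat_lit 0) (nat_lit 9254630993) (nat_lit 304) (nat_lit 22641798048) (nat_lit 76) (nat_lit 80766565249) (nat_lit 155) (nat_lit 5) (nat_lit 159) (nat_lit 5) (nat_lit 156) (nat_lit 5) (nat_lit 541) (nat_lit 474) (nat_lit 185)))))) (XT.nd (nat_lit 57720) (nat_lit 0) (nat_lit 13756) (XT.nd (nat_lit 57408) (nat_lit 0) (nat_lit 13604) (XT.nd (nat_lit 57252) (nat_lit 0) (nat_lit 13528) (XT.nd (nat_lit 78) (nat_lit 228) (nat_lit 0) (XT.lf (nat_lit 0) (nat_lit 37806726939) (nat_lit 304) (nat_lit 66939243075) (nat_lit 76) (nat_lit 10037784113) (nat_lit 152) (nat_lit 5) (nat_lit 156) (nat_lit 5)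 (nat_lit 153) (nat_lit 5) (nat_lit 542) (nat_lit 474) (nat_lit 184)) (XT.lf (nat_lit 0) (nat_lit 3701622700) (nat_lit 228) (nat_lit 64095571268) (nat_lit 304) (nat_lit 49153488552) (nat_lit 149) (nat_lit 5) (nat_lit 152) (nat_lit 5) (nat_lit 153) (nat_lit 5) (nat_lit 543) (nat_lit 474) (nat_lit 183))) (XT.nd (nat_lit 78) (nat_lit 0) (nat_lit 0) (XT.lf (nat_lit 0) (nat_lit 10410457650) (nat_lit 1292) (nat_lit 4118228483) (nat_lit 1292) (nat_lit 4118228483) (nat_lit 327) (nat_lit 3) (nat_lit 344) (nat_lit 3) (nat_lit 344) (nat_lit 5) (nat_lit 475) (nat_lit 475) (nat_lit 250)) (XT.lf (nat_lit 76) (nat_lit 10541220843) (nat_lit 0) (nat_lit 10740263126) (nat_lit 1292) (nat_lit 16567302891) (nat_lit 328) (nat_lit 5) (nat_lit 327) (nat_lit 3) (nat_lit 344) (nat_lit 5) (nat_lit 476) (nat_lit 475) (nat_lit 249)))) (XT.nd (nat_lit 156) (nat_lit 0) (nat_lit 76) (XT.nd (nat_lit 78) (nat_lit 0) (nat_lit 0) (XT.lf (nat_lit 0)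 (nat_lit 21916148584) (nat_lit 1216) (nat_lit 8446794529) (nat_lit 1292) (nat_lit 8052641818) (nat_lit 328) (nat_lit 5) (nat_lit 344) (nat_lit 5) (nat_lit 345) (nat_lit 5) (nat_lit 477) (nat_lit 475) (nat_lit 248)) (XT.lf (nat_lit 76) (nat_lit 11088848377) (nat_lit 0) (nat_lit 11692157956) (nat_lit 1292) (nat_lit 16212046097) (nat_lit 329) (nat_lit 5) (nat_lit 328) (nat_lit 5) (nat_lit 345) (nat_lit 5) (nat_lit 478) (nat_lit 475) (nat_lit 247))) (XT.nd (nat_lit 78) (nat_lit 0) (nat_lit 0) (XT.lf (nat_lit 0) (nat_lit 23828688185) (nat_lit 1216) (nat_lit 8275930581) (nat_lit 1292) (nat_lit 7478518917) (nat_lit 329) (nat_lit 5) (nat_lit 345) (nat_lit 5) (nat_lit 346) (nat_lit 5) (nat_lit 479) (nat_lit 475) (nat_lit 246)) (XT.lf (nat_lit 76) (nat_lit 12059741107) (nat_lit 0) (nat_lit 13078070010) (nat_lit 1292) (nat_lit 15046214136) (nat_lit 330) (nat_lit 5) (nat_lit 329) (nat_lit 5) (nat_lit 346) (nat_lit 5) (nat_lit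 480) (nat_lit 475) (nat_lit 245))))) (XT.nd (nat_lit 312) (nat_lit 0) (nat_lit 152) (XT.nd (nat_lit 156) (nat_lit 0) (nat_lit 76) (XT.nd (nat_lit 78) (nat_lit 0) (nat_lit 0) (XT.lf (nat_lit 0) (nat_lit 26631639518) (nat_lit 1216) (nat_lit 7689856063) (nat_lit 1292) (nat_lit 6477080990) (nat_lit 330) (nat_lit 5) (nat_lit 346) (nat_lit 5) (nat_lit 347) (nat_lit 5) (nat_lit 481) (nat_lit 475) (nat_lit 244)) (XT.lf (nat_lit 76) (nat_lit 13490334476) (nat_lit 0) (nat_lit 14937525480) (nat_lit 1292) (nat_lit 12995977231) (nat_lit 331) (nat_lit 5) (nat_lit 330) (nat_lit 5) (nat_lit 347) (nat_lit 5) (nat_lit 482) (nat_lit 475) (nat_lit 243))) (XT.nd (nat_lit 78) (nat_lit 0) (nat_lit 0) (XT.lf (nat_lit 0) (nat_lit 30403175660) (nat_lit 1216) (nat_lit 6652132628) (nat_lit 1292) (nat_lit 5008791143) (nat_lit 331) (nat_lit 5) (nat_lit 347) (nat_lit 5) (nat_lit 348) (nat_lit 5) (nat_lit 483) (nat_lit 475) (nat_lit 242)) (XT.lf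 (nat_lit 76) (nat_lit 15419634957) (nat_lit 0) (nat_lit 17312735605) (nat_lit 1292) (nat_lit 9982360457) (nat_lit 332) (nat_lit 5) (nat_lit 331) (nat_lit 5) (nat_lit 348) (nat_lit 5) (nat_lit 484) (nat_lit 475) (nat_lit 241)))) (XT.nd (nat_lit 156) (nat_lit 0) (nat_lit 76) (XT.nd (nat_lit 78) (nat_lit 0) (nat_lit 0) (XT.lf (nat_lit 0) (nat_lit 35226868745) (nat_lit 1216) (nat_lit 5123742040) (nat_lit 1292) (nat_lit 3031408016) (nat_lit 332) (nat_lit 5) (nat_lit 348) (nat_lit 5) (nat_lit 349) (nat_lit 5) (nat_lit 485) (nat_lit 475) (nat_lit 240)) (XT.lf (nat_lit 76) (nat_lit 17889379036) (nat_lit 0) (nat_lit 20248780724) (nat_lit 1292) (nat_lit 5920906782) (nat_lit 333) (nat_lit 5) (nat_lit 332) (nat_lit 5) (nat_lit 349) (nat_lit 5) (nat_lit 486) (nat_lit 475) (nat_lit 239))) (XT.nd (nat_lit 78) (nat_lit 0) (nat_lit 0) (XT.lf (nat_lit 0) (nat_lit 41192041638) (nat_lit 1216) (nat_lit 3062926091) (nat_lit 1292) (nat_lit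 499800486) (nat_lit 333) (nat_lit 5) (nat_lit 349) (nat_lit 5) (nat_lit 350) (nat_lit 5) (nat_lit 487) (nat_lit 475) (nat_lit 238)) (XT.lf (nat_lit 76) (nat_lit 20944202135) (nat_lit 0) (nat_lit 23793805371) (nat_lit 1292) (nat_lit 721319468) (nat_lit 334) (nat_lit 5) (nat_lit 333) (nat_lit 5) (nat_lit 350) (nat_lit 5) (nat_lit 488) (nat_lit 475) (nat_lit 237))))))) (XT.nd (nat_lit 1248) (nat_lit 4028) (nat_lit 0) (XT.nd (nat_lit 624) (nat_lit 2888) (nat_lit 0) (XT.nd (nat_lit 312) (nat_lit 1292) (nat_lit 0) (XT.nd (nat_lit 156) (nat_lit 0) (nat_lit 76) (XT.nd (nat_lit 78) (nat_lit 0) (nat_lit 76) (XT.lf (nat_lit 0) (nat_lit 2192203853) (nat_lit 1292) (nat_lit 472334698) (nat_lit 1368) (nat_lit 43518950793) (nat_lit 316) (nat_lit 5) (nat_lit 333) (nat_lit 5) (nat_lit 334) (nat_lit 5) (nat_lit 489) (nat_lit 475) (nat_lit 236)) (XT.lf (nat_lit 0) (nat_lit 5601437843) (nat_lit 1292) (nat_lit 22341223794) (nat_lit 1368)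 (nat_lit 18973816670) (nat_lit 317) (nat_lit 5) (nat_lit 334) (nat_lit 5) (nat_lit 335) (nat_lit 5) (nat_lit 490) (nat_lit 475) (nat_lit 235))) (XT.nd (nat_lit 78) (nat_lit 0) (nat_lit 76) (XT.lf (nat_lit 76) (nat_lit 2738585787) (nat_lit 0) (nat_lit 6430627270) (nat_lit 1368) (nat_lit 38500556009) (nat_lit 318) (nat_lit 5) (nat_lit 317) (nat_lit 5) (nat_lit 335) (nat_lit 5) (nat_lit 491) (nat_lit 475) (nat_lit 234)) (XT.lf (nat_lit 0) (nat_lit 13221802131) (nat_lit 1292) (nat_lit 19564629980) (nat_lit 76) (nat_lit 15647893071) (nat_lit 318) (nat_lit 5) (nat_lit 335) (nat_lit 5) (nat_lit 319) (nat_lit 5) (nat_lit 492) (nat_lit 475) (nat_lit 233)))) (XT.nd (nat_lit 156) (nat_lit 608) (nat_lit 0) (XT.nd (nat_lit 78) (nat_lit 0) (nat_lit 0) (XT.lf (nat_lit 0) (nat_lit 6627515539) (nat_lit 836) (nat_lit 10894635546) (nat_lit 912) (nat_lit 31695881481) (nat_lit 307) (nat_lit 5) (nat_lit 318) (nat_lit 5) (nat_lit 319)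 (nat_lit 5) (nat_lit 493) (nat_lit 475) (nat_lit 232)) (XT.lf (nat_lit 0) (nat_lit 22261886303) (nat_lit 912) (nat_lit 16127911126) (nat_lit 76) (nat_lit 11626142520) (nat_lit 307) (nat_lit 5) (nat_lit 319) (nat_lit 5) (nat_lit 308) (nat_lit 5) (nat_lit 494) (nat_lit 475) (nat_lit 231))) (XT.nd (nat_lit 78) (nat_lit 0) (nat_lit 0) (XT.lf (nat_lit 0) (nat_lit 11238962176) (nat_lit 608) (nat_lit 16119619664) (nat_lit 684) (nat_lit 23472759713) (nat_lit 299) (nat_lit 5) (nat_lit 307) (nat_lit 5) (nat_lit 308) (nat_lit 5) (nat_lit 495) (nat_lit 475) (nat_lit 230)) (XT.lf (nat_lit 0) (nat_lit 32837084627) (nat_lit 684) (nat_lit 11977108428) (nat_lit 76) (nat_lit 6850145004) (nat_lit 299) (nat_lit 5) (nat_lit 308) (nat_lit 5) (nat_lit 300) (nat_lit 5) (nat_lit 496) (nat_lit 475) (nat_lit 229))))) (XT.nd (nat_lit 312) (nat_lit 1672) (nat_lit 0) (XT.nd (nat_lit 156) (nat_lit 608) (nat_lit 0) (XT.nd (nat_lit 78) (nat_lit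 0) (nat_lit 0) (XT.lf (nat_lit 0) (nat_lit 16630493284) (nat_lit 608) (nat_lit 22167832721) (nat_lit 684) (nat_lit 13714446997) (nat_lit 291) (nat_lit 5) (nat_lit 299) (nat_lit 5) (nat_lit 300) (nat_lit 5) (nat_lit 497) (nat_lit 475) (nat_lit 228)) (XT.lf (nat_lit 0) (nat_lit 45070620521) (nat_lit 684) (nat_lit 7054588390) (nat_lit 76) (nat_lit 1257485649) (nat_lit 291) (nat_lit 5) (nat_lit 300) (nat_lit 5) (nat_lit 292) (nat_lit 5) (nat_lit 498) (nat_lit 475) (nat_lit 227))) (XT.nd (nat_lit 78) (nat_lit 76) (nat_lit 0) (XT.lf (nat_lit 0) (nat_lit 22863562101) (nat_lit 532) (nat_lit 29105757096) (nat_lit 608) (nat_lit 2296247550) (nat_lit 284) (nat_lit 5) (nat_lit 291) (nat_lit 5) (nat_lit 292) (nat_lit 5) (nat_lit 499) (nat_lit 475) (nat_lit 226)) (XT.lf (nat_lit 0) (nat_lit 3894875767) (nat_lit 608) (nat_lit 1388162371) (nat_lit 76) (nat_lit 49888634528) (nat_lit 283) (nat_lit 5) (nat_lit 291) (nat_lit 5) (nat_lit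 284) (nat_lit 5) (nat_lit 500) (nat_lit 475) (nat_lit 225)))) (XT.nd (nat_lit 156) (nat_lit 532) (nat_lit 0) (XT.nd (nat_lit 78) (nat_lit 532) (nat_lit 0) (XT.lf (nat_lit 0) (nat_lit 10702005303) (nat_lit 684) (nat_lit 26194309044) (nat_lit 76) (nat_lit 19193672657) (nat_lit 275) (nat_lit 5) (nat_lit 284) (nat_lit 5) (nat_lit 276) (nat_lit 5) (nat_lit 501) (nat_lit 475) (nat_lit 224)) (XT.lf (nat_lit 0) (nat_lit 5158232023) (nat_lit 532) (nat_lit 12670196184) (nat_lit 608) (nat_lit 39203970217) (nat_lit 268) (nat_lit 5) (nat_lit 275) (nat_lit 5) (nat_lit 276) (nat_lit 5) (nat_lit 502) (nat_lit 475) (nat_lit 223))) (XT.nd (nat_lit 78) (nat_lit 532) (nat_lit 0) (XT.lf (nat_lit 0) (nat_lit 25552891950) (nat_lit 608) (nat_lit 20128582110) (nat_lit 76) (nat_lit 12310080720) (nat_lit 268) (nat_lit 5) (nat_lit 276) (nat_lit 5) (nat_lit 269) (nat_lit 5) (nat_lit 503) (nat_lit 475) (nat_lit 222)) (XT.lf (nat_lit 0) (nat_lit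 12690536579) (nat_lit 532) (nat_lit 21065066594) (nat_lit 608) (nat_lit 25216487283) (nat_lit 261) (nat_lit 5) (nat_lit 268) (nat_lit 5) (nat_lit 269) (nat_lit 5) (nat_lit 504) (nat_lit 475) (nat_lit 221)))))) (XT.nd (nat_lit 624) (nat_lit 2128) (nat_lit 0) (XT.nd (nat_lit 312) (nat_lit 912) (nat_lit 0) (XT.nd (nat_lit 156) (nat_lit 532) (nat_lit 0) (XT.nd (nat_lit 78) (nat_lit 456) (nat_lit 0) (XT.lf (nat_lit 0) (nat_lit 42449996902) (nat_lit 608) (nat_lit 13113388227) (nat_lit 76) (nat_lit 4411289072) (nat_lit 261) (nat_lit 5) (nat_lit 269) (nat_lit 5) (nat_lit 262) (nat_lit 5) (nat_lit 505) (nat_lit 475) (nat_lit 220)) (XT.lf (nat_lit 0) (nat_lit 21255009594) (nat_lit 456) (nat_lit 30562213425) (nat_lit 532) (nat_lit 9177752458) (nat_lit 255) (nat_lit 5) (nat_lit 261) (nat_lit 5) (nat_lit 262) (nat_lit 5) (nat_lit 506) (nat_lit 475) (nat_lit 219))) (XT.nd (nat_lit 78) (nat_lit 532) (nat_lit 0) (XT.lf (nat_lit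 0) (nat_lit 56922271274) (nat_lit 456) (nat_lit 4674749599) (nat_lit 532) (nat_lit 444918300) (nat_lit 255) (nat_lit 5) (nat_lit 261) (nat_lit 5) (nat_lit 262) (nat_lit 5) (nat_lit 507) (nat_lit 475) (nat_lit 218)) (XT.lf (nat_lit 0) (nat_lit 8895946358) (nat_lit 532) (nat_lit 32261857568) (nat_lit 76) (nat_lit 21944655734) (nat_lit 248) (nat_lit 5) (nat_lit 255) (nat_lit 5) (nat_lit 249) (nat_lit 5) (nat_lit 508) (nat_lit 475) (nat_lit 217)))) (XT.nd (nat_lit 156) (nat_lit 456) (nat_lit 0) (XT.nd (nat_lit 78) (nat_lit 0) (nat_lit 0) (XT.lf (nat_lit 0) (nat_lit 3813597540) (nat_lit 456) (nat_lit 14828816935) (nat_lit 532) (nat_lit 45548219565) (nat_lit 242) (nat_lit 5) (nat_lit 248) (nat_lit 5) (nat_lit 249) (nat_lit 5) (nat_lit 509) (nat_lit 475) (nat_lit 216)) (XT.lf (nat_lit 0) (nat_lit 29127602353) (nat_lit 532) (nat_lit 23791406906) (nat_lit 76) (nat_lit 12379054649) (nat_lit 242) (nat_lit 5) (nat_lit 249)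 (nat_lit 5) (nat_lit 243) (nat_lit 5) (nat_lit 510) (nat_lit 475) (nat_lit 215))) (XT.nd (nat_lit 78) (nat_lit 0) (nat_lit 0) (XT.lf (nat_lit 0) (nat_lit 14017518924) (nat_lit 456) (nat_lit 26190595060) (nat_lit 532) (nat_lit 26222179675) (nat_lit 236) (nat_lit 5) (nat_lit 242) (nat_lit 5) (nat_lit 243) (nat_lit 5) (nat_lit 511) (nat_lit 475) (nat_lit 214)) (XT.lf (nat_lit 0) (nat_lit 51875759110) (nat_lit 532) (nat_lit 14157123256) (nat_lit 76) (nat_lit 1555966418) (nat_lit 236) (nat_lit 5) (nat_lit 243) (nat_lit 5) (nat_lit 237) (nat_lit 5) (nat_lit 512) (nat_lit 475) (nat_lit 213))))) (XT.nd (nat_lit 312) (nat_lit 836) (nat_lit 0) (XT.nd (nat_lit 156) (nat_lit 836) (nat_lit 0) (XT.nd (nat_lit 78) (nat_lit 76) (nat_lit 0) (XT.lf (nat_lit 0) (nat_lit 25483185746) (nat_lit 380) (nat_lit 38913758660) (nat_lit 456) (nat_lit 4370110859) (nat_lit 231) (nat_lit 5) (nat_lit 236) (nat_lit 5) (nat_lit 237) (nat_lit 5) (nat_lit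 513) (nat_lit 475) (nat_lit 212)) (XT.lf (nat_lit 0) (nat_lit 7314069465) (nat_lit 456) (nat_lit 3446095507) (nat_lit 76) (nat_lit 59214025492) (nat_lit 230) (nat_lit 5) (nat_lit 236) (nat_lit 5) (nat_lit 231) (nat_lit 5) (nat_lit 514) (nat_lit 475) (nat_lit 211))) (XT.nd (nat_lit 78) (nat_lit 380) (nat_lit 0) (XT.lf (nat_lit 0) (nat_lit 19807656324) (nat_lit 532) (nat_lit 33094838083) (nat_lit 76) (nat_lit 18297345803) (nat_lit 224) (nat_lit 5) (nat_lit 231) (nat_lit 5) (nat_lit 225) (nat_lit 5) (nat_lit 515) (nat_lit 475) (nat_lit 210)) (XT.lf (nat_lit 0) (nat_lit 8571482927) (nat_lit 380) (nat_lit 24327917769) (nat_lit 456) (nat_lit 39556158279) (nat_lit 219) (nat_lit 5) (nat_lit 224) (nat_lit 5) (nat_lit 225) (nat_lit 5) (nat_lit 516) (nat_lit 475) (nat_lit 209)))) (XT.nd (nat_lit 156) (nat_lit 456) (nat_lit 0) (XT.nd (nat_lit 78) (nat_lit 380) (nat_lit 0) (XT.lf (nat_lit 0) (nat_lit 46769746663) (nat_lit 456)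 (nat_lit 21626054127) (nat_lit 76) (nat_lit 5341573058) (nat_lit 219) (nat_lit 5) (nat_lit 225) (nat_lit 5) (nat_lit 220) (nat_lit 5) (nat_lit 517) (nat_lit 475) (nat_lit 208)) (XT.lf (nat_lit 0) (nat_lit 22088935485) (nat_lit 380) (nat_lit 39419776840) (nat_lit 456) (nat_lit 13535355585) (nat_lit 214) (nat_lit 5) (nat_lit 219) (nat_lit 5) (nat_lit 220) (nat_lit 5) (nat_lit 518) (nat_lit 475) (nat_lit 207))) (XT.nd (nat_lit 78) (nat_lit 380) (nat_lit 0) (XT.lf (nat_lit 0) (nat_lit 513886254) (nat_lit 456) (nat_lit 8830710266) (nat_lit 76) (nat_lit 67038684197) (nat_lit 213) (nat_lit 5) (nat_lit 219) (nat_lit 5) (nat_lit 214) (nat_lit 5) (nat_lit 519) (nat_lit 475) (nat_lit 206)) (XT.lf (nat_lit 0) (nat_lit 15282374787) (nat_lit 456) (nat_lit 40752162887) (nat_lit 76) (nat_lit 21707017352) (nat_lit 208) (nat_lit 5) (nat_lit 214) (nat_lit 5) (nat_lit 209) (nat_lit 5) (nat_lit 520) (nat_lit 475) (nat_lit 205))))))))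
noncomputable def xc230 : XT := (XT.nd (nat_lit 59592) (nat_lit 0) (nat_lit 5928) (XT.nd (nat_lit 1170) (nat_lit 1292) (nat_lit 0) (XT.nd (nat_lit 546) (nat_lit 1596) (nat_lit 0) (XT.nd (nat_lit 234) (nat_lit 684) (nat_lit 0) (XT.nd (nat_lit 78) (nat_lit 304) (nat_lit 0) (XT.lf (nat_lit 0) (nat_lit 5235044327) (nat_lit 380) (nat_lit 25491112072) (nat_lit 456) (nat_lit 48407454032) (nat_lit 203) (nat_lit 5) (nat_lit 208) (nat_lit 5) (nat_lit 209) (nat_lit 5) (nat_lit 521) (nat_lit 475) (nat_lit 204)) (XT.nd (nat_lit 78) (nat_lit 304) (nat_lit 0) (XT.lf (nat_lit 0) (nat_lit 47105564197) (nat_lit 456) (nat_lit 27180213932) (nat_lit 76) (nat_lit 6267480007) (nat_lit 203) (nat_lit 5) (nat_lit 209) (nat_lit 5) (nat_lit 204) (nat_lit 5) (nat_lit 522) (nat_lit 475) (nat_lit 203)) (XT.lf (nat_lit 0) (nat_lit 21098097875) (nat_lit 304) (nat_lit 43332817813) (nat_lit 380) (nat_lit 17570942759) (nat_lit 199) (nat_lit 5) (nat_lit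 203) (nat_lit 5) (nat_lit 204) (nat_lit 5) (nat_lit 523) (nat_lit 475) (nat_lit 202)))) (XT.nd (nat_lit 156) (nat_lit 304) (nat_lit 0) (XT.nd (nat_lit 78) (nat_lit 380) (nat_lit 0) (XT.lf (nat_lit 0) (nat_lit 71381032071) (nat_lit 304) (nat_lit 11168838763) (nat_lit 380) (nat_lit 935830657) (nat_lit 199) (nat_lit 5) (nat_lit 203) (nat_lit 5) (nat_lit 204) (nat_lit 5) (nat_lit 524) (nat_lit 475) (nat_lit 201)) (XT.lf (nat_lit 0) (nat_lit 16470523453) (nat_lit 380) (nat_lit 46456435562) (nat_lit 76) (nat_lit 22064781286) (nat_lit 194) (nat_lit 5) (nat_lit 199) (nat_lit 5) (nat_lit 195) (nat_lit 5) (nat_lit 525) (nat_lit 475) (nat_lit 200))) (XT.nd (nat_lit 78) (nat_lit 0) (nat_lit 0) (XT.lf (nat_lit 0) (nat_lit 4366580289) (nat_lit 304) (nat_lit 30289074322) (nat_lit 380) (nat_lit 51878765840) (nat_lit 190) (nat_lit 5) (nat_lit 194) (nat_lit 5) (nat_lit 195) (nat_lit 5) (nat_lit 526) (nat_lit 475) (nat_lit 199)) (XT.lf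 (nat_lit 0) (nat_lit 53891495289) (nat_lit 380) (nat_lit 30480238584) (nat_lit 76) (nat_lit 3736492481) (nat_lit 190) (nat_lit 5) (nat_lit 195) (nat_lit 5) (nat_lit 191) (nat_lit 5) (nat_lit 527) (nat_lit 475) (nat_lit 198))))) (XT.nd (nat_lit 312) (nat_lit 608) (nat_lit 0) (XT.nd (nat_lit 156) (nat_lit 608) (nat_lit 0) (XT.nd (nat_lit 78) (nat_lit 76) (nat_lit 0) (XT.lf (nat_lit 0) (nat_lit 22904174050) (nat_lit 304) (nat_lit 51319716993) (nat_lit 380) (nat_lit 15489771010) (nat_lit 186) (nat_lit 5) (nat_lit 190) (nat_lit 5) (nat_lit 191) (nat_lit 5) (nat_lit 528) (nat_lit 475) (nat_lit 197)) (XT.lf (nat_lit 0) (nat_lit 4035125868) (nat_lit 380) (nat_lit 12883529861) (nat_lit 76) (nat_lit 74438201757) (nat_lit 185) (nat_lit 5) (nat_lit 190) (nat_lit 5) (nat_lit 186) (nat_lit 5) (nat_lit 529) (nat_lit 475) (nat_lit 196))) (XT.nd (nat_lit 78) (nat_lit 304) (nat_lit 0) (XT.lf (nat_lit 0) (nat_lit 24434218777) (nat_lit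 380) (nat_lit 49863926843) (nat_lit 76) (nat_lit 18728608908) (nat_lit 181) (nat_lit 5) (nat_lit 186) (nat_lit 5) (nat_lit 182) (nat_lit 5) (nat_lit 530) (nat_lit 475) (nat_lit 195)) (XT.lf (nat_lit 0) (nat_lit 6366410918) (nat_lit 304) (nat_lit 39438413792) (nat_lit 380) (nat_lit 48931137579) (nat_lit 177) (nat_lit 5) (nat_lit 181) (nat_lit 5) (nat_lit 182) (nat_lit 5) (nat_lit 531) (nat_lit 475) (nat_lit 194)))) (XT.nd (nat_lit 156) (nat_lit 380) (nat_lit 0) (XT.nd (nat_lit 78) (nat_lit 228) (nat_lit 0) (XT.lf (nat_lit 0) (nat_lit 65304977470) (nat_lit 304) (nat_lit 3014551782) (nat_lit 380) (nat_lit 28161827630) (nat_lit 177) (nat_lit 5) (nat_lit 181) (nat_lit 5) (nat_lit 182) (nat_lit 5) (nat_lit 532) (nat_lit 475) (nat_lit 193)) (XT.lf (nat_lit 0) (nat_lit 27945417263) (nat_lit 228) (nat_lit 64164006426) (nat_lit 304) (nat_lit 6151697175) (nat_lit 174) (nat_lit 5) (nat_lit 177) (nat_lit 5) (nat_lit 178) (nat_lit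 5) (nat_lit 533) (nat_lit 475) (nat_lit 192))) (XT.nd (nat_lit 78) (nat_lit 304) (nat_lit 0) (XT.lf (nat_lit 0) (nat_lit 16543649663) (nat_lit 304) (nat_lit 10797466441) (nat_lit 76) (nat_lit 72737980451) (nat_lit 173) (nat_lit 5) (nat_lit 177) (nat_lit 5) (nat_lit 174) (nat_lit 5) (nat_lit 534) (nat_lit 475) (nat_lit 191)) (XT.lf (nat_lit 0) (nat_lit 40397512779) (nat_lit 380) (nat_lit 50593676848) (nat_lit 76) (nat_lit 10940555698) (nat_lit 169) (nat_lit 5) (nat_lit 174) (nat_lit 5) (nat_lit 170) (nat_lit 5) (nat_lit 535) (nat_lit 475) (nat_lit 190)))))) (XT.nd (nat_lit 57798) (nat_lit 0) (nat_lit 13300) (XT.nd (nat_lit 312) (nat_lit 760) (nat_lit 0) (XT.nd (nat_lit 156) (nat_lit 304) (nat_lit 0) (XT.nd (nat_lit 78) (nat_lit 0) (nat_lit 0) (XT.lf (nat_lit 0) (nat_lit 11677578022) (nat_lit 228) (nat_lit 53781970844) (nat_lit 304) (nat_lit 38365647992) (nat_lit 166) (nat_lit 5) (nat_lit 169) (nat_lit 5) (nat_lit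 170) (nat_lit 5) (nat_lit 536) (nat_lit 475) (nat_lit 189)) (XT.lf (nat_lit 0) (nat_lit 76853285011) (nat_lit 228) (nat_lit 14930553273) (nat_lit 304) (nat_lit 13976301897) (nat_lit 166) (nat_lit 5) (nat_lit 169) (nat_lit 5) (nat_lit 170) (nat_lit 5) (nat_lit 537) (nat_lit 475) (nat_lit 188))) (XT.nd (nat_lit 78) (nat_lit 0) (nat_lit 0) (XT.lf (nat_lit 0) (nat_lit 11526615265) (nat_lit 304) (nat_lit 71142886935) (nat_lit 76) (nat_lit 25062434786) (nat_lit 162) (nat_lit 5) (nat_lit 166) (nat_lit 5) (nat_lit 163) (nat_lit 5) (nat_lit 538) (nat_lit 475) (nat_lit 187)) (XT.lf (nat_lit 0) (nat_lit 37955839221) (nat_lit 304) (nat_lit 5401629308) (nat_lit 76) (nat_lit 66388003925) (nat_lit 162) (nat_lit 5) (nat_lit 166) (nat_lit 5) (nat_lit 163) (nat_lit 5) (nat_lit 539) (nat_lit 475) (nat_lit 186)))) (XT.nd (nat_lit 156) (nat_lit 304) (nat_lit 0) (XT.nd (nat_lit 78) (nat_lit 228) (nat_lit 0) (XT.lf (nat_lit 0) (nat_lit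 63551205470) (nat_lit 228) (nat_lit 2237150952) (nat_lit 304) (nat_lit 46012745078) (nat_lit 159) (nat_lit 5) (nat_lit 162) (nat_lit 5) (nat_lit 163) (nat_lit 5) (nat_lit 540) (nat_lit 475) (nat_lit 185)) (XT.lf (nat_lit 0) (nat_lit 20785241041) (nat_lit 228) (nat_lit 74310648603) (nat_lit 304) (nat_lit 18803308569) (nat_lit 156) (nat_lit 5) (nat_lit 159) (nat_lit 5) (nat_lit 160) (nat_lit 5) (nat_lit 541) (nat_lit 475) (nat_lit 184))) (XT.nd (nat_lit 78) (nat_lit 228) (nat_lit 0) (XT.lf (nat_lit 0) (nat_lit 9556180864) (nat_lit 304) (nat_lit 23281517622) (nat_lit 76) (nat_lit 83204467838) (nat_lit 155) (nat_lit 5) (nat_lit 159) (nat_lit 5) (nat_lit 156) (nat_lit 5) (nat_lit 542) (nat_lit 475) (nat_lit 183)) (XT.lf (nat_lit 0) (nat_lit 38964669089) (nat_lit 304) (nat_lit 68907714947) (nat_lit 76) (nat_lit 10354170050) (nat_lit 152) (nat_lit 5) (nat_lit 156) (nat_lit 5) (nat_lit 153) (nat_lit 5) (nat_lit 543) (nat_lit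 475) (nat_lit 182))))) (XT.nd (nat_lit 312) (nat_lit 0) (nat_lit 152) (XT.nd (nat_lit 156) (nat_lit 0) (nat_lit 76) (XT.nd (nat_lit 78) (nat_lit 0) (nat_lit 0) (XT.lf (nat_lit 0) (nat_lit 10769246572) (nat_lit 1292) (nat_lit 4217839541) (nat_lit 1292) (nat_lit 4217839541) (nat_lit 327) (nat_lit 3) (nat_lit 344) (nat_lit 3) (nat_lit 344) (nat_lit 5) (nat_lit 476) (nat_lit 476) (nat_lit 248)) (XT.lf (nat_lit 76) (nat_lit 10904859732) (nat_lit 0) (nat_lit 11105767508) (nat_lit 1292) (nat_lit 16970898099) (nat_lit 328) (nat_lit 5) (nat_lit 327) (nat_lit 3) (nat_lit 344) (nat_lit 5) (nat_lit 477) (nat_lit 476) (nat_lit 247))) (XT.nd (nat_lit 78) (nat_lit 0) (nat_lit 0) (XT.lf (nat_lit 0) (nat_lit 22661286012) (nat_lit 1216) (nat_lit 8651126924) (nat_lit 1292) (nat_lit 8253005910) (nat_lit 328) (nat_lit 5) (nat_lit 344) (nat_lit 5) (nat_lit 345) (nat_lit 5) (nat_lit 478) (nat_lit 476) (nat_lit 246)) (XT.lf (nat_lit 76)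 (nat_lit 11470104176) (nat_lit 0) (nat_lit 12079899399) (nat_lit 1292) (nat_lit 16610269492) (nat_lit 329) (nat_lit 5) (nat_lit 328) (nat_lit 5) (nat_lit 345) (nat_lit 5) (nat_lit 479) (nat_lit 476) (nat_lit 245)))) (XT.nd (nat_lit 156) (nat_lit 0) (nat_lit 76) (XT.nd (nat_lit 78) (nat_lit 0) (nat_lit 0) (XT.lf (nat_lit 0) (nat_lit 24626278548) (nat_lit 1216) (nat_lit 8474192258) (nat_lit 1292) (nat_lit 7667675305) (nat_lit 329) (nat_lit 5) (nat_lit 345) (nat_lit 5) (nat_lit 346) (nat_lit 5) (nat_lit 480) (nat_lit 476) (nat_lit 244)) (XT.lf (nat_lit 76) (nat_lit 12471059225) (nat_lit 0) (nat_lit 13501682412) (nat_lit 1292) (nat_lit 15414376787) (nat_lit 330) (nat_lit 5) (nat_lit 329) (nat_lit 5) (nat_lit 346) (nat_lit 5) (nat_lit 481) (nat_lit 476) (nat_lit 243))) (XT.nd (nat_lit 78) (nat_lit 0) (nat_lit 0) (XT.lf (nat_lit 0) (nat_lit 27508739769) (nat_lit 1216) (nat_lit 7869819647) (nat_lit 1292) (nat_lit 6641626328)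 (nat_lit 330) (nat_lit 5) (nat_lit 346) (nat_lit 5) (nat_lit 347) (nat_lit 5) (nat_lit 482) (nat_lit 476) (nat_lit 242)) (XT.lf (nat_lit 76) (nat_lit 13945279234) (nat_lit 0) (nat_lit 15411774228) (nat_lit 1292) (nat_lit 13307204621) (nat_lit 331) (nat_lit 5) (nat_lit 330) (nat_lit 5) (nat_lit 347) (nat_lit 5) (nat_lit 483) (nat_lit 476) (nat_lit 241))))))) (XT.nd (nat_lit 1248) (nat_lit 4636) (nat_lit 0) (XT.nd (nat_lit 624) (nat_lit 1900) (nat_lit 0) (XT.nd (nat_lit 312) (nat_lit 1140) (nat_lit 0) (XT.nd (nat_lit 156) (nat_lit 0) (nat_lit 76) (XT.nd (nat_lit 78) (nat_lit 0) (nat_lit 0) (XT.lf (nat_lit 0) (nat_lit 31389160830) (nat_lit 1216) (nat_lit 6800453836) (nat_lit 1292) (nat_lit 5134187664) (nat_lit 331) (nat_lit 5) (nat_lit 347) (nat_lit 5) (nat_lit 348) (nat_lit 5) (nat_lit 484) (nat_lit 476) (nat_lit 240)) (XT.lf (nat_lit 76) (nat_lit 15932964396) (nat_lit 0) (nat_lit 17853602798) (nat_lit 1292) (nat_lit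 10207435703) (nat_lit 332) (nat_lit 5) (nat_lit 331) (nat_lit 5) (nat_lit 348) (nat_lit 5) (nat_lit 485) (nat_lit 476) (nat_lit 239))) (XT.nd (nat_lit 78) (nat_lit 0) (nat_lit 0) (XT.lf (nat_lit 0) (nat_lit 36353596154) (nat_lit 1216) (nat_lit 5225884425) (nat_lit 1292) (nat_lit 3101897953) (nat_lit 332) (nat_lit 5) (nat_lit 348) (nat_lit 5) (nat_lit 349) (nat_lit 5) (nat_lit 486) (nat_lit 476) (nat_lit 238)) (XT.lf (nat_lit 76) (nat_lit 18477124695) (nat_lit 0) (nat_lit 20873555521) (nat_lit 1292) (nat_lit 6028103953) (nat_lit 333) (nat_lit 5) (nat_lit 332) (nat_lit 5) (nat_lit 349) (nat_lit 5) (nat_lit 487) (nat_lit 476) (nat_lit 237)))) (XT.nd (nat_lit 156) (nat_lit 1292) (nat_lit 0) (XT.nd (nat_lit 78) (nat_lit 0) (nat_lit 0) (XT.lf (nat_lit 0) (nat_lit 42494025466) (nat_lit 1216) (nat_lit 3103080801) (nat_lit 1292) (nat_lit 498315309) (nat_lit 333) (nat_lit 5) (nat_lit 349) (nat_lit 5) (nat_lit 350) (nat_lit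 5) (nat_lit 488) (nat_lit 476) (nat_lit 236)) (XT.lf (nat_lit 76) (nat_lit 21623754085) (nat_lit 0) (nat_lit 24521179826) (nat_lit 1292) (nat_lit 676226366) (nat_lit 334) (nat_lit 5) (nat_lit 333) (nat_lit 5) (nat_lit 350) (nat_lit 5) (nat_lit 489) (nat_lit 476) (nat_lit 235))) (XT.nd (nat_lit 78) (nat_lit 0) (nat_lit 76) (XT.lf (nat_lit 0) (nat_lit 2321494718) (nat_lit 1292) (nat_lit 435503849) (nat_lit 1368) (nat_lit 44810086962) (nat_lit 316) (nat_lit 5) (nat_lit 333) (nat_lit 5) (nat_lit 334) (nat_lit 5) (nat_lit 490) (nat_lit 476) (nat_lit 234)) (XT.lf (nat_lit 0) (nat_lit 5831528863) (nat_lit 1292) (nat_lit 22958980080) (nat_lit 1368) (nat_lit 19531599603) (nat_lit 317) (nat_lit 5) (nat_lit 334) (nat_lit 5) (nat_lit 335) (nat_lit 5) (nat_lit 491) (nat_lit 476) (nat_lit 233))))) (XT.nd (nat_lit 312) (nat_lit 1216) (nat_lit 0) (XT.nd (nat_lit 156) (nat_lit 760) (nat_lit 0) (XT.nd (nat_lit 78) (nat_lit 0) (nat_lit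 76) (XT.lf (nat_lit 76) (nat_lit 2872709274) (nat_lit 0) (nat_lit 6632320367) (nat_lit 1368) (nat_lit 39593007695) (nat_lit 318) (nat_lit 5) (nat_lit 317) (nat_lit 5) (nat_lit 335) (nat_lit 5) (nat_lit 492) (nat_lit 476) (nat_lit 232)) (XT.lf (nat_lit 0) (nat_lit 13677345370) (nat_lit 1292) (nat_lit 20099262997) (nat_lit 76) (nat_lit 16108977376) (nat_lit 318) (nat_lit 5) (nat_lit 335) (nat_lit 5) (nat_lit 319) (nat_lit 5) (nat_lit 493) (nat_lit 476) (nat_lit 231))) (XT.nd (nat_lit 78) (nat_lit 0) (nat_lit 0) (XT.lf (nat_lit 0) (nat_lit 6878134085) (nat_lit 836) (nat_lit 11227353356) (nat_lit 912) (nat_lit 32587353502) (nat_lit 307) (nat_lit 5) (nat_lit 318) (nat_lit 5) (nat_lit 319) (nat_lit 5) (nat_lit 494) (nat_lit 476) (nat_lit 230)) (XT.lf (nat_lit 0) (nat_lit 22985680088) (nat_lit 912) (nat_lit 16559726916) (nat_lit 76) (nat_lit 11969330652) (nat_lit 307) (nat_lit 5) (nat_lit 319) (nat_lit 5) (nat_lit 308)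 (nat_lit 5) (nat_lit 495) (nat_lit 476) (nat_lit 229)))) (XT.nd (nat_lit 156) (nat_lit 608) (nat_lit 0) (XT.nd (nat_lit 78) (nat_lit 0) (nat_lit 0) (XT.lf (nat_lit 0) (nat_lit 11627642570) (nat_lit 608) (nat_lit 16606499843) (nat_lit 684) (nat_lit 24120492987) (nat_lit 299) (nat_lit 5) (nat_lit 307) (nat_lit 5) (nat_lit 308) (nat_lit 5) (nat_lit 496) (nat_lit 476) (nat_lit 228)) (XT.lf (nat_lit 0) (nat_lit 33875373358) (nat_lit 684) (nat_lit 12284781322) (nat_lit 76) (nat_lit 7052515997) (nat_lit 299) (nat_lit 5) (nat_lit 308) (nat_lit 5) (nat_lit 300) (nat_lit 5) (nat_lit 497) (nat_lit 476) (nat_lit 227))) (XT.nd (nat_lit 78) (nat_lit 0) (nat_lit 0) (XT.lf (nat_lit 0) (nat_lit 17180542163) (nat_lit 608) (nat_lit 22833852525) (nat_lit 684) (nat_lit 14072195763) (nat_lit 291) (nat_lit 5) (nat_lit 299) (nat_lit 5) (nat_lit 300) (nat_lit 5) (nat_lit 498) (nat_lit 476) (nat_lit 226)) (XT.lf (nat_lit 0) (nat_lit 46473330822)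 (nat_lit 684) (nat_lit 7215051976) (nat_lit 76) (nat_lit 1294272738) (nat_lit 291) (nat_lit 5) (nat_lit 300) (nat_lit 5) (nat_lit 292) (nat_lit 5) (nat_lit 499) (nat_lit 476) (nat_lit 225)))))) (XT.nd (nat_lit 624) (nat_lit 1900) (nat_lit 0) (XT.nd (nat_lit 312) (nat_lit 988) (nat_lit 0) (XT.nd (nat_lit 156) (nat_lit 1140) (nat_lit 0) (XT.nd (nat_lit 78) (nat_lit 76) (nat_lit 0) (XT.lf (nat_lit 0) (nat_lit 23600141324) (nat_lit 532) (nat_lit 29977862684) (nat_lit 608) (nat_lit 2314039536) (nat_lit 284) (nat_lit 5) (nat_lit 291) (nat_lit 5) (nat_lit 292) (nat_lit 5) (nat_lit 500) (nat_lit 476) (nat_lit 224)) (XT.lf (nat_lit 0) (nat_lit 4060361249) (nat_lit 608) (nat_lit 1379640830) (nat_lit 76) (nat_lit 51385359661) (nat_lit 283) (nat_lit 5) (nat_lit 291) (nat_lit 5) (nat_lit 284) (nat_lit 5) (nat_lit 501) (nat_lit 476) (nat_lit 223))) (XT.nd (nat_lit 78) (nat_lit 532) (nat_lit 0) (XT.lf (nat_lit 0) (nat_lit 11070784478)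 (nat_lit 684) (nat_lit 26929049835) (nat_lit 76) (nat_lit 19771418856) (nat_lit 275) (nat_lit 5) (nat_lit 284) (nat_lit 5) (nat_lit 276) (nat_lit 5) (nat_lit 502) (nat_lit 476) (nat_lit 222)) (XT.lf (nat_lit 0) (nat_lit 5363566597) (nat_lit 532) (nat_lit 13046529877) (nat_lit 608) (nat_lit 40331867620) (nat_lit 268) (nat_lit 5) (nat_lit 275) (nat_lit 5) (nat_lit 276) (nat_lit 5) (nat_lit 503) (nat_lit 476) (nat_lit 221)))) (XT.nd (nat_lit 156) (nat_lit 456) (nat_lit 0) (XT.nd (nat_lit 78) (nat_lit 532) (nat_lit 0) (XT.lf (nat_lit 0) (nat_lit 26364965778) (nat_lit 608) (nat_lit 20681995267) (nat_lit 76) (nat_lit 12682974000) (nat_lit 268) (nat_lit 5) (nat_lit 276) (nat_lit 5) (nat_lit 269) (nat_lit 5) (nat_lit 504) (nat_lit 476) (nat_lit 220)) (XT.lf (nat_lit 0) (nat_lit 13121202431) (nat_lit 532) (nat_lit 21691711188) (nat_lit 608) (nat_lit 25926998565) (nat_lit 261) (nat_lit 5) (nat_lit 268) (nat_lit 5) (nat_lit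 269) (nat_lit 5) (nat_lit 505) (nat_lit 476) (nat_lit 219))) (XT.nd (nat_lit 78) (nat_lit 456) (nat_lit 0) (XT.lf (nat_lit 0) (nat_lit 43766888429) (nat_lit 608) (nat_lit 13457042571) (nat_lit 76) (nat_lit 4548680014) (nat_lit 261) (nat_lit 5) (nat_lit 269) (nat_lit 5) (nat_lit 262) (nat_lit 5) (nat_lit 506) (nat_lit 476) (nat_lit 218)) (XT.lf (nat_lit 0) (nat_lit 21941919466) (nat_lit 456) (nat_lit 31472421542) (nat_lit 532) (nat_lit 9409204076) (nat_lit 255) (nat_lit 5) (nat_lit 261) (nat_lit 5) (nat_lit 262) (nat_lit 5) (nat_lit 507) (nat_lit 476) (nat_lit 217))))) (XT.nd (nat_lit 312) (nat_lit 912) (nat_lit 0) (XT.nd (nat_lit 156) (nat_lit 456) (nat_lit 0) (XT.nd (nat_lit 78) (nat_lit 532) (nat_lit 0) (XT.lf (nat_lit 0) (nat_lit 58677764252) (nat_lit 456) (nat_lit 4808527732) (nat_lit 532) (nat_lit 415662979) (nat_lit 255) (nat_lit 5) (nat_lit 261) (nat_lit 5) (nat_lit 262) (nat_lit 5) (nat_lit 508) (nat_lit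 476) (nat_lit 216)) (XT.lf (nat_lit 0) (nat_lit 9203911630) (nat_lit 532) (nat_lit 33180369463) (nat_lit 76) (nat_lit 22610018271) (nat_lit 248) (nat_lit 5) (nat_lit 255) (nat_lit 5) (nat_lit 249) (nat_lit 5) (nat_lit 509) (nat_lit 476) (nat_lit 215))) (XT.nd (nat_lit 78) (nat_lit 0) (nat_lit 0) (XT.lf (nat_lit 0) (nat_lit 3976865535) (nat_lit 456) (nat_lit 15265181222) (nat_lit 532) (nat_lit 46873094071) (nat_lit 242) (nat_lit 5) (nat_lit 248) (nat_lit 5) (nat_lit 249) (nat_lit 5) (nat_lit 510) (nat_lit 476) (nat_lit 214)) (XT.lf (nat_lit 0) (nat_lit 30040694072) (nat_lit 532) (nat_lit 24456614558) (nat_lit 76) (nat_lit 12758517891) (nat_lit 242) (nat_lit 5) (nat_lit 249) (nat_lit 5) (nat_lit 243) (nat_lit 5) (nat_lit 511) (nat_lit 476) (nat_lit 213)))) (XT.nd (nat_lit 156) (nat_lit 456) (nat_lit 0) (XT.nd (nat_lit 78) (nat_lit 0) (nat_lit 0) (XT.lf (nat_lit 0) (nat_lit 14486103218) (nat_lit 456) (nat_lit 26966836202)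 (nat_lit 532) (nat_lit 26969104233) (nat_lit 236) (nat_lit 5) (nat_lit 242) (nat_lit 5) (nat_lit 243) (nat_lit 5) (nat_lit 512) (nat_lit 476) (nat_lit 212)) (XT.lf (nat_lit 0) (nat_lit 53469578595) (nat_lit 532) (nat_lit 14534141375) (nat_lit 76) (nat_lit 1611666561) (nat_lit 236) (nat_lit 5) (nat_lit 243) (nat_lit 5) (nat_lit 237) (nat_lit 5) (nat_lit 513) (nat_lit 476) (nat_lit 211))) (XT.nd (nat_lit 78) (nat_lit 76) (nat_lit 0) (XT.lf (nat_lit 0) (nat_lit 26294909294) (nat_lit 380) (nat_lit 40070850547) (nat_lit 456) (nat_lit 4463198593) (nat_lit 231) (nat_lit 5) (nat_lit 236) (nat_lit 5) (nat_lit 237) (nat_lit 5) (nat_lit 514) (nat_lit 476) (nat_lit 210)) (XT.lf (nat_lit 0) (nat_lit 7569679676) (nat_lit 456) (nat_lit 3502904551) (nat_lit 76) (nat_lit 60999745104) (nat_lit 230) (nat_lit 5) (nat_lit 236) (nat_lit 5) (nat_lit 231) (nat_lit 5) (nat_lit 515) (nat_lit 476) (nat_lit 209))))))))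
noncomputable def xc231 : XT := (XT.nd (nat_lit 59748) (nat_lit 0) (nat_lit 6536) (XT.nd (nat_lit 1170) (nat_lit 2204) (nat_lit 0) (XT.nd (nat_lit 546) (nat_lit 1368) (nat_lit 0) (XT.nd (nat_lit 234) (nat_lit 1216) (nat_lit 0) (XT.nd (nat_lit 78) (nat_lit 380) (nat_lit 0) (XT.lf (nat_lit 0) (nat_lit 20437564740) (nat_lit 532) (nat_lit 34040598835) (nat_lit 76) (nat_lit 18856600311) (nat_lit 224) (nat_lit 5) (nat_lit 231) (nat_lit 5) (nat_lit 225) (nat_lit 5) (nat_lit 516) (nat_lit 476) (nat_lit 208)) (XT.nd (nat_lit 78) (nat_lit 0) (nat_lit 0) (XT.lf (nat_lit 0) (nat_lit 8875250194) (nat_lit 380) (nat_lit 25046220230) (nat_lit 456) (nat_lit 40706701555) (nat_lit 219) (nat_lit 5) (nat_lit 224) (nat_lit 5) (nat_lit 225) (nat_lit 5) (nat_lit 517) (nat_lit 476) (nat_lit 207)) (XT.lf (nat_lit 0) (nat_lit 48207012450) (nat_lit 456) (nat_lit 22228655496) (nat_lit 76) (nat_lit 5512800814) (nat_lit 219) (nat_lit 5) (nat_lit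 225) (nat_lit 5) (nat_lit 220) (nat_lit 5) (nat_lit 518) (nat_lit 476) (nat_lit 206)))) (XT.nd (nat_lit 156) (nat_lit 760) (nat_lit 0) (XT.nd (nat_lit 78) (nat_lit 76) (nat_lit 0) (XT.lf (nat_lit 0) (nat_lit 22797331057) (nat_lit 380) (nat_lit 40590260244) (nat_lit 456) (nat_lit 13906789049) (nat_lit 214) (nat_lit 5) (nat_lit 219) (nat_lit 5) (nat_lit 220) (nat_lit 5) (nat_lit 519) (nat_lit 476) (nat_lit 205)) (XT.lf (nat_lit 0) (nat_lit 562265466) (nat_lit 456) (nat_lit 9050578907) (nat_lit 76) (nat_lit 69060944879) (nat_lit 213) (nat_lit 5) (nat_lit 219) (nat_lit 5) (nat_lit 214) (nat_lit 5) (nat_lit 520) (nat_lit 476) (nat_lit 204))) (XT.nd (nat_lit 78) (nat_lit 380) (nat_lit 0) (XT.lf (nat_lit 0) (nat_lit 15773394484) (nat_lit 456) (nat_lit 41929259957) (nat_lit 76) (nat_lit 22370169803) (nat_lit 208) (nat_lit 5) (nat_lit 214) (nat_lit 5) (nat_lit 209) (nat_lit 5) (nat_lit 521) (nat_lit 476) (nat_lit 203)) (XT.lf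 (nat_lit 0) (nat_lit 5437117710) (nat_lit 380) (nat_lit 26242856601) (nat_lit 456) (nat_lit 49826682487) (nat_lit 203) (nat_lit 5) (nat_lit 208) (nat_lit 5) (nat_lit 209) (nat_lit 5) (nat_lit 522) (nat_lit 476) (nat_lit 202))))) (XT.nd (nat_lit 312) (nat_lit 684) (nat_lit 0) (XT.nd (nat_lit 156) (nat_lit 380) (nat_lit 0) (XT.nd (nat_lit 78) (nat_lit 304) (nat_lit 0) (XT.lf (nat_lit 0) (nat_lit 48549952556) (nat_lit 456) (nat_lit 27951096910) (nat_lit 76) (nat_lit 6467868849) (nat_lit 203) (nat_lit 5) (nat_lit 209) (nat_lit 5) (nat_lit 204) (nat_lit 5) (nat_lit 523) (nat_lit 476) (nat_lit 201)) (XT.lf (nat_lit 0) (nat_lit 21775127747) (nat_lit 304) (nat_lit 44619451274) (nat_lit 380) (nat_lit 18066412209) (nat_lit 199) (nat_lit 5) (nat_lit 203) (nat_lit 5) (nat_lit 204) (nat_lit 5) (nat_lit 524) (nat_lit 476) (nat_lit 200))) (XT.nd (nat_lit 78) (nat_lit 380) (nat_lit 0) (XT.lf (nat_lit 0) (nat_lit 73565265884) (nat_lit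 304) (nat_lit 11490941718) (nat_lit 380) (nat_lit 933168846) (nat_lit 199) (nat_lit 5) (nat_lit 203) (nat_lit 5) (nat_lit 204) (nat_lit 5) (nat_lit 525) (nat_lit 476) (nat_lit 199)) (XT.lf (nat_lit 0) (nat_lit 16994439361) (nat_lit 380) (nat_lit 47806387588) (nat_lit 76) (nat_lit 22739770736) (nat_lit 194) (nat_lit 5) (nat_lit 199) (nat_lit 5) (nat_lit 195) (nat_lit 5) (nat_lit 526) (nat_lit 476) (nat_lit 198)))) (XT.nd (nat_lit 156) (nat_lit 380) (nat_lit 0) (XT.nd (nat_lit 78) (nat_lit 0) (nat_lit 0) (XT.lf (nat_lit 0) (nat_lit 4540889905) (nat_lit 304) (nat_lit 31183782925) (nat_lit 380) (nat_lit 53404898982) (nat_lit 190) (nat_lit 5) (nat_lit 194) (nat_lit 5) (nat_lit 195) (nat_lit 5) (nat_lit 527) (nat_lit 476) (nat_lit 197)) (XT.lf (nat_lit 0) (nat_lit 55536864232) (nat_lit 380) (nat_lit 31351869787) (nat_lit 76) (nat_lit 3861879631) (nat_lit 190) (nat_lit 5) (nat_lit 195) (nat_lit 5) (nat_lit 191) (nat_lit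 5) (nat_lit 528) (nat_lit 476) (nat_lit 196))) (XT.nd (nat_lit 78) (nat_lit 76) (nat_lit 0) (XT.lf (nat_lit 0) (nat_lit 23633655854) (nat_lit 304) (nat_lit 52845149452) (nat_lit 380) (nat_lit 15925419933) (nat_lit 186) (nat_lit 5) (nat_lit 190) (nat_lit 5) (nat_lit 191) (nat_lit 5) (nat_lit 529) (nat_lit 476) (nat_lit 195)) (XT.lf (nat_lit 0) (nat_lit 4183827653) (nat_lit 380) (nat_lit 13228361905) (nat_lit 76) (nat_lit 76684543505) (nat_lit 185) (nat_lit 5) (nat_lit 190) (nat_lit 5) (nat_lit 186) (nat_lit 5) (nat_lit 530) (nat_lit 476) (nat_lit 194)))))) (XT.nd (nat_lit 624) (nat_lit 760) (nat_lit 0) (XT.nd (nat_lit 312) (nat_lit 608) (nat_lit 0) (XT.nd (nat_lit 156) (nat_lit 228) (nat_lit 0) (XT.nd (nat_lit 78) (nat_lit 304) (nat_lit 0) (XT.lf (nat_lit 0) (nat_lit 25194619560) (nat_lit 380) (nat_lit 51317896321) (nat_lit 76) (nat_lit 19304219370) (nat_lit 181) (nat_lit 5) (nat_lit 186) (nat_lit 5) (nat_lit 182)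 (nat_lit 5) (nat_lit 531) (nat_lit 476) (nat_lit 193)) (XT.lf (nat_lit 0) (nat_lit 6598940315) (nat_lit 304) (nat_lit 40607005328) (nat_lit 380) (nat_lit 50371285562) (nat_lit 177) (nat_lit 5) (nat_lit 181) (nat_lit 5) (nat_lit 182) (nat_lit 5) (nat_lit 532) (nat_lit 476) (nat_lit 192))) (XT.nd (nat_lit 78) (nat_lit 228) (nat_lit 0) (XT.lf (nat_lit 0) (nat_lit 67304454046) (nat_lit 304) (nat_lit 3090851562) (nat_lit 380) (nat_lit 28979705619) (nat_lit 177) (nat_lit 5) (nat_lit 181) (nat_lit 5) (nat_lit 182) (nat_lit 5) (nat_lit 533) (nat_lit 476) (nat_lit 191)) (XT.lf (nat_lit 0) (nat_lit 28824355760) (nat_lit 228) (nat_lit 66074300262) (nat_lit 304) (nat_lit 6309519350) (nat_lit 174) (nat_lit 5) (nat_lit 177) (nat_lit 5) (nat_lit 178) (nat_lit 5) (nat_lit 534) (nat_lit 476) (nat_lit 190)))) (XT.nd (nat_lit 156) (nat_lit 228) (nat_lit 0) (XT.nd (nat_lit 78) (nat_lit 304) (nat_lit 0) (XT.lf (nat_lit 0) (nat_lit 17065403004)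 (nat_lit 304) (nat_lit 11081489305) (nat_lit 76) (nat_lit 74933813236) (nat_lit 173) (nat_lit 5) (nat_lit 177) (nat_lit 5) (nat_lit 174) (nat_lit 5) (nat_lit 535) (nat_lit 476) (nat_lit 189)) (XT.lf (nat_lit 0) (nat_lit 41634659409) (nat_lit 380) (nat_lit 52071362845) (nat_lit 76) (nat_lit 11282918220) (nat_lit 169) (nat_lit 5) (nat_lit 174) (nat_lit 5) (nat_lit 170) (nat_lit 5) (nat_lit 536) (nat_lit 476) (nat_lit 188))) (XT.nd (nat_lit 78) (nat_lit 0) (nat_lit 0) (XT.lf (nat_lit 0) (nat_lit 12067636296) (nat_lit 228) (nat_lit 55380567601) (nat_lit 304) (nat_lit 39491002253) (nat_lit 166) (nat_lit 5) (nat_lit 169) (nat_lit 5) (nat_lit 170) (nat_lit 5) (nat_lit 537) (nat_lit 476) (nat_lit 187)) (XT.lf (nat_lit 0) (nat_lit 79197457283) (nat_lit 228) (nat_lit 15364040388) (nat_lit 304) (nat_lit 14370721848) (nat_lit 166) (nat_lit 5) (nat_lit 169) (nat_lit 5) (nat_lit 170) (nat_lit 5) (nat_lit 538) (nat_lit 476) (nat_lit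 186))))) (XT.nd (nat_lit 57642) (nat_lit 0) (nat_lit 12996) (XT.nd (nat_lit 156) (nat_lit 456) (nat_lit 0) (XT.nd (nat_lit 78) (nat_lit 0) (nat_lit 0) (XT.lf (nat_lit 0) (nat_lit 11896599762) (nat_lit 304) (nat_lit 73237915717) (nat_lit 76) (nat_lit 25828653523) (nat_lit 162) (nat_lit 5) (nat_lit 166) (nat_lit 5) (nat_lit 163) (nat_lit 5) (nat_lit 539) (nat_lit 476) (nat_lit 185)) (XT.lf (nat_lit 0) (nat_lit 39117995989) (nat_lit 304) (nat_lit 5525563794) (nat_lit 76) (nat_lit 68393571901) (nat_lit 162) (nat_lit 5) (nat_lit 166) (nat_lit 5) (nat_lit 163) (nat_lit 5) (nat_lit 540) (nat_lit 476) (nat_lit 184))) (XT.nd (nat_lit 78) (nat_lit 228) (nat_lit 0) (XT.lf (nat_lit 0) (nat_lit 65495482357) (nat_lit 228) (nat_lit 2289685206) (nat_lit 304) (nat_lit 47369271687) (nat_lit 159) (nat_lit 5) (nat_lit 162) (nat_lit 5) (nat_lit 163) (nat_lit 5) (nat_lit 541) (nat_lit 476) (nat_lit 183)) (XT.lf (nat_lit 0) (nat_lit 21446718686)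 (nat_lit 228) (nat_lit 76525034106) (nat_lit 304) (nat_lit 19343731306) (nat_lit 156) (nat_lit 5) (nat_lit 159) (nat_lit 5) (nat_lit 160) (nat_lit 5) (nat_lit 542) (nat_lit 476) (nat_lit 182)))) (XT.nd (nat_lit 156) (nat_lit 0) (nat_lit 76) (XT.nd (nat_lit 78) (nat_lit 0) (nat_lit 0) (XT.lf (nat_lit 0) (nat_lit 11136131295) (nat_lit 1292) (nat_lit 4321812944) (nat_lit 1292) (nat_lit 4321812944) (nat_lit 327) (nat_lit 3) (nat_lit 344) (nat_lit 3) (nat_lit 344) (nat_lit 5) (nat_lit 477) (nat_lit 477) (nat_lit 246)) (XT.lf (nat_lit 76) (nat_lit 11276686704) (nat_lit 0) (nat_lit 11479751625) (nat_lit 1292) (nat_lit 17391964076) (nat_lit 328) (nat_lit 5) (nat_lit 327) (nat_lit 3) (nat_lit 344) (nat_lit 5) (nat_lit 478) (nat_lit 477) (nat_lit 245))) (XT.nd (nat_lit 78) (nat_lit 0) (nat_lit 0) (XT.lf (nat_lit 0) (nat_lit 23423745923) (nat_lit 1216) (nat_lit 8864406193) (nat_lit 1292) (nat_lit 8461746844) (nat_lit 328)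 (nat_lit 5) (nat_lit 344) (nat_lit 5) (nat_lit 345) (nat_lit 5) (nat_lit 479) (nat_lit 477) (nat_lit 244)) (XT.lf (nat_lit 76) (nat_lit 11860008364) (nat_lit 0) (nat_lit 12477150470) (nat_lit 1292) (nat_lit 17025499069) (nat_lit 329) (nat_lit 5) (nat_lit 328) (nat_lit 5) (nat_lit 345) (nat_lit 5) (nat_lit 480) (nat_lit 477) (nat_lit 243))))))) (XT.nd (nat_lit 1248) (nat_lit 4940) (nat_lit 0) (XT.nd (nat_lit 624) (nat_lit 1672) (nat_lit 0) (XT.nd (nat_lit 312) (nat_lit 0) (nat_lit 152) (XT.nd (nat_lit 156) (nat_lit 0) (nat_lit 76) (XT.nd (nat_lit 78) (nat_lit 0) (nat_lit 0) (XT.lf (nat_lit 0) (nat_lit 25443047597) (nat_lit 1216) (nat_lit 8681272923) (nat_lit 1292) (nat_lit 7864526962) (nat_lit 329) (nat_lit 5) (nat_lit 345) (nat_lit 5) (nat_lit 346) (nat_lit 5) (nat_lit 481) (nat_lit 477) (nat_lit 242)) (XT.lf (nat_lit 76) (nat_lit 12891873899) (nat_lit 0) (nat_lit 13936208143) (nat_lit 1292) (nat_lit 15798361704)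 (nat_lit 330) (nat_lit 5) (nat_lit 329) (nat_lit 5) (nat_lit 346) (nat_lit 5) (nat_lit 482) (nat_lit 477) (nat_lit 241))) (XT.nd (nat_lit 78) (nat_lit 0) (nat_lit 0) (XT.lf (nat_lit 0) (nat_lit 28407666837) (nat_lit 1216) (nat_lit 8058094369) (nat_lit 1292) (nat_lit 6812816778) (nat_lit 330) (nat_lit 5) (nat_lit 346) (nat_lit 5) (nat_lit 347) (nat_lit 5) (nat_lit 483) (nat_lit 477) (nat_lit 240)) (XT.lf (nat_lit 76) (nat_lit 14410988656) (nat_lit 0) (nat_lit 15898750872) (nat_lit 1292) (nat_lit 13632283775) (nat_lit 331) (nat_lit 5) (nat_lit 330) (nat_lit 5) (nat_lit 347) (nat_lit 5) (nat_lit 484) (nat_lit 477) (nat_lit 239)))) (XT.nd (nat_lit 156) (nat_lit 0) (nat_lit 76) (XT.nd (nat_lit 78) (nat_lit 0) (nat_lit 0) (XT.lf (nat_lit 0) (nat_lit 32400483973) (nat_lit 1216) (nat_lit 6956166226) (nat_lit 1292) (nat_lit 5264773560) (nat_lit 331) (nat_lit 5) (nat_lit 347) (nat_lit 5) (nat_lit 348) (nat_lit 5) (nat_lit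 485) (nat_lit 477) (nat_lit 238)) (XT.lf (nat_lit 76) (nat_lit 16458781013) (nat_lit 0) (nat_lit 18409462673) (nat_lit 1292) (nat_lit 10443533816) (nat_lit 332) (nat_lit 5) (nat_lit 331) (nat_lit 5) (nat_lit 348) (nat_lit 5) (nat_lit 486) (nat_lit 477) (nat_lit 237))) (XT.nd (nat_lit 78) (nat_lit 0) (nat_lit 0) (XT.lf (nat_lit 0) (nat_lit 37510111613) (nat_lit 1216) (nat_lit 5334051405) (nat_lit 1292) (nat_lit 3175676634) (nat_lit 332) (nat_lit 5) (nat_lit 348) (nat_lit 5) (nat_lit 349) (nat_lit 5) (nat_lit 487) (nat_lit 477) (nat_lit 236)) (XT.lf (nat_lit 76) (nat_lit 19079571425) (nat_lit 0) (nat_lit 21516079819) (nat_lit 1292) (nat_lit 6142560011) (nat_lit 333) (nat_lit 5) (nat_lit 332) (nat_lit 5) (nat_lit 349) (nat_lit 5) (nat_lit 488) (nat_lit 477) (nat_lit 235))))) (XT.nd (nat_lit 312) (nat_lit 684) (nat_lit 0) (XT.nd (nat_lit 156) (nat_lit 1292) (nat_lit 0) (XT.nd (nat_lit 78) (nat_lit 0) (nat_lit 0) (XT.lf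 (nat_lit 0) (nat_lit 43831267362) (nat_lit 1216) (nat_lit 3147409842) (nat_lit 1292) (nat_lit 497731549) (nat_lit 333) (nat_lit 5) (nat_lit 349) (nat_lit 5) (nat_lit 350) (nat_lit 5) (nat_lit 489) (nat_lit 477) (nat_lit 234)) (XT.lf (nat_lit 76) (nat_lit 22320752017) (nat_lit 0) (nat_lit 25269597099) (nat_lit 1292) (nat_lit 633611199) (nat_lit 334) (nat_lit 5) (nat_lit 333) (nat_lit 5) (nat_lit 350) (nat_lit 5) (nat_lit 490) (nat_lit 477) (nat_lit 233))) (XT.nd (nat_lit 78) (nat_lit 0) (nat_lit 76) (XT.lf (nat_lit 0) (nat_lit 2451017729) (nat_lit 1292) (nat_lit 400495734) (nat_lit 1368) (nat_lit 46140785692) (nat_lit 316) (nat_lit 5) (nat_lit 333) (nat_lit 5) (nat_lit 334) (nat_lit 5) (nat_lit 491) (nat_lit 477) (nat_lit 232)) (XT.lf (nat_lit 0) (nat_lit 6064960812) (nat_lit 1292) (nat_lit 23598281646) (nat_lit 1368) (nat_lit 20106772242) (nat_lit 317) (nat_lit 5) (nat_lit 334) (nat_lit 5) (nat_lit 335) (nat_lit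 5) (nat_lit 492) (nat_lit 477) (nat_lit 231)))) (XT.nd (nat_lit 156) (nat_lit 760) (nat_lit 0) (XT.nd (nat_lit 78) (nat_lit 0) (nat_lit 76) (XT.lf (nat_lit 76) (nat_lit 3007873410) (nat_lit 0) (nat_lit 6839560579) (nat_lit 1368) (nat_lit 40721824418) (nat_lit 318) (nat_lit 5) (nat_lit 317) (nat_lit 5) (nat_lit 335) (nat_lit 5) (nat_lit 493) (nat_lit 477) (nat_lit 230)) (XT.lf (nat_lit 0) (nat_lit 14143174425) (nat_lit 1292) (nat_lit 20652937577) (nat_lit 76) (nat_lit 16584373677) (nat_lit 318) (nat_lit 5) (nat_lit 335) (nat_lit 5) (nat_lit 319) (nat_lit 5) (nat_lit 494) (nat_lit 477) (nat_lit 229))) (XT.nd (nat_lit 78) (nat_lit 0) (nat_lit 0) (XT.lf (nat_lit 0) (nat_lit 7133298052) (nat_lit 836) (nat_lit 11569715235) (nat_lit 912) (nat_lit 33508979740) (nat_lit 307) (nat_lit 5) (nat_lit 318) (nat_lit 5) (nat_lit 319) (nat_lit 5) (nat_lit 495) (nat_lit 477) (nat_lit 228)) (XT.lf (nat_lit 0) (nat_lit 23727976664)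 (nat_lit 912) (nat_lit 17007483428) (nat_lit 76) (nat_lit 12323135670) (nat_lit 307) (nat_lit 5) (nat_lit 319) (nat_lit 5) (nat_lit 308) (nat_lit 5) (nat_lit 496) (nat_lit 477) (nat_lit 227)))))) (XT.nd (nat_lit 624) (nat_lit 1976) (nat_lit 0) (XT.nd (nat_lit 312) (nat_lit 1748) (nat_lit 0) (XT.nd (nat_lit 156) (nat_lit 608) (nat_lit 0) (XT.nd (nat_lit 78) (nat_lit 0) (nat_lit 0) (XT.lf (nat_lit 0) (nat_lit 12025026404) (nat_lit 608) (nat_lit 17107797476) (nat_lit 684) (nat_lit 24790898692) (nat_lit 299) (nat_lit 5) (nat_lit 307) (nat_lit 5) (nat_lit 308) (nat_lit 5) (nat_lit 497) (nat_lit 477) (nat_lit 226)) (XT.lf (nat_lit 0) (nat_lit 34941758219) (nat_lit 684) (nat_lit 12604648771) (nat_lit 76) (nat_lit 7261137987) (nat_lit 299) (nat_lit 5) (nat_lit 308) (nat_lit 5) (nat_lit 300) (nat_lit 5) (nat_lit 498) (nat_lit 477) (nat_lit 225))) (XT.nd (nat_lit 78) (nat_lit 0) (nat_lit 0) (XT.lf (nat_lit 0) (nat_lit 17744157203)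 (nat_lit 608) (nat_lit 23519796389) (nat_lit 684) (nat_lit 14443758711) (nat_lit 291) (nat_lit 5) (nat_lit 299) (nat_lit 5) (nat_lit 300) (nat_lit 5) (nat_lit 499) (nat_lit 477) (nat_lit 224)) (XT.lf (nat_lit 0) (nat_lit 47915218262) (nat_lit 684) (nat_lit 7383267070) (nat_lit 76) (nat_lit 1332217255) (nat_lit 291) (nat_lit 5) (nat_lit 300) (nat_lit 5) (nat_lit 292) (nat_lit 5) (nat_lit 500) (nat_lit 477) (nat_lit 223)))) (XT.nd (nat_lit 156) (nat_lit 1140) (nat_lit 0) (XT.nd (nat_lit 78) (nat_lit 76) (nat_lit 0) (XT.lf (nat_lit 0) (nat_lit 24355909122) (nat_lit 532) (nat_lit 30876192697) (nat_lit 608) (nat_lit 2335298369) (nat_lit 284) (nat_lit 5) (nat_lit 291) (nat_lit 5) (nat_lit 292) (nat_lit 5) (nat_lit 501) (nat_lit 477) (nat_lit 222)) (XT.lf (nat_lit 0) (nat_lit 4228019205) (nat_lit 608) (nat_lit 1373743399) (nat_lit 76) (nat_lit 52926982753) (nat_lit 283) (nat_lit 5) (nat_lit 291) (nat_lit 5) (nat_lit 284)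 (nat_lit 5) (nat_lit 502) (nat_lit 477) (nat_lit 221))) (XT.nd (nat_lit 78) (nat_lit 532) (nat_lit 0) (XT.lf (nat_lit 0) (nat_lit 11447887761) (nat_lit 684) (nat_lit 27688765537) (nat_lit 76) (nat_lit 20366386306) (nat_lit 275) (nat_lit 5) (nat_lit 284) (nat_lit 5) (nat_lit 276) (nat_lit 5) (nat_lit 503) (nat_lit 477) (nat_lit 220)) (XT.lf (nat_lit 0) (nat_lit 5572157272) (nat_lit 532) (nat_lit 13434370120) (nat_lit 608) (nat_lit 41496370069) (nat_lit 268) (nat_lit 5) (nat_lit 275) (nat_lit 5) (nat_lit 276) (nat_lit 5) (nat_lit 504) (nat_lit 477) (nat_lit 219))))) (XT.nd (nat_lit 312) (nat_lit 988) (nat_lit 0) (XT.nd (nat_lit 156) (nat_lit 456) (nat_lit 0) (XT.nd (nat_lit 78) (nat_lit 532) (nat_lit 0) (XT.lf (nat_lit 0) (nat_lit 27198790676) (nat_lit 608) (nat_lit 21254906529) (nat_lit 76) (nat_lit 13066847948) (nat_lit 268) (nat_lit 5) (nat_lit 276) (nat_lit 5) (nat_lit 269) (nat_lit 5) (nat_lit 505) (nat_lit 477)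 (nat_lit 218)) (XT.lf (nat_lit 0) (nat_lit 13561920937) (nat_lit 532) (nat_lit 22337459787) (nat_lit 608) (nat_lit 26661464817) (nat_lit 261) (nat_lit 5) (nat_lit 268) (nat_lit 5) (nat_lit 269) (nat_lit 5) (nat_lit 506) (nat_lit 477) (nat_lit 217))) (XT.nd (nat_lit 78) (nat_lit 456) (nat_lit 0) (XT.lf (nat_lit 0) (nat_lit 45120795845) (nat_lit 608) (nat_lit 13813862244) (nat_lit 76) (nat_lit 4689902662) (nat_lit 261) (nat_lit 5) (nat_lit 269) (nat_lit 5) (nat_lit 262) (nat_lit 5) (nat_lit 507) (nat_lit 477) (nat_lit 216)) (XT.lf (nat_lit 0) (nat_lit 22646608933) (nat_lit 456) (nat_lit 32410318116) (nat_lit 532) (nat_lit 9650118188) (nat_lit 255) (nat_lit 5) (nat_lit 261) (nat_lit 5) (nat_lit 262) (nat_lit 5) (nat_lit 508) (nat_lit 477) (nat_lit 215)))) (XT.nd (nat_lit 156) (nat_lit 456) (nat_lit 0) (XT.nd (nat_lit 78) (nat_lit 532) (nat_lit 0) (XT.lf (nat_lit 0) (nat_lit 60483176677) (nat_lit 456) (nat_lit 4946690290)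 (nat_lit 532) (nat_lit 387975578) (nat_lit 255) (nat_lit 5) (nat_lit 261) (nat_lit 5) (nat_lit 262) (nat_lit 5) (nat_lit 509) (nat_lit 477) (nat_lit 214)) (XT.lf (nat_lit 0) (nat_lit 9518757305) (nat_lit 532) (nat_lit 34129269252) (nat_lit 76) (nat_lit 23294938542) (nat_lit 248) (nat_lit 5) (nat_lit 255) (nat_lit 5) (nat_lit 249) (nat_lit 5) (nat_lit 510) (nat_lit 477) (nat_lit 213))) (XT.nd (nat_lit 78) (nat_lit 0) (nat_lit 0) (XT.lf (nat_lit 0) (nat_lit 4142226803) (nat_lit 456) (nat_lit 15715124386) (nat_lit 532) (nat_lit 48240101219) (nat_lit 242) (nat_lit 5) (nat_lit 248) (nat_lit 5) (nat_lit 249) (nat_lit 5) (nat_lit 511) (nat_lit 477) (nat_lit 212)) (XT.lf (nat_lit 0) (nat_lit 30978924649) (nat_lit 532) (nat_lit 25144564520) (nat_lit 76) (nat_lit 13148900540) (nat_lit 242) (nat_lit 5) (nat_lit 249) (nat_lit 5) (nat_lit 243) (nat_lit 5) (nat_lit 512) (nat_lit 477) (nat_lit 211))))))))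
noncomputable def xc232 : XT := (XT.nd (nat_lit 59826) (nat_lit 0) (nat_lit 7296) (XT.nd (nat_lit 1170) (nat_lit 2660) (nat_lit 0) (XT.nd (nat_lit 546) (nat_lit 1900) (nat_lit 0) (XT.nd (nat_lit 234) (nat_lit 912) (nat_lit 0) (XT.nd (nat_lit 78) (nat_lit 380) (nat_lit 0) (XT.lf (nat_lit 0) (nat_lit 14965986274) (nat_lit 456) (nat_lit 27766908580) (nat_lit 532) (nat_lit 27740717814) (nat_lit 236) (nat_lit 5) (nat_lit 242) (nat_lit 5) (nat_lit 243) (nat_lit 5) (nat_lit 513) (nat_lit 477) (nat_lit 210)) (XT.nd (nat_lit 78) (nat_lit 380) (nat_lit 0) (XT.lf (nat_lit 0) (nat_lit 55109057330) (nat_lit 532) (nat_lit 14925207959) (nat_lit 76) (nat_lit 1668519857) (nat_lit 236) (nat_lit 5) (nat_lit 243) (nat_lit 5) (nat_lit 237) (nat_lit 5) (nat_lit 514) (nat_lit 477) (nat_lit 209)) (XT.lf (nat_lit 0) (nat_lit 27128273468) (nat_lit 380) (nat_lit 41263247651) (nat_lit 456) (nat_lit 4561261209) (nat_lit 231) (nat_lit 5) (nat_lit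 236) (nat_lit 5) (nat_lit 237) (nat_lit 5) (nat_lit 515) (nat_lit 477) (nat_lit 208)))) (XT.nd (nat_lit 156) (nat_lit 380) (nat_lit 0) (XT.nd (nat_lit 78) (nat_lit 456) (nat_lit 0) (XT.lf (nat_lit 0) (nat_lit 7830880847) (nat_lit 456) (nat_lit 3564091394) (nat_lit 76) (nat_lit 62838502511) (nat_lit 230) (nat_lit 5) (nat_lit 236) (nat_lit 5) (nat_lit 231) (nat_lit 5) (nat_lit 516) (nat_lit 477) (nat_lit 207)) (XT.lf (nat_lit 0) (nat_lit 21084322304) (nat_lit 532) (nat_lit 35017435246) (nat_lit 76) (nat_lit 19432039234) (nat_lit 224) (nat_lit 5) (nat_lit 231) (nat_lit 5) (nat_lit 225) (nat_lit 5) (nat_lit 517) (nat_lit 477) (nat_lit 206))) (XT.nd (nat_lit 78) (nat_lit 0) (nat_lit 0) (XT.lf (nat_lit 0) (nat_lit 9185454140) (nat_lit 380) (nat_lit 25786733925) (nat_lit 456) (nat_lit 41893835798) (nat_lit 219) (nat_lit 5) (nat_lit 224) (nat_lit 5) (nat_lit 225) (nat_lit 5) (nat_lit 518) (nat_lit 477) (nat_lit 205)) (XT.lf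 (nat_lit 0) (nat_lit 49685434519) (nat_lit 456) (nat_lit 22851985841) (nat_lit 76) (nat_lit 5688535074) (nat_lit 219) (nat_lit 5) (nat_lit 225) (nat_lit 5) (nat_lit 220) (nat_lit 5) (nat_lit 519) (nat_lit 477) (nat_lit 204))))) (XT.nd (nat_lit 312) (nat_lit 684) (nat_lit 0) (XT.nd (nat_lit 156) (nat_lit 760) (nat_lit 0) (XT.nd (nat_lit 78) (nat_lit 76) (nat_lit 0) (XT.lf (nat_lit 0) (nat_lit 23524353550) (nat_lit 380) (nat_lit 41796553308) (nat_lit 456) (nat_lit 14291353260) (nat_lit 214) (nat_lit 5) (nat_lit 219) (nat_lit 5) (nat_lit 220) (nat_lit 5) (nat_lit 520) (nat_lit 477) (nat_lit 203)) (XT.lf (nat_lit 0) (nat_lit 610203864) (nat_lit 456) (nat_lit 9279629815) (nat_lit 76) (nat_lit 71143236187) (nat_lit 213) (nat_lit 5) (nat_lit 219) (nat_lit 5) (nat_lit 214) (nat_lit 5) (nat_lit 521) (nat_lit 477) (nat_lit 202))) (XT.nd (nat_lit 78) (nat_lit 380) (nat_lit 0) (XT.lf (nat_lit 0) (nat_lit 16277276358) (nat_lit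 456) (nat_lit 43144279979) (nat_lit 76) (nat_lit 23052531312) (nat_lit 208) (nat_lit 5) (nat_lit 214) (nat_lit 5) (nat_lit 209) (nat_lit 5) (nat_lit 522) (nat_lit 477) (nat_lit 201)) (XT.lf (nat_lit 0) (nat_lit 5642668845) (nat_lit 380) (nat_lit 27017899077) (nat_lit 456) (nat_lit 51290381853) (nat_lit 203) (nat_lit 5) (nat_lit 208) (nat_lit 5) (nat_lit 209) (nat_lit 5) (nat_lit 523) (nat_lit 477) (nat_lit 200)))) (XT.nd (nat_lit 156) (nat_lit 380) (nat_lit 0) (XT.nd (nat_lit 78) (nat_lit 304) (nat_lit 0) (XT.lf (nat_lit 0) (nat_lit 50035880327) (nat_lit 456) (nat_lit 28747662205) (nat_lit 76) (nat_lit 6673559586) (nat_lit 203) (nat_lit 5) (nat_lit 209) (nat_lit 5) (nat_lit 204) (nat_lit 5) (nat_lit 524) (nat_lit 477) (nat_lit 199)) (XT.lf (nat_lit 0) (nat_lit 22469937744) (nat_lit 304) (nat_lit 45945450144) (nat_lit 380) (nat_lit 18578563088) (nat_lit 199) (nat_lit 5) (nat_lit 203) (nat_lit 5) (nat_lit 204) (nat_lit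 5) (nat_lit 525) (nat_lit 477) (nat_lit 198))) (XT.nd (nat_lit 78) (nat_lit 380) (nat_lit 0) (XT.lf (nat_lit 0) (nat_lit 75812569652) (nat_lit 304) (nat_lit 11823451846) (nat_lit 380) (nat_lit 932191594) (nat_lit 199) (nat_lit 5) (nat_lit 203) (nat_lit 5) (nat_lit 204) (nat_lit 5) (nat_lit 526) (nat_lit 477) (nat_lit 197)) (XT.lf (nat_lit 0) (nat_lit 17532362092) (nat_lit 380) (nat_lit 49199349089) (nat_lit 76) (nat_lit 23434260975) (nat_lit 194) (nat_lit 5) (nat_lit 199) (nat_lit 5) (nat_lit 195) (nat_lit 5) (nat_lit 527) (nat_lit 477) (nat_lit 196)))))) (XT.nd (nat_lit 624) (nat_lit 1140) (nat_lit 0) (XT.nd (nat_lit 312) (nat_lit 836) (nat_lit 0) (XT.nd (nat_lit 156) (nat_lit 380) (nat_lit 0) (XT.nd (nat_lit 78) (nat_lit 0) (nat_lit 0) (XT.lf (nat_lit 0) (nat_lit 4717942511) (nat_lit 304) (nat_lit 32106134355) (nat_lit 380) (nat_lit 54978551434) (nat_lit 190) (nat_lit 5) (nat_lit 194) (nat_lit 5) (nat_lit 195)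 (nat_lit 5) (nat_lit 528) (nat_lit 477) (nat_lit 195)) (XT.lf (nat_lit 0) (nat_lit 57229951104) (nat_lit 380) (nat_lit 32252105440) (nat_lit 76) (nat_lit 3990265358) (nat_lit 190) (nat_lit 5) (nat_lit 195) (nat_lit 5) (nat_lit 191) (nat_lit 5) (nat_lit 529) (nat_lit 477) (nat_lit 194))) (XT.nd (nat_lit 78) (nat_lit 76) (nat_lit 0) (XT.lf (nat_lit 0) (nat_lit 24382590671) (nat_lit 304) (nat_lit 54417157671) (nat_lit 380) (nat_lit 16375805581) (nat_lit 186) (nat_lit 5) (nat_lit 190) (nat_lit 5) (nat_lit 191) (nat_lit 5) (nat_lit 530) (nat_lit 477) (nat_lit 193)) (XT.lf (nat_lit 0) (nat_lit 4335403383) (nat_lit 380) (nat_lit 13585931159) (nat_lit 76) (nat_lit 78997518019) (nat_lit 185) (nat_lit 5) (nat_lit 190) (nat_lit 5) (nat_lit 186) (nat_lit 5) (nat_lit 531) (nat_lit 477) (nat_lit 192)))) (XT.nd (nat_lit 156) (nat_lit 228) (nat_lit 0) (XT.nd (nat_lit 78) (nat_lit 304) (nat_lit 0) (XT.lf (nat_lit 0) (nat_lit 25976260975)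 (nat_lit 380) (nat_lit 52817892889) (nat_lit 76) (nat_lit 19896308713) (nat_lit 181) (nat_lit 5) (nat_lit 186) (nat_lit 5) (nat_lit 182) (nat_lit 5) (nat_lit 532) (nat_lit 477) (nat_lit 191)) (XT.lf (nat_lit 0) (nat_lit 6836061196) (nat_lit 304) (nat_lit 41811490465) (nat_lit 380) (nat_lit 51856233022) (nat_lit 177) (nat_lit 5) (nat_lit 181) (nat_lit 5) (nat_lit 182) (nat_lit 5) (nat_lit 533) (nat_lit 477) (nat_lit 190))) (XT.nd (nat_lit 78) (nat_lit 228) (nat_lit 0) (XT.lf (nat_lit 0) (nat_lit 69361599970) (nat_lit 304) (nat_lit 3170251843) (nat_lit 380) (nat_lit 29823668530) (nat_lit 177) (nat_lit 5) (nat_lit 181) (nat_lit 5) (nat_lit 182) (nat_lit 5) (nat_lit 534) (nat_lit 477) (nat_lit 189)) (XT.lf (nat_lit 0) (nat_lit 29727333186) (nat_lit 228) (nat_lit 68042742526) (nat_lit 304) (nat_lit 6473610530) (nat_lit 174) (nat_lit 5) (nat_lit 177) (nat_lit 5) (nat_lit 178) (nat_lit 5) (nat_lit 535) (nat_lit 477) (nat_lit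 188))))) (XT.nd (nat_lit 312) (nat_lit 532) (nat_lit 0) (XT.nd (nat_lit 156) (nat_lit 228) (nat_lit 0) (XT.nd (nat_lit 78) (nat_lit 304) (nat_lit 0) (XT.lf (nat_lit 0) (nat_lit 17601348363) (nat_lit 304) (nat_lit 11376323342) (nat_lit 76) (nat_lit 77194734949) (nat_lit 173) (nat_lit 5) (nat_lit 177) (nat_lit 5) (nat_lit 174) (nat_lit 5) (nat_lit 536) (nat_lit 477) (nat_lit 187)) (XT.lf (nat_lit 0) (nat_lit 42907472634) (nat_lit 380) (nat_lit 53595682721) (nat_lit 76) (nat_lit 11634739587) (nat_lit 169) (nat_lit 5) (nat_lit 174) (nat_lit 5) (nat_lit 170) (nat_lit 5) (nat_lit 537) (nat_lit 477) (nat_lit 186))) (XT.nd (nat_lit 78) (nat_lit 0) (nat_lit 0) (XT.lf (nat_lit 0) (nat_lit 12467115600) (nat_lit 228) (nat_lit 57027975421) (nat_lit 304) (nat_lit 40651587557) (nat_lit 166) (nat_lit 5) (nat_lit 169) (nat_lit 5) (nat_lit 170) (nat_lit 5) (nat_lit 538) (nat_lit 477) (nat_lit 185)) (XT.lf (nat_lit 0) (nat_lit 81609740433)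 (nat_lit 228) (nat_lit 15811360427) (nat_lit 304) (nat_lit 14778401985) (nat_lit 166) (nat_lit 5) (nat_lit 169) (nat_lit 5) (nat_lit 170) (nat_lit 5) (nat_lit 539) (nat_lit 477) (nat_lit 184)))) (XT.nd (nat_lit 156) (nat_lit 228) (nat_lit 0) (XT.nd (nat_lit 78) (nat_lit 0) (nat_lit 0) (XT.lf (nat_lit 0) (nat_lit 12276295417) (nat_lit 304) (nat_lit 75398048923) (nat_lit 76) (nat_lit 26617035322) (nat_lit 162) (nat_lit 5) (nat_lit 166) (nat_lit 5) (nat_lit 163) (nat_lit 5) (nat_lit 540) (nat_lit 477) (nat_lit 183)) (XT.lf (nat_lit 0) (nat_lit 40313669521) (nat_lit 304) (nat_lit 5655404236) (nat_lit 76) (nat_lit 70458507400) (nat_lit 162) (nat_lit 5) (nat_lit 166) (nat_lit 5) (nat_lit 163) (nat_lit 5) (nat_lit 541) (nat_lit 477) (nat_lit 182))) (XT.nd (nat_lit 57486) (nat_lit 0) (nat_lit 12768) (XT.lf (nat_lit 0) (nat_lit 67495921079) (nat_lit 228) (nat_lit 2344632455) (nat_lit 304) (nat_lit 48767863511) (nat_lit 159)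 (nat_lit 5) (nat_lit 162) (nat_lit 5) (nat_lit 163) (nat_lit 5) (nat_lit 542) (nat_lit 477) (nat_lit 181)) (XT.lf (nat_lit 0) (nat_lit 11511507840) (nat_lit 1292) (nat_lit 4430200687) (nat_lit 1292) (nat_lit 4430200687) (nat_lit 327) (nat_lit 3) (nat_lit 344) (nat_lit 3) (nat_lit 344) (nat_lit 5) (nat_lit 478) (nat_lit 478) (nat_lit 244))))))) (XT.nd (nat_lit 1170) (nat_lit 4636) (nat_lit 0) (XT.nd (nat_lit 546) (nat_lit 836) (nat_lit 0) (XT.nd (nat_lit 234) (nat_lit 0) (nat_lit 152) (XT.nd (nat_lit 78) (nat_lit 0) (nat_lit 76) (XT.lf (nat_lit 76) (nat_lit 11657103602) (nat_lit 0) (nat_lit 11862612542) (nat_lit 1292) (nat_lit 17830717091) (nat_lit 328) (nat_lit 5) (nat_lit 327) (nat_lit 3) (nat_lit 344) (nat_lit 5) (nat_lit 479) (nat_lit 478) (nat_lit 243)) (XT.nd (nat_lit 78) (nat_lit 0) (nat_lit 0) (XT.lf (nat_lit 0) (nat_lit 24204336829) (nat_lit 1216) (nat_lit 9086739040) (nat_lit 1292) (nat_lit 8678980111)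 (nat_lit 328) (nat_lit 5) (nat_lit 344) (nat_lit 5) (nat_lit 345) (nat_lit 5) (nat_lit 480) (nat_lit 478) (nat_lit 242)) (XT.lf (nat_lit 76) (nat_lit 12258980509) (nat_lit 0) (nat_lit 12884318306) (nat_lit 1292) (nat_lit 17457954580) (nat_lit 329) (nat_lit 5) (nat_lit 328) (nat_lit 5) (nat_lit 345) (nat_lit 5) (nat_lit 481) (nat_lit 478) (nat_lit 241)))) (XT.nd (nat_lit 156) (nat_lit 0) (nat_lit 76) (XT.nd (nat_lit 78) (nat_lit 0) (nat_lit 0) (XT.lf (nat_lit 0) (nat_lit 26279843307) (nat_lit 1216) (nat_lit 8897272328) (nat_lit 1292) (nat_lit 8069188756) (nat_lit 329) (nat_lit 5) (nat_lit 345) (nat_lit 5) (nat_lit 346) (nat_lit 5) (nat_lit 482) (nat_lit 478) (nat_lit 240)) (XT.lf (nat_lit 76) (nat_lit 13322633223) (nat_lit 0) (nat_lit 14382077645) (nat_lit 1292) (nat_lit 16198369311) (nat_lit 330) (nat_lit 5) (nat_lit 329) (nat_lit 5) (nat_lit 346) (nat_lit 5) (nat_lit 483) (nat_lit 478) (nat_lit 239))) (XT.nd (nat_lit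 78) (nat_lit 0) (nat_lit 0) (XT.lf (nat_lit 0) (nat_lit 29329333051) (nat_lit 1216) (nat_lit 8254762388) (nat_lit 1292) (nat_lit 6990753605) (nat_lit 330) (nat_lit 5) (nat_lit 346) (nat_lit 5) (nat_lit 347) (nat_lit 5) (nat_lit 484) (nat_lit 478) (nat_lit 238)) (XT.lf (nat_lit 76) (nat_lit 14887951218) (nat_lit 0) (nat_lit 16398923331) (nat_lit 1292) (nat_lit 13971371070) (nat_lit 331) (nat_lit 5) (nat_lit 330) (nat_lit 5) (nat_lit 347) (nat_lit 5) (nat_lit 485) (nat_lit 478) (nat_lit 237))))) (XT.nd (nat_lit 312) (nat_lit 1140) (nat_lit 0) (XT.nd (nat_lit 156) (nat_lit 0) (nat_lit 76) (XT.nd (nat_lit 78) (nat_lit 0) (nat_lit 0) (XT.lf (nat_lit 0) (nat_lit 33438148712) (nat_lit 1216) (nat_lit 7119322675) (nat_lit 1292) (nat_lit 5400622570) (nat_lit 331) (nat_lit 5) (nat_lit 347) (nat_lit 5) (nat_lit 348) (nat_lit 5) (nat_lit 486) (nat_lit 478) (nat_lit 236)) (XT.lf (nat_lit 76) (nat_lit 16997626622) (nat_lit 0)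 (nat_lit 18980835808) (nat_lit 1292) (nat_lit 10690740331) (nat_lit 332) (nat_lit 5) (nat_lit 331) (nat_lit 5) (nat_lit 348) (nat_lit 5) (nat_lit 487) (nat_lit 478) (nat_lit 235))) (XT.nd (nat_lit 78) (nat_lit 0) (nat_lit 0) (XT.lf (nat_lit 0) (nat_lit 38697539173) (nat_lit 1216) (nat_lit 5448253781) (nat_lit 1292) (nat_lit 3252775326) (nat_lit 332) (nat_lit 5) (nat_lit 348) (nat_lit 5) (nat_lit 349) (nat_lit 5) (nat_lit 488) (nat_lit 478) (nat_lit 234)) (XT.lf (nat_lit 76) (nat_lit 19697328527) (nat_lit 0) (nat_lit 22176943146) (nat_lit 1292) (nat_lit 6264260640) (nat_lit 333) (nat_lit 5) (nat_lit 332) (nat_lit 5) (nat_lit 349) (nat_lit 5) (nat_lit 489) (nat_lit 478) (nat_lit 233)))) (XT.nd (nat_lit 156) (nat_lit 1292) (nat_lit 0) (XT.nd (nat_lit 78) (nat_lit 0) (nat_lit 0) (XT.lf (nat_lit 0) (nat_lit 45205043286) (nat_lit 1216) (nat_lit 3195867973) (nat_lit 1292) (nat_lit 498021946) (nat_lit 333) (nat_lit 5) (nat_lit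 349) (nat_lit 5) (nat_lit 350) (nat_lit 5) (nat_lit 490) (nat_lit 478) (nat_lit 232)) (XT.lf (nat_lit 76) (nat_lit 23035888114) (nat_lit 0) (nat_lit 26039733158) (nat_lit 1292) (nat_lit 593328407) (nat_lit 334) (nat_lit 5) (nat_lit 333) (nat_lit 5) (nat_lit 350) (nat_lit 5) (nat_lit 491) (nat_lit 478) (nat_lit 231))) (XT.nd (nat_lit 78) (nat_lit 0) (nat_lit 76) (XT.lf (nat_lit 0) (nat_lit 2580989178) (nat_lit 1292) (nat_lit 367196976) (nat_lit 1368) (nat_lit 47512186302) (nat_lit 316) (nat_lit 5) (nat_lit 333) (nat_lit 5) (nat_lit 334) (nat_lit 5) (nat_lit 492) (nat_lit 478) (nat_lit 230)) (XT.lf (nat_lit 0) (nat_lit 6302038378) (nat_lit 1292) (nat_lit 24259601916) (nat_lit 1368) (nat_lit 20699818610) (nat_lit 317) (nat_lit 5) (nat_lit 334) (nat_lit 5) (nat_lit 335) (nat_lit 5) (nat_lit 493) (nat_lit 478) (nat_lit 229)))))) (XT.nd (nat_lit 624) (nat_lit 2736) (nat_lit 0) (XT.nd (nat_lit 312) (nat_lit 1216) (nat_lit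 0) (XT.nd (nat_lit 156) (nat_lit 760) (nat_lit 0) (XT.nd (nat_lit 78) (nat_lit 0) (nat_lit 76) (XT.lf (nat_lit 76) (nat_lit 3144280654) (nat_lit 0) (nat_lit 7052543230) (nat_lit 1368) (nat_lit 41887890963) (nat_lit 318) (nat_lit 5) (nat_lit 317) (nat_lit 5) (nat_lit 335) (nat_lit 5) (nat_lit 494) (nat_lit 478) (nat_lit 228)) (XT.lf (nat_lit 0) (nat_lit 14619791927) (nat_lit 1292) (nat_lit 21226052605) (nat_lit 76) (nat_lit 17074483810) (nat_lit 318) (nat_lit 5) (nat_lit 335) (nat_lit 5) (nat_lit 319) (nat_lit 5) (nat_lit 495) (nat_lit 478) (nat_lit 227))) (XT.nd (nat_lit 78) (nat_lit 0) (nat_lit 0) (XT.lf (nat_lit 0) (nat_lit 7393314474) (nat_lit 836) (nat_lit 11922029880) (nat_lit 912) (nat_lit 34461469072) (nat_lit 307) (nat_lit 5) (nat_lit 318) (nat_lit 5) (nat_lit 319) (nat_lit 5) (nat_lit 496) (nat_lit 478) (nat_lit 226)) (XT.lf (nat_lit 0) (nat_lit 24489515438) (nat_lit 912) (nat_lit 17471487463) (nat_lit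 76) (nat_lit 12687857639) (nat_lit 307) (nat_lit 5) (nat_lit 319) (nat_lit 5) (nat_lit 308) (nat_lit 5) (nat_lit 497) (nat_lit 478) (nat_lit 225)))) (XT.nd (nat_lit 156) (nat_lit 608) (nat_lit 0) (XT.nd (nat_lit 78) (nat_lit 0) (nat_lit 0) (XT.lf (nat_lit 0) (nat_lit 12431544522) (nat_lit 608) (nat_lit 17623955935) (nat_lit 684) (nat_lit 25484470987) (nat_lit 299) (nat_lit 5) (nat_lit 307) (nat_lit 5) (nat_lit 308) (nat_lit 5) (nat_lit 498) (nat_lit 478) (nat_lit 224)) (XT.lf (nat_lit 0) (nat_lit 36037257323) (nat_lit 684) (nat_lit 12936906444) (nat_lit 76) (nat_lit 7476188179) (nat_lit 299) (nat_lit 5) (nat_lit 308) (nat_lit 5) (nat_lit 300) (nat_lit 5) (nat_lit 499) (nat_lit 478) (nat_lit 223))) (XT.nd (nat_lit 78) (nat_lit 0) (nat_lit 0) (XT.lf (nat_lit 0) (nat_lit 18321913888) (nat_lit 608) (nat_lit 24226265283) (nat_lit 684) (nat_lit 14829373362) (nat_lit 291) (nat_lit 5) (nat_lit 299) (nat_lit 5) (nat_lit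 300) (nat_lit 5) (nat_lit 500) (nat_lit 478) (nat_lit 222)) (XT.lf (nat_lit 0) (nat_lit 49397624867) (nat_lit 684) (nat_lit 7559297587) (nat_lit 76) (nat_lit 1371350834) (nat_lit 291) (nat_lit 5) (nat_lit 300) (nat_lit 5) (nat_lit 292) (nat_lit 5) (nat_lit 501) (nat_lit 478) (nat_lit 221))))) (XT.nd (nat_lit 312) (nat_lit 988) (nat_lit 0) (XT.nd (nat_lit 156) (nat_lit 1140) (nat_lit 0) (XT.nd (nat_lit 78) (nat_lit 76) (nat_lit 0) (XT.lf (nat_lit 0) (nat_lit 25131608131) (nat_lit 532) (nat_lit 31801530352) (nat_lit 608) (nat_lit 2359959683) (nat_lit 284) (nat_lit 5) (nat_lit 291) (nat_lit 5) (nat_lit 292) (nat_lit 5) (nat_lit 502) (nat_lit 478) (nat_lit 220)) (XT.lf (nat_lit 0) (nat_lit 4398075088) (nat_lit 608) (nat_lit 1370383494) (nat_lit 76) (nat_lit 54514850962) (nat_lit 283) (nat_lit 5) (nat_lit 291) (nat_lit 5) (nat_lit 284) (nat_lit 5) (nat_lit 503) (nat_lit 478) (nat_lit 219))) (XT.nd (nat_lit 78) (nat_lit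 532) (nat_lit 0) (XT.lf (nat_lit 0) (nat_lit 11833722121) (nat_lit 684) (nat_lit 28474037050) (nat_lit 76) (nat_lit 20979098023) (nat_lit 275) (nat_lit 5) (nat_lit 284) (nat_lit 5) (nat_lit 276) (nat_lit 5) (nat_lit 504) (nat_lit 478) (nat_lit 218)) (XT.lf (nat_lit 0) (nat_lit 5784268429) (nat_lit 532) (nat_lit 13834049680) (nat_lit 608) (nat_lit 42698416812) (nat_lit 268) (nat_lit 5) (nat_lit 275) (nat_lit 5) (nat_lit 276) (nat_lit 5) (nat_lit 505) (nat_lit 478) (nat_lit 217)))) (XT.nd (nat_lit 156) (nat_lit 456) (nat_lit 0) (XT.nd (nat_lit 78) (nat_lit 532) (nat_lit 0) (XT.lf (nat_lit 0) (nat_lit 28055169068) (nat_lit 608) (nat_lit 21847734612) (nat_lit 76) (nat_lit 13462043817) (nat_lit 268) (nat_lit 5) (nat_lit 276) (nat_lit 5) (nat_lit 269) (nat_lit 5) (nat_lit 506) (nat_lit 478) (nat_lit 216)) (XT.lf (nat_lit 0) (nat_lit 14013158275) (nat_lit 532) (nat_lit 23002868021) (nat_lit 608) (nat_lit 27420453162) (nat_lit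 261) (nat_lit 5) (nat_lit 268) (nat_lit 5) (nat_lit 269) (nat_lit 5) (nat_lit 507) (nat_lit 478) (nat_lit 215))) (XT.nd (nat_lit 78) (nat_lit 456) (nat_lit 0) (XT.lf (nat_lit 0) (nat_lit 46512972612) (nat_lit 608) (nat_lit 14184078276) (nat_lit 76) (nat_lit 4835088618) (nat_lit 261) (nat_lit 5) (nat_lit 269) (nat_lit 5) (nat_lit 262) (nat_lit 5) (nat_lit 508) (nat_lit 478) (nat_lit 214)) (XT.lf (nat_lit 0) (nat_lit 23369773704) (nat_lit 456) (nat_lit 33376711860) (nat_lit 532) (nat_lit 9900634073) (nat_lit 255) (nat_lit 5) (nat_lit 261) (nat_lit 5) (nat_lit 262) (nat_lit 5) (nat_lit 509) (nat_lit 478) (nat_lit 213))))))))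
noncomputable def xc233 : XT := (XT.nd (nat_lit 2418) (nat_lit 304) (nat_lit 0) (XT.nd (nat_lit 1170) (nat_lit 2812) (nat_lit 0) (XT.nd (nat_lit 546) (nat_lit 2128) (nat_lit 0) (XT.nd (nat_lit 234) (nat_lit 836) (nat_lit 0) (XT.nd (nat_lit 78) (nat_lit 988) (nat_lit 0) (XT.lf (nat_lit 0) (nat_lit 62340163728) (nat_lit 456) (nat_lit 5089347504) (nat_lit 532) (nat_lit 361762747) (nat_lit 255) (nat_lit 5) (nat_lit 261) (nat_lit 5) (nat_lit 262) (nat_lit 5) (nat_lit 510) (nat_lit 478) (nat_lit 212)) (XT.nd (nat_lit 78) (nat_lit 456) (nat_lit 0) (XT.lf (nat_lit 0) (nat_lit 9840825186) (nat_lit 532) (nat_lit 35109305973) (nat_lit 76) (nat_lit 24000026423) (nat_lit 248) (nat_lit 5) (nat_lit 255) (nat_lit 5) (nat_lit 249) (nat_lit 5) (nat_lit 511) (nat_lit 478) (nat_lit 211)) (XT.lf (nat_lit 0) (nat_lit 4309905146) (nat_lit 456) (nat_lit 16179025781) (nat_lit 532) (nat_lit 49650368000) (nat_lit 242) (nat_lit 5) (nat_lit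 248) (nat_lit 5) (nat_lit 249) (nat_lit 5) (nat_lit 512) (nat_lit 478) (nat_lit 210)))) (XT.nd (nat_lit 156) (nat_lit 380) (nat_lit 0) (XT.nd (nat_lit 78) (nat_lit 456) (nat_lit 0) (XT.lf (nat_lit 0) (nat_lit 31943177632) (nat_lit 532) (nat_lit 25855779132) (nat_lit 76) (nat_lit 13550556840) (nat_lit 242) (nat_lit 5) (nat_lit 249) (nat_lit 5) (nat_lit 243) (nat_lit 5) (nat_lit 513) (nat_lit 478) (nat_lit 209)) (XT.lf (nat_lit 0) (nat_lit 15457665419) (nat_lit 456) (nat_lit 28591495904) (nat_lit 532) (nat_lit 28537630134) (nat_lit 236) (nat_lit 5) (nat_lit 242) (nat_lit 5) (nat_lit 243) (nat_lit 5) (nat_lit 514) (nat_lit 478) (nat_lit 208))) (XT.nd (nat_lit 78) (nat_lit 380) (nat_lit 0) (XT.lf (nat_lit 0) (nat_lit 56795688817) (nat_lit 532) (nat_lit 15330587294) (nat_lit 76) (nat_lit 1726590628) (nat_lit 236) (nat_lit 5) (nat_lit 243) (nat_lit 5) (nat_lit 237) (nat_lit 5) (nat_lit 515) (nat_lit 478) (nat_lit 207))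 (XT.lf (nat_lit 0) (nat_lit 27984083117) (nat_lit 380) (nat_lit 42491975119) (nat_lit 456) (nat_lit 4664322684) (nat_lit 231) (nat_lit 5) (nat_lit 236) (nat_lit 5) (nat_lit 237) (nat_lit 5) (nat_lit 516) (nat_lit 478) (nat_lit 206))))) (XT.nd (nat_lit 312) (nat_lit 1216) (nat_lit 0) (XT.nd (nat_lit 156) (nat_lit 380) (nat_lit 0) (XT.nd (nat_lit 78) (nat_lit 456) (nat_lit 0) (XT.lf (nat_lit 0) (nat_lit 8097959955) (nat_lit 456) (nat_lit 3629633899) (nat_lit 76) (nat_lit 64731919491) (nat_lit 230) (nat_lit 5) (nat_lit 236) (nat_lit 5) (nat_lit 231) (nat_lit 5) (nat_lit 517) (nat_lit 478) (nat_lit 205)) (XT.lf (nat_lit 0) (nat_lit 21748552059) (nat_lit 532) (nat_lit 36026124432) (nat_lit 76) (nat_lit 20024182155) (nat_lit 224) (nat_lit 5) (nat_lit 231) (nat_lit 5) (nat_lit 225) (nat_lit 5) (nat_lit 518) (nat_lit 478) (nat_lit 204))) (XT.nd (nat_lit 78) (nat_lit 0) (nat_lit 0) (XT.lf (nat_lit 0) (nat_lit 9502441500)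 (nat_lit 380) (nat_lit 26550087180) (nat_lit 456) (nat_lit 43118539642) (nat_lit 219) (nat_lit 5) (nat_lit 224) (nat_lit 5) (nat_lit 225) (nat_lit 5) (nat_lit 519) (nat_lit 478) (nat_lit 203)) (XT.lf (nat_lit 0) (nat_lit 51206360166) (nat_lit 456) (nat_lit 23496514858) (nat_lit 76) (nat_lit 5868947216) (nat_lit 219) (nat_lit 5) (nat_lit 225) (nat_lit 5) (nat_lit 220) (nat_lit 5) (nat_lit 520) (nat_lit 478) (nat_lit 202)))) (XT.nd (nat_lit 156) (nat_lit 760) (nat_lit 0) (XT.nd (nat_lit 78) (nat_lit 76) (nat_lit 0) (XT.lf (nat_lit 0) (nat_lit 24270712454) (nat_lit 380) (nat_lit 43039690418) (nat_lit 456) (nat_lit 14689328035) (nat_lit 214) (nat_lit 5) (nat_lit 219) (nat_lit 5) (nat_lit 220) (nat_lit 5) (nat_lit 521) (nat_lit 478) (nat_lit 201)) (XT.lf (nat_lit 0) (nat_lit 657796845) (nat_lit 456) (nat_lit 9517989998) (nat_lit 76) (nat_lit 73287395618) (nat_lit 213) (nat_lit 5) (nat_lit 219) (nat_lit 5) (nat_lit 214)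 (nat_lit 5) (nat_lit 522) (nat_lit 478) (nat_lit 200))) (XT.nd (nat_lit 78) (nat_lit 380) (nat_lit 0) (XT.lf (nat_lit 0) (nat_lit 16794513527) (nat_lit 456) (nat_lit 44398210812) (nat_lit 76) (nat_lit 23754717503) (nat_lit 208) (nat_lit 5) (nat_lit 214) (nat_lit 5) (nat_lit 209) (nat_lit 5) (nat_lit 523) (nat_lit 478) (nat_lit 199)) (XT.lf (nat_lit 0) (nat_lit 5851950421) (nat_lit 380) (nat_lit 27816895639) (nat_lit 456) (nat_lit 52799777531) (nat_lit 203) (nat_lit 5) (nat_lit 208) (nat_lit 5) (nat_lit 209) (nat_lit 5) (nat_lit 524) (nat_lit 478) (nat_lit 198)))))) (XT.nd (nat_lit 624) (nat_lit 1444) (nat_lit 0) (XT.nd (nat_lit 312) (nat_lit 684) (nat_lit 0) (XT.nd (nat_lit 156) (nat_lit 380) (nat_lit 0) (XT.nd (nat_lit 78) (nat_lit 304) (nat_lit 0) (XT.lf (nat_lit 0) (nat_lit 51564696576) (nat_lit 456) (nat_lit 29570533572) (nat_lit 76) (nat_lit 6884752020) (nat_lit 203) (nat_lit 5) (nat_lit 209) (nat_lit 5) (nat_lit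 204) (nat_lit 5) (nat_lit 525) (nat_lit 478) (nat_lit 197)) (XT.lf (nat_lit 0) (nat_lit 23183206548) (nat_lit 304) (nat_lit 47311951392) (nat_lit 380) (nat_lit 19107791518) (nat_lit 199) (nat_lit 5) (nat_lit 203) (nat_lit 5) (nat_lit 204) (nat_lit 5) (nat_lit 526) (nat_lit 478) (nat_lit 196))) (XT.nd (nat_lit 78) (nat_lit 380) (nat_lit 0) (XT.lf (nat_lit 0) (nat_lit 78124976519) (nat_lit 304) (nat_lit 12166638647) (nat_lit 380) (nat_lit 932848155) (nat_lit 199) (nat_lit 5) (nat_lit 203) (nat_lit 5) (nat_lit 204) (nat_lit 5) (nat_lit 527) (nat_lit 478) (nat_lit 195)) (XT.lf (nat_lit 0) (nat_lit 18084810050) (nat_lit 380) (nat_lit 50636466214) (nat_lit 76) (nat_lit 24148880016) (nat_lit 194) (nat_lit 5) (nat_lit 199) (nat_lit 5) (nat_lit 195) (nat_lit 5) (nat_lit 528) (nat_lit 478) (nat_lit 194)))) (XT.nd (nat_lit 156) (nat_lit 380) (nat_lit 0) (XT.nd (nat_lit 78) (nat_lit 0) (nat_lit 0) (XT.lf (nat_lit 0) (nat_lit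 4897963121) (nat_lit 304) (nat_lit 33056911884) (nat_lit 380) (nat_lit 56601049162) (nat_lit 190) (nat_lit 5) (nat_lit 194) (nat_lit 5) (nat_lit 195) (nat_lit 5) (nat_lit 529) (nat_lit 478) (nat_lit 193)) (XT.lf (nat_lit 0) (nat_lit 58972281766) (nat_lit 380) (nat_lit 33181662722) (nat_lit 76) (nat_lit 4121783422) (nat_lit 190) (nat_lit 5) (nat_lit 195) (nat_lit 5) (nat_lit 191) (nat_lit 5) (nat_lit 530) (nat_lit 478) (nat_lit 192))) (XT.nd (nat_lit 78) (nat_lit 76) (nat_lit 0) (XT.lf (nat_lit 0) (nat_lit 25151701666) (nat_lit 304) (nat_lit 56037092267) (nat_lit 380) (nat_lit 16841274347) (nat_lit 186) (nat_lit 5) (nat_lit 190) (nat_lit 5) (nat_lit 191) (nat_lit 5) (nat_lit 531) (nat_lit 478) (nat_lit 191)) (XT.lf (nat_lit 0) (nat_lit 4490030383) (nat_lit 380) (nat_lit 13956482416) (nat_lit 76) (nat_lit 81379167764) (nat_lit 185) (nat_lit 5) (nat_lit 190) (nat_lit 5) (nat_lit 186) (nat_lit 5) (nat_lit 532) (nat_lit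 478) (nat_lit 190))))) (XT.nd (nat_lit 312) (nat_lit 608) (nat_lit 0) (XT.nd (nat_lit 156) (nat_lit 228) (nat_lit 0) (XT.nd (nat_lit 78) (nat_lit 304) (nat_lit 0) (XT.lf (nat_lit 0) (nat_lit 26779870444) (nat_lit 380) (nat_lit 54365159130) (nat_lit 76) (nat_lit 20505416621) (nat_lit 181) (nat_lit 5) (nat_lit 186) (nat_lit 5) (nat_lit 182) (nat_lit 5) (nat_lit 533) (nat_lit 478) (nat_lit 189)) (XT.lf (nat_lit 0) (nat_lit 7078048180) (nat_lit 304) (nat_lit 43052898028) (nat_lit 380) (nat_lit 53387232383) (nat_lit 177) (nat_lit 5) (nat_lit 181) (nat_lit 5) (nat_lit 182) (nat_lit 5) (nat_lit 534) (nat_lit 478) (nat_lit 188))) (XT.nd (nat_lit 78) (nat_lit 228) (nat_lit 0) (XT.lf (nat_lit 0) (nat_lit 71478278210) (nat_lit 304) (nat_lit 3252799058) (nat_lit 380) (nat_lit 30694410013) (nat_lit 177) (nat_lit 5) (nat_lit 181) (nat_lit 5) (nat_lit 182) (nat_lit 5) (nat_lit 535) (nat_lit 478) (nat_lit 187)) (XT.lf (nat_lit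 0) (nat_lit 30655204413) (nat_lit 228) (nat_lit 70071029474) (nat_lit 304) (nat_lit 6644070707) (nat_lit 174) (nat_lit 5) (nat_lit 177) (nat_lit 5) (nat_lit 178) (nat_lit 5) (nat_lit 536) (nat_lit 478) (nat_lit 186)))) (XT.nd (nat_lit 156) (nat_lit 228) (nat_lit 0) (XT.nd (nat_lit 78) (nat_lit 304) (nat_lit 0) (XT.lf (nat_lit 0) (nat_lit 18151995345) (nat_lit 304) (nat_lit 11682161406) (nat_lit 76) (nat_lit 79522743381) (nat_lit 173) (nat_lit 5) (nat_lit 177) (nat_lit 5) (nat_lit 174) (nat_lit 5) (nat_lit 537) (nat_lit 478) (nat_lit 185)) (XT.lf (nat_lit 0) (nat_lit 44217105563) (nat_lit 380) (nat_lit 55167903274) (nat_lit 76) (nat_lit 11996350180) (nat_lit 169) (nat_lit 5) (nat_lit 174) (nat_lit 5) (nat_lit 170) (nat_lit 5) (nat_lit 538) (nat_lit 478) (nat_lit 184))) (XT.nd (nat_lit 78) (nat_lit 0) (nat_lit 0) (XT.lf (nat_lit 0) (nat_lit 12876429488) (nat_lit 228) (nat_lit 58725609661) (nat_lit 304) (nat_lit 41848376428)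 (nat_lit 166) (nat_lit 5) (nat_lit 169) (nat_lit 5) (nat_lit 170) (nat_lit 5) (nat_lit 539) (nat_lit 478) (nat_lit 183)) (XT.lf (nat_lit 0) (nat_lit 84092304898) (nat_lit 228) (nat_lit 16272880830) (nat_lit 304) (nat_lit 15199658166) (nat_lit 166) (nat_lit 5) (nat_lit 169) (nat_lit 5) (nat_lit 170) (nat_lit 5) (nat_lit 540) (nat_lit 478) (nat_lit 182))))))) (XT.nd (nat_lit 58734) (nat_lit 0) (nat_lit 7524) (XT.nd (nat_lit 58110) (nat_lit 0) (nat_lit 12768) (XT.nd (nat_lit 57798) (nat_lit 0) (nat_lit 12616) (XT.nd (nat_lit 57642) (nat_lit 0) (nat_lit 12540) (XT.nd (nat_lit 78) (nat_lit 0) (nat_lit 0) (XT.lf (nat_lit 0) (nat_lit 12666073262) (nat_lit 304) (nat_lit 77625110322) (nat_lit 76) (nat_lit 27428292345) (nat_lit 162) (nat_lit 5) (nat_lit 166) (nat_lit 5) (nat_lit 163) (nat_lit 5) (nat_lit 541) (nat_lit 478) (nat_lit 181)) (XT.lf (nat_lit 0) (nat_lit 41543942697) (nat_lit 304) (nat_lit 5791202218) (nat_lit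 76) (nat_lit 72584637344) (nat_lit 162) (nat_lit 5) (nat_lit 166) (nat_lit 5) (nat_lit 163) (nat_lit 5) (nat_lit 542) (nat_lit 478) (nat_lit 180))) (XT.nd (nat_lit 78) (nat_lit 0) (nat_lit 0) (XT.lf (nat_lit 0) (nat_lit 11895775317) (nat_lit 1292) (nat_lit 4543060855) (nat_lit 1292) (nat_lit 4543060855) (nat_lit 327) (nat_lit 3) (nat_lit 344) (nat_lit 3) (nat_lit 344) (nat_lit 5) (nat_lit 479) (nat_lit 479) (nat_lit 242)) (XT.lf (nat_lit 76) (nat_lit 12046515360) (nat_lit 0) (nat_lit 12254751046) (nat_lit 1292) (nat_lit 18287397577) (nat_lit 328) (nat_lit 5) (nat_lit 327) (nat_lit 3) (nat_lit 344) (nat_lit 5) (nat_lit 480) (nat_lit 479) (nat_lit 241)))) (XT.nd (nat_lit 156) (nat_lit 0) (nat_lit 76) (XT.nd (nat_lit 78) (nat_lit 0) (nat_lit 0) (XT.lf (nat_lit 0) (nat_lit 25003874917) (nat_lit 1216) (nat_lit 9318244653) (nat_lit 1292) (nat_lit 8904832465) (nat_lit 328) (nat_lit 5) (nat_lit 344) (nat_lit 5) (nat_lit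 345) (nat_lit 5) (nat_lit 481) (nat_lit 479) (nat_lit 240)) (XT.lf (nat_lit 76) (nat_lit 12667443576) (nat_lit 0) (nat_lit 13301815262) (nat_lit 1292) (nat_lit 17907879040) (nat_lit 329) (nat_lit 5) (nat_lit 328) (nat_lit 5) (nat_lit 345) (nat_lit 5) (nat_lit 482) (nat_lit 479) (nat_lit 239))) (XT.nd (nat_lit 78) (nat_lit 0) (nat_lit 0) (XT.lf (nat_lit 0) (nat_lit 27137523441) (nat_lit 1216) (nat_lit 9122302684) (nat_lit 1292) (nat_lit 8281785660) (nat_lit 329) (nat_lit 5) (nat_lit 345) (nat_lit 5) (nat_lit 346) (nat_lit 5) (nat_lit 483) (nat_lit 479) (nat_lit 238)) (XT.lf (nat_lit 76) (nat_lit 13763789369) (nat_lit 0) (nat_lit 14839728359) (nat_lit 1292) (nat_lit 16614621791) (nat_lit 330) (nat_lit 5) (nat_lit 329) (nat_lit 5) (nat_lit 346) (nat_lit 5) (nat_lit 484) (nat_lit 479) (nat_lit 237))))) (XT.nd (nat_lit 312) (nat_lit 0) (nat_lit 152) (XT.nd (nat_lit 156) (nat_lit 0) (nat_lit 76) (XT.nd (nat_lit 78) (nat_lit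 0) (nat_lit 0) (XT.lf (nat_lit 0) (nat_lit 30274663330) (nat_lit 1216) (nat_lit 8459917927) (nat_lit 1292) (nat_lit 7175546742) (nat_lit 330) (nat_lit 5) (nat_lit 346) (nat_lit 5) (nat_lit 347) (nat_lit 5) (nat_lit 485) (nat_lit 479) (nat_lit 236)) (XT.lf (nat_lit 76) (nat_lit 15376660545) (nat_lit 0) (nat_lit 16912768618) (nat_lit 1292) (nat_lit 14324642452) (nat_lit 331) (nat_lit 5) (nat_lit 330) (nat_lit 5) (nat_lit 347) (nat_lit 5) (nat_lit 486) (nat_lit 479) (nat_lit 235))) (XT.nd (nat_lit 78) (nat_lit 0) (nat_lit 0) (XT.lf (nat_lit 0) (nat_lit 34503174802) (nat_lit 1216) (nat_lit 7289987341) (nat_lit 1292) (nat_lit 5541815347) (nat_lit 331) (nat_lit 5) (nat_lit 347) (nat_lit 5) (nat_lit 348) (nat_lit 5) (nat_lit 487) (nat_lit 479) (nat_lit 234)) (XT.lf (nat_lit 76) (nat_lit 17550049699) (nat_lit 0) (nat_lit 19568254336) (nat_lit 1292) (nat_lit 10949157424) (nat_lit 332) (nat_lit 5) (nat_lit 331) (nat_lit 5)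 (nat_lit 348) (nat_lit 5) (nat_lit 488) (nat_lit 479) (nat_lit 233)))) (XT.nd (nat_lit 156) (nat_lit 0) (nat_lit 76) (XT.nd (nat_lit 78) (nat_lit 0) (nat_lit 0) (XT.lf (nat_lit 0) (nat_lit 39917023375) (nat_lit 1216) (nat_lit 5568512435) (nat_lit 1292) (nat_lit 3333230103) (nat_lit 332) (nat_lit 5) (nat_lit 348) (nat_lit 5) (nat_lit 349) (nat_lit 5) (nat_lit 489) (nat_lit 479) (nat_lit 232)) (XT.lf (nat_lit 76) (nat_lit 20331013920) (nat_lit 0) (nat_lit 22856749445) (nat_lit 1292) (nat_lit 6393204415) (nat_lit 333) (nat_lit 5) (nat_lit 332) (nat_lit 5) (nat_lit 349) (nat_lit 5) (nat_lit 490) (nat_lit 479) (nat_lit 231))) (XT.nd (nat_lit 78) (nat_lit 0) (nat_lit 0) (XT.lf (nat_lit 0) (nat_lit 46616654952) (nat_lit 1216) (nat_lit 3248418378) (nat_lit 1292) (nat_lit 499161541) (nat_lit 333) (nat_lit 5) (nat_lit 349) (nat_lit 5) (nat_lit 350) (nat_lit 5) (nat_lit 491) (nat_lit 479) (nat_lit 230)) (XT.lf (nat_lit 76)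 (nat_lit 23769865630) (nat_lit 0) (nat_lit 26832281687) (nat_lit 1292) (nat_lit 555240684) (nat_lit 334) (nat_lit 5) (nat_lit 333) (nat_lit 5) (nat_lit 350) (nat_lit 5) (nat_lit 492) (nat_lit 479) (nat_lit 229)))))) (XT.nd (nat_lit 624) (nat_lit 2888) (nat_lit 0) (XT.nd (nat_lit 312) (nat_lit 1292) (nat_lit 0) (XT.nd (nat_lit 156) (nat_lit 0) (nat_lit 76) (XT.nd (nat_lit 78) (nat_lit 0) (nat_lit 76) (XT.lf (nat_lit 0) (nat_lit 2711619830) (nat_lit 1292) (nat_lit 335500443) (nat_lit 1368) (nat_lit 48925465021) (nat_lit 316) (nat_lit 5) (nat_lit 333) (nat_lit 5) (nat_lit 334) (nat_lit 5) (nat_lit 493) (nat_lit 479) (nat_lit 228)) (XT.lf (nat_lit 0) (nat_lit 6543063657) (nat_lit 1292) (nat_lit 24943438441) (nat_lit 1368) (nat_lit 21311239411) (nat_lit 317) (nat_lit 5) (nat_lit 334) (nat_lit 5) (nat_lit 335) (nat_lit 5) (nat_lit 494) (nat_lit 479) (nat_lit 227))) (XT.nd (nat_lit 78) (nat_lit 0) (nat_lit 76) (XT.lf (nat_lit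 76) (nat_lit 3282129708) (nat_lit 0) (nat_lit 7271467848) (nat_lit 1368) (nat_lit 43092130494) (nat_lit 318) (nat_lit 5) (nat_lit 317) (nat_lit 5) (nat_lit 335) (nat_lit 5) (nat_lit 495) (nat_lit 479) (nat_lit 226)) (XT.lf (nat_lit 0) (nat_lit 15107704441) (nat_lit 1292) (nat_lit 21819028831) (nat_lit 76) (nat_lit 17579723248) (nat_lit 318) (nat_lit 5) (nat_lit 335) (nat_lit 5) (nat_lit 319) (nat_lit 5) (nat_lit 496) (nat_lit 479) (nat_lit 225)))) (XT.nd (nat_lit 156) (nat_lit 608) (nat_lit 0) (XT.nd (nat_lit 78) (nat_lit 0) (nat_lit 0) (XT.lf (nat_lit 0) (nat_lit 7658489797) (nat_lit 836) (nat_lit 12284614131) (nat_lit 912) (nat_lit 35445562874) (nat_lit 307) (nat_lit 5) (nat_lit 318) (nat_lit 5) (nat_lit 319) (nat_lit 5) (nat_lit 497) (nat_lit 479) (nat_lit 224)) (XT.lf (nat_lit 0) (nat_lit 25271047423) (nat_lit 912) (nat_lit 17952064863) (nat_lit 76) (nat_lit 13063806686) (nat_lit 307) (nat_lit 5) (nat_lit 319)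 (nat_lit 5) (nat_lit 308) (nat_lit 5) (nat_lit 498) (nat_lit 479) (nat_lit 223))) (XT.nd (nat_lit 78) (nat_lit 0) (nat_lit 0) (XT.lf (nat_lit 0) (nat_lit 12847630953) (nat_lit 608) (nat_lit 18155431267) (nat_lit 684) (nat_lit 26201729535) (nat_lit 299) (nat_lit 5) (nat_lit 307) (nat_lit 5) (nat_lit 308) (nat_lit 5) (nat_lit 499) (nat_lit 479) (nat_lit 222)) (XT.lf (nat_lit 0) (nat_lit 37162909266) (nat_lit 684) (nat_lit 13281765650) (nat_lit 76) (nat_lit 7697849687) (nat_lit 299) (nat_lit 5) (nat_lit 308) (nat_lit 5) (nat_lit 300) (nat_lit 5) (nat_lit 500) (nat_lit 479) (nat_lit 221))))) (XT.nd (nat_lit 312) (nat_lit 1672) (nat_lit 0) (XT.nd (nat_lit 156) (nat_lit 608) (nat_lit 0) (XT.nd (nat_lit 78) (nat_lit 0) (nat_lit 0) (XT.lf (nat_lit 0) (nat_lit 18914395292) (nat_lit 608) (nat_lit 24953878014) (nat_lit 684) (nat_lit 15229294520) (nat_lit 291) (nat_lit 5) (nat_lit 299) (nat_lit 5) (nat_lit 300) (nat_lit 5)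 (nat_lit 501) (nat_lit 479) (nat_lit 220)) (XT.lf (nat_lit 0) (nat_lit 50921923353) (nat_lit 684) (nat_lit 7743219040) (nat_lit 76) (nat_lit 1411706234) (nat_lit 291) (nat_lit 5) (nat_lit 300) (nat_lit 5) (nat_lit 292) (nat_lit 5) (nat_lit 502) (nat_lit 479) (nat_lit 219))) (XT.nd (nat_lit 78) (nat_lit 76) (nat_lit 0) (XT.lf (nat_lit 0) (nat_lit 25927993678) (nat_lit 532) (nat_lit 32754682562) (nat_lit 608) (nat_lit 2387966846) (nat_lit 284) (nat_lit 5) (nat_lit 291) (nat_lit 5) (nat_lit 292) (nat_lit 5) (nat_lit 503) (nat_lit 479) (nat_lit 218)) (XT.lf (nat_lit 0) (nat_lit 4570751911) (nat_lit 608) (nat_lit 1369481418) (nat_lit 76) (nat_lit 56150351846) (nat_lit 283) (nat_lit 5) (nat_lit 291) (nat_lit 5) (nat_lit 284) (nat_lit 5) (nat_lit 504) (nat_lit 479) (nat_lit 217)))) (XT.nd (nat_lit 156) (nat_lit 532) (nat_lit 0) (XT.nd (nat_lit 78) (nat_lit 532) (nat_lit 0) (XT.lf (nat_lit 0) (nat_lit 12228697708) (nat_lit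 684) (nat_lit 29285472364) (nat_lit 76) (nat_lit 21610092350) (nat_lit 275) (nat_lit 5) (nat_lit 284) (nat_lit 5) (nat_lit 276) (nat_lit 5) (nat_lit 505) (nat_lit 479) (nat_lit 216)) (XT.lf (nat_lit 0) (nat_lit 6000162811) (nat_lit 532) (nat_lit 14245912018) (nat_lit 608) (nat_lit 43938984399) (nat_lit 268) (nat_lit 5) (nat_lit 275) (nat_lit 5) (nat_lit 276) (nat_lit 5) (nat_lit 506) (nat_lit 479) (nat_lit 215))) (XT.nd (nat_lit 78) (nat_lit 532) (nat_lit 0) (XT.lf (nat_lit 0) (nat_lit 28934918844) (nat_lit 608) (nat_lit 22460920338) (nat_lit 76) (nat_lit 13868912418) (nat_lit 268) (nat_lit 5) (nat_lit 276) (nat_lit 5) (nat_lit 269) (nat_lit 5) (nat_lit 507) (nat_lit 479) (nat_lit 214)) (XT.lf (nat_lit 0) (nat_lit 14475385156) (nat_lit 532) (nat_lit 23688509195) (nat_lit 608) (nat_lit 28204556436) (nat_lit 261) (nat_lit 5) (nat_lit 268) (nat_lit 5) (nat_lit 269) (nat_lit 5) (nat_lit 508) (nat_lit 479) (nat_lit 213))))))))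
noncomputable def xc234 : XT := (XT.nd (nat_lit 2418) (nat_lit 532) (nat_lit 0) (XT.nd (nat_lit 1170) (nat_lit 3344) (nat_lit 0) (XT.nd (nat_lit 546) (nat_lit 1748) (nat_lit 0) (XT.nd (nat_lit 234) (nat_lit 1444) (nat_lit 0) (XT.nd (nat_lit 78) (nat_lit 456) (nat_lit 0) (XT.lf (nat_lit 0) (nat_lit 47944701589) (nat_lit 608) (nat_lit 14567938041) (nat_lit 76) (nat_lit 4984372472) (nat_lit 261) (nat_lit 5) (nat_lit 269) (nat_lit 5) (nat_lit 262) (nat_lit 5) (nat_lit 509) (nat_lit 479) (nat_lit 212)) (XT.nd (nat_lit 78) (nat_lit 0) (nat_lit 0) (XT.lf (nat_lit 0) (nat_lit 24112121042) (nat_lit 456) (nat_lit 34372437006) (nat_lit 532) (nat_lit 10160903486) (nat_lit 255) (nat_lit 5) (nat_lit 261) (nat_lit 5) (nat_lit 262) (nat_lit 5) (nat_lit 510) (nat_lit 479) (nat_lit 211)) (XT.lf (nat_lit 0) (nat_lit 64250421190) (nat_lit 456) (nat_lit 5236614134) (nat_lit 532) (nat_lit 336936397) (nat_lit 255) (nat_lit 5) (nat_lit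 261) (nat_lit 5) (nat_lit 262) (nat_lit 5) (nat_lit 511) (nat_lit 479) (nat_lit 210)))) (XT.nd (nat_lit 156) (nat_lit 456) (nat_lit 0) (XT.nd (nat_lit 78) (nat_lit 456) (nat_lit 0) (XT.lf (nat_lit 0) (nat_lit 10170459558) (nat_lit 532) (nat_lit 36121260470) (nat_lit 76) (nat_lit 24725908754) (nat_lit 248) (nat_lit 5) (nat_lit 255) (nat_lit 5) (nat_lit 249) (nat_lit 5) (nat_lit 512) (nat_lit 479) (nat_lit 209)) (XT.lf (nat_lit 0) (nat_lit 4480121840) (nat_lit 456) (nat_lit 16657277754) (nat_lit 532) (nat_lit 51105063076) (nat_lit 242) (nat_lit 5) (nat_lit 248) (nat_lit 5) (nat_lit 249) (nat_lit 5) (nat_lit 513) (nat_lit 479) (nat_lit 208))) (XT.nd (nat_lit 78) (nat_lit 456) (nat_lit 0) (XT.lf (nat_lit 0) (nat_lit 32934355649) (nat_lit 532) (nat_lit 26590805579) (nat_lit 76) (nat_lit 13963850135) (nat_lit 242) (nat_lit 5) (nat_lit 249) (nat_lit 5) (nat_lit 243) (nat_lit 5) (nat_lit 514) (nat_lit 479) (nat_lit 207))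 (XT.lf (nat_lit 0) (nat_lit 15961643809) (nat_lit 456) (nat_lit 29441304186) (nat_lit 532) (nat_lit 29360476716) (nat_lit 236) (nat_lit 5) (nat_lit 242) (nat_lit 5) (nat_lit 243) (nat_lit 5) (nat_lit 515) (nat_lit 479) (nat_lit 206))))) (XT.nd (nat_lit 312) (nat_lit 836) (nat_lit 0) (XT.nd (nat_lit 156) (nat_lit 532) (nat_lit 0) (XT.nd (nat_lit 78) (nat_lit 380) (nat_lit 0) (XT.lf (nat_lit 0) (nat_lit 58531004261) (nat_lit 532) (nat_lit 15750560616) (nat_lit 76) (nat_lit 1785943419) (nat_lit 236) (nat_lit 5) (nat_lit 243) (nat_lit 5) (nat_lit 237) (nat_lit 5) (nat_lit 516) (nat_lit 479) (nat_lit 205)) (XT.lf (nat_lit 0) (nat_lit 28863158296) (nat_lit 380) (nat_lit 43758090804) (nat_lit 456) (nat_lit 4772414905) (nat_lit 231) (nat_lit 5) (nat_lit 236) (nat_lit 5) (nat_lit 237) (nat_lit 5) (nat_lit 517) (nat_lit 479) (nat_lit 204))) (XT.nd (nat_lit 78) (nat_lit 456) (nat_lit 0) (XT.lf (nat_lit 0) (nat_lit 8371205741)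 (nat_lit 456) (nat_lit 3699518074) (nat_lit 76) (nat_lit 66681664714) (nat_lit 230) (nat_lit 5) (nat_lit 236) (nat_lit 5) (nat_lit 231) (nat_lit 5) (nat_lit 518) (nat_lit 479) (nat_lit 203)) (XT.lf (nat_lit 0) (nat_lit 22430888992) (nat_lit 532) (nat_lit 37067475729) (nat_lit 76) (nat_lit 20633562295) (nat_lit 224) (nat_lit 5) (nat_lit 231) (nat_lit 5) (nat_lit 225) (nat_lit 5) (nat_lit 519) (nat_lit 479) (nat_lit 202)))) (XT.nd (nat_lit 156) (nat_lit 456) (nat_lit 0) (XT.nd (nat_lit 78) (nat_lit 0) (nat_lit 0) (XT.lf (nat_lit 0) (nat_lit 9826560588) (nat_lit 380) (nat_lit 27336929354) (nat_lit 456) (nat_lit 44381827917) (nat_lit 219) (nat_lit 5) (nat_lit 224) (nat_lit 5) (nat_lit 225) (nat_lit 5) (nat_lit 520) (nat_lit 479) (nat_lit 201)) (XT.lf (nat_lit 0) (nat_lit 52771170645) (nat_lit 456) (nat_lit 24162735068) (nat_lit 76) (nat_lit 6054211682) (nat_lit 219) (nat_lit 5) (nat_lit 225) (nat_lit 5) (nat_lit 220)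 (nat_lit 5) (nat_lit 521) (nat_lit 479) (nat_lit 200))) (XT.nd (nat_lit 78) (nat_lit 76) (nat_lit 0) (XT.lf (nat_lit 0) (nat_lit 25037129895) (nat_lit 380) (nat_lit 44320739279) (nat_lit 456) (nat_lit 15101008138) (nat_lit 214) (nat_lit 5) (nat_lit 219) (nat_lit 5) (nat_lit 220) (nat_lit 5) (nat_lit 522) (nat_lit 479) (nat_lit 199)) (XT.lf (nat_lit 0) (nat_lit 705136428) (nat_lit 456) (nat_lit 9765798799) (nat_lit 76) (nat_lit 75495313693) (nat_lit 213) (nat_lit 5) (nat_lit 219) (nat_lit 5) (nat_lit 214) (nat_lit 5) (nat_lit 523) (nat_lit 479) (nat_lit 198)))))) (XT.nd (nat_lit 624) (nat_lit 1596) (nat_lit 0) (XT.nd (nat_lit 312) (nat_lit 684) (nat_lit 0) (XT.nd (nat_lit 156) (nat_lit 304) (nat_lit 0) (XT.nd (nat_lit 78) (nat_lit 380) (nat_lit 0) (XT.lf (nat_lit 0) (nat_lit 17325607750) (nat_lit 456) (nat_lit 45692078557) (nat_lit 76) (nat_lit 24477360207) (nat_lit 208) (nat_lit 5) (nat_lit 214) (nat_lit 5) (nat_lit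 209) (nat_lit 5) (nat_lit 524) (nat_lit 479) (nat_lit 197)) (XT.lf (nat_lit 0) (nat_lit 6065214194) (nat_lit 380) (nat_lit 28640524564) (nat_lit 456) (nat_lit 54356137925) (nat_lit 203) (nat_lit 5) (nat_lit 208) (nat_lit 5) (nat_lit 209) (nat_lit 5) (nat_lit 525) (nat_lit 479) (nat_lit 196))) (XT.nd (nat_lit 78) (nat_lit 304) (nat_lit 0) (XT.lf (nat_lit 0) (nat_lit 53137784932) (nat_lit 456) (nat_lit 30420361899) (nat_lit 76) (nat_lit 7101649606) (nat_lit 203) (nat_lit 5) (nat_lit 209) (nat_lit 5) (nat_lit 204) (nat_lit 5) (nat_lit 526) (nat_lit 479) (nat_lit 195)) (XT.lf (nat_lit 0) (nat_lit 23915624859) (nat_lit 304) (nat_lit 48720128619) (nat_lit 380) (nat_lit 19654511490) (nat_lit 199) (nat_lit 5) (nat_lit 203) (nat_lit 5) (nat_lit 204) (nat_lit 5) (nat_lit 527) (nat_lit 479) (nat_lit 194)))) (XT.nd (nat_lit 156) (nat_lit 304) (nat_lit 0) (XT.nd (nat_lit 78) (nat_lit 380) (nat_lit 0) (XT.lf (nat_lit 0) (nat_lit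 80504572528) (nat_lit 304) (nat_lit 12520782162) (nat_lit 380) (nat_lit 935092071) (nat_lit 199) (nat_lit 5) (nat_lit 203) (nat_lit 5) (nat_lit 204) (nat_lit 5) (nat_lit 528) (nat_lit 479) (nat_lit 193)) (XT.lf (nat_lit 0) (nat_lit 18652311553) (nat_lit 380) (nat_lit 52118927767) (nat_lit 76) (nat_lit 24884272245) (nat_lit 194) (nat_lit 5) (nat_lit 199) (nat_lit 5) (nat_lit 195) (nat_lit 5) (nat_lit 529) (nat_lit 479) (nat_lit 192))) (XT.nd (nat_lit 78) (nat_lit 0) (nat_lit 0) (XT.lf (nat_lit 0) (nat_lit 5081175307) (nat_lit 304) (nat_lit 34036924923) (nat_lit 380) (nat_lit 58273763627) (nat_lit 190) (nat_lit 5) (nat_lit 194) (nat_lit 5) (nat_lit 195) (nat_lit 5) (nat_lit 530) (nat_lit 479) (nat_lit 191)) (XT.lf (nat_lit 0) (nat_lit 60765422439) (nat_lit 380) (nat_lit 34141288415) (nat_lit 76) (nat_lit 4256569079) (nat_lit 190) (nat_lit 5) (nat_lit 195) (nat_lit 5) (nat_lit 191) (nat_lit 5) (nat_lit 531) (nat_lit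 479) (nat_lit 190))))) (XT.nd (nat_lit 312) (nat_lit 608) (nat_lit 0) (XT.nd (nat_lit 156) (nat_lit 608) (nat_lit 0) (XT.nd (nat_lit 78) (nat_lit 76) (nat_lit 0) (XT.lf (nat_lit 0) (nat_lit 25941725687) (nat_lit 304) (nat_lit 57706347052) (nat_lit 380) (nat_lit 17322188511) (nat_lit 186) (nat_lit 5) (nat_lit 190) (nat_lit 5) (nat_lit 191) (nat_lit 5) (nat_lit 532) (nat_lit 479) (nat_lit 189)) (XT.lf (nat_lit 0) (nat_lit 4647886067) (nat_lit 380) (nat_lit 14340275694) (nat_lit 76) (nat_lit 83831593984) (nat_lit 185) (nat_lit 5) (nat_lit 190) (nat_lit 5) (nat_lit 186) (nat_lit 5) (nat_lit 533) (nat_lit 479) (nat_lit 188))) (XT.nd (nat_lit 78) (nat_lit 304) (nat_lit 0) (XT.lf (nat_lit 0) (nat_lit 27606192036) (nat_lit 380) (nat_lit 55960982839) (nat_lit 76) (nat_lit 21132096366) (nat_lit 181) (nat_lit 5) (nat_lit 186) (nat_lit 5) (nat_lit 182) (nat_lit 5) (nat_lit 534) (nat_lit 479) (nat_lit 187)) (XT.lf (nat_lit 0)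 (nat_lit 7325176267) (nat_lit 304) (nat_lit 44332290464) (nat_lit 380) (nat_lit 54965578896) (nat_lit 177) (nat_lit 5) (nat_lit 181) (nat_lit 5) (nat_lit 182) (nat_lit 5) (nat_lit 535) (nat_lit 479) (nat_lit 186)))) (XT.nd (nat_lit 156) (nat_lit 380) (nat_lit 0) (XT.nd (nat_lit 78) (nat_lit 228) (nat_lit 0) (XT.lf (nat_lit 0) (nat_lit 73656399995) (nat_lit 304) (nat_lit 3338543704) (nat_lit 380) (nat_lit 31592649635) (nat_lit 177) (nat_lit 5) (nat_lit 181) (nat_lit 5) (nat_lit 182) (nat_lit 5) (nat_lit 536) (nat_lit 479) (nat_lit 185)) (XT.lf (nat_lit 0) (nat_lit 31608842290) (nat_lit 228) (nat_lit 72160911014) (nat_lit 304) (nat_lit 6821007929) (nat_lit 174) (nat_lit 5) (nat_lit 177) (nat_lit 5) (nat_lit 178) (nat_lit 5) (nat_lit 537) (nat_lit 479) (nat_lit 184))) (XT.nd (nat_lit 78) (nat_lit 304) (nat_lit 0) (XT.lf (nat_lit 0) (nat_lit 18717864030) (nat_lit 304) (nat_lit 11999209680) (nat_lit 76) (nat_lit 81919893665)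 (nat_lit 173) (nat_lit 5) (nat_lit 177) (nat_lit 5) (nat_lit 174) (nat_lit 5) (nat_lit 538) (nat_lit 479) (nat_lit 183)) (XT.lf (nat_lit 0) (nat_lit 45564741127) (nat_lit 380) (nat_lit 56789336896) (nat_lit 76) (nat_lit 12368087612) (nat_lit 169) (nat_lit 5) (nat_lit 174) (nat_lit 5) (nat_lit 170) (nat_lit 5) (nat_lit 539) (nat_lit 479) (nat_lit 182))))))) (XT.nd (nat_lit 58812) (nat_lit 0) (nat_lit 8056) (XT.nd (nat_lit 58188) (nat_lit 0) (nat_lit 12692) (XT.nd (nat_lit 57876) (nat_lit 0) (nat_lit 12540) (XT.nd (nat_lit 156) (nat_lit 304) (nat_lit 0) (XT.nd (nat_lit 78) (nat_lit 0) (nat_lit 0) (XT.lf (nat_lit 0) (nat_lit 13295996403) (nat_lit 228) (nat_lit 60474930952) (nat_lit 304) (nat_lit 43082375412) (nat_lit 166) (nat_lit 5) (nat_lit 169) (nat_lit 5) (nat_lit 170) (nat_lit 5) (nat_lit 540) (nat_lit 479) (nat_lit 181)) (XT.lf (nat_lit 0) (nat_lit 86647378930) (nat_lit 228) (nat_lit 16748982789) (nat_lit 304)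 (nat_lit 15634820426) (nat_lit 166) (nat_lit 5) (nat_lit 169) (nat_lit 5) (nat_lit 170) (nat_lit 5) (nat_lit 541) (nat_lit 479) (nat_lit 180))) (XT.nd (nat_lit 57642) (nat_lit 0) (nat_lit 12540) (XT.lf (nat_lit 0) (nat_lit 13066310887) (nat_lit 304) (nat_lit 79920985821) (nat_lit 76) (nat_lit 28263155408) (nat_lit 162) (nat_lit 5) (nat_lit 166) (nat_lit 5) (nat_lit 163) (nat_lit 5) (nat_lit 542) (nat_lit 479) (nat_lit 179)) (XT.lf (nat_lit 0) (nat_lit 12289336523) (nat_lit 1292) (nat_lit 4660457542) (nat_lit 1292) (nat_lit 4660457542) (nat_lit 327) (nat_lit 3) (nat_lit 344) (nat_lit 3) (nat_lit 344) (nat_lit 5) (nat_lit 480) (nat_lit 480) (nat_lit 240)))) (XT.nd (nat_lit 156) (nat_lit 0) (nat_lit 76) (XT.nd (nat_lit 78) (nat_lit 0) (nat_lit 76) (XT.lf (nat_lit 76) (nat_lit 12445330605) (nat_lit 0) (nat_lit 12656572224) (nat_lit 1292) (nat_lit 18762269831) (nat_lit 328) (nat_lit 5) (nat_lit 327) (nat_lit 3) (nat_lit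 344) (nat_lit 5) (nat_lit 481) (nat_lit 480) (nat_lit 239)) (XT.lf (nat_lit 0) (nat_lit 25823185228) (nat_lit 1216) (nat_lit 9559054544) (nat_lit 1292) (nat_lit 9139441809) (nat_lit 328) (nat_lit 5) (nat_lit 344) (nat_lit 5) (nat_lit 345) (nat_lit 5) (nat_lit 482) (nat_lit 480) (nat_lit 238))) (XT.nd (nat_lit 78) (nat_lit 0) (nat_lit 76) (XT.lf (nat_lit 76) (nat_lit 13085824552) (nat_lit 0) (nat_lit 13730059471) (nat_lit 1292) (nat_lit 18375538470) (nat_lit 329) (nat_lit 5) (nat_lit 328) (nat_lit 5) (nat_lit 345) (nat_lit 5) (nat_lit 483) (nat_lit 480) (nat_lit 237)) (XT.lf (nat_lit 0) (nat_lit 28016956747) (nat_lit 1216) (nat_lit 9356488483) (nat_lit 1292) (nat_lit 8502452673) (nat_lit 329) (nat_lit 5) (nat_lit 345) (nat_lit 5) (nat_lit 346) (nat_lit 5) (nat_lit 484) (nat_lit 480) (nat_lit 236))))) (XT.nd (nat_lit 312) (nat_lit 0) (nat_lit 152) (XT.nd (nat_lit 156) (nat_lit 0) (nat_lit 76) (XT.nd (nat_lit 78) (nat_lit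 0) (nat_lit 76) (XT.lf (nat_lit 76) (nat_lit 14215799241) (nat_lit 0) (nat_lit 15309605274) (nat_lit 1292) (nat_lit 17047362830) (nat_lit 330) (nat_lit 5) (nat_lit 329) (nat_lit 5) (nat_lit 346) (nat_lit 5) (nat_lit 485) (nat_lit 480) (nat_lit 235)) (XT.lf (nat_lit 0) (nat_lit 31244596402) (nat_lit 1216) (nat_lit 8673667078) (nat_lit 1292) (nat_lit 7367314727) (nat_lit 330) (nat_lit 5) (nat_lit 346) (nat_lit 5) (nat_lit 347) (nat_lit 5) (nat_lit 486) (nat_lit 480) (nat_lit 234))) (XT.nd (nat_lit 78) (nat_lit 0) (nat_lit 76) (XT.lf (nat_lit 76) (nat_lit 15877616116) (nat_lit 0) (nat_lit 17440773401) (nat_lit 1292) (nat_lit 14692293168) (nat_lit 331) (nat_lit 5) (nat_lit 330) (nat_lit 5) (nat_lit 347) (nat_lit 5) (nat_lit 487) (nat_lit 480) (nat_lit 233)) (XT.lf (nat_lit 0) (nat_lit 35596599415) (nat_lit 1216) (nat_lit 7468235446) (nat_lit 1292) (nat_lit 5688439399) (nat_lit 331) (nat_lit 5) (nat_lit 347) (nat_lit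 5) (nat_lit 348) (nat_lit 5) (nat_lit 488) (nat_lit 480) (nat_lit 232)))) (XT.nd (nat_lit 156) (nat_lit 0) (nat_lit 76) (XT.nd (nat_lit 78) (nat_lit 0) (nat_lit 76) (XT.lf (nat_lit 76) (nat_lit 18116606123) (nat_lit 0) (nat_lit 20172262523) (nat_lit 1292) (nat_lit 11218903598) (nat_lit 332) (nat_lit 5) (nat_lit 331) (nat_lit 5) (nat_lit 348) (nat_lit 5) (nat_lit 489) (nat_lit 480) (nat_lit 231)) (XT.lf (nat_lit 0) (nat_lit 41169730633) (nat_lit 1216) (nat_lit 5694858073) (nat_lit 1292) (nat_lit 3417081769) (nat_lit 332) (nat_lit 5) (nat_lit 348) (nat_lit 5) (nat_lit 349) (nat_lit 5) (nat_lit 490) (nat_lit 480) (nat_lit 230))) (XT.nd (nat_lit 78) (nat_lit 0) (nat_lit 76) (XT.lf (nat_lit 76) (nat_lit 20981254959) (nat_lit 0) (nat_lit 23556117687) (nat_lit 1292) (nat_lit 6529402430) (nat_lit 333) (nat_lit 5) (nat_lit 332) (nat_lit 5) (nat_lit 349) (nat_lit 5) (nat_lit 491) (nat_lit 480) (nat_lit 229)) (XT.lf (nat_lit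 0) (nat_lit 48067431316) (nat_lit 1216) (nat_lit 3305032364) (nat_lit 1292) (nat_lit 501127560) (nat_lit 333) (nat_lit 5) (nat_lit 349) (nat_lit 5) (nat_lit 350) (nat_lit 5) (nat_lit 492) (nat_lit 480) (nat_lit 228)))))) (XT.nd (nat_lit 624) (nat_lit 2356) (nat_lit 0) (XT.nd (nat_lit 312) (nat_lit 1292) (nat_lit 0) (XT.nd (nat_lit 156) (nat_lit 0) (nat_lit 76) (XT.nd (nat_lit 78) (nat_lit 1292) (nat_lit 0) (XT.lf (nat_lit 76) (nat_lit 24523399786) (nat_lit 0) (nat_lit 27647954759) (nat_lit 1292) (nat_lit 519218506) (nat_lit 334) (nat_lit 5) (nat_lit 333) (nat_lit 5) (nat_lit 350) (nat_lit 5) (nat_lit 493) (nat_lit 480) (nat_lit 227)) (XT.lf (nat_lit 0) (nat_lit 2843115449) (nat_lit 1292) (nat_lit 305304882) (nat_lit 1368) (nat_lit 50381835937) (nat_lit 316) (nat_lit 5) (nat_lit 333) (nat_lit 5) (nat_lit 334) (nat_lit 5) (nat_lit 494) (nat_lit 480) (nat_lit 226))) (XT.nd (nat_lit 78) (nat_lit 0) (nat_lit 0) (XT.lf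 (nat_lit 0) (nat_lit 6788336740) (nat_lit 1292) (nat_lit 25650313060) (nat_lit 1368) (nat_lit 21941552408) (nat_lit 317) (nat_lit 5) (nat_lit 334) (nat_lit 5) (nat_lit 335) (nat_lit 5) (nat_lit 495) (nat_lit 480) (nat_lit 225)) (XT.lf (nat_lit 76) (nat_lit 3421615971) (nat_lit 0) (nat_lit 7496538380) (nat_lit 1368) (nat_lit 44335505025) (nat_lit 318) (nat_lit 5) (nat_lit 317) (nat_lit 5) (nat_lit 335) (nat_lit 5) (nat_lit 496) (nat_lit 480) (nat_lit 224)))) (XT.nd (nat_lit 156) (nat_lit 608) (nat_lit 0) (XT.nd (nat_lit 78) (nat_lit 836) (nat_lit 0) (XT.lf (nat_lit 0) (nat_lit 15607423232) (nat_lit 1292) (nat_lit 22432308949) (nat_lit 76) (nat_lit 18100521415) (nat_lit 318) (nat_lit 5) (nat_lit 335) (nat_lit 5) (nat_lit 319) (nat_lit 5) (nat_lit 497) (nat_lit 480) (nat_lit 223)) (XT.lf (nat_lit 0) (nat_lit 7929130426) (nat_lit 836) (nat_lit 12657793289) (nat_lit 912) (nat_lit 36462035360) (nat_lit 307) (nat_lit 5)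 (nat_lit 318) (nat_lit 5) (nat_lit 319) (nat_lit 5) (nat_lit 498) (nat_lit 480) (nat_lit 222))) (XT.nd (nat_lit 78) (nat_lit 608) (nat_lit 0) (XT.lf (nat_lit 0) (nat_lit 26073336185) (nat_lit 912) (nat_lit 18449560521) (nat_lit 76) (nat_lit 13451303240) (nat_lit 307) (nat_lit 5) (nat_lit 319) (nat_lit 5) (nat_lit 308) (nat_lit 5) (nat_lit 499) (nat_lit 480) (nat_lit 221)) (XT.lf (nat_lit 0) (nat_lit 13273723558) (nat_lit 608) (nat_lit 18702692615) (nat_lit 684) (nat_lit 26943219650) (nat_lit 299) (nat_lit 5) (nat_lit 307) (nat_lit 5) (nat_lit 308) (nat_lit 5) (nat_lit 500) (nat_lit 480) (nat_lit 220))))) (XT.nd (nat_lit 312) (nat_lit 1216) (nat_lit 0) (XT.nd (nat_lit 156) (nat_lit 532) (nat_lit 0) (XT.nd (nat_lit 78) (nat_lit 608) (nat_lit 0) (XT.lf (nat_lit 0) (nat_lit 38319774321) (nat_lit 684) (nat_lit 13639453244) (nat_lit 76) (nat_lit 7926311676) (nat_lit 299) (nat_lit 5) (nat_lit 308) (nat_lit 5) (nat_lit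 300) (nat_lit 5) (nat_lit 501) (nat_lit 480) (nat_lit 219)) (XT.lf (nat_lit 0) (nat_lit 19522192866) (nat_lit 608) (nat_lit 25703271782) (nat_lit 684) (nat_lit 15643794202) (nat_lit 291) (nat_lit 5) (nat_lit 299) (nat_lit 5) (nat_lit 300) (nat_lit 5) (nat_lit 502) (nat_lit 480) (nat_lit 218))) (XT.nd (nat_lit 78) (nat_lit 532) (nat_lit 0) (XT.lf (nat_lit 0) (nat_lit 52489518597) (nat_lit 684) (nat_lit 7935118331) (nat_lit 76) (nat_lit 1453317366) (nat_lit 291) (nat_lit 5) (nat_lit 300) (nat_lit 5) (nat_lit 292) (nat_lit 5) (nat_lit 503) (nat_lit 480) (nat_lit 217)) (XT.lf (nat_lit 0) (nat_lit 26745834717) (nat_lit 532) (nat_lit 33736480641) (nat_lit 608) (nat_lit 2419270639) (nat_lit 284) (nat_lit 5) (nat_lit 291) (nat_lit 5) (nat_lit 292) (nat_lit 5) (nat_lit 504) (nat_lit 480) (nat_lit 216)))) (XT.nd (nat_lit 156) (nat_lit 532) (nat_lit 0) (XT.nd (nat_lit 78) (nat_lit 608) (nat_lit 0) (XT.lf (nat_lit 0) (nat_lit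 4746270709) (nat_lit 608) (nat_lit 1370964031) (nat_lit 76) (nat_lit 57834914578) (nat_lit 283) (nat_lit 5) (nat_lit 291) (nat_lit 5) (nat_lit 284) (nat_lit 5) (nat_lit 505) (nat_lit 480) (nat_lit 215)) (XT.lf (nat_lit 0) (nat_lit 12633228471) (nat_lit 684) (nat_lit 30123706817) (nat_lit 76) (nat_lit 22259923432) (nat_lit 275) (nat_lit 5) (nat_lit 284) (nat_lit 5) (nat_lit 276) (nat_lit 5) (nat_lit 506) (nat_lit 480) (nat_lit 214))) (XT.nd (nat_lit 78) (nat_lit 0) (nat_lit 0) (XT.lf (nat_lit 0) (nat_lit 6220102024) (nat_lit 532) (nat_lit 14670311575) (nat_lit 608) (nat_lit 45219087273) (nat_lit 268) (nat_lit 5) (nat_lit 275) (nat_lit 5) (nat_lit 276) (nat_lit 5) (nat_lit 507) (nat_lit 480) (nat_lit 213)) (XT.lf (nat_lit 0) (nat_lit 29838874321) (nat_lit 608) (nat_lit 23094926748) (nat_lit 76) (nat_lit 14287814447) (nat_lit 268) (nat_lit 5) (nat_lit 276) (nat_lit 5) (nat_lit 269) (nat_lit 5) (nat_lit 508) (nat_lit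 480) (nat_lit 212))))))))
noncomputable def xc235 : XT := (XT.nd (nat_lit 2496) (nat_lit 228) (nat_lit 0) (XT.nd (nat_lit 1170) (nat_lit 3420) (nat_lit 0) (XT.nd (nat_lit 546) (nat_lit 2128) (nat_lit 0) (XT.nd (nat_lit 234) (nat_lit 988) (nat_lit 0) (XT.nd (nat_lit 78) (nat_lit 456) (nat_lit 0) (XT.lf (nat_lit 0) (nat_lit 14949077508) (nat_lit 532) (nat_lit 24394974757) (nat_lit 608) (nat_lit 29014393459) (nat_lit 261) (nat_lit 5) (nat_lit 268) (nat_lit 5) (nat_lit 269) (nat_lit 5) (nat_lit 509) (nat_lit 480) (nat_lit 211)) (XT.nd (nat_lit 78) (nat_lit 456) (nat_lit 0) (XT.lf (nat_lit 0) (nat_lit 49417296382) (nat_lit 608) (nat_lit 14965705202) (nat_lit 76) (nat_lit 5137891954) (nat_lit 261) (nat_lit 5) (nat_lit 269) (nat_lit 5) (nat_lit 262) (nat_lit 5) (nat_lit 510) (nat_lit 480) (nat_lit 210)) (XT.lf (nat_lit 0) (nat_lit 24874370644) (nat_lit 456) (nat_lit 35398354005) (nat_lit 532) (nat_lit 10431090559) (nat_lit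 255) (nat_lit 5) (nat_lit 261) (nat_lit 5) (nat_lit 262) (nat_lit 5) (nat_lit 511) (nat_lit 480) (nat_lit 209)))) (XT.nd (nat_lit 156) (nat_lit 456) (nat_lit 0) (XT.nd (nat_lit 78) (nat_lit 532) (nat_lit 0) (XT.lf (nat_lit 0) (nat_lit 66215687196) (nat_lit 456) (nat_lit 5388609536) (nat_lit 532) (nat_lit 313413390) (nat_lit 255) (nat_lit 5) (nat_lit 261) (nat_lit 5) (nat_lit 262) (nat_lit 5) (nat_lit 512) (nat_lit 480) (nat_lit 208)) (XT.lf (nat_lit 0) (nat_lit 10508007708) (nat_lit 532) (nat_lit 37165945807) (nat_lit 76) (nat_lit 25473229931) (nat_lit 248) (nat_lit 5) (nat_lit 255) (nat_lit 5) (nat_lit 249) (nat_lit 5) (nat_lit 513) (nat_lit 480) (nat_lit 207))) (XT.nd (nat_lit 78) (nat_lit 0) (nat_lit 0) (XT.lf (nat_lit 0) (nat_lit 4653096085) (nat_lit 456) (nat_lit 17150285934) (nat_lit 532) (nat_lit 52605397584) (nat_lit 242) (nat_lit 5) (nat_lit 248) (nat_lit 5) (nat_lit 249) (nat_lit 5) (nat_lit 514) (nat_lit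 480) (nat_lit 206)) (XT.lf (nat_lit 0) (nat_lit 33953381405) (nat_lit 532) (nat_lit 27350216120) (nat_lit 76) (nat_lit 14389153225) (nat_lit 242) (nat_lit 5) (nat_lit 249) (nat_lit 5) (nat_lit 243) (nat_lit 5) (nat_lit 515) (nat_lit 480) (nat_lit 205))))) (XT.nd (nat_lit 312) (nat_lit 1216) (nat_lit 0) (XT.nd (nat_lit 156) (nat_lit 456) (nat_lit 0) (XT.nd (nat_lit 78) (nat_lit 0) (nat_lit 0) (XT.lf (nat_lit 0) (nat_lit 16478431126) (nat_lit 456) (nat_lit 30317062309) (nat_lit 532) (nat_lit 30209919238) (nat_lit 236) (nat_lit 5) (nat_lit 242) (nat_lit 5) (nat_lit 243) (nat_lit 5) (nat_lit 516) (nat_lit 480) (nat_lit 204)) (XT.lf (nat_lit 0) (nat_lit 60316574110) (nat_lit 532) (nat_lit 16185426105) (nat_lit 76) (nat_lit 1846643101) (nat_lit 236) (nat_lit 5) (nat_lit 243) (nat_lit 5) (nat_lit 237) (nat_lit 5) (nat_lit 517) (nat_lit 480) (nat_lit 203))) (XT.nd (nat_lit 78) (nat_lit 76) (nat_lit 0) (XT.lf (nat_lit 0)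 (nat_lit 29766335244) (nat_lit 380) (nat_lit 45062686136) (nat_lit 456) (nat_lit 4885577492) (nat_lit 231) (nat_lit 5) (nat_lit 236) (nat_lit 5) (nat_lit 237) (nat_lit 5) (nat_lit 518) (nat_lit 480) (nat_lit 202)) (XT.lf (nat_lit 0) (nat_lit 8650909155) (nat_lit 456) (nat_lit 3773737812) (nat_lit 76) (nat_lit 68689455251) (nat_lit 230) (nat_lit 5) (nat_lit 236) (nat_lit 5) (nat_lit 231) (nat_lit 5) (nat_lit 519) (nat_lit 480) (nat_lit 201)))) (XT.nd (nat_lit 156) (nat_lit 380) (nat_lit 0) (XT.nd (nat_lit 78) (nat_lit 380) (nat_lit 0) (XT.lf (nat_lit 0) (nat_lit 23131980777) (nat_lit 532) (nat_lit 38142331148) (nat_lit 76) (nat_lit 21260727025) (nat_lit 224) (nat_lit 5) (nat_lit 231) (nat_lit 5) (nat_lit 225) (nat_lit 5) (nat_lit 520) (nat_lit 480) (nat_lit 200)) (XT.lf (nat_lit 0) (nat_lit 10158161858) (nat_lit 380) (nat_lit 28147931342) (nat_lit 456) (nat_lit 45684752343) (nat_lit 219) (nat_lit 5) (nat_lit 224)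 (nat_lit 5) (nat_lit 225) (nat_lit 5) (nat_lit 521) (nat_lit 480) (nat_lit 199))) (XT.nd (nat_lit 78) (nat_lit 380) (nat_lit 0) (XT.lf (nat_lit 0) (nat_lit 54381282552) (nat_lit 456) (nat_lit 24851162000) (nat_lit 76) (nat_lit 6244506192) (nat_lit 219) (nat_lit 5) (nat_lit 225) (nat_lit 5) (nat_lit 220) (nat_lit 5) (nat_lit 522) (nat_lit 480) (nat_lit 198)) (XT.lf (nat_lit 0) (nat_lit 25824341508) (nat_lit 380) (nat_lit 45640801790) (nat_lit 456) (nat_lit 15526703348) (nat_lit 214) (nat_lit 5) (nat_lit 219) (nat_lit 5) (nat_lit 220) (nat_lit 5) (nat_lit 523) (nat_lit 480) (nat_lit 197)))))) (XT.nd (nat_lit 624) (nat_lit 1596) (nat_lit 0) (XT.nd (nat_lit 312) (nat_lit 988) (nat_lit 0) (XT.nd (nat_lit 156) (nat_lit 380) (nat_lit 0) (XT.nd (nat_lit 78) (nat_lit 380) (nat_lit 0) (XT.lf (nat_lit 0) (nat_lit 752311521) (nat_lit 456) (nat_lit 10023207772) (nat_lit 76) (nat_lit 77768935670) (nat_lit 213) (nat_lit 5) (nat_lit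 219) (nat_lit 5) (nat_lit 214) (nat_lit 5) (nat_lit 524) (nat_lit 480) (nat_lit 196)) (XT.lf (nat_lit 0) (nat_lit 17871070032) (nat_lit 456) (nat_lit 47026948199) (nat_lit 76) (nat_lit 25221108084) (nat_lit 208) (nat_lit 5) (nat_lit 214) (nat_lit 5) (nat_lit 209) (nat_lit 5) (nat_lit 525) (nat_lit 480) (nat_lit 195))) (XT.nd (nat_lit 78) (nat_lit 0) (nat_lit 0) (XT.lf (nat_lit 0) (nat_lit 6282711445) (nat_lit 380) (nat_lit 29489486796) (nat_lit 456) (nat_lit 55960775374) (nat_lit 203) (nat_lit 5) (nat_lit 208) (nat_lit 5) (nat_lit 209) (nat_lit 5) (nat_lit 526) (nat_lit 480) (nat_lit 194)) (XT.lf (nat_lit 0) (nat_lit 54756564968) (nat_lit 456) (nat_lit 31297825541) (nat_lit 76) (nat_lit 7324459698) (nat_lit 203) (nat_lit 5) (nat_lit 209) (nat_lit 5) (nat_lit 204) (nat_lit 5) (nat_lit 527) (nat_lit 480) (nat_lit 193)))) (XT.nd (nat_lit 156) (nat_lit 684) (nat_lit 0) (XT.nd (nat_lit 78) (nat_lit 0) (nat_lit 0) (XT.lf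 (nat_lit 0) (nat_lit 24667896239) (nat_lit 304) (nat_lit 50171193017) (nat_lit 380) (nat_lit 20219155059) (nat_lit 199) (nat_lit 5) (nat_lit 203) (nat_lit 5) (nat_lit 204) (nat_lit 5) (nat_lit 528) (nat_lit 480) (nat_lit 192)) (XT.lf (nat_lit 0) (nat_lit 82953498669) (nat_lit 304) (nat_lit 12886173140) (nat_lit 380) (nat_lit 938880974) (nat_lit 199) (nat_lit 5) (nat_lit 203) (nat_lit 5) (nat_lit 204) (nat_lit 5) (nat_lit 529) (nat_lit 480) (nat_lit 191))) (XT.nd (nat_lit 78) (nat_lit 304) (nat_lit 0) (XT.lf (nat_lit 0) (nat_lit 19235405456) (nat_lit 380) (nat_lit 53647966019) (nat_lit 76) (nat_lit 25641099055) (nat_lit 194) (nat_lit 5) (nat_lit 199) (nat_lit 5) (nat_lit 195) (nat_lit 5) (nat_lit 530) (nat_lit 480) (nat_lit 190)) (XT.lf (nat_lit 0) (nat_lit 5267801622) (nat_lit 304) (nat_lit 35047009655) (nat_lit 380) (nat_lit 59998112826) (nat_lit 190) (nat_lit 5) (nat_lit 194) (nat_lit 5) (nat_lit 195) (nat_lit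 5) (nat_lit 531) (nat_lit 480) (nat_lit 189))))) (XT.nd (nat_lit 312) (nat_lit 912) (nat_lit 0) (XT.nd (nat_lit 156) (nat_lit 380) (nat_lit 0) (XT.nd (nat_lit 78) (nat_lit 304) (nat_lit 0) (XT.lf (nat_lit 0) (nat_lit 62610981229) (nat_lit 380) (nat_lit 35131759334) (nat_lit 76) (nat_lit 4394759275) (nat_lit 190) (nat_lit 5) (nat_lit 195) (nat_lit 5) (nat_lit 191) (nat_lit 5) (nat_lit 532) (nat_lit 480) (nat_lit 188)) (XT.lf (nat_lit 0) (nat_lit 26753414135) (nat_lit 304) (nat_lit 59426360178) (nat_lit 380) (nat_lit 17818926402) (nat_lit 186) (nat_lit 5) (nat_lit 190) (nat_lit 5) (nat_lit 191) (nat_lit 5) (nat_lit 533) (nat_lit 480) (nat_lit 187))) (XT.nd (nat_lit 78) (nat_lit 304) (nat_lit 0) (XT.lf (nat_lit 0) (nat_lit 4809148243) (nat_lit 380) (nat_lit 14737586241) (nat_lit 76) (nat_lit 86356958608) (nat_lit 185) (nat_lit 5) (nat_lit 190) (nat_lit 5) (nat_lit 186) (nat_lit 5) (nat_lit 534) (nat_lit 480) (nat_lit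 186)) (XT.lf (nat_lit 0) (nat_lit 28455987259) (nat_lit 380) (nat_lit 57606697927) (nat_lit 76) (nat_lit 21776915367) (nat_lit 181) (nat_lit 5) (nat_lit 186) (nat_lit 5) (nat_lit 182) (nat_lit 5) (nat_lit 535) (nat_lit 480) (nat_lit 185)))) (XT.nd (nat_lit 234) (nat_lit 608) (nat_lit 0) (XT.nd (nat_lit 78) (nat_lit 0) (nat_lit 0) (XT.lf (nat_lit 0) (nat_lit 7577721302) (nat_lit 304) (nat_lit 45650764687) (nat_lit 380) (nat_lit 56592611624) (nat_lit 177) (nat_lit 5) (nat_lit 181) (nat_lit 5) (nat_lit 182) (nat_lit 5) (nat_lit 536) (nat_lit 480) (nat_lit 184)) (XT.lf (nat_lit 0) (nat_lit 75897926700) (nat_lit 304) (nat_lit 3427540316) (nat_lit 380) (nat_lit 32519133358) (nat_lit 177) (nat_lit 5) (nat_lit 181) (nat_lit 5) (nat_lit 182) (nat_lit 5) (nat_lit 537) (nat_lit 480) (nat_lit 183))) (XT.nd (nat_lit 78) (nat_lit 304) (nat_lit 0) (XT.lf (nat_lit 0) (nat_lit 19299485561) (nat_lit 304) (nat_lit 12327687651) (nat_lit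 76) (nat_lit 84388300149) (nat_lit 173) (nat_lit 5) (nat_lit 177) (nat_lit 5) (nat_lit 174) (nat_lit 5) (nat_lit 539) (nat_lit 480) (nat_lit 181)) (XT.lf (nat_lit 0) (nat_lit 46951593245) (nat_lit 380) (nat_lit 58461342503) (nat_lit 76) (nat_lit 12750297106) (nat_lit 169) (nat_lit 5) (nat_lit 174) (nat_lit 5) (nat_lit 170) (nat_lit 5) (nat_lit 540) (nat_lit 480) (nat_lit 180))))))) (XT.nd (nat_lit 58968) (nat_lit 0) (nat_lit 7220) (XT.nd (nat_lit 58344) (nat_lit 0) (nat_lit 11400) (XT.nd (nat_lit 58032) (nat_lit 0) (nat_lit 12312) (XT.nd (nat_lit 57876) (nat_lit 0) (nat_lit 12236) (XT.nd (nat_lit 57798) (nat_lit 0) (nat_lit 12236) (XT.lf (nat_lit 0) (nat_lit 13726240261) (nat_lit 228) (nat_lit 62277446389) (nat_lit 304) (nat_lit 44354625815) (nat_lit 166) (nat_lit 5) (nat_lit 169) (nat_lit 5) (nat_lit 170) (nat_lit 5) (nat_lit 541) (nat_lit 480) (nat_lit 179)) (XT.lf (nat_lit 0) (nat_lit 12692598526) (nat_lit 1292)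 (nat_lit 4782460788) (nat_lit 1292) (nat_lit 4782460788) (nat_lit 327) (nat_lit 3) (nat_lit 344) (nat_lit 3) (nat_lit 344) (nat_lit 5) (nat_lit 481) (nat_lit 481) (nat_lit 238))) (XT.nd (nat_lit 78) (nat_lit 0) (nat_lit 76) (XT.lf (nat_lit 76) (nat_lit 12853962259) (nat_lit 0) (nat_lit 13068486044) (nat_lit 1292) (nat_lit 19255621786) (nat_lit 328) (nat_lit 5) (nat_lit 327) (nat_lit 3) (nat_lit 344) (nat_lit 5) (nat_lit 482) (nat_lit 481) (nat_lit 237)) (XT.lf (nat_lit 0) (nat_lit 26663102827) (nat_lit 1216) (nat_lit 9809312420) (nat_lit 1292) (nat_lit 9382957112) (nat_lit 328) (nat_lit 5) (nat_lit 344) (nat_lit 5) (nat_lit 345) (nat_lit 5) (nat_lit 483) (nat_lit 481) (nat_lit 236)))) (XT.nd (nat_lit 156) (nat_lit 0) (nat_lit 76) (XT.nd (nat_lit 78) (nat_lit 0) (nat_lit 76) (XT.lf (nat_lit 76) (nat_lit 13514555071) (nat_lit 0) (nat_lit 14169475395) (nat_lit 1292) (nat_lit 18861221683) (nat_lit 329) (nat_lit 5) (nat_lit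 328) (nat_lit 5) (nat_lit 345) (nat_lit 5) (nat_lit 484) (nat_lit 481) (nat_lit 235)) (XT.lf (nat_lit 0) (nat_lit 28919024128) (nat_lit 1216) (nat_lit 9599966357) (nat_lit 1292) (nat_lit 8731334758) (nat_lit 329) (nat_lit 5) (nat_lit 345) (nat_lit 5) (nat_lit 346) (nat_lit 5) (nat_lit 485) (nat_lit 481) (nat_lit 234))) (XT.nd (nat_lit 78) (nat_lit 0) (nat_lit 76) (XT.lf (nat_lit 76) (nat_lit 14679125128) (nat_lit 0) (nat_lit 15792161474) (nat_lit 1292) (nat_lit 17496857412) (nat_lit 330) (nat_lit 5) (nat_lit 329) (nat_lit 5) (nat_lit 346) (nat_lit 5) (nat_lit 486) (nat_lit 481) (nat_lit 233)) (XT.lf (nat_lit 0) (nat_lit 32240086026) (nat_lit 1216) (nat_lit 8896127646) (nat_lit 1292) (nat_lit 7566184657) (nat_lit 330) (nat_lit 5) (nat_lit 346) (nat_lit 5) (nat_lit 347) (nat_lit 5) (nat_lit 487) (nat_lit 481) (nat_lit 232))))) (XT.nd (nat_lit 312) (nat_lit 1064) (nat_lit 0) (XT.nd (nat_lit 156) (nat_lit 0) (nat_lit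 76) (XT.nd (nat_lit 78) (nat_lit 0) (nat_lit 76) (XT.lf (nat_lit 76) (nat_lit 16391323952) (nat_lit 0) (nat_lit 17983434556) (nat_lit 1292) (nat_lit 15074537543) (nat_lit 331) (nat_lit 5) (nat_lit 330) (nat_lit 5) (nat_lit 347) (nat_lit 5) (nat_lit 488) (nat_lit 481) (nat_lit 231)) (XT.lf (nat_lit 0) (nat_lit 36719478423) (nat_lit 1216) (nat_lit 7654153076) (nat_lit 1292) (nat_lit 5840589039) (nat_lit 331) (nat_lit 5) (nat_lit 347) (nat_lit 5) (nat_lit 348) (nat_lit 5) (nat_lit 489) (nat_lit 481) (nat_lit 230))) (XT.nd (nat_lit 78) (nat_lit 0) (nat_lit 76) (XT.lf (nat_lit 76) (nat_lit 18697859922) (nat_lit 0) (nat_lit 20793417349) (nat_lit 1292) (nat_lit 11500113416) (nat_lit 332) (nat_lit 5) (nat_lit 331) (nat_lit 5) (nat_lit 348) (nat_lit 5) (nat_lit 490) (nat_lit 481) (nat_lit 229)) (XT.lf (nat_lit 0) (nat_lit 42456850600) (nat_lit 1216) (nat_lit 5827330984) (nat_lit 1292) (nat_lit 3504375788) (nat_lit 332) (nat_lit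 5) (nat_lit 348) (nat_lit 5) (nat_lit 349) (nat_lit 5) (nat_lit 491) (nat_lit 481) (nat_lit 228)))) (XT.nd (nat_lit 156) (nat_lit 1216) (nat_lit 0) (XT.nd (nat_lit 78) (nat_lit 0) (nat_lit 76) (XT.lf (nat_lit 76) (nat_lit 21648689234) (nat_lit 0) (nat_lit 24275682507) (nat_lit 1292) (nat_lit 6672877944) (nat_lit 333) (nat_lit 5) (nat_lit 332) (nat_lit 5) (nat_lit 349) (nat_lit 5) (nat_lit 492) (nat_lit 481) (nat_lit 227)) (XT.lf (nat_lit 0) (nat_lit 49558730073) (nat_lit 1216) (nat_lit 3365689070) (nat_lit 1292) (nat_lit 503899321) (nat_lit 333) (nat_lit 5) (nat_lit 349) (nat_lit 5) (nat_lit 350) (nat_lit 5) (nat_lit 493) (nat_lit 481) (nat_lit 226))) (XT.nd (nat_lit 78) (nat_lit 1292) (nat_lit 0) (XT.lf (nat_lit 76) (nat_lit 25297218650) (nat_lit 0) (nat_lit 28487483534) (nat_lit 1292) (nat_lit 485139675) (nat_lit 334) (nat_lit 5) (nat_lit 333) (nat_lit 5) (nat_lit 350) (nat_lit 5) (nat_lit 494) (nat_lit 481) (nat_lit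 225)) (XT.lf (nat_lit 0) (nat_lit 2975677292) (nat_lit 1292) (nat_lit 276514577) (nat_lit 1368) (nat_lit 51882551988) (nat_lit 316) (nat_lit 5) (nat_lit 333) (nat_lit 5) (nat_lit 334) (nat_lit 5) (nat_lit 495) (nat_lit 481) (nat_lit 224)))))) (XT.nd (nat_lit 624) (nat_lit 2280) (nat_lit 0) (XT.nd (nat_lit 312) (nat_lit 1216) (nat_lit 0) (XT.nd (nat_lit 156) (nat_lit 760) (nat_lit 0) (XT.nd (nat_lit 78) (nat_lit 0) (nat_lit 0) (XT.lf (nat_lit 0) (nat_lit 7038156296) (nat_lit 1292) (nat_lit 26380772085) (nat_lit 1368) (nat_lit 22591292821) (nat_lit 317) (nat_lit 5) (nat_lit 334) (nat_lit 5) (nat_lit 335) (nat_lit 5) (nat_lit 496) (nat_lit 481) (nat_lit 223)) (XT.lf (nat_lit 76) (nat_lit 3562931971) (nat_lit 0) (nat_lit 7727963420) (nat_lit 1368) (nat_lit 45619015944) (nat_lit 318) (nat_lit 5) (nat_lit 317) (nat_lit 5) (nat_lit 335) (nat_lit 5) (nat_lit 497) (nat_lit 481) (nat_lit 222))) (XT.nd (nat_lit 78) (nat_lit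 836) (nat_lit 0) (XT.lf (nat_lit 0) (nat_lit 16119465006) (nat_lit 1292) (nat_lit 23066357729) (nat_lit 76) (nat_lit 18637322022) (nat_lit 318) (nat_lit 5) (nat_lit 335) (nat_lit 5) (nat_lit 319) (nat_lit 5) (nat_lit 498) (nat_lit 481) (nat_lit 221)) (XT.lf (nat_lit 0) (nat_lit 8205543254) (nat_lit 836) (nat_lit 13041901424) (nat_lit 912) (nat_lit 37511693951) (nat_lit 307) (nat_lit 5) (nat_lit 318) (nat_lit 5) (nat_lit 319) (nat_lit 5) (nat_lit 499) (nat_lit 481) (nat_lit 220)))) (XT.nd (nat_lit 156) (nat_lit 608) (nat_lit 0) (XT.nd (nat_lit 78) (nat_lit 608) (nat_lit 0) (XT.lf (nat_lit 0) (nat_lit 26897158798) (nat_lit 912) (nat_lit 18964338422) (nat_lit 76) (nat_lit 13850678281) (nat_lit 307) (nat_lit 5) (nat_lit 319) (nat_lit 5) (nat_lit 308) (nat_lit 5) (nat_lit 500) (nat_lit 481) (nat_lit 219)) (XT.lf (nat_lit 0) (nat_lit 13710264680) (nat_lit 608) (nat_lit 19266222645) (nat_lit 684) (nat_lit 27709512497)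 (nat_lit 299) (nat_lit 5) (nat_lit 307) (nat_lit 5) (nat_lit 308) (nat_lit 5) (nat_lit 501) (nat_lit 481) (nat_lit 218))) (XT.nd (nat_lit 78) (nat_lit 608) (nat_lit 0) (XT.lf (nat_lit 0) (nat_lit 39508935631) (nat_lit 684) (nat_lit 14010211565) (nat_lit 76) (nat_lit 8161769514) (nat_lit 299) (nat_lit 5) (nat_lit 308) (nat_lit 5) (nat_lit 300) (nat_lit 5) (nat_lit 502) (nat_lit 481) (nat_lit 217)) (XT.lf (nat_lit 0) (nat_lit 20145907211) (nat_lit 608) (nat_lit 26475102735) (nat_lit 684) (nat_lit 16073161612) (nat_lit 291) (nat_lit 5) (nat_lit 299) (nat_lit 5) (nat_lit 300) (nat_lit 5) (nat_lit 503) (nat_lit 481) (nat_lit 216))))) (XT.nd (nat_lit 312) (nat_lit 1064) (nat_lit 0) (XT.nd (nat_lit 156) (nat_lit 684) (nat_lit 0) (XT.nd (nat_lit 78) (nat_lit 532) (nat_lit 0) (XT.lf (nat_lit 0) (nat_lit 54101849120) (nat_lit 684) (nat_lit 8135093570) (nat_lit 76) (nat_lit 1496219314) (nat_lit 291) (nat_lit 5) (nat_lit 300)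 (nat_lit 5) (nat_lit 292) (nat_lit 5) (nat_lit 504) (nat_lit 481) (nat_lit 215)) (XT.lf (nat_lit 0) (nat_lit 27585914753) (nat_lit 532) (nat_lit 34747781019) (nat_lit 608) (nat_lit 2453828952) (nat_lit 284) (nat_lit 5) (nat_lit 291) (nat_lit 5) (nat_lit 292) (nat_lit 5) (nat_lit 505) (nat_lit 481) (nat_lit 214))) (XT.nd (nat_lit 78) (nat_lit 608) (nat_lit 0) (XT.lf (nat_lit 0) (nat_lit 4924850969) (nat_lit 608) (nat_lit 1374764430) (nat_lit 76) (nat_lit 59570011198) (nat_lit 283) (nat_lit 5) (nat_lit 291) (nat_lit 5) (nat_lit 284) (nat_lit 5) (nat_lit 506) (nat_lit 481) (nat_lit 213)) (XT.lf (nat_lit 0) (nat_lit 13047732754) (nat_lit 684) (nat_lit 30989403394) (nat_lit 76) (nat_lit 22929161715) (nat_lit 275) (nat_lit 5) (nat_lit 284) (nat_lit 5) (nat_lit 276) (nat_lit 5) (nat_lit 507) (nat_lit 481) (nat_lit 212)))) (XT.nd (nat_lit 156) (nat_lit 532) (nat_lit 0) (XT.nd (nat_lit 78) (nat_lit 0) (nat_lit 0) (XT.lf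 (nat_lit 0) (nat_lit 6444347020) (nat_lit 532) (nat_lit 15107614057) (nat_lit 608) (nat_lit 46539778416) (nat_lit 268) (nat_lit 5) (nat_lit 275) (nat_lit 5) (nat_lit 276) (nat_lit 5) (nat_lit 508) (nat_lit 481) (nat_lit 211)) (XT.lf (nat_lit 0) (nat_lit 30767887202) (nat_lit 608) (nat_lit 23750239249) (nat_lit 76) (nat_lit 14719120816) (nat_lit 268) (nat_lit 5) (nat_lit 276) (nat_lit 5) (nat_lit 269) (nat_lit 5) (nat_lit 509) (nat_lit 481) (nat_lit 210))) (XT.nd (nat_lit 78) (nat_lit 0) (nat_lit 0) (XT.lf (nat_lit 0) (nat_lit 15434717141) (nat_lit 532) (nat_lit 25122874793) (nat_lit 608) (nat_lit 29850609342) (nat_lit 261) (nat_lit 5) (nat_lit 268) (nat_lit 5) (nat_lit 269) (nat_lit 5) (nat_lit 510) (nat_lit 481) (nat_lit 209)) (XT.lf (nat_lit 0) (nat_lit 50932102714) (nat_lit 608) (nat_lit 15377659692) (nat_lit 76) (nat_lit 5295788076) (nat_lit 261) (nat_lit 5) (nat_lit 269) (nat_lit 5) (nat_lit 262) (nat_lit 5)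 (nat_lit 511) (nat_lit 481) (nat_lit 208))))))))
noncomputable def xc236 : XT := (XT.nd (nat_lit 60450) (nat_lit 0) (nat_lit 5548) (XT.nd (nat_lit 1170) (nat_lit 2964) (nat_lit 0) (XT.nd (nat_lit 546) (nat_lit 2128) (nat_lit 0) (XT.nd (nat_lit 234) (nat_lit 912) (nat_lit 0) (XT.nd (nat_lit 78) (nat_lit 532) (nat_lit 0) (XT.lf (nat_lit 0) (nat_lit 25657255520) (nat_lit 456) (nat_lit 36455350235) (nat_lit 532) (nat_lit 10711371723) (nat_lit 255) (nat_lit 5) (nat_lit 261) (nat_lit 5) (nat_lit 262) (nat_lit 5) (nat_lit 512) (nat_lit 481) (nat_lit 207)) (XT.nd (nat_lit 78) (nat_lit 532) (nat_lit 0) (XT.lf (nat_lit 0) (nat_lit 68237743984) (nat_lit 456) (nat_lit 5545457736) (nat_lit 532) (nat_lit 291115256) (nat_lit 255) (nat_lit 5) (nat_lit 261) (nat_lit 5) (nat_lit 262) (nat_lit 5) (nat_lit 513) (nat_lit 481) (nat_lit 206)) (XT.lf (nat_lit 0) (nat_lit 10853820438) (nat_lit 532) (nat_lit 38244207735) (nat_lit 76) (nat_lit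 26242652500) (nat_lit 248) (nat_lit 5) (nat_lit 255) (nat_lit 5) (nat_lit 249) (nat_lit 5) (nat_lit 514) (nat_lit 481) (nat_lit 205)))) (XT.nd (nat_lit 156) (nat_lit 456) (nat_lit 0) (XT.nd (nat_lit 78) (nat_lit 0) (nat_lit 0) (XT.lf (nat_lit 0) (nat_lit 4829045448) (nat_lit 456) (nat_lit 17658469549) (nat_lit 532) (nat_lit 54152625979) (nat_lit 242) (nat_lit 5) (nat_lit 248) (nat_lit 5) (nat_lit 249) (nat_lit 5) (nat_lit 515) (nat_lit 481) (nat_lit 204)) (XT.lf (nat_lit 0) (nat_lit 35001198689) (nat_lit 532) (nat_lit 28134608336) (nat_lit 76) (nat_lit 14826848734) (nat_lit 242) (nat_lit 5) (nat_lit 249) (nat_lit 5) (nat_lit 243) (nat_lit 5) (nat_lit 516) (nat_lit 481) (nat_lit 203))) (XT.nd (nat_lit 78) (nat_lit 0) (nat_lit 0) (XT.lf (nat_lit 0) (nat_lit 17008544266) (nat_lit 456) (nat_lit 31219522616) (nat_lit 532) (nat_lit 31086645904) (nat_lit 236) (nat_lit 5) (nat_lit 242) (nat_lit 5) (nat_lit 243) (nat_lit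 5) (nat_lit 517) (nat_lit 481) (nat_lit 202)) (XT.lf (nat_lit 0) (nat_lit 62154009613) (nat_lit 532) (nat_lit 16635498898) (nat_lit 76) (nat_lit 1908754977) (nat_lit 236) (nat_lit 5) (nat_lit 243) (nat_lit 5) (nat_lit 237) (nat_lit 5) (nat_lit 518) (nat_lit 481) (nat_lit 201))))) (XT.nd (nat_lit 312) (nat_lit 836) (nat_lit 0) (XT.nd (nat_lit 156) (nat_lit 836) (nat_lit 0) (XT.nd (nat_lit 78) (nat_lit 76) (nat_lit 0) (XT.lf (nat_lit 0) (nat_lit 30694467350) (nat_lit 380) (nat_lit 46406887021) (nat_lit 456) (nat_lit 5003857646) (nat_lit 231) (nat_lit 5) (nat_lit 236) (nat_lit 5) (nat_lit 237) (nat_lit 5) (nat_lit 519) (nat_lit 481) (nat_lit 200)) (XT.lf (nat_lit 0) (nat_lit 8937363795) (nat_lit 456) (nat_lit 3852294650) (nat_lit 76) (nat_lit 70757058123) (nat_lit 230) (nat_lit 5) (nat_lit 236) (nat_lit 5) (nat_lit 231) (nat_lit 5) (nat_lit 520) (nat_lit 481) (nat_lit 199))) (XT.nd (nat_lit 78) (nat_lit 380) (nat_lit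 0) (XT.lf (nat_lit 0) (nat_lit 23852488524) (nat_lit 532) (nat_lit 39251565873) (nat_lit 76) (nat_lit 21906238402) (nat_lit 224) (nat_lit 5) (nat_lit 231) (nat_lit 5) (nat_lit 225) (nat_lit 5) (nat_lit 521) (nat_lit 481) (nat_lit 198)) (XT.lf (nat_lit 0) (nat_lit 10497598440) (nat_lit 380) (nat_lit 28983786105) (nat_lit 456) (nat_lit 47028402264) (nat_lit 219) (nat_lit 5) (nat_lit 224) (nat_lit 5) (nat_lit 225) (nat_lit 5) (nat_lit 522) (nat_lit 481) (nat_lit 197)))) (XT.nd (nat_lit 156) (nat_lit 456) (nat_lit 0) (XT.nd (nat_lit 78) (nat_lit 380) (nat_lit 0) (XT.lf (nat_lit 0) (nat_lit 56038149238) (nat_lit 456) (nat_lit 25562334414) (nat_lit 76) (nat_lit 6440011949) (nat_lit 219) (nat_lit 5) (nat_lit 225) (nat_lit 5) (nat_lit 220) (nat_lit 5) (nat_lit 523) (nat_lit 481) (nat_lit 196)) (XT.lf (nat_lit 0) (nat_lit 26633097314) (nat_lit 380) (nat_lit 47001014940) (nat_lit 456) (nat_lit 15966738556) (nat_lit 214) (nat_lit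 5) (nat_lit 219) (nat_lit 5) (nat_lit 220) (nat_lit 5) (nat_lit 524) (nat_lit 481) (nat_lit 195))) (XT.nd (nat_lit 78) (nat_lit 380) (nat_lit 0) (XT.lf (nat_lit 0) (nat_lit 799408154) (nat_lit 456) (nat_lit 10290380590) (nat_lit 76) (nat_lit 80110263299) (nat_lit 213) (nat_lit 5) (nat_lit 219) (nat_lit 5) (nat_lit 214) (nat_lit 5) (nat_lit 525) (nat_lit 481) (nat_lit 194)) (XT.lf (nat_lit 0) (nat_lit 18431421239) (nat_lit 456) (nat_lit 48403924320) (nat_lit 76) (nat_lit 25986627244) (nat_lit 208) (nat_lit 5) (nat_lit 214) (nat_lit 5) (nat_lit 209) (nat_lit 5) (nat_lit 526) (nat_lit 481) (nat_lit 193)))))) (XT.nd (nat_lit 624) (nat_lit 1292) (nat_lit 0) (XT.nd (nat_lit 312) (nat_lit 988) (nat_lit 0) (XT.nd (nat_lit 156) (nat_lit 304) (nat_lit 0) (XT.nd (nat_lit 78) (nat_lit 0) (nat_lit 0) (XT.lf (nat_lit 0) (nat_lit 6504693424) (nat_lit 380) (nat_lit 30364506487) (nat_lit 456) (nat_lit 57615047133) (nat_lit 203)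 (nat_lit 5) (nat_lit 208) (nat_lit 5) (nat_lit 209) (nat_lit 5) (nat_lit 527) (nat_lit 481) (nat_lit 192)) (XT.lf (nat_lit 0) (nat_lit 56422493595) (nat_lit 456) (nat_lit 32203630687) (nat_lit 76) (nat_lit 7553393795) (nat_lit 203) (nat_lit 5) (nat_lit 209) (nat_lit 5) (nat_lit 204) (nat_lit 5) (nat_lit 528) (nat_lit 481) (nat_lit 191))) (XT.nd (nat_lit 78) (nat_lit 0) (nat_lit 0) (XT.lf (nat_lit 0) (nat_lit 25440737947) (nat_lit 304) (nat_lit 51666394354) (nat_lit 380) (nat_lit 20802172566) (nat_lit 199) (nat_lit 5) (nat_lit 203) (nat_lit 5) (nat_lit 204) (nat_lit 5) (nat_lit 529) (nat_lit 481) (nat_lit 190)) (XT.lf (nat_lit 0) (nat_lit 85473952969) (nat_lit 304) (nat_lit 13263113234) (nat_lit 380) (nat_lit 944176389) (nat_lit 199) (nat_lit 5) (nat_lit 203) (nat_lit 5) (nat_lit 204) (nat_lit 5) (nat_lit 530) (nat_lit 481) (nat_lit 189)))) (XT.nd (nat_lit 156) (nat_lit 304) (nat_lit 0) (XT.nd (nat_lit 78) (nat_lit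 304) (nat_lit 0) (XT.lf (nat_lit 0) (nat_lit 19834641770) (nat_lit 380) (nat_lit 55224857557) (nat_lit 76) (nat_lit 26420039484) (nat_lit 194) (nat_lit 5) (nat_lit 199) (nat_lit 5) (nat_lit 195) (nat_lit 5) (nat_lit 531) (nat_lit 481) (nat_lit 188)) (XT.lf (nat_lit 0) (nat_lit 5458064020) (nat_lit 304) (nat_lit 36088029694) (nat_lit 380) (nat_lit 61775562376) (nat_lit 190) (nat_lit 5) (nat_lit 194) (nat_lit 5) (nat_lit 195) (nat_lit 5) (nat_lit 532) (nat_lit 481) (nat_lit 187))) (XT.nd (nat_lit 78) (nat_lit 304) (nat_lit 0) (XT.lf (nat_lit 0) (nat_lit 64510609673) (nat_lit 380) (nat_lit 36153882787) (nat_lit 76) (nat_lit 4536492828) (nat_lit 190) (nat_lit 5) (nat_lit 195) (nat_lit 5) (nat_lit 191) (nat_lit 5) (nat_lit 533) (nat_lit 481) (nat_lit 186)) (XT.lf (nat_lit 0) (nat_lit 27587533835) (nat_lit 304) (nat_lit 61198615319) (nat_lit 380) (nat_lit 18331882576) (nat_lit 186) (nat_lit 5) (nat_lit 190) (nat_lit 5)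 (nat_lit 191) (nat_lit 5) (nat_lit 534) (nat_lit 481) (nat_lit 185))))) (XT.nd (nat_lit 58344) (nat_lit 0) (nat_lit 12008) (XT.nd (nat_lit 156) (nat_lit 912) (nat_lit 0) (XT.nd (nat_lit 78) (nat_lit 304) (nat_lit 0) (XT.lf (nat_lit 0) (nat_lit 4973995406) (nat_lit 380) (nat_lit 15148704569) (nat_lit 76) (nat_lit 88957486203) (nat_lit 185) (nat_lit 5) (nat_lit 190) (nat_lit 5) (nat_lit 186) (nat_lit 5) (nat_lit 535) (nat_lit 481) (nat_lit 184)) (XT.lf (nat_lit 0) (nat_lit 29330035868) (nat_lit 380) (nat_lit 59303685370) (nat_lit 76) (nat_lit 22440455752) (nat_lit 181) (nat_lit 5) (nat_lit 186) (nat_lit 5) (nat_lit 182) (nat_lit 5) (nat_lit 536) (nat_lit 481) (nat_lit 183))) (XT.nd (nat_lit 312) (nat_lit 608) (nat_lit 0) (XT.lf (nat_lit 0) (nat_lit 7835960422) (nat_lit 304) (nat_lit 47009452968) (nat_lit 380) (nat_lit 58269714472) (nat_lit 177) (nat_lit 5) (nat_lit 181) (nat_lit 5) (nat_lit 182) (nat_lit 5) (nat_lit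 537) (nat_lit 481) (nat_lit 182)) (XT.lf (nat_lit 0) (nat_lit 48378908018) (nat_lit 380) (nat_lit 60185326524) (nat_lit 76) (nat_lit 13143331861) (nat_lit 169) (nat_lit 5) (nat_lit 174) (nat_lit 5) (nat_lit 170) (nat_lit 5) (nat_lit 541) (nat_lit 481) (nat_lit 178)))) (XT.nd (nat_lit 156) (nat_lit 0) (nat_lit 76) (XT.nd (nat_lit 78) (nat_lit 0) (nat_lit 0) (XT.lf (nat_lit 0) (nat_lit 13105973247) (nat_lit 1292) (nat_lit 4909146525) (nat_lit 1292) (nat_lit 4909146525) (nat_lit 327) (nat_lit 3) (nat_lit 344) (nat_lit 3) (nat_lit 344) (nat_lit 5) (nat_lit 482) (nat_lit 482) (nat_lit 236)) (XT.lf (nat_lit 76) (nat_lit 13272828121) (nat_lit 0) (nat_lit 13490907911) (nat_lit 1292) (nat_lit 19767764811) (nat_lit 328) (nat_lit 5) (nat_lit 327) (nat_lit 3) (nat_lit 344) (nat_lit 5) (nat_lit 483) (nat_lit 482) (nat_lit 235))) (XT.nd (nat_lit 78) (nat_lit 0) (nat_lit 0) (XT.lf (nat_lit 0) (nat_lit 27524473941) (nat_lit 1216)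 (nat_lit 10069174072) (nat_lit 1292) (nat_lit 9635538339) (nat_lit 328) (nat_lit 5) (nat_lit 344) (nat_lit 5) (nat_lit 345) (nat_lit 5) (nat_lit 484) (nat_lit 482) (nat_lit 234)) (XT.lf (nat_lit 76) (nat_lit 13954072015) (nat_lit 0) (nat_lit 14620494373) (nat_lit 1292) (nat_lit 19365240122) (nat_lit 329) (nat_lit 5) (nat_lit 328) (nat_lit 5) (nat_lit 345) (nat_lit 5) (nat_lit 485) (nat_lit 482) (nat_lit 233))))))) (XT.nd (nat_lit 1170) (nat_lit 4940) (nat_lit 0) (XT.nd (nat_lit 546) (nat_lit 1672) (nat_lit 0) (XT.nd (nat_lit 234) (nat_lit 0) (nat_lit 76) (XT.nd (nat_lit 78) (nat_lit 0) (nat_lit 0) (XT.lf (nat_lit 0) (nat_lit 29844619811) (nat_lit 1216) (nat_lit 9852884963) (nat_lit 1292) (nat_lit 8968586804) (nat_lit 329) (nat_lit 5) (nat_lit 345) (nat_lit 5) (nat_lit 346) (nat_lit 5) (nat_lit 486) (nat_lit 482) (nat_lit 232)) (XT.nd (nat_lit 78) (nat_lit 0) (nat_lit 76) (XT.lf (nat_lit 76) (nat_lit 15154235341)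 (nat_lit 0) (nat_lit 16287858678) (nat_lit 1292) (nat_lit 17963391655) (nat_lit 330) (nat_lit 5) (nat_lit 329) (nat_lit 5) (nat_lit 346) (nat_lit 5) (nat_lit 487) (nat_lit 482) (nat_lit 231)) (XT.lf (nat_lit 0) (nat_lit 33262102192) (nat_lit 1216) (nat_lit 9127429003) (nat_lit 1292) (nat_lit 7772292157) (nat_lit 330) (nat_lit 5) (nat_lit 346) (nat_lit 5) (nat_lit 347) (nat_lit 5) (nat_lit 488) (nat_lit 482) (nat_lit 230)))) (XT.nd (nat_lit 156) (nat_lit 0) (nat_lit 76) (XT.nd (nat_lit 78) (nat_lit 0) (nat_lit 76) (XT.lf (nat_lit 76) (nat_lit 16918297296) (nat_lit 0) (nat_lit 18541259728) (nat_lit 1292) (nat_lit 15471608790) (nat_lit 331) (nat_lit 5) (nat_lit 330) (nat_lit 5) (nat_lit 347) (nat_lit 5) (nat_lit 489) (nat_lit 482) (nat_lit 229)) (XT.lf (nat_lit 0) (nat_lit 37872887665) (nat_lit 1216) (nat_lit 7847837020) (nat_lit 1292) (nat_lit 5998365347) (nat_lit 331) (nat_lit 5) (nat_lit 347) (nat_lit 5) (nat_lit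 348) (nat_lit 5) (nat_lit 490) (nat_lit 482) (nat_lit 228))) (XT.nd (nat_lit 78) (nat_lit 0) (nat_lit 76) (XT.lf (nat_lit 76) (nat_lit 19294384008) (nat_lit 0) (nat_lit 21432289104) (nat_lit 1292) (nat_lit 11792937264) (nat_lit 332) (nat_lit 5) (nat_lit 331) (nat_lit 5) (nat_lit 348) (nat_lit 5) (nat_lit 491) (nat_lit 482) (nat_lit 227)) (XT.lf (nat_lit 0) (nat_lit 43779597544) (nat_lit 1216) (nat_lit 5965980841) (nat_lit 1292) (nat_lit 3595162227) (nat_lit 332) (nat_lit 5) (nat_lit 348) (nat_lit 5) (nat_lit 349) (nat_lit 5) (nat_lit 492) (nat_lit 482) (nat_lit 226))))) (XT.nd (nat_lit 312) (nat_lit 684) (nat_lit 0) (XT.nd (nat_lit 156) (nat_lit 1216) (nat_lit 0) (XT.nd (nat_lit 78) (nat_lit 0) (nat_lit 76) (XT.lf (nat_lit 76) (nat_lit 22333965375) (nat_lit 0) (nat_lit 25016094833) (nat_lit 1292) (nat_lit 6823666074) (nat_lit 333) (nat_lit 5) (nat_lit 332) (nat_lit 5) (nat_lit 349) (nat_lit 5) (nat_lit 493) (nat_lit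 482) (nat_lit 225)) (XT.lf (nat_lit 0) (nat_lit 51091939160) (nat_lit 1216) (nat_lit 3430375206) (nat_lit 1292) (nat_lit 507458126) (nat_lit 333) (nat_lit 5) (nat_lit 349) (nat_lit 5) (nat_lit 350) (nat_lit 5) (nat_lit 494) (nat_lit 482) (nat_lit 224))) (XT.nd (nat_lit 78) (nat_lit 1292) (nat_lit 0) (XT.lf (nat_lit 76) (nat_lit 26092064015) (nat_lit 0) (nat_lit 29351618958) (nat_lit 1292) (nat_lit 452888901) (nat_lit 334) (nat_lit 5) (nat_lit 333) (nat_lit 5) (nat_lit 350) (nat_lit 5) (nat_lit 495) (nat_lit 482) (nat_lit 223)) (XT.lf (nat_lit 0) (nat_lit 3109502592) (nat_lit 1292) (nat_lit 249039016) (nat_lit 1368) (nat_lit 53428905984) (nat_lit 316) (nat_lit 5) (nat_lit 333) (nat_lit 5) (nat_lit 334) (nat_lit 5) (nat_lit 496) (nat_lit 482) (nat_lit 222)))) (XT.nd (nat_lit 156) (nat_lit 760) (nat_lit 0) (XT.nd (nat_lit 78) (nat_lit 0) (nat_lit 0) (XT.lf (nat_lit 0) (nat_lit 7292820123) (nat_lit 1292) (nat_lit 27135386532)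 (nat_lit 1368) (nat_lit 23261013734) (nat_lit 317) (nat_lit 5) (nat_lit 334) (nat_lit 5) (nat_lit 335) (nat_lit 5) (nat_lit 497) (nat_lit 482) (nat_lit 221)) (XT.lf (nat_lit 76) (nat_lit 3706267776) (nat_lit 0) (nat_lit 7965956426) (nat_lit 1368) (nat_lit 46943704594) (nat_lit 318) (nat_lit 5) (nat_lit 317) (nat_lit 5) (nat_lit 335) (nat_lit 5) (nat_lit 498) (nat_lit 482) (nat_lit 220))) (XT.nd (nat_lit 78) (nat_lit 836) (nat_lit 0) (XT.lf (nat_lit 0) (nat_lit 16644352638) (nat_lit 1292) (nat_lit 23721662168) (nat_lit 76) (nat_lit 19190583417) (nat_lit 318) (nat_lit 5) (nat_lit 335) (nat_lit 5) (nat_lit 319) (nat_lit 5) (nat_lit 499) (nat_lit 482) (nat_lit 219)) (XT.lf (nat_lit 0) (nat_lit 8488036176) (nat_lit 836) (nat_lit 13437281699) (nat_lit 912) (nat_lit 38595379702) (nat_lit 307) (nat_lit 5) (nat_lit 318) (nat_lit 5) (nat_lit 319) (nat_lit 5) (nat_lit 500) (nat_lit 482) (nat_lit 218)))))) (XT.nd (nat_lit 624)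 (nat_lit 2508) (nat_lit 0) (XT.nd (nat_lit 312) (nat_lit 1216) (nat_lit 0) (XT.nd (nat_lit 156) (nat_lit 608) (nat_lit 0) (XT.nd (nat_lit 78) (nat_lit 608) (nat_lit 0) (XT.lf (nat_lit 0) (nat_lit 27743306786) (nat_lit 912) (nat_lit 19496781710) (nat_lit 76) (nat_lit 14262273607) (nat_lit 307) (nat_lit 5) (nat_lit 319) (nat_lit 5) (nat_lit 308) (nat_lit 5) (nat_lit 501) (nat_lit 482) (nat_lit 217)) (XT.lf (nat_lit 0) (nat_lit 14157701771) (nat_lit 608) (nat_lit 19846517979) (nat_lit 684) (nat_lit 28501205316) (nat_lit 299) (nat_lit 5) (nat_lit 307) (nat_lit 5) (nat_lit 308) (nat_lit 5) (nat_lit 502) (nat_lit 482) (nat_lit 216))) (XT.nd (nat_lit 78) (nat_lit 608) (nat_lit 0) (XT.lf (nat_lit 0) (nat_lit 40731500411) (nat_lit 684) (nat_lit 14394298403) (nat_lit 76) (nat_lit 8404424925) (nat_lit 299) (nat_lit 5) (nat_lit 308) (nat_lit 5) (nat_lit 300) (nat_lit 5) (nat_lit 503) (nat_lit 482) (nat_lit 215)) (XT.lf (nat_lit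 0) (nat_lit 20786148842) (nat_lit 608) (nat_lit 27270046552) (nat_lit 684) (nat_lit 16517703132) (nat_lit 291) (nat_lit 5) (nat_lit 299) (nat_lit 5) (nat_lit 300) (nat_lit 5) (nat_lit 504) (nat_lit 482) (nat_lit 214)))) (XT.nd (nat_lit 156) (nat_lit 684) (nat_lit 0) (XT.nd (nat_lit 78) (nat_lit 532) (nat_lit 0) (XT.lf (nat_lit 0) (nat_lit 55760388584) (nat_lit 684) (nat_lit 8343253916) (nat_lit 76) (nat_lit 1540448364) (nat_lit 291) (nat_lit 5) (nat_lit 300) (nat_lit 5) (nat_lit 292) (nat_lit 5) (nat_lit 505) (nat_lit 482) (nat_lit 213)) (XT.lf (nat_lit 0) (nat_lit 28449032769) (nat_lit 532) (nat_lit 35789465990) (nat_lit 608) (nat_lit 2491606507) (nat_lit 284) (nat_lit 5) (nat_lit 291) (nat_lit 5) (nat_lit 292) (nat_lit 5) (nat_lit 506) (nat_lit 482) (nat_lit 212))) (XT.nd (nat_lit 78) (nat_lit 608) (nat_lit 0) (XT.lf (nat_lit 0) (nat_lit 5106711060) (nat_lit 608) (nat_lit 1380821651) (nat_lit 76) (nat_lit 61357157893)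 (nat_lit 283) (nat_lit 5) (nat_lit 291) (nat_lit 5) (nat_lit 284) (nat_lit 5) (nat_lit 507) (nat_lit 482) (nat_lit 211)) (XT.lf (nat_lit 0) (nat_lit 13472633894) (nat_lit 684) (nat_lit 31883253064) (nat_lit 76) (nat_lit 23618394452) (nat_lit 275) (nat_lit 5) (nat_lit 284) (nat_lit 5) (nat_lit 276) (nat_lit 5) (nat_lit 508) (nat_lit 482) (nat_lit 210))))) (XT.nd (nat_lit 312) (nat_lit 1444) (nat_lit 0) (XT.nd (nat_lit 156) (nat_lit 532) (nat_lit 0) (XT.nd (nat_lit 78) (nat_lit 0) (nat_lit 0) (XT.lf (nat_lit 0) (nat_lit 6673158564) (nat_lit 532) (nat_lit 15558196738) (nat_lit 608) (nat_lit 47902150036) (nat_lit 268) (nat_lit 5) (nat_lit 275) (nat_lit 5) (nat_lit 276) (nat_lit 5) (nat_lit 509) (nat_lit 482) (nat_lit 209)) (XT.lf (nat_lit 0) (nat_lit 31722827533) (nat_lit 608) (nat_lit 24427365805) (nat_lit 76) (nat_lit 15163212996) (nat_lit 268) (nat_lit 5) (nat_lit 276) (nat_lit 5) (nat_lit 269) (nat_lit 5) (nat_lit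 510) (nat_lit 482) (nat_lit 208))) (XT.nd (nat_lit 78) (nat_lit 0) (nat_lit 0) (XT.lf (nat_lit 0) (nat_lit 15932792408) (nat_lit 532) (nat_lit 25872838530) (nat_lit 608) (nat_lit 30713875835) (nat_lit 261) (nat_lit 5) (nat_lit 268) (nat_lit 5) (nat_lit 269) (nat_lit 5) (nat_lit 511) (nat_lit 482) (nat_lit 207)) (XT.lf (nat_lit 0) (nat_lit 52490499804) (nat_lit 608) (nat_lit 15804097725) (nat_lit 76) (nat_lit 5458205278) (nat_lit 261) (nat_lit 5) (nat_lit 269) (nat_lit 5) (nat_lit 262) (nat_lit 5) (nat_lit 512) (nat_lit 482) (nat_lit 206)))) (XT.nd (nat_lit 156) (nat_lit 988) (nat_lit 0) (XT.nd (nat_lit 78) (nat_lit 0) (nat_lit 0) (XT.lf (nat_lit 0) (nat_lit 26461522867) (nat_lit 456) (nat_lit 37544340755) (nat_lit 532) (nat_lit 11001935656) (nat_lit 255) (nat_lit 5) (nat_lit 261) (nat_lit 5) (nat_lit 262) (nat_lit 5) (nat_lit 513) (nat_lit 482) (nat_lit 205)) (XT.lf (nat_lit 0) (nat_lit 70318419683) (nat_lit 456)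 (nat_lit 5707287499) (nat_lit 532) (nat_lit 269967918) (nat_lit 255) (nat_lit 5) (nat_lit 261) (nat_lit 5) (nat_lit 262) (nat_lit 5) (nat_lit 514) (nat_lit 482) (nat_lit 204))) (XT.nd (nat_lit 78) (nat_lit 456) (nat_lit 0) (XT.lf (nat_lit 0) (nat_lit 11208252563) (nat_lit 532) (nat_lit 39356925196) (nat_lit 76) (nat_lit 27034857771) (nat_lit 248) (nat_lit 5) (nat_lit 255) (nat_lit 5) (nat_lit 249) (nat_lit 5) (nat_lit 515) (nat_lit 482) (nat_lit 203)) (XT.lf (nat_lit 0) (nat_lit 5008186281) (nat_lit 456) (nat_lit 18182261752) (nat_lit 532) (nat_lit 55748046937) (nat_lit 242) (nat_lit 5) (nat_lit 248) (nat_lit 5) (nat_lit 249) (nat_lit 5) (nat_lit 516) (nat_lit 482) (nat_lit 202))))))))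
noncomputable def xc237 : XT := (XT.nd (nat_lit 60372) (nat_lit 0) (nat_lit 4408) (XT.nd (nat_lit 1170) (nat_lit 1976) (nat_lit 0) (XT.nd (nat_lit 546) (nat_lit 1520) (nat_lit 0) (XT.nd (nat_lit 234) (nat_lit 1292) (nat_lit 0) (XT.nd (nat_lit 78) (nat_lit 456) (nat_lit 0) (XT.lf (nat_lit 0) (nat_lit 36078773383) (nat_lit 532) (nat_lit 28944605425) (nat_lit 76) (nat_lit 15277329483) (nat_lit 242) (nat_lit 5) (nat_lit 249) (nat_lit 5) (nat_lit 243) (nat_lit 5) (nat_lit 517) (nat_lit 482) (nat_lit 201)) (XT.nd (nat_lit 78) (nat_lit 0) (nat_lit 0) (XT.lf (nat_lit 0) (nat_lit 17552508018) (nat_lit 456) (nat_lit 32149461521) (nat_lit 532) (nat_lit 31991371861) (nat_lit 236) (nat_lit 5) (nat_lit 242) (nat_lit 5) (nat_lit 243) (nat_lit 5) (nat_lit 518) (nat_lit 482) (nat_lit 200)) (XT.lf (nat_lit 0) (nat_lit 64044964410) (nat_lit 532) (nat_lit 17101111145) (nat_lit 76) (nat_lit 1972344880) (nat_lit 236) (nat_lit 5) (nat_lit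 243) (nat_lit 5) (nat_lit 237) (nat_lit 5) (nat_lit 519) (nat_lit 482) (nat_lit 199)))) (XT.nd (nat_lit 156) (nat_lit 836) (nat_lit 0) (XT.nd (nat_lit 78) (nat_lit 76) (nat_lit 0) (XT.lf (nat_lit 0) (nat_lit 31648426122) (nat_lit 380) (nat_lit 47791854780) (nat_lit 456) (nat_lit 5127310004) (nat_lit 231) (nat_lit 5) (nat_lit 236) (nat_lit 5) (nat_lit 237) (nat_lit 5) (nat_lit 520) (nat_lit 482) (nat_lit 198)) (XT.lf (nat_lit 0) (nat_lit 9230866333) (nat_lit 456) (nat_lit 3935197548) (nat_lit 76) (nat_lit 72886291891) (nat_lit 230) (nat_lit 5) (nat_lit 236) (nat_lit 5) (nat_lit 231) (nat_lit 5) (nat_lit 521) (nat_lit 482) (nat_lit 197))) (XT.nd (nat_lit 78) (nat_lit 380) (nat_lit 0) (XT.lf (nat_lit 0) (nat_lit 24593087520) (nat_lit 532) (nat_lit 40396088805) (nat_lit 76) (nat_lit 22570673708) (nat_lit 224) (nat_lit 5) (nat_lit 231) (nat_lit 5) (nat_lit 225) (nat_lit 5) (nat_lit 522) (nat_lit 482) (nat_lit 196)) (XT.lf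 (nat_lit 0) (nat_lit 10845226673) (nat_lit 380) (nat_lit 29845209220) (nat_lit 456) (nat_lit 48413905430) (nat_lit 219) (nat_lit 5) (nat_lit 224) (nat_lit 5) (nat_lit 225) (nat_lit 5) (nat_lit 523) (nat_lit 482) (nat_lit 195))))) (XT.nd (nat_lit 312) (nat_lit 684) (nat_lit 0) (XT.nd (nat_lit 156) (nat_lit 456) (nat_lit 0) (XT.nd (nat_lit 78) (nat_lit 380) (nat_lit 0) (XT.lf (nat_lit 0) (nat_lit 57743262241) (nat_lit 456) (nat_lit 26296814544) (nat_lit 76) (nat_lit 6640913855) (nat_lit 219) (nat_lit 5) (nat_lit 225) (nat_lit 5) (nat_lit 220) (nat_lit 5) (nat_lit 524) (nat_lit 482) (nat_lit 194)) (XT.lf (nat_lit 0) (nat_lit 27464162586) (nat_lit 380) (nat_lit 48402551748) (nat_lit 456) (nat_lit 16421453889) (nat_lit 214) (nat_lit 5) (nat_lit 219) (nat_lit 5) (nat_lit 220) (nat_lit 5) (nat_lit 525) (nat_lit 482) (nat_lit 193))) (XT.nd (nat_lit 78) (nat_lit 380) (nat_lit 0) (XT.lf (nat_lit 0) (nat_lit 846509720) (nat_lit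 456) (nat_lit 10567492973) (nat_lit 76) (nat_lit 82521356624) (nat_lit 213) (nat_lit 5) (nat_lit 219) (nat_lit 5) (nat_lit 214) (nat_lit 5) (nat_lit 526) (nat_lit 482) (nat_lit 192)) (XT.lf (nat_lit 0) (nat_lit 19007192706) (nat_lit 456) (nat_lit 49824151838) (nat_lit 76) (nat_lit 26774601892) (nat_lit 208) (nat_lit 5) (nat_lit 214) (nat_lit 5) (nat_lit 209) (nat_lit 5) (nat_lit 527) (nat_lit 482) (nat_lit 191)))) (XT.nd (nat_lit 156) (nat_lit 304) (nat_lit 0) (XT.nd (nat_lit 78) (nat_lit 0) (nat_lit 0) (XT.lf (nat_lit 0) (nat_lit 6731411789) (nat_lit 380) (nat_lit 31266331575) (nat_lit 456) (nat_lit 59320356401) (nat_lit 203) (nat_lit 5) (nat_lit 208) (nat_lit 5) (nat_lit 209) (nat_lit 5) (nat_lit 528) (nat_lit 482) (nat_lit 190)) (XT.lf (nat_lit 0) (nat_lit 58137066488) (nat_lit 456) (nat_lit 33138511762) (nat_lit 76) (nat_lit 7788667780) (nat_lit 203) (nat_lit 5) (nat_lit 209) (nat_lit 5) (nat_lit 204) (nat_lit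 5) (nat_lit 529) (nat_lit 482) (nat_lit 189))) (XT.nd (nat_lit 78) (nat_lit 0) (nat_lit 0) (XT.lf (nat_lit 0) (nat_lit 26234881775) (nat_lit 304) (nat_lit 53207022010) (nat_lit 380) (nat_lit 21404032875) (nat_lit 199) (nat_lit 5) (nat_lit 203) (nat_lit 5) (nat_lit 204) (nat_lit 5) (nat_lit 530) (nat_lit 482) (nat_lit 188)) (XT.lf (nat_lit 0) (nat_lit 88068192616) (nat_lit 304) (nat_lit 13651915199) (nat_lit 380) (nat_lit 950943556) (nat_lit 199) (nat_lit 5) (nat_lit 203) (nat_lit 5) (nat_lit 204) (nat_lit 5) (nat_lit 531) (nat_lit 482) (nat_lit 187)))))) (XT.nd (nat_lit 702) (nat_lit 304) (nat_lit 0) (XT.nd (nat_lit 312) (nat_lit 684) (nat_lit 0) (XT.nd (nat_lit 156) (nat_lit 304) (nat_lit 0) (XT.nd (nat_lit 78) (nat_lit 304) (nat_lit 0) (XT.lf (nat_lit 0) (nat_lit 20450582286) (nat_lit 380) (nat_lit 56850924198) (nat_lit 76) (nat_lit 27221790878) (nat_lit 194) (nat_lit 5) (nat_lit 199) (nat_lit 5) (nat_lit 195)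 (nat_lit 5) (nat_lit 532) (nat_lit 482) (nat_lit 186)) (XT.lf (nat_lit 0) (nat_lit 5652184252) (nat_lit 304) (nat_lit 37160876778) (nat_lit 380) (nat_lit 63607626651) (nat_lit 190) (nat_lit 5) (nat_lit 194) (nat_lit 5) (nat_lit 195) (nat_lit 5) (nat_lit 533) (nat_lit 482) (nat_lit 185))) (XT.nd (nat_lit 78) (nat_lit 304) (nat_lit 0) (XT.lf (nat_lit 0) (nat_lit 66466004320) (nat_lit 380) (nat_lit 37208497076) (nat_lit 76) (nat_lit 4681910618) (nat_lit 190) (nat_lit 5) (nat_lit 195) (nat_lit 5) (nat_lit 191) (nat_lit 5) (nat_lit 534) (nat_lit 482) (nat_lit 184)) (XT.lf (nat_lit 0) (nat_lit 28444867905) (nat_lit 304) (nat_lit 63024642905) (nat_lit 380) (nat_lit 18861468031) (nat_lit 186) (nat_lit 5) (nat_lit 190) (nat_lit 5) (nat_lit 191) (nat_lit 5) (nat_lit 535) (nat_lit 482) (nat_lit 183)))) (XT.nd (nat_lit 156) (nat_lit 304) (nat_lit 0) (XT.nd (nat_lit 78) (nat_lit 304) (nat_lit 0) (XT.lf (nat_lit 0) (nat_lit 5142607026)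 (nat_lit 380) (nat_lit 15573936504) (nat_lit 76) (nat_lit 91635465984) (nat_lit 185) (nat_lit 5) (nat_lit 190) (nat_lit 5) (nat_lit 186) (nat_lit 5) (nat_lit 536) (nat_lit 482) (nat_lit 182)) (XT.lf (nat_lit 0) (nat_lit 30229136671) (nat_lit 380) (nat_lit 61053374218) (nat_lit 76) (nat_lit 23123314937) (nat_lit 181) (nat_lit 5) (nat_lit 186) (nat_lit 5) (nat_lit 182) (nat_lit 5) (nat_lit 537) (nat_lit 482) (nat_lit 181))) (XT.nd (nat_lit 78) (nat_lit 0) (nat_lit 0) (XT.lf (nat_lit 0) (nat_lit 8100172499) (nat_lit 304) (nat_lit 48409523850) (nat_lit 380) (nat_lit 59998317263) (nat_lit 177) (nat_lit 5) (nat_lit 181) (nat_lit 5) (nat_lit 182) (nat_lit 5) (nat_lit 538) (nat_lit 482) (nat_lit 180)) (XT.lf (nat_lit 0) (nat_lit 80579302640) (nat_lit 304) (nat_lit 3615527612) (nat_lit 380) (nat_lit 34459952066) (nat_lit 177) (nat_lit 5) (nat_lit 181) (nat_lit 5) (nat_lit 182) (nat_lit 5) (nat_lit 539) (nat_lit 482) (nat_lit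 179))))) (XT.nd (nat_lit 58188) (nat_lit 0) (nat_lit 11780) (XT.nd (nat_lit 58032) (nat_lit 0) (nat_lit 11704) (XT.nd (nat_lit 57954) (nat_lit 0) (nat_lit 11704) (XT.lf (nat_lit 0) (nat_lit 20512170629) (nat_lit 304) (nat_lit 13019877086) (nat_lit 76) (nat_lit 89547646713) (nat_lit 173) (nat_lit 5) (nat_lit 177) (nat_lit 5) (nat_lit 174) (nat_lit 5) (nat_lit 541) (nat_lit 482) (nat_lit 177)) (XT.lf (nat_lit 0) (nat_lit 13529878022) (nat_lit 1292) (nat_lit 5040596540) (nat_lit 1292) (nat_lit 5040596540) (nat_lit 327) (nat_lit 3) (nat_lit 344) (nat_lit 3) (nat_lit 344) (nat_lit 5) (nat_lit 483) (nat_lit 483) (nat_lit 234))) (XT.nd (nat_lit 78) (nat_lit 0) (nat_lit 76) (XT.lf (nat_lit 76) (nat_lit 13702351445) (nat_lit 0) (nat_lit 13924259227) (nat_lit 1292) (nat_lit 20299033566) (nat_lit 328) (nat_lit 5) (nat_lit 327) (nat_lit 3) (nat_lit 344) (nat_lit 5) (nat_lit 484) (nat_lit 483) (nat_lit 233)) (XT.lf (nat_lit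 0) (nat_lit 28408157098) (nat_lit 1216) (nat_lit 10338807292) (nat_lit 1292) (nat_lit 9897356412) (nat_lit 328) (nat_lit 5) (nat_lit 344) (nat_lit 5) (nat_lit 345) (nat_lit 5) (nat_lit 485) (nat_lit 483) (nat_lit 232)))) (XT.nd (nat_lit 156) (nat_lit 0) (nat_lit 76) (XT.nd (nat_lit 78) (nat_lit 0) (nat_lit 76) (XT.lf (nat_lit 76) (nat_lit 14404818120) (nat_lit 0) (nat_lit 15083555161) (nat_lit 1292) (nat_lit 19887927732) (nat_lit 329) (nat_lit 5) (nat_lit 328) (nat_lit 5) (nat_lit 345) (nat_lit 5) (nat_lit 486) (nat_lit 483) (nat_lit 231)) (XT.lf (nat_lit 0) (nat_lit 30794652494) (nat_lit 1216) (nat_lit 10115404885) (nat_lit 1292) (nat_lit 9214373604) (nat_lit 329) (nat_lit 5) (nat_lit 345) (nat_lit 5) (nat_lit 346) (nat_lit 5) (nat_lit 487) (nat_lit 483) (nat_lit 230))) (XT.nd (nat_lit 78) (nat_lit 0) (nat_lit 76) (XT.lf (nat_lit 76) (nat_lit 15641604846) (nat_lit 0) (nat_lit 16797167791) (nat_lit 1292) (nat_lit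 18447272687) (nat_lit 330) (nat_lit 5) (nat_lit 329) (nat_lit 5) (nat_lit 346) (nat_lit 5) (nat_lit 488) (nat_lit 483) (nat_lit 229)) (XT.lf (nat_lit 0) (nat_lit 34311632318) (nat_lit 1216) (nat_lit 9367711980) (nat_lit 1292) (nat_lit 7985781367) (nat_lit 330) (nat_lit 5) (nat_lit 346) (nat_lit 5) (nat_lit 347) (nat_lit 5) (nat_lit 489) (nat_lit 483) (nat_lit 228))))))) (XT.nd (nat_lit 1248) (nat_lit 4560) (nat_lit 0) (XT.nd (nat_lit 624) (nat_lit 1900) (nat_lit 0) (XT.nd (nat_lit 312) (nat_lit 1064) (nat_lit 0) (XT.nd (nat_lit 156) (nat_lit 0) (nat_lit 76) (XT.nd (nat_lit 78) (nat_lit 0) (nat_lit 76) (XT.lf (nat_lit 76) (nat_lit 17459057285) (nat_lit 0) (nat_lit 19114767889) (nat_lit 1292) (nat_lit 15883758865) (nat_lit 331) (nat_lit 5) (nat_lit 330) (nat_lit 5) (nat_lit 347) (nat_lit 5) (nat_lit 490) (nat_lit 483) (nat_lit 227)) (XT.lf (nat_lit 0) (nat_lit 39057924224) (nat_lit 1216) (nat_lit 8049394622) (nat_lit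 1292) (nat_lit 6161876150) (nat_lit 331) (nat_lit 5) (nat_lit 347) (nat_lit 5) (nat_lit 348) (nat_lit 5) (nat_lit 491) (nat_lit 483) (nat_lit 226))) (XT.nd (nat_lit 78) (nat_lit 0) (nat_lit 76) (XT.lf (nat_lit 76) (nat_lit 19906760904) (nat_lit 0) (nat_lit 22089461976) (nat_lit 1292) (nat_lit 12097541147) (nat_lit 332) (nat_lit 5) (nat_lit 331) (nat_lit 5) (nat_lit 348) (nat_lit 5) (nat_lit 492) (nat_lit 483) (nat_lit 225)) (XT.lf (nat_lit 0) (nat_lit 45139211717) (nat_lit 1216) (nat_lit 6110866503) (nat_lit 1292) (nat_lit 3689495712) (nat_lit 332) (nat_lit 5) (nat_lit 348) (nat_lit 5) (nat_lit 349) (nat_lit 5) (nat_lit 493) (nat_lit 483) (nat_lit 224)))) (XT.nd (nat_lit 156) (nat_lit 1216) (nat_lit 0) (XT.nd (nat_lit 78) (nat_lit 0) (nat_lit 76) (XT.lf (nat_lit 76) (nat_lit 23037743847) (nat_lit 0) (nat_lit 25778022536) (nat_lit 1292) (nat_lit 6981813508) (nat_lit 333) (nat_lit 5) (nat_lit 332) (nat_lit 5) (nat_lit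 349) (nat_lit 5) (nat_lit 494) (nat_lit 483) (nat_lit 223)) (XT.lf (nat_lit 0) (nat_lit 52668478260) (nat_lit 1216) (nat_lit 3499084807) (nat_lit 1292) (nat_lit 511787183) (nat_lit 333) (nat_lit 5) (nat_lit 349) (nat_lit 5) (nat_lit 350) (nat_lit 5) (nat_lit 495) (nat_lit 483) (nat_lit 222))) (XT.nd (nat_lit 78) (nat_lit 1292) (nat_lit 0) (XT.lf (nat_lit 76) (nat_lit 26908692280) (nat_lit 0) (nat_lit 30241132479) (nat_lit 1292) (nat_lit 422357400) (nat_lit 334) (nat_lit 5) (nat_lit 333) (nat_lit 5) (nat_lit 350) (nat_lit 5) (nat_lit 496) (nat_lit 483) (nat_lit 221)) (XT.lf (nat_lit 0) (nat_lit 3244785012) (nat_lit 1292) (nat_lit 222792590) (nat_lit 1368) (nat_lit 55022231676) (nat_lit 316) (nat_lit 5) (nat_lit 333) (nat_lit 5) (nat_lit 334) (nat_lit 5) (nat_lit 497) (nat_lit 483) (nat_lit 220))))) (XT.nd (nat_lit 312) (nat_lit 1216) (nat_lit 0) (XT.nd (nat_lit 156) (nat_lit 760) (nat_lit 0) (XT.nd (nat_lit 78) (nat_lit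 0) (nat_lit 0) (XT.lf (nat_lit 0) (nat_lit 7552625688) (nat_lit 1292) (nat_lit 27914752382) (nat_lit 1368) (nat_lit 23951286534) (nat_lit 317) (nat_lit 5) (nat_lit 334) (nat_lit 5) (nat_lit 335) (nat_lit 5) (nat_lit 498) (nat_lit 483) (nat_lit 219)) (XT.lf (nat_lit 76) (nat_lit 3851811400) (nat_lit 0) (nat_lit 8210735951) (nat_lit 1368) (nat_lit 48310652900) (nat_lit 318) (nat_lit 5) (nat_lit 317) (nat_lit 5) (nat_lit 335) (nat_lit 5) (nat_lit 499) (nat_lit 483) (nat_lit 218))) (XT.nd (nat_lit 78) (nat_lit 836) (nat_lit 0) (XT.lf (nat_lit 0) (nat_lit 17182615899) (nat_lit 1292) (nat_lit 24398731682) (nat_lit 76) (nat_lit 19760778941) (nat_lit 318) (nat_lit 5) (nat_lit 335) (nat_lit 5) (nat_lit 319) (nat_lit 5) (nat_lit 500) (nat_lit 483) (nat_lit 217)) (XT.lf (nat_lit 0) (nat_lit 8776918588) (nat_lit 836) (nat_lit 13844286692) (nat_lit 912) (nat_lit 39713967771) (nat_lit 307) (nat_lit 5) (nat_lit 318) (nat_lit 5)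 (nat_lit 319) (nat_lit 5) (nat_lit 501) (nat_lit 483) (nat_lit 216)))) (XT.nd (nat_lit 156) (nat_lit 608) (nat_lit 0) (XT.nd (nat_lit 78) (nat_lit 608) (nat_lit 0) (XT.lf (nat_lit 0) (nat_lit 28612587066) (nat_lit 912) (nat_lit 20047292793) (nat_lit 76) (nat_lit 14686442105) (nat_lit 307) (nat_lit 5) (nat_lit 319) (nat_lit 5) (nat_lit 308) (nat_lit 5) (nat_lit 502) (nat_lit 483) (nat_lit 215)) (XT.lf (nat_lit 0) (nat_lit 14616488013) (nat_lit 608) (nat_lit 20444089646) (nat_lit 684) (nat_lit 29318921695) (nat_lit 299) (nat_lit 5) (nat_lit 307) (nat_lit 5) (nat_lit 308) (nat_lit 5) (nat_lit 503) (nat_lit 483) (nat_lit 214))) (XT.nd (nat_lit 78) (nat_lit 608) (nat_lit 0) (XT.lf (nat_lit 0) (nat_lit 41988601150) (nat_lit 684) (nat_lit 14791986995) (nat_lit 76) (nat_lit 8654486155) (nat_lit 299) (nat_lit 5) (nat_lit 308) (nat_lit 5) (nat_lit 300) (nat_lit 5) (nat_lit 504) (nat_lit 483) (nat_lit 213)) (XT.lf (nat_lit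 0) (nat_lit 21443538959) (nat_lit 608) (nat_lit 28088799031) (nat_lit 684) (nat_lit 16977742352) (nat_lit 291) (nat_lit 5) (nat_lit 299) (nat_lit 5) (nat_lit 300) (nat_lit 5) (nat_lit 505) (nat_lit 483) (nat_lit 212)))))) (XT.nd (nat_lit 624) (nat_lit 2280) (nat_lit 0) (XT.nd (nat_lit 312) (nat_lit 1064) (nat_lit 0) (XT.nd (nat_lit 156) (nat_lit 684) (nat_lit 0) (XT.nd (nat_lit 78) (nat_lit 532) (nat_lit 0) (XT.lf (nat_lit 0) (nat_lit 57466647305) (nat_lit 684) (nat_lit 8559719448) (nat_lit 76) (nat_lit 1586042030) (nat_lit 291) (nat_lit 5) (nat_lit 300) (nat_lit 5) (nat_lit 292) (nat_lit 5) (nat_lit 506) (nat_lit 483) (nat_lit 211)) (XT.lf (nat_lit 0) (nat_lit 29336004151) (nat_lit 532) (nat_lit 36862444474) (nat_lit 608) (nat_lit 2532574596) (nat_lit 284) (nat_lit 5) (nat_lit 291) (nat_lit 5) (nat_lit 292) (nat_lit 5) (nat_lit 507) (nat_lit 483) (nat_lit 210))) (XT.nd (nat_lit 78) (nat_lit 608) (nat_lit 0) (XT.lf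 (nat_lit 0) (nat_lit 5292068639) (nat_lit 608) (nat_lit 1389080392) (nat_lit 76) (nat_lit 63197916327) (nat_lit 283) (nat_lit 5) (nat_lit 291) (nat_lit 5) (nat_lit 284) (nat_lit 5) (nat_lit 508) (nat_lit 483) (nat_lit 209)) (XT.lf (nat_lit 0) (nat_lit 13908360802) (nat_lit 684) (nat_lit 32805975152) (nat_lit 76) (nat_lit 24328226222) (nat_lit 275) (nat_lit 5) (nat_lit 284) (nat_lit 5) (nat_lit 276) (nat_lit 5) (nat_lit 509) (nat_lit 483) (nat_lit 208)))) (XT.nd (nat_lit 156) (nat_lit 532) (nat_lit 0) (XT.nd (nat_lit 78) (nat_lit 0) (nat_lit 0) (XT.lf (nat_lit 0) (nat_lit 6906797693) (nat_lit 532) (nat_lit 16022448777) (nat_lit 608) (nat_lit 49307334310) (nat_lit 268) (nat_lit 5) (nat_lit 275) (nat_lit 5) (nat_lit 276) (nat_lit 5) (nat_lit 510) (nat_lit 483) (nat_lit 207)) (XT.lf (nat_lit 0) (nat_lit 32704584670) (nat_lit 608) (nat_lit 25126837150) (nat_lit 76) (nat_lit 15620483366) (nat_lit 268) (nat_lit 5) (nat_lit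 276) (nat_lit 5) (nat_lit 269) (nat_lit 5) (nat_lit 511) (nat_lit 483) (nat_lit 206))) (XT.nd (nat_lit 78) (nat_lit 0) (nat_lit 0) (XT.lf (nat_lit 0) (nat_lit 16443798852) (nat_lit 532) (nat_lit 26645514867) (nat_lit 608) (nat_lit 31604891707) (nat_lit 261) (nat_lit 5) (nat_lit 268) (nat_lit 5) (nat_lit 269) (nat_lit 5) (nat_lit 512) (nat_lit 483) (nat_lit 205)) (XT.lf (nat_lit 0) (nat_lit 54093901771) (nat_lit 608) (nat_lit 16245331829) (nat_lit 76) (nat_lit 5625291581) (nat_lit 261) (nat_lit 5) (nat_lit 269) (nat_lit 5) (nat_lit 262) (nat_lit 5) (nat_lit 513) (nat_lit 483) (nat_lit 204))))) (XT.nd (nat_lit 312) (nat_lit 836) (nat_lit 0) (XT.nd (nat_lit 156) (nat_lit 988) (nat_lit 0) (XT.nd (nat_lit 78) (nat_lit 0) (nat_lit 0) (XT.lf (nat_lit 0) (nat_lit 27287934942) (nat_lit 456) (nat_lit 38666269067) (nat_lit 532) (nat_lit 11302983244) (nat_lit 255) (nat_lit 5) (nat_lit 261) (nat_lit 5) (nat_lit 262) (nat_lit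 5) (nat_lit 514) (nat_lit 483) (nat_lit 203)) (XT.lf (nat_lit 0) (nat_lit 72459590127) (nat_lit 456) (nat_lit 5874232424) (nat_lit 532) (nat_lit 249901440) (nat_lit 255) (nat_lit 5) (nat_lit 261) (nat_lit 5) (nat_lit 262) (nat_lit 5) (nat_lit 515) (nat_lit 483) (nat_lit 202))) (XT.nd (nat_lit 78) (nat_lit 456) (nat_lit 0) (XT.lf (nat_lit 0) (nat_lit 11571663408) (nat_lit 532) (nat_lit 40505010866) (nat_lit 76) (nat_lit 27850546445) (nat_lit 248) (nat_lit 5) (nat_lit 255) (nat_lit 5) (nat_lit 249) (nat_lit 5) (nat_lit 516) (nat_lit 483) (nat_lit 201)) (XT.lf (nat_lit 0) (nat_lit 5190734131) (nat_lit 456) (nat_lit 18722109957) (nat_lit 532) (nat_lit 57393004302) (nat_lit 242) (nat_lit 5) (nat_lit 248) (nat_lit 5) (nat_lit 249) (nat_lit 5) (nat_lit 517) (nat_lit 483) (nat_lit 200)))) (XT.nd (nat_lit 156) (nat_lit 380) (nat_lit 0) (XT.nd (nat_lit 78) (nat_lit 456) (nat_lit 0) (XT.lf (nat_lit 0) (nat_lit 37187094482)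 (nat_lit 532) (nat_lit 29780856528) (nat_lit 76) (nat_lit 15740998871) (nat_lit 242) (nat_lit 5) (nat_lit 249) (nat_lit 5) (nat_lit 243) (nat_lit 5) (nat_lit 518) (nat_lit 483) (nat_lit 199)) (XT.lf (nat_lit 0) (nat_lit 18110855739) (nat_lit 456) (nat_lit 33107680145) (nat_lit 532) (nat_lit 32924839645) (nat_lit 236) (nat_lit 5) (nat_lit 242) (nat_lit 5) (nat_lit 243) (nat_lit 5) (nat_lit 519) (nat_lit 483) (nat_lit 198))) (XT.nd (nat_lit 78) (nat_lit 380) (nat_lit 0) (XT.lf (nat_lit 0) (nat_lit 65991136142) (nat_lit 532) (nat_lit 17582612083) (nat_lit 76) (nat_lit 2037479270) (nat_lit 236) (nat_lit 5) (nat_lit 243) (nat_lit 5) (nat_lit 237) (nat_lit 5) (nat_lit 520) (nat_lit 483) (nat_lit 197)) (XT.lf (nat_lit 0) (nat_lit 32629102161) (nat_lit 380) (nat_lit 49218787110) (nat_lit 456) (nat_lit 5255996519) (nat_lit 231) (nat_lit 5) (nat_lit 236) (nat_lit 5) (nat_lit 237) (nat_lit 5) (nat_lit 521) (nat_lit 483) (nat_lit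 196))))))))
noncomputable def xc238 : XT := (XT.nd (nat_lit 60372) (nat_lit 0) (nat_lit 3420) (XT.nd (nat_lit 1170) (nat_lit 912) (nat_lit 0) (XT.nd (nat_lit 546) (nat_lit 1672) (nat_lit 0) (XT.nd (nat_lit 234) (nat_lit 836) (nat_lit 0) (XT.nd (nat_lit 78) (nat_lit 836) (nat_lit 0) (XT.lf (nat_lit 0) (nat_lit 9531716938) (nat_lit 456) (nat_lit 4022462692) (nat_lit 76) (nat_lit 75079028281) (nat_lit 230) (nat_lit 5) (nat_lit 236) (nat_lit 5) (nat_lit 231) (nat_lit 5) (nat_lit 522) (nat_lit 483) (nat_lit 195)) (XT.nd (nat_lit 78) (nat_lit 380) (nat_lit 0) (XT.lf (nat_lit 0) (nat_lit 25354467987) (nat_lit 532) (nat_lit 41576843140) (nat_lit 76) (nat_lit 23254626000) (nat_lit 224) (nat_lit 5) (nat_lit 231) (nat_lit 5) (nat_lit 225) (nat_lit 5) (nat_lit 523) (nat_lit 483) (nat_lit 194)) (XT.lf (nat_lit 0) (nat_lit 11201406622) (nat_lit 380) (nat_lit 30732939455) (nat_lit 456) (nat_lit 49842428822) (nat_lit 219) (nat_lit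 5) (nat_lit 224) (nat_lit 5) (nat_lit 225) (nat_lit 5) (nat_lit 524) (nat_lit 483) (nat_lit 193)))) (XT.nd (nat_lit 156) (nat_lit 456) (nat_lit 0) (XT.nd (nat_lit 78) (nat_lit 380) (nat_lit 0) (XT.lf (nat_lit 0) (nat_lit 59498152743) (nat_lit 456) (nat_lit 27055188392) (nat_lit 76) (nat_lit 6847400718) (nat_lit 219) (nat_lit 5) (nat_lit 225) (nat_lit 5) (nat_lit 220) (nat_lit 5) (nat_lit 525) (nat_lit 483) (nat_lit 192)) (XT.lf (nat_lit 0) (nat_lit 28318318733) (nat_lit 380) (nat_lit 49846622229) (nat_lit 456) (nat_lit 16891204844) (nat_lit 214) (nat_lit 5) (nat_lit 219) (nat_lit 5) (nat_lit 220) (nat_lit 5) (nat_lit 526) (nat_lit 483) (nat_lit 191))) (XT.nd (nat_lit 78) (nat_lit 380) (nat_lit 0) (XT.lf (nat_lit 0) (nat_lit 893697189) (nat_lit 456) (nat_lit 10854732642) (nat_lit 76) (nat_lit 85004335834) (nat_lit 213) (nat_lit 5) (nat_lit 219) (nat_lit 5) (nat_lit 214) (nat_lit 5) (nat_lit 527) (nat_lit 483) (nat_lit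 190)) (XT.lf (nat_lit 0) (nat_lit 19598926849) (nat_lit 456) (nat_lit 51288816811) (nat_lit 76) (nat_lit 27585734971) (nat_lit 208) (nat_lit 5) (nat_lit 214) (nat_lit 5) (nat_lit 209) (nat_lit 5) (nat_lit 528) (nat_lit 483) (nat_lit 189))))) (XT.nd (nat_lit 312) (nat_lit 988) (nat_lit 0) (XT.nd (nat_lit 156) (nat_lit 304) (nat_lit 0) (XT.nd (nat_lit 78) (nat_lit 0) (nat_lit 0) (XT.lf (nat_lit 0) (nat_lit 6963119024) (nat_lit 380) (nat_lit 32195734373) (nat_lit 456) (nat_lit 61078153402) (nat_lit 203) (nat_lit 5) (nat_lit 208) (nat_lit 5) (nat_lit 209) (nat_lit 5) (nat_lit 529) (nat_lit 483) (nat_lit 188)) (XT.lf (nat_lit 0) (nat_lit 59901819528) (nat_lit 456) (nat_lit 34103231876) (nat_lit 76) (nat_lit 8030502165) (nat_lit 203) (nat_lit 5) (nat_lit 209) (nat_lit 5) (nat_lit 204) (nat_lit 5) (nat_lit 530) (nat_lit 483) (nat_lit 187))) (XT.nd (nat_lit 78) (nat_lit 0) (nat_lit 0) (XT.lf (nat_lit 0) (nat_lit 27051074886)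 (nat_lit 304) (nat_lit 54794406037) (nat_lit 380) (nat_lit 22025223643) (nat_lit 199) (nat_lit 5) (nat_lit 203) (nat_lit 5) (nat_lit 204) (nat_lit 5) (nat_lit 531) (nat_lit 483) (nat_lit 186)) (XT.lf (nat_lit 0) (nat_lit 90738536121) (nat_lit 304) (nat_lit 14052903109) (nat_lit 380) (nat_lit 959151262) (nat_lit 199) (nat_lit 5) (nat_lit 203) (nat_lit 5) (nat_lit 204) (nat_lit 5) (nat_lit 532) (nat_lit 483) (nat_lit 185)))) (XT.nd (nat_lit 156) (nat_lit 304) (nat_lit 0) (XT.nd (nat_lit 78) (nat_lit 304) (nat_lit 0) (XT.lf (nat_lit 0) (nat_lit 21083801200) (nat_lit 380) (nat_lit 58527533943) (nat_lit 76) (nat_lit 28047069555) (nat_lit 194) (nat_lit 5) (nat_lit 199) (nat_lit 5) (nat_lit 195) (nat_lit 5) (nat_lit 533) (nat_lit 483) (nat_lit 184)) (XT.lf (nat_lit 0) (nat_lit 5850384251) (nat_lit 304) (nat_lit 38266471479) (nat_lit 380) (nat_lit 65495869969) (nat_lit 190) (nat_lit 5) (nat_lit 194) (nat_lit 5) (nat_lit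 195) (nat_lit 5) (nat_lit 534) (nat_lit 483) (nat_lit 183))) (XT.nd (nat_lit 78) (nat_lit 304) (nat_lit 0) (XT.lf (nat_lit 0) (nat_lit 68478908342) (nat_lit 380) (nat_lit 38296472043) (nat_lit 76) (nat_lit 4831155762) (nat_lit 190) (nat_lit 5) (nat_lit 195) (nat_lit 5) (nat_lit 191) (nat_lit 5) (nat_lit 535) (nat_lit 483) (nat_lit 182)) (XT.lf (nat_lit 0) (nat_lit 29326216633) (nat_lit 304) (nat_lit 64906021391) (nat_lit 380) (nat_lit 19408110430) (nat_lit 186) (nat_lit 5) (nat_lit 190) (nat_lit 5) (nat_lit 191) (nat_lit 5) (nat_lit 536) (nat_lit 483) (nat_lit 181)))))) (XT.nd (nat_lit 58578) (nat_lit 0) (nat_lit 11704) (XT.nd (nat_lit 312) (nat_lit 228) (nat_lit 0) (XT.nd (nat_lit 156) (nat_lit 304) (nat_lit 0) (XT.nd (nat_lit 78) (nat_lit 304) (nat_lit 0) (XT.lf (nat_lit 0) (nat_lit 5315163828) (nat_lit 380) (nat_lit 16013603274) (nat_lit 76) (nat_lit 94393253873) (nat_lit 185) (nat_lit 5) (nat_lit 190) (nat_lit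 5) (nat_lit 186) (nat_lit 5) (nat_lit 537) (nat_lit 483) (nat_lit 180)) (XT.lf (nat_lit 0) (nat_lit 31154108355) (nat_lit 380) (nat_lit 62857242658) (nat_lit 76) (nat_lit 23826106206) (nat_lit 181) (nat_lit 5) (nat_lit 186) (nat_lit 5) (nat_lit 182) (nat_lit 5) (nat_lit 538) (nat_lit 483) (nat_lit 179))) (XT.nd (nat_lit 78) (nat_lit 0) (nat_lit 0) (XT.lf (nat_lit 0) (nat_lit 8370638570) (nat_lit 304) (nat_lit 49852183111) (nat_lit 380) (nat_lit 61779896866) (nat_lit 177) (nat_lit 5) (nat_lit 181) (nat_lit 5) (nat_lit 182) (nat_lit 5) (nat_lit 539) (nat_lit 483) (nat_lit 178)) (XT.lf (nat_lit 0) (nat_lit 83023342784) (nat_lit 304) (nat_lit 3714647368) (nat_lit 380) (nat_lit 35475915759) (nat_lit 177) (nat_lit 5) (nat_lit 181) (nat_lit 5) (nat_lit 182) (nat_lit 5) (nat_lit 540) (nat_lit 483) (nat_lit 177)))) (XT.nd (nat_lit 58110) (nat_lit 0) (nat_lit 11628) (XT.nd (nat_lit 58032) (nat_lit 0) (nat_lit 11628) (XT.lf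 (nat_lit 0) (nat_lit 35699201174) (nat_lit 228) (nat_lit 81173341944) (nat_lit 304) (nat_lit 7595967901) (nat_lit 174) (nat_lit 5) (nat_lit 177) (nat_lit 5) (nat_lit 178) (nat_lit 5) (nat_lit 541) (nat_lit 483) (nat_lit 176)) (XT.lf (nat_lit 0) (nat_lit 13964736166) (nat_lit 1292) (nat_lit 5176898439) (nat_lit 1292) (nat_lit 5176898439) (nat_lit 327) (nat_lit 3) (nat_lit 344) (nat_lit 3) (nat_lit 344) (nat_lit 5) (nat_lit 484) (nat_lit 484) (nat_lit 232))) (XT.nd (nat_lit 78) (nat_lit 0) (nat_lit 76) (XT.lf (nat_lit 76) (nat_lit 14142961512) (nat_lit 0) (nat_lit 14368967944) (nat_lit 1292) (nat_lit 20849785900) (nat_lit 328) (nat_lit 5) (nat_lit 327) (nat_lit 3) (nat_lit 344) (nat_lit 5) (nat_lit 485) (nat_lit 484) (nat_lit 231)) (XT.lf (nat_lit 0) (nat_lit 29315024244) (nat_lit 1216) (nat_lit 10618391811) (nat_lit 1292) (nat_lit 10168593177) (nat_lit 328) (nat_lit 5) (nat_lit 344) (nat_lit 5) (nat_lit 345) (nat_lit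 5) (nat_lit 486) (nat_lit 484) (nat_lit 230))))) (XT.nd (nat_lit 312) (nat_lit 0) (nat_lit 152) (XT.nd (nat_lit 156) (nat_lit 0) (nat_lit 76) (XT.nd (nat_lit 78) (nat_lit 0) (nat_lit 76) (XT.lf (nat_lit 76) (nat_lit 14867242562) (nat_lit 0) (nat_lit 15559104475) (nat_lit 1292) (nat_lit 20429640884) (nat_lit 329) (nat_lit 5) (nat_lit 328) (nat_lit 5) (nat_lit 345) (nat_lit 5) (nat_lit 487) (nat_lit 484) (nat_lit 229)) (XT.lf (nat_lit 0) (nat_lit 31770046493) (nat_lit 1216) (nat_lit 10387698564) (nat_lit 1292) (nat_lit 9468869847) (nat_lit 329) (nat_lit 5) (nat_lit 345) (nat_lit 5) (nat_lit 346) (nat_lit 5) (nat_lit 488) (nat_lit 484) (nat_lit 228))) (XT.nd (nat_lit 78) (nat_lit 0) (nat_lit 76) (XT.lf (nat_lit 76) (nat_lit 16141715886) (nat_lit 0) (nat_lit 17320569443) (nat_lit 1292) (nat_lit 18948828564) (nat_lit 330) (nat_lit 5) (nat_lit 329) (nat_lit 5) (nat_lit 346) (nat_lit 5) (nat_lit 489) (nat_lit 484) (nat_lit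 227)) (XT.lf (nat_lit 0) (nat_lit 35389682448) (nat_lit 1216) (nat_lit 9617128773) (nat_lit 1292) (nat_lit 8206804940) (nat_lit 330) (nat_lit 5) (nat_lit 346) (nat_lit 5) (nat_lit 347) (nat_lit 5) (nat_lit 490) (nat_lit 484) (nat_lit 226)))) (XT.nd (nat_lit 156) (nat_lit 0) (nat_lit 76) (XT.nd (nat_lit 78) (nat_lit 0) (nat_lit 76) (XT.lf (nat_lit 76) (nat_lit 18014133623) (nat_lit 0) (nat_lit 19704489905) (nat_lit 1292) (nat_lit 16311258350) (nat_lit 331) (nat_lit 5) (nat_lit 330) (nat_lit 5) (nat_lit 347) (nat_lit 5) (nat_lit 491) (nat_lit 484) (nat_lit 225)) (XT.lf (nat_lit 0) (nat_lit 40275707694) (nat_lit 1216) (nat_lit 8258943661) (nat_lit 1292) (nat_lit 6331236009) (nat_lit 331) (nat_lit 5) (nat_lit 347) (nat_lit 5) (nat_lit 348) (nat_lit 5) (nat_lit 492) (nat_lit 484) (nat_lit 224))) (XT.nd (nat_lit 78) (nat_lit 0) (nat_lit 76) (XT.lf (nat_lit 76) (nat_lit 20535583465) (nat_lit 0) (nat_lit 22765534654) (nat_lit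 1292) (nat_lit 12414106523) (nat_lit 332) (nat_lit 5) (nat_lit 331) (nat_lit 5) (nat_lit 348) (nat_lit 5) (nat_lit 493) (nat_lit 484) (nat_lit 223)) (XT.lf (nat_lit 0) (nat_lit 46536960740) (nat_lit 1216) (nat_lit 6262055857) (nat_lit 1292) (nat_lit 3787435384) (nat_lit 332) (nat_lit 5) (nat_lit 348) (nat_lit 5) (nat_lit 349) (nat_lit 5) (nat_lit 494) (nat_lit 484) (nat_lit 222))))))) (XT.nd (nat_lit 1248) (nat_lit 4256) (nat_lit 0) (XT.nd (nat_lit 624) (nat_lit 2432) (nat_lit 0) (XT.nd (nat_lit 312) (nat_lit 684) (nat_lit 0) (XT.nd (nat_lit 156) (nat_lit 1216) (nat_lit 0) (XT.nd (nat_lit 78) (nat_lit 0) (nat_lit 76) (XT.lf (nat_lit 76) (nat_lit 23760697738) (nat_lit 0) (nat_lit 26562151089) (nat_lit 1292) (nat_lit 7147378245) (nat_lit 333) (nat_lit 5) (nat_lit 332) (nat_lit 5) (nat_lit 349) (nat_lit 5) (nat_lit 495) (nat_lit 484) (nat_lit 221)) (XT.lf (nat_lit 0) (nat_lit 54289800330) (nat_lit 1216) (nat_lit 3571819011)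 (nat_lit 1292) (nat_lit 516871510) (nat_lit 333) (nat_lit 5) (nat_lit 349) (nat_lit 5) (nat_lit 350) (nat_lit 5) (nat_lit 496) (nat_lit 484) (nat_lit 220))) (XT.nd (nat_lit 78) (nat_lit 1292) (nat_lit 0) (XT.lf (nat_lit 76) (nat_lit 27747875327) (nat_lit 0) (nat_lit 31156816781) (nat_lit 1292) (nat_lit 393442518) (nat_lit 334) (nat_lit 5) (nat_lit 333) (nat_lit 5) (nat_lit 350) (nat_lit 5) (nat_lit 497) (nat_lit 484) (nat_lit 219)) (XT.lf (nat_lit 0) (nat_lit 3381715086) (nat_lit 1292) (nat_lit 197694299) (nat_lit 1368) (nat_lit 56663904860) (nat_lit 316) (nat_lit 5) (nat_lit 333) (nat_lit 5) (nat_lit 334) (nat_lit 5) (nat_lit 498) (nat_lit 484) (nat_lit 218)))) (XT.nd (nat_lit 156) (nat_lit 760) (nat_lit 0) (XT.nd (nat_lit 78) (nat_lit 0) (nat_lit 0) (XT.lf (nat_lit 0) (nat_lit 7817870650) (nat_lit 1292) (nat_lit 28719490886) (nat_lit 1368) (nat_lit 24662701355) (nat_lit 317) (nat_lit 5) (nat_lit 334) (nat_lit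 5) (nat_lit 335) (nat_lit 5) (nat_lit 499) (nat_lit 484) (nat_lit 217)) (XT.lf (nat_lit 76) (nat_lit 3999749181) (nat_lit 0) (nat_lit 8462525871) (nat_lit 1368) (nat_lit 49720984051) (nat_lit 318) (nat_lit 5) (nat_lit 317) (nat_lit 5) (nat_lit 335) (nat_lit 5) (nat_lit 500) (nat_lit 484) (nat_lit 216))) (XT.nd (nat_lit 78) (nat_lit 836) (nat_lit 0) (XT.lf (nat_lit 0) (nat_lit 17734792162) (nat_lit 1292) (nat_lit 25098098336) (nat_lit 76) (nat_lit 20348397316) (nat_lit 318) (nat_lit 5) (nat_lit 335) (nat_lit 5) (nat_lit 319) (nat_lit 5) (nat_lit 501) (nat_lit 484) (nat_lit 215)) (XT.lf (nat_lit 0) (nat_lit 9072501880) (nat_lit 836) (nat_lit 14263278731) (nat_lit 912) (nat_lit 40868367931) (nat_lit 307) (nat_lit 5) (nat_lit 318) (nat_lit 5) (nat_lit 319) (nat_lit 5) (nat_lit 502) (nat_lit 484) (nat_lit 214))))) (XT.nd (nat_lit 312) (nat_lit 1216) (nat_lit 0) (XT.nd (nat_lit 156) (nat_lit 608) (nat_lit 0) (XT.nd (nat_lit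 78) (nat_lit 608) (nat_lit 0) (XT.lf (nat_lit 0) (nat_lit 29505822889) (nat_lit 912) (nat_lit 20616293470) (nat_lit 76) (nat_lit 15123548037) (nat_lit 307) (nat_lit 5) (nat_lit 319) (nat_lit 5) (nat_lit 308) (nat_lit 5) (nat_lit 503) (nat_lit 484) (nat_lit 213)) (XT.lf (nat_lit 0) (nat_lit 15087082935) (nat_lit 608) (nat_lit 21059463545) (nat_lit 684) (nat_lit 30163311872) (nat_lit 299) (nat_lit 5) (nat_lit 307) (nat_lit 5) (nat_lit 308) (nat_lit 5) (nat_lit 504) (nat_lit 484) (nat_lit 212))) (XT.nd (nat_lit 78) (nat_lit 608) (nat_lit 0) (XT.lf (nat_lit 0) (nat_lit 43281396829) (nat_lit 684) (nat_lit 15203566040) (nat_lit 76) (nat_lit 8912168135) (nat_lit 299) (nat_lit 5) (nat_lit 308) (nat_lit 5) (nat_lit 300) (nat_lit 5) (nat_lit 505) (nat_lit 484) (nat_lit 211)) (XT.lf (nat_lit 0) (nat_lit 22118710196) (nat_lit 608) (nat_lit 28932076711) (nat_lit 684) (nat_lit 17453620128) (nat_lit 291) (nat_lit 5) (nat_lit 299)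 (nat_lit 5) (nat_lit 300) (nat_lit 5) (nat_lit 506) (nat_lit 484) (nat_lit 210)))) (XT.nd (nat_lit 156) (nat_lit 684) (nat_lit 0) (XT.nd (nat_lit 78) (nat_lit 532) (nat_lit 0) (XT.lf (nat_lit 0) (nat_lit 59222173790) (nat_lit 684) (nat_lit 8784621045) (nat_lit 76) (nat_lit 1633039084) (nat_lit 291) (nat_lit 5) (nat_lit 300) (nat_lit 5) (nat_lit 292) (nat_lit 5) (nat_lit 507) (nat_lit 484) (nat_lit 209)) (XT.lf (nat_lit 0) (nat_lit 30247661615) (nat_lit 532) (nat_lit 37967652811) (nat_lit 608) (nat_lit 2576710845) (nat_lit 284) (nat_lit 5) (nat_lit 291) (nat_lit 5) (nat_lit 292) (nat_lit 5) (nat_lit 508) (nat_lit 484) (nat_lit 208))) (XT.nd (nat_lit 78) (nat_lit 608) (nat_lit 0) (XT.lf (nat_lit 0) (nat_lit 5481141044) (nat_lit 608) (nat_lit 1399490754) (nat_lit 76) (nat_lit 65093895006) (nat_lit 283) (nat_lit 5) (nat_lit 291) (nat_lit 5) (nat_lit 284) (nat_lit 5) (nat_lit 509) (nat_lit 484) (nat_lit 207)) (XT.lf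 (nat_lit 0) (nat_lit 14355348538) (nat_lit 684) (nat_lit 33758317754) (nat_lit 76) (nat_lit 25059279472) (nat_lit 275) (nat_lit 5) (nat_lit 284) (nat_lit 5) (nat_lit 276) (nat_lit 5) (nat_lit 510) (nat_lit 484) (nat_lit 206)))))) (XT.nd (nat_lit 624) (nat_lit 1748) (nat_lit 0) (XT.nd (nat_lit 312) (nat_lit 1444) (nat_lit 0) (XT.nd (nat_lit 156) (nat_lit 532) (nat_lit 0) (XT.nd (nat_lit 78) (nat_lit 0) (nat_lit 0) (XT.lf (nat_lit 0) (nat_lit 7145526151) (nat_lit 532) (nat_lit 16500771534) (nat_lit 608) (nat_lit 50756504168) (nat_lit 268) (nat_lit 5) (nat_lit 275) (nat_lit 5) (nat_lit 276) (nat_lit 5) (nat_lit 511) (nat_lit 484) (nat_lit 205)) (XT.lf (nat_lit 0) (nat_lit 33714068247) (nat_lit 608) (nat_lit 25849207041) (nat_lit 76) (nat_lit 16091335571) (nat_lit 268) (nat_lit 5) (nat_lit 276) (nat_lit 5) (nat_lit 269) (nat_lit 5) (nat_lit 512) (nat_lit 484) (nat_lit 204))) (XT.nd (nat_lit 78) (nat_lit 0) (nat_lit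 0) (XT.lf (nat_lit 0) (nat_lit 16968239852) (nat_lit 532) (nat_lit 27441572915) (nat_lit 608) (nat_lit 32524383163) (nat_lit 261) (nat_lit 5) (nat_lit 268) (nat_lit 5) (nat_lit 269) (nat_lit 5) (nat_lit 513) (nat_lit 484) (nat_lit 203)) (XT.lf (nat_lit 0) (nat_lit 55743759047) (nat_lit 608) (nat_lit 16701690909) (nat_lit 76) (nat_lit 5797198736) (nat_lit 261) (nat_lit 5) (nat_lit 269) (nat_lit 5) (nat_lit 262) (nat_lit 5) (nat_lit 514) (nat_lit 484) (nat_lit 202)))) (XT.nd (nat_lit 156) (nat_lit 988) (nat_lit 0) (XT.nd (nat_lit 78) (nat_lit 0) (nat_lit 0) (XT.lf (nat_lit 0) (nat_lit 28137269935) (nat_lit 456) (nat_lit 39822107916) (nat_lit 532) (nat_lit 11614727581) (nat_lit 255) (nat_lit 5) (nat_lit 261) (nat_lit 5) (nat_lit 262) (nat_lit 5) (nat_lit 515) (nat_lit 484) (nat_lit 201)) (XT.lf (nat_lit 0) (nat_lit 74663180689) (nat_lit 456) (nat_lit 6046431025) (nat_lit 532) (nat_lit 230849783) (nat_lit 255) (nat_lit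 5) (nat_lit 261) (nat_lit 5) (nat_lit 262) (nat_lit 5) (nat_lit 516) (nat_lit 484) (nat_lit 200))) (XT.nd (nat_lit 78) (nat_lit 456) (nat_lit 0) (XT.lf (nat_lit 0) (nat_lit 11944417297) (nat_lit 532) (nat_lit 41689411746) (nat_lit 76) (nat_lit 28690439256) (nat_lit 248) (nat_lit 5) (nat_lit 255) (nat_lit 5) (nat_lit 249) (nat_lit 5) (nat_lit 517) (nat_lit 484) (nat_lit 199)) (XT.lf (nat_lit 0) (nat_lit 5376904135) (nat_lit 456) (nat_lit 19278476200) (nat_lit 532) (nat_lit 59088888084) (nat_lit 242) (nat_lit 5) (nat_lit 248) (nat_lit 5) (nat_lit 249) (nat_lit 5) (nat_lit 518) (nat_lit 484) (nat_lit 198))))) (XT.nd (nat_lit 312) (nat_lit 912) (nat_lit 0) (XT.nd (nat_lit 156) (nat_lit 380) (nat_lit 0) (XT.nd (nat_lit 78) (nat_lit 456) (nat_lit 0) (XT.lf (nat_lit 0) (nat_lit 38327175124) (nat_lit 532) (nat_lit 30644037094) (nat_lit 76) (nat_lit 16218271256) (nat_lit 242) (nat_lit 5) (nat_lit 249) (nat_lit 5) (nat_lit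 243) (nat_lit 5) (nat_lit 519) (nat_lit 484) (nat_lit 197)) (XT.lf (nat_lit 0) (nat_lit 18684130021) (nat_lit 456) (nat_lit 34095004977) (nat_lit 532) (nat_lit 33887819661) (nat_lit 236) (nat_lit 5) (nat_lit 242) (nat_lit 5) (nat_lit 243) (nat_lit 5) (nat_lit 520) (nat_lit 484) (nat_lit 196))) (XT.nd (nat_lit 78) (nat_lit 380) (nat_lit 0) (XT.lf (nat_lit 0) (nat_lit 67994268095) (nat_lit 532) (nat_lit 18080368138) (nat_lit 76) (nat_lit 2104225331) (nat_lit 236) (nat_lit 5) (nat_lit 243) (nat_lit 5) (nat_lit 237) (nat_lit 5) (nat_lit 521) (nat_lit 484) (nat_lit 195)) (XT.lf (nat_lit 0) (nat_lit 33637406139) (nat_lit 380) (nat_lit 50688919097) (nat_lit 456) (nat_lit 5389986355) (nat_lit 231) (nat_lit 5) (nat_lit 236) (nat_lit 5) (nat_lit 237) (nat_lit 5) (nat_lit 522) (nat_lit 484) (nat_lit 194)))) (XT.nd (nat_lit 156) (nat_lit 380) (nat_lit 0) (XT.nd (nat_lit 78) (nat_lit 456) (nat_lit 0) (XT.lf (nat_lit 0) (nat_lit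 9840219691) (nat_lit 456) (nat_lit 4114113307) (nat_lit 76) (nat_lit 77337193863) (nat_lit 230) (nat_lit 5) (nat_lit 236) (nat_lit 5) (nat_lit 231) (nat_lit 5) (nat_lit 523) (nat_lit 484) (nat_lit 193)) (XT.lf (nat_lit 0) (nat_lit 26137335829) (nat_lit 532) (nat_lit 42794806999) (nat_lit 76) (nat_lit 23958704671) (nat_lit 224) (nat_lit 5) (nat_lit 231) (nat_lit 5) (nat_lit 225) (nat_lit 5) (nat_lit 524) (nat_lit 484) (nat_lit 192))) (XT.nd (nat_lit 78) (nat_lit 0) (nat_lit 0) (XT.lf (nat_lit 0) (nat_lit 11566502596) (nat_lit 380) (nat_lit 31647739363) (nat_lit 456) (nat_lit 51315179516) (nat_lit 219) (nat_lit 5) (nat_lit 224) (nat_lit 5) (nat_lit 225) (nat_lit 5) (nat_lit 525) (nat_lit 484) (nat_lit 191)) (XT.lf (nat_lit 0) (nat_lit 61304393050) (nat_lit 456) (nat_lit 27838066036) (nat_lit 76) (nat_lit 7059665464) (nat_lit 219) (nat_lit 5) (nat_lit 225) (nat_lit 5) (nat_lit 220) (nat_lit 5) (nat_lit 526) (nat_lit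 484) (nat_lit 190))))))))
noncomputable def xc239 : XT := (XT.nd (nat_lit 60606) (nat_lit 0) (nat_lit 1672) (XT.nd (nat_lit 59358) (nat_lit 0) (nat_lit 10564) (XT.nd (nat_lit 546) (nat_lit 1672) (nat_lit 0) (XT.nd (nat_lit 234) (nat_lit 684) (nat_lit 0) (XT.nd (nat_lit 78) (nat_lit 456) (nat_lit 0) (XT.lf (nat_lit 0) (nat_lit 29196364166) (nat_lit 380) (nat_lit 51334474406) (nat_lit 456) (nat_lit 17376362461) (nat_lit 214) (nat_lit 5) (nat_lit 219) (nat_lit 5) (nat_lit 220) (nat_lit 5) (nat_lit 527) (nat_lit 484) (nat_lit 189)) (XT.nd (nat_lit 78) (nat_lit 380) (nat_lit 0) (XT.lf (nat_lit 0) (nat_lit 941049322) (nat_lit 456) (nat_lit 11152299289) (nat_lit 76) (nat_lit 87561383160) (nat_lit 213) (nat_lit 5) (nat_lit 219) (nat_lit 5) (nat_lit 214) (nat_lit 5) (nat_lit 528) (nat_lit 484) (nat_lit 188)) (XT.lf (nat_lit 0) (nat_lit 20207177775) (nat_lit 456) (nat_lit 52799147275) (nat_lit 76) (nat_lit 28420748837) (nat_lit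 208) (nat_lit 5) (nat_lit 214) (nat_lit 5) (nat_lit 209) (nat_lit 5) (nat_lit 529) (nat_lit 484) (nat_lit 187)))) (XT.nd (nat_lit 156) (nat_lit 304) (nat_lit 0) (XT.nd (nat_lit 78) (nat_lit 0) (nat_lit 0) (XT.lf (nat_lit 0) (nat_lit 7200068849) (nat_lit 380) (nat_lit 33153512193) (nat_lit 456) (nat_lit 62889936507) (nat_lit 203) (nat_lit 5) (nat_lit 208) (nat_lit 5) (nat_lit 209) (nat_lit 5) (nat_lit 530) (nat_lit 484) (nat_lit 186)) (XT.lf (nat_lit 0) (nat_lit 61718330278) (nat_lit 456) (nat_lit 35098583297) (nat_lit 76) (nat_lit 8279122342) (nat_lit 203) (nat_lit 5) (nat_lit 209) (nat_lit 5) (nat_lit 204) (nat_lit 5) (nat_lit 531) (nat_lit 484) (nat_lit 185))) (XT.nd (nat_lit 78) (nat_lit 0) (nat_lit 0) (XT.lf (nat_lit 0) (nat_lit 27890080653) (nat_lit 304) (nat_lit 56429918270) (nat_lit 380) (nat_lit 22666251614) (nat_lit 199) (nat_lit 5) (nat_lit 203) (nat_lit 5) (nat_lit 204) (nat_lit 5) (nat_lit 532) (nat_lit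 484) (nat_lit 184)) (XT.lf (nat_lit 0) (nat_lit 93487365526) (nat_lit 304) (nat_lit 14466412583) (nat_lit 380) (nat_lit 968771686) (nat_lit 199) (nat_lit 5) (nat_lit 203) (nat_lit 5) (nat_lit 204) (nat_lit 5) (nat_lit 533) (nat_lit 484) (nat_lit 183))))) (XT.nd (nat_lit 390) (nat_lit 608) (nat_lit 0) (XT.nd (nat_lit 156) (nat_lit 380) (nat_lit 0) (XT.nd (nat_lit 78) (nat_lit 304) (nat_lit 0) (XT.lf (nat_lit 0) (nat_lit 21734885738) (nat_lit 380) (nat_lit 60256101991) (nat_lit 76) (nat_lit 28896611484) (nat_lit 194) (nat_lit 5) (nat_lit 199) (nat_lit 5) (nat_lit 195) (nat_lit 5) (nat_lit 534) (nat_lit 484) (nat_lit 182)) (XT.lf (nat_lit 0) (nat_lit 6052886514) (nat_lit 304) (nat_lit 39405763953) (nat_lit 380) (nat_lit 67441907836) (nat_lit 190) (nat_lit 5) (nat_lit 194) (nat_lit 5) (nat_lit 195) (nat_lit 5) (nat_lit 535) (nat_lit 484) (nat_lit 181))) (XT.nd (nat_lit 156) (nat_lit 380) (nat_lit 0) (XT.lf (nat_lit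 0) (nat_lit 70551113175) (nat_lit 380) (nat_lit 39418709644) (nat_lit 76) (nat_lit 4984373803) (nat_lit 190) (nat_lit 5) (nat_lit 195) (nat_lit 5) (nat_lit 191) (nat_lit 5) (nat_lit 536) (nat_lit 484) (nat_lit 180)) (XT.lf (nat_lit 0) (nat_lit 5491848068) (nat_lit 380) (nat_lit 16468041605) (nat_lit 76) (nat_lit 97233274611) (nat_lit 185) (nat_lit 5) (nat_lit 190) (nat_lit 5) (nat_lit 186) (nat_lit 5) (nat_lit 538) (nat_lit 484) (nat_lit 178)))) (XT.nd (nat_lit 58266) (nat_lit 0) (nat_lit 11400) (XT.nd (nat_lit 78) (nat_lit 304) (nat_lit 0) (XT.lf (nat_lit 0) (nat_lit 32105790315) (nat_lit 380) (nat_lit 64716819127) (nat_lit 76) (nat_lit 24549459306) (nat_lit 181) (nat_lit 5) (nat_lit 186) (nat_lit 5) (nat_lit 182) (nat_lit 5) (nat_lit 539) (nat_lit 484) (nat_lit 177)) (XT.lf (nat_lit 0) (nat_lit 8647642256) (nat_lit 304) (nat_lit 51338674747) (nat_lit 380) (nat_lit 63615978366) (nat_lit 177) (nat_lit 5) (nat_lit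 181) (nat_lit 5) (nat_lit 182) (nat_lit 5) (nat_lit 540) (nat_lit 484) (nat_lit 176))) (XT.nd (nat_lit 78) (nat_lit 0) (nat_lit 0) (XT.lf (nat_lit 0) (nat_lit 14410977528) (nat_lit 1292) (nat_lit 5318145634) (nat_lit 1292) (nat_lit 5318145634) (nat_lit 327) (nat_lit 3) (nat_lit 344) (nat_lit 3) (nat_lit 344) (nat_lit 5) (nat_lit 485) (nat_lit 485) (nat_lit 230)) (XT.lf (nat_lit 76) (nat_lit 14595094192) (nat_lit 0) (nat_lit 14825469105) (nat_lit 1292) (nat_lit 21420402794) (nat_lit 328) (nat_lit 5) (nat_lit 327) (nat_lit 3) (nat_lit 344) (nat_lit 5) (nat_lit 486) (nat_lit 485) (nat_lit 229)))))) (XT.nd (nat_lit 624) (nat_lit 912) (nat_lit 0) (XT.nd (nat_lit 312) (nat_lit 0) (nat_lit 152) (XT.nd (nat_lit 156) (nat_lit 0) (nat_lit 76) (XT.nd (nat_lit 78) (nat_lit 0) (nat_lit 0) (XT.lf (nat_lit 0) (nat_lit 30245961854) (nat_lit 1216) (nat_lit 10908119266) (nat_lit 1292) (nat_lit 10449441409) (nat_lit 328) (nat_lit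 5) (nat_lit 344) (nat_lit 5) (nat_lit 345) (nat_lit 5) (nat_lit 487) (nat_lit 485) (nat_lit 228)) (XT.lf (nat_lit 76) (nat_lit 15341801547) (nat_lit 0) (nat_lit 16047597525) (nat_lit 1292) (nat_lit 20990758331) (nat_lit 329) (nat_lit 5) (nat_lit 328) (nat_lit 5) (nat_lit 345) (nat_lit 5) (nat_lit 488) (nat_lit 485) (nat_lit 227))) (XT.nd (nat_lit 78) (nat_lit 0) (nat_lit 0) (XT.lf (nat_lit 0) (nat_lit 32771742878) (nat_lit 1216) (nat_lit 10669950251) (nat_lit 1292) (nat_lit 9732260135) (nat_lit 329) (nat_lit 5) (nat_lit 345) (nat_lit 5) (nat_lit 346) (nat_lit 5) (nat_lit 489) (nat_lit 485) (nat_lit 226)) (XT.lf (nat_lit 76) (nat_lit 16655058600) (nat_lit 0) (nat_lit 17858554533) (nat_lit 1292) (nat_lit 19468408225) (nat_lit 330) (nat_lit 5) (nat_lit 329) (nat_lit 5) (nat_lit 346) (nat_lit 5) (nat_lit 490) (nat_lit 485) (nat_lit 225)))) (XT.nd (nat_lit 156) (nat_lit 0) (nat_lit 76) (XT.nd (nat_lit 78) (nat_lit 0)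 (nat_lit 0) (XT.lf (nat_lit 0) (nat_lit 36497278436) (nat_lit 1216) (nat_lit 9875842876) (nat_lit 1292) (nat_lit 8435524058) (nat_lit 330) (nat_lit 5) (nat_lit 346) (nat_lit 5) (nat_lit 347) (nat_lit 5) (nat_lit 491) (nat_lit 485) (nat_lit 224)) (XT.lf (nat_lit 76) (nat_lit 18584065238) (nat_lit 0) (nat_lit 20310969102) (nat_lit 1292) (nat_lit 16754396383) (nat_lit 331) (nat_lit 5) (nat_lit 330) (nat_lit 5) (nat_lit 347) (nat_lit 5) (nat_lit 492) (nat_lit 485) (nat_lit 223))) (XT.nd (nat_lit 78) (nat_lit 0) (nat_lit 0) (XT.lf (nat_lit 0) (nat_lit 41527381454) (nat_lit 1216) (nat_lit 8476612244) (nat_lit 1292) (nat_lit 6506566222) (nat_lit 331) (nat_lit 5) (nat_lit 347) (nat_lit 5) (nat_lit 348) (nat_lit 5) (nat_lit 493) (nat_lit 485) (nat_lit 222)) (XT.lf (nat_lit 76) (nat_lit 21181455600) (nat_lit 0) (nat_lit 23461120940) (nat_lit 1292) (nat_lit 12742830163) (nat_lit 332) (nat_lit 5) (nat_lit 331) (nat_lit 5) (nat_lit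 348) (nat_lit 5) (nat_lit 494) (nat_lit 485) (nat_lit 221))))) (XT.nd (nat_lit 312) (nat_lit 1216) (nat_lit 0) (XT.nd (nat_lit 156) (nat_lit 0) (nat_lit 76) (XT.nd (nat_lit 78) (nat_lit 0) (nat_lit 0) (XT.lf (nat_lit 0) (nat_lit 47974140984) (nat_lit 1216) (nat_lit 6419625666) (nat_lit 1292) (nat_lit 3889044872) (nat_lit 332) (nat_lit 5) (nat_lit 348) (nat_lit 5) (nat_lit 349) (nat_lit 5) (nat_lit 495) (nat_lit 485) (nat_lit 220)) (XT.lf (nat_lit 76) (nat_lit 24503513558) (nat_lit 0) (nat_lit 27369184230) (nat_lit 1292) (nat_lit 7320429371) (nat_lit 333) (nat_lit 5) (nat_lit 332) (nat_lit 5) (nat_lit 349) (nat_lit 5) (nat_lit 496) (nat_lit 485) (nat_lit 219))) (XT.nd (nat_lit 78) (nat_lit 0) (nat_lit 0) (XT.lf (nat_lit 0) (nat_lit 55957393125) (nat_lit 1216) (nat_lit 3648585853) (nat_lit 1292) (nat_lit 522697867) (nat_lit 333) (nat_lit 5) (nat_lit 349) (nat_lit 5) (nat_lit 350) (nat_lit 5) (nat_lit 497) (nat_lit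 485) (nat_lit 218)) (XT.lf (nat_lit 76) (nat_lit 28610401396) (nat_lit 0) (nat_lit 32099486528) (nat_lit 1292) (nat_lit 366047373) (nat_lit 334) (nat_lit 5) (nat_lit 333) (nat_lit 5) (nat_lit 350) (nat_lit 5) (nat_lit 498) (nat_lit 485) (nat_lit 217)))) (XT.nd (nat_lit 156) (nat_lit 0) (nat_lit 76) (XT.nd (nat_lit 78) (nat_lit 0) (nat_lit 76) (XT.lf (nat_lit 0) (nat_lit 3520480634) (nat_lit 1292) (nat_lit 173667480) (nat_lit 1368) (nat_lit 58355344518) (nat_lit 316) (nat_lit 5) (nat_lit 333) (nat_lit 5) (nat_lit 334) (nat_lit 5) (nat_lit 499) (nat_lit 485) (nat_lit 216)) (XT.lf (nat_lit 0) (nat_lit 8088853362) (nat_lit 1292) (nat_lit 29550248893) (nat_lit 1368) (nat_lit 25395867555) (nat_lit 317) (nat_lit 5) (nat_lit 334) (nat_lit 5) (nat_lit 335) (nat_lit 5) (nat_lit 500) (nat_lit 485) (nat_lit 215))) (XT.nd (nat_lit 78) (nat_lit 0) (nat_lit 76) (XT.lf (nat_lit 76) (nat_lit 4150266154) (nat_lit 0) (nat_lit 8721555611)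 (nat_lit 1368) (nat_lit 51175863232) (nat_lit 318) (nat_lit 5) (nat_lit 317) (nat_lit 5) (nat_lit 335) (nat_lit 5) (nat_lit 501) (nat_lit 485) (nat_lit 214)) (XT.lf (nat_lit 0) (nat_lit 18301427110) (nat_lit 1292) (nat_lit 25820317093) (nat_lit 76) (nat_lit 20953943029) (nat_lit 318) (nat_lit 5) (nat_lit 335) (nat_lit 5) (nat_lit 319) (nat_lit 5) (nat_lit 502) (nat_lit 485) (nat_lit 213))))))) (XT.nd (nat_lit 1248) (nat_lit 3724) (nat_lit 0) (XT.nd (nat_lit 624) (nat_lit 2660) (nat_lit 0) (XT.nd (nat_lit 312) (nat_lit 1216) (nat_lit 0) (XT.nd (nat_lit 156) (nat_lit 608) (nat_lit 0) (XT.nd (nat_lit 78) (nat_lit 0) (nat_lit 0) (XT.lf (nat_lit 0) (nat_lit 9375099912) (nat_lit 836) (nat_lit 14694630235) (nat_lit 912) (nat_lit 42059525131) (nat_lit 307) (nat_lit 5) (nat_lit 318) (nat_lit 5) (nat_lit 319) (nat_lit 5) (nat_lit 503) (nat_lit 485) (nat_lit 212)) (XT.lf (nat_lit 0) (nat_lit 30423854784) (nat_lit 912) (nat_lit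 21204225099) (nat_lit 76) (nat_lit 15573967334) (nat_lit 307) (nat_lit 5) (nat_lit 319) (nat_lit 5) (nat_lit 308) (nat_lit 5) (nat_lit 504) (nat_lit 485) (nat_lit 211))) (XT.nd (nat_lit 78) (nat_lit 0) (nat_lit 0) (XT.lf (nat_lit 0) (nat_lit 15569953018) (nat_lit 608) (nat_lit 21693180913) (nat_lit 684) (nat_lit 31035053086) (nat_lit 299) (nat_lit 5) (nat_lit 307) (nat_lit 5) (nat_lit 308) (nat_lit 5) (nat_lit 505) (nat_lit 485) (nat_lit 210)) (XT.lf (nat_lit 0) (nat_lit 44611074142) (nat_lit 684) (nat_lit 15629339753) (nat_lit 76) (nat_lit 9177692662) (nat_lit 299) (nat_lit 5) (nat_lit 308) (nat_lit 5) (nat_lit 300) (nat_lit 5) (nat_lit 506) (nat_lit 485) (nat_lit 209)))) (XT.nd (nat_lit 156) (nat_lit 608) (nat_lit 0) (XT.nd (nat_lit 78) (nat_lit 0) (nat_lit 0) (XT.lf (nat_lit 0) (nat_lit 22812307385) (nat_lit 608) (nat_lit 29800617491) (nat_lit 684) (nat_lit 17945694662) (nat_lit 291) (nat_lit 5) (nat_lit 299)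 (nat_lit 5) (nat_lit 300) (nat_lit 5) (nat_lit 507) (nat_lit 485) (nat_lit 208)) (XT.lf (nat_lit 0) (nat_lit 61028556287) (nat_lit 684) (nat_lit 9018100306) (nat_lit 76) (nat_lit 1681479586) (nat_lit 291) (nat_lit 5) (nat_lit 300) (nat_lit 5) (nat_lit 292) (nat_lit 5) (nat_lit 508) (nat_lit 485) (nat_lit 207))) (XT.nd (nat_lit 78) (nat_lit 76) (nat_lit 0) (XT.lf (nat_lit 0) (nat_lit 31184856134) (nat_lit 532) (nat_lit 39106055572) (nat_lit 608) (nat_lit 2623998984) (nat_lit 284) (nat_lit 5) (nat_lit 291) (nat_lit 5) (nat_lit 292) (nat_lit 5) (nat_lit 509) (nat_lit 485) (nat_lit 206)) (XT.lf (nat_lit 0) (nat_lit 5674145684) (nat_lit 608) (nat_lit 1412007996) (nat_lit 76) (nat_lit 67046750681) (nat_lit 283) (nat_lit 5) (nat_lit 291) (nat_lit 5) (nat_lit 284) (nat_lit 5) (nat_lit 510) (nat_lit 485) (nat_lit 205))))) (XT.nd (nat_lit 312) (nat_lit 988) (nat_lit 0) (XT.nd (nat_lit 156) (nat_lit 532) (nat_lit 0) (XT.nd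 (nat_lit 78) (nat_lit 532) (nat_lit 0) (XT.lf (nat_lit 0) (nat_lit 14814038887) (nat_lit 684) (nat_lit 34741058189) (nat_lit 76) (nat_lit 25812195064) (nat_lit 275) (nat_lit 5) (nat_lit 284) (nat_lit 5) (nat_lit 276) (nat_lit 5) (nat_lit 511) (nat_lit 485) (nat_lit 204)) (XT.lf (nat_lit 0) (nat_lit 7389606827) (nat_lit 532) (nat_lit 16993578915) (nat_lit 608) (nat_lit 52250874125) (nat_lit 268) (nat_lit 5) (nat_lit 275) (nat_lit 5) (nat_lit 276) (nat_lit 5) (nat_lit 512) (nat_lit 485) (nat_lit 203))) (XT.nd (nat_lit 78) (nat_lit 532) (nat_lit 0) (XT.lf (nat_lit 0) (nat_lit 34752209154) (nat_lit 608) (nat_lit 26595052539) (nat_lit 76) (nat_lit 16576184888) (nat_lit 268) (nat_lit 5) (nat_lit 276) (nat_lit 5) (nat_lit 269) (nat_lit 5) (nat_lit 513) (nat_lit 485) (nat_lit 202)) (XT.lf (nat_lit 0) (nat_lit 17506627264) (nat_lit 532) (nat_lit 28261702562) (nat_lit 608) (nat_lit 33473104294) (nat_lit 261) (nat_lit 5) (nat_lit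 268) (nat_lit 5) (nat_lit 269) (nat_lit 5) (nat_lit 514) (nat_lit 485) (nat_lit 201)))) (XT.nd (nat_lit 156) (nat_lit 532) (nat_lit 0) (XT.nd (nat_lit 78) (nat_lit 456) (nat_lit 0) (XT.lf (nat_lit 0) (nat_lit 57441559821) (nat_lit 608) (nat_lit 17173520339) (nat_lit 76) (nat_lit 5974082373) (nat_lit 261) (nat_lit 5) (nat_lit 269) (nat_lit 5) (nat_lit 262) (nat_lit 5) (nat_lit 515) (nat_lit 485) (nat_lit 200)) (XT.lf (nat_lit 0) (nat_lit 29010322847) (nat_lit 456) (nat_lit 41012860112) (nat_lit 532) (nat_lit 11937393971) (nat_lit 255) (nat_lit 5) (nat_lit 261) (nat_lit 5) (nat_lit 262) (nat_lit 5) (nat_lit 516) (nat_lit 485) (nat_lit 199))) (XT.nd (nat_lit 78) (nat_lit 532) (nat_lit 0) (XT.lf (nat_lit 0) (nat_lit 76931168163) (nat_lit 456) (nat_lit 6224026829) (nat_lit 532) (nat_lit 212750581) (nat_lit 255) (nat_lit 5) (nat_lit 261) (nat_lit 5) (nat_lit 262) (nat_lit 5) (nat_lit 517) (nat_lit 485) (nat_lit 198))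 (XT.lf (nat_lit 0) (nat_lit 12326884028) (nat_lit 532) (nat_lit 42911109798) (nat_lit 76) (nat_lit 29555277626) (nat_lit 248) (nat_lit 5) (nat_lit 255) (nat_lit 5) (nat_lit 249) (nat_lit 5) (nat_lit 518) (nat_lit 485) (nat_lit 197)))))) (XT.nd (nat_lit 624) (nat_lit 1520) (nat_lit 0) (XT.nd (nat_lit 312) (nat_lit 1292) (nat_lit 0) (XT.nd (nat_lit 156) (nat_lit 456) (nat_lit 0) (XT.nd (nat_lit 78) (nat_lit 0) (nat_lit 0) (XT.lf (nat_lit 0) (nat_lit 5566911401) (nat_lit 456) (nat_lit 19851837502) (nat_lit 532) (nat_lit 60837135510) (nat_lit 242) (nat_lit 5) (nat_lit 248) (nat_lit 5) (nat_lit 249) (nat_lit 5) (nat_lit 519) (nat_lit 485) (nat_lit 196)) (XT.lf (nat_lit 0) (nat_lit 39500053633) (nat_lit 532) (nat_lit 31534849270) (nat_lit 76) (nat_lit 16709572357) (nat_lit 242) (nat_lit 5) (nat_lit 249) (nat_lit 5) (nat_lit 243) (nat_lit 5) (nat_lit 520) (nat_lit 485) (nat_lit 195))) (XT.nd (nat_lit 78) (nat_lit 0) (nat_lit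 0) (XT.lf (nat_lit 0) (nat_lit 19272883359) (nat_lit 456) (nat_lit 35112288558) (nat_lit 532) (nat_lit 34881110701) (nat_lit 236) (nat_lit 5) (nat_lit 242) (nat_lit 5) (nat_lit 243) (nat_lit 5) (nat_lit 521) (nat_lit 485) (nat_lit 194)) (XT.lf (nat_lit 0) (nat_lit 70056150874) (nat_lit 532) (nat_lit 18594763057) (nat_lit 76) (nat_lit 2172651066) (nat_lit 236) (nat_lit 5) (nat_lit 243) (nat_lit 5) (nat_lit 237) (nat_lit 5) (nat_lit 522) (nat_lit 485) (nat_lit 193)))) (XT.nd (nat_lit 156) (nat_lit 836) (nat_lit 0) (XT.nd (nat_lit 78) (nat_lit 76) (nat_lit 0) (XT.lf (nat_lit 0) (nat_lit 34674269781) (nat_lit 380) (nat_lit 52203524245) (nat_lit 456) (nat_lit 5529355791) (nat_lit 231) (nat_lit 5) (nat_lit 236) (nat_lit 5) (nat_lit 237) (nat_lit 5) (nat_lit 523) (nat_lit 485) (nat_lit 192)) (XT.lf (nat_lit 0) (nat_lit 10156682992) (nat_lit 456) (nat_lit 4210179495) (nat_lit 76) (nat_lit 79662771771) (nat_lit 230) (nat_lit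 5) (nat_lit 236) (nat_lit 5) (nat_lit 231) (nat_lit 5) (nat_lit 524) (nat_lit 485) (nat_lit 191))) (XT.nd (nat_lit 78) (nat_lit 380) (nat_lit 0) (XT.lf (nat_lit 0) (nat_lit 26942413395) (nat_lit 532) (nat_lit 44050994092) (nat_lit 76) (nat_lit 24683536026) (nat_lit 224) (nat_lit 5) (nat_lit 231) (nat_lit 5) (nat_lit 225) (nat_lit 5) (nat_lit 525) (nat_lit 485) (nat_lit 190)) (XT.lf (nat_lit 0) (nat_lit 11940883642) (nat_lit 380) (nat_lit 32590395904) (nat_lit 456) (nat_lit 52833405596) (nat_lit 219) (nat_lit 5) (nat_lit 224) (nat_lit 5) (nat_lit 225) (nat_lit 5) (nat_lit 526) (nat_lit 485) (nat_lit 189))))) (XT.nd (nat_lit 312) (nat_lit 684) (nat_lit 0) (XT.nd (nat_lit 156) (nat_lit 456) (nat_lit 0) (XT.nd (nat_lit 78) (nat_lit 380) (nat_lit 0) (XT.lf (nat_lit 0) (nat_lit 63163598105) (nat_lit 456) (nat_lit 28646081984) (nat_lit 76) (nat_lit 7277905353) (nat_lit 219) (nat_lit 5) (nat_lit 225) (nat_lit 5) (nat_lit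 220) (nat_lit 5) (nat_lit 527) (nat_lit 485) (nat_lit 188)) (XT.lf (nat_lit 0) (nat_lit 30099115182) (nat_lit 380) (nat_lit 52867395348) (nat_lit 456) (nat_lit 17877313502) (nat_lit 214) (nat_lit 5) (nat_lit 219) (nat_lit 5) (nat_lit 220) (nat_lit 5) (nat_lit 528) (nat_lit 485) (nat_lit 187))) (XT.nd (nat_lit 78) (nat_lit 380) (nat_lit 0) (XT.lf (nat_lit 0) (nat_lit 988642869) (nat_lit 456) (nat_lit 11460404574) (nat_lit 76) (nat_lit 90194744826) (nat_lit 213) (nat_lit 5) (nat_lit 219) (nat_lit 5) (nat_lit 214) (nat_lit 5) (nat_lit 529) (nat_lit 485) (nat_lit 186)) (XT.lf (nat_lit 0) (nat_lit 20832511894) (nat_lit 456) (nat_lit 54356414143) (nat_lit 76) (nat_lit 29280385928) (nat_lit 208) (nat_lit 5) (nat_lit 214) (nat_lit 5) (nat_lit 209) (nat_lit 5) (nat_lit 530) (nat_lit 485) (nat_lit 185)))) (XT.nd (nat_lit 156) (nat_lit 304) (nat_lit 0) (XT.nd (nat_lit 78) (nat_lit 0) (nat_lit 0) (XT.lf (nat_lit 0) (nat_lit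 7442516626) (nat_lit 380) (nat_lit 34140487988) (nat_lit 456) (nat_lit 64757253420) (nat_lit 203) (nat_lit 5) (nat_lit 208) (nat_lit 5) (nat_lit 209) (nat_lit 5) (nat_lit 531) (nat_lit 485) (nat_lit 184)) (XT.lf (nat_lit 0) (nat_lit 63588219488) (nat_lit 456) (nat_lit 36125387967) (nat_lit 76) (nat_lit 8534758818) (nat_lit 203) (nat_lit 5) (nat_lit 209) (nat_lit 5) (nat_lit 204) (nat_lit 5) (nat_lit 532) (nat_lit 485) (nat_lit 183))) (XT.nd (nat_lit 78) (nat_lit 0) (nat_lit 0) (XT.lf (nat_lit 0) (nat_lit 28752679501) (nat_lit 304) (nat_lit 58114973470) (nat_lit 380) (nat_lit 23327642935) (nat_lit 199) (nat_lit 5) (nat_lit 203) (nat_lit 5) (nat_lit 204) (nat_lit 5) (nat_lit 533) (nat_lit 485) (nat_lit 182)) (XT.lf (nat_lit 0) (nat_lit 96317128655) (nat_lit 304) (nat_lit 14892791029) (nat_lit 380) (nat_lit 979780246) (nat_lit 199) (nat_lit 5) (nat_lit 203) (nat_lit 5) (nat_lit 204) (nat_lit 5) (nat_lit 534) (nat_lit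 485) (nat_lit 181))))))))
noncomputable def xc240 : XT := (XT.nd (nat_lit 60840) (nat_lit 0) (nat_lit 304) (XT.nd (nat_lit 59592) (nat_lit 0) (nat_lit 6612) (XT.nd (nat_lit 58968) (nat_lit 0) (nat_lit 11248) (XT.nd (nat_lit 58656) (nat_lit 0) (nat_lit 11096) (XT.nd (nat_lit 78) (nat_lit 988) (nat_lit 0) (XT.lf (nat_lit 0) (nat_lit 22404436789) (nat_lit 380) (nat_lit 62038091799) (nat_lit 76) (nat_lit 29771172986) (nat_lit 194) (nat_lit 5) (nat_lit 199) (nat_lit 5) (nat_lit 195) (nat_lit 5) (nat_lit 535) (nat_lit 485) (nat_lit 180)) (XT.nd (nat_lit 312) (nat_lit 684) (nat_lit 0) (XT.lf (nat_lit 0) (nat_lit 6259914466) (nat_lit 304) (nat_lit 40579734713) (nat_lit 380) (nat_lit 69447408230) (nat_lit 190) (nat_lit 5) (nat_lit 194) (nat_lit 5) (nat_lit 195) (nat_lit 5) (nat_lit 536) (nat_lit 485) (nat_lit 179)) (XT.lf (nat_lit 0) (nat_lit 33085043494) (nat_lit 380) (nat_lit 66633683479) (nat_lit 76) (nat_lit 25294021050)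 (nat_lit 181) (nat_lit 5) (nat_lit 186) (nat_lit 5) (nat_lit 182) (nat_lit 5) (nat_lit 540) (nat_lit 485) (nat_lit 175)))) (XT.nd (nat_lit 156) (nat_lit 0) (nat_lit 76) (XT.nd (nat_lit 78) (nat_lit 0) (nat_lit 0) (XT.lf (nat_lit 0) (nat_lit 14869039041) (nat_lit 1292) (nat_lit 5464437333) (nat_lit 1292) (nat_lit 5464437333) (nat_lit 327) (nat_lit 3) (nat_lit 344) (nat_lit 3) (nat_lit 344) (nat_lit 5) (nat_lit 486) (nat_lit 486) (nat_lit 228)) (XT.lf (nat_lit 76) (nat_lit 15059192501) (nat_lit 0) (nat_lit 15294205394) (nat_lit 1292) (nat_lit 22011288342) (nat_lit 328) (nat_lit 5) (nat_lit 327) (nat_lit 3) (nat_lit 344) (nat_lit 5) (nat_lit 487) (nat_lit 486) (nat_lit 227))) (XT.nd (nat_lit 78) (nat_lit 0) (nat_lit 0) (XT.lf (nat_lit 0) (nat_lit 31201872034) (nat_lit 1216) (nat_lit 11208193177) (nat_lit 1292) (nat_lit 10740104815) (nat_lit 328) (nat_lit 5) (nat_lit 344) (nat_lit 5) (nat_lit 345) (nat_lit 5) (nat_lit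 488) (nat_lit 486) (nat_lit 226)) (XT.lf (nat_lit 76) (nat_lit 15828958890) (nat_lit 0) (nat_lit 16549498555) (nat_lit 1292) (nat_lit 21571681214) (nat_lit 329) (nat_lit 5) (nat_lit 328) (nat_lit 5) (nat_lit 345) (nat_lit 5) (nat_lit 489) (nat_lit 486) (nat_lit 225))))) (XT.nd (nat_lit 312) (nat_lit 0) (nat_lit 152) (XT.nd (nat_lit 156) (nat_lit 0) (nat_lit 76) (XT.nd (nat_lit 78) (nat_lit 0) (nat_lit 0) (XT.lf (nat_lit 0) (nat_lit 33800700602) (nat_lit 1216) (nat_lit 10962355979) (nat_lit 1292) (nat_lit 10004739007) (nat_lit 329) (nat_lit 5) (nat_lit 345) (nat_lit 5) (nat_lit 346) (nat_lit 5) (nat_lit 490) (nat_lit 486) (nat_lit 224)) (XT.lf (nat_lit 76) (nat_lit 17182131640) (nat_lit 0) (nat_lit 18411624777) (nat_lit 1292) (nat_lit 20006381487) (nat_lit 330) (nat_lit 5) (nat_lit 329) (nat_lit 5) (nat_lit 346) (nat_lit 5) (nat_lit 491) (nat_lit 486) (nat_lit 223))) (XT.nd (nat_lit 78) (nat_lit 0) (nat_lit 0) (XT.lf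 (nat_lit 0) (nat_lit 37635467139) (nat_lit 1216) (nat_lit 10144029030) (nat_lit 1292) (nat_lit 8672108463) (nat_lit 330) (nat_lit 5) (nat_lit 346) (nat_lit 5) (nat_lit 347) (nat_lit 5) (nat_lit 492) (nat_lit 486) (nat_lit 222)) (XT.lf (nat_lit 76) (nat_lit 19169400943) (nat_lit 0) (nat_lit 20934761838) (nat_lit 1292) (nat_lit 17213480610) (nat_lit 331) (nat_lit 5) (nat_lit 330) (nat_lit 5) (nat_lit 347) (nat_lit 5) (nat_lit 493) (nat_lit 486) (nat_lit 221)))) (XT.nd (nat_lit 156) (nat_lit 0) (nat_lit 76) (XT.nd (nat_lit 78) (nat_lit 0) (nat_lit 0) (XT.lf (nat_lit 0) (nat_lit 42814113944) (nat_lit 1216) (nat_lit 8702538732) (nat_lit 1292) (nat_lit 6687994835) (nat_lit 331) (nat_lit 5) (nat_lit 347) (nat_lit 5) (nat_lit 348) (nat_lit 5) (nat_lit 494) (nat_lit 486) (nat_lit 220)) (XT.lf (nat_lit 76) (nat_lit 21844992992) (nat_lit 0) (nat_lit 24176850361) (nat_lit 1292) (nat_lit 13083924045) (nat_lit 332) (nat_lit 5)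 (nat_lit 331) (nat_lit 5) (nat_lit 348) (nat_lit 5) (nat_lit 495) (nat_lit 486) (nat_lit 219))) (XT.nd (nat_lit 78) (nat_lit 0) (nat_lit 0) (XT.lf (nat_lit 0) (nat_lit 49452078968) (nat_lit 1216) (nat_lit 6583661446) (nat_lit 1292) (nat_lit 3994392274) (nat_lit 332) (nat_lit 5) (nat_lit 348) (nat_lit 5) (nat_lit 349) (nat_lit 5) (nat_lit 496) (nat_lit 486) (nat_lit 218)) (XT.lf (nat_lit 76) (nat_lit 25266892023) (nat_lit 0) (nat_lit 28199844646) (nat_lit 1292) (nat_lit 7501046851) (nat_lit 333) (nat_lit 5) (nat_lit 332) (nat_lit 5) (nat_lit 349) (nat_lit 5) (nat_lit 497) (nat_lit 486) (nat_lit 217)))))) (XT.nd (nat_lit 624) (nat_lit 2964) (nat_lit 0) (XT.nd (nat_lit 312) (nat_lit 684) (nat_lit 0) (XT.nd (nat_lit 156) (nat_lit 1292) (nat_lit 0) (XT.nd (nat_lit 78) (nat_lit 0) (nat_lit 0) (XT.lf (nat_lit 0) (nat_lit 57672780755) (nat_lit 1216) (nat_lit 3729400081) (nat_lit 1292) (nat_lit 529254674) (nat_lit 333) (nat_lit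 5) (nat_lit 349) (nat_lit 5) (nat_lit 350) (nat_lit 5) (nat_lit 498) (nat_lit 486) (nat_lit 216)) (XT.lf (nat_lit 76) (nat_lit 29497075969) (nat_lit 0) (nat_lit 33069979131) (nat_lit 1292) (nat_lit 340080524) (nat_lit 334) (nat_lit 5) (nat_lit 333) (nat_lit 5) (nat_lit 350) (nat_lit 5) (nat_lit 499) (nat_lit 486) (nat_lit 215))) (XT.nd (nat_lit 78) (nat_lit 0) (nat_lit 76) (XT.lf (nat_lit 0) (nat_lit 3661267167) (nat_lit 1292) (nat_lit 150639548) (nat_lit 1368) (nat_lit 60098014009) (nat_lit 316) (nat_lit 5) (nat_lit 333) (nat_lit 5) (nat_lit 334) (nat_lit 5) (nat_lit 500) (nat_lit 486) (nat_lit 214)) (XT.lf (nat_lit 0) (nat_lit 8365873373) (nat_lit 1292) (nat_lit 30407699219) (nat_lit 1368) (nat_lit 26151414200) (nat_lit 317) (nat_lit 5) (nat_lit 334) (nat_lit 5) (nat_lit 335) (nat_lit 5) (nat_lit 501) (nat_lit 486) (nat_lit 213)))) (XT.nd (nat_lit 156) (nat_lit 760) (nat_lit 0) (XT.nd (nat_lit 78) (nat_lit 0)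 (nat_lit 76) (XT.lf (nat_lit 76) (nat_lit 4303546405) (nat_lit 0) (nat_lit 8988060385) (nat_lit 1368) (nat_lit 52676498408) (nat_lit 318) (nat_lit 5) (nat_lit 317) (nat_lit 5) (nat_lit 335) (nat_lit 5) (nat_lit 502) (nat_lit 486) (nat_lit 212)) (XT.lf (nat_lit 0) (nat_lit 18883075432) (nat_lit 1292) (nat_lit 26565966108) (nat_lit 76) (nat_lit 21577936750) (nat_lit 318) (nat_lit 5) (nat_lit 335) (nat_lit 5) (nat_lit 319) (nat_lit 5) (nat_lit 503) (nat_lit 486) (nat_lit 211))) (XT.nd (nat_lit 78) (nat_lit 0) (nat_lit 0) (XT.lf (nat_lit 0) (nat_lit 9685029482) (nat_lit 836) (nat_lit 15138724059) (nat_lit 912) (nat_lit 43288420096) (nat_lit 307) (nat_lit 5) (nat_lit 318) (nat_lit 5) (nat_lit 319) (nat_lit 5) (nat_lit 504) (nat_lit 486) (nat_lit 210)) (XT.lf (nat_lit 0) (nat_lit 31367541497) (nat_lit 912) (nat_lit 21811548785) (nat_lit 76) (nat_lit 16038087905) (nat_lit 307) (nat_lit 5) (nat_lit 319) (nat_lit 5) (nat_lit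 308) (nat_lit 5) (nat_lit 505) (nat_lit 486) (nat_lit 209))))) (XT.nd (nat_lit 312) (nat_lit 1748) (nat_lit 0) (XT.nd (nat_lit 156) (nat_lit 608) (nat_lit 0) (XT.nd (nat_lit 78) (nat_lit 0) (nat_lit 0) (XT.lf (nat_lit 0) (nat_lit 16065572293) (nat_lit 608) (nat_lit 22345798813) (nat_lit 684) (nat_lit 31934849950) (nat_lit 299) (nat_lit 5) (nat_lit 307) (nat_lit 5) (nat_lit 308) (nat_lit 5) (nat_lit 506) (nat_lit 486) (nat_lit 208)) (XT.lf (nat_lit 0) (nat_lit 45978848734) (nat_lit 684) (nat_lit 16069627931) (nat_lit 76) (nat_lit 9451288577) (nat_lit 299) (nat_lit 5) (nat_lit 308) (nat_lit 5) (nat_lit 300) (nat_lit 5) (nat_lit 507) (nat_lit 486) (nat_lit 207))) (XT.nd (nat_lit 78) (nat_lit 0) (nat_lit 0) (XT.lf (nat_lit 0) (nat_lit 23524988307) (nat_lit 608) (nat_lit 30695181288) (nat_lit 684) (nat_lit 18454341617) (nat_lit 291) (nat_lit 5) (nat_lit 299) (nat_lit 5) (nat_lit 300) (nat_lit 5) (nat_lit 508) (nat_lit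 486) (nat_lit 206)) (XT.lf (nat_lit 0) (nat_lit 62887424365) (nat_lit 684) (nat_lit 9260309475) (nat_lit 76) (nat_lit 1731404914) (nat_lit 291) (nat_lit 5) (nat_lit 300) (nat_lit 5) (nat_lit 292) (nat_lit 5) (nat_lit 509) (nat_lit 486) (nat_lit 205)))) (XT.nd (nat_lit 156) (nat_lit 1140) (nat_lit 0) (XT.nd (nat_lit 78) (nat_lit 76) (nat_lit 0) (XT.lf (nat_lit 0) (nat_lit 32148457875) (nat_lit 532) (nat_lit 40278646398) (nat_lit 608) (nat_lit 2674428647) (nat_lit 284) (nat_lit 5) (nat_lit 291) (nat_lit 5) (nat_lit 292) (nat_lit 5) (nat_lit 510) (nat_lit 486) (nat_lit 204)) (XT.lf (nat_lit 0) (nat_lit 5871300405) (nat_lit 608) (nat_lit 1426592310) (nat_lit 76) (nat_lit 69058189798) (nat_lit 283) (nat_lit 5) (nat_lit 291) (nat_lit 5) (nat_lit 284) (nat_lit 5) (nat_lit 511) (nat_lit 486) (nat_lit 203))) (XT.nd (nat_lit 78) (nat_lit 532) (nat_lit 0) (XT.lf (nat_lit 0) (nat_lit 15284880915) (nat_lit 684) (nat_lit 35755003482)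 (nat_lit 76) (nat_lit 26587632843) (nat_lit 275) (nat_lit 5) (nat_lit 284) (nat_lit 5) (nat_lit 276) (nat_lit 5) (nat_lit 512) (nat_lit 486) (nat_lit 202)) (XT.lf (nat_lit 0) (nat_lit 7639304166) (nat_lit 532) (nat_lit 17501297711) (nat_lit 608) (nat_lit 53791701161) (nat_lit 268) (nat_lit 5) (nat_lit 275) (nat_lit 5) (nat_lit 276) (nat_lit 5) (nat_lit 513) (nat_lit 486) (nat_lit 201))))))) (XT.nd (nat_lit 1170) (nat_lit 2584) (nat_lit 0) (XT.nd (nat_lit 546) (nat_lit 1748) (nat_lit 0) (XT.nd (nat_lit 234) (nat_lit 1444) (nat_lit 0) (XT.nd (nat_lit 78) (nat_lit 532) (nat_lit 0) (XT.lf (nat_lit 0) (nat_lit 35819960516) (nat_lit 608) (nat_lit 27364974326) (nat_lit 76) (nat_lit 17075458606) (nat_lit 268) (nat_lit 5) (nat_lit 276) (nat_lit 5) (nat_lit 269) (nat_lit 5) (nat_lit 514) (nat_lit 486) (nat_lit 200)) (XT.nd (nat_lit 78) (nat_lit 0) (nat_lit 0) (XT.lf (nat_lit 0) (nat_lit 18059482050) (nat_lit 532) (nat_lit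 29106615058) (nat_lit 608) (nat_lit 34451837564) (nat_lit 261) (nat_lit 5) (nat_lit 268) (nat_lit 5) (nat_lit 269) (nat_lit 5) (nat_lit 515) (nat_lit 486) (nat_lit 199)) (XT.lf (nat_lit 0) (nat_lit 59188831504) (nat_lit 608) (nat_lit 17661182074) (nat_lit 76) (nat_lit 6156102163) (nat_lit 261) (nat_lit 5) (nat_lit 269) (nat_lit 5) (nat_lit 262) (nat_lit 5) (nat_lit 516) (nat_lit 486) (nat_lit 198)))) (XT.nd (nat_lit 156) (nat_lit 988) (nat_lit 0) (XT.nd (nat_lit 78) (nat_lit 0) (nat_lit 0) (XT.lf (nat_lit 0) (nat_lit 29907906370) (nat_lit 456) (nat_lit 42239559385) (nat_lit 532) (nat_lit 12271219969) (nat_lit 255) (nat_lit 5) (nat_lit 261) (nat_lit 5) (nat_lit 262) (nat_lit 5) (nat_lit 517) (nat_lit 486) (nat_lit 197)) (XT.lf (nat_lit 0) (nat_lit 79265582662) (nat_lit 456) (nat_lit 6407168477) (nat_lit 532) (nat_lit 195544922) (nat_lit 255) (nat_lit 5) (nat_lit 261) (nat_lit 5) (nat_lit 262) (nat_lit 5) (nat_lit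 518) (nat_lit 486) (nat_lit 196))) (XT.nd (nat_lit 78) (nat_lit 456) (nat_lit 0) (XT.lf (nat_lit 0) (nat_lit 12719439359) (nat_lit 532) (nat_lit 44171122608) (nat_lit 76) (nat_lit 30445824345) (nat_lit 248) (nat_lit 5) (nat_lit 255) (nat_lit 5) (nat_lit 249) (nat_lit 5) (nat_lit 519) (nat_lit 486) (nat_lit 195)) (XT.lf (nat_lit 0) (nat_lit 5760971378) (nat_lit 456) (nat_lit 20442686261) (nat_lit 532) (nat_lit 62639232122) (nat_lit 242) (nat_lit 5) (nat_lit 248) (nat_lit 5) (nat_lit 249) (nat_lit 5) (nat_lit 520) (nat_lit 486) (nat_lit 194))))) (XT.nd (nat_lit 312) (nat_lit 912) (nat_lit 0) (XT.nd (nat_lit 156) (nat_lit 380) (nat_lit 0) (XT.nd (nat_lit 78) (nat_lit 456) (nat_lit 0) (XT.lf (nat_lit 0) (nat_lit 40706794573) (nat_lit 532) (nat_lit 32454022341) (nat_lit 76) (nat_lit 17215339652) (nat_lit 242) (nat_lit 5) (nat_lit 249) (nat_lit 5) (nat_lit 243) (nat_lit 5) (nat_lit 521) (nat_lit 486) (nat_lit 193)) (XT.lf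 (nat_lit 0) (nat_lit 19877678811) (nat_lit 456) (nat_lit 36160410190) (nat_lit 532) (nat_lit 35905540487) (nat_lit 236) (nat_lit 5) (nat_lit 242) (nat_lit 5) (nat_lit 243) (nat_lit 5) (nat_lit 522) (nat_lit 486) (nat_lit 192))) (XT.nd (nat_lit 78) (nat_lit 380) (nat_lit 0) (XT.lf (nat_lit 0) (nat_lit 72178624104) (nat_lit 532) (nat_lit 19126198063) (nat_lit 76) (nat_lit 2242825390) (nat_lit 236) (nat_lit 5) (nat_lit 243) (nat_lit 5) (nat_lit 237) (nat_lit 5) (nat_lit 523) (nat_lit 486) (nat_lit 191)) (XT.lf (nat_lit 0) (nat_lit 35740646859) (nat_lit 380) (nat_lit 53763915555) (nat_lit 456) (nat_lit 5674188153) (nat_lit 231) (nat_lit 5) (nat_lit 236) (nat_lit 5) (nat_lit 237) (nat_lit 5) (nat_lit 524) (nat_lit 486) (nat_lit 190)))) (XT.nd (nat_lit 156) (nat_lit 380) (nat_lit 0) (XT.nd (nat_lit 78) (nat_lit 456) (nat_lit 0) (XT.lf (nat_lit 0) (nat_lit 10481419971) (nat_lit 456) (nat_lit 4310698084) (nat_lit 76) (nat_lit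 82057803470) (nat_lit 230) (nat_lit 5) (nat_lit 236) (nat_lit 5) (nat_lit 231) (nat_lit 5) (nat_lit 525) (nat_lit 486) (nat_lit 189)) (XT.lf (nat_lit 0) (nat_lit 27770440243) (nat_lit 532) (nat_lit 45346454429) (nat_lit 76) (nat_lit 25429763866) (nat_lit 224) (nat_lit 5) (nat_lit 231) (nat_lit 5) (nat_lit 225) (nat_lit 5) (nat_lit 526) (nat_lit 486) (nat_lit 188))) (XT.nd (nat_lit 78) (nat_lit 0) (nat_lit 0) (XT.lf (nat_lit 0) (nat_lit 12324924054) (nat_lit 380) (nat_lit 33561721091) (nat_lit 456) (nat_lit 54398397107) (nat_lit 219) (nat_lit 5) (nat_lit 224) (nat_lit 5) (nat_lit 225) (nat_lit 5) (nat_lit 527) (nat_lit 486) (nat_lit 187)) (XT.lf (nat_lit 0) (nat_lit 65077427024) (nat_lit 456) (nat_lit 29479895556) (nat_lit 76) (nat_lit 7502322186) (nat_lit 219) (nat_lit 5) (nat_lit 225) (nat_lit 5) (nat_lit 220) (nat_lit 5) (nat_lit 528) (nat_lit 486) (nat_lit 186)))))) (XT.nd (nat_lit 858) (nat_lit 684) (nat_lit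 0) (XT.nd (nat_lit 312) (nat_lit 684) (nat_lit 0) (XT.nd (nat_lit 156) (nat_lit 760) (nat_lit 0) (XT.nd (nat_lit 78) (nat_lit 76) (nat_lit 0) (XT.lf (nat_lit 0) (nat_lit 31027406850) (nat_lit 380) (nat_lit 54446712250) (nat_lit 456) (nat_lit 18394460664) (nat_lit 214) (nat_lit 5) (nat_lit 219) (nat_lit 5) (nat_lit 220) (nat_lit 5) (nat_lit 529) (nat_lit 486) (nat_lit 185)) (XT.lf (nat_lit 0) (nat_lit 1036552761) (nat_lit 456) (nat_lit 11779272142) (nat_lit 76) (nat_lit 92906733059) (nat_lit 213) (nat_lit 5) (nat_lit 219) (nat_lit 5) (nat_lit 214) (nat_lit 5) (nat_lit 530) (nat_lit 486) (nat_lit 184))) (XT.nd (nat_lit 78) (nat_lit 380) (nat_lit 0) (XT.lf (nat_lit 0) (nat_lit 21475508540) (nat_lit 456) (nat_lit 55961932140) (nat_lit 76) (nat_lit 30165409463) (nat_lit 208) (nat_lit 5) (nat_lit 214) (nat_lit 5) (nat_lit 209) (nat_lit 5) (nat_lit 531) (nat_lit 486) (nat_lit 183)) (XT.lf (nat_lit 0) (nat_lit 7690719744)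 (nat_lit 380) (nat_lit 35157511025) (nat_lit 456) (nat_lit 66681702399) (nat_lit 203) (nat_lit 5) (nat_lit 208) (nat_lit 5) (nat_lit 209) (nat_lit 5) (nat_lit 532) (nat_lit 486) (nat_lit 182)))) (XT.nd (nat_lit 156) (nat_lit 380) (nat_lit 0) (XT.nd (nat_lit 78) (nat_lit 304) (nat_lit 0) (XT.lf (nat_lit 0) (nat_lit 65513152623) (nat_lit 456) (nat_lit 37184498057) (nat_lit 76) (nat_lit 8797647474) (nat_lit 203) (nat_lit 5) (nat_lit 209) (nat_lit 5) (nat_lit 204) (nat_lit 5) (nat_lit 533) (nat_lit 486) (nat_lit 181)) (XT.lf (nat_lit 0) (nat_lit 29639669754) (nat_lit 304) (nat_lit 59851030508) (nat_lit 380) (nat_lit 24009943495) (nat_lit 199) (nat_lit 5) (nat_lit 203) (nat_lit 5) (nat_lit 204) (nat_lit 5) (nat_lit 534) (nat_lit 486) (nat_lit 180))) (XT.nd (nat_lit 78) (nat_lit 380) (nat_lit 0) (XT.lf (nat_lit 0) (nat_lit 99230341415) (nat_lit 304) (nat_lit 15332397900) (nat_lit 380) (nat_lit 992155471) (nat_lit 199)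 (nat_lit 5) (nat_lit 203) (nat_lit 5) (nat_lit 204) (nat_lit 5) (nat_lit 535) (nat_lit 486) (nat_lit 179)) (XT.lf (nat_lit 0) (nat_lit 23093069544) (nat_lit 380) (nat_lit 63875016199) (nat_lit 76) (nat_lit 30671531435) (nat_lit 194) (nat_lit 5) (nat_lit 199) (nat_lit 5) (nat_lit 195) (nat_lit 5) (nat_lit 536) (nat_lit 486) (nat_lit 178))))) (XT.nd (nat_lit 58578) (nat_lit 0) (nat_lit 10868) (XT.nd (nat_lit 58422) (nat_lit 0) (nat_lit 10792) (XT.nd (nat_lit 58344) (nat_lit 0) (nat_lit 10792) (XT.lf (nat_lit 0) (nat_lit 5858337148) (nat_lit 380) (nat_lit 17422658171) (nat_lit 76) (nat_lit 103170070784) (nat_lit 185) (nat_lit 5) (nat_lit 190) (nat_lit 5) (nat_lit 186) (nat_lit 5) (nat_lit 540) (nat_lit 486) (nat_lit 174)) (XT.lf (nat_lit 0) (nat_lit 15339365266) (nat_lit 1292) (nat_lit 5615878540) (nat_lit 1292) (nat_lit 5615878540) (nat_lit 327) (nat_lit 3) (nat_lit 344) (nat_lit 3) (nat_lit 344) (nat_lit 5) (nat_lit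 487) (nat_lit 487) (nat_lit 226))) (XT.nd (nat_lit 78) (nat_lit 0) (nat_lit 76) (XT.lf (nat_lit 76) (nat_lit 15535707162) (nat_lit 0) (nat_lit 15775627668) (nat_lit 1292) (nat_lit 22622869770) (nat_lit 328) (nat_lit 5) (nat_lit 327) (nat_lit 3) (nat_lit 344) (nat_lit 5) (nat_lit 488) (nat_lit 487) (nat_lit 225)) (XT.lf (nat_lit 0) (nat_lit 32183673622) (nat_lit 1216) (nat_lit 11518828956) (nat_lit 1292) (nat_lit 11040798075) (nat_lit 328) (nat_lit 5) (nat_lit 344) (nat_lit 5) (nat_lit 345) (nat_lit 5) (nat_lit 489) (nat_lit 487) (nat_lit 224)))) (XT.nd (nat_lit 156) (nat_lit 0) (nat_lit 76) (XT.nd (nat_lit 78) (nat_lit 0) (nat_lit 76) (XT.lf (nat_lit 76) (nat_lit 16329186595) (nat_lit 0) (nat_lit 17065281376) (nat_lit 1292) (nat_lit 22172833095) (nat_lit 329) (nat_lit 5) (nat_lit 328) (nat_lit 5) (nat_lit 345) (nat_lit 5) (nat_lit 490) (nat_lit 487) (nat_lit 223)) (XT.lf (nat_lit 0) (nat_lit 34857897639) (nat_lit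 1216) (nat_lit 11265123557) (nat_lit 1292) (nat_lit 10286510989) (nat_lit 329) (nat_lit 5) (nat_lit 345) (nat_lit 5) (nat_lit 346) (nat_lit 5) (nat_lit 491) (nat_lit 487) (nat_lit 222))) (XT.nd (nat_lit 78) (nat_lit 0) (nat_lit 76) (XT.lf (nat_lit 76) (nat_lit 17723442777) (nat_lit 0) (nat_lit 18980293256) (nat_lit 1292) (nat_lit 20563139069) (nat_lit 330) (nat_lit 5) (nat_lit 329) (nat_lit 5) (nat_lit 346) (nat_lit 5) (nat_lit 492) (nat_lit 487) (nat_lit 221)) (XT.lf (nat_lit 0) (nat_lit 38805317608) (nat_lit 1216) (nat_lit 10421873199) (nat_lit 1292) (nat_lit 8916736494) (nat_lit 330) (nat_lit 5) (nat_lit 346) (nat_lit 5) (nat_lit 347) (nat_lit 5) (nat_lit 493) (nat_lit 487) (nat_lit 220))))))))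
noncomputable def xc241 : XT := (XT.nd (nat_lit 2418) (nat_lit 3496) (nat_lit 0) (XT.nd (nat_lit 1170) (nat_lit 4788) (nat_lit 0) (XT.nd (nat_lit 546) (nat_lit 2356) (nat_lit 0) (XT.nd (nat_lit 234) (nat_lit 0) (nat_lit 152) (XT.nd (nat_lit 78) (nat_lit 0) (nat_lit 76) (XT.lf (nat_lit 76) (nat_lit 19770700097) (nat_lit 0) (nat_lit 21576438082) (nat_lit 1292) (nat_lit 17688837177) (nat_lit 331) (nat_lit 5) (nat_lit 330) (nat_lit 5) (nat_lit 347) (nat_lit 5) (nat_lit 494) (nat_lit 487) (nat_lit 219)) (XT.nd (nat_lit 78) (nat_lit 0) (nat_lit 0) (XT.lf (nat_lit 0) (nat_lit 44137099947) (nat_lit 1216) (nat_lit 8936871676) (nat_lit 1292) (nat_lit 6875656668) (nat_lit 331) (nat_lit 5) (nat_lit 347) (nat_lit 5) (nat_lit 348) (nat_lit 5) (nat_lit 495) (nat_lit 487) (nat_lit 218)) (XT.lf (nat_lit 76) (nat_lit 22526823811) (nat_lit 0) (nat_lit 24913368798) (nat_lit 1292) (nat_lit 13437615277) (nat_lit 332) (nat_lit 5) (nat_lit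 331) (nat_lit 5) (nat_lit 348) (nat_lit 5) (nat_lit 496) (nat_lit 487) (nat_lit 217)))) (XT.nd (nat_lit 156) (nat_lit 0) (nat_lit 76) (XT.nd (nat_lit 78) (nat_lit 0) (nat_lit 0) (XT.lf (nat_lit 0) (nat_lit 50972132764) (nat_lit 1216) (nat_lit 6754257359) (nat_lit 1292) (nat_lit 4103550138) (nat_lit 332) (nat_lit 5) (nat_lit 348) (nat_lit 5) (nat_lit 349) (nat_lit 5) (nat_lit 497) (nat_lit 487) (nat_lit 216)) (XT.lf (nat_lit 76) (nat_lit 26051548853) (nat_lit 0) (nat_lit 29054874662) (nat_lit 1292) (nat_lit 7689321351) (nat_lit 333) (nat_lit 5) (nat_lit 332) (nat_lit 5) (nat_lit 349) (nat_lit 5) (nat_lit 498) (nat_lit 487) (nat_lit 215))) (XT.nd (nat_lit 78) (nat_lit 0) (nat_lit 0) (XT.lf (nat_lit 0) (nat_lit 59437525245) (nat_lit 1216) (nat_lit 3814282980) (nat_lit 1292) (nat_lit 536531947) (nat_lit 333) (nat_lit 5) (nat_lit 349) (nat_lit 5) (nat_lit 350) (nat_lit 5) (nat_lit 499) (nat_lit 487) (nat_lit 214)) (XT.lf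 (nat_lit 76) (nat_lit 30408722653) (nat_lit 0) (nat_lit 34069155521) (nat_lit 1292) (nat_lit 315455651) (nat_lit 334) (nat_lit 5) (nat_lit 333) (nat_lit 5) (nat_lit 350) (nat_lit 5) (nat_lit 500) (nat_lit 487) (nat_lit 213))))) (XT.nd (nat_lit 312) (nat_lit 1292) (nat_lit 0) (XT.nd (nat_lit 156) (nat_lit 0) (nat_lit 76) (XT.nd (nat_lit 78) (nat_lit 0) (nat_lit 76) (XT.lf (nat_lit 0) (nat_lit 3804258272) (nat_lit 1292) (nat_lit 128541753) (nat_lit 1368) (nat_lit 61893422291) (nat_lit 316) (nat_lit 5) (nat_lit 333) (nat_lit 5) (nat_lit 334) (nat_lit 5) (nat_lit 501) (nat_lit 487) (nat_lit 212)) (XT.lf (nat_lit 0) (nat_lit 8649231900) (nat_lit 1292) (nat_lit 31292541054) (nat_lit 1368) (nat_lit 26929990577) (nat_lit 317) (nat_lit 5) (nat_lit 334) (nat_lit 5) (nat_lit 335) (nat_lit 5) (nat_lit 502) (nat_lit 487) (nat_lit 211))) (XT.nd (nat_lit 78) (nat_lit 0) (nat_lit 76) (XT.lf (nat_lit 76) (nat_lit 4459773418) (nat_lit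 0) (nat_lit 9262281428) (nat_lit 1368) (nat_lit 54224141159) (nat_lit 318) (nat_lit 5) (nat_lit 317) (nat_lit 5) (nat_lit 335) (nat_lit 5) (nat_lit 503) (nat_lit 487) (nat_lit 210)) (XT.lf (nat_lit 0) (nat_lit 19480301513) (nat_lit 1292) (nat_lit 27335647043) (nat_lit 76) (nat_lit 22220915752) (nat_lit 318) (nat_lit 5) (nat_lit 335) (nat_lit 5) (nat_lit 319) (nat_lit 5) (nat_lit 504) (nat_lit 487) (nat_lit 209)))) (XT.nd (nat_lit 156) (nat_lit 608) (nat_lit 0) (XT.nd (nat_lit 78) (nat_lit 0) (nat_lit 0) (XT.lf (nat_lit 0) (nat_lit 10002610786) (nat_lit 836) (nat_lit 15595953853) (nat_lit 912) (nat_lit 44556069976) (nat_lit 307) (nat_lit 5) (nat_lit 318) (nat_lit 5) (nat_lit 319) (nat_lit 5) (nat_lit 505) (nat_lit 487) (nat_lit 208)) (XT.lf (nat_lit 0) (nat_lit 32337760945) (nat_lit 912) (nat_lit 22438745594) (nat_lit 76) (nat_lit 16516309957) (nat_lit 307) (nat_lit 5) (nat_lit 319) (nat_lit 5) (nat_lit 308) (nat_lit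 5) (nat_lit 506) (nat_lit 487) (nat_lit 207))) (XT.nd (nat_lit 78) (nat_lit 0) (nat_lit 0) (XT.lf (nat_lit 0) (nat_lit 16574422943) (nat_lit 608) (nat_lit 23017890633) (nat_lit 684) (nat_lit 32863434868) (nat_lit 299) (nat_lit 5) (nat_lit 307) (nat_lit 5) (nat_lit 308) (nat_lit 5) (nat_lit 507) (nat_lit 487) (nat_lit 206)) (XT.lf (nat_lit 0) (nat_lit 47385966452) (nat_lit 684) (nat_lit 16524766053) (nat_lit 76) (nat_lit 9733191959) (nat_lit 299) (nat_lit 5) (nat_lit 308) (nat_lit 5) (nat_lit 300) (nat_lit 5) (nat_lit 508) (nat_lit 487) (nat_lit 205)))))) (XT.nd (nat_lit 624) (nat_lit 1900) (nat_lit 0) (XT.nd (nat_lit 312) (nat_lit 1672) (nat_lit 0) (XT.nd (nat_lit 156) (nat_lit 608) (nat_lit 0) (XT.nd (nat_lit 78) (nat_lit 0) (nat_lit 0) (XT.lf (nat_lit 0) (nat_lit 24257424450) (nat_lit 608) (nat_lit 31616550698) (nat_lit 684) (nat_lit 18979954252) (nat_lit 291) (nat_lit 5) (nat_lit 299) (nat_lit 5) (nat_lit 300)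 (nat_lit 5) (nat_lit 509) (nat_lit 487) (nat_lit 204)) (XT.lf (nat_lit 0) (nat_lit 64800450517) (nat_lit 684) (nat_lit 9511411398) (nat_lit 76) (nat_lit 1782857797) (nat_lit 291) (nat_lit 5) (nat_lit 300) (nat_lit 5) (nat_lit 292) (nat_lit 5) (nat_lit 510) (nat_lit 487) (nat_lit 203))) (XT.nd (nat_lit 78) (nat_lit 76) (nat_lit 0) (XT.lf (nat_lit 0) (nat_lit 33139357136) (nat_lit 532) (nat_lit 41486448866) (nat_lit 608) (nat_lit 2727995179) (nat_lit 284) (nat_lit 5) (nat_lit 291) (nat_lit 5) (nat_lit 292) (nat_lit 5) (nat_lit 511) (nat_lit 487) (nat_lit 202)) (XT.lf (nat_lit 0) (nat_lit 6072823856) (nat_lit 608) (nat_lit 1443208605) (nat_lit 76) (nat_lit 71129969987) (nat_lit 283) (nat_lit 5) (nat_lit 291) (nat_lit 5) (nat_lit 284) (nat_lit 5) (nat_lit 512) (nat_lit 487) (nat_lit 201)))) (XT.nd (nat_lit 156) (nat_lit 532) (nat_lit 0) (XT.nd (nat_lit 78) (nat_lit 532) (nat_lit 0) (XT.lf (nat_lit 0) (nat_lit 15768331539)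 (nat_lit 684) (nat_lit 36800990892) (nat_lit 76) (nat_lit 27386272222) (nat_lit 275) (nat_lit 5) (nat_lit 284) (nat_lit 5) (nat_lit 276) (nat_lit 5) (nat_lit 513) (nat_lit 487) (nat_lit 200)) (XT.lf (nat_lit 0) (nat_lit 7894884587) (nat_lit 532) (nat_lit 18024367963) (nat_lit 608) (nat_lit 55380285650) (nat_lit 268) (nat_lit 5) (nat_lit 275) (nat_lit 5) (nat_lit 276) (nat_lit 5) (nat_lit 514) (nat_lit 487) (nat_lit 199))) (XT.nd (nat_lit 78) (nat_lit 532) (nat_lit 0) (XT.lf (nat_lit 0) (nat_lit 36918298691) (nat_lit 608) (nat_lit 28159597051) (nat_lit 76) (nat_lit 17589596406) (nat_lit 268) (nat_lit 5) (nat_lit 276) (nat_lit 5) (nat_lit 269) (nat_lit 5) (nat_lit 515) (nat_lit 487) (nat_lit 198)) (XT.lf (nat_lit 0) (nat_lit 18627334913) (nat_lit 532) (nat_lit 29977043616) (nat_lit 608) (nat_lit 35461394333) (nat_lit 261) (nat_lit 5) (nat_lit 268) (nat_lit 5) (nat_lit 269) (nat_lit 5) (nat_lit 516) (nat_lit 487) (nat_lit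 197))))) (XT.nd (nat_lit 312) (nat_lit 912) (nat_lit 0) (XT.nd (nat_lit 156) (nat_lit 532) (nat_lit 0) (XT.nd (nat_lit 78) (nat_lit 456) (nat_lit 0) (XT.lf (nat_lit 0) (nat_lit 60987142210) (nat_lit 608) (nat_lit 18165054791) (nat_lit 76) (nat_lit 6343421970) (nat_lit 261) (nat_lit 5) (nat_lit 269) (nat_lit 5) (nat_lit 262) (nat_lit 5) (nat_lit 517) (nat_lit 487) (nat_lit 196)) (XT.lf (nat_lit 0) (nat_lit 30830851769) (nat_lit 456) (nat_lit 43503271257) (nat_lit 532) (nat_lit 12616455426) (nat_lit 255) (nat_lit 5) (nat_lit 261) (nat_lit 5) (nat_lit 262) (nat_lit 5) (nat_lit 518) (nat_lit 487) (nat_lit 195))) (XT.nd (nat_lit 78) (nat_lit 532) (nat_lit 0) (XT.lf (nat_lit 0) (nat_lit 81668509567) (nat_lit 456) (nat_lit 6596009834) (nat_lit 532) (nat_lit 179177152) (nat_lit 255) (nat_lit 5) (nat_lit 261) (nat_lit 5) (nat_lit 262) (nat_lit 5) (nat_lit 519) (nat_lit 487) (nat_lit 194)) (XT.lf (nat_lit 0) (nat_lit 13122465475)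 (nat_lit 532) (nat_lit 45470504110) (nat_lit 76) (nat_lit 31362864256) (nat_lit 248) (nat_lit 5) (nat_lit 255) (nat_lit 5) (nat_lit 249) (nat_lit 5) (nat_lit 520) (nat_lit 487) (nat_lit 193)))) (XT.nd (nat_lit 156) (nat_lit 456) (nat_lit 0) (XT.nd (nat_lit 78) (nat_lit 0) (nat_lit 0) (XT.lf (nat_lit 0) (nat_lit 5959300224) (nat_lit 456) (nat_lit 21051530647) (nat_lit 532) (nat_lit 64496712928) (nat_lit 242) (nat_lit 5) (nat_lit 248) (nat_lit 5) (nat_lit 249) (nat_lit 5) (nat_lit 521) (nat_lit 487) (nat_lit 192)) (XT.lf (nat_lit 0) (nat_lit 41948489814) (nat_lit 532) (nat_lit 33402313191) (nat_lit 76) (nat_lit 17736022789) (nat_lit 242) (nat_lit 5) (nat_lit 249) (nat_lit 5) (nat_lit 243) (nat_lit 5) (nat_lit 522) (nat_lit 487) (nat_lit 191))) (XT.nd (nat_lit 78) (nat_lit 0) (nat_lit 0) (XT.lf (nat_lit 0) (nat_lit 20499090665) (nat_lit 456) (nat_lit 37240276672) (nat_lit 532) (nat_lit 36961966259) (nat_lit 236) (nat_lit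 5) (nat_lit 242) (nat_lit 5) (nat_lit 243) (nat_lit 5) (nat_lit 523) (nat_lit 487) (nat_lit 190)) (XT.lf (nat_lit 0) (nat_lit 74363578175) (nat_lit 532) (nat_lit 19675092040) (nat_lit 76) (nat_lit 2314818223) (nat_lit 236) (nat_lit 5) (nat_lit 243) (nat_lit 5) (nat_lit 237) (nat_lit 5) (nat_lit 524) (nat_lit 487) (nat_lit 189))))))) (XT.nd (nat_lit 59826) (nat_lit 0) (nat_lit 8892) (XT.nd (nat_lit 624) (nat_lit 1368) (nat_lit 0) (XT.nd (nat_lit 312) (nat_lit 836) (nat_lit 0) (XT.nd (nat_lit 156) (nat_lit 836) (nat_lit 0) (XT.nd (nat_lit 78) (nat_lit 76) (nat_lit 0) (XT.lf (nat_lit 0) (nat_lit 36837514191) (nat_lit 380) (nat_lit 55371446636) (nat_lit 456) (nat_lit 5824573745) (nat_lit 231) (nat_lit 5) (nat_lit 236) (nat_lit 5) (nat_lit 237) (nat_lit 5) (nat_lit 525) (nat_lit 487) (nat_lit 188)) (XT.lf (nat_lit 0) (nat_lit 10814748882) (nat_lit 456) (nat_lit 4415712499) (nat_lit 76) (nat_lit 84524390572) (nat_lit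 230) (nat_lit 5) (nat_lit 236) (nat_lit 5) (nat_lit 231) (nat_lit 5) (nat_lit 526) (nat_lit 487) (nat_lit 187))) (XT.nd (nat_lit 78) (nat_lit 380) (nat_lit 0) (XT.lf (nat_lit 0) (nat_lit 28622173909) (nat_lit 532) (nat_lit 46682275071) (nat_lit 76) (nat_lit 26198050090) (nat_lit 224) (nat_lit 5) (nat_lit 231) (nat_lit 5) (nat_lit 225) (nat_lit 5) (nat_lit 527) (nat_lit 487) (nat_lit 186)) (XT.lf (nat_lit 0) (nat_lit 12719003854) (nat_lit 380) (nat_lit 34562552656) (nat_lit 456) (nat_lit 56011487057) (nat_lit 219) (nat_lit 5) (nat_lit 224) (nat_lit 5) (nat_lit 225) (nat_lit 5) (nat_lit 528) (nat_lit 487) (nat_lit 185)))) (XT.nd (nat_lit 156) (nat_lit 456) (nat_lit 0) (XT.nd (nat_lit 78) (nat_lit 380) (nat_lit 0) (XT.lf (nat_lit 0) (nat_lit 67047584669) (nat_lit 456) (nat_lit 30340191294) (nat_lit 76) (nat_lit 7733122526) (nat_lit 219) (nat_lit 5) (nat_lit 225) (nat_lit 5) (nat_lit 220) (nat_lit 5) (nat_lit 529) (nat_lit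 487) (nat_lit 184)) (XT.lf (nat_lit 0) (nat_lit 31982093898) (nat_lit 380) (nat_lit 56073793551) (nat_lit 456) (nat_lit 18928222806) (nat_lit 214) (nat_lit 5) (nat_lit 219) (nat_lit 5) (nat_lit 220) (nat_lit 5) (nat_lit 530) (nat_lit 487) (nat_lit 183))) (XT.nd (nat_lit 78) (nat_lit 380) (nat_lit 0) (XT.lf (nat_lit 0) (nat_lit 1084852290) (nat_lit 456) (nat_lit 12109137658) (nat_lit 76) (nat_lit 95699728139) (nat_lit 213) (nat_lit 5) (nat_lit 219) (nat_lit 5) (nat_lit 214) (nat_lit 5) (nat_lit 531) (nat_lit 487) (nat_lit 182)) (XT.lf (nat_lit 0) (nat_lit 22136760590) (nat_lit 456) (nat_lit 57617060792) (nat_lit 76) (nat_lit 31076604151) (nat_lit 208) (nat_lit 5) (nat_lit 214) (nat_lit 5) (nat_lit 209) (nat_lit 5) (nat_lit 532) (nat_lit 487) (nat_lit 181))))) (XT.nd (nat_lit 390) (nat_lit 304) (nat_lit 0) (XT.nd (nat_lit 156) (nat_lit 684) (nat_lit 0) (XT.nd (nat_lit 78) (nat_lit 0) (nat_lit 0) (XT.lf (nat_lit 0)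 (nat_lit 7944938009) (nat_lit 380) (nat_lit 36205457581) (nat_lit 456) (nat_lit 68664933541) (nat_lit 203) (nat_lit 5) (nat_lit 208) (nat_lit 5) (nat_lit 209) (nat_lit 5) (nat_lit 533) (nat_lit 487) (nat_lit 180)) (XT.lf (nat_lit 0) (nat_lit 67494841434) (nat_lit 456) (nat_lit 38276796549) (nat_lit 76) (nat_lit 9068029808) (nat_lit 203) (nat_lit 5) (nat_lit 209) (nat_lit 5) (nat_lit 204) (nat_lit 5) (nat_lit 534) (nat_lit 487) (nat_lit 179))) (XT.nd (nat_lit 156) (nat_lit 380) (nat_lit 0) (XT.lf (nat_lit 0) (nat_lit 30551868488) (nat_lit 304) (nat_lit 61639593597) (nat_lit 380) (nat_lit 24713719292) (nat_lit 199) (nat_lit 5) (nat_lit 203) (nat_lit 5) (nat_lit 204) (nat_lit 5) (nat_lit 535) (nat_lit 487) (nat_lit 178)) (XT.lf (nat_lit 0) (nat_lit 23801414133) (nat_lit 380) (nat_lit 65768438564) (nat_lit 76) (nat_lit 31598485994) (nat_lit 194) (nat_lit 5) (nat_lit 199) (nat_lit 5) (nat_lit 195) (nat_lit 5) (nat_lit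 537) (nat_lit 487) (nat_lit 176)))) (XT.nd (nat_lit 58656) (nat_lit 0) (nat_lit 10412) (XT.nd (nat_lit 58578) (nat_lit 0) (nat_lit 10412) (XT.lf (nat_lit 0) (nat_lit 6688447919) (nat_lit 304) (nat_lit 43035789783) (nat_lit 380) (nat_lit 73643739016) (nat_lit 190) (nat_lit 5) (nat_lit 194) (nat_lit 5) (nat_lit 195) (nat_lit 5) (nat_lit 538) (nat_lit 487) (nat_lit 175)) (XT.lf (nat_lit 0) (nat_lit 15822408939) (nat_lit 1292) (nat_lit 5772580071) (nat_lit 1292) (nat_lit 5772580071) (nat_lit 327) (nat_lit 3) (nat_lit 344) (nat_lit 3) (nat_lit 344) (nat_lit 5) (nat_lit 488) (nat_lit 488) (nat_lit 224))) (XT.nd (nat_lit 78) (nat_lit 0) (nat_lit 76) (XT.lf (nat_lit 76) (nat_lit 16025097150) (nat_lit 0) (nat_lit 16270195501) (nat_lit 1292) (nat_lit 23255597506) (nat_lit 328) (nat_lit 5) (nat_lit 327) (nat_lit 3) (nat_lit 344) (nat_lit 5) (nat_lit 489) (nat_lit 488) (nat_lit 223)) (XT.lf (nat_lit 0) (nat_lit 33192303284)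 (nat_lit 1216) (nat_lit 11840253928) (nat_lit 1292) (nat_lit 11351746888) (nat_lit 328) (nat_lit 5) (nat_lit 344) (nat_lit 5) (nat_lit 345) (nat_lit 5) (nat_lit 490) (nat_lit 488) (nat_lit 222)))))) (XT.nd (nat_lit 624) (nat_lit 1596) (nat_lit 0) (XT.nd (nat_lit 312) (nat_lit 0) (nat_lit 152) (XT.nd (nat_lit 156) (nat_lit 0) (nat_lit 76) (XT.nd (nat_lit 78) (nat_lit 0) (nat_lit 76) (XT.lf (nat_lit 76) (nat_lit 16842965424) (nat_lit 0) (nat_lit 17595429905) (nat_lit 1292) (nat_lit 22794660038) (nat_lit 329) (nat_lit 5) (nat_lit 328) (nat_lit 5) (nat_lit 345) (nat_lit 5) (nat_lit 491) (nat_lit 488) (nat_lit 221)) (XT.lf (nat_lit 0) (nat_lit 35944332107) (nat_lit 1216) (nat_lit 11578472588) (nat_lit 1292) (nat_lit 10577790655) (nat_lit 329) (nat_lit 5) (nat_lit 345) (nat_lit 5) (nat_lit 346) (nat_lit 5) (nat_lit 492) (nat_lit 488) (nat_lit 220))) (XT.nd (nat_lit 78) (nat_lit 0) (nat_lit 76) (XT.lf (nat_lit 76) (nat_lit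 18279509515) (nat_lit 0) (nat_lit 19565084970) (nat_lit 1292) (nat_lit 21139092660) (nat_lit 330) (nat_lit 5) (nat_lit 329) (nat_lit 5) (nat_lit 346) (nat_lit 5) (nat_lit 493) (nat_lit 488) (nat_lit 219)) (XT.lf (nat_lit 0) (nat_lit 40007922282) (nat_lit 1216) (nat_lit 10709572565) (nat_lit 1292) (nat_lit 9169595152) (nat_lit 330) (nat_lit 5) (nat_lit 346) (nat_lit 5) (nat_lit 347) (nat_lit 5) (nat_lit 494) (nat_lit 488) (nat_lit 218)))) (XT.nd (nat_lit 156) (nat_lit 0) (nat_lit 76) (XT.nd (nat_lit 78) (nat_lit 0) (nat_lit 76) (XT.lf (nat_lit 76) (nat_lit 20388533256) (nat_lit 0) (nat_lit 22236582002) (nat_lit 1292) (nat_lit 18180810756) (nat_lit 331) (nat_lit 5) (nat_lit 330) (nat_lit 5) (nat_lit 347) (nat_lit 5) (nat_lit 495) (nat_lit 488) (nat_lit 217)) (XT.lf (nat_lit 0) (nat_lit 45497561880) (nat_lit 1216) (nat_lit 9179769779) (nat_lit 1292) (nat_lit 7069693347) (nat_lit 331) (nat_lit 5) (nat_lit 347) (nat_lit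 5) (nat_lit 348) (nat_lit 5) (nat_lit 496) (nat_lit 488) (nat_lit 216))) (XT.nd (nat_lit 78) (nat_lit 0) (nat_lit 76) (XT.lf (nat_lit 76) (nat_lit 23227589435) (nat_lit 0) (nat_lit 25671339120) (nat_lit 1292) (nat_lit 13804146046) (nat_lit 332) (nat_lit 5) (nat_lit 331) (nat_lit 5) (nat_lit 348) (nat_lit 5) (nat_lit 497) (nat_lit 488) (nat_lit 215)) (XT.lf (nat_lit 0) (nat_lit 52535693416) (nat_lit 1216) (nat_lit 6931516118) (nat_lit 1292) (nat_lit 4216595464) (nat_lit 332) (nat_lit 5) (nat_lit 348) (nat_lit 5) (nat_lit 349) (nat_lit 5) (nat_lit 498) (nat_lit 488) (nat_lit 214))))) (XT.nd (nat_lit 312) (nat_lit 684) (nat_lit 0) (XT.nd (nat_lit 156) (nat_lit 1216) (nat_lit 0) (XT.nd (nat_lit 78) (nat_lit 0) (nat_lit 76) (XT.lf (nat_lit 76) (nat_lit 26858215565) (nat_lit 0) (nat_lit 29935036952) (nat_lit 1292) (nat_lit 7885354082) (nat_lit 333) (nat_lit 5) (nat_lit 332) (nat_lit 5) (nat_lit 349) (nat_lit 5) (nat_lit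 499) (nat_lit 488) (nat_lit 213)) (XT.lf (nat_lit 0) (nat_lit 61253228123) (nat_lit 1216) (nat_lit 3903262226) (nat_lit 1292) (nat_lit 544521235) (nat_lit 333) (nat_lit 5) (nat_lit 349) (nat_lit 5) (nat_lit 350) (nat_lit 5) (nat_lit 500) (nat_lit 488) (nat_lit 212))) (XT.nd (nat_lit 78) (nat_lit 1292) (nat_lit 0) (XT.lf (nat_lit 76) (nat_lit 31346184074) (nat_lit 0) (nat_lit 35097900953) (nat_lit 1292) (nat_lit 292091260) (nat_lit 334) (nat_lit 5) (nat_lit 333) (nat_lit 5) (nat_lit 350) (nat_lit 5) (nat_lit 501) (nat_lit 488) (nat_lit 211)) (XT.lf (nat_lit 0) (nat_lit 3949635988) (nat_lit 1292) (nat_lit 107308947) (nat_lit 1368) (nat_lit 63743125198) (nat_lit 316) (nat_lit 5) (nat_lit 333) (nat_lit 5) (nat_lit 334) (nat_lit 5) (nat_lit 502) (nat_lit 488) (nat_lit 210)))) (XT.nd (nat_lit 156) (nat_lit 760) (nat_lit 0) (XT.nd (nat_lit 78) (nat_lit 0) (nat_lit 0) (XT.lf (nat_lit 0) (nat_lit 8939232305) (nat_lit 1292)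 (nat_lit 32205500393) (nat_lit 1368) (nat_lit 27732266720) (nat_lit 317) (nat_lit 5) (nat_lit 334) (nat_lit 5) (nat_lit 335) (nat_lit 5) (nat_lit 503) (nat_lit 488) (nat_lit 209)) (XT.lf (nat_lit 76) (nat_lit 4619130407) (nat_lit 0) (nat_lit 9544466235) (nat_lit 1368) (nat_lit 55820087562) (nat_lit 318) (nat_lit 5) (nat_lit 317) (nat_lit 5) (nat_lit 335) (nat_lit 5) (nat_lit 504) (nat_lit 488) (nat_lit 208))) (XT.nd (nat_lit 78) (nat_lit 836) (nat_lit 0) (XT.lf (nat_lit 0) (nat_lit 20093680130) (nat_lit 1292) (nat_lit 28129985426) (nat_lit 76) (nat_lit 22883434355) (nat_lit 318) (nat_lit 5) (nat_lit 335) (nat_lit 5) (nat_lit 319) (nat_lit 5) (nat_lit 505) (nat_lit 488) (nat_lit 207)) (XT.lf (nat_lit 0) (nat_lit 10328167873) (nat_lit 836) (nat_lit 16066724420) (nat_lit 912) (nat_lit 45863529035) (nat_lit 307) (nat_lit 5) (nat_lit 318) (nat_lit 5) (nat_lit 319) (nat_lit 5) (nat_lit 506) (nat_lit 488) (nat_lit 206))))))))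
noncomputable def xc242 : XT := (XT.nd (nat_lit 61074) (nat_lit 0) (nat_lit 4940) (XT.nd (nat_lit 1170) (nat_lit 4408) (nat_lit 0) (XT.nd (nat_lit 546) (nat_lit 2660) (nat_lit 0) (XT.nd (nat_lit 234) (nat_lit 1216) (nat_lit 0) (XT.nd (nat_lit 78) (nat_lit 608) (nat_lit 0) (XT.lf (nat_lit 0) (nat_lit 33335411167) (nat_lit 912) (nat_lit 23086316810) (nat_lit 76) (nat_lit 17009046324) (nat_lit 307) (nat_lit 5) (nat_lit 319) (nat_lit 5) (nat_lit 308) (nat_lit 5) (nat_lit 507) (nat_lit 488) (nat_lit 205)) (XT.nd (nat_lit 78) (nat_lit 0) (nat_lit 0) (XT.lf (nat_lit 0) (nat_lit 17096995890) (nat_lit 608) (nat_lit 23710046596) (nat_lit 684) (nat_lit 33821568492) (nat_lit 299) (nat_lit 5) (nat_lit 307) (nat_lit 5) (nat_lit 308) (nat_lit 5) (nat_lit 508) (nat_lit 488) (nat_lit 204)) (XT.lf (nat_lit 0) (nat_lit 48833704608) (nat_lit 684) (nat_lit 16995105400) (nat_lit 76) (nat_lit 10023646313) (nat_lit 299) (nat_lit 5) (nat_lit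 308) (nat_lit 5) (nat_lit 300) (nat_lit 5) (nat_lit 509) (nat_lit 488) (nat_lit 203)))) (XT.nd (nat_lit 156) (nat_lit 608) (nat_lit 0) (XT.nd (nat_lit 78) (nat_lit 0) (nat_lit 0) (XT.lf (nat_lit 0) (nat_lit 25010301763) (nat_lit 608) (nat_lit 32565531686) (nat_lit 684) (nat_lit 19522943593) (nat_lit 291) (nat_lit 5) (nat_lit 299) (nat_lit 5) (nat_lit 300) (nat_lit 5) (nat_lit 510) (nat_lit 488) (nat_lit 202)) (XT.lf (nat_lit 0) (nat_lit 66769351789) (nat_lit 684) (nat_lit 9771579491) (nat_lit 76) (nat_lit 1835882353) (nat_lit 291) (nat_lit 5) (nat_lit 300) (nat_lit 5) (nat_lit 292) (nat_lit 5) (nat_lit 511) (nat_lit 488) (nat_lit 201))) (XT.nd (nat_lit 78) (nat_lit 76) (nat_lit 0) (XT.lf (nat_lit 0) (nat_lit 34158465293) (nat_lit 532) (nat_lit 42730517377) (nat_lit 608) (nat_lit 2784699463) (nat_lit 284) (nat_lit 5) (nat_lit 291) (nat_lit 5) (nat_lit 292) (nat_lit 5) (nat_lit 512) (nat_lit 488) (nat_lit 200)) (XT.lf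 (nat_lit 0) (nat_lit 6278935839) (nat_lit 608) (nat_lit 1461826312) (nat_lit 76) (nat_lit 73263901602) (nat_lit 283) (nat_lit 5) (nat_lit 291) (nat_lit 5) (nat_lit 284) (nat_lit 5) (nat_lit 513) (nat_lit 488) (nat_lit 199))))) (XT.nd (nat_lit 312) (nat_lit 988) (nat_lit 0) (XT.nd (nat_lit 156) (nat_lit 532) (nat_lit 0) (XT.nd (nat_lit 78) (nat_lit 532) (nat_lit 0) (XT.lf (nat_lit 0) (nat_lit 16264856079) (nat_lit 684) (nat_lit 37879888471) (nat_lit 76) (nat_lit 28208812782) (nat_lit 275) (nat_lit 5) (nat_lit 284) (nat_lit 5) (nat_lit 276) (nat_lit 5) (nat_lit 514) (nat_lit 488) (nat_lit 198)) (XT.lf (nat_lit 0) (nat_lit 8156616878) (nat_lit 532) (nat_lit 18563243333) (nat_lit 608) (nat_lit 57017972337) (nat_lit 268) (nat_lit 5) (nat_lit 275) (nat_lit 5) (nat_lit 276) (nat_lit 5) (nat_lit 515) (nat_lit 488) (nat_lit 197))) (XT.nd (nat_lit 78) (nat_lit 532) (nat_lit 0) (XT.lf (nat_lit 0) (nat_lit 38048224276) (nat_lit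 608) (nat_lit 28979569706) (nat_lit 76) (nat_lit 18119050762) (nat_lit 268) (nat_lit 5) (nat_lit 276) (nat_lit 5) (nat_lit 269) (nat_lit 5) (nat_lit 516) (nat_lit 488) (nat_lit 196)) (XT.lf (nat_lit 0) (nat_lit 19210726930) (nat_lit 532) (nat_lit 30873744033) (nat_lit 608) (nat_lit 36502615408) (nat_lit 261) (nat_lit 5) (nat_lit 268) (nat_lit 5) (nat_lit 269) (nat_lit 5) (nat_lit 517) (nat_lit 488) (nat_lit 195)))) (XT.nd (nat_lit 156) (nat_lit 532) (nat_lit 0) (XT.nd (nat_lit 78) (nat_lit 456) (nat_lit 0) (XT.lf (nat_lit 0) (nat_lit 62838102278) (nat_lit 608) (nat_lit 18685534058) (nat_lit 76) (nat_lit 6536210010) (nat_lit 261) (nat_lit 5) (nat_lit 269) (nat_lit 5) (nat_lit 262) (nat_lit 5) (nat_lit 518) (nat_lit 488) (nat_lit 194)) (XT.lf (nat_lit 0) (nat_lit 31780009774) (nat_lit 456) (nat_lit 44805093960) (nat_lit 532) (nat_lit 12973362567) (nat_lit 255) (nat_lit 5) (nat_lit 261) (nat_lit 5) (nat_lit 262) (nat_lit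 5) (nat_lit 519) (nat_lit 488) (nat_lit 193))) (XT.nd (nat_lit 78) (nat_lit 532) (nat_lit 0) (XT.lf (nat_lit 0) (nat_lit 84142091506) (nat_lit 456) (nat_lit 6790710094) (nat_lit 532) (nat_lit 163594677) (nat_lit 255) (nat_lit 5) (nat_lit 261) (nat_lit 5) (nat_lit 262) (nat_lit 5) (nat_lit 520) (nat_lit 488) (nat_lit 192)) (XT.lf (nat_lit 0) (nat_lit 13536351462) (nat_lit 532) (nat_lit 46810345337) (nat_lit 76) (nat_lit 32307204968) (nat_lit 248) (nat_lit 5) (nat_lit 255) (nat_lit 5) (nat_lit 249) (nat_lit 5) (nat_lit 521) (nat_lit 488) (nat_lit 191)))))) (XT.nd (nat_lit 624) (nat_lit 2204) (nat_lit 0) (XT.nd (nat_lit 312) (nat_lit 1292) (nat_lit 0) (XT.nd (nat_lit 156) (nat_lit 456) (nat_lit 0) (XT.nd (nat_lit 78) (nat_lit 0) (nat_lit 0) (XT.lf (nat_lit 0) (nat_lit 6162115147) (nat_lit 456) (nat_lit 21678895021) (nat_lit 532) (nat_lit 66411163607) (nat_lit 242) (nat_lit 5) (nat_lit 248) (nat_lit 5) (nat_lit 249)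 (nat_lit 5) (nat_lit 522) (nat_lit 488) (nat_lit 190)) (XT.lf (nat_lit 0) (nat_lit 43226259622) (nat_lit 532) (nat_lit 34380506801) (nat_lit 76) (nat_lit 18272084005) (nat_lit 242) (nat_lit 5) (nat_lit 249) (nat_lit 5) (nat_lit 243) (nat_lit 5) (nat_lit 523) (nat_lit 488) (nat_lit 189))) (XT.nd (nat_lit 78) (nat_lit 0) (nat_lit 0) (XT.lf (nat_lit 0) (nat_lit 21137705094) (nat_lit 456) (nat_lit 38352823059) (nat_lit 532) (nat_lit 38051275391) (nat_lit 236) (nat_lit 5) (nat_lit 242) (nat_lit 5) (nat_lit 243) (nat_lit 5) (nat_lit 524) (nat_lit 488) (nat_lit 188)) (XT.lf (nat_lit 0) (nat_lit 76612956014) (nat_lit 532) (nat_lit 20241881737) (nat_lit 76) (nat_lit 2388700578) (nat_lit 236) (nat_lit 5) (nat_lit 243) (nat_lit 5) (nat_lit 237) (nat_lit 5) (nat_lit 525) (nat_lit 488) (nat_lit 187)))) (XT.nd (nat_lit 156) (nat_lit 836) (nat_lit 0) (XT.nd (nat_lit 78) (nat_lit 76) (nat_lit 0) (XT.lf (nat_lit 0) (nat_lit 37965872651)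 (nat_lit 380) (nat_lit 57027512850) (nat_lit 456) (nat_lit 5980609806) (nat_lit 231) (nat_lit 5) (nat_lit 236) (nat_lit 5) (nat_lit 237) (nat_lit 5) (nat_lit 526) (nat_lit 488) (nat_lit 186)) (XT.lf (nat_lit 0) (nat_lit 11156993509) (nat_lit 456) (nat_lit 4525272640) (nat_lit 76) (nat_lit 87064696706) (nat_lit 230) (nat_lit 5) (nat_lit 236) (nat_lit 5) (nat_lit 231) (nat_lit 5) (nat_lit 527) (nat_lit 488) (nat_lit 185))) (XT.nd (nat_lit 78) (nat_lit 380) (nat_lit 0) (XT.lf (nat_lit 0) (nat_lit 29498390696) (nat_lit 532) (nat_lit 48059580923) (nat_lit 76) (nat_lit 26989075302) (nat_lit 224) (nat_lit 5) (nat_lit 231) (nat_lit 5) (nat_lit 225) (nat_lit 5) (nat_lit 528) (nat_lit 488) (nat_lit 184)) (XT.lf (nat_lit 0) (nat_lit 13123509288) (nat_lit 380) (nat_lit 35593754745) (nat_lit 456) (nat_lit 57674052459) (nat_lit 219) (nat_lit 5) (nat_lit 224) (nat_lit 5) (nat_lit 225) (nat_lit 5) (nat_lit 529) (nat_lit 488) (nat_lit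 183))))) (XT.nd (nat_lit 312) (nat_lit 1368) (nat_lit 0) (XT.nd (nat_lit 156) (nat_lit 456) (nat_lit 0) (XT.nd (nat_lit 78) (nat_lit 380) (nat_lit 0) (XT.lf (nat_lit 0) (nat_lit 69075823251) (nat_lit 456) (nat_lit 31227679408) (nat_lit 76) (nat_lit 7970517912) (nat_lit 219) (nat_lit 5) (nat_lit 225) (nat_lit 5) (nat_lit 220) (nat_lit 5) (nat_lit 530) (nat_lit 488) (nat_lit 182)) (XT.lf (nat_lit 0) (nat_lit 32964051619) (nat_lit 380) (nat_lit 57750050089) (nat_lit 456) (nat_lit 19479035200) (nat_lit 214) (nat_lit 5) (nat_lit 219) (nat_lit 5) (nat_lit 220) (nat_lit 5) (nat_lit 531) (nat_lit 488) (nat_lit 181))) (XT.nd (nat_lit 78) (nat_lit 380) (nat_lit 0) (XT.lf (nat_lit 0) (nat_lit 1133613286) (nat_lit 456) (nat_lit 12450248861) (nat_lit 76) (nat_lit 98576180525) (nat_lit 213) (nat_lit 5) (nat_lit 219) (nat_lit 5) (nat_lit 214) (nat_lit 5) (nat_lit 532) (nat_lit 488) (nat_lit 180)) (XT.lf (nat_lit 0) (nat_lit 22816875090)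 (nat_lit 456) (nat_lit 59323205464) (nat_lit 76) (nat_lit 32014776915) (nat_lit 208) (nat_lit 5) (nat_lit 214) (nat_lit 5) (nat_lit 209) (nat_lit 5) (nat_lit 533) (nat_lit 488) (nat_lit 179)))) (XT.nd (nat_lit 312) (nat_lit 988) (nat_lit 0) (XT.nd (nat_lit 78) (nat_lit 0) (nat_lit 0) (XT.lf (nat_lit 0) (nat_lit 8205434016) (nat_lit 380) (nat_lit 37285231663) (nat_lit 456) (nat_lit 70708650112) (nat_lit 203) (nat_lit 5) (nat_lit 208) (nat_lit 5) (nat_lit 209) (nat_lit 5) (nat_lit 534) (nat_lit 488) (nat_lit 178)) (XT.lf (nat_lit 0) (nat_lit 69535045553) (nat_lit 456) (nat_lit 39403197863) (nat_lit 76) (nat_lit 9346153188) (nat_lit 203) (nat_lit 5) (nat_lit 209) (nat_lit 5) (nat_lit 204) (nat_lit 5) (nat_lit 535) (nat_lit 488) (nat_lit 177))) (XT.nd (nat_lit 78) (nat_lit 304) (nat_lit 0) (XT.lf (nat_lit 0) (nat_lit 24530116283) (nat_lit 380) (nat_lit 67719974027) (nat_lit 76) (nat_lit 32552858347) (nat_lit 194) (nat_lit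 5) (nat_lit 199) (nat_lit 5) (nat_lit 195) (nat_lit 5) (nat_lit 538) (nat_lit 488) (nat_lit 174)) (XT.lf (nat_lit 0) (nat_lit 6910408093) (nat_lit 304) (nat_lit 44319994298) (nat_lit 380) (nat_lit 75838180112) (nat_lit 190) (nat_lit 5) (nat_lit 194) (nat_lit 5) (nat_lit 195) (nat_lit 5) (nat_lit 539) (nat_lit 488) (nat_lit 173))))))) (XT.nd (nat_lit 1248) (nat_lit 4636) (nat_lit 0) (XT.nd (nat_lit 624) (nat_lit 836) (nat_lit 0) (XT.nd (nat_lit 312) (nat_lit 0) (nat_lit 152) (XT.nd (nat_lit 156) (nat_lit 0) (nat_lit 76) (XT.nd (nat_lit 78) (nat_lit 0) (nat_lit 0) (XT.lf (nat_lit 0) (nat_lit 16318631509) (nat_lit 1292) (nat_lit 5934658570) (nat_lit 1292) (nat_lit 5934658570) (nat_lit 327) (nat_lit 3) (nat_lit 344) (nat_lit 3) (nat_lit 344) (nat_lit 5) (nat_lit 489) (nat_lit 489) (nat_lit 222)) (XT.lf (nat_lit 76) (nat_lit 16527830244) (nat_lit 0) (nat_lit 16778377719) (nat_lit 1292) (nat_lit 23909945271) (nat_lit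 328) (nat_lit 5) (nat_lit 327) (nat_lit 3) (nat_lit 344) (nat_lit 5) (nat_lit 490) (nat_lit 489) (nat_lit 221))) (XT.nd (nat_lit 78) (nat_lit 0) (nat_lit 0) (XT.lf (nat_lit 0) (nat_lit 34228716603) (nat_lit 1216) (nat_lit 12172707378) (nat_lit 1292) (nat_lit 11673188041) (nat_lit 328) (nat_lit 5) (nat_lit 344) (nat_lit 5) (nat_lit 345) (nat_lit 5) (nat_lit 491) (nat_lit 489) (nat_lit 220)) (XT.lf (nat_lit 76) (nat_lit 17370785475) (nat_lit 0) (nat_lit 18140438705) (nat_lit 1292) (nat_lit 23437630719) (nat_lit 329) (nat_lit 5) (nat_lit 328) (nat_lit 5) (nat_lit 345) (nat_lit 5) (nat_lit 492) (nat_lit 489) (nat_lit 219)))) (XT.nd (nat_lit 156) (nat_lit 0) (nat_lit 76) (XT.nd (nat_lit 78) (nat_lit 0) (nat_lit 0) (XT.lf (nat_lit 0) (nat_lit 37061023404) (nat_lit 1216) (nat_lit 11902634499) (nat_lit 1292) (nat_lit 10878802701) (nat_lit 329) (nat_lit 5) (nat_lit 345) (nat_lit 5) (nat_lit 346) (nat_lit 5) (nat_lit 493)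 (nat_lit 489) (nat_lit 218)) (XT.lf (nat_lit 76) (nat_lit 18850859692) (nat_lit 0) (nat_lit 20166537392) (nat_lit 1292) (nat_lit 21734675015) (nat_lit 330) (nat_lit 5) (nat_lit 329) (nat_lit 5) (nat_lit 346) (nat_lit 5) (nat_lit 494) (nat_lit 489) (nat_lit 217))) (XT.nd (nat_lit 78) (nat_lit 0) (nat_lit 0) (XT.lf (nat_lit 0) (nat_lit 41244398187) (nat_lit 1216) (nat_lit 11007335536) (nat_lit 1292) (nat_lit 9430880163) (nat_lit 330) (nat_lit 5) (nat_lit 346) (nat_lit 5) (nat_lit 347) (nat_lit 5) (nat_lit 495) (nat_lit 489) (nat_lit 216)) (XT.lf (nat_lit 76) (nat_lit 21023482830) (nat_lit 0) (nat_lit 22915792551) (nat_lit 1292) (nat_lit 18689764595) (nat_lit 331) (nat_lit 5) (nat_lit 330) (nat_lit 5) (nat_lit 347) (nat_lit 5) (nat_lit 496) (nat_lit 489) (nat_lit 215))))) (XT.nd (nat_lit 312) (nat_lit 1140) (nat_lit 0) (XT.nd (nat_lit 156) (nat_lit 0) (nat_lit 76) (XT.nd (nat_lit 78) (nat_lit 0) (nat_lit 0) (XT.lf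 (nat_lit 0) (nat_lit 46896751094) (nat_lit 1216) (nat_lit 9431401870) (nat_lit 1292) (nat_lit 7270253352) (nat_lit 331) (nat_lit 5) (nat_lit 347) (nat_lit 5) (nat_lit 348) (nat_lit 5) (nat_lit 497) (nat_lit 489) (nat_lit 214)) (XT.lf (nat_lit 76) (nat_lit 23947945170) (nat_lit 0) (nat_lit 26451441832) (nat_lit 1292) (nat_lit 14183773594) (nat_lit 332) (nat_lit 5) (nat_lit 331) (nat_lit 5) (nat_lit 348) (nat_lit 5) (nat_lit 498) (nat_lit 489) (nat_lit 213))) (XT.nd (nat_lit 78) (nat_lit 0) (nat_lit 0) (XT.lf (nat_lit 0) (nat_lit 54144186378) (nat_lit 1216) (nat_lit 7115548922) (nat_lit 1292) (nat_lit 4333609703) (nat_lit 332) (nat_lit 5) (nat_lit 348) (nat_lit 5) (nat_lit 349) (nat_lit 5) (nat_lit 499) (nat_lit 489) (nat_lit 212)) (XT.lf (nat_lit 76) (nat_lit 27687640273) (nat_lit 0) (nat_lit 30841115254) (nat_lit 1292) (nat_lit 8089256670) (nat_lit 333) (nat_lit 5) (nat_lit 332) (nat_lit 5) (nat_lit 349) (nat_lit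 5) (nat_lit 500) (nat_lit 489) (nat_lit 211)))) (XT.nd (nat_lit 156) (nat_lit 1292) (nat_lit 0) (XT.nd (nat_lit 78) (nat_lit 0) (nat_lit 0) (XT.lf (nat_lit 0) (nat_lit 63121532028) (nat_lit 1216) (nat_lit 3996371740) (nat_lit 1292) (nat_lit 553215558) (nat_lit 333) (nat_lit 5) (nat_lit 349) (nat_lit 5) (nat_lit 350) (nat_lit 5) (nat_lit 501) (nat_lit 489) (nat_lit 210)) (XT.lf (nat_lit 76) (nat_lit 32310322770) (nat_lit 0) (nat_lit 36157125818) (nat_lit 1292) (nat_lit 269910403) (nat_lit 334) (nat_lit 5) (nat_lit 333) (nat_lit 5) (nat_lit 350) (nat_lit 5) (nat_lit 502) (nat_lit 489) (nat_lit 209))) (XT.nd (nat_lit 78) (nat_lit 0) (nat_lit 76) (XT.lf (nat_lit 0) (nat_lit 4097581159) (nat_lit 1292) (nat_lit 86879371) (nat_lit 1368) (nat_lit 65648726747) (nat_lit 316) (nat_lit 5) (nat_lit 333) (nat_lit 5) (nat_lit 334) (nat_lit 5) (nat_lit 503) (nat_lit 489) (nat_lit 208)) (XT.lf (nat_lit 0) (nat_lit 9236180551) (nat_lit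 1292) (nat_lit 33147330507) (nat_lit 1368) (nat_lit 28558933964) (nat_lit 317) (nat_lit 5) (nat_lit 334) (nat_lit 5) (nat_lit 335) (nat_lit 5) (nat_lit 504) (nat_lit 489) (nat_lit 207)))))) (XT.nd (nat_lit 624) (nat_lit 2736) (nat_lit 0) (XT.nd (nat_lit 312) (nat_lit 1216) (nat_lit 0) (XT.nd (nat_lit 156) (nat_lit 760) (nat_lit 0) (XT.nd (nat_lit 78) (nat_lit 0) (nat_lit 76) (XT.lf (nat_lit 76) (nat_lit 4781800639) (nat_lit 0) (nat_lit 9834868809) (nat_lit 1368) (nat_lit 57465679131) (nat_lit 318) (nat_lit 5) (nat_lit 317) (nat_lit 5) (nat_lit 335) (nat_lit 5) (nat_lit 505) (nat_lit 489) (nat_lit 206)) (XT.lf (nat_lit 0) (nat_lit 20723797134) (nat_lit 1292) (nat_lit 28949631027) (nat_lit 76) (nat_lit 23566064381) (nat_lit 318) (nat_lit 5) (nat_lit 335) (nat_lit 5) (nat_lit 319) (nat_lit 5) (nat_lit 506) (nat_lit 489) (nat_lit 205))) (XT.nd (nat_lit 78) (nat_lit 0) (nat_lit 0) (XT.lf (nat_lit 0) (nat_lit 10662029087)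 (nat_lit 836) (nat_lit 16551452095) (nat_lit 912) (nat_lit 47211889388) (nat_lit 307) (nat_lit 5) (nat_lit 318) (nat_lit 5) (nat_lit 319) (nat_lit 5) (nat_lit 507) (nat_lit 489) (nat_lit 204)) (XT.lf (nat_lit 0) (nat_lit 34361411285) (nat_lit 912) (nat_lit 23754784198) (nat_lit 76) (nat_lit 17516722811) (nat_lit 307) (nat_lit 5) (nat_lit 319) (nat_lit 5) (nat_lit 308) (nat_lit 5) (nat_lit 508) (nat_lit 489) (nat_lit 203)))) (XT.nd (nat_lit 156) (nat_lit 608) (nat_lit 0) (XT.nd (nat_lit 78) (nat_lit 0) (nat_lit 0) (XT.lf (nat_lit 0) (nat_lit 17633791391) (nat_lit 608) (nat_lit 24422874286) (nat_lit 684) (nat_lit 34810040203) (nat_lit 299) (nat_lit 5) (nat_lit 307) (nat_lit 5) (nat_lit 308) (nat_lit 5) (nat_lit 509) (nat_lit 489) (nat_lit 202)) (XT.lf (nat_lit 0) (nat_lit 50323373266) (nat_lit 684) (nat_lit 17481013200) (nat_lit 76) (nat_lit 10322902782) (nat_lit 299) (nat_lit 5) (nat_lit 308) (nat_lit 5) (nat_lit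 300) (nat_lit 5) (nat_lit 510) (nat_lit 489) (nat_lit 201))) (XT.nd (nat_lit 78) (nat_lit 0) (nat_lit 0) (XT.lf (nat_lit 0) (nat_lit 25784321419) (nat_lit 608) (nat_lit 33542954293) (nat_lit 684) (nat_lit 20083738615) (nat_lit 291) (nat_lit 5) (nat_lit 299) (nat_lit 5) (nat_lit 300) (nat_lit 5) (nat_lit 511) (nat_lit 489) (nat_lit 200)) (XT.lf (nat_lit 0) (nat_lit 68795891441) (nat_lit 684) (nat_lit 10040997731) (nat_lit 76) (nat_lit 1890524119) (nat_lit 291) (nat_lit 5) (nat_lit 300) (nat_lit 5) (nat_lit 292) (nat_lit 5) (nat_lit 512) (nat_lit 489) (nat_lit 199))))) (XT.nd (nat_lit 312) (nat_lit 988) (nat_lit 0) (XT.nd (nat_lit 156) (nat_lit 1140) (nat_lit 0) (XT.nd (nat_lit 78) (nat_lit 76) (nat_lit 0) (XT.lf (nat_lit 0) (nat_lit 35206715758) (nat_lit 532) (nat_lit 44011938078) (nat_lit 608) (nat_lit 2844547761) (nat_lit 284) (nat_lit 5) (nat_lit 291) (nat_lit 5) (nat_lit 292) (nat_lit 5) (nat_lit 513) (nat_lit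 489) (nat_lit 198)) (XT.lf (nat_lit 0) (nat_lit 6489857658) (nat_lit 608) (nat_lit 1482419201) (nat_lit 76) (nat_lit 75461849299) (nat_lit 283) (nat_lit 5) (nat_lit 291) (nat_lit 5) (nat_lit 284) (nat_lit 5) (nat_lit 514) (nat_lit 489) (nat_lit 197))) (XT.nd (nat_lit 78) (nat_lit 532) (nat_lit 0) (XT.lf (nat_lit 0) (nat_lit 16774928817) (nat_lit 684) (nat_lit 38992595667) (nat_lit 76) (nat_lit 29055974888) (nat_lit 275) (nat_lit 5) (nat_lit 284) (nat_lit 5) (nat_lit 276) (nat_lit 5) (nat_lit 515) (nat_lit 489) (nat_lit 196)) (XT.lf (nat_lit 0) (nat_lit 8424772594) (nat_lit 532) (nat_lit 19118391487) (nat_lit 608) (nat_lit 58706151358) (nat_lit 268) (nat_lit 5) (nat_lit 275) (nat_lit 5) (nat_lit 276) (nat_lit 5) (nat_lit 516) (nat_lit 489) (nat_lit 195)))) (XT.nd (nat_lit 156) (nat_lit 456) (nat_lit 0) (XT.nd (nat_lit 78) (nat_lit 532) (nat_lit 0) (XT.lf (nat_lit 0) (nat_lit 39210763118) (nat_lit 608) (nat_lit 29825566039)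 (nat_lit 76) (nat_lit 18664287347) (nat_lit 268) (nat_lit 5) (nat_lit 276) (nat_lit 5) (nat_lit 269) (nat_lit 5) (nat_lit 517) (nat_lit 489) (nat_lit 194)) (XT.lf (nat_lit 0) (nat_lit 19810210175) (nat_lit 532) (nat_lit 31797495339) (nat_lit 608) (nat_lit 37576371640) (nat_lit 261) (nat_lit 5) (nat_lit 268) (nat_lit 5) (nat_lit 269) (nat_lit 5) (nat_lit 518) (nat_lit 489) (nat_lit 193))) (XT.nd (nat_lit 78) (nat_lit 456) (nat_lit 0) (XT.lf (nat_lit 0) (nat_lit 64743365811) (nat_lit 608) (nat_lit 19223032518) (nat_lit 76) (nat_lit 6734639021) (nat_lit 261) (nat_lit 5) (nat_lit 269) (nat_lit 5) (nat_lit 262) (nat_lit 5) (nat_lit 519) (nat_lit 489) (nat_lit 192)) (XT.lf (nat_lit 0) (nat_lit 32756251477) (nat_lit 456) (nat_lit 46146159367) (nat_lit 532) (nat_lit 13342216076) (nat_lit 255) (nat_lit 5) (nat_lit 261) (nat_lit 5) (nat_lit 262) (nat_lit 5) (nat_lit 520) (nat_lit 489) (nat_lit 191))))))))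
noncomputable def xc243 : XT := (XT.nd (nat_lit 61230) (nat_lit 0) (nat_lit 1444) (XT.nd (nat_lit 1404) (nat_lit 684) (nat_lit 0) (XT.nd (nat_lit 546) (nat_lit 2128) (nat_lit 0) (XT.nd (nat_lit 234) (nat_lit 836) (nat_lit 0) (XT.nd (nat_lit 78) (nat_lit 988) (nat_lit 0) (XT.lf (nat_lit 0) (nat_lit 86688530377) (nat_lit 456) (nat_lit 6991433910) (nat_lit 532) (nat_lit 148747792) (nat_lit 255) (nat_lit 5) (nat_lit 261) (nat_lit 5) (nat_lit 262) (nat_lit 5) (nat_lit 521) (nat_lit 489) (nat_lit 190)) (XT.nd (nat_lit 78) (nat_lit 456) (nat_lit 0) (XT.lf (nat_lit 0) (nat_lit 13961493776) (nat_lit 532) (nat_lit 48191775223) (nat_lit 76) (nat_lit 33279677582) (nat_lit 248) (nat_lit 5) (nat_lit 255) (nat_lit 5) (nat_lit 249) (nat_lit 5) (nat_lit 522) (nat_lit 489) (nat_lit 189)) (XT.lf (nat_lit 0) (nat_lit 6369634758) (nat_lit 456) (nat_lit 22325320365) (nat_lit 532) (nat_lit 68384221760) (nat_lit 242) (nat_lit 5) (nat_lit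 248) (nat_lit 5) (nat_lit 249) (nat_lit 5) (nat_lit 523) (nat_lit 489) (nat_lit 188)))) (XT.nd (nat_lit 156) (nat_lit 380) (nat_lit 0) (XT.nd (nat_lit 78) (nat_lit 456) (nat_lit 0) (XT.lf (nat_lit 0) (nat_lit 44541253757) (nat_lit 532) (nat_lit 35389416787) (nat_lit 76) (nat_lit 18823998558) (nat_lit 242) (nat_lit 5) (nat_lit 249) (nat_lit 5) (nat_lit 243) (nat_lit 5) (nat_lit 524) (nat_lit 489) (nat_lit 187)) (XT.lf (nat_lit 0) (nat_lit 21794120825) (nat_lit 456) (nat_lit 39499013451) (nat_lit 532) (nat_lit 39174386038) (nat_lit 236) (nat_lit 5) (nat_lit 242) (nat_lit 5) (nat_lit 243) (nat_lit 5) (nat_lit 525) (nat_lit 489) (nat_lit 186))) (XT.nd (nat_lit 78) (nat_lit 380) (nat_lit 0) (XT.lf (nat_lit 0) (nat_lit 78928754907) (nat_lit 532) (nat_lit 20827022000) (nat_lit 76) (nat_lit 2464544655) (nat_lit 236) (nat_lit 5) (nat_lit 243) (nat_lit 5) (nat_lit 237) (nat_lit 5) (nat_lit 526) (nat_lit 489) (nat_lit 185))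 (XT.lf (nat_lit 0) (nat_lit 39126748193) (nat_lit 380) (nat_lit 58733552501) (nat_lit 456) (nat_lit 6142400470) (nat_lit 231) (nat_lit 5) (nat_lit 236) (nat_lit 5) (nat_lit 237) (nat_lit 5) (nat_lit 527) (nat_lit 489) (nat_lit 184))))) (XT.nd (nat_lit 312) (nat_lit 1216) (nat_lit 0) (XT.nd (nat_lit 156) (nat_lit 380) (nat_lit 0) (XT.nd (nat_lit 78) (nat_lit 456) (nat_lit 0) (XT.lf (nat_lit 0) (nat_lit 11508483558) (nat_lit 456) (nat_lit 4639434784) (nat_lit 76) (nat_lit 89680949433) (nat_lit 230) (nat_lit 5) (nat_lit 236) (nat_lit 5) (nat_lit 231) (nat_lit 5) (nat_lit 528) (nat_lit 489) (nat_lit 183)) (XT.lf (nat_lit 0) (nat_lit 30399886454) (nat_lit 532) (nat_lit 49479535567) (nat_lit 76) (nat_lit 27803539444) (nat_lit 224) (nat_lit 5) (nat_lit 231) (nat_lit 5) (nat_lit 225) (nat_lit 5) (nat_lit 529) (nat_lit 489) (nat_lit 182))) (XT.nd (nat_lit 78) (nat_lit 0) (nat_lit 0) (XT.lf (nat_lit 0) (nat_lit 13538833304)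 (nat_lit 380) (nat_lit 36656218635) (nat_lit 456) (nat_lit 59387515423) (nat_lit 219) (nat_lit 5) (nat_lit 224) (nat_lit 5) (nat_lit 225) (nat_lit 5) (nat_lit 530) (nat_lit 489) (nat_lit 181)) (XT.lf (nat_lit 0) (nat_lit 71163943968) (nat_lit 456) (nat_lit 32143096249) (nat_lit 76) (nat_lit 8214725079) (nat_lit 219) (nat_lit 5) (nat_lit 225) (nat_lit 5) (nat_lit 220) (nat_lit 5) (nat_lit 531) (nat_lit 489) (nat_lit 180)))) (XT.nd (nat_lit 156) (nat_lit 760) (nat_lit 0) (XT.nd (nat_lit 78) (nat_lit 76) (nat_lit 0) (XT.lf (nat_lit 0) (nat_lit 33974176772) (nat_lit 380) (nat_lit 59476936295) (nat_lit 456) (nat_lit 20047349804) (nat_lit 214) (nat_lit 5) (nat_lit 219) (nat_lit 5) (nat_lit 220) (nat_lit 5) (nat_lit 532) (nat_lit 489) (nat_lit 179)) (XT.lf (nat_lit 0) (nat_lit 1182906279) (nat_lit 456) (nat_lit 12802865642) (nat_lit 76) (nat_lit 101538613024) (nat_lit 213) (nat_lit 5) (nat_lit 219) (nat_lit 5) (nat_lit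 214) (nat_lit 5) (nat_lit 533) (nat_lit 489) (nat_lit 178))) (XT.nd (nat_lit 78) (nat_lit 380) (nat_lit 0) (XT.lf (nat_lit 0) (nat_lit 23516473889) (nat_lit 456) (nat_lit 61081818441) (nat_lit 76) (nat_lit 32980757632) (nat_lit 208) (nat_lit 5) (nat_lit 214) (nat_lit 5) (nat_lit 209) (nat_lit 5) (nat_lit 534) (nat_lit 489) (nat_lit 177)) (XT.lf (nat_lit 0) (nat_lit 8472473525) (nat_lit 380) (nat_lit 38397765759) (nat_lit 456) (nat_lit 72814609931) (nat_lit 203) (nat_lit 5) (nat_lit 208) (nat_lit 5) (nat_lit 209) (nat_lit 5) (nat_lit 535) (nat_lit 489) (nat_lit 176)))))) (XT.nd (nat_lit 59202) (nat_lit 0) (nat_lit 9272) (XT.nd (nat_lit 58890) (nat_lit 0) (nat_lit 10184) (XT.nd (nat_lit 58734) (nat_lit 0) (nat_lit 10108) (XT.nd (nat_lit 58656) (nat_lit 0) (nat_lit 10108) (XT.lf (nat_lit 0) (nat_lit 25279837968) (nat_lit 380) (nat_lit 69731290758) (nat_lit 76) (nat_lit 33535493464) (nat_lit 194) (nat_lit 5) (nat_lit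 199) (nat_lit 5) (nat_lit 195) (nat_lit 5) (nat_lit 539) (nat_lit 489) (nat_lit 172)) (XT.lf (nat_lit 0) (nat_lit 16828503681) (nat_lit 1292) (nat_lit 6102236547) (nat_lit 1292) (nat_lit 6102236547) (nat_lit 327) (nat_lit 3) (nat_lit 344) (nat_lit 3) (nat_lit 344) (nat_lit 5) (nat_lit 490) (nat_lit 490) (nat_lit 220))) (XT.nd (nat_lit 78) (nat_lit 0) (nat_lit 76) (XT.lf (nat_lit 76) (nat_lit 17044383579) (nat_lit 0) (nat_lit 17300652939) (nat_lit 1292) (nat_lit 24586410223) (nat_lit 328) (nat_lit 5) (nat_lit 327) (nat_lit 3) (nat_lit 344) (nat_lit 5) (nat_lit 491) (nat_lit 490) (nat_lit 219)) (XT.lf (nat_lit 0) (nat_lit 35293889176) (nat_lit 1216) (nat_lit 12516440613) (nat_lit 1292) (nat_lit 12005369493) (nat_lit 328) (nat_lit 5) (nat_lit 344) (nat_lit 5) (nat_lit 345) (nat_lit 5) (nat_lit 492) (nat_lit 490) (nat_lit 218)))) (XT.nd (nat_lit 156) (nat_lit 0) (nat_lit 76) (XT.nd (nat_lit 78) (nat_lit 0) (nat_lit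 76) (XT.lf (nat_lit 76) (nat_lit 17913146751) (nat_lit 0) (nat_lit 18700813523) (nat_lit 1292) (nat_lit 24102236574) (nat_lit 329) (nat_lit 5) (nat_lit 328) (nat_lit 5) (nat_lit 345) (nat_lit 5) (nat_lit 493) (nat_lit 490) (nat_lit 217)) (XT.lf (nat_lit 0) (nat_lit 38209013342) (nat_lit 1216) (nat_lit 12237852598) (nat_lit 1292) (nat_lit 11189782039) (nat_lit 329) (nat_lit 5) (nat_lit 345) (nat_lit 5) (nat_lit 346) (nat_lit 5) (nat_lit 494) (nat_lit 490) (nat_lit 216))) (XT.nd (nat_lit 78) (nat_lit 0) (nat_lit 76) (XT.lf (nat_lit 76) (nat_lit 19438032096) (nat_lit 0) (nat_lit 20785201036) (nat_lit 1292) (nat_lit 22350340089) (nat_lit 330) (nat_lit 5) (nat_lit 329) (nat_lit 5) (nat_lit 346) (nat_lit 5) (nat_lit 495) (nat_lit 490) (nat_lit 215)) (XT.lf (nat_lit 0) (nat_lit 42515888147) (nat_lit 1216) (nat_lit 11315381781) (nat_lit 1292) (nat_lit 9700796064) (nat_lit 330) (nat_lit 5) (nat_lit 346) (nat_lit 5) (nat_lit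 347) (nat_lit 5) (nat_lit 496) (nat_lit 490) (nat_lit 214))))) (XT.nd (nat_lit 312) (nat_lit 1064) (nat_lit 0) (XT.nd (nat_lit 156) (nat_lit 0) (nat_lit 76) (XT.nd (nat_lit 78) (nat_lit 0) (nat_lit 76) (XT.lf (nat_lit 76) (nat_lit 21676143745) (nat_lit 0) (nat_lit 23614684077) (nat_lit 1292) (nat_lit 19216080604) (nat_lit 331) (nat_lit 5) (nat_lit 330) (nat_lit 5) (nat_lit 347) (nat_lit 5) (nat_lit 497) (nat_lit 490) (nat_lit 213)) (XT.lf (nat_lit 0) (nat_lit 48335949185) (nat_lit 1216) (nat_lit 9691946902) (nat_lit 1292) (nat_lit 7477492071) (nat_lit 331) (nat_lit 5) (nat_lit 347) (nat_lit 5) (nat_lit 348) (nat_lit 5) (nat_lit 498) (nat_lit 490) (nat_lit 212))) (XT.nd (nat_lit 78) (nat_lit 0) (nat_lit 76) (XT.lf (nat_lit 76) (nat_lit 24688560970) (nat_lit 0) (nat_lit 27254375736) (nat_lit 1292) (nat_lit 14576770229) (nat_lit 332) (nat_lit 5) (nat_lit 331) (nat_lit 5) (nat_lit 348) (nat_lit 5) (nat_lit 499) (nat_lit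 490) (nat_lit 211)) (XT.lf (nat_lit 0) (nat_lit 55799072965) (nat_lit 1216) (nat_lit 7306475396) (nat_lit 1292) (nat_lit 4454678768) (nat_lit 332) (nat_lit 5) (nat_lit 348) (nat_lit 5) (nat_lit 349) (nat_lit 5) (nat_lit 500) (nat_lit 490) (nat_lit 210)))) (XT.nd (nat_lit 156) (nat_lit 1216) (nat_lit 0) (XT.nd (nat_lit 78) (nat_lit 0) (nat_lit 76) (XT.lf (nat_lit 76) (nat_lit 28540588495) (nat_lit 0) (nat_lit 31773915111) (nat_lit 1292) (nat_lit 8301151040) (nat_lit 333) (nat_lit 5) (nat_lit 332) (nat_lit 5) (nat_lit 349) (nat_lit 5) (nat_lit 501) (nat_lit 490) (nat_lit 209)) (XT.lf (nat_lit 0) (nat_lit 65044122338) (nat_lit 1216) (nat_lit 4093651569) (nat_lit 1292) (nat_lit 562609352) (nat_lit 333) (nat_lit 5) (nat_lit 349) (nat_lit 5) (nat_lit 350) (nat_lit 5) (nat_lit 502) (nat_lit 490) (nat_lit 208))) (XT.nd (nat_lit 78) (nat_lit 1292) (nat_lit 0) (XT.lf (nat_lit 76) (nat_lit 33302022097) (nat_lit 0) (nat_lit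 37247766483) (nat_lit 1292) (nat_lit 248840409) (nat_lit 334) (nat_lit 5) (nat_lit 333) (nat_lit 5) (nat_lit 350) (nat_lit 5) (nat_lit 503) (nat_lit 490) (nat_lit 207)) (XT.lf (nat_lit 0) (nat_lit 4248273785) (nat_lit 1292) (nat_lit 67194449) (nat_lit 1368) (nat_lit 67611880502) (nat_lit 316) (nat_lit 5) (nat_lit 333) (nat_lit 5) (nat_lit 334) (nat_lit 5) (nat_lit 504) (nat_lit 490) (nat_lit 206))))))) (XT.nd (nat_lit 1248) (nat_lit 3648) (nat_lit 0) (XT.nd (nat_lit 624) (nat_lit 2280) (nat_lit 0) (XT.nd (nat_lit 312) (nat_lit 1216) (nat_lit 0) (XT.nd (nat_lit 156) (nat_lit 760) (nat_lit 0) (XT.nd (nat_lit 78) (nat_lit 0) (nat_lit 0) (XT.lf (nat_lit 0) (nat_lit 9540385656) (nat_lit 1292) (nat_lit 34118812447) (nat_lit 1368) (nat_lit 29410705511) (nat_lit 317) (nat_lit 5) (nat_lit 334) (nat_lit 5) (nat_lit 335) (nat_lit 5) (nat_lit 505) (nat_lit 490) (nat_lit 205)) (XT.lf (nat_lit 76) (nat_lit 4947967751) (nat_lit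 0) (nat_lit 10133749907) (nat_lit 1368) (nat_lit 59162303800) (nat_lit 318) (nat_lit 5) (nat_lit 317) (nat_lit 5) (nat_lit 335) (nat_lit 5) (nat_lit 506) (nat_lit 490) (nat_lit 204))) (XT.nd (nat_lit 78) (nat_lit 836) (nat_lit 0) (XT.lf (nat_lit 0) (nat_lit 21371250137) (nat_lit 1292) (nat_lit 29795258273) (nat_lit 76) (nat_lit 24269395635) (nat_lit 318) (nat_lit 5) (nat_lit 335) (nat_lit 5) (nat_lit 319) (nat_lit 5) (nat_lit 507) (nat_lit 490) (nat_lit 203)) (XT.lf (nat_lit 0) (nat_lit 11004527510) (nat_lit 836) (nat_lit 17050565120) (nat_lit 912) (nat_lit 48602281777) (nat_lit 307) (nat_lit 5) (nat_lit 318) (nat_lit 5) (nat_lit 319) (nat_lit 5) (nat_lit 508) (nat_lit 490) (nat_lit 202)))) (XT.nd (nat_lit 156) (nat_lit 608) (nat_lit 0) (XT.nd (nat_lit 78) (nat_lit 608) (nat_lit 0) (XT.lf (nat_lit 0) (nat_lit 35416702472) (nat_lit 912) (nat_lit 24444690316) (nat_lit 76) (nat_lit 18039778552) (nat_lit 307) (nat_lit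 5) (nat_lit 319) (nat_lit 5) (nat_lit 308) (nat_lit 5) (nat_lit 509) (nat_lit 490) (nat_lit 201)) (XT.lf (nat_lit 0) (nat_lit 18185319625) (nat_lit 608) (nat_lit 25156999192) (nat_lit 684) (nat_lit 35829668638) (nat_lit 299) (nat_lit 5) (nat_lit 307) (nat_lit 5) (nat_lit 308) (nat_lit 5) (nat_lit 510) (nat_lit 490) (nat_lit 200))) (XT.nd (nat_lit 78) (nat_lit 608) (nat_lit 0) (XT.lf (nat_lit 0) (nat_lit 51856316541) (nat_lit 684) (nat_lit 17982872796) (nat_lit 76) (nat_lit 10631220347) (nat_lit 299) (nat_lit 5) (nat_lit 308) (nat_lit 5) (nat_lit 300) (nat_lit 5) (nat_lit 511) (nat_lit 490) (nat_lit 199)) (XT.lf (nat_lit 0) (nat_lit 26580200580) (nat_lit 608) (nat_lit 34549673364) (nat_lit 684) (nat_lit 20662786464) (nat_lit 291) (nat_lit 5) (nat_lit 299) (nat_lit 5) (nat_lit 300) (nat_lit 5) (nat_lit 512) (nat_lit 490) (nat_lit 198))))) (XT.nd (nat_lit 312) (nat_lit 1064) (nat_lit 0) (XT.nd (nat_lit 156) (nat_lit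 684) (nat_lit 0) (XT.nd (nat_lit 78) (nat_lit 532) (nat_lit 0) (XT.lf (nat_lit 0) (nat_lit 70881880634) (nat_lit 684) (nat_lit 10319860668) (nat_lit 76) (nat_lit 1946830092) (nat_lit 291) (nat_lit 5) (nat_lit 300) (nat_lit 5) (nat_lit 292) (nat_lit 5) (nat_lit 513) (nat_lit 490) (nat_lit 197)) (XT.lf (nat_lit 0) (nat_lit 36285064941) (nat_lit 532) (nat_lit 45331829805) (nat_lit 608) (nat_lit 2907551564) (nat_lit 284) (nat_lit 5) (nat_lit 291) (nat_lit 5) (nat_lit 292) (nat_lit 5) (nat_lit 514) (nat_lit 490) (nat_lit 196))) (XT.nd (nat_lit 78) (nat_lit 608) (nat_lit 0) (XT.lf (nat_lit 0) (nat_lit 6705812455) (nat_lit 608) (nat_lit 1504965204) (nat_lit 76) (nat_lit 77725733667) (nat_lit 283) (nat_lit 5) (nat_lit 291) (nat_lit 5) (nat_lit 284) (nat_lit 5) (nat_lit 515) (nat_lit 490) (nat_lit 195)) (XT.lf (nat_lit 0) (nat_lit 17299033554) (nat_lit 684) (nat_lit 40140043950) (nat_lit 76) (nat_lit 29928500323) (nat_lit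 275) (nat_lit 5) (nat_lit 284) (nat_lit 5) (nat_lit 276) (nat_lit 5) (nat_lit 516) (nat_lit 490) (nat_lit 194)))) (XT.nd (nat_lit 156) (nat_lit 532) (nat_lit 0) (XT.nd (nat_lit 78) (nat_lit 0) (nat_lit 0) (XT.lf (nat_lit 0) (nat_lit 8699626441) (nat_lit 532) (nat_lit 19690294494) (nat_lit 608) (nat_lit 60446259313) (nat_lit 268) (nat_lit 5) (nat_lit 275) (nat_lit 5) (nat_lit 276) (nat_lit 5) (nat_lit 517) (nat_lit 490) (nat_lit 193)) (XT.lf (nat_lit 0) (nat_lit 40406967352) (nat_lit 608) (nat_lit 30698284986) (nat_lit 76) (nat_lit 19225785448) (nat_lit 268) (nat_lit 5) (nat_lit 276) (nat_lit 5) (nat_lit 269) (nat_lit 5) (nat_lit 518) (nat_lit 490) (nat_lit 192))) (XT.nd (nat_lit 78) (nat_lit 0) (nat_lit 0) (XT.lf (nat_lit 0) (nat_lit 20426348357) (nat_lit 532) (nat_lit 32749100457) (nat_lit 608) (nat_lit 38683564541) (nat_lit 261) (nat_lit 5) (nat_lit 268) (nat_lit 5) (nat_lit 269) (nat_lit 5) (nat_lit 519) (nat_lit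 490) (nat_lit 191)) (XT.lf (nat_lit 0) (nat_lit 66704632254) (nat_lit 608) (nat_lit 19777980104) (nat_lit 76) (nat_lit 6938886421) (nat_lit 261) (nat_lit 5) (nat_lit 269) (nat_lit 5) (nat_lit 262) (nat_lit 5) (nat_lit 520) (nat_lit 490) (nat_lit 190)))))) (XT.nd (nat_lit 624) (nat_lit 1368) (nat_lit 0) (XT.nd (nat_lit 312) (nat_lit 836) (nat_lit 0) (XT.nd (nat_lit 156) (nat_lit 988) (nat_lit 0) (XT.nd (nat_lit 78) (nat_lit 0) (nat_lit 0) (XT.lf (nat_lit 0) (nat_lit 33760469240) (nat_lit 456) (nat_lit 47527633966) (nat_lit 532) (nat_lit 13723303213) (nat_lit 255) (nat_lit 5) (nat_lit 261) (nat_lit 5) (nat_lit 262) (nat_lit 5) (nat_lit 521) (nat_lit 490) (nat_lit 189)) (XT.lf (nat_lit 0) (nat_lit 89310089414) (nat_lit 456) (nat_lit 7198351508) (nat_lit 532) (nat_lit 134589501) (nat_lit 255) (nat_lit 5) (nat_lit 261) (nat_lit 5) (nat_lit 262) (nat_lit 5) (nat_lit 522) (nat_lit 490) (nat_lit 188))) (XT.nd (nat_lit 78)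 (nat_lit 456) (nat_lit 0) (XT.lf (nat_lit 0) (nat_lit 14398296710) (nat_lit 532) (nat_lit 49615961437) (nat_lit 76) (nat_lit 34281137441) (nat_lit 248) (nat_lit 5) (nat_lit 255) (nat_lit 5) (nat_lit 249) (nat_lit 5) (nat_lit 523) (nat_lit 490) (nat_lit 187)) (XT.lf (nat_lit 0) (nat_lit 6582079401) (nat_lit 456) (nat_lit 22991364727) (nat_lit 532) (nat_lit 70417578223) (nat_lit 242) (nat_lit 5) (nat_lit 248) (nat_lit 5) (nat_lit 249) (nat_lit 5) (nat_lit 524) (nat_lit 490) (nat_lit 186)))) (XT.nd (nat_lit 156) (nat_lit 380) (nat_lit 0) (XT.nd (nat_lit 78) (nat_lit 456) (nat_lit 0) (XT.lf (nat_lit 0) (nat_lit 45894652598) (nat_lit 532) (nat_lit 36429885965) (nat_lit 76) (nat_lit 19392255166) (nat_lit 242) (nat_lit 5) (nat_lit 249) (nat_lit 5) (nat_lit 243) (nat_lit 5) (nat_lit 525) (nat_lit 490) (nat_lit 185)) (XT.lf (nat_lit 0) (nat_lit 22468949802) (nat_lit 456) (nat_lit 40679841805) (nat_lit 532) (nat_lit 40332247825)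 (nat_lit 236) (nat_lit 5) (nat_lit 242) (nat_lit 5) (nat_lit 243) (nat_lit 5) (nat_lit 526) (nat_lit 490) (nat_lit 184))) (XT.nd (nat_lit 78) (nat_lit 380) (nat_lit 0) (XT.lf (nat_lit 0) (nat_lit 81313028349) (nat_lit 532) (nat_lit 21430986032) (nat_lit 76) (nat_lit 2542423930) (nat_lit 236) (nat_lit 5) (nat_lit 243) (nat_lit 5) (nat_lit 237) (nat_lit 5) (nat_lit 527) (nat_lit 490) (nat_lit 183)) (XT.lf (nat_lit 0) (nat_lit 40321192889) (nat_lit 380) (nat_lit 60491048063) (nat_lit 456) (nat_lit 6310056753) (nat_lit 231) (nat_lit 5) (nat_lit 236) (nat_lit 5) (nat_lit 237) (nat_lit 5) (nat_lit 528) (nat_lit 490) (nat_lit 182))))) (XT.nd (nat_lit 312) (nat_lit 456) (nat_lit 0) (XT.nd (nat_lit 156) (nat_lit 380) (nat_lit 0) (XT.nd (nat_lit 78) (nat_lit 456) (nat_lit 0) (XT.lf (nat_lit 0) (nat_lit 11869555054) (nat_lit 456) (nat_lit 4758261493) (nat_lit 76) (nat_lit 92375442226) (nat_lit 230) (nat_lit 5) (nat_lit 236)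 (nat_lit 5) (nat_lit 231) (nat_lit 5) (nat_lit 529) (nat_lit 490) (nat_lit 181)) (XT.lf (nat_lit 0) (nat_lit 31327477389) (nat_lit 532) (nat_lit 50943342142) (nat_lit 76) (nat_lit 28642162438) (nat_lit 224) (nat_lit 5) (nat_lit 231) (nat_lit 5) (nat_lit 225) (nat_lit 5) (nat_lit 530) (nat_lit 490) (nat_lit 180))) (XT.nd (nat_lit 78) (nat_lit 0) (nat_lit 0) (XT.lf (nat_lit 0) (nat_lit 13965376036) (nat_lit 380) (nat_lit 37750863482) (nat_lit 456) (nat_lit 61153344289) (nat_lit 219) (nat_lit 5) (nat_lit 224) (nat_lit 5) (nat_lit 225) (nat_lit 5) (nat_lit 531) (nat_lit 490) (nat_lit 179)) (XT.lf (nat_lit 0) (nat_lit 73313798680) (nat_lit 456) (nat_lit 33087204821) (nat_lit 76) (nat_lit 8465966181) (nat_lit 219) (nat_lit 5) (nat_lit 225) (nat_lit 5) (nat_lit 220) (nat_lit 5) (nat_lit 532) (nat_lit 490) (nat_lit 178)))) (XT.nd (nat_lit 59202) (nat_lit 0) (nat_lit 8664) (XT.nd (nat_lit 78) (nat_lit 76) (nat_lit 0) (XT.lf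 (nat_lit 0) (nat_lit 35013388505) (nat_lit 380) (nat_lit 61255951428) (nat_lit 456) (nat_lit 20633635552) (nat_lit 214) (nat_lit 5) (nat_lit 219) (nat_lit 5) (nat_lit 220) (nat_lit 5) (nat_lit 533) (nat_lit 490) (nat_lit 177)) (XT.lf (nat_lit 0) (nat_lit 1232800664) (nat_lit 456) (nat_lit 13167260138) (nat_lit 76) (nat_lit 104589623035) (nat_lit 213) (nat_lit 5) (nat_lit 219) (nat_lit 5) (nat_lit 214) (nat_lit 5) (nat_lit 534) (nat_lit 490) (nat_lit 176))) (XT.nd (nat_lit 78) (nat_lit 0) (nat_lit 0) (XT.lf (nat_lit 0) (nat_lit 17352505955) (nat_lit 1292) (nat_lit 6275442412) (nat_lit 1292) (nat_lit 6275442412) (nat_lit 327) (nat_lit 3) (nat_lit 344) (nat_lit 3) (nat_lit 344) (nat_lit 5) (nat_lit 491) (nat_lit 491) (nat_lit 218)) (XT.lf (nat_lit 76) (nat_lit 17575244191) (nat_lit 0) (nat_lit 17837510107) (nat_lit 1292) (nat_lit 25285513129) (nat_lit 328) (nat_lit 5) (nat_lit 327) (nat_lit 3) (nat_lit 344) (nat_lit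 5) (nat_lit 492) (nat_lit 491) (nat_lit 217))))))))
noncomputable def xc244 : XT := (XT.nd (nat_lit 2418) (nat_lit 3952) (nat_lit 0) (XT.nd (nat_lit 1170) (nat_lit 4636) (nat_lit 0) (XT.nd (nat_lit 546) (nat_lit 912) (nat_lit 0) (XT.nd (nat_lit 234) (nat_lit 0) (nat_lit 76) (XT.nd (nat_lit 78) (nat_lit 0) (nat_lit 0) (XT.lf (nat_lit 0) (nat_lit 36388817714) (nat_lit 1216) (nat_lit 12871717048) (nat_lit 1292) (nat_lit 12348550477) (nat_lit 328) (nat_lit 5) (nat_lit 344) (nat_lit 5) (nat_lit 345) (nat_lit 5) (nat_lit 493) (nat_lit 491) (nat_lit 216)) (XT.nd (nat_lit 78) (nat_lit 0) (nat_lit 76) (XT.lf (nat_lit 76) (nat_lit 18470559733) (nat_lit 0) (nat_lit 19277071841) (nat_lit 1292) (nat_lit 24788991988) (nat_lit 329) (nat_lit 5) (nat_lit 328) (nat_lit 5) (nat_lit 345) (nat_lit 5) (nat_lit 494) (nat_lit 491) (nat_lit 215)) (XT.lf (nat_lit 0) (nat_lit 39389367290) (nat_lit 1216) (nat_lit 12584382147) (nat_lit 1292)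 (nat_lit 11510973904) (nat_lit 329) (nat_lit 5) (nat_lit 345) (nat_lit 5) (nat_lit 346) (nat_lit 5) (nat_lit 495) (nat_lit 491) (nat_lit 214)))) (XT.nd (nat_lit 156) (nat_lit 0) (nat_lit 76) (XT.nd (nat_lit 78) (nat_lit 0) (nat_lit 76) (XT.lf (nat_lit 76) (nat_lit 20041577067) (nat_lit 0) (nat_lit 21421640017) (nat_lit 1292) (nat_lit 22986563199) (nat_lit 330) (nat_lit 5) (nat_lit 329) (nat_lit 5) (nat_lit 346) (nat_lit 5) (nat_lit 496) (nat_lit 491) (nat_lit 213)) (XT.lf (nat_lit 0) (nat_lit 43823561995) (nat_lit 1216) (nat_lit 11633942282) (nat_lit 1292) (nat_lit 9979556298) (nat_lit 330) (nat_lit 5) (nat_lit 346) (nat_lit 5) (nat_lit 347) (nat_lit 5) (nat_lit 497) (nat_lit 491) (nat_lit 212))) (XT.nd (nat_lit 78) (nat_lit 0) (nat_lit 76) (XT.lf (nat_lit 76) (nat_lit 22347124099) (nat_lit 0) (nat_lit 24333886923) (nat_lit 1292) (nat_lit 19760159470) (nat_lit 331) (nat_lit 5) (nat_lit 330) (nat_lit 5) (nat_lit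 347) (nat_lit 5) (nat_lit 498) (nat_lit 491) (nat_lit 211)) (XT.lf (nat_lit 0) (nat_lit 49816469321) (nat_lit 1216) (nat_lit 9961593966) (nat_lit 1292) (nat_lit 7691571871) (nat_lit 331) (nat_lit 5) (nat_lit 347) (nat_lit 5) (nat_lit 348) (nat_lit 5) (nat_lit 499) (nat_lit 491) (nat_lit 210))))) (XT.nd (nat_lit 312) (nat_lit 1140) (nat_lit 0) (XT.nd (nat_lit 156) (nat_lit 0) (nat_lit 76) (XT.nd (nat_lit 78) (nat_lit 0) (nat_lit 76) (XT.lf (nat_lit 76) (nat_lit 25450122168) (nat_lit 0) (nat_lit 28080858595) (nat_lit 1292) (nat_lit 14983423346) (nat_lit 332) (nat_lit 5) (nat_lit 331) (nat_lit 5) (nat_lit 348) (nat_lit 5) (nat_lit 500) (nat_lit 491) (nat_lit 209)) (XT.lf (nat_lit 0) (nat_lit 57501851822) (nat_lit 1216) (nat_lit 7504423552) (nat_lit 1292) (nat_lit 4579893052) (nat_lit 332) (nat_lit 5) (nat_lit 348) (nat_lit 5) (nat_lit 349) (nat_lit 5) (nat_lit 501) (nat_lit 491) (nat_lit 208))) (XT.nd (nat_lit 78)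 (nat_lit 0) (nat_lit 76) (XT.lf (nat_lit 76) (nat_lit 29417843960) (nat_lit 0) (nat_lit 32734264622) (nat_lit 1292) (nat_lit 8521169330) (nat_lit 333) (nat_lit 5) (nat_lit 332) (nat_lit 5) (nat_lit 349) (nat_lit 5) (nat_lit 502) (nat_lit 491) (nat_lit 207)) (XT.lf (nat_lit 0) (nat_lit 67022728834) (nat_lit 1216) (nat_lit 4195147775) (nat_lit 1292) (nat_lit 572698424) (nat_lit 333) (nat_lit 5) (nat_lit 349) (nat_lit 5) (nat_lit 350) (nat_lit 5) (nat_lit 503) (nat_lit 491) (nat_lit 206)))) (XT.nd (nat_lit 156) (nat_lit 0) (nat_lit 76) (XT.nd (nat_lit 78) (nat_lit 1292) (nat_lit 0) (XT.lf (nat_lit 76) (nat_lit 34322187146) (nat_lit 0) (nat_lit 38370786139) (nat_lit 1292) (nat_lit 228812638) (nat_lit 334) (nat_lit 5) (nat_lit 333) (nat_lit 5) (nat_lit 350) (nat_lit 5) (nat_lit 504) (nat_lit 491) (nat_lit 205)) (XT.lf (nat_lit 0) (nat_lit 4401893354) (nat_lit 1292) (nat_lit 48198591) (nat_lit 1368) (nat_lit 69634290978)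 (nat_lit 316) (nat_lit 5) (nat_lit 333) (nat_lit 5) (nat_lit 334) (nat_lit 5) (nat_lit 505) (nat_lit 491) (nat_lit 204))) (XT.nd (nat_lit 78) (nat_lit 0) (nat_lit 0) (XT.lf (nat_lit 0) (nat_lit 9852160133) (nat_lit 1292) (nat_lit 35120755580) (nat_lit 1368) (nat_lit 30288317022) (nat_lit 317) (nat_lit 5) (nat_lit 334) (nat_lit 5) (nat_lit 335) (nat_lit 5) (nat_lit 506) (nat_lit 491) (nat_lit 203)) (XT.lf (nat_lit 76) (nat_lit 5117816052) (nat_lit 0) (nat_lit 10441377291) (nat_lit 1368) (nat_lit 60911396965) (nat_lit 318) (nat_lit 5) (nat_lit 317) (nat_lit 5) (nat_lit 335) (nat_lit 5) (nat_lit 507) (nat_lit 491) (nat_lit 202)))))) (XT.nd (nat_lit 624) (nat_lit 2204) (nat_lit 0) (XT.nd (nat_lit 312) (nat_lit 1140) (nat_lit 0) (XT.nd (nat_lit 156) (nat_lit 608) (nat_lit 0) (XT.nd (nat_lit 78) (nat_lit 836) (nat_lit 0) (XT.lf (nat_lit 0) (nat_lit 22036649201) (nat_lit 1292) (nat_lit 30667566690) (nat_lit 76) (nat_lit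 24994036389) (nat_lit 318) (nat_lit 5) (nat_lit 335) (nat_lit 5) (nat_lit 319) (nat_lit 5) (nat_lit 508) (nat_lit 491) (nat_lit 201)) (XT.lf (nat_lit 0) (nat_lit 11356001399) (nat_lit 836) (nat_lit 17564504038) (nat_lit 912) (nat_lit 50035876395) (nat_lit 307) (nat_lit 5) (nat_lit 318) (nat_lit 5) (nat_lit 319) (nat_lit 5) (nat_lit 509) (nat_lit 491) (nat_lit 200))) (XT.nd (nat_lit 78) (nat_lit 608) (nat_lit 0) (XT.lf (nat_lit 0) (nat_lit 36502248931) (nat_lit 912) (nat_lit 25156598839) (nat_lit 76) (nat_lit 18578666371) (nat_lit 307) (nat_lit 5) (nat_lit 319) (nat_lit 5) (nat_lit 308) (nat_lit 5) (nat_lit 510) (nat_lit 491) (nat_lit 199)) (XT.lf (nat_lit 0) (nat_lit 18752101282) (nat_lit 608) (nat_lit 25913065259) (nat_lit 684) (nat_lit 36881302243) (nat_lit 299) (nat_lit 5) (nat_lit 307) (nat_lit 5) (nat_lit 308) (nat_lit 5) (nat_lit 511) (nat_lit 491) (nat_lit 198)))) (XT.nd (nat_lit 156) (nat_lit 532) (nat_lit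 0) (XT.nd (nat_lit 78) (nat_lit 608) (nat_lit 0) (XT.lf (nat_lit 0) (nat_lit 53433913924) (nat_lit 684) (nat_lit 18501083836) (nat_lit 76) (nat_lit 10948866056) (nat_lit 299) (nat_lit 5) (nat_lit 308) (nat_lit 5) (nat_lit 300) (nat_lit 5) (nat_lit 512) (nat_lit 491) (nat_lit 197)) (XT.lf (nat_lit 0) (nat_lit 27398673161) (nat_lit 608) (nat_lit 35586569299) (nat_lit 684) (nat_lit 21260552695) (nat_lit 291) (nat_lit 5) (nat_lit 299) (nat_lit 5) (nat_lit 300) (nat_lit 5) (nat_lit 513) (nat_lit 491) (nat_lit 196))) (XT.nd (nat_lit 78) (nat_lit 532) (nat_lit 0) (XT.lf (nat_lit 0) (nat_lit 73029180157) (nat_lit 684) (nat_lit 10608373451) (nat_lit 76) (nat_lit 2004848766) (nat_lit 291) (nat_lit 5) (nat_lit 300) (nat_lit 5) (nat_lit 292) (nat_lit 5) (nat_lit 514) (nat_lit 491) (nat_lit 195)) (XT.lf (nat_lit 0) (nat_lit 37394493231) (nat_lit 532) (nat_lit 46691345058) (nat_lit 608) (nat_lit 2973727466) (nat_lit 284) (nat_lit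 5) (nat_lit 291) (nat_lit 5) (nat_lit 292) (nat_lit 5) (nat_lit 515) (nat_lit 491) (nat_lit 194))))) (XT.nd (nat_lit 312) (nat_lit 988) (nat_lit 0) (XT.nd (nat_lit 156) (nat_lit 532) (nat_lit 0) (XT.nd (nat_lit 78) (nat_lit 608) (nat_lit 0) (XT.lf (nat_lit 0) (nat_lit 6927025539) (nat_lit 608) (nat_lit 1529446262) (nat_lit 76) (nat_lit 80057532908) (nat_lit 283) (nat_lit 5) (nat_lit 291) (nat_lit 5) (nat_lit 284) (nat_lit 5) (nat_lit 516) (nat_lit 491) (nat_lit 193)) (XT.lf (nat_lit 0) (nat_lit 17837664163) (nat_lit 684) (nat_lit 41323197491) (nat_lit 76) (nat_lit 30827152947) (nat_lit 275) (nat_lit 5) (nat_lit 284) (nat_lit 5) (nat_lit 276) (nat_lit 5) (nat_lit 517) (nat_lit 491) (nat_lit 192))) (XT.nd (nat_lit 78) (nat_lit 0) (nat_lit 0) (XT.lf (nat_lit 0) (nat_lit 8981456661) (nat_lit 532) (nat_lit 20279449236) (nat_lit 608) (nat_lit 62239780389) (nat_lit 268) (nat_lit 5) (nat_lit 275) (nat_lit 5) (nat_lit 276)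 (nat_lit 5) (nat_lit 518) (nat_lit 491) (nat_lit 191)) (XT.lf (nat_lit 0) (nat_lit 41637916442) (nat_lit 608) (nat_lit 31598451150) (nat_lit 76) (nat_lit 19804038397) (nat_lit 268) (nat_lit 5) (nat_lit 276) (nat_lit 5) (nat_lit 269) (nat_lit 5) (nat_lit 519) (nat_lit 491) (nat_lit 190)))) (XT.nd (nat_lit 156) (nat_lit 456) (nat_lit 0) (XT.nd (nat_lit 78) (nat_lit 0) (nat_lit 0) (XT.lf (nat_lit 0) (nat_lit 21059717445) (nat_lit 532) (nat_lit 33729386890) (nat_lit 608) (nat_lit 39825126952) (nat_lit 261) (nat_lit 5) (nat_lit 268) (nat_lit 5) (nat_lit 269) (nat_lit 5) (nat_lit 520) (nat_lit 491) (nat_lit 189)) (XT.lf (nat_lit 0) (nat_lit 68723647994) (nat_lit 608) (nat_lit 20350824276) (nat_lit 76) (nat_lit 7149134482) (nat_lit 261) (nat_lit 5) (nat_lit 269) (nat_lit 5) (nat_lit 262) (nat_lit 5) (nat_lit 521) (nat_lit 491) (nat_lit 188))) (XT.nd (nat_lit 78) (nat_lit 0) (nat_lit 0) (XT.lf (nat_lit 0) (nat_lit 34793577614)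 (nat_lit 456) (nat_lit 48950719860) (nat_lit 532) (nat_lit 14116923936) (nat_lit 255) (nat_lit 5) (nat_lit 261) (nat_lit 5) (nat_lit 262) (nat_lit 5) (nat_lit 522) (nat_lit 491) (nat_lit 187)) (XT.lf (nat_lit 0) (nat_lit 92009095297) (nat_lit 456) (nat_lit 7411638825) (nat_lit 532) (nat_lit 121075368) (nat_lit 255) (nat_lit 5) (nat_lit 261) (nat_lit 5) (nat_lit 262) (nat_lit 5) (nat_lit 523) (nat_lit 491) (nat_lit 186))))))) (XT.nd (nat_lit 60216) (nat_lit 0) (nat_lit 7904) (XT.nd (nat_lit 546) (nat_lit 2052) (nat_lit 0) (XT.nd (nat_lit 234) (nat_lit 912) (nat_lit 0) (XT.nd (nat_lit 78) (nat_lit 456) (nat_lit 0) (XT.lf (nat_lit 0) (nat_lit 14847172862) (nat_lit 532) (nat_lit 51084111275) (nat_lit 76) (nat_lit 35312464891) (nat_lit 248) (nat_lit 5) (nat_lit 255) (nat_lit 5) (nat_lit 249) (nat_lit 5) (nat_lit 524) (nat_lit 491) (nat_lit 185)) (XT.nd (nat_lit 78) (nat_lit 0) (nat_lit 0) (XT.lf (nat_lit 0) (nat_lit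 6799671485) (nat_lit 456) (nat_lit 23677603690) (nat_lit 532) (nat_lit 72512978422) (nat_lit 242) (nat_lit 5) (nat_lit 248) (nat_lit 5) (nat_lit 249) (nat_lit 5) (nat_lit 525) (nat_lit 491) (nat_lit 184)) (XT.lf (nat_lit 0) (nat_lit 47287668279) (nat_lit 532) (nat_lit 37502786949) (nat_lit 76) (nat_lit 19977356455) (nat_lit 242) (nat_lit 5) (nat_lit 249) (nat_lit 5) (nat_lit 243) (nat_lit 5) (nat_lit 526) (nat_lit 491) (nat_lit 183)))) (XT.nd (nat_lit 156) (nat_lit 456) (nat_lit 0) (XT.nd (nat_lit 78) (nat_lit 0) (nat_lit 0) (XT.lf (nat_lit 0) (nat_lit 23162817856) (nat_lit 456) (nat_lit 41896332780) (nat_lit 532) (nat_lit 41525842563) (nat_lit 236) (nat_lit 5) (nat_lit 242) (nat_lit 5) (nat_lit 243) (nat_lit 5) (nat_lit 527) (nat_lit 491) (nat_lit 182)) (XT.lf (nat_lit 0) (nat_lit 83767887948) (nat_lit 532) (nat_lit 22054265666) (nat_lit 76) (nat_lit 2622413243) (nat_lit 236) (nat_lit 5) (nat_lit 243) (nat_lit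 5) (nat_lit 237) (nat_lit 5) (nat_lit 528) (nat_lit 491) (nat_lit 181))) (XT.nd (nat_lit 78) (nat_lit 76) (nat_lit 0) (XT.lf (nat_lit 0) (nat_lit 41550285976) (nat_lit 380) (nat_lit 62301527442) (nat_lit 456) (nat_lit 6483696534) (nat_lit 231) (nat_lit 5) (nat_lit 236) (nat_lit 5) (nat_lit 237) (nat_lit 5) (nat_lit 529) (nat_lit 491) (nat_lit 180)) (XT.lf (nat_lit 0) (nat_lit 12240550735) (nat_lit 456) (nat_lit 4881821540) (nat_lit 76) (nat_lit 95150536494) (nat_lit 230) (nat_lit 5) (nat_lit 236) (nat_lit 5) (nat_lit 231) (nat_lit 5) (nat_lit 530) (nat_lit 491) (nat_lit 179))))) (XT.nd (nat_lit 468) (nat_lit 836) (nat_lit 0) (XT.nd (nat_lit 156) (nat_lit 380) (nat_lit 0) (XT.nd (nat_lit 78) (nat_lit 380) (nat_lit 0) (XT.lf (nat_lit 0) (nat_lit 32282000874) (nat_lit 532) (nat_lit 52452244260) (nat_lit 76) (nat_lit 29505684837) (nat_lit 224) (nat_lit 5) (nat_lit 231) (nat_lit 5) (nat_lit 225) (nat_lit 5) (nat_lit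 531) (nat_lit 491) (nat_lit 178)) (XT.lf (nat_lit 0) (nat_lit 14403545284) (nat_lit 380) (nat_lit 38878637089) (nat_lit 456) (nat_lit 62973054809) (nat_lit 219) (nat_lit 5) (nat_lit 224) (nat_lit 5) (nat_lit 225) (nat_lit 5) (nat_lit 532) (nat_lit 491) (nat_lit 177))) (XT.nd (nat_lit 78) (nat_lit 380) (nat_lit 0) (XT.lf (nat_lit 0) (nat_lit 75527291624) (nat_lit 456) (nat_lit 34060795312) (nat_lit 76) (nat_lit 8724469014) (nat_lit 219) (nat_lit 5) (nat_lit 225) (nat_lit 5) (nat_lit 220) (nat_lit 5) (nat_lit 533) (nat_lit 491) (nat_lit 176)) (XT.lf (nat_lit 0) (nat_lit 36082629288) (nat_lit 380) (nat_lit 63088640852) (nat_lit 456) (nat_lit 21238378669) (nat_lit 214) (nat_lit 5) (nat_lit 219) (nat_lit 5) (nat_lit 220) (nat_lit 5) (nat_lit 534) (nat_lit 491) (nat_lit 175)))) (XT.nd (nat_lit 59046) (nat_lit 0) (nat_lit 9424) (XT.nd (nat_lit 58968) (nat_lit 0) (nat_lit 9424) (XT.lf (nat_lit 0) (nat_lit 9027264088) (nat_lit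 380) (nat_lit 40724991035) (nat_lit 456) (nat_lit 77220572041) (nat_lit 203) (nat_lit 5) (nat_lit 208) (nat_lit 5) (nat_lit 209) (nat_lit 5) (nat_lit 537) (nat_lit 491) (nat_lit 172)) (XT.lf (nat_lit 0) (nat_lit 17891129172) (nat_lit 1292) (nat_lit 6454410529) (nat_lit 1292) (nat_lit 6454410529) (nat_lit 327) (nat_lit 3) (nat_lit 344) (nat_lit 3) (nat_lit 344) (nat_lit 5) (nat_lit 492) (nat_lit 492) (nat_lit 216))) (XT.nd (nat_lit 78) (nat_lit 0) (nat_lit 76) (XT.lf (nat_lit 76) (nat_lit 18120909572) (nat_lit 0) (nat_lit 18389449040) (nat_lit 1292) (nat_lit 26007798571) (nat_lit 328) (nat_lit 5) (nat_lit 327) (nat_lit 3) (nat_lit 344) (nat_lit 5) (nat_lit 493) (nat_lit 492) (nat_lit 215)) (XT.lf (nat_lit 0) (nat_lit 37514521140) (nat_lit 1216) (nat_lit 13238812302) (nat_lit 1292) (nat_lit 12703001617) (nat_lit 328) (nat_lit 5) (nat_lit 344) (nat_lit 5) (nat_lit 345) (nat_lit 5) (nat_lit 494) (nat_lit 492) (nat_lit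 214)))))) (XT.nd (nat_lit 624) (nat_lit 1596) (nat_lit 0) (XT.nd (nat_lit 312) (nat_lit 0) (nat_lit 152) (XT.nd (nat_lit 156) (nat_lit 0) (nat_lit 76) (XT.nd (nat_lit 78) (nat_lit 0) (nat_lit 76) (XT.lf (nat_lit 76) (nat_lit 19043545957) (nat_lit 0) (nat_lit 19869743420) (nat_lit 1292) (nat_lit 25498434502) (nat_lit 329) (nat_lit 5) (nat_lit 328) (nat_lit 5) (nat_lit 345) (nat_lit 5) (nat_lit 495) (nat_lit 492) (nat_lit 213)) (XT.lf (nat_lit 0) (nat_lit 40603175322) (nat_lit 1216) (nat_lit 12942490453) (nat_lit 1292) (nat_lit 11842633977) (nat_lit 329) (nat_lit 5) (nat_lit 345) (nat_lit 5) (nat_lit 346) (nat_lit 5) (nat_lit 496) (nat_lit 492) (nat_lit 212))) (XT.nd (nat_lit 78) (nat_lit 0) (nat_lit 76) (XT.lf (nat_lit 76) (nat_lit 20662057115) (nat_lit 0) (nat_lit 22076432634) (nat_lit 1292) (nat_lit 23643841222) (nat_lit 330) (nat_lit 5) (nat_lit 329) (nat_lit 5) (nat_lit 346) (nat_lit 5) (nat_lit 497) (nat_lit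 492) (nat_lit 211)) (XT.lf (nat_lit 0) (nat_lit 45168617808) (nat_lit 1216) (nat_lit 11963259399) (nat_lit 1292) (nat_lit 10267383323) (nat_lit 330) (nat_lit 5) (nat_lit 346) (nat_lit 5) (nat_lit 347) (nat_lit 5) (nat_lit 498) (nat_lit 492) (nat_lit 210)))) (XT.nd (nat_lit 156) (nat_lit 0) (nat_lit 76) (XT.nd (nat_lit 78) (nat_lit 0) (nat_lit 76) (XT.lf (nat_lit 76) (nat_lit 23037045826) (nat_lit 0) (nat_lit 25074048052) (nat_lit 1292) (nat_lit 20322420798) (nat_lit 331) (nat_lit 5) (nat_lit 330) (nat_lit 5) (nat_lit 347) (nat_lit 5) (nat_lit 499) (nat_lit 492) (nat_lit 209)) (XT.lf (nat_lit 0) (nat_lit 51339657585) (nat_lit 1216) (nat_lit 10240542320) (nat_lit 1292) (nat_lit 7912662167) (nat_lit 331) (nat_lit 5) (nat_lit 347) (nat_lit 5) (nat_lit 348) (nat_lit 5) (nat_lit 500) (nat_lit 492) (nat_lit 208))) (XT.nd (nat_lit 78) (nat_lit 0) (nat_lit 76) (XT.lf (nat_lit 76) (nat_lit 26233330205) (nat_lit 0) (nat_lit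 28931627823) (nat_lit 1292) (nat_lit 15404035493) (nat_lit 332) (nat_lit 5) (nat_lit 331) (nat_lit 5) (nat_lit 348) (nat_lit 5) (nat_lit 501) (nat_lit 492) (nat_lit 207)) (XT.lf (nat_lit 0) (nat_lit 59254060426) (nat_lit 1216) (nat_lit 7709529766) (nat_lit 1292) (nat_lit 4709347457) (nat_lit 332) (nat_lit 5) (nat_lit 348) (nat_lit 5) (nat_lit 349) (nat_lit 5) (nat_lit 502) (nat_lit 492) (nat_lit 206))))) (XT.nd (nat_lit 312) (nat_lit 684) (nat_lit 0) (XT.nd (nat_lit 156) (nat_lit 1216) (nat_lit 0) (XT.nd (nat_lit 78) (nat_lit 0) (nat_lit 76) (XT.lf (nat_lit 76) (nat_lit 30320209433) (nat_lit 0) (nat_lit 33723015209) (nat_lit 1292) (nat_lit 8749453820) (nat_lit 333) (nat_lit 5) (nat_lit 332) (nat_lit 5) (nat_lit 349) (nat_lit 5) (nat_lit 503) (nat_lit 492) (nat_lit 205)) (XT.lf (nat_lit 0) (nat_lit 69059127379) (nat_lit 1216) (nat_lit 4300912340) (nat_lit 1292) (nat_lit 583479896) (nat_lit 333) (nat_lit 5) (nat_lit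 349) (nat_lit 5) (nat_lit 350) (nat_lit 5) (nat_lit 504) (nat_lit 492) (nat_lit 204))) (XT.nd (nat_lit 78) (nat_lit 1292) (nat_lit 0) (XT.lf (nat_lit 76) (nat_lit 35371745669) (nat_lit 0) (nat_lit 39527175688) (nat_lit 1292) (nat_lit 209762243) (nat_lit 334) (nat_lit 5) (nat_lit 333) (nat_lit 5) (nat_lit 350) (nat_lit 5) (nat_lit 505) (nat_lit 492) (nat_lit 203)) (XT.lf (nat_lit 0) (nat_lit 4558619167) (nat_lit 1292) (nat_lit 29839014) (nat_lit 1368) (nat_lit 71717715089) (nat_lit 316) (nat_lit 5) (nat_lit 333) (nat_lit 5) (nat_lit 334) (nat_lit 5) (nat_lit 506) (nat_lit 492) (nat_lit 202)))) (XT.nd (nat_lit 156) (nat_lit 760) (nat_lit 0) (XT.nd (nat_lit 78) (nat_lit 0) (nat_lit 0) (XT.lf (nat_lit 0) (nat_lit 10171820428) (nat_lit 1292) (nat_lit 36153998153) (nat_lit 1368) (nat_lit 31192527232) (nat_lit 317) (nat_lit 5) (nat_lit 334) (nat_lit 5) (nat_lit 335) (nat_lit 5) (nat_lit 507) (nat_lit 492) (nat_lit 201))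 (XT.lf (nat_lit 76) (nat_lit 5291530823) (nat_lit 0) (nat_lit 10758025988) (nat_lit 1368) (nat_lit 62714442570) (nat_lit 318) (nat_lit 5) (nat_lit 317) (nat_lit 5) (nat_lit 335) (nat_lit 5) (nat_lit 508) (nat_lit 492) (nat_lit 200))) (XT.nd (nat_lit 78) (nat_lit 836) (nat_lit 0) (XT.lf (nat_lit 0) (nat_lit 22720617524) (nat_lit 1292) (nat_lit 31567281380) (nat_lit 76) (nat_lit 25740613901) (nat_lit 318) (nat_lit 5) (nat_lit 335) (nat_lit 5) (nat_lit 319) (nat_lit 5) (nat_lit 509) (nat_lit 492) (nat_lit 199)) (XT.lf (nat_lit 0) (nat_lit 11716794612) (nat_lit 836) (nat_lit 18093722093) (nat_lit 912) (nat_lit 51513883749) (nat_lit 307) (nat_lit 5) (nat_lit 318) (nat_lit 5) (nat_lit 319) (nat_lit 5) (nat_lit 510) (nat_lit 492) (nat_lit 198))))))))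
noncomputable def xc245 : XT := (XT.nd (nat_lit 61542) (nat_lit 0) (nat_lit 2508) (XT.nd (nat_lit 1170) (nat_lit 3420) (nat_lit 0) (XT.nd (nat_lit 546) (nat_lit 2660) (nat_lit 0) (XT.nd (nat_lit 234) (nat_lit 1216) (nat_lit 0) (XT.nd (nat_lit 78) (nat_lit 608) (nat_lit 0) (XT.lf (nat_lit 0) (nat_lit 37619038884) (nat_lit 912) (nat_lit 25891094911) (nat_lit 76) (nat_lit 19133853173) (nat_lit 307) (nat_lit 5) (nat_lit 319) (nat_lit 5) (nat_lit 308) (nat_lit 5) (nat_lit 511) (nat_lit 492) (nat_lit 197)) (XT.nd (nat_lit 78) (nat_lit 0) (nat_lit 0) (XT.lf (nat_lit 0) (nat_lit 19334668154) (nat_lit 608) (nat_lit 26691735462) (nat_lit 684) (nat_lit 37965819872) (nat_lit 299) (nat_lit 5) (nat_lit 307) (nat_lit 5) (nat_lit 308) (nat_lit 5) (nat_lit 512) (nat_lit 492) (nat_lit 196)) (XT.lf (nat_lit 0) (nat_lit 55057581627) (nat_lit 684) (nat_lit 19036062487) (nat_lit 76) (nat_lit 11276115239) (nat_lit 299) (nat_lit 5) (nat_lit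 308) (nat_lit 5) (nat_lit 300) (nat_lit 5) (nat_lit 513) (nat_lit 492) (nat_lit 195)))) (XT.nd (nat_lit 156) (nat_lit 608) (nat_lit 0) (XT.nd (nat_lit 78) (nat_lit 0) (nat_lit 0) (XT.lf (nat_lit 0) (nat_lit 28240490613) (nat_lit 608) (nat_lit 36654548821) (nat_lit 684) (nat_lit 21877521541) (nat_lit 291) (nat_lit 5) (nat_lit 299) (nat_lit 5) (nat_lit 300) (nat_lit 5) (nat_lit 514) (nat_lit 492) (nat_lit 194)) (XT.lf (nat_lit 0) (nat_lit 75239702187) (nat_lit 684) (nat_lit 10906751869) (nat_lit 76) (nat_lit 2064630170) (nat_lit 291) (nat_lit 5) (nat_lit 300) (nat_lit 5) (nat_lit 292) (nat_lit 5) (nat_lit 515) (nat_lit 492) (nat_lit 193))) (XT.nd (nat_lit 78) (nat_lit 76) (nat_lit 0) (XT.lf (nat_lit 0) (nat_lit 38536005981) (nat_lit 532) (nat_lit 48091671006) (nat_lit 608) (nat_lit 3043097039) (nat_lit 284) (nat_lit 5) (nat_lit 291) (nat_lit 5) (nat_lit 292) (nat_lit 5) (nat_lit 516) (nat_lit 492) (nat_lit 192)) (XT.lf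 (nat_lit 0) (nat_lit 7153724711) (nat_lit 608) (nat_lit 1555848175) (nat_lit 76) (nat_lit 82459284563) (nat_lit 283) (nat_lit 5) (nat_lit 291) (nat_lit 5) (nat_lit 284) (nat_lit 5) (nat_lit 517) (nat_lit 492) (nat_lit 191))))) (XT.nd (nat_lit 312) (nat_lit 988) (nat_lit 0) (XT.nd (nat_lit 156) (nat_lit 532) (nat_lit 0) (XT.nd (nat_lit 78) (nat_lit 532) (nat_lit 0) (XT.lf (nat_lit 0) (nat_lit 18391325149) (nat_lit 684) (nat_lit 42543053867) (nat_lit 76) (nat_lit 31752719364) (nat_lit 275) (nat_lit 5) (nat_lit 284) (nat_lit 5) (nat_lit 276) (nat_lit 5) (nat_lit 518) (nat_lit 492) (nat_lit 190)) (XT.lf (nat_lit 0) (nat_lit 9270545405) (nat_lit 532) (nat_lit 20886367831) (nat_lit 608) (nat_lit 64088247528) (nat_lit 268) (nat_lit 5) (nat_lit 275) (nat_lit 5) (nat_lit 276) (nat_lit 5) (nat_lit 519) (nat_lit 492) (nat_lit 189))) (XT.nd (nat_lit 78) (nat_lit 532) (nat_lit 0) (XT.lf (nat_lit 0) (nat_lit 42904718249) (nat_lit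 608) (nat_lit 32526815292) (nat_lit 76) (nat_lit 20399554012) (nat_lit 268) (nat_lit 5) (nat_lit 276) (nat_lit 5) (nat_lit 269) (nat_lit 5) (nat_lit 520) (nat_lit 492) (nat_lit 188)) (XT.lf (nat_lit 0) (nat_lit 21710906308) (nat_lit 532) (nat_lit 34739207435) (nat_lit 608) (nat_lit 41002023728) (nat_lit 261) (nat_lit 5) (nat_lit 268) (nat_lit 5) (nat_lit 269) (nat_lit 5) (nat_lit 521) (nat_lit 492) (nat_lit 187)))) (XT.nd (nat_lit 156) (nat_lit 532) (nat_lit 0) (XT.nd (nat_lit 78) (nat_lit 456) (nat_lit 0) (XT.lf (nat_lit 0) (nat_lit 70802208007) (nat_lit 608) (nat_lit 20942030284) (nat_lit 76) (nat_lit 7365570499) (nat_lit 261) (nat_lit 5) (nat_lit 269) (nat_lit 5) (nat_lit 262) (nat_lit 5) (nat_lit 522) (nat_lit 492) (nat_lit 186)) (XT.lf (nat_lit 0) (nat_lit 35856514264) (nat_lit 456) (nat_lit 50416655797) (nat_lit 532) (nat_lit 14523391054) (nat_lit 255) (nat_lit 5) (nat_lit 261) (nat_lit 5) (nat_lit 262) (nat_lit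 5) (nat_lit 523) (nat_lit 492) (nat_lit 185))) (XT.nd (nat_lit 78) (nat_lit 532) (nat_lit 0) (XT.lf (nat_lit 0) (nat_lit 94787940312) (nat_lit 456) (nat_lit 7631477642) (nat_lit 532) (nat_lit 108163357) (nat_lit 255) (nat_lit 5) (nat_lit 261) (nat_lit 5) (nat_lit 262) (nat_lit 5) (nat_lit 524) (nat_lit 492) (nat_lit 184)) (XT.lf (nat_lit 0) (nat_lit 15308543606) (nat_lit 532) (nat_lit 52597472575) (nat_lit 76) (nat_lit 36374566076) (nat_lit 248) (nat_lit 5) (nat_lit 255) (nat_lit 5) (nat_lit 249) (nat_lit 5) (nat_lit 525) (nat_lit 492) (nat_lit 183)))))) (XT.nd (nat_lit 624) (nat_lit 1216) (nat_lit 0) (XT.nd (nat_lit 312) (nat_lit 1292) (nat_lit 0) (XT.nd (nat_lit 156) (nat_lit 456) (nat_lit 0) (XT.nd (nat_lit 78) (nat_lit 0) (nat_lit 0) (XT.lf (nat_lit 0) (nat_lit 7022635804) (nat_lit 456) (nat_lit 24384630850) (nat_lit 532) (nat_lit 74672223796) (nat_lit 242) (nat_lit 5) (nat_lit 248) (nat_lit 5) (nat_lit 249)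 (nat_lit 5) (nat_lit 526) (nat_lit 492) (nat_lit 182)) (XT.lf (nat_lit 0) (nat_lit 48721545856) (nat_lit 532) (nat_lit 38609022792) (nat_lit 76) (nat_lit 20579819417) (nat_lit 242) (nat_lit 5) (nat_lit 249) (nat_lit 5) (nat_lit 243) (nat_lit 5) (nat_lit 527) (nat_lit 492) (nat_lit 181))) (XT.nd (nat_lit 78) (nat_lit 0) (nat_lit 0) (XT.lf (nat_lit 0) (nat_lit 23876365375) (nat_lit 456) (nat_lit 43149542606) (nat_lit 532) (nat_lit 42756185003) (nat_lit 236) (nat_lit 5) (nat_lit 242) (nat_lit 5) (nat_lit 243) (nat_lit 5) (nat_lit 528) (nat_lit 492) (nat_lit 180)) (XT.lf (nat_lit 0) (nat_lit 86295505365) (nat_lit 532) (nat_lit 22697371676) (nat_lit 76) (nat_lit 2704588887) (nat_lit 236) (nat_lit 5) (nat_lit 243) (nat_lit 5) (nat_lit 237) (nat_lit 5) (nat_lit 529) (nat_lit 492) (nat_lit 179)))) (XT.nd (nat_lit 156) (nat_lit 836) (nat_lit 0) (XT.nd (nat_lit 78) (nat_lit 76) (nat_lit 0) (XT.lf (nat_lit 0) (nat_lit 42815134927)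 (nat_lit 380) (nat_lit 64166565288) (nat_lit 456) (nat_lit 6663444568) (nat_lit 231) (nat_lit 5) (nat_lit 236) (nat_lit 5) (nat_lit 237) (nat_lit 5) (nat_lit 530) (nat_lit 492) (nat_lit 178)) (XT.lf (nat_lit 0) (nat_lit 12621820447) (nat_lit 456) (nat_lit 5010189847) (nat_lit 76) (nat_lit 98008663676) (nat_lit 230) (nat_lit 5) (nat_lit 236) (nat_lit 5) (nat_lit 231) (nat_lit 5) (nat_lit 531) (nat_lit 492) (nat_lit 177))) (XT.nd (nat_lit 78) (nat_lit 380) (nat_lit 0) (XT.lf (nat_lit 0) (nat_lit 33264316271) (nat_lit 532) (nat_lit 54007526976) (nat_lit 76) (nat_lit 30394868510) (nat_lit 224) (nat_lit 5) (nat_lit 231) (nat_lit 5) (nat_lit 225) (nat_lit 5) (nat_lit 532) (nat_lit 492) (nat_lit 176)) (XT.lf (nat_lit 0) (nat_lit 14853756995) (nat_lit 380) (nat_lit 40040516706) (nat_lit 456) (nat_lit 64848211381) (nat_lit 219) (nat_lit 5) (nat_lit 224) (nat_lit 5) (nat_lit 225) (nat_lit 5) (nat_lit 533) (nat_lit 492) (nat_lit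 175))))) (XT.nd (nat_lit 59436) (nat_lit 0) (nat_lit 9500) (XT.nd (nat_lit 59280) (nat_lit 0) (nat_lit 9424) (XT.nd (nat_lit 312) (nat_lit 1216) (nat_lit 0) (XT.lf (nat_lit 0) (nat_lit 77806381164) (nat_lit 456) (nat_lit 35064685668) (nat_lit 76) (nat_lit 8990467244) (nat_lit 219) (nat_lit 5) (nat_lit 225) (nat_lit 5) (nat_lit 220) (nat_lit 5) (nat_lit 534) (nat_lit 492) (nat_lit 174)) (XT.lf (nat_lit 0) (nat_lit 9315565741) (nat_lit 380) (nat_lit 41941696721) (nat_lit 456) (nat_lit 79524375958) (nat_lit 203) (nat_lit 5) (nat_lit 208) (nat_lit 5) (nat_lit 209) (nat_lit 5) (nat_lit 538) (nat_lit 492) (nat_lit 170))) (XT.nd (nat_lit 78) (nat_lit 0) (nat_lit 0) (XT.lf (nat_lit 0) (nat_lit 18444875054) (nat_lit 1292) (nat_lit 6639281268) (nat_lit 1292) (nat_lit 6639281268) (nat_lit 327) (nat_lit 3) (nat_lit 344) (nat_lit 3) (nat_lit 344) (nat_lit 5) (nat_lit 493) (nat_lit 493) (nat_lit 214)) (XT.lf (nat_lit 76) (nat_lit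 18681888216) (nat_lit 0) (nat_lit 18956980970) (nat_lit 1292) (nat_lit 26753835193) (nat_lit 328) (nat_lit 5) (nat_lit 327) (nat_lit 3) (nat_lit 344) (nat_lit 5) (nat_lit 494) (nat_lit 493) (nat_lit 213)))) (XT.nd (nat_lit 156) (nat_lit 0) (nat_lit 76) (XT.nd (nat_lit 78) (nat_lit 0) (nat_lit 0) (XT.lf (nat_lit 0) (nat_lit 38672041697) (nat_lit 1216) (nat_lit 13618014321) (nat_lit 1292) (nat_lit 13069005066) (nat_lit 328) (nat_lit 5) (nat_lit 344) (nat_lit 5) (nat_lit 345) (nat_lit 5) (nat_lit 495) (nat_lit 493) (nat_lit 212)) (XT.lf (nat_lit 76) (nat_lit 19632638584) (nat_lit 0) (nat_lit 20479370856) (nat_lit 1292) (nat_lit 26231125076) (nat_lit 329) (nat_lit 5) (nat_lit 328) (nat_lit 5) (nat_lit 345) (nat_lit 5) (nat_lit 496) (nat_lit 493) (nat_lit 211))) (XT.nd (nat_lit 78) (nat_lit 0) (nat_lit 0) (XT.lf (nat_lit 0) (nat_lit 41851553372) (nat_lit 1216) (nat_lit 13312456977) (nat_lit 1292) (nat_lit 12185028516)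 (nat_lit 329) (nat_lit 5) (nat_lit 345) (nat_lit 5) (nat_lit 346) (nat_lit 5) (nat_lit 497) (nat_lit 493) (nat_lit 210)) (XT.lf (nat_lit 76) (nat_lit 21300047526) (nat_lit 0) (nat_lit 22750171947) (nat_lit 1292) (nat_lit 24322692822) (nat_lit 330) (nat_lit 5) (nat_lit 329) (nat_lit 5) (nat_lit 346) (nat_lit 5) (nat_lit 498) (nat_lit 493) (nat_lit 209))))))) (XT.nd (nat_lit 1248) (nat_lit 4788) (nat_lit 0) (XT.nd (nat_lit 624) (nat_lit 2356) (nat_lit 0) (XT.nd (nat_lit 312) (nat_lit 0) (nat_lit 152) (XT.nd (nat_lit 156) (nat_lit 0) (nat_lit 76) (XT.nd (nat_lit 78) (nat_lit 0) (nat_lit 0) (XT.lf (nat_lit 0) (nat_lit 46552283141) (nat_lit 1216) (nat_lit 12303586955) (nat_lit 1292) (nat_lit 10564508730) (nat_lit 330) (nat_lit 5) (nat_lit 346) (nat_lit 5) (nat_lit 347) (nat_lit 5) (nat_lit 499) (nat_lit 493) (nat_lit 208)) (XT.lf (nat_lit 76) (nat_lit 23746545365) (nat_lit 0) (nat_lit 25835831679) (nat_lit 1292) (nat_lit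 20903303285) (nat_lit 331) (nat_lit 5) (nat_lit 330) (nat_lit 5) (nat_lit 347) (nat_lit 5) (nat_lit 500) (nat_lit 493) (nat_lit 207))) (XT.nd (nat_lit 78) (nat_lit 0) (nat_lit 0) (XT.lf (nat_lit 0) (nat_lit 52906894334) (nat_lit 1216) (nat_lit 10529001435) (nat_lit 1292) (nat_lit 8140939515) (nat_lit 331) (nat_lit 5) (nat_lit 347) (nat_lit 5) (nat_lit 348) (nat_lit 5) (nat_lit 501) (nat_lit 493) (nat_lit 206)) (XT.lf (nat_lit 76) (nat_lit 27038903373) (nat_lit 0) (nat_lit 29807441178) (nat_lit 1292) (nat_lit 15838924439) (nat_lit 332) (nat_lit 5) (nat_lit 331) (nat_lit 5) (nat_lit 348) (nat_lit 5) (nat_lit 502) (nat_lit 493) (nat_lit 205)))) (XT.nd (nat_lit 156) (nat_lit 0) (nat_lit 76) (XT.nd (nat_lit 78) (nat_lit 0) (nat_lit 0) (XT.lf (nat_lit 0) (nat_lit 61057276591) (nat_lit 1216) (nat_lit 7921938769) (nat_lit 1292) (nat_lit 4843141419) (nat_lit 332) (nat_lit 5) (nat_lit 348) (nat_lit 5) (nat_lit 349) (nat_lit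 5) (nat_lit 503) (nat_lit 493) (nat_lit 204)) (XT.lf (nat_lit 76) (nat_lit 31248507539) (nat_lit 0) (nat_lit 34741042405) (nat_lit 1292) (nat_lit 8986156881) (nat_lit 333) (nat_lit 5) (nat_lit 332) (nat_lit 5) (nat_lit 349) (nat_lit 5) (nat_lit 504) (nat_lit 493) (nat_lit 203))) (XT.nd (nat_lit 78) (nat_lit 0) (nat_lit 0) (XT.lf (nat_lit 0) (nat_lit 71155141637) (nat_lit 1216) (nat_lit 4411003083) (nat_lit 1292) (nat_lit 594952169) (nat_lit 333) (nat_lit 5) (nat_lit 349) (nat_lit 5) (nat_lit 350) (nat_lit 5) (nat_lit 505) (nat_lit 493) (nat_lit 202)) (XT.lf (nat_lit 76) (nat_lit 36451649013) (nat_lit 0) (nat_lit 40717954635) (nat_lit 1292) (nat_lit 191627951) (nat_lit 334) (nat_lit 5) (nat_lit 333) (nat_lit 5) (nat_lit 350) (nat_lit 5) (nat_lit 506) (nat_lit 493) (nat_lit 201))))) (XT.nd (nat_lit 312) (nat_lit 1292) (nat_lit 0) (XT.nd (nat_lit 156) (nat_lit 0) (nat_lit 76) (XT.nd (nat_lit 78) (nat_lit 0) (nat_lit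 76) (XT.lf (nat_lit 0) (nat_lit 4718630653) (nat_lit 1292) (nat_lit 12065569) (nat_lit 1368) (nat_lit 73863963652) (nat_lit 316) (nat_lit 5) (nat_lit 333) (nat_lit 5) (nat_lit 334) (nat_lit 5) (nat_lit 507) (nat_lit 493) (nat_lit 200)) (XT.lf (nat_lit 0) (nat_lit 10499687353) (nat_lit 1292) (nat_lit 37219407905) (nat_lit 1368) (nat_lit 32124118582) (nat_lit 317) (nat_lit 5) (nat_lit 334) (nat_lit 5) (nat_lit 335) (nat_lit 5) (nat_lit 508) (nat_lit 493) (nat_lit 199))) (XT.nd (nat_lit 78) (nat_lit 0) (nat_lit 76) (XT.lf (nat_lit 76) (nat_lit 5469298605) (nat_lit 0) (nat_lit 11083978548) (nat_lit 1368) (nat_lit 64572974250) (nat_lit 318) (nat_lit 5) (nat_lit 317) (nat_lit 5) (nat_lit 335) (nat_lit 5) (nat_lit 509) (nat_lit 493) (nat_lit 198)) (XT.lf (nat_lit 0) (nat_lit 23423792132) (nat_lit 1292) (nat_lit 32495153520) (nat_lit 76) (nat_lit 26509774933) (nat_lit 318) (nat_lit 5) (nat_lit 335) (nat_lit 5) (nat_lit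 319) (nat_lit 5) (nat_lit 510) (nat_lit 493) (nat_lit 197)))) (XT.nd (nat_lit 156) (nat_lit 608) (nat_lit 0) (XT.nd (nat_lit 78) (nat_lit 0) (nat_lit 0) (XT.lf (nat_lit 0) (nat_lit 12087257043) (nat_lit 836) (nat_lit 18638685639) (nat_lit 912) (nat_lit 53037555575) (nat_lit 307) (nat_lit 5) (nat_lit 318) (nat_lit 5) (nat_lit 319) (nat_lit 5) (nat_lit 511) (nat_lit 493) (nat_lit 196)) (XT.lf (nat_lit 0) (nat_lit 38768085576) (nat_lit 912) (nat_lit 26648785538) (nat_lit 76) (nat_lit 19705820328) (nat_lit 307) (nat_lit 5) (nat_lit 319) (nat_lit 5) (nat_lit 308) (nat_lit 5) (nat_lit 512) (nat_lit 493) (nat_lit 195))) (XT.nd (nat_lit 78) (nat_lit 0) (nat_lit 0) (XT.lf (nat_lit 0) (nat_lit 19933563732) (nat_lit 608) (nat_lit 27493692396) (nat_lit 684) (nat_lit 39084131410) (nat_lit 299) (nat_lit 5) (nat_lit 307) (nat_lit 5) (nat_lit 308) (nat_lit 5) (nat_lit 513) (nat_lit 493) (nat_lit 194)) (XT.lf (nat_lit 0) (nat_lit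 56728773949) (nat_lit 684) (nat_lit 19588241672) (nat_lit 76) (nat_lit 11613251747) (nat_lit 299) (nat_lit 5) (nat_lit 308) (nat_lit 5) (nat_lit 300) (nat_lit 5) (nat_lit 514) (nat_lit 493) (nat_lit 193)))))) (XT.nd (nat_lit 624) (nat_lit 1900) (nat_lit 0) (XT.nd (nat_lit 312) (nat_lit 1672) (nat_lit 0) (XT.nd (nat_lit 156) (nat_lit 608) (nat_lit 0) (XT.nd (nat_lit 78) (nat_lit 0) (nat_lit 0) (XT.lf (nat_lit 0) (nat_lit 29106422701) (nat_lit 608) (nat_lit 37754545774) (nat_lit 684) (nat_lit 22514196198) (nat_lit 291) (nat_lit 5) (nat_lit 299) (nat_lit 5) (nat_lit 300) (nat_lit 5) (nat_lit 515) (nat_lit 493) (nat_lit 192)) (XT.lf (nat_lit 0) (nat_lit 77515412081) (nat_lit 684) (nat_lit 11215222419) (nat_lit 76) (nat_lit 2126225916) (nat_lit 291) (nat_lit 5) (nat_lit 300) (nat_lit 5) (nat_lit 292) (nat_lit 5) (nat_lit 516) (nat_lit 493) (nat_lit 191))) (XT.nd (nat_lit 78) (nat_lit 76) (nat_lit 0) (XT.lf (nat_lit 0)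 (nat_lit 39710634519) (nat_lit 532) (nat_lit 49534030520) (nat_lit 608) (nat_lit 3115686724) (nat_lit 284) (nat_lit 5) (nat_lit 291) (nat_lit 5) (nat_lit 292) (nat_lit 5) (nat_lit 517) (nat_lit 493) (nat_lit 190)) (XT.lf (nat_lit 0) (nat_lit 7386140586) (nat_lit 608) (nat_lit 1584160460) (nat_lit 76) (nat_lit 84933087294) (nat_lit 283) (nat_lit 5) (nat_lit 291) (nat_lit 5) (nat_lit 284) (nat_lit 5) (nat_lit 518) (nat_lit 493) (nat_lit 189)))) (XT.nd (nat_lit 156) (nat_lit 532) (nat_lit 0) (XT.nd (nat_lit 78) (nat_lit 532) (nat_lit 0) (XT.lf (nat_lit 0) (nat_lit 18960532205) (nat_lit 684) (nat_lit 43800644805) (nat_lit 76) (nat_lit 32706009615) (nat_lit 275) (nat_lit 5) (nat_lit 284) (nat_lit 5) (nat_lit 276) (nat_lit 5) (nat_lit 519) (nat_lit 493) (nat_lit 188)) (XT.lf (nat_lit 0) (nat_lit 9567179105) (nat_lit 532) (nat_lit 21511578074) (nat_lit 608) (nat_lit 65993243645) (nat_lit 268) (nat_lit 5) (nat_lit 275)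 (nat_lit 5) (nat_lit 276) (nat_lit 5) (nat_lit 520) (nat_lit 493) (nat_lit 187))) (XT.nd (nat_lit 78) (nat_lit 532) (nat_lit 0) (XT.lf (nat_lit 0) (nat_lit 44208510106) (nat_lit 608) (nat_lit 33484154870) (nat_lit 76) (nat_lit 21012855048) (nat_lit 268) (nat_lit 5) (nat_lit 276) (nat_lit 5) (nat_lit 269) (nat_lit 5) (nat_lit 521) (nat_lit 493) (nat_lit 186)) (XT.lf (nat_lit 0) (nat_lit 22380517350) (nat_lit 532) (nat_lit 35779440910) (nat_lit 608) (nat_lit 42215252474) (nat_lit 261) (nat_lit 5) (nat_lit 268) (nat_lit 5) (nat_lit 269) (nat_lit 5) (nat_lit 522) (nat_lit 493) (nat_lit 185))))) (XT.nd (nat_lit 312) (nat_lit 912) (nat_lit 0) (XT.nd (nat_lit 156) (nat_lit 532) (nat_lit 0) (XT.nd (nat_lit 78) (nat_lit 456) (nat_lit 0) (XT.lf (nat_lit 0) (nat_lit 72942157529) (nat_lit 608) (nat_lit 21552081446) (nat_lit 76) (nat_lit 7588386972) (nat_lit 261) (nat_lit 5) (nat_lit 269) (nat_lit 5) (nat_lit 262) (nat_lit 5)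 (nat_lit 523) (nat_lit 493) (nat_lit 184)) (XT.lf (nat_lit 0) (nat_lit 36950240911) (nat_lit 456) (nat_lit 51926718239) (nat_lit 532) (nat_lit 14943030386) (nat_lit 255) (nat_lit 5) (nat_lit 261) (nat_lit 5) (nat_lit 262) (nat_lit 5) (nat_lit 524) (nat_lit 493) (nat_lit 183))) (XT.nd (nat_lit 78) (nat_lit 532) (nat_lit 0) (XT.lf (nat_lit 0) (nat_lit 97649084560) (nat_lit 456) (nat_lit 7858055727) (nat_lit 532) (nat_lit 95813695) (nat_lit 255) (nat_lit 5) (nat_lit 261) (nat_lit 5) (nat_lit 262) (nat_lit 5) (nat_lit 525) (nat_lit 493) (nat_lit 182)) (XT.lf (nat_lit 0) (nat_lit 15782839557) (nat_lit 532) (nat_lit 54157334694) (nat_lit 76) (nat_lit 37468373743) (nat_lit 248) (nat_lit 5) (nat_lit 255) (nat_lit 5) (nat_lit 249) (nat_lit 5) (nat_lit 526) (nat_lit 493) (nat_lit 181)))) (XT.nd (nat_lit 156) (nat_lit 456) (nat_lit 0) (XT.nd (nat_lit 78) (nat_lit 0) (nat_lit 0) (XT.lf (nat_lit 0) (nat_lit 7251199857) (nat_lit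 456) (nat_lit 25113058314) (nat_lit 532) (nat_lit 76897173262) (nat_lit 242) (nat_lit 5) (nat_lit 248) (nat_lit 5) (nat_lit 249) (nat_lit 5) (nat_lit 527) (nat_lit 493) (nat_lit 180)) (XT.lf (nat_lit 0) (nat_lit 50197564491) (nat_lit 532) (nat_lit 39749527649) (nat_lit 76) (nat_lit 21200175890) (nat_lit 242) (nat_lit 5) (nat_lit 249) (nat_lit 5) (nat_lit 243) (nat_lit 5) (nat_lit 528) (nat_lit 493) (nat_lit 179))) (XT.nd (nat_lit 78) (nat_lit 0) (nat_lit 0) (XT.lf (nat_lit 0) (nat_lit 24610247988) (nat_lit 456) (nat_lit 44440559983) (nat_lit 532) (nat_lit 44024323624) (nat_lit 236) (nat_lit 5) (nat_lit 242) (nat_lit 5) (nat_lit 243) (nat_lit 5) (nat_lit 529) (nat_lit 493) (nat_lit 178)) (XT.lf (nat_lit 0) (nat_lit 88898114308) (nat_lit 532) (nat_lit 23360834103) (nat_lit 76) (nat_lit 2789028699) (nat_lit 236) (nat_lit 5) (nat_lit 243) (nat_lit 5) (nat_lit 237) (nat_lit 5) (nat_lit 530) (nat_lit 493) (nat_lit 177))))))))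
noncomputable def xc246 : XT := (XT.nd (nat_lit 61698) (nat_lit 0) (nat_lit 1672) (XT.nd (nat_lit 60450) (nat_lit 0) (nat_lit 5092) (XT.nd (nat_lit 59826) (nat_lit 0) (nat_lit 9120) (XT.nd (nat_lit 546) (nat_lit 1216) (nat_lit 0) (XT.nd (nat_lit 78) (nat_lit 532) (nat_lit 0) (XT.lf (nat_lit 0) (nat_lit 44116876534) (nat_lit 380) (nat_lit 66087784344) (nat_lit 456) (nat_lit 6849432492) (nat_lit 231) (nat_lit 5) (nat_lit 236) (nat_lit 5) (nat_lit 237) (nat_lit 5) (nat_lit 531) (nat_lit 493) (nat_lit 176)) (XT.nd (nat_lit 78) (nat_lit 456) (nat_lit 0) (XT.lf (nat_lit 0) (nat_lit 13013721540) (nat_lit 456) (nat_lit 5143447433) (nat_lit 76) (nat_lit 100952327381) (nat_lit 230) (nat_lit 5) (nat_lit 236) (nat_lit 5) (nat_lit 231) (nat_lit 5) (nat_lit 532) (nat_lit 493) (nat_lit 175)) (XT.lf (nat_lit 0) (nat_lit 34275305774) (nat_lit 532) (nat_lit 55610517784) (nat_lit 76) (nat_lit 31310497322) (nat_lit 224) (nat_lit 5)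 (nat_lit 231) (nat_lit 5) (nat_lit 225) (nat_lit 5) (nat_lit 533) (nat_lit 493) (nat_lit 174)))) (XT.nd (nat_lit 59124) (nat_lit 0) (nat_lit 9044) (XT.nd (nat_lit 59046) (nat_lit 0) (nat_lit 9044) (XT.lf (nat_lit 0) (nat_lit 26522703195) (nat_lit 456) (nat_lit 68671706374) (nat_lit 76) (nat_lit 37140204251) (nat_lit 208) (nat_lit 5) (nat_lit 214) (nat_lit 5) (nat_lit 209) (nat_lit 5) (nat_lit 538) (nat_lit 493) (nat_lit 169)) (XT.lf (nat_lit 0) (nat_lit 19014256754) (nat_lit 1292) (nat_lit 6830201080) (nat_lit 1292) (nat_lit 6830201080) (nat_lit 327) (nat_lit 3) (nat_lit 344) (nat_lit 3) (nat_lit 344) (nat_lit 5) (nat_lit 494) (nat_lit 494) (nat_lit 212))) (XT.nd (nat_lit 78) (nat_lit 0) (nat_lit 76) (XT.lf (nat_lit 76) (nat_lit 19258700180) (nat_lit 0) (nat_lit 19540629091) (nat_lit 1292) (nat_lit 27524215982) (nat_lit 328) (nat_lit 5) (nat_lit 327) (nat_lit 3) (nat_lit 344) (nat_lit 5) (nat_lit 495) (nat_lit 494)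 (nat_lit 211)) (XT.lf (nat_lit 0) (nat_lit 39862446065) (nat_lit 1216) (nat_lit 14009623512) (nat_lit 1292) (nat_lit 13446854650) (nat_lit 328) (nat_lit 5) (nat_lit 344) (nat_lit 5) (nat_lit 345) (nat_lit 5) (nat_lit 496) (nat_lit 494) (nat_lit 210))))) (XT.nd (nat_lit 312) (nat_lit 0) (nat_lit 152) (XT.nd (nat_lit 156) (nat_lit 0) (nat_lit 76) (XT.nd (nat_lit 78) (nat_lit 0) (nat_lit 76) (XT.lf (nat_lit 76) (nat_lit 20238382987) (nat_lit 0) (nat_lit 21106510143) (nat_lit 1292) (nat_lit 26987648365) (nat_lit 329) (nat_lit 5) (nat_lit 328) (nat_lit 5) (nat_lit 345) (nat_lit 5) (nat_lit 497) (nat_lit 494) (nat_lit 209)) (XT.lf (nat_lit 0) (nat_lit 43135644408) (nat_lit 1216) (nat_lit 13694573461) (nat_lit 1292) (nat_lit 12538434513) (nat_lit 329) (nat_lit 5) (nat_lit 345) (nat_lit 5) (nat_lit 346) (nat_lit 5) (nat_lit 498) (nat_lit 494) (nat_lit 208))) (XT.nd (nat_lit 78) (nat_lit 0) (nat_lit 76) (XT.lf (nat_lit 76)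 (nat_lit 21956136988) (nat_lit 0) (nat_lit 23443466374) (nat_lit 1292) (nat_lit 25023658706) (nat_lit 330) (nat_lit 5) (nat_lit 329) (nat_lit 5) (nat_lit 346) (nat_lit 5) (nat_lit 499) (nat_lit 494) (nat_lit 207)) (XT.lf (nat_lit 0) (nat_lit 47975816287) (nat_lit 1216) (nat_lit 12655190345) (nat_lit 1292) (nat_lit 10871173380) (nat_lit 330) (nat_lit 5) (nat_lit 346) (nat_lit 5) (nat_lit 347) (nat_lit 5) (nat_lit 500) (nat_lit 494) (nat_lit 206)))) (XT.nd (nat_lit 156) (nat_lit 0) (nat_lit 76) (XT.nd (nat_lit 78) (nat_lit 0) (nat_lit 76) (XT.lf (nat_lit 76) (nat_lit 24476274334) (nat_lit 0) (nat_lit 26619919905) (nat_lit 1292) (nat_lit 21503264919) (nat_lit 331) (nat_lit 5) (nat_lit 330) (nat_lit 5) (nat_lit 347) (nat_lit 5) (nat_lit 501) (nat_lit 494) (nat_lit 205)) (XT.lf (nat_lit 0) (nat_lit 54519595576) (nat_lit 1216) (nat_lit 10827191061) (nat_lit 1292) (nat_lit 8376587705) (nat_lit 331) (nat_lit 5) (nat_lit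 347) (nat_lit 5) (nat_lit 348) (nat_lit 5) (nat_lit 502) (nat_lit 494) (nat_lit 204))) (XT.nd (nat_lit 78) (nat_lit 0) (nat_lit 76) (XT.lf (nat_lit 76) (nat_lit 27867577554) (nat_lit 0) (nat_lit 30709077478) (nat_lit 1292) (nat_lit 16288423289) (nat_lit 332) (nat_lit 5) (nat_lit 331) (nat_lit 5) (nat_lit 348) (nat_lit 5) (nat_lit 503) (nat_lit 494) (nat_lit 203)) (XT.lf (nat_lit 0) (nat_lit 62913120020) (nat_lit 1216) (nat_lit 8141803653) (nat_lit 1292) (nat_lit 4981378954) (nat_lit 332) (nat_lit 5) (nat_lit 348) (nat_lit 5) (nat_lit 349) (nat_lit 5) (nat_lit 504) (nat_lit 494) (nat_lit 202)))))) (XT.nd (nat_lit 624) (nat_lit 2432) (nat_lit 0) (XT.nd (nat_lit 312) (nat_lit 684) (nat_lit 0) (XT.nd (nat_lit 156) (nat_lit 1216) (nat_lit 0) (XT.nd (nat_lit 78) (nat_lit 0) (nat_lit 76) (XT.lf (nat_lit 76) (nat_lit 32203581600) (nat_lit 0) (nat_lit 35789246663) (nat_lit 1292) (nat_lit 9231440942) (nat_lit 333) (nat_lit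 5) (nat_lit 332) (nat_lit 5) (nat_lit 349) (nat_lit 5) (nat_lit 505) (nat_lit 494) (nat_lit 201)) (XT.lf (nat_lit 0) (nat_lit 73312644823) (nat_lit 1216) (nat_lit 4525483588) (nat_lit 1292) (nat_lit 607114878) (nat_lit 333) (nat_lit 5) (nat_lit 349) (nat_lit 5) (nat_lit 350) (nat_lit 5) (nat_lit 506) (nat_lit 494) (nat_lit 200))) (XT.nd (nat_lit 78) (nat_lit 1292) (nat_lit 0) (XT.lf (nat_lit 76) (nat_lit 37562873075) (nat_lit 0) (nat_lit 41944172016) (nat_lit 1292) (nat_lit 174351849) (nat_lit 334) (nat_lit 5) (nat_lit 333) (nat_lit 5) (nat_lit 350) (nat_lit 5) (nat_lit 507) (nat_lit 494) (nat_lit 199)) (XT.lf (nat_lit 76) (nat_lit 5272305) (nat_lit 0) (nat_lit 4876886045) (nat_lit 1368) (nat_lit 76069681306) (nat_lit 317) (nat_lit 5) (nat_lit 316) (nat_lit 5) (nat_lit 334) (nat_lit 5) (nat_lit 508) (nat_lit 494) (nat_lit 198)))) (XT.nd (nat_lit 156) (nat_lit 760) (nat_lit 0) (XT.nd (nat_lit 78) (nat_lit 0) (nat_lit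 0) (XT.lf (nat_lit 0) (nat_lit 10836086506) (nat_lit 1292) (nat_lit 38317882693) (nat_lit 1368) (nat_lit 33083897878) (nat_lit 317) (nat_lit 5) (nat_lit 334) (nat_lit 5) (nat_lit 335) (nat_lit 5) (nat_lit 509) (nat_lit 494) (nat_lit 197)) (XT.lf (nat_lit 76) (nat_lit 5651307488) (nat_lit 0) (nat_lit 11419525315) (nat_lit 1368) (nat_lit 66488576525) (nat_lit 318) (nat_lit 5) (nat_lit 317) (nat_lit 5) (nat_lit 335) (nat_lit 5) (nat_lit 510) (nat_lit 494) (nat_lit 196))) (XT.nd (nat_lit 78) (nat_lit 836) (nat_lit 0) (XT.lf (nat_lit 0) (nat_lit 24146824571) (nat_lit 1292) (nat_lit 33451960900) (nat_lit 76) (nat_lit 27302186302) (nat_lit 318) (nat_lit 5) (nat_lit 335) (nat_lit 5) (nat_lit 319) (nat_lit 5) (nat_lit 511) (nat_lit 494) (nat_lit 195)) (XT.lf (nat_lit 0) (nat_lit 12467745046) (nat_lit 836) (nat_lit 19199874565) (nat_lit 912) (nat_lit 54608185790) (nat_lit 307) (nat_lit 5) (nat_lit 318) (nat_lit 5) (nat_lit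 319) (nat_lit 5) (nat_lit 512) (nat_lit 494) (nat_lit 194))))) (XT.nd (nat_lit 312) (nat_lit 1216) (nat_lit 0) (XT.nd (nat_lit 156) (nat_lit 608) (nat_lit 0) (XT.nd (nat_lit 78) (nat_lit 608) (nat_lit 0) (XT.lf (nat_lit 0) (nat_lit 39950428289) (nat_lit 912) (nat_lit 27430299984) (nat_lit 76) (nat_lit 20295064087) (nat_lit 307) (nat_lit 5) (nat_lit 319) (nat_lit 5) (nat_lit 308) (nat_lit 5) (nat_lit 513) (nat_lit 494) (nat_lit 193)) (XT.lf (nat_lit 0) (nat_lit 20549343791) (nat_lit 608) (nat_lit 28319638872) (nat_lit 684) (nat_lit 40237178439) (nat_lit 299) (nat_lit 5) (nat_lit 307) (nat_lit 5) (nat_lit 308) (nat_lit 5) (nat_lit 514) (nat_lit 494) (nat_lit 192))) (XT.nd (nat_lit 78) (nat_lit 608) (nat_lit 0) (XT.lf (nat_lit 0) (nat_lit 58448984678) (nat_lit 684) (nat_lit 20158071324) (nat_lit 76) (nat_lit 11960568189) (nat_lit 299) (nat_lit 5) (nat_lit 308) (nat_lit 5) (nat_lit 300) (nat_lit 5) (nat_lit 515) (nat_lit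 494) (nat_lit 191)) (XT.lf (nat_lit 0) (nat_lit 29997258298) (nat_lit 608) (nat_lit 38887521943) (nat_lit 684) (nat_lit 23171099141) (nat_lit 291) (nat_lit 5) (nat_lit 299) (nat_lit 5) (nat_lit 300) (nat_lit 5) (nat_lit 516) (nat_lit 494) (nat_lit 190)))) (XT.nd (nat_lit 156) (nat_lit 684) (nat_lit 0) (XT.nd (nat_lit 78) (nat_lit 532) (nat_lit 0) (XT.lf (nat_lit 0) (nat_lit 79858330215) (nat_lit 684) (nat_lit 11534022380) (nat_lit 76) (nat_lit 2189689232) (nat_lit 291) (nat_lit 5) (nat_lit 300) (nat_lit 5) (nat_lit 292) (nat_lit 5) (nat_lit 517) (nat_lit 494) (nat_lit 189)) (XT.lf (nat_lit 0) (nat_lit 40919437162) (nat_lit 532) (nat_lit 51019683243) (nat_lit 608) (nat_lit 3191527742) (nat_lit 284) (nat_lit 5) (nat_lit 291) (nat_lit 5) (nat_lit 292) (nat_lit 5) (nat_lit 518) (nat_lit 494) (nat_lit 188))) (XT.nd (nat_lit 78) (nat_lit 608) (nat_lit 0) (XT.lf (nat_lit 0) (nat_lit 7624506908) (nat_lit 608) (nat_lit 1614376235)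 (nat_lit 76) (nat_lit 87481102718) (nat_lit 283) (nat_lit 5) (nat_lit 291) (nat_lit 5) (nat_lit 284) (nat_lit 5) (nat_lit 519) (nat_lit 494) (nat_lit 187)) (XT.lf (nat_lit 0) (nat_lit 19545812779) (nat_lit 684) (nat_lit 45097036967) (nat_lit 76) (nat_lit 33687857893) (nat_lit 275) (nat_lit 5) (nat_lit 284) (nat_lit 5) (nat_lit 276) (nat_lit 5) (nat_lit 520) (nat_lit 494) (nat_lit 186))))))) (XT.nd (nat_lit 60684) (nat_lit 0) (nat_lit 5852) (XT.nd (nat_lit 624) (nat_lit 912) (nat_lit 0) (XT.nd (nat_lit 312) (nat_lit 1444) (nat_lit 0) (XT.nd (nat_lit 156) (nat_lit 532) (nat_lit 0) (XT.nd (nat_lit 78) (nat_lit 0) (nat_lit 0) (XT.lf (nat_lit 0) (nat_lit 9871648844) (nat_lit 532) (nat_lit 22155623887) (nat_lit 608) (nat_lit 67956402903) (nat_lit 268) (nat_lit 5) (nat_lit 275) (nat_lit 5) (nat_lit 276) (nat_lit 5) (nat_lit 521) (nat_lit 494) (nat_lit 185)) (XT.lf (nat_lit 0) (nat_lit 45550459923) (nat_lit 608) (nat_lit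 34471274595) (nat_lit 76) (nat_lit 21644479662) (nat_lit 268) (nat_lit 5) (nat_lit 276) (nat_lit 5) (nat_lit 269) (nat_lit 5) (nat_lit 522) (nat_lit 494) (nat_lit 184))) (XT.nd (nat_lit 78) (nat_lit 0) (nat_lit 0) (XT.lf (nat_lit 0) (nat_lit 23069167155) (nat_lit 532) (nat_lit 36850992911) (nat_lit 608) (nat_lit 43465844306) (nat_lit 261) (nat_lit 5) (nat_lit 268) (nat_lit 5) (nat_lit 269) (nat_lit 5) (nat_lit 523) (nat_lit 494) (nat_lit 183)) (XT.lf (nat_lit 0) (nat_lit 75145393770) (nat_lit 608) (nat_lit 22181479457) (nat_lit 76) (nat_lit 7817781778) (nat_lit 261) (nat_lit 5) (nat_lit 269) (nat_lit 5) (nat_lit 262) (nat_lit 5) (nat_lit 524) (nat_lit 494) (nat_lit 182)))) (XT.nd (nat_lit 156) (nat_lit 988) (nat_lit 0) (XT.nd (nat_lit 78) (nat_lit 0) (nat_lit 0) (XT.lf (nat_lit 0) (nat_lit 38075744293) (nat_lit 456) (nat_lit 53482222462) (nat_lit 532) (nat_lit 15376180945) (nat_lit 255) (nat_lit 5) (nat_lit 261)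 (nat_lit 5) (nat_lit 262) (nat_lit 5) (nat_lit 525) (nat_lit 494) (nat_lit 181)) (XT.lf (nat_lit 0) (nat_lit 100595058217) (nat_lit 456) (nat_lit 8091566987) (nat_lit 532) (nat_lit 83988734) (nat_lit 255) (nat_lit 5) (nat_lit 261) (nat_lit 5) (nat_lit 262) (nat_lit 5) (nat_lit 526) (nat_lit 494) (nat_lit 180))) (XT.nd (nat_lit 78) (nat_lit 456) (nat_lit 0) (XT.lf (nat_lit 0) (nat_lit 16270501050) (nat_lit 532) (nat_lit 55765029513) (nat_lit 76) (nat_lit 38594848071) (nat_lit 248) (nat_lit 5) (nat_lit 255) (nat_lit 5) (nat_lit 249) (nat_lit 5) (nat_lit 527) (nat_lit 494) (nat_lit 179)) (XT.lf (nat_lit 0) (nat_lit 7485594161) (nat_lit 456) (nat_lit 25863517211) (nat_lit 532) (nat_lit 79189744743) (nat_lit 242) (nat_lit 5) (nat_lit 248) (nat_lit 5) (nat_lit 249) (nat_lit 5) (nat_lit 528) (nat_lit 494) (nat_lit 178))))) (XT.nd (nat_lit 312) (nat_lit 76) (nat_lit 0) (XT.nd (nat_lit 156) (nat_lit 380) (nat_lit 0) (XT.nd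 (nat_lit 78) (nat_lit 456) (nat_lit 0) (XT.lf (nat_lit 0) (nat_lit 51717038657) (nat_lit 532) (nat_lit 40925267483) (nat_lit 76) (nat_lit 21838973032) (nat_lit 242) (nat_lit 5) (nat_lit 249) (nat_lit 5) (nat_lit 243) (nat_lit 5) (nat_lit 529) (nat_lit 494) (nat_lit 177)) (XT.lf (nat_lit 0) (nat_lit 25365137247) (nat_lit 456) (nat_lit 45770507010) (nat_lit 532) (nat_lit 45331341458) (nat_lit 236) (nat_lit 5) (nat_lit 242) (nat_lit 5) (nat_lit 243) (nat_lit 5) (nat_lit 530) (nat_lit 494) (nat_lit 176))) (XT.nd (nat_lit 78) (nat_lit 380) (nat_lit 0) (XT.lf (nat_lit 0) (nat_lit 91578012570) (nat_lit 532) (nat_lit 24045202605) (nat_lit 76) (nat_lit 2875812150) (nat_lit 236) (nat_lit 5) (nat_lit 243) (nat_lit 5) (nat_lit 237) (nat_lit 5) (nat_lit 531) (nat_lit 494) (nat_lit 175)) (XT.lf (nat_lit 0) (nat_lit 45456678013) (nat_lit 380) (nat_lit 68066856838) (nat_lit 456) (nat_lit 7041798854) (nat_lit 231) (nat_lit 5) (nat_lit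 236) (nat_lit 5) (nat_lit 237) (nat_lit 5) (nat_lit 532) (nat_lit 494) (nat_lit 174)))) (XT.nd (nat_lit 59592) (nat_lit 0) (nat_lit 7372) (XT.nd (nat_lit 59514) (nat_lit 0) (nat_lit 7372) (XT.lf (nat_lit 0) (nat_lit 13416619264) (nat_lit 456) (nat_lit 5281681377) (nat_lit 76) (nat_lit 103984105606) (nat_lit 230) (nat_lit 5) (nat_lit 236) (nat_lit 5) (nat_lit 231) (nat_lit 5) (nat_lit 533) (nat_lit 494) (nat_lit 173)) (XT.lf (nat_lit 0) (nat_lit 19599799405) (nat_lit 1292) (nat_lit 7027322566) (nat_lit 1292) (nat_lit 7027322566) (nat_lit 327) (nat_lit 3) (nat_lit 344) (nat_lit 3) (nat_lit 344) (nat_lit 5) (nat_lit 495) (nat_lit 495) (nat_lit 210))) (XT.nd (nat_lit 78) (nat_lit 0) (nat_lit 76) (XT.lf (nat_lit 76) (nat_lit 19851877641) (nat_lit 0) (nat_lit 20140929114) (nat_lit 1292) (nat_lit 28319558573) (nat_lit 328) (nat_lit 5) (nat_lit 327) (nat_lit 3) (nat_lit 344) (nat_lit 5) (nat_lit 496) (nat_lit 495) (nat_lit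 209)) (XT.lf (nat_lit 0) (nat_lit 41086826485) (nat_lit 1216) (nat_lit 14413952902) (nat_lit 1292) (nat_lit 13836856041) (nat_lit 328) (nat_lit 5) (nat_lit 344) (nat_lit 5) (nat_lit 345) (nat_lit 5) (nat_lit 497) (nat_lit 495) (nat_lit 208)))))) (XT.nd (nat_lit 624) (nat_lit 1596) (nat_lit 0) (XT.nd (nat_lit 312) (nat_lit 0) (nat_lit 152) (XT.nd (nat_lit 156) (nat_lit 0) (nat_lit 76) (XT.nd (nat_lit 78) (nat_lit 0) (nat_lit 76) (XT.lf (nat_lit 76) (nat_lit 20861337329) (nat_lit 0) (nat_lit 21751731239) (nat_lit 1292) (nat_lit 27768613037) (nat_lit 329) (nat_lit 5) (nat_lit 328) (nat_lit 5) (nat_lit 345) (nat_lit 5) (nat_lit 498) (nat_lit 495) (nat_lit 207)) (XT.lf (nat_lit 0) (nat_lit 44456619608) (nat_lit 1216) (nat_lit 14089144076) (nat_lit 1292) (nat_lit 12903139855) (nat_lit 329) (nat_lit 5) (nat_lit 345) (nat_lit 5) (nat_lit 346) (nat_lit 5) (nat_lit 499) (nat_lit 495) (nat_lit 206))) (XT.nd (nat_lit 78) (nat_lit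 0) (nat_lit 76) (XT.lf (nat_lit 76) (nat_lit 22630928211) (nat_lit 0) (nat_lit 24156940285) (nat_lit 1292) (nat_lit 25747301920) (nat_lit 330) (nat_lit 5) (nat_lit 329) (nat_lit 5) (nat_lit 346) (nat_lit 5) (nat_lit 500) (nat_lit 495) (nat_lit 205)) (XT.lf (nat_lit 0) (nat_lit 49440507546) (nat_lit 1216) (nat_lit 13018346650) (nat_lit 1292) (nat_lit 11187627544) (nat_lit 330) (nat_lit 5) (nat_lit 346) (nat_lit 5) (nat_lit 347) (nat_lit 5) (nat_lit 501) (nat_lit 495) (nat_lit 204)))) (XT.nd (nat_lit 156) (nat_lit 0) (nat_lit 76) (XT.nd (nat_lit 78) (nat_lit 0) (nat_lit 76) (XT.lf (nat_lit 76) (nat_lit 25226900211) (nat_lit 0) (nat_lit 27427013380) (nat_lit 1292) (nat_lit 22122783203) (nat_lit 331) (nat_lit 5) (nat_lit 330) (nat_lit 5) (nat_lit 347) (nat_lit 5) (nat_lit 502) (nat_lit 495) (nat_lit 203)) (XT.lf (nat_lit 0) (nat_lit 56179214371) (nat_lit 1216) (nat_lit 11135341304) (nat_lit 1292) (nat_lit 8619797868)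 (nat_lit 331) (nat_lit 5) (nat_lit 347) (nat_lit 5) (nat_lit 348) (nat_lit 5) (nat_lit 503) (nat_lit 495) (nat_lit 202))) (XT.nd (nat_lit 78) (nat_lit 0) (nat_lit 76) (XT.lf (nat_lit 76) (nat_lit 28720106982) (nat_lit 0) (nat_lit 31637337327) (nat_lit 1292) (nat_lit 16752880603) (nat_lit 332) (nat_lit 5) (nat_lit 331) (nat_lit 5) (nat_lit 348) (nat_lit 5) (nat_lit 504) (nat_lit 495) (nat_lit 201)) (XT.lf (nat_lit 0) (nat_lit 64823253871) (nat_lit 1216) (nat_lit 8369285891) (nat_lit 1292) (nat_lit 5124168699) (nat_lit 332) (nat_lit 5) (nat_lit 348) (nat_lit 5) (nat_lit 349) (nat_lit 5) (nat_lit 505) (nat_lit 495) (nat_lit 200))))) (XT.nd (nat_lit 312) (nat_lit 684) (nat_lit 0) (XT.nd (nat_lit 156) (nat_lit 1216) (nat_lit 0) (XT.nd (nat_lit 78) (nat_lit 0) (nat_lit 76) (XT.lf (nat_lit 76) (nat_lit 33186296490) (nat_lit 0) (nat_lit 36868554175) (nat_lit 1292) (nat_lit 9485478482) (nat_lit 333) (nat_lit 5) (nat_lit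 332) (nat_lit 5) (nat_lit 349) (nat_lit 5) (nat_lit 506) (nat_lit 495) (nat_lit 199)) (XT.lf (nat_lit 0) (nat_lit 75533561483) (nat_lit 1216) (nat_lit 4644423147) (nat_lit 1292) (nat_lit 619968860) (nat_lit 333) (nat_lit 5) (nat_lit 349) (nat_lit 5) (nat_lit 350) (nat_lit 5) (nat_lit 507) (nat_lit 495) (nat_lit 198))) (XT.nd (nat_lit 78) (nat_lit 1292) (nat_lit 0) (XT.lf (nat_lit 76) (nat_lit 38706419265) (nat_lit 0) (nat_lit 43206907338) (nat_lit 1292) (nat_lit 157879189) (nat_lit 334) (nat_lit 5) (nat_lit 333) (nat_lit 5) (nat_lit 350) (nat_lit 5) (nat_lit 508) (nat_lit 495) (nat_lit 197)) (XT.lf (nat_lit 76) (nat_lit 22347408) (nat_lit 0) (nat_lit 5027098219) (nat_lit 1368) (nat_lit 78330323648) (nat_lit 317) (nat_lit 5) (nat_lit 316) (nat_lit 5) (nat_lit 334) (nat_lit 5) (nat_lit 509) (nat_lit 495) (nat_lit 196)))) (XT.nd (nat_lit 156) (nat_lit 760) (nat_lit 0) (XT.nd (nat_lit 78) (nat_lit 0) (nat_lit 0) (XT.lf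 (nat_lit 0) (nat_lit 11181348696) (nat_lit 1292) (nat_lit 39450351166) (nat_lit 1368) (nat_lit 34072696970) (nat_lit 317) (nat_lit 5) (nat_lit 334) (nat_lit 5) (nat_lit 335) (nat_lit 5) (nat_lit 510) (nat_lit 495) (nat_lit 195)) (XT.lf (nat_lit 76) (nat_lit 5837747387) (nat_lit 0) (nat_lit 11764964700) (nat_lit 1368) (nat_lit 68462886049) (nat_lit 318) (nat_lit 5) (nat_lit 317) (nat_lit 5) (nat_lit 335) (nat_lit 5) (nat_lit 511) (nat_lit 495) (nat_lit 194))) (XT.nd (nat_lit 78) (nat_lit 836) (nat_lit 0) (XT.lf (nat_lit 0) (nat_lit 24890381607) (nat_lit 1292) (nat_lit 34438508486) (nat_lit 76) (nat_lit 28118535444) (nat_lit 318) (nat_lit 5) (nat_lit 335) (nat_lit 5) (nat_lit 319) (nat_lit 5) (nat_lit 512) (nat_lit 495) (nat_lit 193)) (XT.lf (nat_lit 0) (nat_lit 12858621861) (nat_lit 836) (nat_lit 19777782723) (nat_lit 912) (nat_lit 56227111492) (nat_lit 307) (nat_lit 5) (nat_lit 318) (nat_lit 5) (nat_lit 319) (nat_lit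 5) (nat_lit 513) (nat_lit 495) (nat_lit 192))))))))
noncomputable def xc247 : XT := (XT.nd (nat_lit 61932) (nat_lit 912) (nat_lit 0) (XT.nd (nat_lit 1170) (nat_lit 1292) (nat_lit 0) (XT.nd (nat_lit 546) (nat_lit 2660) (nat_lit 0) (XT.nd (nat_lit 234) (nat_lit 1216) (nat_lit 0) (XT.nd (nat_lit 78) (nat_lit 608) (nat_lit 0) (XT.lf (nat_lit 0) (nat_lit 41167133377) (nat_lit 912) (nat_lit 28236290217) (nat_lit 76) (nat_lit 20902095998) (nat_lit 307) (nat_lit 5) (nat_lit 319) (nat_lit 5) (nat_lit 308) (nat_lit 5) (nat_lit 514) (nat_lit 495) (nat_lit 191)) (XT.nd (nat_lit 78) (nat_lit 0) (nat_lit 0) (XT.lf (nat_lit 0) (nat_lit 21182577002) (nat_lit 608) (nat_lit 29170298549) (nat_lit 684) (nat_lit 41425934932) (nat_lit 299) (nat_lit 5) (nat_lit 307) (nat_lit 5) (nat_lit 308) (nat_lit 5) (nat_lit 515) (nat_lit 495) (nat_lit 190)) (XT.lf (nat_lit 0) (nat_lit 60219748506) (nat_lit 684) (nat_lit 20746018668) (nat_lit 76)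 (nat_lit 12318366185) (nat_lit 299) (nat_lit 5) (nat_lit 308) (nat_lit 5) (nat_lit 300) (nat_lit 5) (nat_lit 516) (nat_lit 495) (nat_lit 189)))) (XT.nd (nat_lit 156) (nat_lit 608) (nat_lit 0) (XT.nd (nat_lit 78) (nat_lit 0) (nat_lit 0) (XT.lf (nat_lit 0) (nat_lit 30913806187) (nat_lit 608) (nat_lit 40054467891) (nat_lit 684) (nat_lit 23848772465) (nat_lit 291) (nat_lit 5) (nat_lit 299) (nat_lit 5) (nat_lit 300) (nat_lit 5) (nat_lit 517) (nat_lit 495) (nat_lit 188)) (XT.lf (nat_lit 0) (nat_lit 82270533861) (nat_lit 684) (nat_lit 11863399907) (nat_lit 76) (nat_lit 2255075016) (nat_lit 291) (nat_lit 5) (nat_lit 300) (nat_lit 5) (nat_lit 292) (nat_lit 5) (nat_lit 518) (nat_lit 495) (nat_lit 187))) (XT.nd (nat_lit 78) (nat_lit 76) (nat_lit 0) (XT.lf (nat_lit 0) (nat_lit 42163500254) (nat_lit 532) (nat_lit 52549926684) (nat_lit 608) (nat_lit 3270656001) (nat_lit 284) (nat_lit 5) (nat_lit 291) (nat_lit 5) (nat_lit 292)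 (nat_lit 5) (nat_lit 519) (nat_lit 495) (nat_lit 186)) (XT.lf (nat_lit 0) (nat_lit 7869060858) (nat_lit 608) (nat_lit 1646492093) (nat_lit 76) (nat_lit 90105557296) (nat_lit 283) (nat_lit 5) (nat_lit 291) (nat_lit 5) (nat_lit 284) (nat_lit 5) (nat_lit 520) (nat_lit 495) (nat_lit 185))))) (XT.nd (nat_lit 312) (nat_lit 988) (nat_lit 0) (XT.nd (nat_lit 156) (nat_lit 532) (nat_lit 0) (XT.nd (nat_lit 78) (nat_lit 532) (nat_lit 0) (XT.lf (nat_lit 0) (nat_lit 20147706634) (nat_lit 684) (nat_lit 46433332766) (nat_lit 76) (nat_lit 34699123274) (nat_lit 275) (nat_lit 5) (nat_lit 284) (nat_lit 5) (nat_lit 276) (nat_lit 5) (nat_lit 521) (nat_lit 495) (nat_lit 184)) (XT.lf (nat_lit 0) (nat_lit 10184250725) (nat_lit 532) (nat_lit 22819065788) (nat_lit 608) (nat_lit 69979412031) (nat_lit 268) (nat_lit 5) (nat_lit 275) (nat_lit 5) (nat_lit 276) (nat_lit 5) (nat_lit 522) (nat_lit 495) (nat_lit 183))) (XT.nd (nat_lit 78) (nat_lit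 532) (nat_lit 0) (XT.lf (nat_lit 0) (nat_lit 46931767305) (nat_lit 608) (nat_lit 35489007025) (nat_lit 76) (nat_lit 22294981892) (nat_lit 268) (nat_lit 5) (nat_lit 276) (nat_lit 5) (nat_lit 269) (nat_lit 5) (nat_lit 523) (nat_lit 495) (nat_lit 182)) (XT.lf (nat_lit 0) (nat_lit 23777487136) (nat_lit 532) (nat_lit 37954796592) (nat_lit 608) (nat_lit 44754864651) (nat_lit 261) (nat_lit 5) (nat_lit 268) (nat_lit 5) (nat_lit 269) (nat_lit 5) (nat_lit 524) (nat_lit 495) (nat_lit 181)))) (XT.nd (nat_lit 156) (nat_lit 532) (nat_lit 0) (XT.nd (nat_lit 78) (nat_lit 456) (nat_lit 0) (XT.lf (nat_lit 0) (nat_lit 77413867673) (nat_lit 608) (nat_lit 22830744717) (nat_lit 76) (nat_lit 8053958361) (nat_lit 261) (nat_lit 5) (nat_lit 269) (nat_lit 5) (nat_lit 262) (nat_lit 5) (nat_lit 525) (nat_lit 495) (nat_lit 180)) (XT.lf (nat_lit 0) (nat_lit 39234037127) (nat_lit 456) (nat_lit 55084523688) (nat_lit 532) (nat_lit 15823195139) (nat_lit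 255) (nat_lit 5) (nat_lit 261) (nat_lit 5) (nat_lit 262) (nat_lit 5) (nat_lit 526) (nat_lit 495) (nat_lit 179))) (XT.nd (nat_lit 78) (nat_lit 532) (nat_lit 0) (XT.lf (nat_lit 0) (nat_lit 103628463852) (nat_lit 456) (nat_lit 8332211619) (nat_lit 532) (nat_lit 72652829) (nat_lit 255) (nat_lit 5) (nat_lit 261) (nat_lit 5) (nat_lit 262) (nat_lit 5) (nat_lit 527) (nat_lit 495) (nat_lit 178)) (XT.lf (nat_lit 0) (nat_lit 16771978610) (nat_lit 532) (nat_lit 57421932494) (nat_lit 76) (nat_lit 39754977532) (nat_lit 248) (nat_lit 5) (nat_lit 255) (nat_lit 5) (nat_lit 249) (nat_lit 5) (nat_lit 528) (nat_lit 495) (nat_lit 177)))))) (XT.nd (nat_lit 60138) (nat_lit 0) (nat_lit 7372) (XT.nd (nat_lit 312) (nat_lit 380) (nat_lit 0) (XT.nd (nat_lit 156) (nat_lit 456) (nat_lit 0) (XT.nd (nat_lit 78) (nat_lit 0) (nat_lit 0) (XT.lf (nat_lit 0) (nat_lit 7726052559) (nat_lit 456) (nat_lit 26636658234) (nat_lit 532) (nat_lit 81551916758)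 (nat_lit 242) (nat_lit 5) (nat_lit 248) (nat_lit 5) (nat_lit 249) (nat_lit 5) (nat_lit 529) (nat_lit 495) (nat_lit 176)) (XT.lf (nat_lit 0) (nat_lit 53281319382) (nat_lit 532) (nat_lit 42137240801) (nat_lit 76) (nat_lit 22496773823) (nat_lit 242) (nat_lit 5) (nat_lit 249) (nat_lit 5) (nat_lit 243) (nat_lit 5) (nat_lit 530) (nat_lit 495) (nat_lit 175))) (XT.nd (nat_lit 78) (nat_lit 0) (nat_lit 0) (XT.lf (nat_lit 0) (nat_lit 26141721319) (nat_lit 456) (nat_lit 47140540146) (nat_lit 532) (nat_lit 46678356943) (nat_lit 236) (nat_lit 5) (nat_lit 242) (nat_lit 5) (nat_lit 243) (nat_lit 5) (nat_lit 531) (nat_lit 495) (nat_lit 174)) (XT.lf (nat_lit 0) (nat_lit 94337564120) (nat_lit 532) (nat_lit 24751046834) (nat_lit 76) (nat_lit 2965020429) (nat_lit 236) (nat_lit 5) (nat_lit 243) (nat_lit 5) (nat_lit 237) (nat_lit 5) (nat_lit 532) (nat_lit 495) (nat_lit 173)))) (XT.nd (nat_lit 59670) (nat_lit 0) (nat_lit 7296) (XT.nd (nat_lit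 59592) (nat_lit 0) (nat_lit 7296) (XT.lf (nat_lit 0) (nat_lit 46835738126) (nat_lit 380) (nat_lit 70105505926) (nat_lit 456) (nat_lit 7240689155) (nat_lit 231) (nat_lit 5) (nat_lit 236) (nat_lit 5) (nat_lit 237) (nat_lit 5) (nat_lit 533) (nat_lit 495) (nat_lit 172)) (XT.lf (nat_lit 0) (nat_lit 20202040675) (nat_lit 1292) (nat_lit 7230804561) (nat_lit 1292) (nat_lit 7230804561) (nat_lit 327) (nat_lit 3) (nat_lit 344) (nat_lit 3) (nat_lit 344) (nat_lit 5) (nat_lit 496) (nat_lit 496) (nat_lit 208))) (XT.nd (nat_lit 78) (nat_lit 0) (nat_lit 76) (XT.lf (nat_lit 76) (nat_lit 20461965459) (nat_lit 0) (nat_lit 20758429822) (nat_lit 1292) (nat_lit 29140505601) (nat_lit 328) (nat_lit 5) (nat_lit 327) (nat_lit 3) (nat_lit 344) (nat_lit 5) (nat_lit 497) (nat_lit 496) (nat_lit 207)) (XT.lf (nat_lit 0) (nat_lit 42346301897) (nat_lit 1216) (nat_lit 14831328303) (nat_lit 1292) (nat_lit 14239326932) (nat_lit 328) (nat_lit 5) (nat_lit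 344) (nat_lit 5) (nat_lit 345) (nat_lit 5) (nat_lit 498) (nat_lit 496) (nat_lit 206))))) (XT.nd (nat_lit 312) (nat_lit 0) (nat_lit 152) (XT.nd (nat_lit 156) (nat_lit 0) (nat_lit 76) (XT.nd (nat_lit 78) (nat_lit 0) (nat_lit 76) (XT.lf (nat_lit 76) (nat_lit 21502073152) (nat_lit 0) (nat_lit 22415618637) (nat_lit 1292) (nat_lit 28574652125) (nat_lit 329) (nat_lit 5) (nat_lit 328) (nat_lit 5) (nat_lit 345) (nat_lit 5) (nat_lit 499) (nat_lit 496) (nat_lit 205)) (XT.lf (nat_lit 0) (nat_lit 45815679557) (nat_lit 1216) (nat_lit 14496485577) (nat_lit 1292) (nat_lit 13279443501) (nat_lit 329) (nat_lit 5) (nat_lit 345) (nat_lit 5) (nat_lit 346) (nat_lit 5) (nat_lit 500) (nat_lit 496) (nat_lit 204))) (XT.nd (nat_lit 78) (nat_lit 0) (nat_lit 76) (XT.lf (nat_lit 76) (nat_lit 23325038556) (nat_lit 0) (nat_lit 24891234618) (nat_lit 1292) (nat_lit 26494208161) (nat_lit 330) (nat_lit 5) (nat_lit 329) (nat_lit 5) (nat_lit 346) (nat_lit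 5) (nat_lit 501) (nat_lit 496) (nat_lit 203)) (XT.lf (nat_lit 0) (nat_lit 50947680516) (nat_lit 1216) (nat_lit 13393344778) (nat_lit 1292) (nat_lit 11514131065) (nat_lit 330) (nat_lit 5) (nat_lit 346) (nat_lit 5) (nat_lit 347) (nat_lit 5) (nat_lit 502) (nat_lit 496) (nat_lit 202)))) (XT.nd (nat_lit 156) (nat_lit 0) (nat_lit 76) (XT.nd (nat_lit 78) (nat_lit 0) (nat_lit 76) (XT.lf (nat_lit 76) (nat_lit 25999107015) (nat_lit 0) (nat_lit 28257831961) (nat_lit 1292) (nat_lit 22762355413) (nat_lit 331) (nat_lit 5) (nat_lit 330) (nat_lit 5) (nat_lit 347) (nat_lit 5) (nat_lit 503) (nat_lit 496) (nat_lit 201)) (XT.lf (nat_lit 0) (nat_lit 57887242257) (nat_lit 1216) (nat_lit 11453692721) (nat_lit 1292) (nat_lit 8870768590) (nat_lit 331) (nat_lit 5) (nat_lit 347) (nat_lit 5) (nat_lit 348) (nat_lit 5) (nat_lit 504) (nat_lit 496) (nat_lit 200))) (XT.nd (nat_lit 78) (nat_lit 0) (nat_lit 76) (XT.lf (nat_lit 76) (nat_lit 29597265005)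 (nat_lit 0) (nat_lit 32593043858) (nat_lit 1292) (nat_lit 17232660551) (nat_lit 332) (nat_lit 5) (nat_lit 331) (nat_lit 5) (nat_lit 348) (nat_lit 5) (nat_lit 505) (nat_lit 496) (nat_lit 199)) (XT.lf (nat_lit 0) (nat_lit 66789386354) (nat_lit 1216) (nat_lit 8604555370) (nat_lit 1292) (nat_lit 5271623966) (nat_lit 332) (nat_lit 5) (nat_lit 348) (nat_lit 5) (nat_lit 349) (nat_lit 5) (nat_lit 506) (nat_lit 496) (nat_lit 198))))))) (XT.nd (nat_lit 1248) (nat_lit 4256) (nat_lit 0) (XT.nd (nat_lit 624) (nat_lit 2432) (nat_lit 0) (XT.nd (nat_lit 312) (nat_lit 684) (nat_lit 0) (XT.nd (nat_lit 156) (nat_lit 1216) (nat_lit 0) (XT.nd (nat_lit 78) (nat_lit 0) (nat_lit 76) (XT.lf (nat_lit 76) (nat_lit 34197539492) (nat_lit 0) (nat_lit 37979917721) (nat_lit 1292) (nat_lit 9748452028) (nat_lit 333) (nat_lit 5) (nat_lit 332) (nat_lit 5) (nat_lit 349) (nat_lit 5) (nat_lit 507) (nat_lit 496) (nat_lit 197)) (XT.lf (nat_lit 0) (nat_lit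 77819869312) (nat_lit 1216) (nat_lit 4767896715) (nat_lit 1292) (nat_lit 633516117) (nat_lit 333) (nat_lit 5) (nat_lit 349) (nat_lit 5) (nat_lit 350) (nat_lit 5) (nat_lit 508) (nat_lit 496) (nat_lit 196))) (XT.nd (nat_lit 78) (nat_lit 1292) (nat_lit 0) (XT.lf (nat_lit 76) (nat_lit 39883315489) (nat_lit 0) (nat_lit 44507271560) (nat_lit 1292) (nat_lit 142158203) (nat_lit 334) (nat_lit 5) (nat_lit 333) (nat_lit 5) (nat_lit 350) (nat_lit 5) (nat_lit 509) (nat_lit 496) (nat_lit 195)) (XT.lf (nat_lit 76) (nat_lit 38963663) (nat_lit 0) (nat_lit 5181592561) (nat_lit 1368) (nat_lit 80660016469) (nat_lit 317) (nat_lit 5) (nat_lit 316) (nat_lit 5) (nat_lit 334) (nat_lit 5) (nat_lit 510) (nat_lit 496) (nat_lit 194)))) (XT.nd (nat_lit 156) (nat_lit 760) (nat_lit 0) (XT.nd (nat_lit 78) (nat_lit 0) (nat_lit 0) (XT.lf (nat_lit 0) (nat_lit 11535810361) (nat_lit 1292) (nat_lit 40617773467) (nat_lit 1368) (nat_lit 35091373454) (nat_lit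 317) (nat_lit 5) (nat_lit 334) (nat_lit 5) (nat_lit 335) (nat_lit 5) (nat_lit 511) (nat_lit 496) (nat_lit 193)) (XT.lf (nat_lit 76) (nat_lit 6028810315) (nat_lit 0) (nat_lit 12120603456) (nat_lit 1368) (nat_lit 70497592903) (nat_lit 318) (nat_lit 5) (nat_lit 317) (nat_lit 5) (nat_lit 335) (nat_lit 5) (nat_lit 512) (nat_lit 496) (nat_lit 192))) (XT.nd (nat_lit 78) (nat_lit 836) (nat_lit 0) (XT.lf (nat_lit 0) (nat_lit 25655145935) (nat_lit 1292) (nat_lit 35455629015) (nat_lit 76) (nat_lit 28959530995) (nat_lit 318) (nat_lit 5) (nat_lit 335) (nat_lit 5) (nat_lit 319) (nat_lit 5) (nat_lit 513) (nat_lit 496) (nat_lit 191)) (XT.lf (nat_lit 0) (nat_lit 13260258040) (nat_lit 836) (nat_lit 20372918374) (nat_lit 912) (nat_lit 57895714004) (nat_lit 307) (nat_lit 5) (nat_lit 318) (nat_lit 5) (nat_lit 319) (nat_lit 5) (nat_lit 514) (nat_lit 496) (nat_lit 190))))) (XT.nd (nat_lit 312) (nat_lit 1216) (nat_lit 0) (XT.nd (nat_lit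 156) (nat_lit 608) (nat_lit 0) (XT.nd (nat_lit 78) (nat_lit 608) (nat_lit 0) (XT.lf (nat_lit 0) (nat_lit 42419295309) (nat_lit 912) (nat_lit 29067431364) (nat_lit 76) (nat_lit 21527443342) (nat_lit 307) (nat_lit 5) (nat_lit 319) (nat_lit 5) (nat_lit 308) (nat_lit 5) (nat_lit 515) (nat_lit 496) (nat_lit 189)) (XT.lf (nat_lit 0) (nat_lit 21833845523) (nat_lit 608) (nat_lit 30046416565) (nat_lit 684) (nat_lit 42651407995) (nat_lit 299) (nat_lit 5) (nat_lit 307) (nat_lit 5) (nat_lit 308) (nat_lit 5) (nat_lit 516) (nat_lit 496) (nat_lit 188))) (XT.nd (nat_lit 78) (nat_lit 608) (nat_lit 0) (XT.lf (nat_lit 0) (nat_lit 62042642487) (nat_lit 684) (nat_lit 21352568523) (nat_lit 76) (nat_lit 12686956618) (nat_lit 299) (nat_lit 5) (nat_lit 308) (nat_lit 5) (nat_lit 300) (nat_lit 5) (nat_lit 517) (nat_lit 496) (nat_lit 187)) (XT.lf (nat_lit 0) (nat_lit 31856895875) (nat_lit 608) (nat_lit 41256403832) (nat_lit 684) (nat_lit 24547778245)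 (nat_lit 291) (nat_lit 5) (nat_lit 299) (nat_lit 5) (nat_lit 300) (nat_lit 5) (nat_lit 518) (nat_lit 496) (nat_lit 186)))) (XT.nd (nat_lit 156) (nat_lit 684) (nat_lit 0) (XT.nd (nat_lit 78) (nat_lit 532) (nat_lit 0) (XT.lf (nat_lit 0) (nat_lit 84754159104) (nat_lit 684) (nat_lit 12203614144) (nat_lit 76) (nat_lit 2322439876) (nat_lit 291) (nat_lit 5) (nat_lit 300) (nat_lit 5) (nat_lit 292) (nat_lit 5) (nat_lit 519) (nat_lit 496) (nat_lit 185)) (XT.lf (nat_lit 0) (nat_lit 43443939220) (nat_lit 532) (nat_lit 54126097350) (nat_lit 608) (nat_lit 3353112024) (nat_lit 284) (nat_lit 5) (nat_lit 291) (nat_lit 5) (nat_lit 292) (nat_lit 5) (nat_lit 520) (nat_lit 496) (nat_lit 184))) (XT.nd (nat_lit 78) (nat_lit 608) (nat_lit 0) (XT.lf (nat_lit 0) (nat_lit 8120043365) (nat_lit 608) (nat_lit 1680507999) (nat_lit 76) (nat_lit 92808744278) (nat_lit 283) (nat_lit 5) (nat_lit 291) (nat_lit 5) (nat_lit 284) (nat_lit 5) (nat_lit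 521) (nat_lit 496) (nat_lit 183)) (XT.lf (nat_lit 0) (nat_lit 20766766424) (nat_lit 684) (nat_lit 47810671226) (nat_lit 76) (nat_lit 35740690472) (nat_lit 275) (nat_lit 5) (nat_lit 284) (nat_lit 5) (nat_lit 276) (nat_lit 5) (nat_lit 522) (nat_lit 496) (nat_lit 182)))))) (XT.nd (nat_lit 624) (nat_lit 1748) (nat_lit 0) (XT.nd (nat_lit 312) (nat_lit 1444) (nat_lit 0) (XT.nd (nat_lit 156) (nat_lit 532) (nat_lit 0) (XT.nd (nat_lit 78) (nat_lit 0) (nat_lit 0) (XT.lf (nat_lit 0) (nat_lit 10505286225) (nat_lit 532) (nat_lit 23502481370) (nat_lit 608) (nat_lit 72064011699) (nat_lit 268) (nat_lit 5) (nat_lit 275) (nat_lit 5) (nat_lit 276) (nat_lit 5) (nat_lit 523) (nat_lit 496) (nat_lit 181)) (XT.lf (nat_lit 0) (nat_lit 48353664696) (nat_lit 608) (nat_lit 36538213189) (nat_lit 76) (nat_lit 22964932151) (nat_lit 268) (nat_lit 5) (nat_lit 276) (nat_lit 5) (nat_lit 269) (nat_lit 5) (nat_lit 524) (nat_lit 496) (nat_lit 180)))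 (XT.nd (nat_lit 78) (nat_lit 0) (nat_lit 0) (XT.lf (nat_lit 0) (nat_lit 24506124189) (nat_lit 532) (nat_lit 39091813469) (nat_lit 608) (nat_lit 46083414084) (nat_lit 261) (nat_lit 5) (nat_lit 268) (nat_lit 5) (nat_lit 269) (nat_lit 5) (nat_lit 525) (nat_lit 496) (nat_lit 179)) (XT.lf (nat_lit 0) (nat_lit 79749585701) (nat_lit 608) (nat_lit 23500416682) (nat_lit 76) (nat_lit 8297125919) (nat_lit 261) (nat_lit 5) (nat_lit 269) (nat_lit 5) (nat_lit 262) (nat_lit 5) (nat_lit 526) (nat_lit 496) (nat_lit 178)))) (XT.nd (nat_lit 156) (nat_lit 988) (nat_lit 0) (XT.nd (nat_lit 78) (nat_lit 0) (nat_lit 0) (XT.lf (nat_lit 0) (nat_lit 40426159103) (nat_lit 456) (nat_lit 56735018255) (nat_lit 532) (nat_lit 16284438986) (nat_lit 255) (nat_lit 5) (nat_lit 261) (nat_lit 5) (nat_lit 262) (nat_lit 5) (nat_lit 527) (nat_lit 496) (nat_lit 177)) (XT.lf (nat_lit 0) (nat_lit 106751978799) (nat_lit 456) (nat_lit 8580196276) (nat_lit 532)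 (nat_lit 61772213) (nat_lit 255) (nat_lit 5) (nat_lit 261) (nat_lit 5) (nat_lit 262) (nat_lit 5) (nat_lit 528) (nat_lit 496) (nat_lit 176))) (XT.nd (nat_lit 78) (nat_lit 456) (nat_lit 0) (XT.lf (nat_lit 0) (nat_lit 17287733433) (nat_lit 532) (nat_lit 59129463779) (nat_lit 76) (nat_lit 40949779766) (nat_lit 248) (nat_lit 5) (nat_lit 255) (nat_lit 5) (nat_lit 249) (nat_lit 5) (nat_lit 529) (nat_lit 496) (nat_lit 175)) (XT.lf (nat_lit 0) (nat_lit 7972812524) (nat_lit 456) (nat_lit 27433152180) (nat_lit 532) (nat_lit 83985730055) (nat_lit 242) (nat_lit 5) (nat_lit 248) (nat_lit 5) (nat_lit 249) (nat_lit 5) (nat_lit 530) (nat_lit 496) (nat_lit 174))))) (XT.nd (nat_lit 59904) (nat_lit 0) (nat_lit 8208) (XT.nd (nat_lit 468) (nat_lit 1292) (nat_lit 0) (XT.nd (nat_lit 78) (nat_lit 456) (nat_lit 0) (XT.lf (nat_lit 0) (nat_lit 54891795504) (nat_lit 532) (nat_lit 43386479425) (nat_lit 76) (nat_lit 23174157574) (nat_lit 242)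 (nat_lit 5) (nat_lit 249) (nat_lit 5) (nat_lit 243) (nat_lit 5) (nat_lit 531) (nat_lit 496) (nat_lit 173)) (XT.lf (nat_lit 0) (nat_lit 26940705690) (nat_lit 456) (nat_lit 48551851201) (nat_lit 532) (nat_lit 48066524828) (nat_lit 236) (nat_lit 5) (nat_lit 242) (nat_lit 5) (nat_lit 243) (nat_lit 5) (nat_lit 532) (nat_lit 496) (nat_lit 172))) (XT.nd (nat_lit 59358) (nat_lit 0) (nat_lit 8208) (XT.lf (nat_lit 0) (nat_lit 16783659269) (nat_lit 380) (nat_lit 45049717866) (nat_lit 456) (nat_lit 72936361505) (nat_lit 219) (nat_lit 5) (nat_lit 224) (nat_lit 5) (nat_lit 225) (nat_lit 5) (nat_lit 537) (nat_lit 496) (nat_lit 167)) (XT.lf (nat_lit 0) (nat_lit 20821531331) (nat_lit 1292) (nat_lit 7440812228) (nat_lit 1292) (nat_lit 7440812228) (nat_lit 327) (nat_lit 3) (nat_lit 344) (nat_lit 3) (nat_lit 344) (nat_lit 5) (nat_lit 497) (nat_lit 497) (nat_lit 206)))) (XT.nd (nat_lit 156) (nat_lit 0) (nat_lit 76) (XT.nd (nat_lit 78)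 (nat_lit 0) (nat_lit 76) (XT.lf (nat_lit 76) (nat_lit 21089521744) (nat_lit 0) (nat_lit 21393693636) (nat_lit 1292) (nat_lit 29987725077) (nat_lit 328) (nat_lit 5) (nat_lit 327) (nat_lit 3) (nat_lit 344) (nat_lit 5) (nat_lit 498) (nat_lit 497) (nat_lit 205)) (XT.lf (nat_lit 0) (nat_lit 43642019088) (nat_lit 1216) (nat_lit 15262088507) (nat_lit 1292) (nat_lit 14654597239) (nat_lit 328) (nat_lit 5) (nat_lit 344) (nat_lit 5) (nat_lit 345) (nat_lit 5) (nat_lit 499) (nat_lit 497) (nat_lit 204))) (XT.nd (nat_lit 78) (nat_lit 0) (nat_lit 76) (XT.lf (nat_lit 76) (nat_lit 22161175976) (nat_lit 0) (nat_lit 23098771956) (nat_lit 1292) (nat_lit 29406423404) (nat_lit 329) (nat_lit 5) (nat_lit 328) (nat_lit 5) (nat_lit 345) (nat_lit 5) (nat_lit 500) (nat_lit 497) (nat_lit 203)) (XT.lf (nat_lit 0) (nat_lit 47214055458) (nat_lit 1216) (nat_lit 14916927491) (nat_lit 1292) (nat_lit 13667655679) (nat_lit 329) (nat_lit 5) (nat_lit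 345) (nat_lit 5) (nat_lit 346) (nat_lit 5) (nat_lit 501) (nat_lit 497) (nat_lit 202))))))))
noncomputable def xc248 : XT := (XT.nd (nat_lit 62166) (nat_lit 0) (nat_lit 1444) (XT.nd (nat_lit 1170) (nat_lit 4940) (nat_lit 0) (XT.nd (nat_lit 546) (nat_lit 1672) (nat_lit 0) (XT.nd (nat_lit 234) (nat_lit 0) (nat_lit 152) (XT.nd (nat_lit 78) (nat_lit 0) (nat_lit 76) (XT.lf (nat_lit 76) (nat_lit 24039100674) (nat_lit 0) (nat_lit 25647007498) (nat_lit 1292) (nat_lit 27264986129) (nat_lit 330) (nat_lit 5) (nat_lit 329) (nat_lit 5) (nat_lit 346) (nat_lit 5) (nat_lit 502) (nat_lit 497) (nat_lit 201)) (XT.nd (nat_lit 78) (nat_lit 0) (nat_lit 0) (XT.lf (nat_lit 0) (nat_lit 52498693403) (nat_lit 1216) (nat_lit 13780485614) (nat_lit 1292) (nat_lit 11850953521) (nat_lit 330) (nat_lit 5) (nat_lit 346) (nat_lit 5) (nat_lit 347) (nat_lit 5) (nat_lit 503) (nat_lit 497) (nat_lit 200)) (XT.lf (nat_lit 76) (nat_lit 26793596013) (nat_lit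 0) (nat_lit 29113115396) (nat_lit 1292) (nat_lit 23422498876) (nat_lit 331) (nat_lit 5) (nat_lit 330) (nat_lit 5) (nat_lit 347) (nat_lit 5) (nat_lit 504) (nat_lit 497) (nat_lit 199)))) (XT.nd (nat_lit 156) (nat_lit 0) (nat_lit 76) (XT.nd (nat_lit 78) (nat_lit 0) (nat_lit 0) (XT.lf (nat_lit 0) (nat_lit 59645210693) (nat_lit 1216) (nat_lit 11782496431) (nat_lit 1292) (nat_lit 9129706037) (nat_lit 331) (nat_lit 5) (nat_lit 347) (nat_lit 5) (nat_lit 348) (nat_lit 5) (nat_lit 505) (nat_lit 497) (nat_lit 198)) (XT.lf (nat_lit 76) (nat_lit 30499844859) (nat_lit 0) (nat_lit 33577043499) (nat_lit 1292) (nat_lit 17728143082) (nat_lit 332) (nat_lit 5) (nat_lit 331) (nat_lit 5) (nat_lit 348) (nat_lit 5) (nat_lit 506) (nat_lit 497) (nat_lit 197))) (XT.nd (nat_lit 78) (nat_lit 0) (nat_lit 0) (XT.lf (nat_lit 0) (nat_lit 68813272363) (nat_lit 1216) (nat_lit 8847790440) (nat_lit 1292) (nat_lit 5423862803) (nat_lit 332) (nat_lit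 5) (nat_lit 348) (nat_lit 5) (nat_lit 349) (nat_lit 5) (nat_lit 507) (nat_lit 497) (nat_lit 196)) (XT.lf (nat_lit 76) (nat_lit 35238221174) (nat_lit 0) (nat_lit 39124317534) (nat_lit 1292) (nat_lit 10020554181) (nat_lit 333) (nat_lit 5) (nat_lit 332) (nat_lit 5) (nat_lit 349) (nat_lit 5) (nat_lit 508) (nat_lit 497) (nat_lit 195))))) (XT.nd (nat_lit 312) (nat_lit 684) (nat_lit 0) (XT.nd (nat_lit 156) (nat_lit 1292) (nat_lit 0) (XT.nd (nat_lit 78) (nat_lit 0) (nat_lit 0) (XT.lf (nat_lit 0) (nat_lit 80173601016) (nat_lit 1216) (nat_lit 4895984867) (nat_lit 1292) (nat_lit 647759786) (nat_lit 333) (nat_lit 5) (nat_lit 349) (nat_lit 5) (nat_lit 350) (nat_lit 5) (nat_lit 509) (nat_lit 497) (nat_lit 194)) (XT.lf (nat_lit 76) (nat_lit 41094617146) (nat_lit 0) (nat_lit 45846408079) (nat_lit 1292) (nat_lit 127139924) (nat_lit 334) (nat_lit 5) (nat_lit 333) (nat_lit 5) (nat_lit 350) (nat_lit 5) (nat_lit 510) (nat_lit 497) (nat_lit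 193))) (XT.nd (nat_lit 78) (nat_lit 0) (nat_lit 76) (XT.lf (nat_lit 76) (nat_lit 55163049) (nat_lit 0) (nat_lit 5340510405) (nat_lit 1368) (nat_lit 83060760607) (nat_lit 317) (nat_lit 5) (nat_lit 316) (nat_lit 5) (nat_lit 334) (nat_lit 5) (nat_lit 511) (nat_lit 497) (nat_lit 192)) (XT.lf (nat_lit 0) (nat_lit 11899813980) (nat_lit 1292) (nat_lit 41821141967) (nat_lit 1368) (nat_lit 36140811400) (nat_lit 317) (nat_lit 5) (nat_lit 334) (nat_lit 5) (nat_lit 335) (nat_lit 5) (nat_lit 512) (nat_lit 497) (nat_lit 191)))) (XT.nd (nat_lit 156) (nat_lit 760) (nat_lit 0) (XT.nd (nat_lit 78) (nat_lit 0) (nat_lit 76) (XT.lf (nat_lit 76) (nat_lit 6224690655) (nat_lit 0) (nat_lit 12486756969) (nat_lit 1368) (nat_lit 72594441958) (nat_lit 318) (nat_lit 5) (nat_lit 317) (nat_lit 5) (nat_lit 335) (nat_lit 5) (nat_lit 513) (nat_lit 497) (nat_lit 190)) (XT.lf (nat_lit 0) (nat_lit 26441816883) (nat_lit 1292) (nat_lit 36504183618) (nat_lit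 76) (nat_lit 29825903397) (nat_lit 318) (nat_lit 5) (nat_lit 335) (nat_lit 5) (nat_lit 319) (nat_lit 5) (nat_lit 514) (nat_lit 497) (nat_lit 189))) (XT.nd (nat_lit 78) (nat_lit 0) (nat_lit 0) (XT.lf (nat_lit 0) (nat_lit 13673031869) (nat_lit 836) (nat_lit 20985804642) (nat_lit 912) (nat_lit 59615419968) (nat_lit 307) (nat_lit 5) (nat_lit 318) (nat_lit 5) (nat_lit 319) (nat_lit 5) (nat_lit 515) (nat_lit 497) (nat_lit 188)) (XT.lf (nat_lit 0) (nat_lit 43708037737) (nat_lit 912) (nat_lit 29924422199) (nat_lit 76) (nat_lit 22171649585) (nat_lit 307) (nat_lit 5) (nat_lit 319) (nat_lit 5) (nat_lit 308) (nat_lit 5) (nat_lit 516) (nat_lit 497) (nat_lit 187)))))) (XT.nd (nat_lit 624) (nat_lit 1976) (nat_lit 0) (XT.nd (nat_lit 312) (nat_lit 1748) (nat_lit 0) (XT.nd (nat_lit 156) (nat_lit 608) (nat_lit 0) (XT.nd (nat_lit 78) (nat_lit 0) (nat_lit 0) (XT.lf (nat_lit 0) (nat_lit 22503745620) (nat_lit 608) (nat_lit 30948760197)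 (nat_lit 684) (nat_lit 43914638626) (nat_lit 299) (nat_lit 5) (nat_lit 307) (nat_lit 5) (nat_lit 308) (nat_lit 5) (nat_lit 517) (nat_lit 497) (nat_lit 186)) (XT.lf (nat_lit 0) (nat_lit 63919287513) (nat_lit 684) (nat_lit 21978223621) (nat_lit 76) (nat_lit 13066659904) (nat_lit 299) (nat_lit 5) (nat_lit 308) (nat_lit 5) (nat_lit 300) (nat_lit 5) (nat_lit 518) (nat_lit 497) (nat_lit 185))) (XT.nd (nat_lit 78) (nat_lit 0) (nat_lit 0) (XT.lf (nat_lit 0) (nat_lit 32827378416) (nat_lit 608) (nat_lit 42494380520) (nat_lit 684) (nat_lit 25268698919) (nat_lit 291) (nat_lit 5) (nat_lit 299) (nat_lit 5) (nat_lit 300) (nat_lit 5) (nat_lit 519) (nat_lit 497) (nat_lit 184)) (XT.lf (nat_lit 0) (nat_lit 87311402811) (nat_lit 684) (nat_lit 12554935350) (nat_lit 76) (nat_lit 2391842178) (nat_lit 291) (nat_lit 5) (nat_lit 300) (nat_lit 5) (nat_lit 292) (nat_lit 5) (nat_lit 520) (nat_lit 497) (nat_lit 183)))) (XT.nd (nat_lit 156) (nat_lit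 1140) (nat_lit 0) (XT.nd (nat_lit 78) (nat_lit 76) (nat_lit 0) (XT.lf (nat_lit 0) (nat_lit 44761899642) (nat_lit 532) (nat_lit 55749571915) (nat_lit 608) (nat_lit 3438940886) (nat_lit 284) (nat_lit 5) (nat_lit 291) (nat_lit 5) (nat_lit 292) (nat_lit 5) (nat_lit 521) (nat_lit 497) (nat_lit 182)) (XT.lf (nat_lit 0) (nat_lit 8377699414) (nat_lit 608) (nat_lit 1716427191) (nat_lit 76) (nat_lit 95593025705) (nat_lit 283) (nat_lit 5) (nat_lit 291) (nat_lit 5) (nat_lit 284) (nat_lit 5) (nat_lit 522) (nat_lit 497) (nat_lit 181))) (XT.nd (nat_lit 78) (nat_lit 532) (nat_lit 0) (XT.lf (nat_lit 0) (nat_lit 21403558266) (nat_lit 684) (nat_lit 49230228875) (nat_lit 76) (nat_lit 36813470617) (nat_lit 275) (nat_lit 5) (nat_lit 284) (nat_lit 5) (nat_lit 276) (nat_lit 5) (nat_lit 523) (nat_lit 497) (nat_lit 180)) (XT.lf (nat_lit 0) (nat_lit 10835062569) (nat_lit 532) (nat_lit 24206465802) (nat_lit 608) (nat_lit 74211997944) (nat_lit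 268) (nat_lit 5) (nat_lit 275) (nat_lit 5) (nat_lit 276) (nat_lit 5) (nat_lit 524) (nat_lit 497) (nat_lit 179))))) (XT.nd (nat_lit 312) (nat_lit 988) (nat_lit 0) (XT.nd (nat_lit 156) (nat_lit 456) (nat_lit 0) (XT.nd (nat_lit 78) (nat_lit 532) (nat_lit 0) (XT.lf (nat_lit 0) (nat_lit 49817418545) (nat_lit 608) (nat_lit 37619783237) (nat_lit 76) (nat_lit 23654917727) (nat_lit 268) (nat_lit 5) (nat_lit 276) (nat_lit 5) (nat_lit 269) (nat_lit 5) (nat_lit 525) (nat_lit 497) (nat_lit 178)) (XT.lf (nat_lit 0) (nat_lit 25255741357) (nat_lit 532) (nat_lit 40263034250) (nat_lit 608) (nat_lit 47452629198) (nat_lit 261) (nat_lit 5) (nat_lit 268) (nat_lit 5) (nat_lit 269) (nat_lit 5) (nat_lit 526) (nat_lit 497) (nat_lit 177))) (XT.nd (nat_lit 78) (nat_lit 456) (nat_lit 0) (XT.lf (nat_lit 0) (nat_lit 82154611681) (nat_lit 608) (nat_lit 24191054241) (nat_lit 76) (nat_lit 8547499597) (nat_lit 261) (nat_lit 5) (nat_lit 269) (nat_lit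 5) (nat_lit 262) (nat_lit 5) (nat_lit 527) (nat_lit 497) (nat_lit 176)) (XT.lf (nat_lit 0) (nat_lit 41653177888) (nat_lit 456) (nat_lit 58435144830) (nat_lit 532) (nat_lit 16760292348) (nat_lit 255) (nat_lit 5) (nat_lit 261) (nat_lit 5) (nat_lit 262) (nat_lit 5) (nat_lit 528) (nat_lit 497) (nat_lit 175)))) (XT.nd (nat_lit 156) (nat_lit 456) (nat_lit 0) (XT.nd (nat_lit 78) (nat_lit 532) (nat_lit 0) (XT.lf (nat_lit 0) (nat_lit 109968357592) (nat_lit 456) (nat_lit 8835734229) (nat_lit 532) (nat_lit 51314887) (nat_lit 255) (nat_lit 5) (nat_lit 261) (nat_lit 5) (nat_lit 262) (nat_lit 5) (nat_lit 529) (nat_lit 497) (nat_lit 174)) (XT.lf (nat_lit 0) (nat_lit 17818237869) (nat_lit 532) (nat_lit 60889089337) (nat_lit 76) (nat_lit 42180302480) (nat_lit 248) (nat_lit 5) (nat_lit 255) (nat_lit 5) (nat_lit 249) (nat_lit 5) (nat_lit 530) (nat_lit 497) (nat_lit 173))) (XT.nd (nat_lit 78) (nat_lit 0) (nat_lit 0) (XT.lf (nat_lit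 0) (nat_lit 8226115467) (nat_lit 456) (nat_lit 28253690528) (nat_lit 532) (nat_lit 86493289320) (nat_lit 242) (nat_lit 5) (nat_lit 248) (nat_lit 5) (nat_lit 249) (nat_lit 5) (nat_lit 531) (nat_lit 497) (nat_lit 172)) (XT.lf (nat_lit 0) (nat_lit 56549894962) (nat_lit 532) (nat_lit 44674049300) (nat_lit 76) (nat_lit 23871720445) (nat_lit 242) (nat_lit 5) (nat_lit 249) (nat_lit 5) (nat_lit 243) (nat_lit 5) (nat_lit 532) (nat_lit 497) (nat_lit 171))))))) (XT.nd (nat_lit 1170) (nat_lit 4180) (nat_lit 0) (XT.nd (nat_lit 546) (nat_lit 836) (nat_lit 0) (XT.nd (nat_lit 234) (nat_lit 0) (nat_lit 76) (XT.nd (nat_lit 78) (nat_lit 0) (nat_lit 0) (XT.lf (nat_lit 0) (nat_lit 21458835802) (nat_lit 1292) (nat_lit 7657517160) (nat_lit 1292) (nat_lit 7657517160) (nat_lit 327) (nat_lit 3) (nat_lit 344) (nat_lit 3) (nat_lit 344) (nat_lit 5) (nat_lit 498) (nat_lit 498) (nat_lit 204)) (XT.nd (nat_lit 78) (nat_lit 0) (nat_lit 76) (XT.lf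 (nat_lit 76) (nat_lit 21735118435) (nat_lit 0) (nat_lit 22047297187) (nat_lit 1292) (nat_lit 30861910801) (nat_lit 328) (nat_lit 5) (nat_lit 327) (nat_lit 3) (nat_lit 344) (nat_lit 5) (nat_lit 499) (nat_lit 498) (nat_lit 203)) (XT.lf (nat_lit 0) (nat_lit 44975153857) (nat_lit 1216) (nat_lit 15706585487) (nat_lit 1292) (nat_lit 15083009309) (nat_lit 328) (nat_lit 5) (nat_lit 344) (nat_lit 5) (nat_lit 345) (nat_lit 5) (nat_lit 500) (nat_lit 498) (nat_lit 202)))) (XT.nd (nat_lit 156) (nat_lit 0) (nat_lit 76) (XT.nd (nat_lit 78) (nat_lit 0) (nat_lit 76) (XT.lf (nat_lit 76) (nat_lit 22839245895) (nat_lit 0) (nat_lit 23801806525) (nat_lit 1292) (nat_lit 30264609805) (nat_lit 329) (nat_lit 5) (nat_lit 328) (nat_lit 5) (nat_lit 345) (nat_lit 5) (nat_lit 501) (nat_lit 498) (nat_lit 201)) (XT.lf (nat_lit 0) (nat_lit 48653010363) (nat_lit 1216) (nat_lit 15350812303) (nat_lit 1292) (nat_lit 14068098086) (nat_lit 329) (nat_lit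 5) (nat_lit 345) (nat_lit 5) (nat_lit 346) (nat_lit 5) (nat_lit 502) (nat_lit 498) (nat_lit 200))) (XT.nd (nat_lit 78) (nat_lit 0) (nat_lit 76) (XT.lf (nat_lit 76) (nat_lit 24773763148) (nat_lit 0) (nat_lit 26424934871) (nat_lit 1292) (nat_lit 28060267906) (nat_lit 330) (nat_lit 5) (nat_lit 329) (nat_lit 5) (nat_lit 346) (nat_lit 5) (nat_lit 503) (nat_lit 498) (nat_lit 199)) (XT.lf (nat_lit 0) (nat_lit 54094940350) (nat_lit 1216) (nat_lit 14180082191) (nat_lit 1292) (nat_lit 12198374411) (nat_lit 330) (nat_lit 5) (nat_lit 346) (nat_lit 5) (nat_lit 347) (nat_lit 5) (nat_lit 504) (nat_lit 498) (nat_lit 198))))) (XT.nd (nat_lit 312) (nat_lit 1064) (nat_lit 0) (XT.nd (nat_lit 156) (nat_lit 0) (nat_lit 76) (XT.nd (nat_lit 78) (nat_lit 0) (nat_lit 76) (XT.lf (nat_lit 76) (nat_lit 27611086414) (nat_lit 0) (nat_lit 29993624022) (nat_lit 1292) (nat_lit 24103751276) (nat_lit 331) (nat_lit 5) (nat_lit 330) (nat_lit 5) (nat_lit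 347) (nat_lit 5) (nat_lit 505) (nat_lit 498) (nat_lit 197)) (XT.lf (nat_lit 0) (nat_lit 61454692537) (nat_lit 1216) (nat_lit 12122014240) (nat_lit 1292) (nat_lit 9396824091) (nat_lit 331) (nat_lit 5) (nat_lit 347) (nat_lit 5) (nat_lit 348) (nat_lit 5) (nat_lit 506) (nat_lit 498) (nat_lit 196))) (XT.nd (nat_lit 78) (nat_lit 0) (nat_lit 76) (XT.lf (nat_lit 76) (nat_lit 31428660456) (nat_lit 0) (nat_lit 34590206746) (nat_lit 1292) (nat_lit 18239724120) (nat_lit 332) (nat_lit 5) (nat_lit 331) (nat_lit 5) (nat_lit 348) (nat_lit 5) (nat_lit 507) (nat_lit 498) (nat_lit 195)) (XT.lf (nat_lit 0) (nat_lit 70896715136) (nat_lit 1216) (nat_lit 9099177974) (nat_lit 1292) (nat_lit 5581008057) (nat_lit 332) (nat_lit 5) (nat_lit 348) (nat_lit 5) (nat_lit 349) (nat_lit 5) (nat_lit 508) (nat_lit 498) (nat_lit 194)))) (XT.nd (nat_lit 156) (nat_lit 1216) (nat_lit 0) (XT.nd (nat_lit 78) (nat_lit 0) (nat_lit 76) (XT.lf (nat_lit 76) (nat_lit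 36309276280) (nat_lit 0) (nat_lit 40302762190) (nat_lit 1292) (nat_lit 10301987653) (nat_lit 333) (nat_lit 5) (nat_lit 332) (nat_lit 5) (nat_lit 349) (nat_lit 5) (nat_lit 509) (nat_lit 498) (nat_lit 193)) (XT.lf (nat_lit 0) (nat_lit 82596846208) (nat_lit 1216) (nat_lit 5028773784) (nat_lit 1292) (nat_lit 662704113) (nat_lit 333) (nat_lit 5) (nat_lit 349) (nat_lit 5) (nat_lit 350) (nat_lit 5) (nat_lit 510) (nat_lit 498) (nat_lit 192))) (XT.nd (nat_lit 78) (nat_lit 1292) (nat_lit 0) (XT.lf (nat_lit 76) (nat_lit 42341408146) (nat_lit 0) (nat_lit 47225493763) (nat_lit 1292) (nat_lit 112778021) (nat_lit 334) (nat_lit 5) (nat_lit 333) (nat_lit 5) (nat_lit 350) (nat_lit 5) (nat_lit 511) (nat_lit 498) (nat_lit 191)) (XT.lf (nat_lit 76) (nat_lit 70985606) (nat_lit 0) (nat_lit 5503996590) (nat_lit 1368) (nat_lit 85534620981) (nat_lit 317) (nat_lit 5) (nat_lit 316) (nat_lit 5) (nat_lit 334) (nat_lit 5) (nat_lit 512) (nat_lit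 498) (nat_lit 190)))))) (XT.nd (nat_lit 624) (nat_lit 2280) (nat_lit 0) (XT.nd (nat_lit 312) (nat_lit 1216) (nat_lit 0) (XT.nd (nat_lit 156) (nat_lit 760) (nat_lit 0) (XT.nd (nat_lit 78) (nat_lit 0) (nat_lit 0) (XT.lf (nat_lit 0) (nat_lit 12273708493) (nat_lit 1292) (nat_lit 43061482039) (nat_lit 1368) (nat_lit 37221922106) (nat_lit 317) (nat_lit 5) (nat_lit 334) (nat_lit 5) (nat_lit 335) (nat_lit 5) (nat_lit 513) (nat_lit 498) (nat_lit 189)) (XT.lf (nat_lit 76) (nat_lit 6425585423) (nat_lit 0) (nat_lit 12863749544) (nat_lit 1368) (nat_lit 74755234278) (nat_lit 318) (nat_lit 5) (nat_lit 317) (nat_lit 5) (nat_lit 335) (nat_lit 5) (nat_lit 514) (nat_lit 498) (nat_lit 188))) (XT.nd (nat_lit 78) (nat_lit 836) (nat_lit 0) (XT.lf (nat_lit 0) (nat_lit 27251111139) (nat_lit 1292) (nat_lit 37585062481) (nat_lit 76) (nat_lit 30718405517) (nat_lit 318) (nat_lit 5) (nat_lit 335) (nat_lit 5) (nat_lit 319) (nat_lit 5) (nat_lit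 515) (nat_lit 498) (nat_lit 187)) (XT.lf (nat_lit 0) (nat_lit 14097329798) (nat_lit 836) (nat_lit 21616979985) (nat_lit 912) (nat_lit 61387702479) (nat_lit 307) (nat_lit 5) (nat_lit 318) (nat_lit 5) (nat_lit 319) (nat_lit 5) (nat_lit 516) (nat_lit 498) (nat_lit 186)))) (XT.nd (nat_lit 156) (nat_lit 608) (nat_lit 0) (XT.nd (nat_lit 78) (nat_lit 608) (nat_lit 0) (XT.lf (nat_lit 0) (nat_lit 45034514583) (nat_lit 912) (nat_lit 30807985665) (nat_lit 76) (nat_lit 22835274841) (nat_lit 307) (nat_lit 5) (nat_lit 319) (nat_lit 5) (nat_lit 308) (nat_lit 5) (nat_lit 517) (nat_lit 498) (nat_lit 185)) (XT.lf (nat_lit 0) (nat_lit 23192888276) (nat_lit 608) (nat_lit 31878119539) (nat_lit 684) (nat_lit 45216702529) (nat_lit 299) (nat_lit 5) (nat_lit 307) (nat_lit 5) (nat_lit 308) (nat_lit 5) (nat_lit 518) (nat_lit 498) (nat_lit 184))) (XT.nd (nat_lit 78) (nat_lit 608) (nat_lit 0) (XT.lf (nat_lit 0) (nat_lit 65851349832) (nat_lit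 684) (nat_lit 22623504953) (nat_lit 76) (nat_lit 13457806263) (nat_lit 299) (nat_lit 5) (nat_lit 308) (nat_lit 5) (nat_lit 300) (nat_lit 5) (nat_lit 519) (nat_lit 498) (nat_lit 183)) (XT.lf (nat_lit 0) (nat_lit 33826127249) (nat_lit 608) (nat_lit 43769480174) (nat_lit 684) (nat_lit 26012137705) (nat_lit 291) (nat_lit 5) (nat_lit 299) (nat_lit 5) (nat_lit 300) (nat_lit 5) (nat_lit 520) (nat_lit 498) (nat_lit 182))))) (XT.nd (nat_lit 312) (nat_lit 1064) (nat_lit 0) (XT.nd (nat_lit 156) (nat_lit 684) (nat_lit 0) (XT.nd (nat_lit 78) (nat_lit 532) (nat_lit 0) (XT.lf (nat_lit 0) (nat_lit 89944524643) (nat_lit 684) (nat_lit 12917645039) (nat_lit 76) (nat_lit 2463342101) (nat_lit 291) (nat_lit 5) (nat_lit 300) (nat_lit 5) (nat_lit 292) (nat_lit 5) (nat_lit 521) (nat_lit 498) (nat_lit 181)) (XT.lf (nat_lit 0) (nat_lit 46118558352) (nat_lit 532) (nat_lit 57421768418) (nat_lit 608) (nat_lit 3528192156) (nat_lit 284) (nat_lit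 5) (nat_lit 291) (nat_lit 5) (nat_lit 292) (nat_lit 5) (nat_lit 522) (nat_lit 498) (nat_lit 180))) (XT.nd (nat_lit 78) (nat_lit 608) (nat_lit 0) (XT.lf (nat_lit 0) (nat_lit 8642278345) (nat_lit 608) (nat_lit 1754256092) (nat_lit 76) (nat_lit 98460834479) (nat_lit 283) (nat_lit 5) (nat_lit 291) (nat_lit 5) (nat_lit 284) (nat_lit 5) (nat_lit 523) (nat_lit 498) (nat_lit 179)) (XT.lf (nat_lit 0) (nat_lit 22058662328) (nat_lit 684) (nat_lit 50693220681) (nat_lit 76) (nat_lit 37918402053) (nat_lit 275) (nat_lit 5) (nat_lit 284) (nat_lit 5) (nat_lit 276) (nat_lit 5) (nat_lit 524) (nat_lit 498) (nat_lit 178)))) (XT.nd (nat_lit 156) (nat_lit 532) (nat_lit 0) (XT.nd (nat_lit 78) (nat_lit 0) (nat_lit 0) (XT.lf (nat_lit 0) (nat_lit 11173893085) (nat_lit 532) (nat_lit 24931632337) (nat_lit 608) (nat_lit 76425223651) (nat_lit 268) (nat_lit 5) (nat_lit 275) (nat_lit 5) (nat_lit 276) (nat_lit 5) (nat_lit 525) (nat_lit 498) (nat_lit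 177)) (XT.lf (nat_lit 0) (nat_lit 51324330495) (nat_lit 608) (nat_lit 38734637129) (nat_lit 76) (nat_lit 24365543307) (nat_lit 268) (nat_lit 5) (nat_lit 276) (nat_lit 5) (nat_lit 269) (nat_lit 5) (nat_lit 526) (nat_lit 498) (nat_lit 176))) (XT.nd (nat_lit 78) (nat_lit 0) (nat_lit 0) (XT.lf (nat_lit 0) (nat_lit 26027018501) (nat_lit 532) (nat_lit 41469479691) (nat_lit 608) (nat_lit 48863683510) (nat_lit 261) (nat_lit 5) (nat_lit 268) (nat_lit 5) (nat_lit 269) (nat_lit 5) (nat_lit 527) (nat_lit 498) (nat_lit 175)) (XT.lf (nat_lit 0) (nat_lit 84631068684) (nat_lit 608) (nat_lit 24903236106) (nat_lit 76) (nat_lit 8805300680) (nat_lit 261) (nat_lit 5) (nat_lit 269) (nat_lit 5) (nat_lit 262) (nat_lit 5) (nat_lit 528) (nat_lit 498) (nat_lit 174))))))))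
noncomputable def xc249 : XT := (XT.nd (nat_lit 62322) (nat_lit 0) (nat_lit 532) (XT.nd (nat_lit 61074) (nat_lit 0) (nat_lit 1520) (XT.nd (nat_lit 60450) (nat_lit 0) (nat_lit 6156) (XT.nd (nat_lit 60138) (nat_lit 0) (nat_lit 6004) (XT.nd (nat_lit 78) (nat_lit 532) (nat_lit 0) (XT.lf (nat_lit 0) (nat_lit 42916190145) (nat_lit 456) (nat_lit 60186385646) (nat_lit 532) (nat_lit 17251149185) (nat_lit 255) (nat_lit 5) (nat_lit 261) (nat_lit 5) (nat_lit 262) (nat_lit 5) (nat_lit 529) (nat_lit 498) (nat_lit 173)) (XT.nd (nat_lit 78) (nat_lit 532) (nat_lit 0) (XT.lf (nat_lit 0) (nat_lit 113280434456) (nat_lit 456) (nat_lit 9099045548) (nat_lit 532) (nat_lit 41250514) (nat_lit 255) (nat_lit 5) (nat_lit 261) (nat_lit 5) (nat_lit 262) (nat_lit 5) (nat_lit 530) (nat_lit 498) (nat_lit 172)) (XT.lf (nat_lit 0) (nat_lit 18363975912) (nat_lit 532) (nat_lit 62702322149) (nat_lit 76) (nat_lit 43447624385) (nat_lit 248) (nat_lit 5)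 (nat_lit 255) (nat_lit 5) (nat_lit 249) (nat_lit 5) (nat_lit 531) (nat_lit 498) (nat_lit 171)))) (XT.nd (nat_lit 156) (nat_lit 0) (nat_lit 76) (XT.nd (nat_lit 78) (nat_lit 0) (nat_lit 0) (XT.lf (nat_lit 0) (nat_lit 22114532755) (nat_lit 1292) (nat_lit 7881097481) (nat_lit 1292) (nat_lit 7881097481) (nat_lit 327) (nat_lit 3) (nat_lit 344) (nat_lit 3) (nat_lit 344) (nat_lit 5) (nat_lit 499) (nat_lit 499) (nat_lit 202)) (XT.lf (nat_lit 76) (nat_lit 22399341881) (nat_lit 0) (nat_lit 22719831892) (nat_lit 1292) (nat_lit 31763782803) (nat_lit 328) (nat_lit 5) (nat_lit 327) (nat_lit 3) (nat_lit 344) (nat_lit 5) (nat_lit 500) (nat_lit 499) (nat_lit 201))) (XT.nd (nat_lit 78) (nat_lit 0) (nat_lit 0) (XT.lf (nat_lit 0) (nat_lit 46346912191) (nat_lit 1216) (nat_lit 16165184620) (nat_lit 1292) (nat_lit 15524918150) (nat_lit 328) (nat_lit 5) (nat_lit 344) (nat_lit 5) (nat_lit 345) (nat_lit 5) (nat_lit 501) (nat_lit 499) (nat_lit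 200)) (XT.lf (nat_lit 76) (nat_lit 23536898189) (nat_lit 0) (nat_lit 24525353991) (nat_lit 1292) (nat_lit 31149919858) (nat_lit 329) (nat_lit 5) (nat_lit 328) (nat_lit 5) (nat_lit 345) (nat_lit 5) (nat_lit 502) (nat_lit 499) (nat_lit 199))))) (XT.nd (nat_lit 312) (nat_lit 0) (nat_lit 152) (XT.nd (nat_lit 156) (nat_lit 0) (nat_lit 76) (XT.nd (nat_lit 78) (nat_lit 0) (nat_lit 0) (XT.lf (nat_lit 0) (nat_lit 50133840414) (nat_lit 1216) (nat_lit 15798495676) (nat_lit 1292) (nat_lit 14481104114) (nat_lit 329) (nat_lit 5) (nat_lit 345) (nat_lit 5) (nat_lit 346) (nat_lit 5) (nat_lit 503) (nat_lit 499) (nat_lit 198)) (XT.lf (nat_lit 76) (nat_lit 25529691146) (nat_lit 0) (nat_lit 27225711146) (nat_lit 1292) (nat_lit 28880709360) (nat_lit 330) (nat_lit 5) (nat_lit 329) (nat_lit 5) (nat_lit 346) (nat_lit 5) (nat_lit 504) (nat_lit 499) (nat_lit 197))) (XT.nd (nat_lit 78) (nat_lit 0) (nat_lit 0) (XT.lf (nat_lit 0) (nat_lit 55737852793)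 (nat_lit 1216) (nat_lit 14592459874) (nat_lit 1292) (nat_lit 12556683343) (nat_lit 330) (nat_lit 5) (nat_lit 346) (nat_lit 5) (nat_lit 347) (nat_lit 5) (nat_lit 505) (nat_lit 499) (nat_lit 196)) (XT.lf (nat_lit 76) (nat_lit 28452316095) (nat_lit 0) (nat_lit 30900139467) (nat_lit 1292) (nat_lit 24806670992) (nat_lit 331) (nat_lit 5) (nat_lit 330) (nat_lit 5) (nat_lit 347) (nat_lit 5) (nat_lit 506) (nat_lit 499) (nat_lit 195)))) (XT.nd (nat_lit 156) (nat_lit 0) (nat_lit 76) (XT.nd (nat_lit 78) (nat_lit 0) (nat_lit 0) (XT.lf (nat_lit 0) (nat_lit 63317303550) (nat_lit 1216) (nat_lit 12472518776) (nat_lit 1292) (nat_lit 9672344492) (nat_lit 331) (nat_lit 5) (nat_lit 347) (nat_lit 5) (nat_lit 348) (nat_lit 5) (nat_lit 507) (nat_lit 499) (nat_lit 194)) (XT.lf (nat_lit 76) (nat_lit 32384547181) (nat_lit 0) (nat_lit 35633428965) (nat_lit 1292) (nat_lit 18767815784) (nat_lit 332) (nat_lit 5) (nat_lit 331) (nat_lit 5) (nat_lit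 348) (nat_lit 5) (nat_lit 508) (nat_lit 499) (nat_lit 193))) (XT.nd (nat_lit 78) (nat_lit 0) (nat_lit 0) (XT.lf (nat_lit 0) (nat_lit 73041567954) (nat_lit 1216) (nat_lit 9358913442) (nat_lit 1292) (nat_lit 5743187445) (nat_lit 332) (nat_lit 5) (nat_lit 348) (nat_lit 5) (nat_lit 349) (nat_lit 5) (nat_lit 509) (nat_lit 499) (nat_lit 192)) (XT.lf (nat_lit 76) (nat_lit 37411664637) (nat_lit 0) (nat_lit 41516289519) (nat_lit 1292) (nat_lit 10592965321) (nat_lit 333) (nat_lit 5) (nat_lit 332) (nat_lit 5) (nat_lit 349) (nat_lit 5) (nat_lit 510) (nat_lit 499) (nat_lit 191)))))) (XT.nd (nat_lit 624) (nat_lit 2964) (nat_lit 0) (XT.nd (nat_lit 312) (nat_lit 684) (nat_lit 0) (XT.nd (nat_lit 156) (nat_lit 1292) (nat_lit 0) (XT.nd (nat_lit 78) (nat_lit 0) (nat_lit 0) (XT.lf (nat_lit 0) (nat_lit 85091753349) (nat_lit 1216) (nat_lit 5166355228) (nat_lit 1292) (nat_lit 678354425) (nat_lit 333) (nat_lit 5) (nat_lit 349) (nat_lit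 5) (nat_lit 350) (nat_lit 5) (nat_lit 511) (nat_lit 499) (nat_lit 190)) (XT.lf (nat_lit 76) (nat_lit 43624801946) (nat_lit 0) (nat_lit 48645739999) (nat_lit 1292) (nat_lit 99028643) (nat_lit 334) (nat_lit 5) (nat_lit 333) (nat_lit 5) (nat_lit 350) (nat_lit 5) (nat_lit 512) (nat_lit 499) (nat_lit 189))) (XT.nd (nat_lit 78) (nat_lit 0) (nat_lit 76) (XT.lf (nat_lit 76) (nat_lit 86469558) (nat_lit 0) (nat_lit 5672199598) (nat_lit 1368) (nat_lit 88083728285) (nat_lit 317) (nat_lit 5) (nat_lit 316) (nat_lit 5) (nat_lit 334) (nat_lit 5) (nat_lit 513) (nat_lit 499) (nat_lit 188)) (XT.lf (nat_lit 0) (nat_lit 12657849706) (nat_lit 1292) (nat_lit 44339852857) (nat_lit 1368) (nat_lit 38335644868) (nat_lit 317) (nat_lit 5) (nat_lit 334) (nat_lit 5) (nat_lit 335) (nat_lit 5) (nat_lit 514) (nat_lit 499) (nat_lit 187)))) (XT.nd (nat_lit 156) (nat_lit 760) (nat_lit 0) (XT.nd (nat_lit 78) (nat_lit 0) (nat_lit 76) (XT.lf (nat_lit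 76) (nat_lit 6631694534) (nat_lit 0) (nat_lit 13251914709) (nat_lit 1368) (nat_lit 76981828586) (nat_lit 318) (nat_lit 5) (nat_lit 317) (nat_lit 5) (nat_lit 335) (nat_lit 5) (nat_lit 515) (nat_lit 499) (nat_lit 186)) (XT.lf (nat_lit 0) (nat_lit 28083763475) (nat_lit 1292) (nat_lit 38699185524) (nat_lit 76) (nat_lit 31637813294) (nat_lit 318) (nat_lit 5) (nat_lit 335) (nat_lit 5) (nat_lit 319) (nat_lit 5) (nat_lit 516) (nat_lit 499) (nat_lit 185))) (XT.nd (nat_lit 78) (nat_lit 0) (nat_lit 0) (XT.lf (nat_lit 0) (nat_lit 14533546868) (nat_lit 836) (nat_lit 22266998673) (nat_lit 912) (nat_lit 63214082268) (nat_lit 307) (nat_lit 5) (nat_lit 318) (nat_lit 5) (nat_lit 319) (nat_lit 5) (nat_lit 517) (nat_lit 499) (nat_lit 184)) (XT.lf (nat_lit 0) (nat_lit 46399911142) (nat_lit 912) (nat_lit 31718869404) (nat_lit 76) (nat_lit 23518896352) (nat_lit 307) (nat_lit 5) (nat_lit 319) (nat_lit 5) (nat_lit 308) (nat_lit 5) (nat_lit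 518) (nat_lit 499) (nat_lit 183))))) (XT.nd (nat_lit 312) (nat_lit 1748) (nat_lit 0) (XT.nd (nat_lit 156) (nat_lit 608) (nat_lit 0) (XT.nd (nat_lit 78) (nat_lit 0) (nat_lit 0) (XT.lf (nat_lit 0) (nat_lit 23901899816) (nat_lit 608) (nat_lit 32835308196) (nat_lit 684) (nat_lit 46558710951) (nat_lit 299) (nat_lit 5) (nat_lit 307) (nat_lit 5) (nat_lit 308) (nat_lit 5) (nat_lit 519) (nat_lit 499) (nat_lit 182)) (XT.lf (nat_lit 0) (nat_lit 67840542598) (nat_lit 684) (nat_lit 23288952135) (nat_lit 76) (nat_lit 13860736004) (nat_lit 299) (nat_lit 5) (nat_lit 308) (nat_lit 5) (nat_lit 300) (nat_lit 5) (nat_lit 520) (nat_lit 499) (nat_lit 181))) (XT.nd (nat_lit 78) (nat_lit 0) (nat_lit 0) (XT.lf (nat_lit 0) (nat_lit 34854039053) (nat_lit 608) (nat_lit 45082817419) (nat_lit 684) (nat_lit 26778719027) (nat_lit 291) (nat_lit 5) (nat_lit 299) (nat_lit 5) (nat_lit 300) (nat_lit 5) (nat_lit 521) (nat_lit 499) (nat_lit 180)) (XT.lf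 (nat_lit 0) (nat_lit 92655849116) (nat_lit 684) (nat_lit 13292036138) (nat_lit 76) (nat_lit 2537001678) (nat_lit 291) (nat_lit 5) (nat_lit 300) (nat_lit 5) (nat_lit 292) (nat_lit 5) (nat_lit 522) (nat_lit 499) (nat_lit 179)))) (XT.nd (nat_lit 156) (nat_lit 1140) (nat_lit 0) (XT.nd (nat_lit 78) (nat_lit 76) (nat_lit 0) (XT.lf (nat_lit 0) (nat_lit 47515124548) (nat_lit 532) (nat_lit 59144147500) (nat_lit 608) (nat_lit 3620919855) (nat_lit 284) (nat_lit 5) (nat_lit 291) (nat_lit 5) (nat_lit 292) (nat_lit 5) (nat_lit 523) (nat_lit 499) (nat_lit 178)) (XT.lf (nat_lit 0) (nat_lit 8914034156) (nat_lit 608) (nat_lit 1794004224) (nat_lit 76) (nat_lit 101414676483) (nat_lit 283) (nat_lit 5) (nat_lit 291) (nat_lit 5) (nat_lit 284) (nat_lit 5) (nat_lit 524) (nat_lit 499) (nat_lit 177))) (XT.nd (nat_lit 78) (nat_lit 532) (nat_lit 0) (XT.lf (nat_lit 0) (nat_lit 22732673412) (nat_lit 684) (nat_lit 52200901022) (nat_lit 76) (nat_lit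 39056451161) (nat_lit 275) (nat_lit 5) (nat_lit 284) (nat_lit 5) (nat_lit 276) (nat_lit 5) (nat_lit 525) (nat_lit 499) (nat_lit 176)) (XT.lf (nat_lit 0) (nat_lit 11522097565) (nat_lit 532) (nat_lit 25678612847) (nat_lit 608) (nat_lit 78705600088) (nat_lit 268) (nat_lit 5) (nat_lit 275) (nat_lit 5) (nat_lit 276) (nat_lit 5) (nat_lit 526) (nat_lit 499) (nat_lit 175))))))) (XT.nd (nat_lit 61230) (nat_lit 0) (nat_lit 1520) (XT.nd (nat_lit 60606) (nat_lit 0) (nat_lit 5548) (XT.nd (nat_lit 312) (nat_lit 0) (nat_lit 0) (XT.nd (nat_lit 156) (nat_lit 456) (nat_lit 0) (XT.nd (nat_lit 78) (nat_lit 532) (nat_lit 0) (XT.lf (nat_lit 0) (nat_lit 52875738602) (nat_lit 608) (nat_lit 39883725347) (nat_lit 76) (nat_lit 25097431511) (nat_lit 268) (nat_lit 5) (nat_lit 276) (nat_lit 5) (nat_lit 269) (nat_lit 5) (nat_lit 527) (nat_lit 499) (nat_lit 174)) (XT.lf (nat_lit 0) (nat_lit 26820652982) (nat_lit 532) (nat_lit 42712201477) (nat_lit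 608) (nat_lit 50317788413) (nat_lit 261) (nat_lit 5) (nat_lit 268) (nat_lit 5) (nat_lit 269) (nat_lit 5) (nat_lit 528) (nat_lit 499) (nat_lit 173))) (XT.nd (nat_lit 78) (nat_lit 456) (nat_lit 0) (XT.lf (nat_lit 0) (nat_lit 87181140958) (nat_lit 608) (nat_lit 25637561239) (nat_lit 76) (nat_lit 9070756803) (nat_lit 261) (nat_lit 5) (nat_lit 269) (nat_lit 5) (nat_lit 262) (nat_lit 5) (nat_lit 529) (nat_lit 499) (nat_lit 172)) (XT.lf (nat_lit 0) (nat_lit 44216322584) (nat_lit 456) (nat_lit 61990267790) (nat_lit 532) (nat_lit 17757417816) (nat_lit 255) (nat_lit 5) (nat_lit 261) (nat_lit 5) (nat_lit 262) (nat_lit 5) (nat_lit 530) (nat_lit 499) (nat_lit 171)))) (XT.nd (nat_lit 60138) (nat_lit 0) (nat_lit 5472) (XT.nd (nat_lit 60060) (nat_lit 0) (nat_lit 5472) (XT.lf (nat_lit 0) (nat_lit 116691125873) (nat_lit 456) (nat_lit 9370357279) (nat_lit 532) (nat_lit 31550317) (nat_lit 255) (nat_lit 5) (nat_lit 261) (nat_lit 5)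 (nat_lit 262) (nat_lit 5) (nat_lit 531) (nat_lit 499) (nat_lit 170)) (XT.lf (nat_lit 0) (nat_lit 22789215679) (nat_lit 1292) (nat_lit 8111737972) (nat_lit 1292) (nat_lit 8111737972) (nat_lit 327) (nat_lit 3) (nat_lit 344) (nat_lit 3) (nat_lit 344) (nat_lit 5) (nat_lit 500) (nat_lit 500) (nat_lit 200))) (XT.nd (nat_lit 78) (nat_lit 0) (nat_lit 76) (XT.lf (nat_lit 76) (nat_lit 23082793428) (nat_lit 0) (nat_lit 23411904547) (nat_lit 1292) (nat_lit 32694087820) (nat_lit 328) (nat_lit 5) (nat_lit 327) (nat_lit 3) (nat_lit 344) (nat_lit 5) (nat_lit 501) (nat_lit 500) (nat_lit 199)) (XT.lf (nat_lit 0) (nat_lit 47758531471) (nat_lit 1216) (nat_lit 16638264929) (nat_lit 1292) (nat_lit 15980691675) (nat_lit 328) (nat_lit 5) (nat_lit 344) (nat_lit 5) (nat_lit 345) (nat_lit 5) (nat_lit 502) (nat_lit 500) (nat_lit 198))))) (XT.nd (nat_lit 312) (nat_lit 0) (nat_lit 152) (XT.nd (nat_lit 156) (nat_lit 0) (nat_lit 76) (XT.nd (nat_lit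 78) (nat_lit 0) (nat_lit 76) (XT.lf (nat_lit 76) (nat_lit 24254763940) (nat_lit 0) (nat_lit 25270062929) (nat_lit 1292) (nat_lit 32063088166) (nat_lit 329) (nat_lit 5) (nat_lit 328) (nat_lit 5) (nat_lit 345) (nat_lit 5) (nat_lit 503) (nat_lit 500) (nat_lit 197)) (XT.lf (nat_lit 0) (nat_lit 51657876118) (nat_lit 1216) (nat_lit 16260346676) (nat_lit 1292) (nat_lit 14907019078) (nat_lit 329) (nat_lit 5) (nat_lit 345) (nat_lit 5) (nat_lit 346) (nat_lit 5) (nat_lit 504) (nat_lit 500) (nat_lit 196))) (XT.nd (nat_lit 78) (nat_lit 0) (nat_lit 76) (XT.lf (nat_lit 76) (nat_lit 26307567085) (nat_lit 0) (nat_lit 28050049856) (nat_lit 1292) (nat_lit 29726990588) (nat_lit 330) (nat_lit 5) (nat_lit 329) (nat_lit 5) (nat_lit 346) (nat_lit 5) (nat_lit 505) (nat_lit 500) (nat_lit 195)) (XT.lf (nat_lit 0) (nat_lit 57428900841) (nat_lit 1216) (nat_lit 15017956564) (nat_lit 1292) (nat_lit 12926180243) (nat_lit 330) (nat_lit 5) (nat_lit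 346) (nat_lit 5) (nat_lit 347) (nat_lit 5) (nat_lit 506) (nat_lit 500) (nat_lit 194)))) (XT.nd (nat_lit 156) (nat_lit 0) (nat_lit 76) (XT.nd (nat_lit 78) (nat_lit 0) (nat_lit 76) (XT.lf (nat_lit 76) (nat_lit 29318042321) (nat_lit 0) (nat_lit 31833465381) (nat_lit 1292) (nat_lit 25531837450) (nat_lit 331) (nat_lit 5) (nat_lit 330) (nat_lit 5) (nat_lit 347) (nat_lit 5) (nat_lit 507) (nat_lit 500) (nat_lit 193)) (XT.lf (nat_lit 0) (nat_lit 65234703924) (nat_lit 1216) (nat_lit 12834293650) (nat_lit 1292) (nat_lit 9956496990) (nat_lit 331) (nat_lit 5) (nat_lit 347) (nat_lit 5) (nat_lit 348) (nat_lit 5) (nat_lit 508) (nat_lit 500) (nat_lit 192))) (XT.nd (nat_lit 78) (nat_lit 0) (nat_lit 76) (XT.lf (nat_lit 76) (nat_lit 33368362710) (nat_lit 0) (nat_lit 36707631208) (nat_lit 1292) (nat_lit 19312846619) (nat_lit 332) (nat_lit 5) (nat_lit 331) (nat_lit 5) (nat_lit 348) (nat_lit 5) (nat_lit 509) (nat_lit 500) (nat_lit 191))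 (XT.lf (nat_lit 0) (nat_lit 75249735874) (nat_lit 1216) (nat_lit 9627200998) (nat_lit 1292) (nat_lit 5910533636) (nat_lit 332) (nat_lit 5) (nat_lit 348) (nat_lit 5) (nat_lit 349) (nat_lit 5) (nat_lit 510) (nat_lit 500) (nat_lit 190)))))) (XT.nd (nat_lit 624) (nat_lit 2432) (nat_lit 0) (XT.nd (nat_lit 312) (nat_lit 684) (nat_lit 0) (XT.nd (nat_lit 156) (nat_lit 1216) (nat_lit 0) (XT.nd (nat_lit 78) (nat_lit 0) (nat_lit 76) (XT.lf (nat_lit 76) (nat_lit 38546372072) (nat_lit 0) (nat_lit 42765967536) (nat_lit 1292) (nat_lit 10893710297) (nat_lit 333) (nat_lit 5) (nat_lit 332) (nat_lit 5) (nat_lit 349) (nat_lit 5) (nat_lit 511) (nat_lit 500) (nat_lit 189)) (XT.lf (nat_lit 0) (nat_lit 87660531735) (nat_lit 1216) (nat_lit 5308826544) (nat_lit 1292) (nat_lit 694717113) (nat_lit 333) (nat_lit 5) (nat_lit 349) (nat_lit 5) (nat_lit 350) (nat_lit 5) (nat_lit 512) (nat_lit 500) (nat_lit 188))) (XT.nd (nat_lit 78) (nat_lit 1292)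 (nat_lit 0) (XT.lf (nat_lit 76) (nat_lit 44945942608) (nat_lit 0) (nat_lit 50108393774) (nat_lit 1292) (nat_lit 85850272) (nat_lit 334) (nat_lit 5) (nat_lit 333) (nat_lit 5) (nat_lit 350) (nat_lit 5) (nat_lit 513) (nat_lit 500) (nat_lit 187)) (XT.lf (nat_lit 76) (nat_lit 101651432) (nat_lit 0) (nat_lit 5845271713) (nat_lit 1368) (nat_lit 90710280735) (nat_lit 317) (nat_lit 5) (nat_lit 316) (nat_lit 5) (nat_lit 334) (nat_lit 5) (nat_lit 514) (nat_lit 500) (nat_lit 186)))) (XT.nd (nat_lit 156) (nat_lit 760) (nat_lit 0) (XT.nd (nat_lit 78) (nat_lit 0) (nat_lit 0) (XT.lf (nat_lit 0) (nat_lit 13052600711) (nat_lit 1292) (nat_lit 45657348242) (nat_lit 1368) (nat_lit 39482947789) (nat_lit 317) (nat_lit 5) (nat_lit 334) (nat_lit 5) (nat_lit 335) (nat_lit 5) (nat_lit 515) (nat_lit 500) (nat_lit 185)) (XT.lf (nat_lit 76) (nat_lit 6843221059) (nat_lit 0) (nat_lit 13651595515) (nat_lit 1368) (nat_lit 79276142790) (nat_lit 318)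 (nat_lit 5) (nat_lit 317) (nat_lit 5) (nat_lit 335) (nat_lit 5) (nat_lit 516) (nat_lit 500) (nat_lit 184))) (XT.nd (nat_lit 78) (nat_lit 836) (nat_lit 0) (XT.lf (nat_lit 0) (nat_lit 28940527489) (nat_lit 1292) (nat_lit 39847503129) (nat_lit 76) (nat_lit 32584926401) (nat_lit 318) (nat_lit 5) (nat_lit 335) (nat_lit 5) (nat_lit 319) (nat_lit 5) (nat_lit 517) (nat_lit 500) (nat_lit 183)) (XT.lf (nat_lit 0) (nat_lit 14982087137) (nat_lit 836) (nat_lit 22936431282) (nat_lit 912) (nat_lit 65096128936) (nat_lit 307) (nat_lit 5) (nat_lit 318) (nat_lit 5) (nat_lit 319) (nat_lit 5) (nat_lit 518) (nat_lit 500) (nat_lit 182))))) (XT.nd (nat_lit 312) (nat_lit 1216) (nat_lit 0) (XT.nd (nat_lit 156) (nat_lit 608) (nat_lit 0) (XT.nd (nat_lit 78) (nat_lit 608) (nat_lit 0) (XT.lf (nat_lit 0) (nat_lit 47805445211) (nat_lit 912) (nat_lit 32657846335) (nat_lit 76) (nat_lit 24223108982) (nat_lit 307) (nat_lit 5) (nat_lit 319) (nat_lit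 5) (nat_lit 308) (nat_lit 5) (nat_lit 519) (nat_lit 500) (nat_lit 181)) (XT.lf (nat_lit 0) (nat_lit 24631422538) (nat_lit 608) (nat_lit 33821164002) (nat_lit 684) (nat_lit 47941811564) (nat_lit 299) (nat_lit 5) (nat_lit 307) (nat_lit 5) (nat_lit 308) (nat_lit 5) (nat_lit 520) (nat_lit 500) (nat_lit 180))) (XT.nd (nat_lit 78) (nat_lit 608) (nat_lit 0) (XT.lf (nat_lit 0) (nat_lit 69888627450) (nat_lit 684) (nat_lit 23975123795) (nat_lit 76) (nat_lit 14275799815) (nat_lit 299) (nat_lit 5) (nat_lit 308) (nat_lit 5) (nat_lit 300) (nat_lit 5) (nat_lit 521) (nat_lit 500) (nat_lit 179)) (XT.lf (nat_lit 0) (nat_lit 35912034610) (nat_lit 608) (nat_lit 46435540267) (nat_lit 684) (nat_lit 27569088979) (nat_lit 291) (nat_lit 5) (nat_lit 299) (nat_lit 5) (nat_lit 300) (nat_lit 5) (nat_lit 522) (nat_lit 500) (nat_lit 178)))) (XT.nd (nat_lit 156) (nat_lit 684) (nat_lit 0) (XT.nd (nat_lit 78) (nat_lit 532) (nat_lit 0) (XT.lf (nat_lit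 0) (nat_lit 95447767716) (nat_lit 684) (nat_lit 13678413159) (nat_lit 76) (nat_lit 2612884860) (nat_lit 291) (nat_lit 5) (nat_lit 300) (nat_lit 5) (nat_lit 292) (nat_lit 5) (nat_lit 523) (nat_lit 500) (nat_lit 177)) (XT.lf (nat_lit 0) (nat_lit 48952840935) (nat_lit 532) (nat_lit 60918213682) (nat_lit 608) (nat_lit 3717182415) (nat_lit 284) (nat_lit 5) (nat_lit 291) (nat_lit 5) (nat_lit 292) (nat_lit 5) (nat_lit 524) (nat_lit 500) (nat_lit 176))) (XT.nd (nat_lit 78) (nat_lit 608) (nat_lit 0) (XT.lf (nat_lit 0) (nat_lit 9193225811) (nat_lit 608) (nat_lit 1835684139) (nat_lit 76) (nat_lit 104457132773) (nat_lit 283) (nat_lit 5) (nat_lit 291) (nat_lit 5) (nat_lit 284) (nat_lit 5) (nat_lit 525) (nat_lit 500) (nat_lit 175)) (XT.lf (nat_lit 0) (nat_lit 23426201559) (nat_lit 684) (nat_lit 53754564702) (nat_lit 76) (nat_lit 40228613210) (nat_lit 275) (nat_lit 5) (nat_lit 284) (nat_lit 5) (nat_lit 276) (nat_lit 5) (nat_lit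 526) (nat_lit 500) (nat_lit 174))))))))
noncomputable def xc250 : XT := (XT.nd (nat_lit 62478) (nat_lit 0) (nat_lit 456) (XT.nd (nat_lit 61230) (nat_lit 0) (nat_lit 2128) (XT.nd (nat_lit 60606) (nat_lit 0) (nat_lit 5548) (XT.nd (nat_lit 234) (nat_lit 456) (nat_lit 0) (XT.nd (nat_lit 78) (nat_lit 532) (nat_lit 0) (XT.lf (nat_lit 0) (nat_lit 11880002634) (nat_lit 532) (nat_lit 26448058367) (nat_lit 608) (nat_lit 81055098497) (nat_lit 268) (nat_lit 5) (nat_lit 275) (nat_lit 5) (nat_lit 276) (nat_lit 5) (nat_lit 527) (nat_lit 500) (nat_lit 173)) (XT.nd (nat_lit 78) (nat_lit 532) (nat_lit 0) (XT.lf (nat_lit 0) (nat_lit 54473018577) (nat_lit 608) (nat_lit 41068029645) (nat_lit 76) (nat_lit 25851223440) (nat_lit 268) (nat_lit 5) (nat_lit 276) (nat_lit 5) (nat_lit 269) (nat_lit 5) (nat_lit 528) (nat_lit 500) (nat_lit 172)) (XT.lf (nat_lit 0) (nat_lit 27637360352) (nat_lit 532) (nat_lit 43992283136) (nat_lit 608) (nat_lit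 51816194153) (nat_lit 261) (nat_lit 5) (nat_lit 268) (nat_lit 5) (nat_lit 269) (nat_lit 5) (nat_lit 529) (nat_lit 500) (nat_lit 171)))) (XT.nd (nat_lit 60216) (nat_lit 0) (nat_lit 5472) (XT.nd (nat_lit 78) (nat_lit 456) (nat_lit 0) (XT.lf (nat_lit 0) (nat_lit 89807075907) (nat_lit 608) (nat_lit 26394649289) (nat_lit 76) (nat_lit 9344102150) (nat_lit 261) (nat_lit 5) (nat_lit 269) (nat_lit 5) (nat_lit 262) (nat_lit 5) (nat_lit 530) (nat_lit 500) (nat_lit 170)) (XT.lf (nat_lit 0) (nat_lit 45554733022) (nat_lit 456) (nat_lit 63848364527) (nat_lit 532) (nat_lit 18279521212) (nat_lit 255) (nat_lit 5) (nat_lit 261) (nat_lit 5) (nat_lit 262) (nat_lit 5) (nat_lit 531) (nat_lit 500) (nat_lit 169))) (XT.nd (nat_lit 78) (nat_lit 0) (nat_lit 0) (XT.lf (nat_lit 0) (nat_lit 23483493470) (nat_lit 1292) (nat_lit 8349630186) (nat_lit 1292) (nat_lit 8349630186) (nat_lit 327) (nat_lit 3) (nat_lit 344) (nat_lit 3) (nat_lit 344) (nat_lit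 5) (nat_lit 501) (nat_lit 501) (nat_lit 198)) (XT.lf (nat_lit 76) (nat_lit 23786090023) (nat_lit 0) (nat_lit 24124137919) (nat_lit 1292) (nat_lit 33653599807) (nat_lit 328) (nat_lit 5) (nat_lit 327) (nat_lit 3) (nat_lit 344) (nat_lit 5) (nat_lit 502) (nat_lit 501) (nat_lit 197))))) (XT.nd (nat_lit 312) (nat_lit 0) (nat_lit 152) (XT.nd (nat_lit 156) (nat_lit 0) (nat_lit 76) (XT.nd (nat_lit 78) (nat_lit 0) (nat_lit 0) (XT.lf (nat_lit 0) (nat_lit 49211281678) (nat_lit 1216) (nat_lit 17126219334) (nat_lit 1292) (nat_lit 16450710955) (nat_lit 328) (nat_lit 5) (nat_lit 344) (nat_lit 5) (nat_lit 345) (nat_lit 5) (nat_lit 503) (nat_lit 501) (nat_lit 196)) (XT.lf (nat_lit 76) (nat_lit 24993490661) (nat_lit 0) (nat_lit 26036599464) (nat_lit 1292) (nat_lit 33004875912) (nat_lit 329) (nat_lit 5) (nat_lit 328) (nat_lit 5) (nat_lit 345) (nat_lit 5) (nat_lit 504) (nat_lit 501) (nat_lit 195))) (XT.nd (nat_lit 78) (nat_lit 0) (nat_lit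 0) (XT.lf (nat_lit 0) (nat_lit 53226483636) (nat_lit 1216) (nat_lit 16736748018) (nat_lit 1292) (nat_lit 15346200468) (nat_lit 329) (nat_lit 5) (nat_lit 345) (nat_lit 5) (nat_lit 346) (nat_lit 5) (nat_lit 505) (nat_lit 501) (nat_lit 194)) (XT.lf (nat_lit 76) (nat_lit 27108091303) (nat_lit 0) (nat_lit 28898684328) (nat_lit 1292) (nat_lit 30599816374) (nat_lit 330) (nat_lit 5) (nat_lit 329) (nat_lit 5) (nat_lit 346) (nat_lit 5) (nat_lit 506) (nat_lit 501) (nat_lit 193)))) (XT.nd (nat_lit 156) (nat_lit 0) (nat_lit 76) (XT.nd (nat_lit 78) (nat_lit 0) (nat_lit 0) (XT.lf (nat_lit 0) (nat_lit 59169594678) (nat_lit 1216) (nat_lit 15456922910) (nat_lit 1292) (nat_lit 13307175565) (nat_lit 330) (nat_lit 5) (nat_lit 346) (nat_lit 5) (nat_lit 347) (nat_lit 5) (nat_lit 507) (nat_lit 501) (nat_lit 192)) (XT.lf (nat_lit 76) (nat_lit 30209042487) (nat_lit 0) (nat_lit 32794428180) (nat_lit 1292) (nat_lit 26279851512) (nat_lit 331)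 (nat_lit 5) (nat_lit 330) (nat_lit 5) (nat_lit 347) (nat_lit 5) (nat_lit 508) (nat_lit 501) (nat_lit 191))) (XT.nd (nat_lit 78) (nat_lit 0) (nat_lit 0) (XT.lf (nat_lit 0) (nat_lit 67208599851) (nat_lit 1216) (nat_lit 13207633621) (nat_lit 1292) (nat_lit 10249519513) (nat_lit 331) (nat_lit 5) (nat_lit 347) (nat_lit 5) (nat_lit 348) (nat_lit 5) (nat_lit 509) (nat_lit 501) (nat_lit 190)) (XT.lf (nat_lit 76) (nat_lit 34380987834) (nat_lit 0) (nat_lit 37813761054) (nat_lit 1292) (nat_lit 19875261862) (nat_lit 332) (nat_lit 5) (nat_lit 331) (nat_lit 5) (nat_lit 348) (nat_lit 5) (nat_lit 510) (nat_lit 501) (nat_lit 189)))))) (XT.nd (nat_lit 624) (nat_lit 2508) (nat_lit 0) (XT.nd (nat_lit 312) (nat_lit 1216) (nat_lit 0) (XT.nd (nat_lit 156) (nat_lit 0) (nat_lit 76) (XT.nd (nat_lit 78) (nat_lit 0) (nat_lit 0) (XT.lf (nat_lit 0) (nat_lit 77523177505) (nat_lit 1216) (nat_lit 9904253574) (nat_lit 1292) (nat_lit 6083184329)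 (nat_lit 332) (nat_lit 5) (nat_lit 348) (nat_lit 5) (nat_lit 349) (nat_lit 5) (nat_lit 511) (nat_lit 501) (nat_lit 188)) (XT.lf (nat_lit 76) (nat_lit 39714411360) (nat_lit 0) (nat_lit 44052895410) (nat_lit 1292) (nat_lit 11204456017) (nat_lit 333) (nat_lit 5) (nat_lit 332) (nat_lit 5) (nat_lit 349) (nat_lit 5) (nat_lit 512) (nat_lit 501) (nat_lit 187))) (XT.nd (nat_lit 78) (nat_lit 0) (nat_lit 0) (XT.lf (nat_lit 0) (nat_lit 90305453526) (nat_lit 1216) (nat_lit 5456290660) (nat_lit 1292) (nat_lit 711799606) (nat_lit 333) (nat_lit 5) (nat_lit 349) (nat_lit 5) (nat_lit 350) (nat_lit 5) (nat_lit 513) (nat_lit 501) (nat_lit 186)) (XT.lf (nat_lit 76) (nat_lit 46306005873) (nat_lit 0) (nat_lit 51614738786) (nat_lit 1292) (nat_lit 73203582) (nat_lit 334) (nat_lit 5) (nat_lit 333) (nat_lit 5) (nat_lit 350) (nat_lit 5) (nat_lit 514) (nat_lit 501) (nat_lit 185)))) (XT.nd (nat_lit 156) (nat_lit 0) (nat_lit 76) (XT.nd (nat_lit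 78) (nat_lit 0) (nat_lit 76) (XT.lf (nat_lit 76) (nat_lit 116566172) (nat_lit 0) (nat_lit 6023369168) (nat_lit 1368) (nat_lit 93416545893) (nat_lit 317) (nat_lit 5) (nat_lit 316) (nat_lit 5) (nat_lit 334) (nat_lit 5) (nat_lit 515) (nat_lit 501) (nat_lit 184)) (XT.lf (nat_lit 0) (nat_lit 13458332294) (nat_lit 1292) (nat_lit 47015097533) (nat_lit 1368) (nat_lit 40664828601) (nat_lit 317) (nat_lit 5) (nat_lit 334) (nat_lit 5) (nat_lit 335) (nat_lit 5) (nat_lit 516) (nat_lit 501) (nat_lit 183))) (XT.nd (nat_lit 78) (nat_lit 0) (nat_lit 76) (XT.lf (nat_lit 76) (nat_lit 7060371483) (nat_lit 0) (nat_lit 14063144856) (nat_lit 1368) (nat_lit 81640155556) (nat_lit 318) (nat_lit 5) (nat_lit 317) (nat_lit 5) (nat_lit 335) (nat_lit 5) (nat_lit 517) (nat_lit 501) (nat_lit 182)) (XT.lf (nat_lit 0) (nat_lit 29822176351) (nat_lit 1292) (nat_lit 41030996881) (nat_lit 76) (nat_lit 33560568931) (nat_lit 318) (nat_lit 5) (nat_lit 335)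 (nat_lit 5) (nat_lit 319) (nat_lit 5) (nat_lit 518) (nat_lit 501) (nat_lit 181))))) (XT.nd (nat_lit 312) (nat_lit 1216) (nat_lit 0) (XT.nd (nat_lit 156) (nat_lit 608) (nat_lit 0) (XT.nd (nat_lit 78) (nat_lit 0) (nat_lit 0) (XT.lf (nat_lit 0) (nat_lit 15443364119) (nat_lit 836) (nat_lit 23625865203) (nat_lit 912) (nat_lit 67035462235) (nat_lit 307) (nat_lit 5) (nat_lit 318) (nat_lit 5) (nat_lit 319) (nat_lit 5) (nat_lit 519) (nat_lit 501) (nat_lit 180)) (XT.lf (nat_lit 0) (nat_lit 49252368238) (nat_lit 912) (nat_lit 33625715242) (nat_lit 76) (nat_lit 24948525732) (nat_lit 307) (nat_lit 5) (nat_lit 319) (nat_lit 5) (nat_lit 308) (nat_lit 5) (nat_lit 520) (nat_lit 501) (nat_lit 179))) (XT.nd (nat_lit 78) (nat_lit 0) (nat_lit 0) (XT.lf (nat_lit 0) (nat_lit 25382115359) (nat_lit 608) (nat_lit 34836549757) (nat_lit 684) (nat_lit 49367189377) (nat_lit 299) (nat_lit 5) (nat_lit 307) (nat_lit 5) (nat_lit 308) (nat_lit 5)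 (nat_lit 521) (nat_lit 501) (nat_lit 178)) (XT.lf (nat_lit 0) (nat_lit 71997416140) (nat_lit 684) (nat_lit 24682597977) (nat_lit 76) (nat_lit 14703359069) (nat_lit 299) (nat_lit 5) (nat_lit 308) (nat_lit 5) (nat_lit 300) (nat_lit 5) (nat_lit 522) (nat_lit 501) (nat_lit 177)))) (XT.nd (nat_lit 156) (nat_lit 608) (nat_lit 0) (XT.nd (nat_lit 78) (nat_lit 0) (nat_lit 0) (XT.lf (nat_lit 0) (nat_lit 37001059695) (nat_lit 608) (nat_lit 47828831120) (nat_lit 684) (nat_lit 28383915801) (nat_lit 291) (nat_lit 5) (nat_lit 299) (nat_lit 5) (nat_lit 300) (nat_lit 5) (nat_lit 523) (nat_lit 501) (nat_lit 176)) (XT.lf (nat_lit 0) (nat_lit 98322741069) (nat_lit 684) (nat_lit 14077092387) (nat_lit 76) (nat_lit 2691057560) (nat_lit 291) (nat_lit 5) (nat_lit 300) (nat_lit 5) (nat_lit 292) (nat_lit 5) (nat_lit 524) (nat_lit 501) (nat_lit 175))) (XT.nd (nat_lit 78) (nat_lit 76) (nat_lit 0) (XT.lf (nat_lit 0) (nat_lit 50432984887) (nat_lit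 532) (nat_lit 62745516674) (nat_lit 608) (nat_lit 3817042656) (nat_lit 284) (nat_lit 5) (nat_lit 291) (nat_lit 5) (nat_lit 292) (nat_lit 5) (nat_lit 525) (nat_lit 501) (nat_lit 174)) (XT.lf (nat_lit 0) (nat_lit 9480117533) (nat_lit 608) (nat_lit 1879311350) (nat_lit 76) (nat_lit 107590861833) (nat_lit 283) (nat_lit 5) (nat_lit 291) (nat_lit 5) (nat_lit 284) (nat_lit 5) (nat_lit 526) (nat_lit 501) (nat_lit 173))))))) (XT.nd (nat_lit 61464) (nat_lit 0) (nat_lit 532) (XT.nd (nat_lit 60840) (nat_lit 0) (nat_lit 5168) (XT.nd (nat_lit 60528) (nat_lit 0) (nat_lit 5016) (XT.nd (nat_lit 156) (nat_lit 532) (nat_lit 0) (XT.nd (nat_lit 78) (nat_lit 532) (nat_lit 0) (XT.lf (nat_lit 0) (nat_lit 24139872651) (nat_lit 684) (nat_lit 55355547999) (nat_lit 76) (nat_lit 41435913226) (nat_lit 275) (nat_lit 5) (nat_lit 284) (nat_lit 5) (nat_lit 276) (nat_lit 5) (nat_lit 527) (nat_lit 501) (nat_lit 172)) (XT.lf (nat_lit 0) (nat_lit 12247942105)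 (nat_lit 532) (nat_lit 27240639654) (nat_lit 608) (nat_lit 83475751740) (nat_lit 268) (nat_lit 5) (nat_lit 275) (nat_lit 5) (nat_lit 276) (nat_lit 5) (nat_lit 528) (nat_lit 501) (nat_lit 171))) (XT.nd (nat_lit 78) (nat_lit 532) (nat_lit 0) (XT.lf (nat_lit 0) (nat_lit 56117585056) (nat_lit 608) (nat_lit 42288563831) (nat_lit 76) (nat_lit 26627579243) (nat_lit 268) (nat_lit 5) (nat_lit 276) (nat_lit 5) (nat_lit 269) (nat_lit 5) (nat_lit 529) (nat_lit 501) (nat_lit 170)) (XT.lf (nat_lit 0) (nat_lit 28477875055) (nat_lit 532) (nat_lit 45310840974) (nat_lit 608) (nat_lit 53360190853) (nat_lit 261) (nat_lit 5) (nat_lit 268) (nat_lit 5) (nat_lit 269) (nat_lit 5) (nat_lit 530) (nat_lit 501) (nat_lit 169)))) (XT.nd (nat_lit 156) (nat_lit 0) (nat_lit 76) (XT.nd (nat_lit 78) (nat_lit 0) (nat_lit 0) (XT.lf (nat_lit 0) (nat_lit 24197991035) (nat_lit 1292) (nat_lit 8594972589) (nat_lit 1292) (nat_lit 8594972589) (nat_lit 327)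 (nat_lit 3) (nat_lit 344) (nat_lit 3) (nat_lit 344) (nat_lit 5) (nat_lit 502) (nat_lit 502) (nat_lit 196)) (XT.lf (nat_lit 76) (nat_lit 24509864817) (nat_lit 0) (nat_lit 24857171356) (nat_lit 1292) (nat_lit 34643120471) (nat_lit 328) (nat_lit 5) (nat_lit 327) (nat_lit 3) (nat_lit 344) (nat_lit 5) (nat_lit 503) (nat_lit 502) (nat_lit 195))) (XT.nd (nat_lit 78) (nat_lit 0) (nat_lit 0) (XT.lf (nat_lit 0) (nat_lit 50706466639) (nat_lit 1216) (nat_lit 17629454926) (nat_lit 1292) (nat_lit 16935370496) (nat_lit 328) (nat_lit 5) (nat_lit 344) (nat_lit 5) (nat_lit 345) (nat_lit 5) (nat_lit 504) (nat_lit 502) (nat_lit 194)) (XT.lf (nat_lit 76) (nat_lit 25753742927) (nat_lit 0) (nat_lit 26825647913) (nat_lit 1292) (nat_lit 33976071394) (nat_lit 329) (nat_lit 5) (nat_lit 328) (nat_lit 5) (nat_lit 345) (nat_lit 5) (nat_lit 505) (nat_lit 502) (nat_lit 193))))) (XT.nd (nat_lit 312) (nat_lit 0) (nat_lit 152) (XT.nd (nat_lit 156)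 (nat_lit 0) (nat_lit 76) (XT.nd (nat_lit 78) (nat_lit 0) (nat_lit 0) (XT.lf (nat_lit 0) (nat_lit 54841066093) (nat_lit 1216) (nat_lit 17228096326) (nat_lit 1292) (nat_lit 15799018208) (nat_lit 329) (nat_lit 5) (nat_lit 345) (nat_lit 5) (nat_lit 346) (nat_lit 5) (nat_lit 506) (nat_lit 502) (nat_lit 192)) (XT.lf (nat_lit 76) (nat_lit 27931982741) (nat_lit 0) (nat_lit 29772368373) (nat_lit 1292) (nat_lit 31499916689) (nat_lit 330) (nat_lit 5) (nat_lit 329) (nat_lit 5) (nat_lit 346) (nat_lit 5) (nat_lit 507) (nat_lit 502) (nat_lit 191))) (XT.nd (nat_lit 78) (nat_lit 0) (nat_lit 0) (XT.lf (nat_lit 0) (nat_lit 60961485998) (nat_lit 1216) (nat_lit 15909722547) (nat_lit 1292) (nat_lit 13699990526) (nat_lit 330) (nat_lit 5) (nat_lit 346) (nat_lit 5) (nat_lit 347) (nat_lit 5) (nat_lit 508) (nat_lit 502) (nat_lit 190)) (XT.lf (nat_lit 76) (nat_lit 31126114870) (nat_lit 0) (nat_lit 33783877802) (nat_lit 1292) (nat_lit 27051335886)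 (nat_lit 331) (nat_lit 5) (nat_lit 330) (nat_lit 5) (nat_lit 347) (nat_lit 5) (nat_lit 509) (nat_lit 502) (nat_lit 189)))) (XT.nd (nat_lit 156) (nat_lit 0) (nat_lit 76) (XT.nd (nat_lit 78) (nat_lit 0) (nat_lit 0) (XT.lf (nat_lit 0) (nat_lit 69240745121) (nat_lit 1216) (nat_lit 13592844778) (nat_lit 1292) (nat_lit 10551658329) (nat_lit 331) (nat_lit 5) (nat_lit 347) (nat_lit 5) (nat_lit 348) (nat_lit 5) (nat_lit 510) (nat_lit 502) (nat_lit 188)) (XT.lf (nat_lit 76) (nat_lit 35423327302) (nat_lit 0) (nat_lit 38952793462) (nat_lit 1292) (nat_lit 20455523719) (nat_lit 332) (nat_lit 5) (nat_lit 331) (nat_lit 5) (nat_lit 348) (nat_lit 5) (nat_lit 511) (nat_lit 502) (nat_lit 187))) (XT.nd (nat_lit 78) (nat_lit 0) (nat_lit 0) (XT.lf (nat_lit 0) (nat_lit 79863906814) (nat_lit 1216) (nat_lit 10190292998) (nat_lit 1292) (nat_lit 6261282352) (nat_lit 332) (nat_lit 5) (nat_lit 348) (nat_lit 5) (nat_lit 349) (nat_lit 5) (nat_lit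 512) (nat_lit 502) (nat_lit 186)) (XT.lf (nat_lit 76) (nat_lit 40916823176) (nat_lit 0) (nat_lit 45378204439) (nat_lit 1292) (nat_lit 11525446339) (nat_lit 333) (nat_lit 5) (nat_lit 332) (nat_lit 5) (nat_lit 349) (nat_lit 5) (nat_lit 513) (nat_lit 502) (nat_lit 185)))))) (XT.nd (nat_lit 624) (nat_lit 2964) (nat_lit 0) (XT.nd (nat_lit 312) (nat_lit 684) (nat_lit 0) (XT.nd (nat_lit 156) (nat_lit 1292) (nat_lit 0) (XT.nd (nat_lit 78) (nat_lit 0) (nat_lit 0) (XT.lf (nat_lit 0) (nat_lit 93028855834) (nat_lit 1216) (nat_lit 5608856107) (nat_lit 1292) (nat_lit 729610357) (nat_lit 333) (nat_lit 5) (nat_lit 349) (nat_lit 5) (nat_lit 350) (nat_lit 5) (nat_lit 514) (nat_lit 502) (nat_lit 184)) (XT.lf (nat_lit 76) (nat_lit 47706200270) (nat_lit 0) (nat_lit 53166096587) (nat_lit 1292) (nat_lit 61051307) (nat_lit 334) (nat_lit 5) (nat_lit 333) (nat_lit 5) (nat_lit 350) (nat_lit 5) (nat_lit 515) (nat_lit 502) (nat_lit 183))) (XT.nd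 (nat_lit 78) (nat_lit 0) (nat_lit 76) (XT.lf (nat_lit 76) (nat_lit 131247243) (nat_lit 0) (nat_lit 6206652300) (nat_lit 1368) (nat_lit 96204862551) (nat_lit 317) (nat_lit 5) (nat_lit 316) (nat_lit 5) (nat_lit 334) (nat_lit 5) (nat_lit 516) (nat_lit 502) (nat_lit 182)) (XT.lf (nat_lit 0) (nat_lit 13875423353) (nat_lit 1292) (nat_lit 48414266495) (nat_lit 1368) (nat_lit 41882315526) (nat_lit 317) (nat_lit 5) (nat_lit 334) (nat_lit 5) (nat_lit 335) (nat_lit 5) (nat_lit 517) (nat_lit 502) (nat_lit 181)))) (XT.nd (nat_lit 156) (nat_lit 760) (nat_lit 0) (XT.nd (nat_lit 78) (nat_lit 0) (nat_lit 76) (XT.lf (nat_lit 76) (nat_lit 7283355964) (nat_lit 0) (nat_lit 14486925784) (nat_lit 1368) (nat_lit 84075907948) (nat_lit 318) (nat_lit 5) (nat_lit 317) (nat_lit 5) (nat_lit 335) (nat_lit 5) (nat_lit 518) (nat_lit 502) (nat_lit 180)) (XT.lf (nat_lit 0) (nat_lit 30729503568) (nat_lit 1292) (nat_lit 42250680354) (nat_lit 76) (nat_lit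 34565590107) (nat_lit 318) (nat_lit 5) (nat_lit 335) (nat_lit 5) (nat_lit 319) (nat_lit 5) (nat_lit 519) (nat_lit 502) (nat_lit 179))) (XT.nd (nat_lit 78) (nat_lit 0) (nat_lit 0) (XT.lf (nat_lit 0) (nat_lit 15917801218) (nat_lit 836) (nat_lit 24335905164) (nat_lit 912) (nat_lit 69033753390) (nat_lit 307) (nat_lit 5) (nat_lit 318) (nat_lit 5) (nat_lit 319) (nat_lit 5) (nat_lit 520) (nat_lit 502) (nat_lit 178)) (XT.lf (nat_lit 0) (nat_lit 50741966498) (nat_lit 912) (nat_lit 34623301402) (nat_lit 76) (nat_lit 25695778261) (nat_lit 307) (nat_lit 5) (nat_lit 319) (nat_lit 5) (nat_lit 308) (nat_lit 5) (nat_lit 521) (nat_lit 502) (nat_lit 177))))) (XT.nd (nat_lit 312) (nat_lit 1748) (nat_lit 0) (XT.nd (nat_lit 156) (nat_lit 608) (nat_lit 0) (XT.nd (nat_lit 78) (nat_lit 0) (nat_lit 0) (XT.lf (nat_lit 0) (nat_lit 26154654458) (nat_lit 608) (nat_lit 35882353984) (nat_lit 684) (nat_lit 50836067689) (nat_lit 299) (nat_lit 5)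 (nat_lit 307) (nat_lit 5) (nat_lit 308) (nat_lit 5) (nat_lit 522) (nat_lit 502) (nat_lit 176)) (XT.lf (nat_lit 0) (nat_lit 74168772186) (nat_lit 684) (nat_lit 25411972578) (nat_lit 76) (nat_lit 15143786129) (nat_lit 299) (nat_lit 5) (nat_lit 308) (nat_lit 5) (nat_lit 300) (nat_lit 5) (nat_lit 523) (nat_lit 502) (nat_lit 175))) (XT.nd (nat_lit 78) (nat_lit 0) (nat_lit 0) (XT.lf (nat_lit 0) (nat_lit 38122085967) (nat_lit 608) (nat_lit 49263907803) (nat_lit 684) (nat_lit 29223890389) (nat_lit 291) (nat_lit 5) (nat_lit 299) (nat_lit 5) (nat_lit 300) (nat_lit 5) (nat_lit 524) (nat_lit 502) (nat_lit 174)) (XT.lf (nat_lit 0) (nat_lit 101283301161) (nat_lit 684) (nat_lit 14488402080) (nat_lit 76) (nat_lit 2771587716) (nat_lit 291) (nat_lit 5) (nat_lit 300) (nat_lit 5) (nat_lit 292) (nat_lit 5) (nat_lit 525) (nat_lit 502) (nat_lit 173)))) (XT.nd (nat_lit 156) (nat_lit 1140) (nat_lit 0) (XT.nd (nat_lit 78) (nat_lit 76) (nat_lit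 0) (XT.lf (nat_lit 0) (nat_lit 51956869640) (nat_lit 532) (nat_lit 64627652729) (nat_lit 608) (nat_lit 3920567762) (nat_lit 284) (nat_lit 5) (nat_lit 291) (nat_lit 5) (nat_lit 292) (nat_lit 5) (nat_lit 526) (nat_lit 502) (nat_lit 172)) (XT.lf (nat_lit 0) (nat_lit 9774979112) (nat_lit 608) (nat_lit 1924904269) (nat_lit 76) (nat_lit 110818601900) (nat_lit 283) (nat_lit 5) (nat_lit 291) (nat_lit 5) (nat_lit 284) (nat_lit 5) (nat_lit 527) (nat_lit 502) (nat_lit 171))) (XT.nd (nat_lit 78) (nat_lit 532) (nat_lit 0) (XT.lf (nat_lit 0) (nat_lit 24874329029) (nat_lit 684) (nat_lit 57005229762) (nat_lit 76) (nat_lit 42679406892) (nat_lit 275) (nat_lit 5) (nat_lit 284) (nat_lit 5) (nat_lit 276) (nat_lit 5) (nat_lit 528) (nat_lit 502) (nat_lit 170)) (XT.lf (nat_lit 0) (nat_lit 12626257353) (nat_lit 532) (nat_lit 28057047774) (nat_lit 608) (nat_lit 85969656008) (nat_lit 268) (nat_lit 5) (nat_lit 275) (nat_lit 5) (nat_lit 276)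 (nat_lit 5) (nat_lit 529) (nat_lit 502) (nat_lit 169))))))))
noncomputable def xc251 : XT := (XT.nd (nat_lit 123006) (nat_lit 0) (nat_lit 1672) (XT.nd (nat_lit 61386) (nat_lit 0) (nat_lit 0) (XT.nd (nat_lit 60762) (nat_lit 0) (nat_lit 5168) (XT.nd (nat_lit 60450) (nat_lit 0) (nat_lit 5016) (XT.nd (nat_lit 78) (nat_lit 532) (nat_lit 0) (XT.lf (nat_lit 0) (nat_lit 57810892910) (nat_lit 608) (nat_lit 43546374575) (nat_lit 76) (nat_lit 27427178701) (nat_lit 268) (nat_lit 5) (nat_lit 276) (nat_lit 5) (nat_lit 269) (nat_lit 5) (nat_lit 530) (nat_lit 502) (nat_lit 168)) (XT.nd (nat_lit 60294) (nat_lit 0) (nat_lit 5016) (XT.lf (nat_lit 0) (nat_lit 29342951144) (nat_lit 532) (nat_lit 46669025043) (nat_lit 608) (nat_lit 54951109573) (nat_lit 261) (nat_lit 5) (nat_lit 268) (nat_lit 5) (nat_lit 269) (nat_lit 5) (nat_lit 531) (nat_lit 502) (nat_lit 167)) (XT.lf (nat_lit 0) (nat_lit 24933349902) (nat_lit 1292) (nat_lit 8847970694)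 (nat_lit 1292) (nat_lit 8847970694) (nat_lit 327) (nat_lit 3) (nat_lit 344) (nat_lit 3) (nat_lit 344) (nat_lit 5) (nat_lit 503) (nat_lit 503) (nat_lit 194)))) (XT.nd (nat_lit 156) (nat_lit 0) (nat_lit 76) (XT.nd (nat_lit 78) (nat_lit 0) (nat_lit 76) (XT.lf (nat_lit 76) (nat_lit 25254767787) (nat_lit 0) (nat_lit 25611661403) (nat_lit 1292) (nat_lit 35663479850) (nat_lit 328) (nat_lit 5) (nat_lit 327) (nat_lit 3) (nat_lit 344) (nat_lit 5) (nat_lit 504) (nat_lit 503) (nat_lit 193)) (XT.lf (nat_lit 0) (nat_lit 52245425282) (nat_lit 1216) (nat_lit 18148393256) (nat_lit 1292) (nat_lit 17435078526) (nat_lit 328) (nat_lit 5) (nat_lit 344) (nat_lit 5) (nat_lit 345) (nat_lit 5) (nat_lit 505) (nat_lit 503) (nat_lit 192))) (XT.nd (nat_lit 78) (nat_lit 0) (nat_lit 76) (XT.lf (nat_lit 76) (nat_lit 26536203030) (nat_lit 0) (nat_lit 27637911426) (nat_lit 1292) (nat_lit 34977490593) (nat_lit 329) (nat_lit 5) (nat_lit 328) (nat_lit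 5) (nat_lit 345) (nat_lit 5) (nat_lit 506) (nat_lit 503) (nat_lit 191)) (XT.lf (nat_lit 0) (nat_lit 56503064923) (nat_lit 1216) (nat_lit 17734802415) (nat_lit 1292) (nat_lit 16265854930) (nat_lit 329) (nat_lit 5) (nat_lit 345) (nat_lit 5) (nat_lit 346) (nat_lit 5) (nat_lit 507) (nat_lit 503) (nat_lit 190))))) (XT.nd (nat_lit 312) (nat_lit 0) (nat_lit 152) (XT.nd (nat_lit 156) (nat_lit 0) (nat_lit 76) (XT.nd (nat_lit 78) (nat_lit 0) (nat_lit 76) (XT.lf (nat_lit 76) (nat_lit 28779979644) (nat_lit 0) (nat_lit 30671876982) (nat_lit 1292) (nat_lit 32428047212) (nat_lit 330) (nat_lit 5) (nat_lit 329) (nat_lit 5) (nat_lit 346) (nat_lit 5) (nat_lit 508) (nat_lit 503) (nat_lit 189)) (XT.lf (nat_lit 0) (nat_lit 62806169468) (nat_lit 1216) (nat_lit 16376732340) (nat_lit 1292) (nat_lit 14104957340) (nat_lit 330) (nat_lit 5) (nat_lit 346) (nat_lit 5) (nat_lit 347) (nat_lit 5) (nat_lit 509) (nat_lit 503) (nat_lit 188))) (XT.nd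 (nat_lit 78) (nat_lit 0) (nat_lit 76) (XT.lf (nat_lit 76) (nat_lit 32070079397) (nat_lit 0) (nat_lit 34802688486) (nat_lit 1292) (nat_lit 27846935562) (nat_lit 331) (nat_lit 5) (nat_lit 330) (nat_lit 5) (nat_lit 347) (nat_lit 5) (nat_lit 510) (nat_lit 503) (nat_lit 187)) (XT.lf (nat_lit 0) (nat_lit 71332942754) (nat_lit 1216) (nat_lit 13990244740) (nat_lit 1292) (nat_lit 10863168236) (nat_lit 331) (nat_lit 5) (nat_lit 347) (nat_lit 5) (nat_lit 348) (nat_lit 5) (nat_lit 511) (nat_lit 503) (nat_lit 186)))) (XT.nd (nat_lit 156) (nat_lit 0) (nat_lit 76) (XT.nd (nat_lit 78) (nat_lit 0) (nat_lit 76) (XT.lf (nat_lit 76) (nat_lit 36496310685) (nat_lit 0) (nat_lit 40125731660) (nat_lit 1292) (nat_lit 21054111666) (nat_lit 332) (nat_lit 5) (nat_lit 331) (nat_lit 5) (nat_lit 348) (nat_lit 5) (nat_lit 512) (nat_lit 503) (nat_lit 185)) (XT.lf (nat_lit 0) (nat_lit 82273994991) (nat_lit 1216) (nat_lit 10485550112) (nat_lit 1292)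 (nat_lit 6444975751) (nat_lit 332) (nat_lit 5) (nat_lit 348) (nat_lit 5) (nat_lit 349) (nat_lit 5) (nat_lit 513) (nat_lit 503) (nat_lit 184))) (XT.nd (nat_lit 78) (nat_lit 0) (nat_lit 76) (XT.lf (nat_lit 76) (nat_lit 42154677081) (nat_lit 0) (nat_lit 46743059072) (nat_lit 1292) (nat_lit 11856935661) (nat_lit 333) (nat_lit 5) (nat_lit 332) (nat_lit 5) (nat_lit 349) (nat_lit 5) (nat_lit 514) (nat_lit 503) (nat_lit 183)) (XT.lf (nat_lit 0) (nat_lit 95833142851) (nat_lit 1216) (nat_lit 5766637039) (nat_lit 1292) (nat_lit 748158827) (nat_lit 333) (nat_lit 5) (nat_lit 349) (nat_lit 5) (nat_lit 350) (nat_lit 5) (nat_lit 515) (nat_lit 503) (nat_lit 182)))))) (XT.nd (nat_lit 624) (nat_lit 2888) (nat_lit 0) (XT.nd (nat_lit 312) (nat_lit 1292) (nat_lit 0) (XT.nd (nat_lit 156) (nat_lit 0) (nat_lit 76) (XT.nd (nat_lit 78) (nat_lit 1292) (nat_lit 0) (XT.lf (nat_lit 76) (nat_lit 49147768238) (nat_lit 0) (nat_lit 54763827752) (nat_lit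 1292) (nat_lit 49358121) (nat_lit 334) (nat_lit 5) (nat_lit 333) (nat_lit 5) (nat_lit 350) (nat_lit 5) (nat_lit 516) (nat_lit 503) (nat_lit 181)) (XT.lf (nat_lit 76) (nat_lit 145726734) (nat_lit 0) (nat_lit 6395285705) (nat_lit 1368) (nat_lit 99077642683) (nat_lit 317) (nat_lit 5) (nat_lit 316) (nat_lit 5) (nat_lit 334) (nat_lit 5) (nat_lit 517) (nat_lit 503) (nat_lit 180))) (XT.nd (nat_lit 78) (nat_lit 0) (nat_lit 0) (XT.lf (nat_lit 0) (nat_lit 14304261310) (nat_lit 1292) (nat_lit 49856058272) (nat_lit 1368) (nat_lit 43136468154) (nat_lit 317) (nat_lit 5) (nat_lit 334) (nat_lit 5) (nat_lit 335) (nat_lit 5) (nat_lit 518) (nat_lit 503) (nat_lit 179)) (XT.lf (nat_lit 76) (nat_lit 7512388585) (nat_lit 0) (nat_lit 14923311842) (nat_lit 1368) (nat_lit 86585505127) (nat_lit 318) (nat_lit 5) (nat_lit 317) (nat_lit 5) (nat_lit 335) (nat_lit 5) (nat_lit 519) (nat_lit 503) (nat_lit 178)))) (XT.nd (nat_lit 156) (nat_lit 608)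 (nat_lit 0) (XT.nd (nat_lit 78) (nat_lit 836) (nat_lit 0) (XT.lf (nat_lit 0) (nat_lit 31663323755) (nat_lit 1292) (nat_lit 43507599921) (nat_lit 76) (nat_lit 35600865010) (nat_lit 318) (nat_lit 5) (nat_lit 335) (nat_lit 5) (nat_lit 319) (nat_lit 5) (nat_lit 520) (nat_lit 503) (nat_lit 177)) (XT.lf (nat_lit 0) (nat_lit 16405832167) (nat_lit 836) (nat_lit 25067173765) (nat_lit 912) (nat_lit 71092726487) (nat_lit 307) (nat_lit 5) (nat_lit 318) (nat_lit 5) (nat_lit 319) (nat_lit 5) (nat_lit 521) (nat_lit 503) (nat_lit 176))) (XT.nd (nat_lit 78) (nat_lit 608) (nat_lit 0) (XT.lf (nat_lit 0) (nat_lit 52275562295) (nat_lit 912) (nat_lit 35651457228) (nat_lit 76) (nat_lit 26465517438) (nat_lit 307) (nat_lit 5) (nat_lit 319) (nat_lit 5) (nat_lit 308) (nat_lit 5) (nat_lit 522) (nat_lit 503) (nat_lit 175)) (XT.lf (nat_lit 0) (nat_lit 26949733943) (nat_lit 608) (nat_lit 36959491710) (nat_lit 684) (nat_lit 52349709086) (nat_lit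 299) (nat_lit 5) (nat_lit 307) (nat_lit 5) (nat_lit 308) (nat_lit 5) (nat_lit 523) (nat_lit 503) (nat_lit 174))))) (XT.nd (nat_lit 312) (nat_lit 1748) (nat_lit 0) (XT.nd (nat_lit 156) (nat_lit 532) (nat_lit 0) (XT.nd (nat_lit 78) (nat_lit 608) (nat_lit 0) (XT.lf (nat_lit 0) (nat_lit 76404612580) (nat_lit 684) (nat_lit 26163865795) (nat_lit 76) (nat_lit 15597464675) (nat_lit 299) (nat_lit 5) (nat_lit 308) (nat_lit 5) (nat_lit 300) (nat_lit 5) (nat_lit 524) (nat_lit 503) (nat_lit 173)) (XT.lf (nat_lit 0) (nat_lit 39276111900) (nat_lit 608) (nat_lit 50742024631) (nat_lit 684) (nat_lit 30089726824) (nat_lit 291) (nat_lit 5) (nat_lit 299) (nat_lit 5) (nat_lit 300) (nat_lit 5) (nat_lit 525) (nat_lit 503) (nat_lit 172))) (XT.nd (nat_lit 78) (nat_lit 532) (nat_lit 0) (XT.lf (nat_lit 0) (nat_lit 104332053622) (nat_lit 684) (nat_lit 14912682685) (nat_lit 76) (nat_lit 2854545348) (nat_lit 291) (nat_lit 5) (nat_lit 300) (nat_lit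 5) (nat_lit 292) (nat_lit 5) (nat_lit 526) (nat_lit 503) (nat_lit 171)) (XT.lf (nat_lit 0) (nat_lit 53525845505) (nat_lit 532) (nat_lit 66566266036) (nat_lit 608) (nat_lit 4027829272) (nat_lit 284) (nat_lit 5) (nat_lit 291) (nat_lit 5) (nat_lit 292) (nat_lit 5) (nat_lit 527) (nat_lit 503) (nat_lit 170)))) (XT.nd (nat_lit 390) (nat_lit 1064) (nat_lit 0) (XT.nd (nat_lit 78) (nat_lit 608) (nat_lit 0) (XT.lf (nat_lit 0) (nat_lit 10078086202) (nat_lit 608) (nat_lit 1972484161) (nat_lit 76) (nat_lit 114143173353) (nat_lit 283) (nat_lit 5) (nat_lit 291) (nat_lit 5) (nat_lit 284) (nat_lit 5) (nat_lit 528) (nat_lit 503) (nat_lit 169)) (XT.lf (nat_lit 0) (nat_lit 25630230122) (nat_lit 684) (nat_lit 58705032543) (nat_lit 76) (nat_lit 43960181472) (nat_lit 275) (nat_lit 5) (nat_lit 284) (nat_lit 5) (nat_lit 276) (nat_lit 5) (nat_lit 529) (nat_lit 503) (nat_lit 168))) (XT.nd (nat_lit 60216) (nat_lit 0) (nat_lit 5016) (XT.lf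 (nat_lit 0) (nat_lit 98163521189) (nat_lit 608) (nat_lit 28809007654) (nat_lit 76) (nat_lit 10213918189) (nat_lit 261) (nat_lit 5) (nat_lit 269) (nat_lit 5) (nat_lit 262) (nat_lit 5) (nat_lit 533) (nat_lit 503) (nat_lit 164)) (XT.lf (nat_lit 0) (nat_lit 25690228838) (nat_lit 1292) (nat_lit 9108837214) (nat_lit 1292) (nat_lit 9108837214) (nat_lit 327) (nat_lit 3) (nat_lit 344) (nat_lit 3) (nat_lit 344) (nat_lit 5) (nat_lit 504) (nat_lit 504) (nat_lit 192))))))) (XT.nd (nat_lit 1248) (nat_lit 2508) (nat_lit 0) (XT.nd (nat_lit 624) (nat_lit 836) (nat_lit 0) (XT.nd (nat_lit 312) (nat_lit 0) (nat_lit 152) (XT.nd (nat_lit 156) (nat_lit 0) (nat_lit 76) (XT.nd (nat_lit 78) (nat_lit 0) (nat_lit 76) (XT.lf (nat_lit 76) (nat_lit 26021466364) (nat_lit 0) (nat_lit 26388282437) (nat_lit 1292) (nat_lit 36715536914) (nat_lit 328) (nat_lit 5) (nat_lit 327) (nat_lit 3) (nat_lit 344) (nat_lit 5) (nat_lit 505) (nat_lit 504) (nat_lit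 191)) (XT.lf (nat_lit 0) (nat_lit 53829532921) (nat_lit 1216) (nat_lit 18683470638) (nat_lit 1292) (nat_lit 17950257299) (nat_lit 328) (nat_lit 5) (nat_lit 344) (nat_lit 5) (nat_lit 345) (nat_lit 5) (nat_lit 506) (nat_lit 504) (nat_lit 190))) (XT.nd (nat_lit 78) (nat_lit 0) (nat_lit 76) (XT.lf (nat_lit 76) (nat_lit 27341571631) (nat_lit 0) (nat_lit 28474112653) (nat_lit 1292) (nat_lit 36009977774) (nat_lit 329) (nat_lit 5) (nat_lit 328) (nat_lit 5) (nat_lit 345) (nat_lit 5) (nat_lit 507) (nat_lit 504) (nat_lit 189)) (XT.lf (nat_lit 0) (nat_lit 58213961232) (nat_lit 1216) (nat_lit 18257291581) (nat_lit 1292) (nat_lit 16747106265) (nat_lit 329) (nat_lit 5) (nat_lit 345) (nat_lit 5) (nat_lit 346) (nat_lit 5) (nat_lit 508) (nat_lit 504) (nat_lit 188)))) (XT.nd (nat_lit 156) (nat_lit 0) (nat_lit 76) (XT.nd (nat_lit 78) (nat_lit 0) (nat_lit 76) (XT.lf (nat_lit 76) (nat_lit 29652840265) (nat_lit 0) (nat_lit 31598007048)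 (nat_lit 1292) (nat_lit 33384989885) (nat_lit 330) (nat_lit 5) (nat_lit 329) (nat_lit 5) (nat_lit 346) (nat_lit 5) (nat_lit 509) (nat_lit 504) (nat_lit 187)) (XT.lf (nat_lit 0) (nat_lit 64705284226) (nat_lit 1216) (nat_lit 16858342648) (nat_lit 1292) (nat_lit 14522419471) (nat_lit 330) (nat_lit 5) (nat_lit 346) (nat_lit 5) (nat_lit 347) (nat_lit 5) (nat_lit 510) (nat_lit 504) (nat_lit 186))) (XT.nd (nat_lit 78) (nat_lit 0) (nat_lit 76) (XT.lf (nat_lit 76) (nat_lit 33041778424) (nat_lit 0) (nat_lit 35851759573) (nat_lit 1292) (nat_lit 28667318273) (nat_lit 331) (nat_lit 5) (nat_lit 330) (nat_lit 5) (nat_lit 347) (nat_lit 5) (nat_lit 511) (nat_lit 504) (nat_lit 185)) (XT.lf (nat_lit 0) (nat_lit 73487046674) (nat_lit 1216) (nat_lit 14400162864) (nat_lit 1292) (nat_lit 11184312748) (nat_lit 331) (nat_lit 5) (nat_lit 347) (nat_lit 5) (nat_lit 348) (nat_lit 5) (nat_lit 512) (nat_lit 504) (nat_lit 184))))) (XT.nd (nat_lit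 312) (nat_lit 1140) (nat_lit 0) (XT.nd (nat_lit 156) (nat_lit 0) (nat_lit 76) (XT.nd (nat_lit 78) (nat_lit 0) (nat_lit 76) (XT.lf (nat_lit 76) (nat_lit 37600893252) (nat_lit 0) (nat_lit 41333608044) (nat_lit 1292) (nat_lit 21671522778) (nat_lit 332) (nat_lit 5) (nat_lit 331) (nat_lit 5) (nat_lit 348) (nat_lit 5) (nat_lit 513) (nat_lit 504) (nat_lit 183)) (XT.lf (nat_lit 0) (nat_lit 84755572341) (nat_lit 1216) (nat_lit 10790264908) (nat_lit 1292) (nat_lit 6634417895) (nat_lit 332) (nat_lit 5) (nat_lit 348) (nat_lit 5) (nat_lit 349) (nat_lit 5) (nat_lit 514) (nat_lit 504) (nat_lit 182))) (XT.nd (nat_lit 78) (nat_lit 0) (nat_lit 76) (XT.lf (nat_lit 76) (nat_lit 43429072515) (nat_lit 0) (nat_lit 48148657942) (nat_lit 1292) (nat_lit 12199189053) (nat_lit 333) (nat_lit 5) (nat_lit 332) (nat_lit 5) (nat_lit 349) (nat_lit 5) (nat_lit 515) (nat_lit 504) (nat_lit 181)) (XT.lf (nat_lit 0) (nat_lit 98720788039) (nat_lit 1216)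 (nat_lit 5929753266) (nat_lit 1292) (nat_lit 767455471) (nat_lit 333) (nat_lit 5) (nat_lit 349) (nat_lit 5) (nat_lit 350) (nat_lit 5) (nat_lit 516) (nat_lit 504) (nat_lit 180)))) (XT.nd (nat_lit 156) (nat_lit 0) (nat_lit 76) (XT.nd (nat_lit 78) (nat_lit 1292) (nat_lit 0) (XT.lf (nat_lit 76) (nat_lit 50631987278) (nat_lit 0) (nat_lit 56409333090) (nat_lit 1292) (nat_lit 38090513) (nat_lit 334) (nat_lit 5) (nat_lit 333) (nat_lit 5) (nat_lit 350) (nat_lit 5) (nat_lit 517) (nat_lit 504) (nat_lit 179)) (XT.lf (nat_lit 76) (nat_lit 160035452) (nat_lit 0) (nat_lit 6589438400) (nat_lit 1368) (nat_lit 102037373467) (nat_lit 317) (nat_lit 5) (nat_lit 316) (nat_lit 5) (nat_lit 334) (nat_lit 5) (nat_lit 518) (nat_lit 504) (nat_lit 178))) (XT.nd (nat_lit 78) (nat_lit 0) (nat_lit 0) (XT.lf (nat_lit 0) (nat_lit 14745242534) (nat_lit 1292) (nat_lit 51341714364) (nat_lit 1368) (nat_lit 44428378357) (nat_lit 317) (nat_lit 5) (nat_lit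 334) (nat_lit 5) (nat_lit 335) (nat_lit 5) (nat_lit 519) (nat_lit 504) (nat_lit 177)) (XT.lf (nat_lit 76) (nat_lit 7747687607) (nat_lit 0) (nat_lit 15372687402) (nat_lit 1368) (nat_lit 89171118109) (nat_lit 318) (nat_lit 5) (nat_lit 317) (nat_lit 5) (nat_lit 335) (nat_lit 5) (nat_lit 520) (nat_lit 504) (nat_lit 176)))))) (XT.nd (nat_lit 624) (nat_lit 76) (nat_lit 0) (XT.nd (nat_lit 312) (nat_lit 1140) (nat_lit 0) (XT.nd (nat_lit 156) (nat_lit 608) (nat_lit 0) (XT.nd (nat_lit 78) (nat_lit 836) (nat_lit 0) (XT.lf (nat_lit 0) (nat_lit 32624473425) (nat_lit 1292) (nat_lit 44802835608) (nat_lit 76) (nat_lit 36667295334) (nat_lit 318) (nat_lit 5) (nat_lit 335) (nat_lit 5) (nat_lit 319) (nat_lit 5) (nat_lit 521) (nat_lit 504) (nat_lit 175)) (XT.lf (nat_lit 0) (nat_lit 16907901479) (nat_lit 836) (nat_lit 25820312030) (nat_lit 912) (nat_lit 73214159893) (nat_lit 307) (nat_lit 5) (nat_lit 318) (nat_lit 5) (nat_lit 319) (nat_lit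 5) (nat_lit 522) (nat_lit 504) (nat_lit 174))) (XT.nd (nat_lit 78) (nat_lit 608) (nat_lit 0) (XT.lf (nat_lit 0) (nat_lit 53854515187) (nat_lit 912) (nat_lit 36711062952) (nat_lit 76) (nat_lit 27258413896) (nat_lit 307) (nat_lit 5) (nat_lit 319) (nat_lit 5) (nat_lit 308) (nat_lit 5) (nat_lit 523) (nat_lit 504) (nat_lit 173)) (XT.lf (nat_lit 0) (nat_lit 27768066522) (nat_lit 608) (nat_lit 38068905274) (nat_lit 684) (nat_lit 53909416463) (nat_lit 299) (nat_lit 5) (nat_lit 307) (nat_lit 5) (nat_lit 308) (nat_lit 5) (nat_lit 524) (nat_lit 504) (nat_lit 172)))) (XT.nd (nat_lit 156) (nat_lit 532) (nat_lit 0) (XT.nd (nat_lit 78) (nat_lit 608) (nat_lit 0) (XT.lf (nat_lit 0) (nat_lit 78706909529) (nat_lit 684) (nat_lit 26938916596) (nat_lit 76) (nat_lit 16064790031) (nat_lit 299) (nat_lit 5) (nat_lit 308) (nat_lit 5) (nat_lit 300) (nat_lit 5) (nat_lit 525) (nat_lit 504) (nat_lit 171)) (XT.lf (nat_lit 0) (nat_lit 40464163712)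 (nat_lit 608) (nat_lit 52264473506) (nat_lit 684) (nat_lit 30982162925) (nat_lit 291) (nat_lit 5) (nat_lit 299) (nat_lit 5) (nat_lit 300) (nat_lit 5) (nat_lit 526) (nat_lit 504) (nat_lit 170))) (XT.nd (nat_lit 78) (nat_lit 532) (nat_lit 0) (XT.lf (nat_lit 0) (nat_lit 107471680069) (nat_lit 684) (nat_lit 15350287072) (nat_lit 76) (nat_lit 2940002616) (nat_lit 291) (nat_lit 5) (nat_lit 300) (nat_lit 5) (nat_lit 292) (nat_lit 5) (nat_lit 527) (nat_lit 504) (nat_lit 169)) (XT.lf (nat_lit 0) (nat_lit 55141301120) (nat_lit 532) (nat_lit 68563050158) (nat_lit 608) (nat_lit 4138903078) (nat_lit 284) (nat_lit 5) (nat_lit 291) (nat_lit 5) (nat_lit 292) (nat_lit 5) (nat_lit 528) (nat_lit 504) (nat_lit 168))))) (XT.nd (nat_lit 60840) (nat_lit 0) (nat_lit 3420) (XT.nd (nat_lit 60684) (nat_lit 0) (nat_lit 3344) (XT.nd (nat_lit 60606) (nat_lit 0) (nat_lit 3344) (XT.lf (nat_lit 0) (nat_lit 10389720632) (nat_lit 608) (nat_lit 2022075091)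 (nat_lit 76) (nat_lit 117567481180) (nat_lit 283) (nat_lit 5) (nat_lit 291) (nat_lit 5) (nat_lit 284) (nat_lit 5) (nat_lit 529) (nat_lit 504) (nat_lit 167)) (XT.lf (nat_lit 0) (nat_lit 26469304483) (nat_lit 1292) (nat_lit 9377792216) (nat_lit 1292) (nat_lit 9377792216) (nat_lit 327) (nat_lit 3) (nat_lit 344) (nat_lit 3) (nat_lit 344) (nat_lit 5) (nat_lit 505) (nat_lit 505) (nat_lit 190))) (XT.nd (nat_lit 78) (nat_lit 0) (nat_lit 76) (XT.lf (nat_lit 76) (nat_lit 26810646073) (nat_lit 0) (nat_lit 27187727302) (nat_lit 1292) (nat_lit 37800180199) (nat_lit 328) (nat_lit 5) (nat_lit 327) (nat_lit 3) (nat_lit 344) (nat_lit 5) (nat_lit 506) (nat_lit 505) (nat_lit 189)) (XT.lf (nat_lit 0) (nat_lit 55460202564) (nat_lit 1216) (nat_lit 19235138471) (nat_lit 1292) (nat_lit 18481343410) (nat_lit 328) (nat_lit 5) (nat_lit 344) (nat_lit 5) (nat_lit 345) (nat_lit 5) (nat_lit 507) (nat_lit 505) (nat_lit 188)))) (XT.nd (nat_lit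 156) (nat_lit 0) (nat_lit 76) (XT.nd (nat_lit 78) (nat_lit 0) (nat_lit 76) (XT.lf (nat_lit 76) (nat_lit 28170568436) (nat_lit 0) (nat_lit 29334994422) (nat_lit 1292) (nat_lit 37074406114) (nat_lit 329) (nat_lit 5) (nat_lit 328) (nat_lit 5) (nat_lit 345) (nat_lit 5) (nat_lit 508) (nat_lit 505) (nat_lit 187)) (XT.lf (nat_lit 0) (nat_lit 59975277196) (nat_lit 1216) (nat_lit 18796003912) (nat_lit 1292) (nat_lit 17243181142) (nat_lit 329) (nat_lit 5) (nat_lit 345) (nat_lit 5) (nat_lit 346) (nat_lit 5) (nat_lit 509) (nat_lit 505) (nat_lit 186))) (XT.nd (nat_lit 78) (nat_lit 0) (nat_lit 76) (XT.lf (nat_lit 76) (nat_lit 30551343591) (nat_lit 0) (nat_lit 32551578097) (nat_lit 1292) (nat_lit 34371553490) (nat_lit 330) (nat_lit 5) (nat_lit 329) (nat_lit 5) (nat_lit 346) (nat_lit 5) (nat_lit 510) (nat_lit 505) (nat_lit 185)) (XT.lf (nat_lit 0) (nat_lit 66660515403) (nat_lit 1216) (nat_lit 17354957607) (nat_lit 1292) (nat_lit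 14952731900) (nat_lit 330) (nat_lit 5) (nat_lit 346) (nat_lit 5) (nat_lit 347) (nat_lit 5) (nat_lit 511) (nat_lit 505) (nat_lit 184))))))))
noncomputable def xc252 : XT := (XT.nd (nat_lit 63024) (nat_lit 684) (nat_lit 0) (XT.nd (nat_lit 1170) (nat_lit 1140) (nat_lit 0) (XT.nd (nat_lit 546) (nat_lit 2356) (nat_lit 0) (XT.nd (nat_lit 234) (nat_lit 0) (nat_lit 152) (XT.nd (nat_lit 78) (nat_lit 0) (nat_lit 76) (XT.lf (nat_lit 76) (nat_lit 34042077536) (nat_lit 0) (nat_lit 36932016321) (nat_lit 1292) (nat_lit 29513174982) (nat_lit 331) (nat_lit 5) (nat_lit 330) (nat_lit 5) (nat_lit 347) (nat_lit 5) (nat_lit 512) (nat_lit 505) (nat_lit 183)) (XT.nd (nat_lit 78) (nat_lit 0) (nat_lit 0) (XT.lf (nat_lit 0) (nat_lit 75704963417) (nat_lit 1216) (nat_lit 14822940472) (nat_lit 1292) (nat_lit 11515364295) (nat_lit 331) (nat_lit 5) (nat_lit 347) (nat_lit 5) (nat_lit 348) (nat_lit 5) (nat_lit 513) (nat_lit 505) (nat_lit 182)) (XT.lf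 (nat_lit 76) (nat_lit 38738056863) (nat_lit 0) (nat_lit 42577485108) (nat_lit 1292) (nat_lit 22308272064) (nat_lit 332) (nat_lit 5) (nat_lit 331) (nat_lit 5) (nat_lit 348) (nat_lit 5) (nat_lit 514) (nat_lit 505) (nat_lit 181)))) (XT.nd (nat_lit 156) (nat_lit 0) (nat_lit 76) (XT.nd (nat_lit 78) (nat_lit 0) (nat_lit 0) (XT.lf (nat_lit 0) (nat_lit 87310830237) (nat_lit 1216) (nat_lit 11104686676) (nat_lit 1292) (nat_lit 6829767589) (nat_lit 332) (nat_lit 5) (nat_lit 348) (nat_lit 5) (nat_lit 349) (nat_lit 5) (nat_lit 515) (nat_lit 505) (nat_lit 180)) (XT.lf (nat_lit 76) (nat_lit 44741139828) (nat_lit 0) (nat_lit 49596234936) (nat_lit 1292) (nat_lit 12552482401) (nat_lit 333) (nat_lit 5) (nat_lit 332) (nat_lit 5) (nat_lit 349) (nat_lit 5) (nat_lit 516) (nat_lit 505) (nat_lit 179))) (XT.nd (nat_lit 78) (nat_lit 0) (nat_lit 0) (XT.lf (nat_lit 0) (nat_lit 101694336369) (nat_lit 1216) (nat_lit 6098330298) (nat_lit 1292)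 (nat_lit 787511730) (nat_lit 333) (nat_lit 5) (nat_lit 349) (nat_lit 5) (nat_lit 350) (nat_lit 5) (nat_lit 517) (nat_lit 505) (nat_lit 178)) (XT.lf (nat_lit 76) (nat_lit 52160171133) (nat_lit 0) (nat_lit 58104054883) (nat_lit 1292) (nat_lit 27216684) (nat_lit 334) (nat_lit 5) (nat_lit 333) (nat_lit 5) (nat_lit 350) (nat_lit 5) (nat_lit 518) (nat_lit 505) (nat_lit 177))))) (XT.nd (nat_lit 312) (nat_lit 1292) (nat_lit 0) (XT.nd (nat_lit 156) (nat_lit 0) (nat_lit 76) (XT.nd (nat_lit 78) (nat_lit 0) (nat_lit 76) (XT.lf (nat_lit 76) (nat_lit 174203011) (nat_lit 0) (nat_lit 6789283983) (nat_lit 1368) (nat_lit 105086619380) (nat_lit 317) (nat_lit 5) (nat_lit 316) (nat_lit 5) (nat_lit 334) (nat_lit 5) (nat_lit 519) (nat_lit 505) (nat_lit 176)) (XT.lf (nat_lit 0) (nat_lit 15198772763) (nat_lit 1292) (nat_lit 52872515653) (nat_lit 1368) (nat_lit 45759171227) (nat_lit 317) (nat_lit 5) (nat_lit 334) (nat_lit 5) (nat_lit 335)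 (nat_lit 5) (nat_lit 520) (nat_lit 505) (nat_lit 175))) (XT.nd (nat_lit 78) (nat_lit 0) (nat_lit 76) (XT.lf (nat_lit 76) (nat_lit 7989475729) (nat_lit 0) (nat_lit 15835448007) (nat_lit 1368) (nat_lit 91834985584) (nat_lit 318) (nat_lit 5) (nat_lit 317) (nat_lit 5) (nat_lit 335) (nat_lit 5) (nat_lit 521) (nat_lit 505) (nat_lit 174)) (XT.lf (nat_lit 0) (nat_lit 33613811792) (nat_lit 1292) (nat_lit 46137501965) (nat_lit 76) (nat_lit 37765810163) (nat_lit 318) (nat_lit 5) (nat_lit 335) (nat_lit 5) (nat_lit 319) (nat_lit 5) (nat_lit 522) (nat_lit 505) (nat_lit 173)))) (XT.nd (nat_lit 156) (nat_lit 608) (nat_lit 0) (XT.nd (nat_lit 78) (nat_lit 0) (nat_lit 0) (XT.lf (nat_lit 0) (nat_lit 17424464895) (nat_lit 836) (nat_lit 26595979975) (nat_lit 912) (nat_lit 75399887745) (nat_lit 307) (nat_lit 5) (nat_lit 318) (nat_lit 5) (nat_lit 319) (nat_lit 5) (nat_lit 523) (nat_lit 505) (nat_lit 172)) (XT.lf (nat_lit 0) (nat_lit 55480223245)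 (nat_lit 912) (nat_lit 37803027330) (nat_lit 76) (nat_lit 28075158616) (nat_lit 307) (nat_lit 5) (nat_lit 319) (nat_lit 5) (nat_lit 308) (nat_lit 5) (nat_lit 524) (nat_lit 505) (nat_lit 171))) (XT.nd (nat_lit 78) (nat_lit 0) (nat_lit 0) (XT.lf (nat_lit 0) (nat_lit 28610384190) (nat_lit 608) (nat_lit 39211565148) (nat_lit 684) (nat_lit 55516534102) (nat_lit 299) (nat_lit 5) (nat_lit 307) (nat_lit 5) (nat_lit 308) (nat_lit 5) (nat_lit 525) (nat_lit 505) (nat_lit 170)) (XT.lf (nat_lit 0) (nat_lit 81077692243) (nat_lit 684) (nat_lit 27737785223) (nat_lit 76) (nat_lit 16546169508) (nat_lit 299) (nat_lit 5) (nat_lit 308) (nat_lit 5) (nat_lit 300) (nat_lit 5) (nat_lit 526) (nat_lit 505) (nat_lit 169)))))) (XT.nd (nat_lit 61230) (nat_lit 0) (nat_lit 3420) (XT.nd (nat_lit 60918) (nat_lit 0) (nat_lit 3268) (XT.nd (nat_lit 156) (nat_lit 532) (nat_lit 0) (XT.nd (nat_lit 78) (nat_lit 0) (nat_lit 0) (XT.lf (nat_lit 0) (nat_lit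 41687296329) (nat_lit 608) (nat_lit 53832585048) (nat_lit 684) (nat_lit 31901960828) (nat_lit 291) (nat_lit 5) (nat_lit 299) (nat_lit 5) (nat_lit 300) (nat_lit 5) (nat_lit 527) (nat_lit 505) (nat_lit 168)) (XT.lf (nat_lit 0) (nat_lit 110704940507) (nat_lit 684) (nat_lit 15801580778) (nat_lit 76) (nat_lit 3028033883) (nat_lit 291) (nat_lit 5) (nat_lit 300) (nat_lit 5) (nat_lit 292) (nat_lit 5) (nat_lit 528) (nat_lit 505) (nat_lit 167))) (XT.nd (nat_lit 60684) (nat_lit 0) (nat_lit 3268) (XT.lf (nat_lit 0) (nat_lit 56804664717) (nat_lit 532) (nat_lit 70619749506) (nat_lit 608) (nat_lit 4253869422) (nat_lit 284) (nat_lit 5) (nat_lit 291) (nat_lit 5) (nat_lit 292) (nat_lit 5) (nat_lit 529) (nat_lit 505) (nat_lit 166)) (XT.lf (nat_lit 0) (nat_lit 27271271996) (nat_lit 1292) (nat_lit 9655063286) (nat_lit 1292) (nat_lit 9655063286) (nat_lit 327) (nat_lit 3) (nat_lit 344) (nat_lit 3) (nat_lit 344) (nat_lit 5) (nat_lit 506)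 (nat_lit 506) (nat_lit 188)))) (XT.nd (nat_lit 156) (nat_lit 0) (nat_lit 76) (XT.nd (nat_lit 78) (nat_lit 0) (nat_lit 76) (XT.lf (nat_lit 76) (nat_lit 27623011187) (nat_lit 0) (nat_lit 28010707967) (nat_lit 1292) (nat_lit 38918328481) (nat_lit 328) (nat_lit 5) (nat_lit 327) (nat_lit 3) (nat_lit 344) (nat_lit 5) (nat_lit 507) (nat_lit 506) (nat_lit 187)) (XT.lf (nat_lit 0) (nat_lit 57138886251) (nat_lit 1216) (nat_lit 19803863578) (nat_lit 1292) (nat_lit 19028788136) (nat_lit 328) (nat_lit 5) (nat_lit 344) (nat_lit 5) (nat_lit 345) (nat_lit 5) (nat_lit 508) (nat_lit 506) (nat_lit 186))) (XT.nd (nat_lit 78) (nat_lit 0) (nat_lit 76) (XT.lf (nat_lit 76) (nat_lit 29023932878) (nat_lit 0) (nat_lit 30221320425) (nat_lit 1292) (nat_lit 38171678365) (nat_lit 329) (nat_lit 5) (nat_lit 328) (nat_lit 5) (nat_lit 345) (nat_lit 5) (nat_lit 509) (nat_lit 506) (nat_lit 185)) (XT.lf (nat_lit 0) (nat_lit 61788577482) (nat_lit 1216)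 (nat_lit 19351394619) (nat_lit 1292) (nat_lit 17754502111) (nat_lit 329) (nat_lit 5) (nat_lit 345) (nat_lit 5) (nat_lit 346) (nat_lit 5) (nat_lit 510) (nat_lit 506) (nat_lit 184))))) (XT.nd (nat_lit 312) (nat_lit 0) (nat_lit 152) (XT.nd (nat_lit 156) (nat_lit 0) (nat_lit 76) (XT.nd (nat_lit 78) (nat_lit 0) (nat_lit 76) (XT.lf (nat_lit 76) (nat_lit 31476290080) (nat_lit 0) (nat_lit 33533433045) (nat_lit 1292) (nat_lit 35388574267) (nat_lit 330) (nat_lit 5) (nat_lit 329) (nat_lit 5) (nat_lit 346) (nat_lit 5) (nat_lit 511) (nat_lit 506) (nat_lit 183)) (XT.lf (nat_lit 0) (nat_lit 68673595686) (nat_lit 1216) (nat_lit 17866995420) (nat_lit 1292) (nat_lit 15396261397) (nat_lit 330) (nat_lit 5) (nat_lit 346) (nat_lit 5) (nat_lit 347) (nat_lit 5) (nat_lit 512) (nat_lit 506) (nat_lit 182))) (XT.nd (nat_lit 78) (nat_lit 0) (nat_lit 76) (XT.lf (nat_lit 76) (nat_lit 35071866357) (nat_lit 0) (nat_lit 38044410746) (nat_lit 1292)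 (nat_lit 30385220396) (nat_lit 331) (nat_lit 5) (nat_lit 330) (nat_lit 5) (nat_lit 347) (nat_lit 5) (nat_lit 513) (nat_lit 506) (nat_lit 181)) (XT.lf (nat_lit 0) (nat_lit 77988653881) (nat_lit 1216) (nat_lit 15258931093) (nat_lit 1292) (nat_lit 11856604435) (nat_lit 331) (nat_lit 5) (nat_lit 347) (nat_lit 5) (nat_lit 348) (nat_lit 5) (nat_lit 514) (nat_lit 506) (nat_lit 180)))) (XT.nd (nat_lit 156) (nat_lit 0) (nat_lit 76) (XT.nd (nat_lit 78) (nat_lit 0) (nat_lit 76) (XT.lf (nat_lit 76) (nat_lit 39908810892) (nat_lit 0) (nat_lit 43858456398) (nat_lit 1292) (nat_lit 22964892836) (nat_lit 332) (nat_lit 5) (nat_lit 331) (nat_lit 5) (nat_lit 348) (nat_lit 5) (nat_lit 515) (nat_lit 506) (nat_lit 179)) (XT.lf (nat_lit 0) (nat_lit 89942023110) (nat_lit 1216) (nat_lit 11429074162) (nat_lit 1292) (nat_lit 7031189184) (nat_lit 332) (nat_lit 5) (nat_lit 348) (nat_lit 5) (nat_lit 349) (nat_lit 5) (nat_lit 516) (nat_lit 506)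 (nat_lit 178))) (XT.nd (nat_lit 78) (nat_lit 0) (nat_lit 76) (XT.lf (nat_lit 76) (nat_lit 46092041323) (nat_lit 0) (nat_lit 51087060298) (nat_lit 1292) (nat_lit 12917102565) (nat_lit 333) (nat_lit 5) (nat_lit 332) (nat_lit 5) (nat_lit 349) (nat_lit 5) (nat_lit 517) (nat_lit 506) (nat_lit 177)) (XT.lf (nat_lit 0) (nat_lit 104756406623) (nat_lit 1216) (nat_lit 6272499393) (nat_lit 1292) (nat_lit 808340018) (nat_lit 333) (nat_lit 5) (nat_lit 349) (nat_lit 5) (nat_lit 350) (nat_lit 5) (nat_lit 518) (nat_lit 506) (nat_lit 176))))))) (XT.nd (nat_lit 61854) (nat_lit 0) (nat_lit 2432) (XT.nd (nat_lit 546) (nat_lit 2432) (nat_lit 0) (XT.nd (nat_lit 234) (nat_lit 684) (nat_lit 0) (XT.nd (nat_lit 78) (nat_lit 1292) (nat_lit 0) (XT.lf (nat_lit 76) (nat_lit 53733670995) (nat_lit 0) (nat_lit 59849478160) (nat_lit 1292) (nat_lit 16706440) (nat_lit 334) (nat_lit 5) (nat_lit 333) (nat_lit 5) (nat_lit 350) (nat_lit 5) (nat_lit 519)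 (nat_lit 506) (nat_lit 175)) (XT.nd (nat_lit 78) (nat_lit 0) (nat_lit 76) (XT.lf (nat_lit 76) (nat_lit 188257922) (nat_lit 0) (nat_lit 6995000802) (nat_lit 1368) (nat_lit 108228024360) (nat_lit 317) (nat_lit 5) (nat_lit 316) (nat_lit 5) (nat_lit 334) (nat_lit 5) (nat_lit 520) (nat_lit 506) (nat_lit 174)) (XT.lf (nat_lit 0) (nat_lit 15665267525) (nat_lit 1292) (nat_lit 54449783458) (nat_lit 1368) (nat_lit 47130006049) (nat_lit 317) (nat_lit 5) (nat_lit 334) (nat_lit 5) (nat_lit 335) (nat_lit 5) (nat_lit 521) (nat_lit 506) (nat_lit 173)))) (XT.nd (nat_lit 156) (nat_lit 760) (nat_lit 0) (XT.nd (nat_lit 78) (nat_lit 0) (nat_lit 76) (XT.lf (nat_lit 76) (nat_lit 8237980336) (nat_lit 0) (nat_lit 16312000733) (nat_lit 1368) (nat_lit 94579415802) (nat_lit 318) (nat_lit 5) (nat_lit 317) (nat_lit 5) (nat_lit 335) (nat_lit 5) (nat_lit 522) (nat_lit 506) (nat_lit 172)) (XT.lf (nat_lit 0) (nat_lit 34632221587) (nat_lit 1292)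 (nat_lit 47512748985) (nat_lit 76) (nat_lit 38897366775) (nat_lit 318) (nat_lit 5) (nat_lit 335) (nat_lit 5) (nat_lit 319) (nat_lit 5) (nat_lit 523) (nat_lit 506) (nat_lit 171))) (XT.nd (nat_lit 78) (nat_lit 0) (nat_lit 0) (XT.lf (nat_lit 0) (nat_lit 17955989841) (nat_lit 836) (nat_lit 27394857192) (nat_lit 912) (nat_lit 77651801481) (nat_lit 307) (nat_lit 5) (nat_lit 318) (nat_lit 5) (nat_lit 319) (nat_lit 5) (nat_lit 524) (nat_lit 506) (nat_lit 170)) (XT.lf (nat_lit 0) (nat_lit 57154124335) (nat_lit 912) (nat_lit 38928288372) (nat_lit 76) (nat_lit 28916463524) (nat_lit 307) (nat_lit 5) (nat_lit 319) (nat_lit 5) (nat_lit 308) (nat_lit 5) (nat_lit 525) (nat_lit 506) (nat_lit 169))))) (XT.nd (nat_lit 60996) (nat_lit 0) (nat_lit 3952) (XT.nd (nat_lit 156) (nat_lit 1824) (nat_lit 0) (XT.nd (nat_lit 78) (nat_lit 0) (nat_lit 0) (XT.lf (nat_lit 0) (nat_lit 29477438927) (nat_lit 608) (nat_lit 40388470794) (nat_lit 684)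 (nat_lit 57172448774) (nat_lit 299) (nat_lit 5) (nat_lit 307) (nat_lit 5) (nat_lit 308) (nat_lit 5) (nat_lit 526) (nat_lit 506) (nat_lit 168)) (XT.lf (nat_lit 0) (nat_lit 83519048769) (nat_lit 684) (nat_lit 28561153702) (nat_lit 76) (nat_lit 17042022759) (nat_lit 299) (nat_lit 5) (nat_lit 308) (nat_lit 5) (nat_lit 300) (nat_lit 5) (nat_lit 527) (nat_lit 506) (nat_lit 167))) (XT.nd (nat_lit 312) (nat_lit 1216) (nat_lit 0) (XT.lf (nat_lit 0) (nat_lit 42946594364) (nat_lit 608) (nat_lit 55447729756) (nat_lit 684) (nat_lit 32849907592) (nat_lit 291) (nat_lit 5) (nat_lit 299) (nat_lit 5) (nat_lit 300) (nat_lit 5) (nat_lit 528) (nat_lit 506) (nat_lit 166)) (XT.lf (nat_lit 0) (nat_lit 28033465726) (nat_lit 684) (nat_lit 64120073099) (nat_lit 76) (nat_lit 48037557277) (nat_lit 275) (nat_lit 5) (nat_lit 284) (nat_lit 5) (nat_lit 276) (nat_lit 5) (nat_lit 532) (nat_lit 506) (nat_lit 162)))) (XT.nd (nat_lit 156) (nat_lit 0)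 (nat_lit 76) (XT.nd (nat_lit 78) (nat_lit 0) (nat_lit 0) (XT.lf (nat_lit 0) (nat_lit 28096845708) (nat_lit 1292) (nat_lit 9940885703) (nat_lit 1292) (nat_lit 9940885703) (nat_lit 327) (nat_lit 3) (nat_lit 344) (nat_lit 3) (nat_lit 344) (nat_lit 5) (nat_lit 507) (nat_lit 507) (nat_lit 186)) (XT.lf (nat_lit 76) (nat_lit 28459285398) (nat_lit 0) (nat_lit 28857956199) (nat_lit 1292) (nat_lit 40070931475) (nat_lit 328) (nat_lit 5) (nat_lit 327) (nat_lit 3) (nat_lit 344) (nat_lit 5) (nat_lit 508) (nat_lit 507) (nat_lit 185))) (XT.nd (nat_lit 78) (nat_lit 0) (nat_lit 0) (XT.lf (nat_lit 0) (nat_lit 58867076412) (nat_lit 1216) (nat_lit 20390128560) (nat_lit 1292) (nat_lit 19593057778) (nat_lit 328) (nat_lit 5) (nat_lit 344) (nat_lit 5) (nat_lit 345) (nat_lit 5) (nat_lit 509) (nat_lit 507) (nat_lit 184)) (XT.lf (nat_lit 76) (nat_lit 29902424821) (nat_lit 0) (nat_lit 31133875930) (nat_lit 1292) (nat_lit 39302727544) (nat_lit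 329) (nat_lit 5) (nat_lit 328) (nat_lit 5) (nat_lit 345) (nat_lit 5) (nat_lit 510) (nat_lit 507) (nat_lit 183)))))) (XT.nd (nat_lit 624) (nat_lit 1672) (nat_lit 0) (XT.nd (nat_lit 312) (nat_lit 0) (nat_lit 152) (XT.nd (nat_lit 156) (nat_lit 0) (nat_lit 76) (XT.nd (nat_lit 78) (nat_lit 0) (nat_lit 0) (XT.lf (nat_lit 0) (nat_lit 63655470710) (nat_lit 1216) (nat_lit 19923934373) (nat_lit 1292) (nat_lit 18281505668) (nat_lit 329) (nat_lit 5) (nat_lit 345) (nat_lit 5) (nat_lit 346) (nat_lit 5) (nat_lit 511) (nat_lit 507) (nat_lit 182)) (XT.lf (nat_lit 76) (nat_lit 32428502415) (nat_lit 0) (nat_lit 34544438963) (nat_lit 1292) (nat_lit 36436916547) (nat_lit 330) (nat_lit 5) (nat_lit 329) (nat_lit 5) (nat_lit 346) (nat_lit 5) (nat_lit 512) (nat_lit 507) (nat_lit 181))) (XT.nd (nat_lit 78) (nat_lit 0) (nat_lit 0) (XT.lf (nat_lit 0) (nat_lit 70746306924) (nat_lit 1216) (nat_lit 18394888669) (nat_lit 1292) (nat_lit 15853386810)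 (nat_lit 330) (nat_lit 5) (nat_lit 346) (nat_lit 5) (nat_lit 347) (nat_lit 5) (nat_lit 513) (nat_lit 507) (nat_lit 180)) (XT.lf (nat_lit 76) (nat_lit 36132059387) (nat_lit 0) (nat_lit 39189922477) (nat_lit 1292) (nat_lit 31284193509) (nat_lit 331) (nat_lit 5) (nat_lit 330) (nat_lit 5) (nat_lit 347) (nat_lit 5) (nat_lit 514) (nat_lit 507) (nat_lit 179)))) (XT.nd (nat_lit 156) (nat_lit 0) (nat_lit 76) (XT.nd (nat_lit 78) (nat_lit 0) (nat_lit 0) (XT.lf (nat_lit 0) (nat_lit 80340135121) (nat_lit 1216) (nat_lit 15708500709) (nat_lit 1292) (nat_lit 12208324070) (nat_lit 331) (nat_lit 5) (nat_lit 347) (nat_lit 5) (nat_lit 348) (nat_lit 5) (nat_lit 515) (nat_lit 507) (nat_lit 178)) (XT.lf (nat_lit 76) (nat_lit 41114193159) (nat_lit 0) (nat_lit 45177647489) (nat_lit 1292) (nat_lit 23641937095) (nat_lit 332) (nat_lit 5) (nat_lit 331) (nat_lit 5) (nat_lit 348) (nat_lit 5) (nat_lit 516) (nat_lit 507) (nat_lit 177))) (XT.nd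 (nat_lit 78) (nat_lit 0) (nat_lit 0) (XT.lf (nat_lit 0) (nat_lit 92651470500) (nat_lit 1216) (nat_lit 11763695737) (nat_lit 1292) (nat_lit 7238852701) (nat_lit 332) (nat_lit 5) (nat_lit 348) (nat_lit 5) (nat_lit 349) (nat_lit 5) (nat_lit 517) (nat_lit 507) (nat_lit 176)) (XT.lf (nat_lit 76) (nat_lit 47482972323) (nat_lit 0) (nat_lit 52622441749) (nat_lit 1292) (nat_lit 13293347562) (nat_lit 333) (nat_lit 5) (nat_lit 332) (nat_lit 5) (nat_lit 349) (nat_lit 5) (nat_lit 518) (nat_lit 507) (nat_lit 175))))) (XT.nd (nat_lit 312) (nat_lit 684) (nat_lit 0) (XT.nd (nat_lit 156) (nat_lit 1292) (nat_lit 0) (XT.nd (nat_lit 78) (nat_lit 0) (nat_lit 0) (XT.lf (nat_lit 0) (nat_lit 107909693753) (nat_lit 1216) (nat_lit 6452397615) (nat_lit 1292) (nat_lit 829953717) (nat_lit 333) (nat_lit 5) (nat_lit 349) (nat_lit 5) (nat_lit 350) (nat_lit 5) (nat_lit 519) (nat_lit 507) (nat_lit 174)) (XT.lf (nat_lit 76) (nat_lit 55353876740) (nat_lit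 0) (nat_lit 61647132012) (nat_lit 1292) (nat_lit 6531089) (nat_lit 334) (nat_lit 5) (nat_lit 333) (nat_lit 5) (nat_lit 350) (nat_lit 5) (nat_lit 520) (nat_lit 507) (nat_lit 173))) (XT.nd (nat_lit 78) (nat_lit 0) (nat_lit 76) (XT.lf (nat_lit 76) (nat_lit 202227670) (nat_lit 0) (nat_lit 7206772119) (nat_lit 1368) (nat_lit 111464314048) (nat_lit 317) (nat_lit 5) (nat_lit 316) (nat_lit 5) (nat_lit 334) (nat_lit 5) (nat_lit 521) (nat_lit 507) (nat_lit 172)) (XT.lf (nat_lit 0) (nat_lit 16145152574) (nat_lit 1292) (nat_lit 56074880633) (nat_lit 1368) (nat_lit 48542077297) (nat_lit 317) (nat_lit 5) (nat_lit 334) (nat_lit 5) (nat_lit 335) (nat_lit 5) (nat_lit 522) (nat_lit 507) (nat_lit 171)))) (XT.nd (nat_lit 156) (nat_lit 760) (nat_lit 0) (XT.nd (nat_lit 78) (nat_lit 0) (nat_lit 76) (XT.lf (nat_lit 76) (nat_lit 8493433758) (nat_lit 0) (nat_lit 16802764549) (nat_lit 1368) (nat_lit 97406788520) (nat_lit 318) (nat_lit 5)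 (nat_lit 317) (nat_lit 5) (nat_lit 335) (nat_lit 5) (nat_lit 523) (nat_lit 507) (nat_lit 170)) (XT.lf (nat_lit 0) (nat_lit 35680609897) (nat_lit 1292) (nat_lit 48929763051) (nat_lit 76) (nat_lit 40062951466) (nat_lit 318) (nat_lit 5) (nat_lit 335) (nat_lit 5) (nat_lit 319) (nat_lit 5) (nat_lit 524) (nat_lit 507) (nat_lit 169))) (XT.nd (nat_lit 78) (nat_lit 0) (nat_lit 0) (XT.lf (nat_lit 0) (nat_lit 18502955897) (nat_lit 836) (nat_lit 28217643446) (nat_lit 912) (nat_lit 79971851428) (nat_lit 307) (nat_lit 5) (nat_lit 318) (nat_lit 5) (nat_lit 319) (nat_lit 5) (nat_lit 525) (nat_lit 507) (nat_lit 168)) (XT.lf (nat_lit 0) (nat_lit 58877697441) (nat_lit 912) (nat_lit 40087814112) (nat_lit 76) (nat_lit 29783062104) (nat_lit 307) (nat_lit 5) (nat_lit 319) (nat_lit 5) (nat_lit 308) (nat_lit 5) (nat_lit 526) (nat_lit 507) (nat_lit 167))))))))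
noncomputable def xc253 : XT := (XT.nd (nat_lit 124098) (nat_lit 0) (nat_lit 608) (XT.nd (nat_lit 61932) (nat_lit 0) (nat_lit 0) (XT.nd (nat_lit 61308) (nat_lit 0) (nat_lit 2888) (XT.nd (nat_lit 60996) (nat_lit 0) (nat_lit 2736) (XT.nd (nat_lit 78) (nat_lit 608) (nat_lit 0) (XT.lf (nat_lit 0) (nat_lit 30370003410) (nat_lit 608) (nat_lit 41600651538) (nat_lit 684) (nat_lit 58878590895) (nat_lit 299) (nat_lit 5) (nat_lit 307) (nat_lit 5) (nat_lit 308) (nat_lit 5) (nat_lit 527) (nat_lit 507) (nat_lit 166)) (XT.nd (nat_lit 78) (nat_lit 608) (nat_lit 0) (XT.lf (nat_lit 0) (nat_lit 86033127876) (nat_lit 684) (nat_lit 29409726387) (nat_lit 76) (nat_lit 17552782137) (nat_lit 299) (nat_lit 5) (nat_lit 308) (nat_lit 5) (nat_lit 300) (nat_lit 5) (nat_lit 528) (nat_lit 507) (nat_lit 165)) (XT.lf (nat_lit 0) (nat_lit 44243173122) (nat_lit 608) (nat_lit 57111319210) (nat_lit 684) (nat_lit 33826815829) (nat_lit 291) (nat_lit 5)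 (nat_lit 299) (nat_lit 5) (nat_lit 300) (nat_lit 5) (nat_lit 529) (nat_lit 507) (nat_lit 164)))) (XT.nd (nat_lit 156) (nat_lit 0) (nat_lit 76) (XT.nd (nat_lit 78) (nat_lit 0) (nat_lit 0) (XT.lf (nat_lit 0) (nat_lit 28946759801) (nat_lit 1292) (nat_lit 10235502621) (nat_lit 1292) (nat_lit 10235502621) (nat_lit 327) (nat_lit 3) (nat_lit 344) (nat_lit 3) (nat_lit 344) (nat_lit 5) (nat_lit 508) (nat_lit 508) (nat_lit 184)) (XT.lf (nat_lit 76) (nat_lit 29320212489) (nat_lit 0) (nat_lit 29730224240) (nat_lit 1292) (nat_lit 41258970571) (nat_lit 328) (nat_lit 5) (nat_lit 327) (nat_lit 3) (nat_lit 344) (nat_lit 5) (nat_lit 509) (nat_lit 508) (nat_lit 183))) (XT.nd (nat_lit 78) (nat_lit 0) (nat_lit 0) (XT.lf (nat_lit 0) (nat_lit 60646307268) (nat_lit 1216) (nat_lit 20994432166) (nat_lit 1292) (nat_lit 20174634032) (nat_lit 328) (nat_lit 5) (nat_lit 344) (nat_lit 5) (nat_lit 345) (nat_lit 5) (nat_lit 510) (nat_lit 508) (nat_lit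 182)) (XT.lf (nat_lit 76) (nat_lit 30806825264) (nat_lit 0) (nat_lit 32073468503) (nat_lit 1292) (nat_lit 40468517664) (nat_lit 329) (nat_lit 5) (nat_lit 328) (nat_lit 5) (nat_lit 345) (nat_lit 5) (nat_lit 511) (nat_lit 508) (nat_lit 181))))) (XT.nd (nat_lit 312) (nat_lit 0) (nat_lit 152) (XT.nd (nat_lit 156) (nat_lit 0) (nat_lit 76) (XT.nd (nat_lit 78) (nat_lit 0) (nat_lit 0) (XT.lf (nat_lit 0) (nat_lit 65577610941) (nat_lit 1216) (nat_lit 20514109672) (nat_lit 1292) (nat_lit 18824642602) (nat_lit 329) (nat_lit 5) (nat_lit 345) (nat_lit 5) (nat_lit 346) (nat_lit 5) (nat_lit 512) (nat_lit 508) (nat_lit 180)) (XT.lf (nat_lit 76) (nat_lit 33408826270) (nat_lit 0) (nat_lit 35585487870) (nat_lit 1292) (nat_lit 37517473428) (nat_lit 330) (nat_lit 5) (nat_lit 329) (nat_lit 5) (nat_lit 346) (nat_lit 5) (nat_lit 513) (nat_lit 508) (nat_lit 179))) (XT.nd (nat_lit 78) (nat_lit 0) (nat_lit 0) (XT.lf (nat_lit 0) (nat_lit 72880481754)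 (nat_lit 1216) (nat_lit 18939084642) (nat_lit 1292) (nat_lit 16324499368) (nat_lit 330) (nat_lit 5) (nat_lit 346) (nat_lit 5) (nat_lit 347) (nat_lit 5) (nat_lit 514) (nat_lit 508) (nat_lit 178)) (XT.lf (nat_lit 76) (nat_lit 37223596849) (nat_lit 0) (nat_lit 40369559645) (nat_lit 1292) (nat_lit 32210858159) (nat_lit 331) (nat_lit 5) (nat_lit 330) (nat_lit 5) (nat_lit 347) (nat_lit 5) (nat_lit 515) (nat_lit 508) (nat_lit 177)))) (XT.nd (nat_lit 156) (nat_lit 0) (nat_lit 76) (XT.nd (nat_lit 78) (nat_lit 0) (nat_lit 0) (XT.lf (nat_lit 0) (nat_lit 82761482189) (nat_lit 1216) (nat_lit 16172028031) (nat_lit 1292) (nat_lit 12570823675) (nat_lit 331) (nat_lit 5) (nat_lit 347) (nat_lit 5) (nat_lit 348) (nat_lit 5) (nat_lit 516) (nat_lit 508) (nat_lit 176)) (XT.lf (nat_lit 76) (nat_lit 42355270892) (nat_lit 0) (nat_lit 46536216992) (nat_lit 1292) (nat_lit 24339975936) (nat_lit 332) (nat_lit 5) (nat_lit 331) (nat_lit 5) (nat_lit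 348) (nat_lit 5) (nat_lit 517) (nat_lit 508) (nat_lit 175))) (XT.nd (nat_lit 78) (nat_lit 0) (nat_lit 0) (XT.lf (nat_lit 0) (nat_lit 95441559149) (nat_lit 1216) (nat_lit 12108829581) (nat_lit 1292) (nat_lit 7452933959) (nat_lit 332) (nat_lit 5) (nat_lit 348) (nat_lit 5) (nat_lit 349) (nat_lit 5) (nat_lit 518) (nat_lit 508) (nat_lit 174)) (XT.lf (nat_lit 76) (nat_lit 48915162276) (nat_lit 0) (nat_lit 54203725654) (nat_lit 1292) (nat_lit 13681526741) (nat_lit 333) (nat_lit 5) (nat_lit 332) (nat_lit 5) (nat_lit 349) (nat_lit 5) (nat_lit 519) (nat_lit 508) (nat_lit 173)))))) (XT.nd (nat_lit 858) (nat_lit 1216) (nat_lit 0) (XT.nd (nat_lit 312) (nat_lit 684) (nat_lit 0) (XT.nd (nat_lit 156) (nat_lit 0) (nat_lit 0) (XT.nd (nat_lit 78) (nat_lit 1292) (nat_lit 0) (XT.lf (nat_lit 0) (nat_lit 111156971305) (nat_lit 1216) (nat_lit 6638167904) (nat_lit 1292) (nat_lit 852367173) (nat_lit 333) (nat_lit 5) (nat_lit 349) (nat_lit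 5) (nat_lit 350) (nat_lit 5) (nat_lit 520) (nat_lit 508) (nat_lit 172)) (XT.lf (nat_lit 0) (nat_lit 3271533) (nat_lit 1292) (nat_lit 63495286372) (nat_lit 1368) (nat_lit 57018913625) (nat_lit 316) (nat_lit 5) (nat_lit 333) (nat_lit 5) (nat_lit 334) (nat_lit 5) (nat_lit 521) (nat_lit 508) (nat_lit 171))) (XT.nd (nat_lit 78) (nat_lit 0) (nat_lit 76) (XT.lf (nat_lit 76) (nat_lit 216138793) (nat_lit 0) (nat_lit 7424786285) (nat_lit 1368) (nat_lit 114798298100) (nat_lit 317) (nat_lit 5) (nat_lit 316) (nat_lit 5) (nat_lit 334) (nat_lit 5) (nat_lit 522) (nat_lit 508) (nat_lit 170)) (XT.lf (nat_lit 0) (nat_lit 16638864323) (nat_lit 1292) (nat_lit 57749212707) (nat_lit 1368) (nat_lit 49996615671) (nat_lit 317) (nat_lit 5) (nat_lit 334) (nat_lit 5) (nat_lit 335) (nat_lit 5) (nat_lit 523) (nat_lit 508) (nat_lit 169)))) (XT.nd (nat_lit 156) (nat_lit 760) (nat_lit 0) (XT.nd (nat_lit 78) (nat_lit 0) (nat_lit 76) (XT.lf (nat_lit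 76) (nat_lit 8756073524) (nat_lit 0) (nat_lit 17308170697) (nat_lit 1368) (nat_lit 100319557021) (nat_lit 318) (nat_lit 5) (nat_lit 317) (nat_lit 5) (nat_lit 335) (nat_lit 5) (nat_lit 524) (nat_lit 508) (nat_lit 168)) (XT.lf (nat_lit 0) (nat_lit 36759909015) (nat_lit 1292) (nat_lit 50389767920) (nat_lit 76) (nat_lit 41263580408) (nat_lit 318) (nat_lit 5) (nat_lit 335) (nat_lit 5) (nat_lit 319) (nat_lit 5) (nat_lit 525) (nat_lit 508) (nat_lit 167))) (XT.nd (nat_lit 78) (nat_lit 0) (nat_lit 0) (XT.lf (nat_lit 0) (nat_lit 19065855263) (nat_lit 836) (nat_lit 29065059297) (nat_lit 912) (nat_lit 82362048448) (nat_lit 307) (nat_lit 5) (nat_lit 318) (nat_lit 5) (nat_lit 319) (nat_lit 5) (nat_lit 526) (nat_lit 508) (nat_lit 166)) (XT.lf (nat_lit 0) (nat_lit 60652464010) (nat_lit 912) (nat_lit 41282603392) (nat_lit 76) (nat_lit 30675710037) (nat_lit 307) (nat_lit 5) (nat_lit 319) (nat_lit 5) (nat_lit 308) (nat_lit 5) (nat_lit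 527) (nat_lit 508) (nat_lit 165))))) (XT.nd (nat_lit 60996) (nat_lit 0) (nat_lit 2812) (XT.nd (nat_lit 60840) (nat_lit 0) (nat_lit 2736) (XT.nd (nat_lit 60762) (nat_lit 0) (nat_lit 2736) (XT.lf (nat_lit 0) (nat_lit 120995354048) (nat_lit 684) (nat_lit 17241448771) (nat_lit 76) (nat_lit 3308349705) (nat_lit 291) (nat_lit 5) (nat_lit 300) (nat_lit 5) (nat_lit 292) (nat_lit 5) (nat_lit 531) (nat_lit 508) (nat_lit 161)) (XT.lf (nat_lit 0) (nat_lit 29821768988) (nat_lit 1292) (nat_lit 10539165255) (nat_lit 1292) (nat_lit 10539165255) (nat_lit 327) (nat_lit 3) (nat_lit 344) (nat_lit 3) (nat_lit 344) (nat_lit 5) (nat_lit 509) (nat_lit 509) (nat_lit 182))) (XT.nd (nat_lit 78) (nat_lit 0) (nat_lit 76) (XT.lf (nat_lit 76) (nat_lit 30206557038) (nat_lit 0) (nat_lit 30628285511) (nat_lit 1292) (nat_lit 42483459597) (nat_lit 328) (nat_lit 5) (nat_lit 327) (nat_lit 3) (nat_lit 344) (nat_lit 5) (nat_lit 510) (nat_lit 509) (nat_lit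 181)) (XT.lf (nat_lit 0) (nat_lit 62478156249) (nat_lit 1216) (nat_lit 21617289685) (nat_lit 1292) (nat_lit 20774014367) (nat_lit 328) (nat_lit 5) (nat_lit 344) (nat_lit 5) (nat_lit 345) (nat_lit 5) (nat_lit 511) (nat_lit 509) (nat_lit 180)))) (XT.nd (nat_lit 156) (nat_lit 0) (nat_lit 76) (XT.nd (nat_lit 78) (nat_lit 0) (nat_lit 76) (XT.lf (nat_lit 76) (nat_lit 31737937082) (nat_lit 0) (nat_lit 33040928752) (nat_lit 1292) (nat_lit 41670044485) (nat_lit 329) (nat_lit 5) (nat_lit 328) (nat_lit 5) (nat_lit 345) (nat_lit 5) (nat_lit 512) (nat_lit 509) (nat_lit 179)) (XT.lf (nat_lit 0) (nat_lit 67556699198) (nat_lit 1216) (nat_lit 21122423215) (nat_lit 1292) (nat_lit 19384378360) (nat_lit 329) (nat_lit 5) (nat_lit 345) (nat_lit 5) (nat_lit 346) (nat_lit 5) (nat_lit 513) (nat_lit 509) (nat_lit 178))) (XT.nd (nat_lit 78) (nat_lit 0) (nat_lit 76) (XT.lf (nat_lit 76) (nat_lit 34418131103) (nat_lit 0) (nat_lit 36657497542)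 (nat_lit 1292) (nat_lit 38631167472) (nat_lit 330) (nat_lit 5) (nat_lit 329) (nat_lit 5) (nat_lit 346) (nat_lit 5) (nat_lit 514) (nat_lit 509) (nat_lit 177)) (XT.lf (nat_lit 0) (nat_lit 75078005286) (nat_lit 1216) (nat_lit 19500045675) (nat_lit 1292) (nat_lit 16810002993) (nat_lit 330) (nat_lit 5) (nat_lit 346) (nat_lit 5) (nat_lit 347) (nat_lit 5) (nat_lit 515) (nat_lit 509) (nat_lit 176))))))) (XT.nd (nat_lit 62244) (nat_lit 608) (nat_lit 0) (XT.nd (nat_lit 624) (nat_lit 684) (nat_lit 0) (XT.nd (nat_lit 312) (nat_lit 1064) (nat_lit 0) (XT.nd (nat_lit 156) (nat_lit 0) (nat_lit 76) (XT.nd (nat_lit 78) (nat_lit 0) (nat_lit 76) (XT.lf (nat_lit 76) (nat_lit 38347445559) (nat_lit 0) (nat_lit 41584359785) (nat_lit 1292) (nat_lit 33166003628) (nat_lit 331) (nat_lit 5) (nat_lit 330) (nat_lit 5) (nat_lit 347) (nat_lit 5) (nat_lit 516) (nat_lit 509) (nat_lit 175)) (XT.lf (nat_lit 0) (nat_lit 85254830015) (nat_lit 1216) (nat_lit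 16649904774) (nat_lit 1292) (nat_lit 12944413541) (nat_lit 331) (nat_lit 5) (nat_lit 347) (nat_lit 5) (nat_lit 348) (nat_lit 5) (nat_lit 517) (nat_lit 509) (nat_lit 174))) (XT.nd (nat_lit 78) (nat_lit 0) (nat_lit 76) (XT.lf (nat_lit 76) (nat_lit 43633141704) (nat_lit 0) (nat_lit 47935357587) (nat_lit 1292) (nat_lit 25059599974) (nat_lit 332) (nat_lit 5) (nat_lit 331) (nat_lit 5) (nat_lit 348) (nat_lit 5) (nat_lit 518) (nat_lit 509) (nat_lit 173)) (XT.lf (nat_lit 0) (nat_lit 98314745159) (nat_lit 1216) (nat_lit 12464763873) (nat_lit 1292) (nat_lit 7673614708) (nat_lit 332) (nat_lit 5) (nat_lit 348) (nat_lit 5) (nat_lit 349) (nat_lit 5) (nat_lit 519) (nat_lit 509) (nat_lit 172)))) (XT.nd (nat_lit 156) (nat_lit 1216) (nat_lit 0) (XT.nd (nat_lit 78) (nat_lit 0) (nat_lit 76) (XT.lf (nat_lit 76) (nat_lit 50389875872) (nat_lit 0) (nat_lit 55832298215) (nat_lit 1292) (nat_lit 14081961000) (nat_lit 333) (nat_lit 5) (nat_lit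 332) (nat_lit 5) (nat_lit 349) (nat_lit 5) (nat_lit 520) (nat_lit 509) (nat_lit 171)) (XT.lf (nat_lit 0) (nat_lit 114501093904) (nat_lit 1216) (nat_lit 6829959147) (nat_lit 1292) (nat_lit 875595691) (nat_lit 333) (nat_lit 5) (nat_lit 349) (nat_lit 5) (nat_lit 350) (nat_lit 5) (nat_lit 521) (nat_lit 509) (nat_lit 170))) (XT.nd (nat_lit 78) (nat_lit 0) (nat_lit 0) (XT.lf (nat_lit 0) (nat_lit 12670545) (nat_lit 1292) (nat_lit 65392677757) (nat_lit 1368) (nat_lit 58727367946) (nat_lit 316) (nat_lit 5) (nat_lit 333) (nat_lit 5) (nat_lit 334) (nat_lit 5) (nat_lit 522) (nat_lit 509) (nat_lit 169)) (XT.lf (nat_lit 76) (nat_lit 230016955) (nat_lit 0) (nat_lit 7649236917) (nat_lit 1368) (nat_lit 118232872579) (nat_lit 317) (nat_lit 5) (nat_lit 316) (nat_lit 5) (nat_lit 334) (nat_lit 5) (nat_lit 523) (nat_lit 509) (nat_lit 168))))) (XT.nd (nat_lit 312) (nat_lit 0) (nat_lit 0) (XT.nd (nat_lit 156) (nat_lit 760) (nat_lit 0)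 (XT.nd (nat_lit 78) (nat_lit 0) (nat_lit 0) (XT.lf (nat_lit 0) (nat_lit 17146850285) (nat_lit 1292) (nat_lit 59474229059) (nat_lit 1368) (nat_lit 51494889157) (nat_lit 317) (nat_lit 5) (nat_lit 334) (nat_lit 5) (nat_lit 335) (nat_lit 5) (nat_lit 524) (nat_lit 509) (nat_lit 167)) (XT.lf (nat_lit 76) (nat_lit 9026142621) (nat_lit 0) (nat_lit 17828663071) (nat_lit 1368) (nat_lit 103320250194) (nat_lit 318) (nat_lit 5) (nat_lit 317) (nat_lit 5) (nat_lit 335) (nat_lit 5) (nat_lit 525) (nat_lit 509) (nat_lit 166))) (XT.nd (nat_lit 78) (nat_lit 836) (nat_lit 0) (XT.lf (nat_lit 0) (nat_lit 37871077310) (nat_lit 1292) (nat_lit 51894025739) (nat_lit 76) (nat_lit 42500300524) (nat_lit 318) (nat_lit 5) (nat_lit 335) (nat_lit 5) (nat_lit 319) (nat_lit 5) (nat_lit 526) (nat_lit 509) (nat_lit 165)) (XT.lf (nat_lit 0) (nat_lit 19645193244) (nat_lit 836) (nat_lit 29937846732) (nat_lit 912) (nat_lit 84824465635) (nat_lit 307) (nat_lit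 5) (nat_lit 318) (nat_lit 5) (nat_lit 319) (nat_lit 5) (nat_lit 527) (nat_lit 509) (nat_lit 164)))) (XT.nd (nat_lit 61152) (nat_lit 0) (nat_lit 1520) (XT.nd (nat_lit 61074) (nat_lit 0) (nat_lit 1520) (XT.lf (nat_lit 0) (nat_lit 62479989335) (nat_lit 912) (nat_lit 42513686694) (nat_lit 76) (nat_lit 31595185853) (nat_lit 307) (nat_lit 5) (nat_lit 319) (nat_lit 5) (nat_lit 308) (nat_lit 5) (nat_lit 528) (nat_lit 509) (nat_lit 163)) (XT.lf (nat_lit 0) (nat_lit 30722649216) (nat_lit 1292) (nat_lit 10852133082) (nat_lit 1292) (nat_lit 10852133082) (nat_lit 327) (nat_lit 3) (nat_lit 344) (nat_lit 3) (nat_lit 344) (nat_lit 5) (nat_lit 510) (nat_lit 510) (nat_lit 180))) (XT.nd (nat_lit 78) (nat_lit 0) (nat_lit 76) (XT.lf (nat_lit 76) (nat_lit 31119105125) (nat_lit 0) (nat_lit 31552935324) (nat_lit 1292) (nat_lit 43745445625) (nat_lit 328) (nat_lit 5) (nat_lit 327) (nat_lit 3) (nat_lit 344) (nat_lit 5) (nat_lit 511) (nat_lit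 510) (nat_lit 179)) (XT.lf (nat_lit 0) (nat_lit 64364245459) (nat_lit 1216) (nat_lit 22259233349) (nat_lit 1292) (nat_lit 21391712425) (nat_lit 328) (nat_lit 5) (nat_lit 344) (nat_lit 5) (nat_lit 345) (nat_lit 5) (nat_lit 512) (nat_lit 510) (nat_lit 178)))))) (XT.nd (nat_lit 624) (nat_lit 2204) (nat_lit 0) (XT.nd (nat_lit 312) (nat_lit 0) (nat_lit 152) (XT.nd (nat_lit 156) (nat_lit 0) (nat_lit 76) (XT.nd (nat_lit 78) (nat_lit 0) (nat_lit 76) (XT.lf (nat_lit 76) (nat_lit 32696585760) (nat_lit 0) (nat_lit 34037111081) (nat_lit 1292) (nat_lit 42908336310) (nat_lit 329) (nat_lit 5) (nat_lit 328) (nat_lit 5) (nat_lit 345) (nat_lit 5) (nat_lit 513) (nat_lit 510) (nat_lit 177)) (XT.lf (nat_lit 0) (nat_lit 69594485035) (nat_lit 1216) (nat_lit 21749394291) (nat_lit 1292) (nat_lit 19961193412) (nat_lit 329) (nat_lit 5) (nat_lit 345) (nat_lit 5) (nat_lit 346) (nat_lit 5) (nat_lit 514) (nat_lit 510) (nat_lit 176))) (XT.nd (nat_lit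 78) (nat_lit 0) (nat_lit 76) (XT.lf (nat_lit 76) (nat_lit 35457310954) (nat_lit 0) (nat_lit 37761412341) (nat_lit 1292) (nat_lit 39778951437) (nat_lit 330) (nat_lit 5) (nat_lit 329) (nat_lit 5) (nat_lit 346) (nat_lit 5) (nat_lit 515) (nat_lit 510) (nat_lit 175)) (XT.lf (nat_lit 0) (nat_lit 77340816817) (nat_lit 1216) (nat_lit 20078249508) (nat_lit 1292) (nat_lit 17310314624) (nat_lit 330) (nat_lit 5) (nat_lit 346) (nat_lit 5) (nat_lit 347) (nat_lit 5) (nat_lit 516) (nat_lit 510) (nat_lit 174)))) (XT.nd (nat_lit 156) (nat_lit 0) (nat_lit 76) (XT.nd (nat_lit 78) (nat_lit 0) (nat_lit 76) (XT.lf (nat_lit 76) (nat_lit 39504599820) (nat_lit 0) (nat_lit 42835390767) (nat_lit 1292) (nat_lit 34150445254) (nat_lit 331) (nat_lit 5) (nat_lit 330) (nat_lit 5) (nat_lit 347) (nat_lit 5) (nat_lit 517) (nat_lit 510) (nat_lit 173)) (XT.lf (nat_lit 0) (nat_lit 87822375340) (nat_lit 1216) (nat_lit 17142535957) (nat_lit 1292) (nat_lit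 13329414018) (nat_lit 331) (nat_lit 5) (nat_lit 347) (nat_lit 5) (nat_lit 348) (nat_lit 5) (nat_lit 518) (nat_lit 510) (nat_lit 172))) (XT.nd (nat_lit 78) (nat_lit 0) (nat_lit 76) (XT.lf (nat_lit 76) (nat_lit 44948934602) (nat_lit 0) (nat_lit 49376297082) (nat_lit 1292) (nat_lit 25801419795) (nat_lit 332) (nat_lit 5) (nat_lit 331) (nat_lit 5) (nat_lit 348) (nat_lit 5) (nat_lit 519) (nat_lit 510) (nat_lit 171)) (XT.lf (nat_lit 0) (nat_lit 101273556196) (nat_lit 1216) (nat_lit 12831797000) (nat_lit 1292) (nat_lit 7901082768) (nat_lit 332) (nat_lit 5) (nat_lit 348) (nat_lit 5) (nat_lit 349) (nat_lit 5) (nat_lit 520) (nat_lit 510) (nat_lit 170))))) (XT.nd (nat_lit 312) (nat_lit 1292) (nat_lit 0) (XT.nd (nat_lit 156) (nat_lit 1216) (nat_lit 0) (XT.nd (nat_lit 78) (nat_lit 0) (nat_lit 76) (XT.lf (nat_lit 76) (nat_lit 51908414194) (nat_lit 0) (nat_lit 57509586693) (nat_lit 1292) (nat_lit 14494982989) (nat_lit 333) (nat_lit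 5) (nat_lit 332) (nat_lit 5) (nat_lit 349) (nat_lit 5) (nat_lit 521) (nat_lit 510) (nat_lit 169)) (XT.lf (nat_lit 0) (nat_lit 117944999809) (nat_lit 1216) (nat_lit 7027926266) (nat_lit 1292) (nat_lit 899655534) (nat_lit 333) (nat_lit 5) (nat_lit 349) (nat_lit 5) (nat_lit 350) (nat_lit 5) (nat_lit 522) (nat_lit 510) (nat_lit 168))) (XT.nd (nat_lit 78) (nat_lit 0) (nat_lit 0) (XT.lf (nat_lit 0) (nat_lit 21817619) (nat_lit 1292) (nat_lit 67347419531) (nat_lit 1368) (nat_lit 60487197196) (nat_lit 316) (nat_lit 5) (nat_lit 333) (nat_lit 5) (nat_lit 334) (nat_lit 5) (nat_lit 523) (nat_lit 510) (nat_lit 167)) (XT.lf (nat_lit 76) (nat_lit 243887017) (nat_lit 0) (nat_lit 7880323077) (nat_lit 1368) (nat_lit 121771022424) (nat_lit 317) (nat_lit 5) (nat_lit 316) (nat_lit 5) (nat_lit 334) (nat_lit 5) (nat_lit 524) (nat_lit 510) (nat_lit 166)))) (XT.nd (nat_lit 156) (nat_lit 1368) (nat_lit 0) (XT.nd (nat_lit 78) (nat_lit 0) (nat_lit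 0) (XT.lf (nat_lit 0) (nat_lit 17669569519) (nat_lit 1292) (nat_lit 61251424137) (nat_lit 1368) (nat_lit 53038204129) (nat_lit 317) (nat_lit 5) (nat_lit 334) (nat_lit 5) (nat_lit 335) (nat_lit 5) (nat_lit 525) (nat_lit 510) (nat_lit 165)) (XT.lf (nat_lit 76) (nat_lit 9303889754) (nat_lit 0) (nat_lit 18364698619) (nat_lit 1368) (nat_lit 106411474687) (nat_lit 318) (nat_lit 5) (nat_lit 317) (nat_lit 5) (nat_lit 335) (nat_lit 5) (nat_lit 526) (nat_lit 510) (nat_lit 164))) (XT.nd (nat_lit 234) (nat_lit 1444) (nat_lit 0) (XT.lf (nat_lit 0) (nat_lit 39015100123) (nat_lit 1292) (nat_lit 53443838106) (nat_lit 76) (nat_lit 43774190399) (nat_lit 318) (nat_lit 5) (nat_lit 335) (nat_lit 5) (nat_lit 319) (nat_lit 5) (nat_lit 527) (nat_lit 510) (nat_lit 163)) (XT.lf (nat_lit 0) (nat_lit 33208807973) (nat_lit 608) (nat_lit 45459604742) (nat_lit 684) (nat_lit 64313366086) (nat_lit 299) (nat_lit 5) (nat_lit 307) (nat_lit 5) (nat_lit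 308) (nat_lit 5) (nat_lit 530) (nat_lit 510) (nat_lit 160))))))))
noncomputable def xc254 : XT := (XT.nd (nat_lit 63570) (nat_lit 0) (nat_lit 684) (XT.nd (nat_lit 1170) (nat_lit 684) (nat_lit 0) (XT.nd (nat_lit 546) (nat_lit 836) (nat_lit 0) (XT.nd (nat_lit 234) (nat_lit 0) (nat_lit 76) (XT.nd (nat_lit 78) (nat_lit 0) (nat_lit 0) (XT.lf (nat_lit 0) (nat_lit 31650198387) (nat_lit 1292) (nat_lit 11174674047) (nat_lit 1292) (nat_lit 11174674047) (nat_lit 327) (nat_lit 3) (nat_lit 344) (nat_lit 3) (nat_lit 344) (nat_lit 5) (nat_lit 511) (nat_lit 511) (nat_lit 178)) (XT.nd (nat_lit 78) (nat_lit 0) (nat_lit 76) (XT.lf (nat_lit 76) (nat_lit 32058665060) (nat_lit 0) (nat_lit 32504991615) (nat_lit 1292) (nat_lit 45046009804) (nat_lit 328) (nat_lit 5) (nat_lit 327) (nat_lit 3) (nat_lit 344) (nat_lit 5) (nat_lit 512) (nat_lit 511) (nat_lit 177)) (XT.lf (nat_lit 0) (nat_lit 66306243162) (nat_lit 1216) (nat_lit 22920812756)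 (nat_lit 1292) (nat_lit 22028258432) (nat_lit 328) (nat_lit 5) (nat_lit 344) (nat_lit 5) (nat_lit 345) (nat_lit 5) (nat_lit 513) (nat_lit 511) (nat_lit 176)))) (XT.nd (nat_lit 156) (nat_lit 0) (nat_lit 76) (XT.nd (nat_lit 78) (nat_lit 0) (nat_lit 76) (XT.lf (nat_lit 76) (nat_lit 33683620165) (nat_lit 0) (nat_lit 35062894474) (nat_lit 1292) (nat_lit 44184454804) (nat_lit 329) (nat_lit 5) (nat_lit 328) (nat_lit 5) (nat_lit 345) (nat_lit 5) (nat_lit 514) (nat_lit 511) (nat_lit 175)) (XT.lf (nat_lit 0) (nat_lit 71692768131) (nat_lit 1216) (nat_lit 22395559201) (nat_lit 1292) (nat_lit 20555583651) (nat_lit 329) (nat_lit 5) (nat_lit 345) (nat_lit 5) (nat_lit 346) (nat_lit 5) (nat_lit 515) (nat_lit 511) (nat_lit 174))) (XT.nd (nat_lit 78) (nat_lit 0) (nat_lit 76) (XT.lf (nat_lit 76) (nat_lit 36527285271) (nat_lit 0) (nat_lit 38898204067) (nat_lit 1292) (nat_lit 40961809038) (nat_lit 330) (nat_lit 5) (nat_lit 329) (nat_lit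 5) (nat_lit 346) (nat_lit 5) (nat_lit 516) (nat_lit 511) (nat_lit 173)) (XT.lf (nat_lit 0) (nat_lit 79670911595) (nat_lit 1216) (nat_lit 20674189664) (nat_lit 1292) (nat_lit 17825864558) (nat_lit 330) (nat_lit 5) (nat_lit 346) (nat_lit 5) (nat_lit 347) (nat_lit 5) (nat_lit 517) (nat_lit 511) (nat_lit 172))))) (XT.nd (nat_lit 312) (nat_lit 1064) (nat_lit 0) (XT.nd (nat_lit 156) (nat_lit 0) (nat_lit 76) (XT.nd (nat_lit 78) (nat_lit 0) (nat_lit 76) (XT.lf (nat_lit 76) (nat_lit 40696082328) (nat_lit 0) (nat_lit 44123751754) (nat_lit 1292) (nat_lit 35165025081) (nat_lit 331) (nat_lit 5) (nat_lit 330) (nat_lit 5) (nat_lit 347) (nat_lit 5) (nat_lit 518) (nat_lit 511) (nat_lit 171)) (XT.lf (nat_lit 0) (nat_lit 90466378699) (nat_lit 1216) (nat_lit 17650340209) (nat_lit 1292) (nat_lit 13726155775) (nat_lit 331) (nat_lit 5) (nat_lit 347) (nat_lit 5) (nat_lit 348) (nat_lit 5) (nat_lit 519) (nat_lit 511) (nat_lit 170))) (XT.nd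 (nat_lit 78) (nat_lit 0) (nat_lit 76) (XT.lf (nat_lit 76) (nat_lit 46303811018) (nat_lit 0) (nat_lit 50860299509) (nat_lit 1292) (nat_lit 26566066425) (nat_lit 332) (nat_lit 5) (nat_lit 331) (nat_lit 5) (nat_lit 348) (nat_lit 5) (nat_lit 520) (nat_lit 511) (nat_lit 169)) (XT.lf (nat_lit 0) (nat_lit 104320593763) (nat_lit 1216) (nat_lit 13210237770) (nat_lit 1292) (nat_lit 8135532179) (nat_lit 332) (nat_lit 5) (nat_lit 348) (nat_lit 5) (nat_lit 349) (nat_lit 5) (nat_lit 521) (nat_lit 511) (nat_lit 168)))) (XT.nd (nat_lit 156) (nat_lit 1216) (nat_lit 0) (XT.nd (nat_lit 78) (nat_lit 0) (nat_lit 76) (XT.lf (nat_lit 76) (nat_lit 53472115905) (nat_lit 0) (nat_lit 59237060675) (nat_lit 1292) (nat_lit 14920937352) (nat_lit 333) (nat_lit 5) (nat_lit 332) (nat_lit 5) (nat_lit 349) (nat_lit 5) (nat_lit 522) (nat_lit 511) (nat_lit 167)) (XT.lf (nat_lit 0) (nat_lit 121491713540) (nat_lit 1216) (nat_lit 7232230303) (nat_lit 1292)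 (nat_lit 924563921) (nat_lit 333) (nat_lit 5) (nat_lit 349) (nat_lit 5) (nat_lit 350) (nat_lit 5) (nat_lit 523) (nat_lit 511) (nat_lit 166))) (XT.nd (nat_lit 78) (nat_lit 0) (nat_lit 0) (XT.lf (nat_lit 0) (nat_lit 30735846) (nat_lit 1292) (nat_lit 69361207601) (nat_lit 1368) (nat_lit 62299935661) (nat_lit 316) (nat_lit 5) (nat_lit 333) (nat_lit 5) (nat_lit 334) (nat_lit 5) (nat_lit 524) (nat_lit 511) (nat_lit 165)) (XT.lf (nat_lit 76) (nat_lit 257773099) (nat_lit 0) (nat_lit 8118249455) (nat_lit 1368) (nat_lit 125415824006) (nat_lit 317) (nat_lit 5) (nat_lit 316) (nat_lit 5) (nat_lit 334) (nat_lit 5) (nat_lit 525) (nat_lit 511) (nat_lit 164)))))) (XT.nd (nat_lit 61776) (nat_lit 0) (nat_lit 1672) (XT.nd (nat_lit 61464) (nat_lit 0) (nat_lit 1520) (XT.nd (nat_lit 234) (nat_lit 760) (nat_lit 0) (XT.nd (nat_lit 78) (nat_lit 0) (nat_lit 0) (XT.lf (nat_lit 0) (nat_lit 18207493089) (nat_lit 1292) (nat_lit 63082338722) (nat_lit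 1368) (nat_lit 54627906477) (nat_lit 317) (nat_lit 5) (nat_lit 334) (nat_lit 5) (nat_lit 335) (nat_lit 5) (nat_lit 526) (nat_lit 511) (nat_lit 163)) (XT.lf (nat_lit 76) (nat_lit 9589569604) (nat_lit 0) (nat_lit 18916747746) (nat_lit 1368) (nat_lit 109595917134) (nat_lit 318) (nat_lit 5) (nat_lit 317) (nat_lit 5) (nat_lit 335) (nat_lit 5) (nat_lit 527) (nat_lit 511) (nat_lit 162))) (XT.nd (nat_lit 61152) (nat_lit 0) (nat_lit 1520) (XT.lf (nat_lit 0) (nat_lit 20855274729) (nat_lit 836) (nat_lit 31762615385) (nat_lit 912) (nat_lit 89974574653) (nat_lit 307) (nat_lit 5) (nat_lit 318) (nat_lit 5) (nat_lit 319) (nat_lit 5) (nat_lit 529) (nat_lit 511) (nat_lit 160)) (XT.lf (nat_lit 0) (nat_lit 32605237088) (nat_lit 1292) (nat_lit 11507064774) (nat_lit 1292) (nat_lit 11507064774) (nat_lit 327) (nat_lit 3) (nat_lit 344) (nat_lit 3) (nat_lit 344) (nat_lit 5) (nat_lit 512) (nat_lit 512) (nat_lit 176)))) (XT.nd (nat_lit 156)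 (nat_lit 0) (nat_lit 76) (XT.nd (nat_lit 78) (nat_lit 0) (nat_lit 76) (XT.lf (nat_lit 76) (nat_lit 33026068126) (nat_lit 0) (nat_lit 33485295697) (nat_lit 1292) (nat_lit 46386268231) (nat_lit 328) (nat_lit 5) (nat_lit 327) (nat_lit 3) (nat_lit 344) (nat_lit 5) (nat_lit 513) (nat_lit 512) (nat_lit 175)) (XT.lf (nat_lit 0) (nat_lit 68305865312) (nat_lit 1216) (nat_lit 23602595313) (nat_lit 1292) (nat_lit 22684199628) (nat_lit 328) (nat_lit 5) (nat_lit 344) (nat_lit 5) (nat_lit 345) (nat_lit 5) (nat_lit 514) (nat_lit 512) (nat_lit 174))) (XT.nd (nat_lit 78) (nat_lit 0) (nat_lit 76) (XT.lf (nat_lit 76) (nat_lit 34699913323) (nat_lit 0) (nat_lit 36119183287) (nat_lit 1292) (nat_lit 45499495852) (nat_lit 329) (nat_lit 5) (nat_lit 328) (nat_lit 5) (nat_lit 345) (nat_lit 5) (nat_lit 515) (nat_lit 512) (nat_lit 173)) (XT.lf (nat_lit 0) (nat_lit 73853399931) (nat_lit 1216) (nat_lit 23061471675) (nat_lit 1292) (nat_lit 21168060791)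 (nat_lit 329) (nat_lit 5) (nat_lit 345) (nat_lit 5) (nat_lit 346) (nat_lit 5) (nat_lit 516) (nat_lit 512) (nat_lit 172))))) (XT.nd (nat_lit 312) (nat_lit 0) (nat_lit 152) (XT.nd (nat_lit 156) (nat_lit 0) (nat_lit 76) (XT.nd (nat_lit 78) (nat_lit 0) (nat_lit 76) (XT.lf (nat_lit 76) (nat_lit 37628999756) (nat_lit 0) (nat_lit 40068872837) (nat_lit 1292) (nat_lit 42180755737) (nat_lit 330) (nat_lit 5) (nat_lit 329) (nat_lit 5) (nat_lit 346) (nat_lit 5) (nat_lit 517) (nat_lit 512) (nat_lit 171)) (XT.lf (nat_lit 0) (nat_lit 82070342622) (nat_lit 1216) (nat_lit 21288375831) (nat_lit 1292) (nat_lit 18357096800) (nat_lit 330) (nat_lit 5) (nat_lit 346) (nat_lit 5) (nat_lit 347) (nat_lit 5) (nat_lit 518) (nat_lit 512) (nat_lit 170))) (XT.nd (nat_lit 78) (nat_lit 0) (nat_lit 76) (XT.lf (nat_lit 76) (nat_lit 41922945109) (nat_lit 0) (nat_lit 45450574179) (nat_lit 1292) (nat_lit 36210612528) (nat_lit 331) (nat_lit 5) (nat_lit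 330) (nat_lit 5) (nat_lit 347) (nat_lit 5) (nat_lit 519) (nat_lit 512) (nat_lit 169)) (XT.lf (nat_lit 0) (nat_lit 93189166459) (nat_lit 1216) (nat_lit 18173750098) (nat_lit 1292) (nat_lit 14134980072) (nat_lit 331) (nat_lit 5) (nat_lit 347) (nat_lit 5) (nat_lit 348) (nat_lit 5) (nat_lit 520) (nat_lit 512) (nat_lit 168)))) (XT.nd (nat_lit 156) (nat_lit 0) (nat_lit 76) (XT.nd (nat_lit 78) (nat_lit 0) (nat_lit 76) (XT.lf (nat_lit 76) (nat_lit 47698965858) (nat_lit 0) (nat_lit 52388666242) (nat_lit 1292) (nat_lit 27354191821) (nat_lit 332) (nat_lit 5) (nat_lit 331) (nat_lit 5) (nat_lit 348) (nat_lit 5) (nat_lit 521) (nat_lit 512) (nat_lit 167)) (XT.lf (nat_lit 0) (nat_lit 107458535528) (nat_lit 1216) (nat_lit 13600405645) (nat_lit 1292) (nat_lit 8377163352) (nat_lit 332) (nat_lit 5) (nat_lit 348) (nat_lit 5) (nat_lit 349) (nat_lit 5) (nat_lit 522) (nat_lit 512) (nat_lit 166))) (XT.nd (nat_lit 78) (nat_lit 0) (nat_lit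 76) (XT.lf (nat_lit 76) (nat_lit 55082358451) (nat_lit 0) (nat_lit 61016233369) (nat_lit 1292) (nat_lit 15360180962) (nat_lit 333) (nat_lit 5) (nat_lit 332) (nat_lit 5) (nat_lit 349) (nat_lit 5) (nat_lit 523) (nat_lit 512) (nat_lit 165)) (XT.lf (nat_lit 0) (nat_lit 125144348571) (nat_lit 1216) (nat_lit 7443038526) (nat_lit 1292) (nat_lit 950339034) (nat_lit 333) (nat_lit 5) (nat_lit 349) (nat_lit 5) (nat_lit 350) (nat_lit 5) (nat_lit 524) (nat_lit 512) (nat_lit 164))))))) (XT.nd (nat_lit 62556) (nat_lit 0) (nat_lit 0) (XT.nd (nat_lit 61932) (nat_lit 0) (nat_lit 988) (XT.nd (nat_lit 61620) (nat_lit 0) (nat_lit 836) (XT.nd (nat_lit 312) (nat_lit 0) (nat_lit 152) (XT.nd (nat_lit 78) (nat_lit 0) (nat_lit 0) (XT.lf (nat_lit 0) (nat_lit 39447249) (nat_lit 1292) (nat_lit 71435790161) (nat_lit 1368) (nat_lit 64167164053) (nat_lit 316) (nat_lit 5) (nat_lit 333) (nat_lit 5) (nat_lit 334) (nat_lit 5) (nat_lit 525) (nat_lit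 512) (nat_lit 163)) (XT.lf (nat_lit 76) (nat_lit 271698649) (nat_lit 0) (nat_lit 8363226561) (nat_lit 1368) (nat_lit 129170447760) (nat_lit 317) (nat_lit 5) (nat_lit 316) (nat_lit 5) (nat_lit 334) (nat_lit 5) (nat_lit 526) (nat_lit 512) (nat_lit 162))) (XT.nd (nat_lit 61230) (nat_lit 0) (nat_lit 684) (XT.lf (nat_lit 0) (nat_lit 41405790996) (nat_lit 1292) (nat_lit 56685536691) (nat_lit 76) (nat_lit 46437957709) (nat_lit 318) (nat_lit 5) (nat_lit 335) (nat_lit 5) (nat_lit 319) (nat_lit 5) (nat_lit 529) (nat_lit 512) (nat_lit 159)) (XT.lf (nat_lit 0) (nat_lit 33588609348) (nat_lit 1292) (nat_lit 11849590796) (nat_lit 1292) (nat_lit 11849590796) (nat_lit 327) (nat_lit 3) (nat_lit 344) (nat_lit 3) (nat_lit 344) (nat_lit 5) (nat_lit 513) (nat_lit 513) (nat_lit 174)))) (XT.nd (nat_lit 156) (nat_lit 0) (nat_lit 76) (XT.nd (nat_lit 78) (nat_lit 0) (nat_lit 76) (XT.lf (nat_lit 76) (nat_lit 34022169347) (nat_lit 0) (nat_lit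 34494713021) (nat_lit 1292) (nat_lit 47767372851) (nat_lit 328) (nat_lit 5) (nat_lit 327) (nat_lit 3) (nat_lit 344) (nat_lit 5) (nat_lit 514) (nat_lit 513) (nat_lit 173)) (XT.lf (nat_lit 0) (nat_lit 70364877124) (nat_lit 1216) (nat_lit 24305166691) (nat_lit 1292) (nat_lit 23360100716) (nat_lit 328) (nat_lit 5) (nat_lit 344) (nat_lit 5) (nat_lit 345) (nat_lit 5) (nat_lit 515) (nat_lit 513) (nat_lit 172))) (XT.nd (nat_lit 78) (nat_lit 0) (nat_lit 76) (XT.lf (nat_lit 76) (nat_lit 35746363219) (nat_lit 0) (nat_lit 37206908074) (nat_lit 1292) (nat_lit 46854590450) (nat_lit 329) (nat_lit 5) (nat_lit 328) (nat_lit 5) (nat_lit 345) (nat_lit 5) (nat_lit 516) (nat_lit 513) (nat_lit 171)) (XT.lf (nat_lit 0) (nat_lit 76078285325) (nat_lit 1216) (nat_lit 23747703325) (nat_lit 1292) (nat_lit 21799152789) (nat_lit 329) (nat_lit 5) (nat_lit 345) (nat_lit 5) (nat_lit 346) (nat_lit 5) (nat_lit 517) (nat_lit 513) (nat_lit 170)))))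 (XT.nd (nat_lit 312) (nat_lit 0) (nat_lit 152) (XT.nd (nat_lit 156) (nat_lit 0) (nat_lit 76) (XT.nd (nat_lit 78) (nat_lit 0) (nat_lit 76) (XT.lf (nat_lit 76) (nat_lit 38763427224) (nat_lit 0) (nat_lit 41274447974) (nat_lit 1292) (nat_lit 43436839573) (nat_lit 330) (nat_lit 5) (nat_lit 329) (nat_lit 5) (nat_lit 346) (nat_lit 5) (nat_lit 518) (nat_lit 513) (nat_lit 169)) (XT.lf (nat_lit 0) (nat_lit 84541222511) (nat_lit 1216) (nat_lit 21921334276) (nat_lit 1292) (nat_lit 18904469433) (nat_lit 330) (nat_lit 5) (nat_lit 346) (nat_lit 5) (nat_lit 347) (nat_lit 5) (nat_lit 519) (nat_lit 513) (nat_lit 168))) (XT.nd (nat_lit 78) (nat_lit 0) (nat_lit 76) (XT.lf (nat_lit 76) (nat_lit 43186270480) (nat_lit 0) (nat_lit 46817022758) (nat_lit 1292) (nat_lit 37288105090) (nat_lit 331) (nat_lit 5) (nat_lit 330) (nat_lit 5) (nat_lit 347) (nat_lit 5) (nat_lit 520) (nat_lit 513) (nat_lit 167)) (XT.lf (nat_lit 0) (nat_lit 95993132902)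 (nat_lit 1216) (nat_lit 18713212467) (nat_lit 1292) (nat_lit 14556239035) (nat_lit 331) (nat_lit 5) (nat_lit 347) (nat_lit 5) (nat_lit 348) (nat_lit 5) (nat_lit 521) (nat_lit 513) (nat_lit 166)))) (XT.nd (nat_lit 156) (nat_lit 0) (nat_lit 76) (XT.nd (nat_lit 78) (nat_lit 0) (nat_lit 76) (XT.lf (nat_lit 76) (nat_lit 49135628594) (nat_lit 0) (nat_lit 53962737152) (nat_lit 1292) (nat_lit 28166469383) (nat_lit 332) (nat_lit 5) (nat_lit 331) (nat_lit 5) (nat_lit 348) (nat_lit 5) (nat_lit 522) (nat_lit 513) (nat_lit 165)) (XT.lf (nat_lit 0) (nat_lit 110690137718) (nat_lit 1216) (nat_lit 14002630975) (nat_lit 1292) (nat_lit 8626183226) (nat_lit 332) (nat_lit 5) (nat_lit 348) (nat_lit 5) (nat_lit 349) (nat_lit 5) (nat_lit 523) (nat_lit 513) (nat_lit 164))) (XT.nd (nat_lit 78) (nat_lit 0) (nat_lit 76) (XT.lf (nat_lit 76) (nat_lit 56740559311) (nat_lit 0) (nat_lit 62848662941) (nat_lit 1292) (nat_lit 15813083186) (nat_lit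 333) (nat_lit 5) (nat_lit 332) (nat_lit 5) (nat_lit 349) (nat_lit 5) (nat_lit 524) (nat_lit 513) (nat_lit 163)) (XT.lf (nat_lit 0) (nat_lit 128906110100) (nat_lit 1216) (nat_lit 7660524529) (nat_lit 1292) (nat_lit 977000016) (nat_lit 333) (nat_lit 5) (nat_lit 349) (nat_lit 5) (nat_lit 350) (nat_lit 5) (nat_lit 525) (nat_lit 513) (nat_lit 162)))))) (XT.nd (nat_lit 62010) (nat_lit 0) (nat_lit 0) (XT.nd (nat_lit 61698) (nat_lit 0) (nat_lit 912) (XT.nd (nat_lit 61542) (nat_lit 0) (nat_lit 836) (XT.nd (nat_lit 156) (nat_lit 0) (nat_lit 76) (XT.lf (nat_lit 0) (nat_lit 47972856) (nat_lit 1292) (nat_lit 73572969185) (nat_lit 1368) (nat_lit 66090510883) (nat_lit 316) (nat_lit 5) (nat_lit 333) (nat_lit 5) (nat_lit 334) (nat_lit 5) (nat_lit 526) (nat_lit 513) (nat_lit 161)) (XT.lf (nat_lit 0) (nat_lit 19330900269) (nat_lit 1292) (nat_lit 66911729047) (nat_lit 1368) (nat_lit 57952061479) (nat_lit 317) (nat_lit 5) (nat_lit 334)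 (nat_lit 5) (nat_lit 335) (nat_lit 5) (nat_lit 528) (nat_lit 513) (nat_lit 159))) (XT.nd (nat_lit 78) (nat_lit 0) (nat_lit 0) (XT.lf (nat_lit 0) (nat_lit 34601183404) (nat_lit 1292) (nat_lit 12202546782) (nat_lit 1292) (nat_lit 12202546782) (nat_lit 327) (nat_lit 3) (nat_lit 344) (nat_lit 3) (nat_lit 344) (nat_lit 5) (nat_lit 514) (nat_lit 514) (nat_lit 172)) (XT.lf (nat_lit 76) (nat_lit 35047848262) (nat_lit 0) (nat_lit 35534133970) (nat_lit 1292) (nat_lit 49190512401) (nat_lit 328) (nat_lit 5) (nat_lit 327) (nat_lit 3) (nat_lit 344) (nat_lit 5) (nat_lit 515) (nat_lit 514) (nat_lit 171)))) (XT.nd (nat_lit 156) (nat_lit 0) (nat_lit 76) (XT.nd (nat_lit 78) (nat_lit 0) (nat_lit 0) (XT.lf (nat_lit 0) (nat_lit 72485094672) (nat_lit 1216) (nat_lit 25029131304) (nat_lit 1292) (nat_lit 24056544325) (nat_lit 328) (nat_lit 5) (nat_lit 344) (nat_lit 5) (nat_lit 345) (nat_lit 5) (nat_lit 516) (nat_lit 514) (nat_lit 170)) (XT.lf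 (nat_lit 76) (nat_lit 36823893617) (nat_lit 0) (nat_lit 38327026418) (nat_lit 1292) (nat_lit 48250905628) (nat_lit 329) (nat_lit 5) (nat_lit 328) (nat_lit 5) (nat_lit 345) (nat_lit 5) (nat_lit 517) (nat_lit 514) (nat_lit 169))) (XT.nd (nat_lit 78) (nat_lit 0) (nat_lit 0) (XT.lf (nat_lit 0) (nat_lit 78369384377) (nat_lit 1216) (nat_lit 24454844104) (nat_lit 1292) (nat_lit 22449404284) (nat_lit 329) (nat_lit 5) (nat_lit 345) (nat_lit 5) (nat_lit 346) (nat_lit 5) (nat_lit 518) (nat_lit 514) (nat_lit 168)) (XT.lf (nat_lit 76) (nat_lit 39931568496) (nat_lit 0) (nat_lit 42515988937) (nat_lit 1292) (nat_lit 44731142011) (nat_lit 330) (nat_lit 5) (nat_lit 329) (nat_lit 5) (nat_lit 346) (nat_lit 5) (nat_lit 519) (nat_lit 514) (nat_lit 167))))) (XT.nd (nat_lit 312) (nat_lit 1064) (nat_lit 0) (XT.nd (nat_lit 156) (nat_lit 0) (nat_lit 76) (XT.nd (nat_lit 78) (nat_lit 0) (nat_lit 0) (XT.lf (nat_lit 0) (nat_lit 87085725384) (nat_lit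 1216) (nat_lit 22573608266) (nat_lit 1292) (nat_lit 19468454989) (nat_lit 330) (nat_lit 5) (nat_lit 346) (nat_lit 5) (nat_lit 347) (nat_lit 5) (nat_lit 520) (nat_lit 514) (nat_lit 166)) (XT.lf (nat_lit 76) (nat_lit 44487172025) (nat_lit 0) (nat_lit 48224296522) (nat_lit 1292) (nat_lit 38398429067) (nat_lit 331) (nat_lit 5) (nat_lit 330) (nat_lit 5) (nat_lit 347) (nat_lit 5) (nat_lit 521) (nat_lit 514) (nat_lit 165))) (XT.nd (nat_lit 78) (nat_lit 0) (nat_lit 0) (XT.lf (nat_lit 0) (nat_lit 98880742375) (nat_lit 1216) (nat_lit 19269188788) (nat_lit 1292) (nat_lit 14990295950) (nat_lit 331) (nat_lit 5) (nat_lit 347) (nat_lit 5) (nat_lit 348) (nat_lit 5) (nat_lit 522) (nat_lit 514) (nat_lit 164)) (XT.lf (nat_lit 76) (nat_lit 50615064367) (nat_lit 0) (nat_lit 55583891792) (nat_lit 1292) (nat_lit 29003594493) (nat_lit 332) (nat_lit 5) (nat_lit 331) (nat_lit 5) (nat_lit 348) (nat_lit 5) (nat_lit 523) (nat_lit 514) (nat_lit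 163)))) (XT.nd (nat_lit 156) (nat_lit 1216) (nat_lit 0) (XT.nd (nat_lit 78) (nat_lit 0) (nat_lit 0) (XT.lf (nat_lit 0) (nat_lit 114018237574) (nat_lit 1216) (nat_lit 14417255253) (nat_lit 1292) (nat_lit 8882805441) (nat_lit 332) (nat_lit 5) (nat_lit 348) (nat_lit 5) (nat_lit 349) (nat_lit 5) (nat_lit 524) (nat_lit 514) (nat_lit 162)) (XT.lf (nat_lit 76) (nat_lit 58448177264) (nat_lit 0) (nat_lit 64735953889) (nat_lit 1292) (nat_lit 16280026152) (nat_lit 333) (nat_lit 5) (nat_lit 332) (nat_lit 5) (nat_lit 349) (nat_lit 5) (nat_lit 525) (nat_lit 514) (nat_lit 161))) (XT.nd (nat_lit 156) (nat_lit 1292) (nat_lit 0) (XT.lf (nat_lit 0) (nat_lit 132780297900) (nat_lit 1216) (nat_lit 7884868352) (nat_lit 1292) (nat_lit 1004566979) (nat_lit 333) (nat_lit 5) (nat_lit 349) (nat_lit 5) (nat_lit 350) (nat_lit 5) (nat_lit 526) (nat_lit 514) (nat_lit 160)) (XT.lf (nat_lit 76) (nat_lit 299758924) (nat_lit 0) (nat_lit 8875205242)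 (nat_lit 1368) (nat_lit 137022330249) (nat_lit 317) (nat_lit 5) (nat_lit 316) (nat_lit 5) (nat_lit 334) (nat_lit 5) (nat_lit 528) (nat_lit 514) (nat_lit 158))))))))
noncomputable def xc255 : XT := (XT.nd (nat_lit 186966) (nat_lit 0) (nat_lit 760) (XT.nd (nat_lit 124176) (nat_lit 0) (nat_lit 760) (XT.nd (nat_lit 61854) (nat_lit 0) (nat_lit 760) (XT.nd (nat_lit 61542) (nat_lit 0) (nat_lit 836) (XT.nd (nat_lit 61386) (nat_lit 0) (nat_lit 760) (XT.lf (nat_lit 0) (nat_lit 19917390209) (nat_lit 1292) (nat_lit 68913529956) (nat_lit 1368) (nat_lit 59689414183) (nat_lit 317) (nat_lit 5) (nat_lit 334) (nat_lit 5) (nat_lit 335) (nat_lit 5) (nat_lit 529) (nat_lit 514) (nat_lit 157)) (XT.nd (nat_lit 78) (nat_lit 0) (nat_lit 0) (XT.lf (nat_lit 0) (nat_lit 35643852497) (nat_lit 1292) (nat_lit 12566236779) (nat_lit 1292) (nat_lit 12566236779) (nat_lit 327) (nat_lit 3) (nat_lit 344) (nat_lit 3) (nat_lit 344) (nat_lit 5) (nat_lit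 515) (nat_lit 515) (nat_lit 170)) (XT.lf (nat_lit 76) (nat_lit 36104009730) (nat_lit 0) (nat_lit 36604474662) (nat_lit 1292) (nat_lit 50656913384) (nat_lit 328) (nat_lit 5) (nat_lit 327) (nat_lit 3) (nat_lit 344) (nat_lit 5) (nat_lit 516) (nat_lit 515) (nat_lit 169)))) (XT.nd (nat_lit 156) (nat_lit 0) (nat_lit 76) (XT.nd (nat_lit 78) (nat_lit 0) (nat_lit 0) (XT.lf (nat_lit 0) (nat_lit 74668386540) (nat_lit 1216) (nat_lit 25775112806) (nat_lit 1292) (nat_lit 24774131491) (nat_lit 328) (nat_lit 5) (nat_lit 344) (nat_lit 5) (nat_lit 345) (nat_lit 5) (nat_lit 517) (nat_lit 515) (nat_lit 168)) (XT.lf (nat_lit 76) (nat_lit 37933454898) (nat_lit 0) (nat_lit 39480523799) (nat_lit 1292) (nat_lit 49689645413) (nat_lit 329) (nat_lit 5) (nat_lit 328) (nat_lit 5) (nat_lit 345) (nat_lit 5) (nat_lit 518) (nat_lit 515) (nat_lit 167))) (XT.nd (nat_lit 78) (nat_lit 0) (nat_lit 0) (XT.lf (nat_lit 0) (nat_lit 80728714086) (nat_lit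 1216) (nat_lit 25183502793) (nat_lit 1292) (nat_lit 23119377043) (nat_lit 329) (nat_lit 5) (nat_lit 345) (nat_lit 5) (nat_lit 346) (nat_lit 5) (nat_lit 519) (nat_lit 515) (nat_lit 166)) (XT.lf (nat_lit 76) (nat_lit 41134453296) (nat_lit 0) (nat_lit 43794586263) (nat_lit 1292) (nat_lit 46064778836) (nat_lit 330) (nat_lit 5) (nat_lit 329) (nat_lit 5) (nat_lit 346) (nat_lit 5) (nat_lit 520) (nat_lit 515) (nat_lit 165))))) (XT.nd (nat_lit 468) (nat_lit 228) (nat_lit 0) (XT.nd (nat_lit 156) (nat_lit 0) (nat_lit 76) (XT.nd (nat_lit 78) (nat_lit 0) (nat_lit 0) (XT.lf (nat_lit 0) (nat_lit 89706088831) (nat_lit 1216) (nat_lit 23245758509) (nat_lit 1292) (nat_lit 20049540851) (nat_lit 330) (nat_lit 5) (nat_lit 346) (nat_lit 5) (nat_lit 347) (nat_lit 5) (nat_lit 521) (nat_lit 515) (nat_lit 164)) (XT.lf (nat_lit 76) (nat_lit 45826795602) (nat_lit 0) (nat_lit 49673629887) (nat_lit 1292) (nat_lit 39542540319) (nat_lit 331) (nat_lit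 5) (nat_lit 330) (nat_lit 5) (nat_lit 347) (nat_lit 5) (nat_lit 522) (nat_lit 515) (nat_lit 163))) (XT.nd (nat_lit 78) (nat_lit 0) (nat_lit 0) (XT.lf (nat_lit 0) (nat_lit 101854531492) (nat_lit 1216) (nat_lit 19842155532) (nat_lit 1292) (nat_lit 15437525560) (nat_lit 331) (nat_lit 5) (nat_lit 347) (nat_lit 5) (nat_lit 348) (nat_lit 5) (nat_lit 523) (nat_lit 515) (nat_lit 162)) (XT.lf (nat_lit 76) (nat_lit 52138575131) (nat_lit 0) (nat_lit 57253550619) (nat_lit 1292) (nat_lit 29866285067) (nat_lit 332) (nat_lit 5) (nat_lit 331) (nat_lit 5) (nat_lit 348) (nat_lit 5) (nat_lit 524) (nat_lit 515) (nat_lit 161)))) (XT.nd (nat_lit 61698) (nat_lit 0) (nat_lit 0) (XT.nd (nat_lit 61620) (nat_lit 456) (nat_lit 0) (XT.lf (nat_lit 0) (nat_lit 136770309249) (nat_lit 1216) (nat_lit 8116256599) (nat_lit 1292) (nat_lit 1033061008) (nat_lit 333) (nat_lit 5) (nat_lit 349) (nat_lit 5) (nat_lit 350) (nat_lit 5) (nat_lit 527) (nat_lit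 515) (nat_lit 158)) (XT.lf (nat_lit 0) (nat_lit 36717535676) (nat_lit 1292) (nat_lit 12940974466) (nat_lit 1292) (nat_lit 12940974466) (nat_lit 327) (nat_lit 3) (nat_lit 344) (nat_lit 3) (nat_lit 344) (nat_lit 5) (nat_lit 516) (nat_lit 516) (nat_lit 168))) (XT.nd (nat_lit 78) (nat_lit 0) (nat_lit 76) (XT.lf (nat_lit 76) (nat_lit 37191584749) (nat_lit 0) (nat_lit 37706677781) (nat_lit 1292) (nat_lit 52167841081) (nat_lit 328) (nat_lit 5) (nat_lit 327) (nat_lit 3) (nat_lit 344) (nat_lit 5) (nat_lit 517) (nat_lit 516) (nat_lit 167)) (XT.lf (nat_lit 0) (nat_lit 76916675508) (nat_lit 1216) (nat_lit 26543754599) (nat_lit 1292) (nat_lit 25513482155) (nat_lit 328) (nat_lit 5) (nat_lit 344) (nat_lit 5) (nat_lit 345) (nat_lit 5) (nat_lit 518) (nat_lit 516) (nat_lit 166)))))) (XT.nd (nat_lit 624) (nat_lit 76) (nat_lit 0) (XT.nd (nat_lit 312) (nat_lit 0) (nat_lit 152) (XT.nd (nat_lit 156) (nat_lit 0) (nat_lit 76) (XT.nd (nat_lit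 78) (nat_lit 0) (nat_lit 76) (XT.lf (nat_lit 76) (nat_lit 39076024924) (nat_lit 0) (nat_lit 40668414476) (nat_lit 1292) (nat_lit 51172051823) (nat_lit 329) (nat_lit 5) (nat_lit 328) (nat_lit 5) (nat_lit 345) (nat_lit 5) (nat_lit 519) (nat_lit 516) (nat_lit 165)) (XT.lf (nat_lit 0) (nat_lit 83158350207) (nat_lit 1216) (nat_lit 25934307496) (nat_lit 1292) (nat_lit 23809650438) (nat_lit 329) (nat_lit 5) (nat_lit 345) (nat_lit 5) (nat_lit 346) (nat_lit 5) (nat_lit 520) (nat_lit 516) (nat_lit 164))) (XT.nd (nat_lit 78) (nat_lit 0) (nat_lit 76) (XT.lf (nat_lit 76) (nat_lit 42373141194) (nat_lit 0) (nat_lit 45111362544) (nat_lit 1292) (nat_lit 47438901073) (nat_lit 330) (nat_lit 5) (nat_lit 329) (nat_lit 5) (nat_lit 346) (nat_lit 5) (nat_lit 521) (nat_lit 516) (nat_lit 163)) (XT.lf (nat_lit 0) (nat_lit 92404615906) (nat_lit 1216) (nat_lit 23938363609) (nat_lit 1292) (nat_lit 20648229651) (nat_lit 330) (nat_lit 5) (nat_lit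 346) (nat_lit 5) (nat_lit 347) (nat_lit 5) (nat_lit 522) (nat_lit 516) (nat_lit 162)))) (XT.nd (nat_lit 156) (nat_lit 0) (nat_lit 76) (XT.nd (nat_lit 78) (nat_lit 0) (nat_lit 76) (XT.lf (nat_lit 76) (nat_lit 47206320384) (nat_lit 0) (nat_lit 51166293746) (nat_lit 1292) (nat_lit 40721425049) (nat_lit 331) (nat_lit 5) (nat_lit 330) (nat_lit 5) (nat_lit 347) (nat_lit 5) (nat_lit 523) (nat_lit 516) (nat_lit 161)) (XT.lf (nat_lit 0) (nat_lit 104917111395) (nat_lit 1216) (nat_lit 20432604551) (nat_lit 1292) (nat_lit 15898314378) (nat_lit 331) (nat_lit 5) (nat_lit 347) (nat_lit 5) (nat_lit 348) (nat_lit 5) (nat_lit 524) (nat_lit 516) (nat_lit 160))) (XT.nd (nat_lit 78) (nat_lit 0) (nat_lit 76) (XT.lf (nat_lit 76) (nat_lit 53707500819) (nat_lit 0) (nat_lit 58973176247) (nat_lit 1292) (nat_lit 30755282140) (nat_lit 332) (nat_lit 5) (nat_lit 331) (nat_lit 5) (nat_lit 348) (nat_lit 5) (nat_lit 525) (nat_lit 516) (nat_lit 159))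 (XT.lf (nat_lit 0) (nat_lit 120975699562) (nat_lit 1216) (nat_lit 15285123932) (nat_lit 1292) (nat_lit 9419745970) (nat_lit 332) (nat_lit 5) (nat_lit 348) (nat_lit 5) (nat_lit 349) (nat_lit 5) (nat_lit 526) (nat_lit 516) (nat_lit 158))))) (XT.nd (nat_lit 61854) (nat_lit 0) (nat_lit 76) (XT.nd (nat_lit 61698) (nat_lit 380) (nat_lit 0) (XT.nd (nat_lit 78) (nat_lit 0) (nat_lit 76) (XT.lf (nat_lit 76) (nat_lit 62017713992) (nat_lit 0) (nat_lit 68681778082) (nat_lit 1292) (nat_lit 17257628383) (nat_lit 333) (nat_lit 5) (nat_lit 332) (nat_lit 5) (nat_lit 349) (nat_lit 5) (nat_lit 527) (nat_lit 516) (nat_lit 157)) (XT.lf (nat_lit 0) (nat_lit 140879641932) (nat_lit 1216) (nat_lit 8354882573) (nat_lit 1292) (nat_lit 1062504172) (nat_lit 333) (nat_lit 5) (nat_lit 349) (nat_lit 5) (nat_lit 350) (nat_lit 5) (nat_lit 528) (nat_lit 516) (nat_lit 156))) (XT.nd (nat_lit 78) (nat_lit 0) (nat_lit 0) (XT.lf (nat_lit 0) (nat_lit 37823178631)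 (nat_lit 1292) (nat_lit 13327083409) (nat_lit 1292) (nat_lit 13327083409) (nat_lit 327) (nat_lit 3) (nat_lit 344) (nat_lit 3) (nat_lit 344) (nat_lit 5) (nat_lit 517) (nat_lit 517) (nat_lit 166)) (XT.lf (nat_lit 76) (nat_lit 38311531299) (nat_lit 0) (nat_lit 38841713422) (nat_lit 1292) (nat_lit 53724600600) (nat_lit 328) (nat_lit 5) (nat_lit 327) (nat_lit 3) (nat_lit 344) (nat_lit 5) (nat_lit 518) (nat_lit 517) (nat_lit 165)))) (XT.nd (nat_lit 156) (nat_lit 0) (nat_lit 76) (XT.nd (nat_lit 78) (nat_lit 0) (nat_lit 0) (XT.lf (nat_lit 0) (nat_lit 79231940286) (nat_lit 1216) (nat_lit 27335720370) (nat_lit 1292) (nat_lit 26275235680) (nat_lit 328) (nat_lit 5) (nat_lit 344) (nat_lit 5) (nat_lit 345) (nat_lit 5) (nat_lit 519) (nat_lit 517) (nat_lit 164)) (XT.lf (nat_lit 76) (nat_lit 40252609923) (nat_lit 0) (nat_lit 41891742396) (nat_lit 1292) (nat_lit 52699405900) (nat_lit 329) (nat_lit 5) (nat_lit 328) (nat_lit 5) (nat_lit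 345) (nat_lit 5) (nat_lit 520) (nat_lit 517) (nat_lit 163))) (XT.nd (nat_lit 78) (nat_lit 0) (nat_lit 0) (XT.lf (nat_lit 0) (nat_lit 85660429112) (nat_lit 1216) (nat_lit 26707906161) (nat_lit 1292) (nat_lit 24520821922) (nat_lit 329) (nat_lit 5) (nat_lit 345) (nat_lit 5) (nat_lit 346) (nat_lit 5) (nat_lit 521) (nat_lit 517) (nat_lit 162)) (XT.lf (nat_lit 76) (nat_lit 43648722553) (nat_lit 0) (nat_lit 46467473419) (nat_lit 1292) (nat_lit 48854695941) (nat_lit 330) (nat_lit 5) (nat_lit 329) (nat_lit 5) (nat_lit 346) (nat_lit 5) (nat_lit 522) (nat_lit 517) (nat_lit 161))))))) (XT.nd (nat_lit 124878) (nat_lit 0) (nat_lit 0) (XT.nd (nat_lit 62322) (nat_lit 0) (nat_lit 0) (XT.nd (nat_lit 312) (nat_lit 228) (nat_lit 0) (XT.nd (nat_lit 156) (nat_lit 0) (nat_lit 76) (XT.nd (nat_lit 78) (nat_lit 0) (nat_lit 0) (XT.lf (nat_lit 0) (nat_lit 95183677194) (nat_lit 1216) (nat_lit 24652020545) (nat_lit 1292) (nat_lit 21265039700)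 (nat_lit 330) (nat_lit 5) (nat_lit 346) (nat_lit 5) (nat_lit 347) (nat_lit 5) (nat_lit 523) (nat_lit 517) (nat_lit 160)) (XT.lf (nat_lit 76) (nat_lit 48626959909) (nat_lit 0) (nat_lit 52703596596) (nat_lit 1292) (nat_lit 41936100621) (nat_lit 331) (nat_lit 5) (nat_lit 330) (nat_lit 5) (nat_lit 347) (nat_lit 5) (nat_lit 524) (nat_lit 517) (nat_lit 159))) (XT.nd (nat_lit 78) (nat_lit 0) (nat_lit 0) (XT.lf (nat_lit 0) (nat_lit 108071170084) (nat_lit 1216) (nat_lit 21041043479) (nat_lit 1292) (nat_lit 16373061011) (nat_lit 331) (nat_lit 5) (nat_lit 347) (nat_lit 5) (nat_lit 348) (nat_lit 5) (nat_lit 525) (nat_lit 517) (nat_lit 158)) (XT.lf (nat_lit 76) (nat_lit 55323220551) (nat_lit 0) (nat_lit 60744274739) (nat_lit 1292) (nat_lit 31671350464) (nat_lit 332) (nat_lit 5) (nat_lit 331) (nat_lit 5) (nat_lit 348) (nat_lit 5) (nat_lit 526) (nat_lit 517) (nat_lit 157)))) (XT.nd (nat_lit 61854) (nat_lit 0) (nat_lit 0) (XT.nd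 (nat_lit 61776) (nat_lit 380) (nat_lit 0) (XT.lf (nat_lit 0) (nat_lit 124611164351) (nat_lit 1216) (nat_lit 15739109466) (nat_lit 1292) (nat_lit 9700526635) (nat_lit 332) (nat_lit 5) (nat_lit 348) (nat_lit 5) (nat_lit 349) (nat_lit 5) (nat_lit 527) (nat_lit 517) (nat_lit 156)) (XT.lf (nat_lit 0) (nat_lit 38961754550) (nat_lit 1292) (nat_lit 13724897334) (nat_lit 1292) (nat_lit 13724897334) (nat_lit 327) (nat_lit 3) (nat_lit 344) (nat_lit 3) (nat_lit 344) (nat_lit 5) (nat_lit 518) (nat_lit 518) (nat_lit 164))) (XT.nd (nat_lit 78) (nat_lit 0) (nat_lit 76) (XT.lf (nat_lit 76) (nat_lit 39464835206) (nat_lit 0) (nat_lit 40010579970) (nat_lit 1292) (nat_lit 55328537964) (nat_lit 328) (nat_lit 5) (nat_lit 327) (nat_lit 3) (nat_lit 344) (nat_lit 5) (nat_lit 519) (nat_lit 518) (nat_lit 163)) (XT.lf (nat_lit 0) (nat_lit 81616217293) (nat_lit 1216) (nat_lit 28151694641) (nat_lit 1292) (nat_lit 27060051390) (nat_lit 328) (nat_lit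 5) (nat_lit 344) (nat_lit 5) (nat_lit 345) (nat_lit 5) (nat_lit 520) (nat_lit 518) (nat_lit 162))))) (XT.nd (nat_lit 390) (nat_lit 76) (nat_lit 0) (XT.nd (nat_lit 156) (nat_lit 0) (nat_lit 76) (XT.nd (nat_lit 78) (nat_lit 0) (nat_lit 76) (XT.lf (nat_lit 76) (nat_lit 41464245390) (nat_lit 0) (nat_lit 43151582128) (nat_lit 1292) (nat_lit 54273028782) (nat_lit 329) (nat_lit 5) (nat_lit 328) (nat_lit 5) (nat_lit 345) (nat_lit 5) (nat_lit 521) (nat_lit 518) (nat_lit 161)) (XT.lf (nat_lit 0) (nat_lit 88237149705) (nat_lit 1216) (nat_lit 27504967118) (nat_lit 1292) (nat_lit 25253507539) (nat_lit 329) (nat_lit 5) (nat_lit 345) (nat_lit 5) (nat_lit 346) (nat_lit 5) (nat_lit 522) (nat_lit 518) (nat_lit 160))) (XT.nd (nat_lit 156) (nat_lit 0) (nat_lit 76) (XT.lf (nat_lit 76) (nat_lit 44962319514) (nat_lit 0) (nat_lit 47864108611) (nat_lit 1292) (nat_lit 50313387848) (nat_lit 330) (nat_lit 5) (nat_lit 329) (nat_lit 5) (nat_lit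 346) (nat_lit 5) (nat_lit 523) (nat_lit 518) (nat_lit 159)) (XT.lf (nat_lit 76) (nat_lit 50089963177) (nat_lit 0) (nat_lit 54286885695) (nat_lit 1292) (nat_lit 43187616406) (nat_lit 331) (nat_lit 5) (nat_lit 330) (nat_lit 5) (nat_lit 347) (nat_lit 5) (nat_lit 525) (nat_lit 518) (nat_lit 157)))) (XT.nd (nat_lit 62010) (nat_lit 304) (nat_lit 0) (XT.nd (nat_lit 78) (nat_lit 0) (nat_lit 0) (XT.lf (nat_lit 0) (nat_lit 111319474803) (nat_lit 1216) (nat_lit 21667996143) (nat_lit 1292) (nat_lit 16862176493) (nat_lit 331) (nat_lit 5) (nat_lit 347) (nat_lit 5) (nat_lit 348) (nat_lit 5) (nat_lit 526) (nat_lit 518) (nat_lit 156)) (XT.lf (nat_lit 76) (nat_lit 56987153860) (nat_lit 0) (nat_lit 62568396934) (nat_lit 1292) (nat_lit 32615279139) (nat_lit 332) (nat_lit 5) (nat_lit 331) (nat_lit 5) (nat_lit 348) (nat_lit 5) (nat_lit 527) (nat_lit 518) (nat_lit 155))) (XT.nd (nat_lit 78) (nat_lit 0) (nat_lit 76) (XT.lf (nat_lit 76)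 (nat_lit 40652511026) (nat_lit 0) (nat_lit 41214304991) (nat_lit 1292) (nat_lit 56981041238) (nat_lit 328) (nat_lit 5) (nat_lit 327) (nat_lit 3) (nat_lit 344) (nat_lit 5) (nat_lit 520) (nat_lit 519) (nat_lit 161)) (XT.lf (nat_lit 0) (nat_lit 84071602480) (nat_lit 1216) (nat_lit 28992383345) (nat_lit 1292) (nat_lit 27868609120) (nat_lit 328) (nat_lit 5) (nat_lit 344) (nat_lit 5) (nat_lit 345) (nat_lit 5) (nat_lit 521) (nat_lit 519) (nat_lit 160)))))) (XT.nd (nat_lit 62634) (nat_lit 0) (nat_lit 0) (XT.nd (nat_lit 312) (nat_lit 76) (nat_lit 0) (XT.nd (nat_lit 156) (nat_lit 0) (nat_lit 76) (XT.nd (nat_lit 78) (nat_lit 0) (nat_lit 76) (XT.lf (nat_lit 76) (nat_lit 42711997023) (nat_lit 0) (nat_lit 44449039819) (nat_lit 1292) (nat_lit 55894282803) (nat_lit 329) (nat_lit 5) (nat_lit 328) (nat_lit 5) (nat_lit 345) (nat_lit 5) (nat_lit 522) (nat_lit 519) (nat_lit 159)) (XT.lf (nat_lit 0) (nat_lit 90890775384) (nat_lit 1216)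 (nat_lit 28326179636) (nat_lit 1292) (nat_lit 26008342437) (nat_lit 329) (nat_lit 5) (nat_lit 345) (nat_lit 5) (nat_lit 346) (nat_lit 5) (nat_lit 523) (nat_lit 519) (nat_lit 158))) (XT.nd (nat_lit 78) (nat_lit 0) (nat_lit 76) (XT.lf (nat_lit 76) (nat_lit 46315087001) (nat_lit 0) (nat_lit 49302492978) (nat_lit 1292) (nat_lit 51816239412) (nat_lit 330) (nat_lit 5) (nat_lit 329) (nat_lit 5) (nat_lit 346) (nat_lit 5) (nat_lit 524) (nat_lit 519) (nat_lit 157)) (XT.lf (nat_lit 0) (nat_lit 100993235139) (nat_lit 1216) (nat_lit 26144972680) (nat_lit 1292) (nat_lit 22555177778) (nat_lit 330) (nat_lit 5) (nat_lit 346) (nat_lit 5) (nat_lit 347) (nat_lit 5) (nat_lit 525) (nat_lit 519) (nat_lit 156)))) (XT.nd (nat_lit 62166) (nat_lit 0) (nat_lit 76) (XT.nd (nat_lit 62088) (nat_lit 228) (nat_lit 0) (XT.lf (nat_lit 76) (nat_lit 51596615763) (nat_lit 0) (nat_lit 55917548259) (nat_lit 1292) (nat_lit 44477054650) (nat_lit 331) (nat_lit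 5) (nat_lit 330) (nat_lit 5) (nat_lit 347) (nat_lit 5) (nat_lit 526) (nat_lit 519) (nat_lit 155)) (XT.lf (nat_lit 76) (nat_lit 41875602959) (nat_lit 0) (nat_lit 42453946151) (nat_lit 1292) (nat_lit 58683541695) (nat_lit 328) (nat_lit 5) (nat_lit 327) (nat_lit 3) (nat_lit 344) (nat_lit 5) (nat_lit 521) (nat_lit 520) (nat_lit 159))) (XT.nd (nat_lit 78) (nat_lit 0) (nat_lit 0) (XT.lf (nat_lit 0) (nat_lit 86600253212) (nat_lit 1216) (nat_lit 29858514413) (nat_lit 1292) (nat_lit 28701609789) (nat_lit 328) (nat_lit 5) (nat_lit 344) (nat_lit 5) (nat_lit 345) (nat_lit 5) (nat_lit 522) (nat_lit 520) (nat_lit 158)) (XT.lf (nat_lit 76) (nat_lit 43996961676) (nat_lit 0) (nat_lit 45785254182) (nat_lit 1292) (nat_lit 57564572648) (nat_lit 329) (nat_lit 5) (nat_lit 328) (nat_lit 5) (nat_lit 345) (nat_lit 5) (nat_lit 523) (nat_lit 520) (nat_lit 157))))) (XT.nd (nat_lit 62478) (nat_lit 0) (nat_lit 0) (XT.nd (nat_lit 62322) (nat_lit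 152) (nat_lit 0) (XT.nd (nat_lit 78) (nat_lit 0) (nat_lit 0) (XT.lf (nat_lit 0) (nat_lit 93623636064) (nat_lit 1216) (nat_lit 29172254501) (nat_lit 1292) (nat_lit 26785981410) (nat_lit 329) (nat_lit 5) (nat_lit 345) (nat_lit 5) (nat_lit 346) (nat_lit 5) (nat_lit 524) (nat_lit 520) (nat_lit 156)) (XT.lf (nat_lit 76) (nat_lit 47708213758) (nat_lit 0) (nat_lit 50783887598) (nat_lit 1292) (nat_lit 53364552523) (nat_lit 330) (nat_lit 5) (nat_lit 329) (nat_lit 5) (nat_lit 346) (nat_lit 5) (nat_lit 525) (nat_lit 520) (nat_lit 155))) (XT.nd (nat_lit 78) (nat_lit 0) (nat_lit 76) (XT.lf (nat_lit 76) (nat_lit 43135185783) (nat_lit 0) (nat_lit 43730592163) (nat_lit 1292) (nat_lit 60437515021) (nat_lit 328) (nat_lit 5) (nat_lit 327) (nat_lit 3) (nat_lit 344) (nat_lit 5) (nat_lit 522) (nat_lit 521) (nat_lit 157)) (XT.lf (nat_lit 0) (nat_lit 89204390187) (nat_lit 1216) (nat_lit 30750838388) (nat_lit 1292) (nat_lit 29559775998)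 (nat_lit 328) (nat_lit 5) (nat_lit 344) (nat_lit 5) (nat_lit 345) (nat_lit 5) (nat_lit 523) (nat_lit 521) (nat_lit 156)))) (XT.nd (nat_lit 62400) (nat_lit 76) (nat_lit 0) (XT.nd (nat_lit 78) (nat_lit 0) (nat_lit 76) (XT.lf (nat_lit 76) (nat_lit 45320268342) (nat_lit 0) (nat_lit 47161397506) (nat_lit 1292) (nat_lit 59285346533) (nat_lit 329) (nat_lit 5) (nat_lit 328) (nat_lit 5) (nat_lit 345) (nat_lit 5) (nat_lit 524) (nat_lit 521) (nat_lit 155)) (XT.lf (nat_lit 0) (nat_lit 96438130252) (nat_lit 1216) (nat_lit 30043924611) (nat_lit 1292) (nat_lit 27587099452) (nat_lit 329) (nat_lit 5) (nat_lit 345) (nat_lit 5) (nat_lit 346) (nat_lit 5) (nat_lit 525) (nat_lit 521) (nat_lit 154))) (XT.nd (nat_lit 78) (nat_lit 0) (nat_lit 76) (XT.lf (nat_lit 76) (nat_lit 44432365813) (nat_lit 0) (nat_lit 45045363757) (nat_lit 1292) (nat_lit 62244482563) (nat_lit 328) (nat_lit 5) (nat_lit 327) (nat_lit 3) (nat_lit 344) (nat_lit 5) (nat_lit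 523) (nat_lit 522) (nat_lit 155)) (XT.lf (nat_lit 0) (nat_lit 91886299419) (nat_lit 1216) (nat_lit 31670129062) (nat_lit 1292) (nat_lit 30443852636) (nat_lit 328) (nat_lit 5) (nat_lit 344) (nat_lit 5) (nat_lit 345) (nat_lit 5) (nat_lit 524) (nat_lit 522) (nat_lit 154))))))))

set_option maxRecDepth 10000000 in
noncomputable def Tp : PT := (PT.nd (nat_lit 12949014) (PT.nd (nat_lit 11698986) (PT.nd (nat_lit 10138830) (PT.nd (nat_lit 8327748) (PT.nd (nat_lit 6579456) (PT.nd (nat_lit 5580432) pc0 pc1) (PT.nd (nat_lit 999024) pc2 pc3)) (PT.nd (nat_lit 1123746) (PT.nd (nat_lit 624312) pc4 pc5) (PT.nd (nat_lit 374868) pc6 pc7))) (PT.nd (nat_lit 936624) (PT.nd (nat_lit 561444) (PT.nd (nat_lit 311922) pc8 pc9) (PT.nd (nat_lit 187668) pc10 pc11)) (PT.nd (nat_lit 312390) (PT.nd (nat_lit 186888) pc12 pc13) (PT.nd (nat_lit 186108) pc14 pc15)))) (PT.nd (nat_lit 749814) (PT.nd (nat_lit 436800) (PT.nd (nat_lit 188526) (PT.nd (nat_lit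 124722) pc16 pc17) (PT.nd (nat_lit 124254) pc18 pc19)) (PT.nd (nat_lit 126750) (PT.nd (nat_lit 63414) pc20 pc21) (PT.nd (nat_lit 123240) pc22 pc23))) (PT.nd (nat_lit 251004) (PT.nd (nat_lit 125658) (PT.nd (nat_lit 62868) pc24 pc25) (PT.nd (nat_lit 62712) pc26 pc27)) (PT.nd (nat_lit 124800) (PT.nd (nat_lit 62400) pc28 pc29) (PT.nd (nat_lit 62244) pc30 pc31))))) (PT.nd (nat_lit 751062) (PT.nd (nat_lit 375726) (PT.nd (nat_lit 188526) (PT.nd (nat_lit 123708) (PT.nd (nat_lit 61932) pc32 pc33) (PT.nd (nat_lit 61620) pc34 pc35)) (PT.nd (nat_lit 122772) (PT.nd (nat_lit 61464) pc36 pc37) (PT.nd (nat_lit 61230) pc38 pc39))) (PT.nd (nat_lit 185796) (PT.nd (nat_lit 121914) (PT.nd (nat_lit 61074) pc40 pc41) (PT.nd (nat_lit 3120) pc42 pc43)) (PT.nd (nat_lit 64584) (PT.nd (nat_lit 60528) pc44 pc45) (PT.nd (nat_lit 62166) pc46 pc47)))) (PT.nd (nat_lit 929916) (PT.nd (nat_lit 369486) (PT.nd (nat_lit 182520) (PT.nd (nat_lit 119574)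 pc48 pc49) (PT.nd (nat_lit 67314) pc50 pc51)) (PT.nd (nat_lit 248976) (PT.nd (nat_lit 124332) pc52 pc53) (PT.nd (nat_lit 131586) pc54 pc55))) (PT.nd (nat_lit 872508) (PT.nd (nat_lit 374010) (PT.nd (nat_lit 133458) pc56 pc57) (PT.nd (nat_lit 197262) pc58 pc59)) (PT.nd (nat_lit 498654) (PT.nd (nat_lit 249288) pc60 pc61) (PT.nd (nat_lit 249366) pc62 pc63))))))

set_option maxRecDepth 10000000 in
noncomputable def Tx : XT := (XT.nd (nat_lit 20286006) (nat_lit 0) (nat_lit 836) XT.nil (XT.nd (nat_lit 12368460) (nat_lit 0) (nat_lit 0) (XT.nd (nat_lit 5617404) (nat_lit 0) (nat_lit 3800) (XT.nd (nat_lit 3868020) (nat_lit 0) (nat_lit 2052) (XT.nd (nat_lit 2685462) (nat_lit 0) (nat_lit 988) (XT.nd (nat_lit 1873014) (nat_lit 0) (nat_lit 532) (XT.nd (nat_lit 1310166) (nat_lit 0) (nat_lit 228) (XT.nd (nat_lit 874536) (nat_lit 0) (nat_lit 76) (XT.nd (nat_lit 623610) (nat_lit 0) (nat_lit 0) (XT.nd (nat_lit 436176) (nat_lit 0) (nat_lit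 0) xc0 xc1) (XT.nd (nat_lit 125736) (nat_lit 0) (nat_lit 76) xc2 xc3)) (XT.nd (nat_lit 248430) (nat_lit 0) (nat_lit 152) (XT.nd (nat_lit 124488) (nat_lit 0) (nat_lit 0) xc4 xc5) (XT.nd (nat_lit 64194) (nat_lit 0) (nat_lit 0) xc6 xc7))) (XT.nd (nat_lit 312078) (nat_lit 0) (nat_lit 76) (XT.nd (nat_lit 185718) (nat_lit 0) (nat_lit 76) (XT.nd (nat_lit 63648) (nat_lit 0) (nat_lit 76) xc8 xc9) (XT.nd (nat_lit 63258) (nat_lit 0) (nat_lit 0) xc10 xc11)) (XT.nd (nat_lit 125658) (nat_lit 0) (nat_lit 152) (XT.nd (nat_lit 62868) (nat_lit 0) (nat_lit 152) xc12 xc13) (XT.nd (nat_lit 62634) (nat_lit 0) (nat_lit 0) xc14 xc15)))) (XT.nd (nat_lit 437736) (nat_lit 0) (nat_lit 228) (XT.nd (nat_lit 248274) (nat_lit 0) (nat_lit 152) (XT.nd (nat_lit 124410) (nat_lit 0) (nat_lit 0) (XT.nd (nat_lit 62244) (nat_lit 0) (nat_lit 0) xc16 xc17) (XT.nd (nat_lit 62010) (nat_lit 0) (nat_lit 76) xc18 xc19)) (XT.nd (nat_lit 123162) (nat_lit 0) (nat_lit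 76) (XT.nd (nat_lit 61620) (nat_lit 0) (nat_lit 0) xc20 xc21) (XT.nd (nat_lit 61386) (nat_lit 0) (nat_lit 836) xc22 xc23))) (XT.nd (nat_lit 188058) (nat_lit 0) (nat_lit 152) (XT.nd (nat_lit 122226) (nat_lit 0) (nat_lit 76) (XT.nd (nat_lit 61152) (nat_lit 0) (nat_lit 0) xc24 xc25) (XT.nd (nat_lit 60918) (nat_lit 0) (nat_lit 380) xc26 xc27)) (XT.nd (nat_lit 121290) (nat_lit 0) (nat_lit 76) (XT.nd (nat_lit 60684) (nat_lit 0) (nat_lit 0) xc28 xc29) (XT.nd (nat_lit 60450) (nat_lit 0) (nat_lit 988) xc30 xc31))))) (XT.nd (nat_lit 625092) (nat_lit 0) (nat_lit 456) (XT.nd (nat_lit 369096) (nat_lit 0) (nat_lit 304) (XT.nd (nat_lit 185250) (nat_lit 0) (nat_lit 152) (XT.nd (nat_lit 120354) (nat_lit 0) (nat_lit 152) (XT.nd (nat_lit 60216) (nat_lit 0) (nat_lit 0) xc32 xc33) (XT.nd (nat_lit 4914) (nat_lit 684) (nat_lit 0) xc34 xc35)) (XT.nd (nat_lit 64662) (nat_lit 0) (nat_lit 76) (XT.nd (nat_lit 59748) (nat_lit 0) (nat_lit 988)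 xc36 xc37) (XT.nd (nat_lit 59670) (nat_lit 0) (nat_lit 0) xc38 xc39))) (XT.nd (nat_lit 128310) (nat_lit 0) (nat_lit 76) (XT.nd (nat_lit 64194) (nat_lit 0) (nat_lit 76) (XT.nd (nat_lit 4836) (nat_lit 1748) (nat_lit 0) xc40 xc41) (XT.nd (nat_lit 4914) (nat_lit 304) (nat_lit 0) xc42 xc43)) (XT.nd (nat_lit 63882) (nat_lit 0) (nat_lit 76) (XT.nd (nat_lit 58968) (nat_lit 0) (nat_lit 1900) xc44 xc45) (XT.nd (nat_lit 58890) (nat_lit 0) (nat_lit 760) xc46 xc47)))) (XT.nd (nat_lit 306774) (nat_lit 0) (nat_lit 380) (XT.nd (nat_lit 180570) (nat_lit 0) (nat_lit 228) (XT.nd (nat_lit 117234) (nat_lit 0) (nat_lit 152) (XT.nd (nat_lit 58656) (nat_lit 0) (nat_lit 152) xc48 xc49) (XT.nd (nat_lit 4914) (nat_lit 3268) (nat_lit 0) xc50 xc51)) (XT.nd (nat_lit 63102) (nat_lit 0) (nat_lit 76) (XT.nd (nat_lit 4836) (nat_lit 2508) (nat_lit 0) xc52 xc53) (XT.nd (nat_lit 4914) (nat_lit 1824) (nat_lit 0) xc54 xc55))) (XT.nd (nat_lit 125658)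 (nat_lit 0) (nat_lit 76) (XT.nd (nat_lit 62868) (nat_lit 0) (nat_lit 76) (XT.nd (nat_lit 4836) (nat_lit 1368) (nat_lit 0) xc56 xc57) (XT.nd (nat_lit 4914) (nat_lit 912) (nat_lit 0) xc58 xc59)) (XT.nd (nat_lit 62556) (nat_lit 0) (nat_lit 76) (XT.nd (nat_lit 4836) (nat_lit 760) (nat_lit 0) xc60 xc61) (XT.nd (nat_lit 4914) (nat_lit 608) (nat_lit 0) xc62 xc63)))))) (XT.nd (nat_lit 877266) (nat_lit 0) (nat_lit 760) (XT.nd (nat_lit 442416) (nat_lit 0) (nat_lit 380) (XT.nd (nat_lit 248118) (nat_lit 0) (nat_lit 228) (XT.nd (nat_lit 124332) (nat_lit 0) (nat_lit 76) (XT.nd (nat_lit 62244) (nat_lit 0) (nat_lit 76) (XT.nd (nat_lit 4836) (nat_lit 684) (nat_lit 0) xc64 xc65) (XT.nd (nat_lit 4836) (nat_lit 836) (nat_lit 0) xc66 xc67)) (XT.nd (nat_lit 61932) (nat_lit 0) (nat_lit 76) (XT.nd (nat_lit 4836) (nat_lit 1216) (nat_lit 0) xc68 xc69) (XT.nd (nat_lit 4914) (nat_lit 1672) (nat_lit 0) xc70 xc71))) (XT.nd (nat_lit 123162) (nat_lit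 0) (nat_lit 76) (XT.nd (nat_lit 61620) (nat_lit 0) (nat_lit 76) (XT.nd (nat_lit 4836) (nat_lit 2280) (nat_lit 0) xc72 xc73) (XT.nd (nat_lit 4914) (nat_lit 3040) (nat_lit 0) xc74 xc75)) (XT.nd (nat_lit 61308) (nat_lit 0) (nat_lit 608) (XT.nd (nat_lit 4836) (nat_lit 4484) (nat_lit 0) xc76 xc77) (XT.nd (nat_lit 4914) (nat_lit 5624) (nat_lit 0) xc78 xc79)))) (XT.nd (nat_lit 243828) (nat_lit 0) (nat_lit 228) (XT.nd (nat_lit 122226) (nat_lit 0) (nat_lit 152) (XT.nd (nat_lit 61152) (nat_lit 0) (nat_lit 76) (XT.nd (nat_lit 56238) (nat_lit 0) (nat_lit 1748) xc80 xc81) (XT.nd (nat_lit 56160) (nat_lit 0) (nat_lit 3192) xc82 xc83)) (XT.nd (nat_lit 60840) (nat_lit 0) (nat_lit 0) (XT.nd (nat_lit 55926) (nat_lit 0) (nat_lit 5244) xc84 xc85) (XT.nd (nat_lit 4914) (nat_lit 76) (nat_lit 0) xc86 xc87))) (XT.nd (nat_lit 120978) (nat_lit 0) (nat_lit 152) (XT.nd (nat_lit 60528) (nat_lit 0) (nat_lit 76) (XT.nd (nat_lit 4836) (nat_lit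 1596) (nat_lit 0) xc88 xc89) (XT.nd (nat_lit 4914) (nat_lit 3648) (nat_lit 0) xc90 xc91)) (XT.nd (nat_lit 9750) (nat_lit 760) (nat_lit 0) (XT.nd (nat_lit 4836) (nat_lit 6080) (nat_lit 0) xc92 xc93) (XT.nd (nat_lit 55380) (nat_lit 0) (nat_lit 2964) xc94 xc95))))) (XT.nd (nat_lit 433992) (nat_lit 0) (nat_lit 532) (XT.nd (nat_lit 241800) (nat_lit 0) (nat_lit 380) (XT.nd (nat_lit 120744) (nat_lit 0) (nat_lit 228) (XT.nd (nat_lit 60294) (nat_lit 0) (nat_lit 152) (XT.nd (nat_lit 55380) (nat_lit 0) (nat_lit 6156) xc96 xc97) (XT.nd (nat_lit 4914) (nat_lit 304) (nat_lit 0) xc98 xc99)) (XT.nd (nat_lit 60450) (nat_lit 0) (nat_lit 0) (XT.nd (nat_lit 4836) (nat_lit 2128) (nat_lit 0) xc100 xc101) (XT.nd (nat_lit 4914) (nat_lit 4788) (nat_lit 0) xc102 xc103))) (XT.nd (nat_lit 70512) (nat_lit 0) (nat_lit 76) (XT.nd (nat_lit 9750) (nat_lit 1216) (nat_lit 0) (XT.nd (nat_lit 4836) (nat_lit 7144) (nat_lit 0) xc104 xc105) (XT.nd (nat_lit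 55848) (nat_lit 0) (nat_lit 3116) xc106 xc107)) (XT.nd (nat_lit 60762) (nat_lit 0) (nat_lit 0) (XT.nd (nat_lit 55848) (nat_lit 0) (nat_lit 5548) xc108 xc109) (XT.nd (nat_lit 56004) (nat_lit 0) (nat_lit 8740) xc110 xc111)))) (XT.nd (nat_lit 192894) (nat_lit 0) (nat_lit 228) (XT.nd (nat_lit 121992) (nat_lit 0) (nat_lit 152) (XT.nd (nat_lit 60918) (nat_lit 0) (nat_lit 76) (XT.nd (nat_lit 4836) (nat_lit 1368) (nat_lit 0) xc112 xc113) (XT.nd (nat_lit 4914) (nat_lit 2964) (nat_lit 0) xc114 xc115)) (XT.nd (nat_lit 61074) (nat_lit 0) (nat_lit 912) (XT.nd (nat_lit 4836) (nat_lit 5092) (nat_lit 0) xc116 xc117) (XT.nd (nat_lit 4914) (nat_lit 6840) (nat_lit 0) xc118 xc119))) (XT.nd (nat_lit 122460) (nat_lit 0) (nat_lit 152) (XT.nd (nat_lit 61152) (nat_lit 0) (nat_lit 76) (XT.nd (nat_lit 56238) (nat_lit 0) (nat_lit 2204) xc120 xc121) (XT.nd (nat_lit 56394) (nat_lit 0) (nat_lit 3648) xc122 xc123)) (XT.nd (nat_lit 61308) (nat_lit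 0) (nat_lit 0) (XT.nd (nat_lit 56394) (nat_lit 0) (nat_lit 5396) xc124 xc125) (XT.nd (nat_lit 56550) (nat_lit 0) (nat_lit 7524) xc126 xc127))))))) (XT.nd (nat_lit 2065284) (nat_lit 0) (nat_lit 3040) (XT.nd (nat_lit 941226) (nat_lit 0) (nat_lit 1140) (XT.nd (nat_lit 442026) (nat_lit 0) (nat_lit 608) (XT.nd (nat_lit 246402) (nat_lit 0) (nat_lit 304) (XT.nd (nat_lit 123006) (nat_lit 0) (nat_lit 152) (XT.nd (nat_lit 61464) (nat_lit 0) (nat_lit 152) (XT.nd (nat_lit 4836) (nat_lit 684) (nat_lit 0) xc128 xc129) (XT.nd (nat_lit 4836) (nat_lit 1672) (nat_lit 0) xc130 xc131)) (XT.nd (nat_lit 61620) (nat_lit 0) (nat_lit 76) (XT.nd (nat_lit 4836) (nat_lit 2888) (nat_lit 0) xc132 xc133) (XT.nd (nat_lit 4914) (nat_lit 3952) (nat_lit 0) xc134 xc135))) (XT.nd (nat_lit 123786) (nat_lit 0) (nat_lit 152) (XT.nd (nat_lit 61776) (nat_lit 0) (nat_lit 76) (XT.nd (nat_lit 4836) (nat_lit 5320) (nat_lit 0) xc136 xc137) (XT.nd (nat_lit 4914)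 (nat_lit 6308) (nat_lit 0) xc138 xc139)) (XT.nd (nat_lit 9750) (nat_lit 456) (nat_lit 0) (XT.nd (nat_lit 4836) (nat_lit 7068) (nat_lit 0) xc140 xc141) (XT.nd (nat_lit 57174) (nat_lit 0) (nat_lit 836) xc142 xc143)))) (XT.nd (nat_lit 248976) (nat_lit 0) (nat_lit 228) (XT.nd (nat_lit 124332) (nat_lit 0) (nat_lit 76) (XT.nd (nat_lit 62088) (nat_lit 0) (nat_lit 0) (XT.nd (nat_lit 57174) (nat_lit 0) (nat_lit 1292) xc144 xc145) (XT.nd (nat_lit 57330) (nat_lit 0) (nat_lit 1672) xc146 xc147)) (XT.nd (nat_lit 62244) (nat_lit 0) (nat_lit 76) (XT.nd (nat_lit 57330) (nat_lit 0) (nat_lit 1900) xc148 xc149) (XT.nd (nat_lit 57486) (nat_lit 0) (nat_lit 2052) xc150 xc151))) (XT.nd (nat_lit 124956) (nat_lit 0) (nat_lit 76) (XT.nd (nat_lit 62400) (nat_lit 0) (nat_lit 76) (XT.nd (nat_lit 57486) (nat_lit 0) (nat_lit 2204) xc152 xc153) (XT.nd (nat_lit 57642) (nat_lit 0) (nat_lit 2128) xc154 xc155)) (XT.nd (nat_lit 62556) (nat_lit 0) (nat_lit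 152) (XT.nd (nat_lit 57642) (nat_lit 0) (nat_lit 2128) xc156 xc157) (XT.nd (nat_lit 57798) (nat_lit 0) (nat_lit 1748) xc158 xc159))))) (XT.nd (nat_lit 558480) (nat_lit 0) (nat_lit 836) (XT.nd (nat_lit 305136) (nat_lit 0) (nat_lit 456) (XT.nd (nat_lit 125736) (nat_lit 0) (nat_lit 152) (XT.nd (nat_lit 62790) (nat_lit 0) (nat_lit 152) (XT.nd (nat_lit 57876) (nat_lit 0) (nat_lit 1368) xc160 xc161) (XT.nd (nat_lit 58032) (nat_lit 0) (nat_lit 684) xc162 xc163)) (XT.nd (nat_lit 62946) (nat_lit 0) (nat_lit 76) (XT.nd (nat_lit 58032) (nat_lit 0) (nat_lit 304) xc164 xc165) (XT.nd (nat_lit 58188) (nat_lit 0) (nat_lit 228) xc166 xc167))) (XT.nd (nat_lit 126516) (nat_lit 0) (nat_lit 76) (XT.nd (nat_lit 63180) (nat_lit 0) (nat_lit 76) (XT.nd (nat_lit 4836) (nat_lit 5548) (nat_lit 0) xc168 xc169) (XT.nd (nat_lit 4914) (nat_lit 4104) (nat_lit 0) xc170 xc171)) (XT.nd (nat_lit 63336) (nat_lit 0) (nat_lit 228) (XT.nd (nat_lit 4836)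 (nat_lit 3116) (nat_lit 0) xc172 xc173) (XT.nd (nat_lit 4914) (nat_lit 1596) (nat_lit 0) xc174 xc175)))) (XT.nd (nat_lit 254904) (nat_lit 0) (nat_lit 456) (XT.nd (nat_lit 127296) (nat_lit 0) (nat_lit 304) (XT.nd (nat_lit 63570) (nat_lit 0) (nat_lit 228) (XT.nd (nat_lit 4836) (nat_lit 456) (nat_lit 0) xc176 xc177) (XT.nd (nat_lit 58812) (nat_lit 0) (nat_lit 4028) xc178 xc179)) (XT.nd (nat_lit 63726) (nat_lit 0) (nat_lit 0) (XT.nd (nat_lit 58812) (nat_lit 0) (nat_lit 2128) xc180 xc181) (XT.nd (nat_lit 58968) (nat_lit 0) (nat_lit 304) xc182 xc183))) (XT.nd (nat_lit 182208) (nat_lit 0) (nat_lit 304) (XT.nd (nat_lit 118092) (nat_lit 0) (nat_lit 152) (XT.nd (nat_lit 58968) (nat_lit 0) (nat_lit 76) xc184 xc185) (XT.nd (nat_lit 4914) (nat_lit 3040) (nat_lit 0) xc186 xc187)) (XT.nd (nat_lit 64116) (nat_lit 0) (nat_lit 152) (XT.nd (nat_lit 4836) (nat_lit 608) (nat_lit 0) xc188 xc189) (XT.nd (nat_lit 59436) (nat_lit 0) (nat_lit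 2736) xc190 xc191)))))) (XT.nd (nat_lit 1435122) (nat_lit 0) (nat_lit 3040) (XT.nd (nat_lit 683592) (nat_lit 0) (nat_lit 1368) (XT.nd (nat_lit 312936) (nat_lit 0) (nat_lit 456) (XT.nd (nat_lit 183612) (nat_lit 0) (nat_lit 152) (XT.nd (nat_lit 119028) (nat_lit 0) (nat_lit 152) (XT.nd (nat_lit 59436) (nat_lit 0) (nat_lit 0) xc192 xc193) (XT.nd (nat_lit 4914) (nat_lit 4484) (nat_lit 0) xc194 xc195)) (XT.nd (nat_lit 64584) (nat_lit 0) (nat_lit 152) (XT.nd (nat_lit 4836) (nat_lit 1216) (nat_lit 0) xc196 xc197) (XT.nd (nat_lit 59826) (nat_lit 0) (nat_lit 1976) xc198 xc199))) (XT.nd (nat_lit 184938) (nat_lit 0) (nat_lit 380) (XT.nd (nat_lit 119886) (nat_lit 0) (nat_lit 304) (XT.nd (nat_lit 59826) (nat_lit 0) (nat_lit 152) xc200 xc201) (XT.nd (nat_lit 4914) (nat_lit 1976) (nat_lit 0) xc202 xc203)) (XT.nd (nat_lit 65052) (nat_lit 0) (nat_lit 152) (XT.nd (nat_lit 60138) (nat_lit 0) (nat_lit 1900) xc204 xc205) (XT.nd (nat_lit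 60294) (nat_lit 0) (nat_lit 0) xc206 xc207)))) (XT.nd (nat_lit 374088) (nat_lit 0) (nat_lit 760) (XT.nd (nat_lit 186654) (nat_lit 0) (nat_lit 380) (XT.nd (nat_lit 65364) (nat_lit 0) (nat_lit 0) (XT.nd (nat_lit 4836) (nat_lit 608) (nat_lit 0) xc208 xc209) (XT.nd (nat_lit 60606) (nat_lit 0) (nat_lit 152) xc210 xc211)) (XT.nd (nat_lit 65598) (nat_lit 0) (nat_lit 0) (XT.nd (nat_lit 4836) (nat_lit 1900) (nat_lit 0) xc212 xc213) (XT.nd (nat_lit 60840) (nat_lit 0) (nat_lit 228) xc214 xc215))) (XT.nd (nat_lit 188292) (nat_lit 0) (nat_lit 456) (XT.nd (nat_lit 65910) (nat_lit 0) (nat_lit 152) (XT.nd (nat_lit 4836) (nat_lit 2052) (nat_lit 0) xc216 xc217) (XT.nd (nat_lit 61152) (nat_lit 0) (nat_lit 0) xc218 xc219)) (XT.nd (nat_lit 66144) (nat_lit 0) (nat_lit 152) (XT.nd (nat_lit 4836) (nat_lit 456) (nat_lit 0) xc220 xc221) (XT.nd (nat_lit 61464) (nat_lit 0) (nat_lit 228) xc222 xc223))))) (XT.nd (nat_lit 939744) (nat_lit 0)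 (nat_lit 3040) (XT.nd (nat_lit 438204) (nat_lit 0) (nat_lit 1368) (XT.nd (nat_lit 190008) (nat_lit 0) (nat_lit 608) (XT.nd (nat_lit 123240) (nat_lit 0) (nat_lit 380) (XT.nd (nat_lit 61542) (nat_lit 0) (nat_lit 152) xc224 xc225) (XT.nd (nat_lit 4914) (nat_lit 228) (nat_lit 0) xc226 xc227)) (XT.nd (nat_lit 123864) (nat_lit 0) (nat_lit 228) (XT.nd (nat_lit 61854) (nat_lit 0) (nat_lit 0) xc228 xc229) (XT.nd (nat_lit 62088) (nat_lit 0) (nat_lit 304) xc230 xc231))) (XT.nd (nat_lit 249834) (nat_lit 0) (nat_lit 760) (XT.nd (nat_lit 124644) (nat_lit 0) (nat_lit 228) (XT.nd (nat_lit 62244) (nat_lit 0) (nat_lit 228) xc232 xc233) (XT.nd (nat_lit 62478) (nat_lit 0) (nat_lit 304) xc234 xc235)) (XT.nd (nat_lit 125736) (nat_lit 0) (nat_lit 380) (XT.nd (nat_lit 62868) (nat_lit 0) (nat_lit 304) xc236 xc237) (XT.nd (nat_lit 62868) (nat_lit 0) (nat_lit 228) xc238 xc239)))) (XT.nd (nat_lit 747162) (nat_lit 0) (nat_lit 4636) (XT.nd (nat_lit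 371592) (nat_lit 0) (nat_lit 1672) (XT.nd (nat_lit 185250) (nat_lit 0) (nat_lit 684) (XT.nd (nat_lit 121758) (nat_lit 0) (nat_lit 684) xc240 xc241) (XT.nd (nat_lit 63570) (nat_lit 0) (nat_lit 304) xc242 xc243)) (XT.nd (nat_lit 127920) (nat_lit 0) (nat_lit 380) (XT.nd (nat_lit 63882) (nat_lit 0) (nat_lit 0) xc244 xc245) (XT.nd (nat_lit 123630) (nat_lit 0) (nat_lit 836) xc246 xc247))) (XT.nd (nat_lit 500604) (nat_lit 0) (nat_lit 2508) (XT.nd (nat_lit 189384) (nat_lit 0) (nat_lit 988) (XT.nd (nat_lit 64584) (nat_lit 0) (nat_lit 456) xc248 xc249) (XT.nd (nat_lit 125190) (nat_lit 0) (nat_lit 456) xc250 xc251)) (XT.nd (nat_lit 374790) (nat_lit 0) (nat_lit 2432) (XT.nd (nat_lit 126126) (nat_lit 0) (nat_lit 1216) xc252 xc253) (XT.nd (nat_lit 188838) (nat_lit 0) (nat_lit 760) xc254 xc255)))))))) XT.nil))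

set_option maxRecDepth 10000000 in
noncomputable def Te : XT := XT.nil

set_option maxRecDepth 10000000 in
noncomputable def Tz : ZL := (ZL.cons (nat_lit 76) (nat_lit 6) (nat_lit 593566968227791701376) (ZL.cons (nat_lit 152) (nat_lit 3) (nat_lit 292410313307251284344) (ZL.cons (nat_lit 228) (nat_lit 6) (nat_lit 497439102104487417928) (ZL.cons (nat_lit 380) (nat_lit 3) (nat_lit 245062131013784302250) (ZL.cons (nat_lit 456) (nat_lit 6) (nat_lit 483023920482594927570) (ZL.cons (nat_lit 608) (nat_lit 3) (nat_lit 237962167038801710045) (ZL.cons (nat_lit 684) (nat_lit 6) (nat_lit 469033064676824012920) (ZL.cons (nat_lit 836) (nat_lit 3) (nat_lit 231071298202025844660) (ZL.cons (nat_lit 912) (nat_lit 6) (nat_lit 455454447671797016920) (ZL.cons (nat_lit 1064) (nat_lit 3) (nat_lit 224383574428122529738) (ZL.cons (nat_lit 1140) (nat_lit 6) (nat_lit 442276351065256466526) (ZL.cons (nat_lit 1216) (nat_lit 6) (nat_lit 435976382727945908224)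 (ZL.cons (nat_lit 1292) (nat_lit 3) (nat_lit 217893227475448891936) (ZL.cons (nat_lit 1368) (nat_lit 6) (nat_lit 429487415340516033178) (ZL.cons (nat_lit 1444) (nat_lit 6) (nat_lit 423373728218917676992) (ZL.cons (nat_lit 1520) (nat_lit 3) (nat_lit 211594666159435477158) (ZL.cons (nat_lit 1596) (nat_lit 6) (nat_lit 417076630483671370120) (ZL.cons (nat_lit 1672) (nat_lit 6) (nat_lit 411143968639138950856) (ZL.cons (nat_lit 1748) (nat_lit 3) (nat_lit 205482471746731260537) (ZL.cons (nat_lit 1824) (nat_lit 6) (nat_lit 405033326939270559012) (ZL.cons (nat_lit 1900) (nat_lit 6) (nat_lit 399276597855174345328) (ZL.cons (nat_lit 1976) (nat_lit 3) (nat_lit 199551393517064633935) (ZL.cons (nat_lit 2052) (nat_lit 6) (nat_lit 393347166898555245234) (ZL.cons (nat_lit 2128) (nat_lit 6) (nat_lit 387761437349905756516) (ZL.cons (nat_lit 2204) (nat_lit 3) (nat_lit 193796344489979539687) (ZL.cons (nat_lit 2280) (nat_lit 6) (nat_lit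 382008135914796783140) (ZL.cons (nat_lit 2356) (nat_lit 6) (nat_lit 376588627996506564234) (ZL.cons (nat_lit 2432) (nat_lit 3) (nat_lit 188212397313813147581) (ZL.cons (nat_lit 2508) (nat_lit 6) (nat_lit 371006534840667638758) (ZL.cons (nat_lit 2584) (nat_lit 6) (nat_lit 365748622152165218988) (ZL.cons (nat_lit 2660) (nat_lit 3) (nat_lit 182794780314490245868) (ZL.cons (nat_lit 2736) (nat_lit 6) (nat_lit 360332972083007726624) (ZL.cons (nat_lit 2812) (nat_lit 6) (nat_lit 355232176067126648778) (ZL.cons (nat_lit 2888) (nat_lit 3) (nat_lit 177538873701920252906) (ZL.cons (nat_lit 2964) (nat_lit 6) (nat_lit 349978356170769138598) (ZL.cons (nat_lit 3040) (nat_lit 6) (nat_lit 345030342605046281062) (ZL.cons (nat_lit 3116) (nat_lit 3) (nat_lit 172440205931995886665) (ZL.cons (nat_lit 3192) (nat_lit 6) (nat_lit 339933888632351737800) (ZL.cons (nat_lit 3268) (nat_lit 6) (nat_lit 335134464271083521300) (ZL.cons (nat_lit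 3344) (nat_lit 3) (nat_lit 167494450222408504469) (ZL.cons (nat_lit 3420) (nat_lit 6) (nat_lit 330191057178977258306) (ZL.cons (nat_lit 3496) (nat_lit 6) (nat_lit 325536166544600198740) (ZL.cons (nat_lit 3572) (nat_lit 3) (nat_lit 162697421220714413757) (ZL.cons (nat_lit 3648) (nat_lit 6) (nat_lit 320741629191191827388) (ZL.cons (nat_lit 3724) (nat_lit 6) (nat_lit 316227351513775759572) (ZL.cons (nat_lit 3800) (nat_lit 3) (nat_lit 158045071823309544241) (ZL.cons (nat_lit 3876) (nat_lit 6) (nat_lit 311577645506037209726) (ZL.cons (nat_lit 3952) (nat_lit 6) (nat_lit 307200191809905876858) (ZL.cons (nat_lit 4028) (nat_lit 3) (nat_lit 153533490144197272849) (ZL.cons (nat_lit 4104) (nat_lit 6) (nat_lit 302691414502890604000) (ZL.cons (nat_lit 4180) (nat_lit 6) (nat_lit 298447124839615720994) (ZL.cons (nat_lit 4256) (nat_lit 3) (nat_lit 149158896632666437606) (ZL.cons (nat_lit 4332) (nat_lit 6) (nat_lit 294075506486442591498)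 (ZL.cons (nat_lit 4408) (nat_lit 6) (nat_lit 289960847313694508926) (ZL.cons (nat_lit 4484) (nat_lit 3) (nat_lit 144917641339234222528) (ZL.cons (nat_lit 4560) (nat_lit 6) (nat_lit 285722748365763983874) (ZL.cons (nat_lit 4636) (nat_lit 6) (nat_lit 281734310071745291430) (ZL.cons (nat_lit 4712) (nat_lit 3) (nat_lit 140806201329452226363) (ZL.cons (nat_lit 4788) (nat_lit 6) (nat_lit 277626218628906038216) (ZL.cons (nat_lit 4864) (nat_lit 6) (nat_lit 273760713202344469890) (ZL.cons (nat_lit 4940) (nat_lit 3) (nat_lit 136821178245424254989) (ZL.cons (nat_lit 5016) (nat_lit 6) (nat_lit 269779242612986054510) (ZL.cons (nat_lit 5092) (nat_lit 6) (nat_lit 266033501458920539568) (ZL.cons (nat_lit 5168) (nat_lit 3) (nat_lit 132959296015141842644) (ZL.cons (nat_lit 5244) (nat_lit 6) (nat_lit 262175388070233059178) (ZL.cons (nat_lit 5320) (nat_lit 6) (nat_lit 258546359972092384374) (ZL.cons (nat_lit 5396) (nat_lit 3) (nat_lit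 129217398710008884283) (ZL.cons (nat_lit 5472) (nat_lit 6) (nat_lit 254808461031007489326) (ZL.cons (nat_lit 5548) (nat_lit 6) (nat_lit 251293210259755513442) (ZL.cons (nat_lit 5624) (nat_lit 3) (nat_lit 125592448551200758757) (ZL.cons (nat_lit 5700) (nat_lit 6) (nat_lit 247672501965365978284) (ZL.cons (nat_lit 5776) (nat_lit 6) (nat_lit 244268206536771423106) (ZL.cons (nat_lit 5852) (nat_lit 3) (nat_lit 122081524065786684403) (ZL.cons (nat_lit 5928) (nat_lit 6) (nat_lit 240761782245319031272) (ZL.cons (nat_lit 6004) (nat_lit 6) (nat_lit 237465732326702355096) (ZL.cons (nat_lit 6080) (nat_lit 3) (nat_lit 118681818393837558956) (ZL.cons (nat_lit 6156) (nat_lit 6) (nat_lit 234272018332105131530) (ZL.cons (nat_lit 6232) (nat_lit 6) (nat_lit 234070800910527178634) (ZL.cons (nat_lit 6308) (nat_lit 6) (nat_lit 230880397378642754076) (ZL.cons (nat_lit 6384) (nat_lit 3) (nat_lit 115390637748046019182) (ZL.cons (nat_lit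 6460) (nat_lit 6) (nat_lit 227789638460780391830) (ZL.cons (nat_lit 6536) (nat_lit 6) (nat_lit 227594281740801796782) (ZL.cons (nat_lit 6612) (nat_lit 6) (nat_lit 224507034892831443002) (ZL.cons (nat_lit 6688) (nat_lit 3) (nat_lit 112205400027701781833) (ZL.cons (nat_lit 6764) (nat_lit 6) (nat_lit 221516837357847799038) (ZL.cons (nat_lit 6840) (nat_lit 6) (nat_lit 221327170639421978604) (ZL.cons (nat_lit 6916) (nat_lit 6) (nat_lit 218340699059386766422) (ZL.cons (nat_lit 6992) (nat_lit 3) (nat_lit 109123633589194412662) (ZL.cons (nat_lit 7068) (nat_lit 6) (nat_lit 215448775777024109946) (ZL.cons (nat_lit 7144) (nat_lit 6) (nat_lit 215264633331950497876) (ZL.cons (nat_lit 7220) (nat_lit 6) (nat_lit 212376662915192632678) (ZL.cons (nat_lit 7296) (nat_lit 3) (nat_lit 106142976175558480853) (ZL.cons (nat_lit 7372) (nat_lit 6) (nat_lit 209580832458819033532) (ZL.cons (nat_lit 7448) (nat_lit 6) (nat_lit 209402053385932031522)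 (ZL.cons (nat_lit 7524) (nat_lit 6) (nat_lit 206610416524678555442) (ZL.cons (nat_lit 7600) (nat_lit 3) (nat_lit 103261174007933612202) (ZL.cons (nat_lit 7676) (nat_lit 6) (nat_lit 203908602473011748880) (ZL.cons (nat_lit 7752) (nat_lit 6) (nat_lit 203735030557587475082) (ZL.cons (nat_lit 7828) (nat_lit 6) (nat_lit 201037665490983607078) (ZL.cons (nat_lit 7904) (nat_lit 3) (nat_lit 100476081042185332159) (ZL.cons (nat_lit 7980) (nat_lit 6) (nat_lit 198427895895123636428) (ZL.cons (nat_lit 8056) (nat_lit 6) (nat_lit 198259379472381623032) (ZL.cons (nat_lit 8132) (nat_lit 6) (nat_lit 195654329804774923902) (ZL.cons (nat_lit 8208) (nat_lit 3) (nat_lit 97785658394322926633) (ZL.cons (nat_lit 8284) (nat_lit 6) (nat_lit 193134736824559454276) (ZL.cons (nat_lit 8360) (nat_lit 6) (nat_lit 192971128647140023798) (ZL.cons (nat_lit 8436) (nat_lit 6) (nat_lit 190698398945635996758) (ZL.cons (nat_lit 8512) (nat_lit 6) (nat_lit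 190456543038808449926) (ZL.cons (nat_lit 8588) (nat_lit 3) (nat_lit 95187973938759045042) (ZL.cons (nat_lit 8664) (nat_lit 6) (nat_lit 188025362752925405034) (ZL.cons (nat_lit 8740) (nat_lit 6) (nat_lit 187866519862226928838) (ZL.cons (nat_lit 8816) (nat_lit 6) (nat_lit 185675463457202253448) (ZL.cons (nat_lit 8892) (nat_lit 6) (nat_lit 185440651897175508952) (ZL.cons (nat_lit 8968) (nat_lit 3) (nat_lit 92681202083883696299) (ZL.cons (nat_lit 9044) (nat_lit 6) (nat_lit 183096224291908931122) (ZL.cons (nat_lit 9120) (nat_lit 6) (nat_lit 182942007893172546468) (ZL.cons (nat_lit 9196) (nat_lit 6) (nat_lit 180831188517451719702) (ZL.cons (nat_lit 9272) (nat_lit 6) (nat_lit 180603216129076239606) (ZL.cons (nat_lit 9348) (nat_lit 3) (nat_lit 90263623729873985653) (ZL.cons (nat_lit 9424) (nat_lit 6) (nat_lit 178343985271024407282) (ZL.cons (nat_lit 9500) (nat_lit 6) (nat_lit 178194260612057043540) (ZL.cons (nat_lit 9576)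 (nat_lit 6) (nat_lit 176162341233801276052) (ZL.cons (nat_lit 9652) (nat_lit 6) (nat_lit 175941008817902751688) (ZL.cons (nat_lit 9728) (nat_lit 3) (nat_lit 87933626414131828123) (ZL.cons (nat_lit 9804) (nat_lit 6) (nat_lit 173765523216494087140) (ZL.cons (nat_lit 9880) (nat_lit 6) (nat_lit 173620159469923831076) (ZL.cons (nat_lit 9956) (nat_lit 6) (nat_lit 171665902898082246210) (ZL.cons (nat_lit 10032) (nat_lit 6) (nat_lit 171451017057404067214) (ZL.cons (nat_lit 10108) (nat_lit 3) (nat_lit 85689704650236453296) (ZL.cons (nat_lit 10184) (nat_lit 6) (nat_lit 169640313242971529230) (ZL.cons (nat_lit 10260) (nat_lit 6) (nat_lit 169357930223547793990) (ZL.cons (nat_lit 10336) (nat_lit 6) (nat_lit 169216800372508710436) (ZL.cons (nat_lit 10412) (nat_lit 6) (nat_lit 167339070057529311744) (ZL.cons (nat_lit 10488) (nat_lit 6) (nat_lit 167130443027744671946) (ZL.cons (nat_lit 10564) (nat_lit 3) (nat_lit 83530460466818374507)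 (ZL.cons (nat_lit 10640) (nat_lit 6) (nat_lit 165392672506776371324) (ZL.cons (nat_lit 10716) (nat_lit 6) (nat_lit 165118514235491191480) (ZL.cons (nat_lit 10792) (nat_lit 6) (nat_lit 164981494962637712304) (ZL.cons (nat_lit 10868) (nat_lit 6) (nat_lit 163179255999716202892) (ZL.cons (nat_lit 10944) (nat_lit 6) (nat_lit 162976705485362183670) (ZL.cons (nat_lit 11020) (nat_lit 3) (nat_lit 81454604153308313713) (ZL.cons (nat_lit 11096) (nat_lit 6) (nat_lit 161310973822932135802) (ZL.cons (nat_lit 11172) (nat_lit 6) (nat_lit 161044800744014485468) (ZL.cons (nat_lit 11248) (nat_lit 6) (nat_lit 160911772323768389178) (ZL.cons (nat_lit 11324) (nat_lit 6) (nat_lit 159184092666490527478) (ZL.cons (nat_lit 11400) (nat_lit 6) (nat_lit 158987441681680800076) (ZL.cons (nat_lit 11476) (nat_lit 3) (nat_lit 79460955220090130015) (ZL.cons (nat_lit 11552) (nat_lit 6) (nat_lit 157392955391363347014) (ZL.cons (nat_lit 11628) (nat_lit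 6) (nat_lit 157134534926394754456) (ZL.cons (nat_lit 11704) (nat_lit 6) (nat_lit 157005381120330583298) (ZL.cons (nat_lit 11780) (nat_lit 6) (nat_lit 155669823847227493142) (ZL.cons (nat_lit 11856) (nat_lit 6) (nat_lit 155351433013172623734) (ZL.cons (nat_lit 11932) (nat_lit 6) (nat_lit 155160509726949587420) (ZL.cons (nat_lit 12008) (nat_lit 3) (nat_lit 77548443581192978154) (ZL.cons (nat_lit 12084) (nat_lit 6) (nat_lit 153636577891798971098) (ZL.cons (nat_lit 12160) (nat_lit 6) (nat_lit 153385684236489657934) (ZL.cons (nat_lit 12236) (nat_lit 6) (nat_lit 153260292191767161666) (ZL.cons (nat_lit 12312) (nat_lit 6) (nat_lit 151988471145177450636) (ZL.cons (nat_lit 12388) (nat_lit 6) (nat_lit 151679353830561072568) (ZL.cons (nat_lit 12464) (nat_lit 6) (nat_lit 151493991416752299450) (ZL.cons (nat_lit 12540) (nat_lit 3) (nat_lit 75716110968296717147) (ZL.cons (nat_lit 12616) (nat_lit 6) (nat_lit 150040027540847971398)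 (ZL.cons (nat_lit 12692) (nat_lit 6) (nat_lit 149796441467732133376) (ZL.cons (nat_lit 12768) (nat_lit 6) (nat_lit 149674701618486991370) (ZL.cons (nat_lit 12844) (nat_lit 6) (nat_lit 148466272946320508022) (ZL.cons (nat_lit 12920) (nat_lit 6) (nat_lit 148166159048634704074) (ZL.cons (nat_lit 12996) (nat_lit 6) (nat_lit 147986195540082497164) (ZL.cons (nat_lit 13072) (nat_lit 3) (nat_lit 73963112585498110157) (ZL.cons (nat_lit 13148) (nat_lit 6) (nat_lit 146956714921604823492) (ZL.cons (nat_lit 13224) (nat_lit 6) (nat_lit 146601719640841382722) (ZL.cons (nat_lit 13300) (nat_lit 6) (nat_lit 146365228307719209886) (ZL.cons (nat_lit 13376) (nat_lit 6) (nat_lit 146247034279325868132) (ZL.cons (nat_lit 13452) (nat_lit 6) (nat_lit 145101756258461864478) (ZL.cons (nat_lit 13528) (nat_lit 6) (nat_lit 144810383542262054820) (ZL.cons (nat_lit 13604) (nat_lit 6) (nat_lit 144635661689298747140) (ZL.cons (nat_lit 13680) (nat_lit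 3) (nat_lit 72288719014995841118) (ZL.cons (nat_lit 13756) (nat_lit 6) (nat_lit 143664958253880477918) (ZL.cons (nat_lit 13832) (nat_lit 6) (nat_lit 143320302641488787850) (ZL.cons (nat_lit 13908) (nat_lit 6) (nat_lit 143090699405447843348) (ZL.cons (nat_lit 13984) (nat_lit 6) (nat_lit 142975947921570812518) (ZL.cons (nat_lit 14060) (nat_lit 6) (nat_lit 142290070172530113090) (ZL.cons (nat_lit 14136) (nat_lit 6) (nat_lit 141893683592961840102) (ZL.cons (nat_lit 14212) (nat_lit 6) (nat_lit 141610797460729015190) (ZL.cons (nat_lit 14288) (nat_lit 6) (nat_lit 141441164593774347538) (ZL.cons (nat_lit 14364) (nat_lit 3) (nat_lit 70692318384602190806) (ZL.cons (nat_lit 14440) (nat_lit 6) (nat_lit 140529279836347547252) (ZL.cons (nat_lit 14516) (nat_lit 6) (nat_lit 140194662736938139420) (ZL.cons (nat_lit 14592) (nat_lit 6) (nat_lit 139971746973791591358) (ZL.cons (nat_lit 14668) (nat_lit 6) (nat_lit 139860337766143988610)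 (ZL.cons (nat_lit 14744) (nat_lit 6) (nat_lit 139225899174188673508) (ZL.cons (nat_lit 14820) (nat_lit 6) (nat_lit 138841057834802000704) (ZL.cons (nat_lit 14896) (nat_lit 6) (nat_lit 138566411104478869722) (ZL.cons (nat_lit 14972) (nat_lit 6) (nat_lit 138401719000639386564) (ZL.cons (nat_lit 15048) (nat_lit 3) (nat_lit 69173418808780874871) (ZL.cons (nat_lit 15124) (nat_lit 6) (nat_lit 137548799992755625720) (ZL.cons (nat_lit 15200) (nat_lit 6) (nat_lit 137223929022455229766) (ZL.cons (nat_lit 15276) (nat_lit 6) (nat_lit 137007505951439163688) (ZL.cons (nat_lit 15352) (nat_lit 6) (nat_lit 136899341672169646456) (ZL.cons (nat_lit 15428) (nat_lit 6) (nat_lit 136316760053461304044) (ZL.cons (nat_lit 15504) (nat_lit 6) (nat_lit 135943127685124728506) (ZL.cons (nat_lit 15580) (nat_lit 6) (nat_lit 135676480374131397456) (ZL.cons (nat_lit 15656) (nat_lit 6) (nat_lit 135516585127685297304) (ZL.cons (nat_lit 15732) (nat_lit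 3) (nat_lit 67731651115746708447) (ZL.cons (nat_lit 15808) (nat_lit 6) (nat_lit 135143861477166254230) (ZL.cons (nat_lit 15884) (nat_lit 6) (nat_lit 134722887945687756764) (ZL.cons (nat_lit 15960) (nat_lit 6) (nat_lit 134407479236658246130) (ZL.cons (nat_lit 16036) (nat_lit 6) (nat_lit 134197359750234881006) (ZL.cons (nat_lit 16112) (nat_lit 6) (nat_lit 134092345886866417676) (ZL.cons (nat_lit 16188) (nat_lit 6) (nat_lit 134029079401036820410) (ZL.cons (nat_lit 16264) (nat_lit 6) (nat_lit 133562143575245777382) (ZL.cons (nat_lit 16340) (nat_lit 6) (nat_lit 133199393703074344820) (ZL.cons (nat_lit 16416) (nat_lit 6) (nat_lit 132940512818614800112) (ZL.cons (nat_lit 16492) (nat_lit 6) (nat_lit 132785274715269071810) (ZL.cons (nat_lit 16568) (nat_lit 3) (nat_lit 66366771874046244445) (ZL.cons (nat_lit 16644) (nat_lit 6) (nat_lit 132459880331145006108) (ZL.cons (nat_lit 16720) (nat_lit 6) (nat_lit 132051168164661027984)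 (ZL.cons (nat_lit 16796) (nat_lit 6) (nat_lit 131744946117059561348) (ZL.cons (nat_lit 16872) (nat_lit 6) (nat_lit 131540946615677653462) (ZL.cons (nat_lit 16948) (nat_lit 6) (nat_lit 131438991408523805570) (ZL.cons (nat_lit 17024) (nat_lit 6) (nat_lit 131415135070744966534) (ZL.cons (nat_lit 17100) (nat_lit 6) (nat_lit 130961799317549779132) (ZL.cons (nat_lit 17176) (nat_lit 6) (nat_lit 130609614975635766934) (ZL.cons (nat_lit 17252) (nat_lit 6) (nat_lit 130358274311111937120) (ZL.cons (nat_lit 17328) (nat_lit 6) (nat_lit 130207557705921909644) (ZL.cons (nat_lit 17404) (nat_lit 3) (nat_lit 65078666732972322336) (ZL.cons (nat_lit 17480) (nat_lit 6) (nat_lit 130426994909837542126) (ZL.cons (nat_lit 17556) (nat_lit 6) (nat_lit 129930335286048947652) (ZL.cons (nat_lit 17632) (nat_lit 6) (nat_lit 129533527357423726176) (ZL.cons (nat_lit 17708) (nat_lit 6) (nat_lit 129236224398587350800) (ZL.cons (nat_lit 17784) (nat_lit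 6) (nat_lit 129038166630255401396) (ZL.cons (nat_lit 17860) (nat_lit 6) (nat_lit 128939180992241956840) (ZL.cons (nat_lit 17936) (nat_lit 6) (nat_lit 128955874790907707582) (ZL.cons (nat_lit 18012) (nat_lit 6) (nat_lit 128515742991689079034) (ZL.cons (nat_lit 18088) (nat_lit 6) (nat_lit 128173816446141494380) (ZL.cons (nat_lit 18164) (nat_lit 6) (nat_lit 127929796383496999414) (ZL.cons (nat_lit 18240) (nat_lit 6) (nat_lit 127783469582341632930) (ZL.cons (nat_lit 18316) (nat_lit 3) (nat_lit 63867354092152726673) (ZL.cons (nat_lit 18392) (nat_lit 6) (nat_lit 128037566361790498612) (ZL.cons (nat_lit 18468) (nat_lit 6) (nat_lit 127555372552287008832) (ZL.cons (nat_lit 18544) (nat_lit 6) (nat_lit 127170122136146017106) (ZL.cons (nat_lit 18620) (nat_lit 6) (nat_lit 126881478486790312862) (ZL.cons (nat_lit 18696) (nat_lit 6) (nat_lit 126689189391322400816) (ZL.cons (nat_lit 18772) (nat_lit 6) (nat_lit 126593086830144299304)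 (ZL.cons (nat_lit 18848) (nat_lit 6) (nat_lit 127174607593273820266) (ZL.cons (nat_lit 18924) (nat_lit 6) (nat_lit 126651576880581144824) (ZL.cons (nat_lit 19000) (nat_lit 6) (nat_lit 126224264454155291866) (ZL.cons (nat_lit 19076) (nat_lit 6) (nat_lit 125892296934206180550) (ZL.cons (nat_lit 19152) (nat_lit 6) (nat_lit 125655384252027059226) (ZL.cons (nat_lit 19228) (nat_lit 6) (nat_lit 125513319396536412152) (ZL.cons (nat_lit 19304) (nat_lit 3) (nat_lit 62732989116697245112) (ZL.cons (nat_lit 19380) (nat_lit 6) (nat_lit 125803566252198151792) (ZL.cons (nat_lit 19456) (nat_lit 6) (nat_lit 125335416922583113172) (ZL.cons (nat_lit 19532) (nat_lit 6) (nat_lit 124961387392349140624) (ZL.cons (nat_lit 19608) (nat_lit 6) (nat_lit 124681150839576612228) (ZL.cons (nat_lit 19684) (nat_lit 6) (nat_lit 124494462397374755876) (ZL.cons (nat_lit 19760) (nat_lit 6) (nat_lit 124401158939920288386) (ZL.cons (nat_lit 19836) (nat_lit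 6) (nat_lit 125010599686977306732) (ZL.cons (nat_lit 19912) (nat_lit 6) (nat_lit 124502802878537816010) (ZL.cons (nat_lit 19988) (nat_lit 6) (nat_lit 124087936445114657800) (ZL.cons (nat_lit 20064) (nat_lit 6) (nat_lit 123765637882057268172) (ZL.cons (nat_lit 20140) (nat_lit 6) (nat_lit 123535625569262004748) (ZL.cons (nat_lit 20216) (nat_lit 6) (nat_lit 123397698525096327980) (ZL.cons (nat_lit 20292) (nat_lit 3) (nat_lit 61675868115391891209) (ZL.cons (nat_lit 20368) (nat_lit 6) (nat_lit 124271984301512105990) (ZL.cons (nat_lit 20444) (nat_lit 6) (nat_lit 123725694795184797698) (ZL.cons (nat_lit 20520) (nat_lit 6) (nat_lit 123271180882937187386) (ZL.cons (nat_lit 20596) (nat_lit 6) (nat_lit 122908045416690612096) (ZL.cons (nat_lit 20672) (nat_lit 6) (nat_lit 122635971093610487440) (ZL.cons (nat_lit 20748) (nat_lit 6) (nat_lit 122454720178851403600) (ZL.cons (nat_lit 20824) (nat_lit 6) (nat_lit 122364134297827648760)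 (ZL.cons (nat_lit 20900) (nat_lit 6) (nat_lit 123587074703718162502) (ZL.cons (nat_lit 20976) (nat_lit 6) (nat_lit 123003413646043458508) (ZL.cons (nat_lit 21052) (nat_lit 6) (nat_lit 122510407035908030626) (ZL.cons (nat_lit 21128) (nat_lit 6) (nat_lit 122107624090837003234) (ZL.cons (nat_lit 21204) (nat_lit 6) (nat_lit 121794712864567692916) (ZL.cons (nat_lit 21280) (nat_lit 6) (nat_lit 121571399939523747844) (ZL.cons (nat_lit 21356) (nat_lit 6) (nat_lit 121437490187906585932) (ZL.cons (nat_lit 21432) (nat_lit 3) (nat_lit 60696433300597688327) (ZL.cons (nat_lit 21508) (nat_lit 6) (nat_lit 122955272428898374760) (ZL.cons (nat_lit 21584) (nat_lit 6) (nat_lit 122335328311663092414) (ZL.cons (nat_lit 21660) (nat_lit 6) (nat_lit 121804950150180268830) (ZL.cons (nat_lit 21736) (nat_lit 6) (nat_lit 121363674507221423868) (ZL.cons (nat_lit 21812) (nat_lit 6) (nat_lit 121011115802127661448) (ZL.cons (nat_lit 21888) (nat_lit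 6) (nat_lit 120746965973894530714) (ZL.cons (nat_lit 21964) (nat_lit 6) (nat_lit 120570994211992507570) (ZL.cons (nat_lit 22040) (nat_lit 6) (nat_lit 120483046754687891220) (ZL.cons (nat_lit 22116) (nat_lit 6) (nat_lit 121720855028159289394) (ZL.cons (nat_lit 22192) (nat_lit 6) (nat_lit 121154193807115887458) (ZL.cons (nat_lit 22268) (nat_lit 6) (nat_lit 120675546612809646794) (ZL.cons (nat_lit 22344) (nat_lit 6) (nat_lit 120284495209828066804) (ZL.cons (nat_lit 22420) (nat_lit 6) (nat_lit 119980697902770483968) (ZL.cons (nat_lit 22496) (nat_lit 6) (nat_lit 119763889237679275162) (ZL.cons (nat_lit 22572) (nat_lit 6) (nat_lit 119633879770089797580) (ZL.cons (nat_lit 22648) (nat_lit 3) (nat_lit 59795277949748195254) (ZL.cons (nat_lit 22724) (nat_lit 6) (nat_lit 121159456877128987866) (ZL.cons (nat_lit 22800) (nat_lit 6) (nat_lit 120557569384667548696) (ZL.cons (nat_lit 22876) (nat_lit 6) (nat_lit 120042639130800729680)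 (ZL.cons (nat_lit 22952) (nat_lit 6) (nat_lit 119614216176471753988) (ZL.cons (nat_lit 23028) (nat_lit 6) (nat_lit 119271926171526353582) (ZL.cons (nat_lit 23104) (nat_lit 6) (nat_lit 119015470027610692674) (ZL.cons (nat_lit 23180) (nat_lit 6) (nat_lit 118844623656832029430) (ZL.cons (nat_lit 23256) (nat_lit 6) (nat_lit 118759237775953761126) (ZL.cons (nat_lit 23332) (nat_lit 6) (nat_lit 120650643316498472036) (ZL.cons (nat_lit 23408) (nat_lit 6) (nat_lit 120014555560524375358) (ZL.cons (nat_lit 23484) (nat_lit 6) (nat_lit 119464399035239519108) (ZL.cons (nat_lit 23560) (nat_lit 6) (nat_lit 118999693021349965064) (ZL.cons (nat_lit 23636) (nat_lit 6) (nat_lit 118620031465057168956) (ZL.cons (nat_lit 23712) (nat_lit 6) (nat_lit 118325082623253690478) (ZL.cons (nat_lit 23788) (nat_lit 6) (nat_lit 118114588773650575132) (ZL.cons (nat_lit 23864) (nat_lit 6) (nat_lit 117988365989583121166) (ZL.cons (nat_lit 23940) (nat_lit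 3) (nat_lit 58973151989649129967) (ZL.cons (nat_lit 24016) (nat_lit 6) (nat_lit 119435491680699625190) (ZL.cons (nat_lit 24092) (nat_lit 6) (nat_lit 119789037148163160494) (ZL.cons (nat_lit 24168) (nat_lit 6) (nat_lit 120193969751894375432) (ZL.cons (nat_lit 24244) (nat_lit 6) (nat_lit 119524677856587601560) (ZL.cons (nat_lit 24320) (nat_lit 6) (nat_lit 118940321067790087802) (ZL.cons (nat_lit 24396) (nat_lit 6) (nat_lit 118440388782482496524) (ZL.cons (nat_lit 24472) (nat_lit 6) (nat_lit 118024444166629122064) (ZL.cons (nat_lit 24548) (nat_lit 6) (nat_lit 117692123773478247884) (ZL.cons (nat_lit 24624) (nat_lit 6) (nat_lit 117443137225987314968) (ZL.cons (nat_lit 24700) (nat_lit 6) (nat_lit 117277266963095408900) (ZL.cons (nat_lit 24776) (nat_lit 6) (nat_lit 117194368049621362006) (ZL.cons (nat_lit 24852) (nat_lit 3) (nat_lit 58725669225113491530) (ZL.cons (nat_lit 24928) (nat_lit 6) (nat_lit 117476786658194616008)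 (ZL.cons (nat_lit 25004) (nat_lit 6) (nat_lit 117553153518395739002) (ZL.cons (nat_lit 25080) (nat_lit 6) (nat_lit 117680505759154799622) (ZL.cons (nat_lit 25156) (nat_lit 6) (nat_lit 117858954659128771804) (ZL.cons (nat_lit 25232) (nat_lit 6) (nat_lit 118088656144540933782) (ZL.cons (nat_lit 25308) (nat_lit 6) (nat_lit 118369810925427082586) (ZL.cons (nat_lit 25384) (nat_lit 6) (nat_lit 118702664671013235236) (ZL.cons (nat_lit 25460) (nat_lit 6) (nat_lit 119087508224378059252) (ZL.cons (nat_lit 25536) (nat_lit 6) (nat_lit 118469947296247868300) (ZL.cons (nat_lit 25612) (nat_lit 6) (nat_lit 117935814747427619514) (ZL.cons (nat_lit 25688) (nat_lit 6) (nat_lit 117484643860156207820) (ZL.cons (nat_lit 25764) (nat_lit 6) (nat_lit 117116040407444755288) (ZL.cons (nat_lit 25840) (nat_lit 6) (nat_lit 116829682308606426670) (ZL.cons (nat_lit 25916) (nat_lit 6) (nat_lit 116625319347826703032) (ZL.cons (nat_lit 25992) (nat_lit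 6) (nat_lit 116502772955528204036) (ZL.cons (nat_lit 26068) (nat_lit 3) (nat_lit 58230968026169509187) (ZL.cons (nat_lit 26144) (nat_lit 6) (nat_lit 116600694684562950272) (ZL.cons (nat_lit 26220) (nat_lit 6) (nat_lit 116652354546737245160) (ZL.cons (nat_lit 26296) (nat_lit 6) (nat_lit 116755719410771229948) (ZL.cons (nat_lit 26372) (nat_lit 6) (nat_lit 116910879595478138218) (ZL.cons (nat_lit 26448) (nat_lit 6) (nat_lit 117117970677718393482) (ZL.cons (nat_lit 26524) (nat_lit 6) (nat_lit 117377173610864827030) (ZL.cons (nat_lit 26600) (nat_lit 6) (nat_lit 117688714882917275552) (ZL.cons (nat_lit 26676) (nat_lit 6) (nat_lit 118052866714404716914) (ZL.cons (nat_lit 26752) (nat_lit 6) (nat_lit 117485530026251790934) (ZL.cons (nat_lit 26828) (nat_lit 6) (nat_lit 117000158875467721732) (ZL.cons (nat_lit 26904) (nat_lit 6) (nat_lit 116596329151338231966) (ZL.cons (nat_lit 26980) (nat_lit 6) (nat_lit 116273687992939324996)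 (ZL.cons (nat_lit 27056) (nat_lit 6) (nat_lit 116031953480812205656) (ZL.cons (nat_lit 27132) (nat_lit 6) (nat_lit 115870914390625889090) (ZL.cons (nat_lit 27208) (nat_lit 6) (nat_lit 115790430008612251326) (ZL.cons (nat_lit 27284) (nat_lit 3) (nat_lit 57900137579438091228) (ZL.cons (nat_lit 27360) (nat_lit 6) (nat_lit 115826486813082844396) (ZL.cons (nat_lit 27436) (nat_lit 6) (nat_lit 115905144679090001078) (ZL.cons (nat_lit 27512) (nat_lit 6) (nat_lit 116036317487071833516) (ZL.cons (nat_lit 27588) (nat_lit 6) (nat_lit 116220119854045024868) (ZL.cons (nat_lit 27664) (nat_lit 6) (nat_lit 116456712384019551702) (ZL.cons (nat_lit 27740) (nat_lit 6) (nat_lit 116746301808332284968) (ZL.cons (nat_lit 27816) (nat_lit 6) (nat_lit 117089141166286022202) (ZL.cons (nat_lit 27892) (nat_lit 6) (nat_lit 116570565876169275806) (ZL.cons (nat_lit 27968) (nat_lit 6) (nat_lit 116132535888527128532) (ZL.cons (nat_lit 28044) (nat_lit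 6) (nat_lit 115774668458710184328) (ZL.cons (nat_lit 28120) (nat_lit 6) (nat_lit 115496650887022486636) (ZL.cons (nat_lit 28196) (nat_lit 6) (nat_lit 115298240245488774368) (ZL.cons (nat_lit 28272) (nat_lit 6) (nat_lit 115179263165587319034) (ZL.cons (nat_lit 28348) (nat_lit 3) (nat_lit 57569807843381433466) (ZL.cons (nat_lit 28424) (nat_lit 6) (nat_lit 115074828685432256164) (ZL.cons (nat_lit 28500) (nat_lit 6) (nat_lit 115128038343471779898) (ZL.cons (nat_lit 28576) (nat_lit 6) (nat_lit 115234504153426784230) (ZL.cons (nat_lit 28652) (nat_lit 6) (nat_lit 115394319143674899750) (ZL.cons (nat_lit 28728) (nat_lit 6) (nat_lit 115607622958382362672) (ZL.cons (nat_lit 28804) (nat_lit 6) (nat_lit 115874601979523189224) (ZL.cons (nat_lit 28880) (nat_lit 6) (nat_lit 116195489489737211202) (ZL.cons (nat_lit 28956) (nat_lit 6) (nat_lit 115724255362762386734) (ZL.cons (nat_lit 29032) (nat_lit 6) (nat_lit 115332187669432785022)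 (ZL.cons (nat_lit 29108) (nat_lit 6) (nat_lit 115018943826327050096) (ZL.cons (nat_lit 29184) (nat_lit 6) (nat_lit 114784250125232759476) (ZL.cons (nat_lit 29260) (nat_lit 6) (nat_lit 114627901493983908440) (ZL.cons (nat_lit 29336) (nat_lit 6) (nat_lit 114549761317271638768) (ZL.cons (nat_lit 29412) (nat_lit 3) (nat_lit 57198361687565125900) (ZL.cons (nat_lit 29488) (nat_lit 6) (nat_lit 114423721378963113594) (ZL.cons (nat_lit 29564) (nat_lit 6) (nat_lit 114504738980950484978) (ZL.cons (nat_lit 29640) (nat_lit 6) (nat_lit 114639846973171772392) (ZL.cons (nat_lit 29716) (nat_lit 6) (nat_lit 114829163411154159482) (ZL.cons (nat_lit 29792) (nat_lit 6) (nat_lit 115072853717027922122) (ZL.cons (nat_lit 29868) (nat_lit 6) (nat_lit 115371130824070037386) (ZL.cons (nat_lit 29944) (nat_lit 6) (nat_lit 114945858991407758480) (ZL.cons (nat_lit 30020) (nat_lit 6) (nat_lit 114598414884789366046) (ZL.cons (nat_lit 30096) (nat_lit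 6) (nat_lit 114328494912277038192) (ZL.cons (nat_lit 30172) (nat_lit 6) (nat_lit 114135863221467608804) (ZL.cons (nat_lit 30248) (nat_lit 6) (nat_lit 114020351493407943430) (ZL.cons (nat_lit 30324) (nat_lit 3) (nat_lit 56990929397760062930) (ZL.cons (nat_lit 30400) (nat_lit 6) (nat_lit 113791578362973654792) (ZL.cons (nat_lit 30476) (nat_lit 6) (nat_lit 113846384310754364236) (ZL.cons (nat_lit 30552) (nat_lit 6) (nat_lit 113956044095008018702) (ZL.cons (nat_lit 30628) (nat_lit 6) (nat_lit 114120653534963577686) (ZL.cons (nat_lit 30704) (nat_lit 6) (nat_lit 114340356464112264494) (ZL.cons (nat_lit 30780) (nat_lit 6) (nat_lit 114615344855887315846) (ZL.cons (nat_lit 30856) (nat_lit 6) (nat_lit 114234696609936246218) (ZL.cons (nat_lit 30932) (nat_lit 6) (nat_lit 113930576373911260856) (ZL.cons (nat_lit 31008) (nat_lit 6) (nat_lit 113702718411683794234) (ZL.cons (nat_lit 31084) (nat_lit 6) (nat_lit 113550923624063550508)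 (ZL.cons (nat_lit 31160) (nat_lit 6) (nat_lit 113475059374828337236) (ZL.cons (nat_lit 31236) (nat_lit 3) (nat_lit 56615528468764133531) (ZL.cons (nat_lit 31312) (nat_lit 6) (nat_lit 113258864881476114712) (ZL.cons (nat_lit 31388) (nat_lit 6) (nat_lit 113342313011523107238) (ZL.cons (nat_lit 31464) (nat_lit 6) (nat_lit 113481474243511033274) (ZL.cons (nat_lit 31540) (nat_lit 6) (nat_lit 113676470174632891976) (ZL.cons (nat_lit 31616) (nat_lit 6) (nat_lit 113927471189682867496) (ZL.cons (nat_lit 31692) (nat_lit 6) (nat_lit 113590146814325204940) (ZL.cons (nat_lit 31768) (nat_lit 6) (nat_lit 113328088588585080810) (ZL.cons (nat_lit 31844) (nat_lit 6) (nat_lit 113141067529546799850) (ZL.cons (nat_lit 31920) (nat_lit 6) (nat_lit 113028920220751008226) (ZL.cons (nat_lit 31996) (nat_lit 3) (nat_lit 56495774334701806262) (ZL.cons (nat_lit 32072) (nat_lit 6) (nat_lit 112741667326624134054) (ZL.cons (nat_lit 32148) (nat_lit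 6) (nat_lit 112798117452838264786) (ZL.cons (nat_lit 32224) (nat_lit 6) (nat_lit 112911067030619528882) (ZL.cons (nat_lit 32300) (nat_lit 6) (nat_lit 113080614753773754636) (ZL.cons (nat_lit 32376) (nat_lit 6) (nat_lit 113306908770796902050) (ZL.cons (nat_lit 32452) (nat_lit 6) (nat_lit 113011646405724100726) (ZL.cons (nat_lit 32528) (nat_lit 6) (nat_lit 112790425083173162258) (ZL.cons (nat_lit 32604) (nat_lit 6) (nat_lit 112643051502959333400) (ZL.cons (nat_lit 32680) (nat_lit 6) (nat_lit 112569396892051359346) (ZL.cons (nat_lit 32756) (nat_lit 3) (nat_lit 56147169863002431139) (ZL.cons (nat_lit 32832) (nat_lit 6) (nat_lit 112322981908271145360) (ZL.cons (nat_lit 32908) (nat_lit 6) (nat_lit 112408933482219547662) (ZL.cons (nat_lit 32984) (nat_lit 6) (nat_lit 112552269551167111476) (ZL.cons (nat_lit 33060) (nat_lit 6) (nat_lit 112753115360222625942) (ZL.cons (nat_lit 33136) (nat_lit 6) (nat_lit 112498689898339010280)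 (ZL.cons (nat_lit 33212) (nat_lit 6) (nat_lit 112317116054612523914) (ZL.cons (nat_lit 33288) (nat_lit 6) (nat_lit 112208235172286512626) (ZL.cons (nat_lit 33364) (nat_lit 3) (nat_lit 56085976056362967137) (ZL.cons (nat_lit 33440) (nat_lit 6) (nat_lit 111916491210841059246) (ZL.cons (nat_lit 33516) (nat_lit 6) (nat_lit 111974634840841613898) (ZL.cons (nat_lit 33592) (nat_lit 6) (nat_lit 112090972905956315918) (ZL.cons (nat_lit 33668) (nat_lit 6) (nat_lit 112265607060805168444) (ZL.cons (nat_lit 33744) (nat_lit 6) (nat_lit 112050829077746004884) (ZL.cons (nat_lit 33820) (nat_lit 6) (nat_lit 111907747931907336088) (ZL.cons (nat_lit 33896) (nat_lit 6) (nat_lit 111836238600928720502) (ZL.cons (nat_lit 33972) (nat_lit 3) (nat_lit 55789145087250854158) (ZL.cons (nat_lit 34048) (nat_lit 6) (nat_lit 111607791622235979886) (ZL.cons (nat_lit 34124) (nat_lit 6) (nat_lit 111696321743402834256) (ZL.cons (nat_lit 34200) (nat_lit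 6) (nat_lit 111843957894418824988) (ZL.cons (nat_lit 34276) (nat_lit 6) (nat_lit 111667672609247478998) (ZL.cons (nat_lit 34352) (nat_lit 6) (nat_lit 111561963014756205904) (ZL.cons (nat_lit 34428) (nat_lit 3) (nat_lit 55763368371669084335) (ZL.cons (nat_lit 34504) (nat_lit 6) (nat_lit 111308083283784446526) (ZL.cons (nat_lit 34580) (nat_lit 6) (nat_lit 111367971222685017814) (ZL.cons (nat_lit 34656) (nat_lit 6) (nat_lit 111487799429753160896) (ZL.cons (nat_lit 34732) (nat_lit 6) (nat_lit 111348885695929210608) (ZL.cons (nat_lit 34808) (nat_lit 6) (nat_lit 111279459160998515866) (ZL.cons (nat_lit 34884) (nat_lit 3) (nat_lit 55537623972207290219) (ZL.cons (nat_lit 34960) (nat_lit 6) (nat_lit 111105634435580880156) (ZL.cons (nat_lit 35036) (nat_lit 6) (nat_lit 111196820460382740156) (ZL.cons (nat_lit 35112) (nat_lit 6) (nat_lit 111094189786119368220) (ZL.cons (nat_lit 35188) (nat_lit 3) (nat_lit 55529994761303355356)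 (ZL.cons (nat_lit 35264) (nat_lit 6) (nat_lit 110909082155771592420) (ZL.cons (nat_lit 35340) (nat_lit 6) (nat_lit 110970766732839180850) (ZL.cons (nat_lit 35416) (nat_lit 6) (nat_lit 110903362329993846148) (ZL.cons (nat_lit 35492) (nat_lit 3) (nat_lit 55389071319273320818) (ZL.cons (nat_lit 35568) (nat_lit 6) (nat_lit 110809440724447930348) (ZL.cons (nat_lit 35644) (nat_lit 3) (nat_lit 55388118292557626577) (ZL.cons (nat_lit 35720) (nat_lit 6) (nat_lit 110712701470735637072) (ZL.cons (nat_lit 35796) (nat_lit 1) (nat_lit 18446744073709551617) ZL.nil)))))))))))))))))))))))))))))))))))))))))))))))))))))))))))))))))))))))))))))))))))))))))))))))))))))))))))))))))))))))))))))))))))))))))))))))))))))))))))))))))))))))))))))))))))))))))))))))))))))))))))))))))))))))))))))))))))))))))))))))))))))))))))))))))))))))))))))))))))))))))))))))))))))))))))))))))))))))))))))))))))))))))))))))))))))))))))))))))))))))))))))))))))))))))))))))))))))))))))))))))))))))))))))))))))))))))))))))))))))))))))))))))))))))))))))))))))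

noncomputable def vl : XL := ⟨(nat_lit 0), (nat_lit 76), (nat_lit 14367446), (nat_lit 152), (nat_lit 174046804), (nat_lit 76), (nat_lit 14367446), (nat_lit 1), (nat_lit 5), (nat_lit 2), (nat_lit 4), (nat_lit 1), (nat_lit 4), (nat_lit 0), (nat_lit 0), (nat_lit 0)⟩

noncomputable def cp0 : Nat := (nat_lit 294975680714619522353169750325707768488224003824621242335755097846054877632871492041559345402062548036801589368231926135699658057099279500532514578044824368725427400203995155865922062747990941848635357051170059002712901706426282165549254828885888103630384254664983137991952047908355250646442866008450372343467811436435881107676522538248190217840987213061430323810429986128906479820483992248796694198928268948948821177939902851327878092762120525677631347162012532444152045810345076888602977421730983873801204079758751759724005744997477686372706217101481389765249213774202075347824612039240308279800769438393605557762131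0618872041279829753103274525534470872275015978226618421930350564612122183738303366999765863500678642003513632612299896834309133327822512612717194494585791825016892869165844196702574208153373489501262761998332436391897897276625243442249584942948374968080409823957352474123847993832884398724199555773329800123241916021226472655531054679451770092208436904854785754819903725820849056729200825888118230604929867110083197576283674798602498248036565348482470291256039096873935170350215302570092151409436295512623744846776844532344441811088511494064500796322382201827056191790917531647774775940365333548588067005704996728028184576239390930297510455849336672561971193400593894063215474077918665042403545143276175968756463578527169073381698132648072604347054172759949289734897829839894435851439929769146140475844210572825520517197351826459074459127159586961015442631771940851798543943530927781820347278005243114035721617704159341235432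4135123558480394036841658391737020359572070031341038537412381801131747639184508288093439429901263869972063869126429743158369732223428548829500665009280275146782288596800202735411389236870772115333879032051171908173992013841686689810697543321909777718471175653865333185879137194896458325257584088801252361980999515318857548625834071482817056164343239526853479858511903586481072252016563450185607251108647055856171445473194609465633672050848195392134529036915314561733826041354367937824704745207676884143386218481673880204842925382925768326845587412192727709816940053705042356664924489388701274286143774872048287160554467079429104513070511294098349415544776329760428233699444496528821562108088010891465899146929315302626600594014447575178429399823082666077562381599656547103642107282606660662786790920471063612558666975875923747503544692185518412767470866921064868170926646371561527642396728230969168254640614281956140760696333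3301295552565897461501778946156573526708350731726593871333328387223923295280429615926301693806529497676555157291288113145619549637108352333754364430716463395892320566388431419954053259618811894908277636482889108645526147159686386441784007207750401751833685303082375939394328577627909100363757908380392807867977064214534971340963774212791629670026734760191541970239713414928012163153844501611442347186944660656030721730827993851933809277154207825125507400903598750594926713359839021120696069604986858334649509416692036372931424767212382681470249191385111437345801643367069995696685524104230411352231214261215223173661656912306151271028317493368232727798877568106169887594621756331025599170641770175813752292371646934511799670410052907647072560881018239340624715579254887518796640976327296814491991700819457579905411182448225733929434758532013261158964387252928852420400851066311360555789262126609587977506268181218561957649655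9674617853434682387361718548286972610413723180718674743935666452220832907023235122765121926260315362106333059354635633920434567791354375137029528550802185031363857700997214576213082588499866771508074841104956037162495981728608482228749960522035301850959776441229659175120192101458815779887134972477618100822792443821366346951997679296293450833789313442595582183857211865219859677479924852670523076690024423679352589263352124597750972858780384675699109638591500145649227718109192596794392000150259114103996885471816742723895640670956216318034460062728505748142573447385182367237410342219711789849614088633236911563353332402689209834424505909478671183104515177727624020468569665204721428644923482845050335458603431217519866240502103294181684003442101348019495266013379423528039633503197243066957643479971692837251492188585521328871416521308414283893691148569051633622468156172365356764304570663979761391085269227796264429635063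6418111861350714838491659096421586306155479003459371600065818812362473137644242821284026790318749552614864171528097166056258624501332228257439205081751508781243750132486958456104353393995446613205179470739855411265906115966925746324235939468402662840808613769115606879550574313537353861537529545093533535611416080917894092342322843227050230570168237565617954281352055587331375042758881671421316421296111944684732906528331773229785170372880644325592748145524884972510924833594773049388627971735309539660281648091343424295983284174955069574501404589913478224905290315116042798203792234073273270501283134881637625469488119577694098384664813150046810798064274034209541558996038367919649085955952237169182659602922538689185141751675262082785996200913925437969811710239686202334593960254718258729888312297710710956895572657532196881401185783811883651134694771201753897503020691593531346756558353004063975258983446065329890957199969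8616598006674252530544722190316892242510191445882533767060929988086435623993385794223333881763019654902543687054028950619655258573741969979127916799592485528670918267370360093382922766654743687703526900125386058327835343313276337310427808382049283224582485069896199497651267660200330114940144791332369466116465785951207807939410765681455344978548369976105944083701815442787518348619638350696402786666825372448238369165400690758701969739294062436660743133664463569563290008996030963722727126983132497228867067079437940269720953786673131695197948164213873855335078242422113616647279308814992194075061109612331101430817758425461412454959372075712110381509588817814590645313170938002196613759870407406308980779693152378462038612241264233627131429594986061568355323392191688269085863763900095280759584547202437384264353293481798448385265408198619102413180560969974134500522385800514664819181163252914710265531522446588609749117976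3097180036682062745510925314468179796449603204681595700500804935060074960099787848376471161007263446943929475744426151831500779943013399764573783779811950610351398475350646990863812834315265325222776320935250751870285687029459073430477932242924877828219596426427552338400280673950731797875063452150635424580804137376617785543680575007910944058359677499891586043545313079117153054631281965015189653918116234856528495548297602969623426791965434013643694883332946971107149845730547399747596934320470612142096510357844900853008410754981020642297533906117223009000741149301639390446302951837970609361920835422526414661189807952467015589024156498604159145010987966802639507839853231701296413998566604877970298813631997424697512305149707008086655248174001992908027467971839873032849618098449057892061867500149602577510705150284551137655633013115424630699145892515733900740428999125963311099616233371892597383680418699785219908905503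8037099833319337596706646896062256727149652239429558948548635971634174748453993398462280360862196867127450319452428039788783284349721775634418527233411844491471194394010221786562577121391752096121033706078835082859903590481499306552909030083677641382650753586802244874284726352473179734200559282596919589702963544922331856037327824682688039619657638388389315215538339265682425994578288481404569576398454568291224193356519534162221285925242740598546421780983242156082752008535165107346520499352825691605609970865696748765806642052849020322259474689226755679331197734317351460860131474292977566002913309717801436747433596084313575515345216125348949834607216650573806153362887063466093000490336532086357288846387593343230560151498144831056622533843007820706260590580643727461976530515832032473350275789810646156252751881136868133530601206487658067628961634009110862784412962613198832614948827788608897829885989956863958923143749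5911220110219108006583315869327867774932498808350150715982815066912747336250035447072622883486899828668771903573203009387732392720525010954238247327180194790675278669624127620820286809034844157321157600258026715551957344798526481266320121453546065658743125029783338474827638378279683142133463838238085199515774104230625746984957946425069930148770299444257646770075820500455908260574584949750560565169284740294978228118618244177298588492419610771727166315237825071748906614791087517592617421397049876121789575078591928744231773347896759821477207830101151744813324522659008309248257217119507340897839048803902931423775394641558913716208421476457241634319519574972854477862683685400433116277026895105231336944739496769341651944155744154279103920719163819892451987500642695309090988199381460413537611630037748281697936916909787581966381465600001922427595247212751055069690949722413524659649575884438739381411264330369725092906752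5291118362987628120390155358249627292616772120327704193800277480056043129019208881932531062115526950380864088268407355181840934959870580959161678139337387567864924086875598963980829300376844504101568741097251560124077021387922809204590924516053469602635656332849174215824095318527259123865652598502804730445965504377536201170499055800441620472010362045257214771351485046444754484429395488364800658750967774899186590837306477226997447207000920487421351131462344008622233911489414057587416460608722562341235344731921116234674319982727988434873346589465110230158872784192031293378250903777478613473752529817539470275298577368293674982366678906907481940571122391634134133498913975791656374044653037530970814721776735737585408571031048164914934133892801821672667938149341979300177765208760159776136251192572770740289836906033263650213028691364689692985597789833480917430177050246045837699616677533966925503740811207732449618917089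239811229590212925928371475074824255914178650571117696708295768634866385699988478779780114034232206916923388140749878584665947800228187513440630614776139383935351864053174454153970810013434552171036591013802735891018577344978551722426055839447474563565231186587756760392153303061739226376151355914563949461379611453669384731810420410731578709805087807111956921064816003066808033477221326073680670450163901689825566740164228137672928674627514019746530370811622256030147765084777956323509769818532986169941431400545881946642811837593177665234514487489160857916572595786887133047399061744468987615847017772691148488213266079849282375650087571982969683350991524645098359572305400721371865508273768082213711300366591849567381612262896820900456298441308896318754503536650076874508427144309302225237131452859092168246372347087358033749075268952532484446329489995529379073619574297271573512528922742139999723168063703453509045291319296)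

noncomputable def cp1 : Nat := (nat_lit 3590523858669819219322158835667610711716038073446234510328425013249046843230162320192197760277270233114846743510562162223733822356415446644342954704091099885085009490400835631298863057574125728924333534815902194440402205410380078867198099207126718364288733450416036625588191655332637357093241511428953131785716503558441175045560947089096082359122857937991162722884303494961162114105496202702409587720164999428434875699418655266923950019960227252620913588159895527044094886838472822443002186680467972044592530843260763125093947117575214543683875192051649235691826223750183071867725854840844632065217039830756110808176363083344323108697054503806310657956772793089807512536017827138037027304685609555131082272280857233580974267812433789493860509016347844921121288088653096818561074757716315965321289626655380890209025753016752492652114827283676344100729157902365116533041590277459359608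4485552325389245164390741687455812559044252691590242735836243731804391560877776477218408945752542992807328729171446973204794701344232981378171414126270554197113545932580311308529280758673449004752620819327026357426732152902812595040926042740354841965816215361339258732709297698826597806607701561049236297864399615331444518702567277014558675320846547948239120992729221944647370158457858974011377699530538793850225871332982286529943131981035074980820170404351259184875616998453482766645135711196302098178838844162911727020200685323806224597555221703227038558995097149543838302452014420067638931964905169302180216924078824314265539268413065879208786569956492263173478039588878173134368876343435434086866642771355746802917085992228452082299058868832600593852535115513275051817879965179493199644712802166631673512275527808835152858283714312666153432213819829490956912116573762127456304109184208584623497283118625574501858427172800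2488815876409390423809030500429249120615880739532677329070090766606714116836961507656434032311379821506033146347933065042411480614076217636687414904876254208850994959648983657799940921062060328294399760464802396105095340551561630360668575549865956483767287302992906834942961900055410168051864121288119104926984117459258722232642587616968941589282736306342645171513733125023309868925815489209540833325616621045462128318372233954674182557009850449662128739938937423152897074084697905807911398844101744140662400075378637170719420267330671821973712253246073385925348628164497153744619115395106310412728934030403016393901825363841343128889642894950432405588615728543918386334897752580281045398722556708274850813378947473321247649457561230377581346442936891584298576933382510939530763696843404564822317210696313101198341696402711470843034495380702800570606513379261930186768610616328752884687288882863643314152928446410609631739060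3162253006727120095034041434838779945284053297190955680364806959185116982134272638034965752032027328285420904342746777586109200872597701965526903441496548193796007045380896935040692359188498274913195875379722933082294914514778234652802727102660539384371701039435188239485793557361197763452063123847078749586625143210624739819484925170397204826746320426081887834077554790765308484925902391958614169097371386237607449515441138911574704487058277161905833463017586013586255680173602409003113295604751288076627086955483931895999189829698317046126328987533357972558588715823200866505299074926334674179091218697003183995188830548174243588939630179058373682275841915547643555815334347856009175351276150504900020274920448422683771364156228562849262148436004925348127610669563195857937926200137844521595602940559870132608548145009170697982501738679386556329371185987987066231540486778398924367837091338203683373905862841478298151149203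0836479551151261154894695060479479235649125640814642340770048171431997870107876968680837647609432674352321311399834665735420674907687962296018005495609070265657545437422773877084194699610552941603334583957075649187273445761391028553223058159163932499767993566679332942551984014758531248835682264588413053845917830979169080289895379807334545319600491646178692551965661422933871471213226553687906830117213054996177336813417860592509267824087829022123664322515181925776945097911903915905110779229892638550191484093769490272031177972780407506176025240987158176726439986300247317186147895624087052929278506379709491036312502880378857932361082758440033410089783194557379798097584526399496555527817896847851996339962320718520844418302598041302085556813903088682551625167574003607387586062623578322521834874139918098952259847472112615597423442095173599365500030187151798717770224066795804748646365951053008460871215150723940050172818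2724230310854885878919401402338822197006766053477676437122507361147428321389389978803074447774542278898436358902076544924191735424349919546036354980646678973297991059699825382933540167561562649478637277247273579959102137115240288368899316000475806307978577335082653997691411659627592368518433085641349277620923201766305955524312076409302833686683418053745105465516886881028397168594013049809534176971222281150514714010730215474538504343149011821043523663348623363585078041654922083032893217583815681411807420908460051436368283293966834081536935812431670770489353099135712909557170582076506318520815393345296648185448152581679704022689887799088928469297854859862454130588136081783708154375203606030779091077034614341981464062029530968480165786527724491509894122936293444360597165584183307546473348727802836656746958440451172194297162303054873641092093489997142017804143617563858483637418723871153839884518452925715205120212509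5802865643143686412692563473975599897797495176957214030406375373488376556072841413028148141106019100321907047737976009544460802534477303021658514481812746639610133365306921524987518801270213391333767639916704790500345588753401483467525929068734459285731027863690070354452367977756974780660620033956709405621521759133776567129779827554806421427821713552455684922007869674386864548553912708140424700735310912210417472345978112289571114327946114962074022088375247651943821431402806104455507383329528326689421371969306448840099727689993514869339613574875880213882373995714169573838915654195664935640094191862964939935092635387739241601829616169432618691639476741987413621489678102288941578330436237848155334128187088707784222727787762311615951327732157044327883543466228860759414341742346182629853379079676791907923672914488867803195749094574379468097176111924992923875137551762060901619853637074869324345315102964899946310430669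8074177456790341957355641732198954158466449838753826047218117460263163066206646572139832236723016455525242491143004356998828112222053960804973244836388771001595206599338873138367516909885122218386636053646240966171920962686927285893530467746266643862720610510235312573556305474731354238022513984405419679646227542864765110959317872495231380191593269583061836011667907403539021245704210733725923006041829998751890686609071025794727396033672974102984495141752487975349887570561677686508615249248379573079109990947436791009188328975100373889393282416269096024556307072744544505097495831010371500291615705085941833589023073589116080365057088422433513881640270356224490134709406741139120513802990860528124841307142862001277926255894798548899973963701206684494904893076912173954778894461284719333116493231113932571617510627543798856528976057270954129621503249685934936216102663351716878217435087287921041155294859958022528570856973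9359147415654377762399706735789277193916893612036350620971608523912436331029634472391879767179323256759333960582110870962882770170983807639210175782595171688922226509805974888279813818730218198419816272526414617824441193752632752939234743946648427756321272399643914803003452452717932995669453485681014333808422064351433651640138715691188574184192082537756982547576568923609697566320206953107190516759114467085609175842264405022017377079870680066223857140044567656733417778187700139670095301986073991845849995556519968599089372710712320918842437255669349667790957195714603895123044722697313504449408695045093239705722385586955873408806904888446051472593086252992178655506837097110146070642768535059772255286634100196773874664587219081827623906152993512894882479722840831146875439425362934348894623236299322027154470222012789602036400165148003864549790634199255942136035721646592377636997208592033009477745018745360539343849704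5917258866394251154905008902775621550461076379396563638227898983432376208777716246836131192209200225936611276992121646042427264158604406993682136495689091746276186391154805136570362973060339408672758062634232775212462521770386289487625849527394499945426687828609749241510511708653946170533820203485077089384011105935308409441713846990110543406055303040068906069829131075907819669995907982881265006136451773368964872587820646280516403336229868742538958833445901623826748216068303349368071063381241574644954986749158058706857998486928554673199687711700543297519091922632164573987867841749452846966573872570754486626679996174276935154430270673116438932386863132147205743341617754228361566141219025452020022638415280962025771813125931926877292672364584950119685008161523743829923206451188951284314839691389886223416392276326486326792384497621160949289476039737370292131202756634083887650055557698181038488965128851999552393391911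2473940618611500782289634932555381278283863304763476629999389533627625228778739011727300730777789238454776463676036729529215598501857378884231214266814689834814765874010963776848450948094918640091897372375308692554068059105325463758326957955493758044660280308477555690840500960382846028403528441431316633268095457986541783051805972897021406129493941357492203381679155188528588909305922870896433073334087174174998510921305152524744166885439963480654675266112711759562273197561747363304487504965821704950029325842606459946707525244245203763675145799334185225429515527734900442640693022656777684618647544332233418308982190283993355558364347140372270657395816542356769051135792078959074603428324927468881736718534097951540757392506779688166618614937417184728427320539015022259999644453597490390238203601266664268730997659741547424310441932740289918087855397850568273348684349996324193002287190107714666583437710980994290078482211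76601879590365920268450440940076181529276635224333138474406318887568508611229215173432866200396929210665392526325498312163224157932623899198045331504151560798453000756321574116527388174364059193195522250092743026653864164697422342436320474033183200818210865072500640578846826178949035281210226013682691690707392983558593827859464632440083081445504759519786485451143854789335505688944413134202753143240907702721614936367679526137676016954541019262298901864368942954634792384815313809990072525467413994781430498784080215680647653729182661437091320437608886271195864409335643541192375838202833037763686797503034693261456761311916965415326690117161958472159615516672)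

noncomputable def rc0 : Nat := (nat_lit 2898609016172617296590136151119056989323773880108719659898121984531451523108224206670710864236519365505420088807029543289146156559936271191845625716606945246850724636841419160626720081732831329168037466981542471566854232641921525553854445341690594705176138660500598119702805018583812116586728191401543692335005867779719871082661973002850872961096392985013120768383136212595436726736031312193157358130894443577290823553392566926900721724670266969884462522793188287325311482440858430076455529995074983222944733100892535727742775195355114056911818071131247103104863238650142879164647838528003745356837732370565374259355897220620770905238923596353899859666723793944714552913972976910017767602916642856099020336118754937976468622889660120198786126669054619024882480091982594172036998077114232482044080676912025759066330957860784027235247732287368168553788878291332682648354978788837803625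6174739925011748692185108962143237474281222743851136948060731440029092053956060532355552084263341498482027241010012629547943842960623524695233583796536793540281756055273095485964074341781006601153699148404791456197777614588602608154286210756330205109073726462703464581503071781631143395562161811910359545024455927969770361327873677855374627201054741790224180212374567150044697986823520711639955647038679815178696291081964531441565422831854642569904510984791209470685665193580470677482054842124146447200023949007761708426820506185297970269323020319983984662253310590678124290759392475756648633608760822327471202539290894354866125957807607876849510651790731945918703200369031710421357437897973124494085231313428110292701378527413987375954311814579379853849717457344088196749349633717519555570889242777023451939923765142854613639703056408429544906697381380053992645804193810884790033634101754835305765298624903252233497834259993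8276201457603129104467209100855596885450444318348567380340074944529556531408750230118552580756882759650342798162898900690235509871997113355988476350719975157635285145944850313598673909884260674589859234941091345714015059917882207222049648384647578718973805605012526109080235676747981465335797009106695242409325214589089792135742686800663006023699475001933699592356271838371955005328595021484467746371388408201219015374866083920769040794966172431373775007395030687026057330200883575033585155926819416150777422886069246298867655445197982608502050650131745869232789600185080451969344388071154885633740286407572227499994514459629266696926858637822392360321264713407001161187300620059153577376091650226608640820253541887442837067694501920970622696765226227156383846569389475202494579416075379689784385520601005171521468120406803521868172853474872682166990393047390184413560698349349553785106970621417693858732594567755504230994011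3289519557384838562351764147491663970090925764164551674438852999974760192000190977910473684120371971266705087246838756365626089686339923473040773648617549784147463029154056521285527069680095695330766377409946335720326150472342089516524753691151715259561517366688509821257768801413693975428147141342170860254402133549169769262830759454658177847285422501785174092747005698561824904064302926370251027204641261746911187516763295651044720070967607618210000620684719681313891955219004308482190717077905598593081519396464611169204287615808457425187932635570171682709222404708366648584377587252057049809263659625543680982673972024580475608750865224986150151583944599444867841425513965344042101819115147157355216111442703217135774080634101965790750663292989642330487476967506459404323514789607067814089362197526237278081357344350394512484109339070193955052785635048834091572948911191027417248910921148119191905687588683882661285571828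7700284103348024858019876152849538948189129122241962434152034142435522057569145968709507556754476400908685132376786698272256601761951885547397763790250782618776409299334771864785894169585187679162360161930157215343308781112470084644482009178392535072405281563737014082059078260761907870021557395381860306919997373223308257169003243536474733440553648410487514841261351591408923792974139170827893724125610971867314478833513415855851561305458544888051067086358682461648395412699989669905831178641048266917396826146074211512796661985719502449504718693632312882925770819573790825395059711857418740234785781299954398407236912085630680515430757142320500373813305017642261648571479349927470197011907168040091425063408718046278358545186166439349628700274822742670189591518152233607135850051840681969701479610475418937173140631714142865166323188506537307485621563367508772839249159198703463057504544190306939299720231141552776946884620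5240271490068333155243405435062138954048483403467409122317258001024054721122730291977979191517817591066255649146127669039864738267905951836042367329679458384373642418508915823578854636070628810750813254599160040288116493393114668377318572082028180897906434201498511802661861991148085446907198852391002914212969833067299311196352832890711485603710537557263586426724690080208987278181910684999271160447907048924987117148471029687967815111550313733410273476546832109731660411533276584591239613344115775506784426996424850781908353599976453467445960551787529633515578628632645326175440172736873679843815597048256024538941362145668308976538559824206277727267961794429096953315862365648818869724728897019394995218315961990215360803330322583727054626184414509637635280964000530381908350867102796719626491257797021816822167616285262191017844335699277991460625915005795104949263724524218288565762124423031466943126224791845475206441737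0388159733232082855089101994044125201204484025502534071608202007959782973567927815312565030059781793935537208685750299647625983797667860985530733593938238378500353341860990588922248045129922962231911146889011595954533714651295198573421673085460461835663534758419507635949853862773226946195451487254896762474021066540338391796513072109432947129791143249327108150531164219252538007763417349098671327840461352865907708616776855529250541617462622613330745890773946422390826340729369013758432813255428655455359982578837731941627686636535186647459342117499127835576841912325407279441420944563722538330857084847667416066849874915135223417711134152189337235322765476071402660120343911670041605938336577925566309933387717121992766911382449046433950008131184481526316106240723815278892675521522052125818124158387657170948099818732083462117684757464622959409072217349050337529383834707349961449606592328076996285267126694419103908081563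0858576911248845688745294573992528517646892910735645311382144643655352263131204414700377669890482840444184217134027455070255043374708944438374127052359313238048398093798370398994353876365039766666657255342594063484497943658970697177770878057323527730582651917732326747554337685607129841432174192926354791651780354488625227951141928371420506266497472737170609120956048424246995397529898842500287034126701012755434357607387318277641940711942307282957359901341906651968143112164082591235320945119953976684828849722502931497999861549930832028031450757969323726824085429283720531143941962058902145872049223214971108163697756402520634347214656187626029261310723322315719937211130257986379747551124535484819587937337872514516903117088423797378584976310275284225404717421467790267944631515705563171529054208338334137250894314971742299285700185848824861518196467509150398019403172844458871580158255337968078982875291519523486092073500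2785471477502403419933831686983016819343627376164197290262083079255332049808453876517547551161455729692877094020031262830489434440242498864913555566384667620299603152706122688489055406227821113154861367136500254162156749237205162086915902902904610736618503768021397517633269488311638916714946825982853064856468982513915524436057176708183716961490674725287094392955657227582544005643252282503483122292904828029855871882724422513035510724068801135206444498079521170736775727540376918631783824944749958633399112292226381405784047703733530040467036119343488927278797380378283269562755701308124261110284055364585881046392606952094931234269212122508191453511330365841298867255077896228735188422297817825013353711035936030714479975512584918306582952799322926690477735872265041935345227422802900064204824671383327488371721320069615726095656845314031609787574811060663767179071587727903574931769098590449751671601725030691413173836387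0792157258399049598504743807881893008577890469147439735620388219671440069876104519483919856774752603869158069749134546621962399388470279734817534242208382988840328618670303537252189601258374617135264039982107685792041557887905540450579256792147450886912811303616927362266673021374997041143792486154362417916021129104831098726545062648391922023273452602424128721719874769354893739532529984596010267040439683515697702171116759671940266829778260825324195822683579264228350620425381659912794528201448607887359531065933833807713260501827470320975621928697563218094660481346371720375672494247442924599974860164091466990889696556983641596271047826277000949995448309225264889500537885769944698025606333098701208923594047898466877315902929161405839718264934747460103883928250295186808152418936592770885697256646229801830776507135096907231861166494413040627269768674572384145820695934576512791913568185219099931874820896511501107752907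7132114617373618150541428173531187900216102218329484693305195659784310925278274607536948795887576325696227270202904809053544697283539427256401408274030254974041068939717740161866155572838783185989992052230309034953940862407155166525429068065518348739294152876532255565256565928544647146201491758628350187134913457037380334300973841822206034002363554611232737973313401416429171823075445176753709601098038731444450541976177351319189889798123321143634408644562549830449554115785764423769340028092115803515395896689944480393275150277355374479649109137736007696668041793928230542592345809743673603053312563369233488294760262942963177333247641355934767755731031989285998800761812733027402055238823928736565124757048602954752769793496897667487499897580473057573208823927445418473337052565498098487348646060698476595782744682928711090497491912237055482202054051942922444154377290181589765609390229895350587518115534134787094943118225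96693315435741968353186618382613895660851816408226125946327035658604240816238381513044979080397294585433754782276060722527456327933933190972904712871607817059906212656571345944695917318245438387529663773021153632056695370532911185624845506717218872983361030319006057199543102021148919960948488308719838767343957450820308432359561464199423307955330709102886154630673033450831967067785414012436005272242205193487185728161251177701136209844521342846294235030666467215940855064682694352174671204881864301035633329902495115771604210961983127131671982658624185830294737859877503878318322644785255013294857478872044858937771732846805127732205653068227286012820025507840)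

noncomputable def rc1 : Nat := (nat_lit 2929863912918439700267171653924718419193646406153556955751950084605285030533775506949056198955708984889923852841117961546642571124115861695859064373744159325133236699881541667553007639492236547059195183306971916172152210426333912918439868126262656621076194621734196701682553056737489200707947756794515946077433830232505007908596314656332601010318642338562905896105192188673244472403914520837513128012963829849752848816996543599970512269529285926660833243864620431251772520228614868575810462846720138753894407246656294903033190514994225978668412661879910426755446059367202396748507580908113405954086090261179560818777771157211979062865061554285760565715934013631232535703874416274980626260619114921473856838573134836811816592169347070626744137724177319516331088796924164487217330273908538114443233752003998856669165500208494067935638210898478237452850222550296732071192255324072246254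7946319789790985619766573818697432695559396226518986749226703215033759853069187010373791568009132566153642650773240709243187962940555152527278600653303585282551729048882278989606764117955394680362270212622991816100097848509119263776948665951133130840313007578495762570226951437057680838355558487902189492719452731766347727137583545259285872391987228165246861379074854090164733057329292775260482371134438815976571348999121919941837021351892539229306520030480767371996784363042328965208146795906835891844902308242215541617815574913350804167416655812045243721710375569784068022243315454873841797544732278675368544149860197342463329630342997022605345457637441828286893075046824171952667926033059288957115458884523958591361313493182399780324829731457842289255268851738706818188424155198546359455315348315810416785538770636665377766840837564377887212087224163618745076030097475255460930955994208130016520422657931395207631113932738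8465123646511124516680005900327363357687287623774055670592414647773392158127963726121890926765505273427672591799389095262629321796219579746145176133040079338004849964700647542856631697707786199087920210955647760417738239207752797058154834255041752748164357078611107716241558988064333902132646222627732793683791058497063263172887722431632046113648883694407790672057545929261256397822541414134935606459450079209168824624249432988847933082915845284442084249686772146247561476897136875344543107068081525463537550639158304428231855449603103442606262498308678458152624598864569569022374258182920354273192959265638105403492602203880175390222774949953715044868455988905865737170912118919898883741003797443314676713529838776473731638164955518315159738821980059170938208964370781246990272399109887272681462053781666195716942584061055039573279191682421517374219717174996289106748255931062532737159336619082652658263960052693233560160291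4691686731812639565121766016946310054644186548300678149009993366835657722402764431903421459378981702965355736908328400088866806805248479518274781719185341277022930360680851532030029036464518719173040874288493732490510805439777708825664931486570472671284412310821203065568103035728896031367638581865560158423747081343338587976129886367810605603844613420576938050559083777275373823332865946411989143032946785628119552720461849852697977050814012537117110985768774354934847102604380376831588216433808872713518314394451145043639208822602956547283472672535380587696686227716815347392979378268984842542463166256661014590274724517714544331414425644044505478902234714277245580038444849780521320661925063439899757158090360840070736259305641984419564366814757809245715711414856986936992302722633394494094863893793390748605347886883366933200232613772493878939586271272377509947412094506258324336456895771781718095422642717038335593442193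6913381299391425855480874377673041348623151563464664508596363240941825243162520672974505249423298010539203879672885338020810320907131233828397522520247395675439408073035993368298534682278511144620719442176258715148167492647917566322254118152468431803382896279398874019525191104487387720168305464968362353958963590523015516876155548042796665006155113037823927387395280317155266231522433929041802647179450039973358008758474035395388145776353674705532547668663668369638856726798296530191526188548038628577162822126284939689666993504768363344219639285117294212525384965167972474246239580848634973940597363835669696185222397782216030718167735130667405857989438292489792724476383625719422711162179149162119648637940342445777014235256691926181196304730724842050891076353603738523926238609609025646893087759655422229996032940979488855671644049693592217228920764272764398831538715888383462543742344294040672819288214346336962686249566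6511877621240527848926621272588867469678115391093534111732974096865000913926024313095203703775860996284717356688601693272455504579606840237904576559701722372742605559428082788480783396350271539038172098757343047049718573664900580522045894870096667349534837794276352593591960434659813097471956557411760252060571067798633545219591733216838296038629109036474734537831540537871841905516202548248822850279387138268783267343446224716397473503490157090311621312082680755011033759832810008878652478968637717122481266947658847782174961143525851874890555319564157508873126801042217014211394485780309108110832506782876734345771140817524317666131071096170981739409430379165744226234826672359798426896204219277482171364995640499678220683831715275952364911651275489077216108305181662222434280194135629913656802757510963741024932042715443198293126157674915898618468489130544797743101406127557687783429893752319793726883382675835968495799304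7791064422890755850826412928791969074715289271684220122146272397917311459592246098176406191188826034275126645971772617920832053983421604391750317686899718591833235871212810083668857146182689714984393883293467650075583349101657405368285380147341022897487081920086766263736569380968581137402388785543414835353263135786148754674606897198706837720129632356312480562881964128944128450058350089005203220842348946862352490301590063236868686742403873379816143837899817051929129169491927541766623431195290829746210146723425996349122532324641497103818016146263892965384382752480557694568689489475783014936856477162790139071049841330338877368330870439126561039342139222687965811720787044949089588775067836083481394324844071701131162826508805398218954837682893279016606724064184993006562559181752963560432151482495835601382721889462328531349816899868935747913222402132305182122158193629176242186786296222135158543646075250708385738292946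0102540694731854133166533994671625940866358509148611773720093220990877123175630633585220232126934699906100979167779928844219276399570781690238100069337463476508613055635101619787062659835429230858668662712361391469734552855385929529279368455137575272652651197378924877205234881903436245755837478164636292039422398142597623416784048751975548549363862660055845910226514229147986644684201668727048661115238401987178645945826625409542775384427826013422652522576944455028393196908447072585477321773349792809381773177801495372285361696700392080031347275909504809469622202872481909572475945447056414054032153009460463980787454755286578150709660524989700417591822975452179031249841442033181088720931583522237668924371715367485614440233318513731134257315737121222956231799600331689399182258352683218128887143070087004669541915467871669090854209780955509379536410842721694814159567072707372933965171478365143728015725401156718745354725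7959786871598892357381642608731079052865932677282161777932870914709389043083851932984327831946929083099484971253626898260226196742729308628604219745058589273370776466839879608460614743364553993349788865211476848691035325809617261703580318638977574582893478812563575227814307913534654738908360399490445775337966457144815041256374131814921710872967778691524640315638130500124735421003525736275266050122147994695623636740589398476636717204379978334861521380594415137406069247150215445972781928769130237683384782973440847280643081002117126290775174216740048477505948311560818277603371806623424495081897952382922941033841481068716494788625304464395673079346957705023489005895771882707237336431257477923296180197236673229876425172181574004206839134625879497178838708736353603747571271333160816201830427951960364513166633582720165874288585456980600699092869363319770758220680405982275663757690366624411705913494106528755613385461983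1150090726175020184813553237099209251894802507639692041984840892802067819818330848495867743858175099087877461774571429710349073498242868845350631052683533436502576993901364471878177356856611185066590564224366471300696242861649196593223070303782900838661121130425275913991457668637714079945879681336752456349369447390442833841110188188068144458345514433741619258931072906517801258300914724574925199987023030894055773701697147163112835525328211431359020562042468792086448668166939237650734751591594033094977469807709486140850894457518585277770415433897544889529905188391074944774000469192265435350864979731132484330611298762070561184378818561441998963311504141332250548692644403864105666459670764286393381606350782465587438386461301569719230786244000378994191146495486273511791931258331969634319941477301705198153391538851058106039337758317068296246922172437505401060625294775087275500917070935376649892322371785399043392000544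4900228581350085088573836839226527180032698966408444605854770320147437916702720516244150705870099666586487357807828737115089953220174597333987473032697543588480026626175378436515445051212454116488973759174416080261319849069550008644706487185860406681762355873058559440970199720492690078256432245809462110743020233251826816554797597249670107652878968689761310526736937092401127242865932029621664995438699578272139047219340138308511372467180106071147349266702964807365914959099562611969172879917199313277422877777562724809701108233913521478894456319921169074445907830842115809488337197367431090533970463012993356762439644443530722756042053547843220065869477958296830085942563775575010286611400555319881130270183266046309311317629603864547252091381996804405742528100442537240613101680325790836673012823353554890998023066141196082689600434273186347685709134247115857641050811644932155166406376624645347714210331960951294249476476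69009291155253279271902238132455421662762352149086943979552368389561485729427440587537662680410237813573677602592533102525738903701203849003544737558016528336129913242884548375275441877134384642680904263512213442631433005610406896746231043462099868192912068163146569953638646779231985402988102264572544699293378054575240559618418508425430990953024753319393697388225208790727116205817756447625082099231314731575713202104694058882689993068013045300645699349130878072634408581975119111479248852785993924847917572349365322675071477521028482661232826503238794168909958662347279135317514945406457879149228402631885168911856401157197774481778272072165255029300230356992)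

noncomputable def rc2 : Nat := (nat_lit 2962417733602746347411113282856429095942948519160369019503881134290067603214123720135919077549661652012746767804510999729437069171099417711221876784059303673856307422575886070269867501086116651964609716954981341069869875706724795267829777135813007407018073580865759241448825883412099414334639980503408917948919073114918408426512317479103912170229822412642694242435417195983126568272300952440513700865600835161072542325349518302646946244027074976746735958172273118775156238522142695608769015604493310116281383463885391690917074931641108049416482074703366004268640652206070283233900984071924652634163823723096133032867593085429341916136748632474246890486857841315983715729915622021340684009571033801922304750068835473101394985196261752599716979856601932273912488873704675052868558424591293464591092659106537188187220742018233166110825826650864847787217854713080320687803460022871170352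1501336646524609699600296039869843895336847113409085256270970385255428708300841214843162187854145095651588699513647463654190385789165320924302042101365748128390119725214449817265653872622507316739222001399290634941322794080202764599082523539337829931772499555931400528062669032074118800523861226205558290058229199345258400867632675894421718559925936063455437973923499298564976111239934030208716246236916331561060258576543895322125767519560010268829368486196922965563770813548553026657846092909201065072743307456576743878966937292547148004685038911399698578795034919656169498543879952875204314106235261393852251589791548430449710182421769243307092754044560746154617208210109624646213595279254406127625557704972187319158939770893971763139547992854023499855532836799882333184306671327611382503374647813734718965678429662150400491046895357458050761404567142452428761886077405104396861123646542896880809999744496816803309255078327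5512019731915081014314484234581656011616860679549732551039136004083965591058643600612344316995143010104434707539567543374738450797489331748735648752182988226013026581587283884856553439410452886925147408259276168802719330388834563179072280241340797814150313701806660176879902900242379977306075146780157943669834853303503135298951701208097055026386099876837947228661264251700327614310853808377418006774423738894743457370784636307619276231248853920729261141750872202403433107134145907199252386090536318453203155514655100157783882861513016400112227847596465803050788571678769341769336698441860607421820206552657356808426492881436806742614417782545448623022931541005284749677443134984636544448342394531410219115261782554528594372386033081103801018444122593848016842851056920948418541459674988083521978622175097859113821966487296145374500762445912156721078030292274717896833517165664101228398824211141736930507100698305788054349744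0358632527300103247033706273664514706128162845040879498259190902468703405748175810635720684761087065783480133578179812490363532484228920193168538899901039136201355767228071692263580292567993822476856696930545333726732791278342042270936350627598542109386388702980170859357963067146876584080397556707688352155640053210343754382049842874775159201233801319317825158429369159472558962216299886899506426795194132027778809387404283692452333387096414385602143024489759893591508366239745241150460899682057830561851412636042543487716114562332337126258759312801917461375907626121336044830170026686722006387885026023000836617656870069905765913885246131735714919053755004726811304783338222687871810881161639299412662147149301348023779259082073015896126210475968024588514440763809785505566779104591232994884058393499426469563079446465840872919753942201208056333323623329877287644623176006676585830831610973616190201878036471634480144945137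9302798413262482049639079329234788688628740020567367619192221015199229155049399781984880570131006772370252130658838619603147432171404057568226612756451683715134667311369530101007391450332459496660612677196248485848964916517407230501817226103431466131030588467859235535387848465691455935714317937601151393968576062625528481462732750289185492373749630015198417890601471614412653197640422054449235476709763204891978711424132943573670136562877508279524613661232729529140411790089579250249413713037783536819467797587949188045714995589724324995069294781073763364232468229915406223361481192864678316223180861131950849216100368703991229059758201515870746665472136322114659529440759056900615107462968343887161475666064888259632022503348359327652303730858571394659823635301629134580969785335467915708384385650498573929541363556368126213524312926599673105617147789593064100664469474738920806551584023396481340824817506747949318732985521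1957493241726012215251572494602177307904514924250388212325903942120548262720247287839415102556855749498532734297574716564749176739679958493694555475070836330007609767860535068577297425535203603638254516939604040480892818919994658606592106430254478910051297936488517145514578982283067806271749334933086796574044738168877821573912329711232351289552965787676324317300727196975315155508397780217727630282232368730061294833386346512683045345742432774647674596726082227665404607233770418511438367826640570589046179256147151847269432994226195924035233506624639310669426429111161320152627123744667440787026019523402706014529661545783765145564726486544268498015798138772728581253357725901211104956825073917406013272802600084609488627336011407246918598700629001478489362060929059639386419172858148998236281232965179706421781772768923919529922020111403942459664109685534256283633378942627064984596364203838865702133467490742837788310643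8539631753342553143039808210043204224350887688679427301704032866789114843774092394471552768277169369644926580023696501109090330418582864357795837385972824811179005507903154718192780509294670963831167749537361970745637777293272871074056775967549517643405288102838174425102922836769332498346876419058055862868759679529958861726243640262733934610265881233489089942231117928423149507103753720101016558873228109586420072669863640763785460231550620969517976334301308445540434896598456204785100415268543263245209335177424708974894837111168977021393949596630293876909436057309809991523489750758018647453832527617700411745539906622558126786985115845056894034873535128505688146906232354910972461012794048917312750824708626022192534178271340038935572662156066027602508533775248721445937765898191829504240032161488684198802627602273842672229349954453798505900277893951204370759259085971771627521804275631147368887892720995892346573980653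1661157279909749770441766236836511600004363885569488194687631875118977470344580137098872496163747311822761786315256635937509531354939715061590626903232537525903834522417871490749619024239799472649017074673101384272109013162385350669439801793966637944817657659621075255565431025491692968165045334723136812840213692001137063482775166316586201894477475119104384649847229130058999236650865188761720411914602582634558628031216790472288788225602284257903359426305533559157488843217918869386952986965624821050416212155735130512048135725814496142207127698335619013098309716124587543128736867696875817593989533210355875082911306527014912297650912501321462402454026854659392250641068425229987829660036161933922389791746876591756293034007365362606300484197884863932348096713545775071906613646992392920047268906431047813143047645815717828981815283650042602945922518837053790437650805769324432672787571836522577956876834733017460284178870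8262321409080394990301043275738637187722156035000406141898478152712514722318150910060747825959601140081802890113871028215725594057294269139931240788383077770738709570015822444774688126694578734603414695236025357344704006500814833797939287234687964132839916038902260054744309162764486131905419400208587917511662445175459854661052025661863139286477721469239203668584173312013823476393020102536320123182888342789034261575513772128095870271399980765140596786829994924573667378642922939142710300622047551513483027782043212161542887495649928828599087579574070177306047565213412644373454797615217497952969455273944335671240568295312960387515203555209039869043104709185009730613001261772453810009271998161606708065029462621807932784556449936024901365966876674310086788063323904349557625253306960560385482194285966407346374713080853759703290715959904287682371649950207307667594030771938365677378538690170035209747042126679665673728749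9963644772446435924658768498424011022847207163804778314059932426675037252149874606700642797245703936394240095800905704239486347612100627307297104825915536563743109655387132533042582570603818810627285656569621622172527461638044772327881963478791369682694772433663044959977445120495067036878359633432908941435536454682706939016500779292114358435522940340576404847511637445748588087449540438145575604613732436563672098214973455792863209138512702147685033404643231011790462856176828755319885517417448949704230952193783682608634415772140495730014042333507179793932918916790747343945787127274806276686620918993720331864809804165455172208457495150978305154236423807378915616265326389871851592062496312877166453984726305190328826023440018972020454293090599867061796243452517498944138306595712443119607587458721188979087058291989659236366629923551220671354071142629649575719052529573545084223987728107399243017607184330774156293723867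7619318683774476477800251353249296026619298391601730154043005564164274182541685443925956617709306557619110850989796141731709248008412270208248687481188780262838569622288222139047310362267227498453216902777713146801246163840783585880799463865239361692532848310030314305096603204561677053986306663768746359070978606386421282555973740331324864203601870273025824443718744785810040046595818395128948021648471648496918242823894586250207096773203159153129182608989162496503367436674216774469226613688158024041223623775485446167882741151606796187018924293897464194058143506053582905069243050755099189273838042746972037300938746376047281929714063227219898239459094935078868561849529130711995899941141015904132613433698394985640686524324032909949996024164378646468781531421518693178997782964708647580601696867372026044774553849175450250055168985162723351072740750506354446914044345196773451262233491224865212700282951377057389615348952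20585360627123654510230710445235842948140852975912027971835346796132026954432584928865761218664202891899999644267503876491851146543659556203616834015896133224094317956525894044475582435279481159462482874976166394803875643603767556655379090802876569417488499965626209497070399919091471616220055466876814101365210904064721955637096042365891494321561487577061015386862915541883296083136751317443500328501641105291024374181113823640427055839161541287103593040798606676138730705030696147354628286796265162693236956508502936883755917391286807610501520377145798199147689069288231123957963821437509053824522276418517187851795147524030401179646516771297185090303996985344)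

noncomputable def rc3 : Nat := (nat_lit 2995943012333743472914603569674380326264309272069499937722373080152719253143217244174597622885046376484013999673988387406286227407802625541109995428861090997251261284148367037102081857315743683391822387960770976499049758090143146309091345398795614019097920317562124347943838199041505991585165646145035475266600035024228053511863944933855087954068467119412916838575590258493172545146511344626556790254633598374172363891960670925282470882510664697112342785664145954775974624997429018704460450610538220375550478856739790204841436369187766978909608458558624427072797446521014154053189766247259776526042091291486064526884120631494402642419658142281766616755421098391421496146360208347828948238950540971215179203893455798716595097843745083175696362397650936889791461900445507991980816692534253842953495283073651757917365733300126365680503900231724905157353074912836063718526960929856686992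1759960042392698172115193622366429112220243633477694388209779592291501415788200626956594429041722877387944549159306148238274436511913633595012258575510066252446842868725283710644706658599822877026366600364399888078128921903314247537417410914568996004721013807034624927931300344973055849589754899265617763091584762530386425788753502970398335103073241804559438505877856598803853931642472438101194118036679643634565211053073437385315987861693428855789281961506752535198616863697047511643058348870596014828015482657801771439385899181197173778201019257423734194707550895933849070296534748585861270614970958129950659894414271706450962657721496068652646391847258718074046212748358733345986452148685072849079476037740282079688941842673953832006094942184818044393630577469613056198142531712709450921111773924706330940247179736381937257171781693310192050474978952238256523491320404332140122332014584679183292941924121043038079991748464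2821939110243384496779960664494914934223007981546997892104179345810427185048066315857837828743364505698273363522590357212915377367600703322028368388292208257763504756307698472515564720485746389468541681951093882111208150037912614989565601688949162912554140558416614594131161860101791208306537191032821751050378000629039217435579895830566781259561936383704218244214717252314012316418499644418880370799096332224441578164748684069069473681319661802647938694498714523881221973502831031357313483180871481736164125243564502988520137337065536852427491848232890452627248992867811535532362728616033262189771989622946017577478732957349408465496848480265141084990982007817557396515677765808212998910183897901782536057116303768625531225039957640015858579741349598737548844171203201081870135698154328965825153251691182871839807757865940171909901706559574497560654481915069350809229210563269844947511042616668863166255156745209840779727210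8781730668147624375527291909939535012069284685872405601597682160844250536225461765514581592818529062338390981661846863727679291981787764091163358436508087956142603238939854386804695833564359520953846311262625174893869342469152780054351289883461598746044269039860375822489824735564191514552537236728556739178462196207958302134791178569838876726987567227864269562312144575686488928353569627054005837406141862528646011126798474504850259009254255356768159334375811733882395062447248338478374174991712347921017303415633913227510945298646176744200007941721444251753768491643675813814610244027383250016917694135114171505338049165151694653774922627723818324453347315229838202627680758431042800821983309260294222325168399276314220289645661901832613146557110367015073358483799114330269045560777858055093441687929974500835436214857213817820270616826489528063261504460163503764245791559979629498738899580462110525736715778127677971298358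7563922650217380863077691862529531652156739150733009831455912822475528758903266714930744191381985898255450135038060025893310017928993396630946148552467011572310195574107369108440652114866435755300205966359872464162620859590178750832370475658301696730149777941987890282874898111459834635536923935633797248417962997389878101647573073142390920024025065636519055992076507926015834780603736301988077993321708813755428475339664884764165479185475997253832934716101026194081902199814629063443110776359467505702788149519100557542959411007277657025263375236517459372261750285066913841518466285698841894629181175138246708581666003241104457390712961529049693340373275508679350831391434061111892210857243445533058901379399737811596573613737857189605784627552073210089334653275299124453431131775502459026284700067346055599088282078665127872932791666989608805647673382906378803365828647103533442762163785472846740740269879459479830260008131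3867393626832785097620619940015810891192694644612312631634815317910395186022994883692117643717499953530637452336354691296207256947771168394239111747943578938706704769810757870819115103189697872490006982204264129007575031603808336348899367634464563721692008132291826241163122729178734229538333112557162065329445873856050903109665855573379314294898748889906316070705541278632144281846226980693325066280375151875894774380956633728314238424274544131156053664502578933415028735910188491143375118051726039339150409265322500530720619972141819363465973445968386892299641613654976426372513575659799243456528544831971395180669795639840494826098664109171836114436814171455134628925861871883836654499644812872895807475242806605860143914660972598118079926386243901752322684928323923664147213191070742521206363829120729616543800164475610770527265049322648241042669127893348366230053998949260932840549185261944282251745575607779244409338199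5599389166912968158579974201870347469075220785550224037210125950543379965051434496432946766585405555787006600339709233089408817668092999655990276069286795413716939387541411668126987144612321533289730332491360742381833815323192094505024976962005180700539549487284084190889911381317278843941215899889942647336790289358368126177384798431818489956180546049949551223591342766688011715928960554197996950035630553899387810133941913716766586136066913611753749446986401304802196694954062997978440248617538596810481246855161641681520706980407790421421258011782762856959642011717351225232090916753617448783601161647580215052896984685913336780419672535375712404968163068198589864757838165583805464136143516654139970055134201681680963406591355474318054507377322312189712940416556034333467598933462716285326863267868374121088852659256437255459386698124996063011622272158505303215445091564568114903714675653467555871701006540346650097472525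8208129368473967753210134734210058470434896228837955055704468927653205135090589685602078622969411231231528650396312790262883296344348047633825276786612951466087306425676075142932815472958619078726440197345309813996280499447454870698154442602379765284775531518236206169159208847051980932990885922767258566948422925518884820061777136296578718481776445007180726521801334688826758766039279369829574830400298033863866460443260921750959432677786537891799165145892549942066591488961833215213166308855964308629089259476054800067984410687674195518005010272763274968134365420529355736706404999077759939336450003521766947550865308806529107999836795273069830200724733453471094914509915124397630796829954193473430028807486700450059616254270841468705363665901625523573964086344454301143171263286604395761642111271045094598541601633306745413223420815085185707202340236177240262241046397478821715129384862593101404686287701322499766378790559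7058666531629695367172999337390189554868840670847036945261814818814158508720011147973232400005465883006681775020973336819874950229061675770584485321429335261591876103769197232042007525593430089177485769222173469735125351722833769180703028462375887349685462630122439459977294628204406603087819787839174016912409520326130633007395998991640166111398566790648834623639263379600364525546659700483251909791040082502369465578751345281539366257236677242179993455804721499642195126008812606045726737706687199794112969370368492627317092436396826485894846113629120172047025812835058067521802649693261732833315305917057443818229561689727493505783454391078143975130924852892035642965325438350037974668365657190176615423539559238096376145634892840775419343457808999621135422537987324487817240456095562243762033354099261397850324135837571707334511730852826765652790183002921765462403630125433873515692022829245518332042730328649226169754615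3226769752946242558348976355375934197032531740159486765593237828785118479825537636642673170637782614122661868886466569852440462443252099209404563452508490749977500645696053180613183023173286195488957223416257110233209410633391033380742104685345167967245087561177746483649525384858460501388819817082963071587640255872525786842358190981542907362350261442825830588672404550696679113716695121711181229783762312156254073594050467282407293089805295231527256335884719199899669320026697555032846571353270635393354843620945108205945500313894260215047666832662222988876608199233149902874220791118183722154633182188060570162775251307344053910334580066422552116959911762264195187417640741818579247717880520366048315831689914522371765898126353605503048587794916943439407238859553436912226468153315328642701979860855309726364141460670194349820492524348136654272040426389883499008299118698336326234124785747636633302224674753745312039083872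9054173850435609663463117206775907925847154789884360278066732793108327109112647944896806287458050278386712328699505395967320028169484219463158771366376490950980189915951630353104983323580586799566246149706451377508033253062325306208163603633761194067624665838869436409623456296470499298385796298711445563631993700236556732586872473432639541094400580765324571846179427333985023036706399524900204219599033124321494670451862601789391429721013524189473792296680007108088193103368823168827798196851311835164858372402247174347865741716955211169934319532272416963624682548698684085130167385194363182950259098795764756451225750951121987206173195103337897360514228557833466497384598334086326237998279104067955972576480788081154350860314853325785224502900317651175977581358402465138466020861983771434383253883305262837018811131053825673805564848270539252232238083345243174348706309720145482715096175947202280972429956834961753445224856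12688055041902235632060439858417976614717653956845498142208835476381158254192641149185421916451678258908046018798199281235079569856150334936327157060451128261918084767750114633516187470867316800897490494356749943042378948141109214416469458488795796972204347854452072227786562093501560168691786137140080964098926893779278914918188504982461607242503686594328284124132404280361158126203215030528403876465604251436275377190439267208393266955417843985747106323981921716227101455244626315259419737058272864956751578537197743373710299830942837725718144332769191181705848621631068082690582328810573444846075992486973196967488638755213646983681037136075890712559394750464)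

noncomputable def rc4 : Nat := (nat_lit 3030334055080302938502066471768610935276814844592618941199029227507500763242662130408081485214686072880921793748384202029272996805953645034064111809830832860354623494830414281160725768671206841383716959504379441553393975802483230201147693760481312541651983156918185927042557470371307271800448823841465017169053906990831170139450264357962367655604839142421688049035490760962052202074108952422526081995427437123764699268158479793256653626933190853614636563827459823976161493989606378886992460944644930855800272909101399096098056321276611643663852087216627749511733929964621105006029536028079319024940413966740422581039315415132876887845098673664048730826227824062478811173715689334625673272540076130718922369370676778992172258341641225615202231386107310162136115845488260911766345201796403571665129167031414752943538834370163144613301331913903004237299559139173172334686405730511134085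2853458859595442183497241126847008253928162230739725364476787795809414123659669064587825411352076081637412933139631825503172071086555118163613314204681762602415763240785358744248644600777179309657719060142425603473589285253645860705616141762333362954932972406282327641237590906235079339956597510142499221578638265015242160493750489966028582415319268554186333707309446639378707982565760770961714647204463264382478082588921584045185198789505951543518074786892027610734951871173880418920195601435911108922074737204565896038324811976150199210333761884362354079640422607023977129030874954233343841819375157037294359613260822260542308902088102558447316179646188081077791355773856509331531233550918615066406713800171826176170392739114088256208828234112372539399222059847371037444979591521984161720587857221984881980875634621910406658051893741096883088407380798905369768516745133352053816033983286986285728800482821203094037616992940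8226157152865181670228219270934679434760740975755214253981674204508701807552068512416375665530746537562108229052092174127601331420257152046184214497070378924387830740890614702964482252833664549712647459552041130467337485803019835341602144405795459840838444243994751101963637213095035574969660867508293821802570263936604945278789627925150561309990916017379365725426130704219117415895869860271654350794729074570996214613449179801713644464784861332070876181817571659816262010047053278896599010442855272644891154942395416524394220243149098758798119910104826917006792240947213889321241459818941881874679442048969100836867698045068902941354178400229034773480400306805424386947649325705193376027694979052994127260670397620907754896148388031154378072647887124994729333913549277463666776234730767472581788863271494730860093685563497585322758524941634139363669692883555775714240385031021346853656944647072903559752774898623340440344007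1327510792771977682430068919375464500768909152584227267180722758694426504522384262347689789714137951527887055832967402412762587001120324571075011721666042523442979923126161580029808255667192668263307016218382245120772764485735627136028361179918962806598605294345608251534682472869843801426222173415400104567241133142236557627422424426116393562167575159035517837404674375659877953257338573843054572008939049521324115312146605452771361916725812530829465240368680598913472020837884755312359034876256876229094102432915794502690592222186270273249242524150175726528880753101377979000608219255581352621468790022942370170923792373751990998451204195665190048643572030604869492583473615410376169255060802741239731852565564857070319222465646791884496430552111043607918237785640403598065418861346245326842359667128738166168774227165659163446026731754718749487583278416190609197598128611219791362218768674697146062297339953984922868516812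0570745358958675622561036451303510168122576517615955941705367472285647134890140001347936511365104652541117060048160617168820996071689169519320961670707777193630300000728291305201012093080711127954922162904840652975127372917977362293078611954312471974449359681002371131275411585408125023393432164022508064933181816896614181703074590418387598716268002088451892614604909524336833212181837003135758507215154781155161298397444587705420295531551903485097189478769129456783260296843252207772586758194410917252991199380980541603476817220021658982151688099109395353116621173522705789276229654665716944006255854417155250683303597608431874508772602638037477979403561016588141846562055193421751729342717946473225516808916148583338615510083468108372588266795860999692262788260698050827829561884839373080574612465498664473728779873560135333240118215505860723899149879090766910258111195600899111008092214742665288387706764350557599787675502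8410150510433499399986422790235887646584508837184110669345862762580517317853452729323359937527519559315335210421843456807366238044545675026909495625417243584675298703117590367125435206864020095274768957140674134182218506961037895443975384926930526040692653626192952222202551794688351878153233869349881820290851403761956613396289927215005058054330418762850835407469123954129590999269338570948924252422462587239419413118442878429551651101480436032354926678765367882148447559137175259986051976443188730767058754062688441504099239016898109136440014911580710456192349293812145879961676546345417524803109804497880310036754688809969127219046838775361796135184988644973365441970143457479294583139154015220684371669911688117529293527876358851409940850258518647078385681690768149303410269797585409048440528114383354238654010194834217166890153511404858745278697910552404886124628631572251901324198207531270957590796269046229977559358732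6794027009766322248832278936774803518652695024320368970207934993313395985031536077585230141327246859174040232892606304201712308711592396159322294441524251270857071085273310192947278110651503248859432726888150161658597108417789742480346125521578386779670476271063660983572984966013627928578596519633738368995619635164476684929744763034884404136586545216689450007156646027453678654024042471131397932679751544637685994212775322884034509501515798396259346104153214411071867069446066745467124429024865200975345377541525448793791707621686389021085191062834472815370995251289454947722274793943710143417951545317988640789718978917528390166942877219368921815905107252161546136636638203859574205335371588213219095766175888537850071060933009046921838394933329661814676689110015763772642939703206095812696199088271934701428621029108119822225905607305359973047252401181165919488942653087869410208096600768627308914575412649867028039829837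2531205440908084196520402833119627151115428946277694784556783708077072689401936528005312512462185041908685903387401135023609573122594886297551173079490908641982935125558518996092121526050448924219653378969707302467097938808850348858199035170464080548929129675925357285238914915394120060501331003272612128559464182117687991750456750618314852616637426110728307201864657981149977792566933022530240190642062944291131749814793422071636031589645301973849336477651470361681942441222901645501695100182404465003581549247817088416512851986988169115895281353648045369753921810887230363313118390201518394168499065735945204152339353679712127193699186782850442580750147624502830496232966714920118486448400540804415651793772902456700165433699687524948691199662870690026433944162634152295297943592325516333855821075770260344992243811498018511591939659697242947232474810643251088070503868502858369829988079877297463833547890208935094953703524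3825476928759578390821919091156698431689156900397916180580315416616808423363827559054916785109690180343908361120813149820291020696397625174736647473828189517957199753230249540286259953421073371474095578701715675639206606062599659381576833602795009298859364493431300239256937628659738634506389004275005566730623254608281754429491565007596545795355152057080069010195805468149678717393830324694092120968997332902567768494892469968130104894602552363404740367331382370446165372805400989981335501232494493336590776763771238824720244321631922387243467376309108260247509661090431625309745610945633344043519728432460447490886783947558826382603867890119613312531747046297125930454427881080600018111382691452678195333411340010318202691131307167691563796339622907170408432084796493896606688929291916529178724788037866166456978038925378071180553929034629762881206947133453745264411857733590473364800901964248804629029833710021274967540257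2655448422890962462538832876258165176914707773064460617512259747693691234170188700506526279924458371944244889800512182463874921926740563616953680048016150212289286149913286287220180815019216770197770343833322658179947633416121119274652524053854579420026121820072077268385019464558781342557855377281213200089505291151152415006538068329436678011743669221046716710345021411052772042631264543652233414065850490418050818173078481547401296099905628804351065042699599305586550820704056567200199338163505039635732028959354147551531495767703258732369077791430797726889924340025408009356162353961508819298294360632386169998247242305487144287412301242379695408294748900360675229038980476141139283230762405019154503718251066148032138081666013675014030845463312028426583005803221743589553946918921311621341973327771145544158693981025863424910234424288433582099157752690207996551136183898572573827426352287280759134326092444267125424268335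4664746505291288269113316412614120818220434102234445789305364982313268196006543695585225278496330814228229226843518337212195414008269140639008342641522633506678115207402767824494664467749385124508572473600316458089669154204319006027635615758883397738495193895504798340017130139301213193682951431378995594795992968287094643639828862572069915346225109591073640941634875118613803969808124198189597419907006289672324334326795646031642850419991667109907497863327459161298320642564851126305685388734738652878888504195204665359353654187632383497683080201870217520817740867194977648117863942304528353653225938524574582343472815999722518257842042111036633757383287483211091549175102642284705200007334202002390365889406821529150730057833773131434104487812609761575484016586996185488030362262728067187043849977418938566646655473833339746204528802999836873257878393943418169076433054190770302152109603683298239245836585949052282434050638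89566024114247985449404256784782781119065006742770280936241086202300097439079281939392506783413464435267904238860659657515117860764014318181700602723651085451955821476808355809933775236939339197014195523210435874310592538041718819948924764722037228640933641241224114112769840535460593042584913346054108398501981958770972826395167624915348643522587628638264685249812281987068923256667080777153961959297463490294604708458520440728614445167633368637501763048171787620097692374259739688920944302303845508950941049369034090997935208380387823103097581295137884382043040004968938783859186331379271669115592792348123932462650790040517851017150381842019214409610198777856)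

noncomputable def rc5 : Nat := (nat_lit 3065458985975120913771548683398369553261703124904441524457072480893346371486850834319087753874516787601330536380310400156040872476004986322532100852421402383688774546482421021483580558208973163913209266167581496010096950721258746386850202287026182156783460929961847653291506713747361537970075523807284576248610890034513034667818127917038467967944785334783475202593576646700005686824833047086651596817550760669498280076292381951347101207908841488602356178001646755685659961199598931435704602709435984840334937721411803780825113694832907375358114246207766953818568700421132895804526111555938052861403153414819005464517099766510432415529474950671248606926615603850769686116496642290611173343846149245828020230805777136605631892068937337917287275278021994801842448605796847393971659935457745263313768197494121122573652943560657518001095073513871479840969449747043318916745506739880984083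2909180439400907759947660532195834372450592333076705503150032326499152094195120882603211277808660258607804728599234405773237091360820449243347414221536801717917834153225364262517583364034472029777293836396925655590690729462262491531562879844590274926557321945766919878262403988854165825940604644238836050295147685953695319642551231012606534950586554692046286502497095869652380431830797110559066209268785133770688990975836893748258220325886752605211345879630711745654595246550263291544892273115398094423517000452299129609038043207095057462587903841942501913730302845121592348315681992656279202086602504593615392726928023083501977563096207334560274624040289787963339472474113856580122712579981446926726594739449143814670654583502611899399834295225240378152374027099915112999705255723986134706267856410952942531460655998227819440980495985167466995647312562376998633960686799332764302494525913978352103978101703837906013338300621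3735728691075139581740677419367136016961696664973260061806133008912078816001631477160402388150047424503987993782629384851306916742612234187339154435792612335840362698287019464266133528179708890637047650855240489319723175563123603240954472161880164791951211722491382026098262622139650282889527565448031222294626928384082564724169404572210525463107955116218680655329640536335776093008410734058312545544348610642720081941236663946198705354587704700313029336400233549059525510138485005130518104849583712933935232044124017410623951481038816028266192628889245029620997940159595216211601674399678474144486606860417499292735888982896168142470801144782090156099108773820709586353655721579748372514901458222836243367501433790145140579498028218376741411885944309194221815048969555170471855329666709147854279000062461152053454807437311595964467501256409368733622867160333389034255271003977265728555544095059961574034080000427840109226186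2539715436356554944288470037080616010683671268170952938644086534262886453268228591799905838849111494697384254586562086156176178439698628136061096115528121276306659750312637273535802535011192997508185313324555903643636504006628076616745352317496694982563256798093547928024160934952494376556894558388769196443290255316818142341968465704283792384769959475571709651314300371831616591369187221976925426699518505373299675425344454781630873202380340467144265177882882556398447173626048337899352662104984194075981831078964489150547489261634959563255598131448865832296729679390654934308097084234094930401631048204241093198042225422182214792760516030373466764481438567748490242551416081952365791177019283543735304439973676173345386760611432588402960066992419830573431796196381457754372309379613237852236021185288457811483034932581048595481950967450230998731770947829303852989624385001149738329750482747195328192221927428826364729733775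1188232634843445356871594835572217216833911248537306247344589195635297817538587735526092253639397500086546898921118753909265897996743761795120706643280445394877131181791066868799701472310540484947366563498689505743987739258705405775980515418822518936874957889403554292818484992904245127978060866934541991872448304690534993929478908637727327494146296541577805984644187886387099698023385809553435643606854972490276604212269544514215986061980403628124115531413274281225879503743715370866646326867499399239948968350033819349110922425844261690448370257944757285682257140528727655167418922304684163270165540648429603509286056312719342467419822535557629921082713093586236006551422575800542633536947686459986135725765326588661739155547767400526257074991272472846349860536122446912297481945170862890098677722101867808974996079654830738297045451102236693245541919419022598460070092091846609910105403776439990280603820443488927060299512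1996589270559971434068002501339001574064335061125910809763436268665449603558645119432330328012794971704801003508388619700367683344229503631382183439066817156763682305436091534540664394591560872395193062442616197031706976690738014937941105134560376469168979869475218292701017080998933363522180528366193760226784104506572095825772126625485012936591031208637514619530498632113308585283147337054460223672226321066051550026289520281309100892527670609496454278581904204216916433630734989868001115703887067008202536234726259197962754114948993117718149519651337373248099011474184135413896897077414976874015942005997426556726488523503365246174949626542310788081033271012410462535188967308228877497544454070306668814824651129456777961028160818009206403258512926714762455552424991087151969994817495998043531504366741654570706967541215138326326468134998101625754952554388431103552180765273716599285299000571954539618718242355572919736134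4550374599629966293744091810069263968897575583274904765761813941616341834060509153555689806096954950888880376993830661194066187766706269366358455320091670829925016364982085466474466104454350503618243485663565903821131661206236816280541495540669169085640407984351398509612611840063591439597516350249841546206542049077703530679077386133279492803559182266512334698166118919595024293247730220425260408201704175423793814540999943949195475234599710188809688772350920236475269796720095385779128531846112088373868862924013048189557622130051613775648940519620006598287405409037843521280842238735668962754455824528022624134859313417006240193336426619559239924147974165890167929537382956525221712144549907771398384236278301444351758713199650845651216825618322560505839802754470268345565925723142229815202159514390611594031519058415998379839876871062269992290185615959031893813957757103090525874100746629549527579967597660043555549785595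8080610924442081388487165870639343403308293864661261855622628834584372378745558848950511117318479313925622520458600520948786396910697370474253273853086428438617321502705162868990569281553685648654419444740739458890248262562846549173828119389326222506041195967872127508627761801882463548246826626812243188208843515502542496516377484619882817936793693916872689305344827374467096573144657552039762370077302517980906892226457630774395095937710807602592979146772798579730326983961884350489091147517035086717410644970151716367502401306203044737685213063435918123013231266369794390938118094286281734140547669521757850243468563670111190817079390414170803433661199877042809797030689413146565138717535743947610903773357183408286012319520204657058838544941973567515102150450416659080041744882270270560016468839373374840942559545145568680130454020120646638363714820154074245820823826208447882697522050562051701154568063474210863254290517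6979538075061141471207556631253397394024832055261442348693151764532781333942238530392130589250077658061666451871988492212028224486446707460836490892903263321971024809034925926184497578109451493350881143777873219605625940627986429720881648476335510411434267773283086323138347843280933978544700826659073367043995261798620702280414378893919934984559251166245828069933470618531429089306357539151334998882117918604925494378472335832284338576623277171603171640149097421979785501178792908042994697048668355968382754040307691438927576701953264484755060792456292558266514491078987132011934913155702978787048504481788203589295022661494858367104398399728248722443468825268298026149889340877623553406125985826216467393518883859207612189120636299291874214399091567813671383950396638340606404946795520813729654501311437881402489375998081521469974757089128808223190597791547797752554934828423608694837656877326587887443578192125681148587404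4217525334023673410864225721700193060646558281067304380424655193768243918657992318771570850861947849247486907855183428905376937340441369933199330221110093228947934735878266135433430016668724202597045420625846144288328460394188381642782760041504180730820649181571155266595671296299025755215316677168046425799520872360327509087626201090294409040419218366043582744100255699020662993649969387557186442432420909976518914143948944881734758176031623486423756238276730026229983089265636807481614223145776713984794208737885033495144715936657630324881611441494856502086231887176759413336797280601237418682567172927471657585451765184804971587296076805104252778090827153945512012540617749241275160849002176415974269893668811844610018847783870009368427270436468435696939546295003537135994312706744290011883283513568076261791500630624235513066163551794500697300851440098622607501527181130266511619689061836969642116359688672960292633876875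6389127141907952745773835321290500739903471430118571779944279295257492511945790703254667045409146108173620617360645051745632968274039494459274880648069682953102639969740120354186495186106869141033035121318679124194990479282799639802709497738917452111360942005764411240163318279551411825995894130764769151368429132065206815435496157232964170274993716156202859128552815526116960616555701236214640944920901520397598764569565185515333886934626118574576898039601888650178250654799679286941649463624048326296544050636925063704841055226655283676511615665026364965736011550331453475694397556724975479183874790066212192169214448577058487548488530952099239889381758470004885314995297473994381792924691043128232702021495241610747823834598197664703292755341809938433556540053295120721378416163876789143101354117548117523262929899394071462652033722473284519008184968655278099681055586606131692888560039246253763799872415990669496674507600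72311489315206120214410409635870078316134944632549393211968255441050054518654243254352719505409091215157555907994410752595770522131584943100167420431531640151901495005323683435127730289390225895013031890945994861778576212400331948451347836211498243284393625277843300396112893533606091855522836849299810370769222657424643778698151002748816825431823752161518593616013853541819861700791614925711962255235453157013811561093179841644559701304638633633616320072115908427768028244902420707405688219350600133229801865919029919821350122350149786556075101097332688964492119395414745459361183348972639471922206925208283505627427273263009030109102824550267410097394038079488)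

noncomputable def rc6 : Nat := (nat_lit 3101181027110118317001736878949161639909788078853051703360744347481099220686517441642413613289050914263127991730348720322337967423721567884122333305120292478859186580038686191403958079627718326000943952398464380802663343686255430325148119104789668637344467554912326589392813942379531614375024909718360068851997035957087499517914823334701108097382605163400824583517333480261977681444171230302039035993938504003273227593339031782734691248527132007950700237066495422951415516278763469794868693292947474612288123539989842915818033129942775206451974174183058702217487218406715138014282971022838649230404667352211462962847641161993368355260697047129152850684094735554514654986365876447011569180623767594564777346787613593777520163128957732351055270245675224839877216910364323190771541329754024827050692168429646661331614497874678029646227815159838309651363542917633854655614001385847576001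8652861116188692420327766870129436653949907559736512186842512975337267379118243363054982398254123759860508299582325508332062750911369573565919677811226585687700667020855601673724013302565342378764022312709266838073371891192724175527541555960878083626051417690157844123702955741509440746366450015284558944135654285942176285734984501189127146301289712765903476701640824561721355725830479794018172198062393760309925953044864337063560754846501389341880077361179983694280527256684912489495018277067822786087291263689580346155218710675347383694605656938899216181236791292875050295737644606480563569077604099184702344249238741547357382239131056773003950157652285961493469555175512847376961942984544828239491923694151063466568921545290596477579334749182485622426324522627515139992678340656277765097591156606134719039895362101198825209466685399476768571801383004555684439999939779629710930711902769484188494247840028023872595117307762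1354465371901111080298849863090861119451581381056805934387650958759884725587952618011136806981317713138236480535662205183724065688363848863046122211489002858280502402223571655471574802790604217877424615634280234100652414988626687547475439174430808740278783563990992018468681956198050487606298111786878035436066270963901462508815853578326554504377104420432555153905404565411051307130878786553391094286428218525465657600309699866538647327842018013877119279734935152833595124077636488298410919935830401761184999602408529122697830638323609059917694395243165262036544571317736174428742791777778980423640273854237008987968113272555787922936127125381152176803413801636545090329194265393258042862380508083860413242592289146572651648640021940254917571111772403699190997728536478307711774868786978669675085297560212295515145569697476005628232562204634713320076391443088656621548571363968144761403056355749159097347869009716466751287259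3604804831609724574358059849148848303867960992861769249154791781523276076663057291011658198458447911177572635244101952874017516579102338007751028077879516521074888801866101946126084272089437313803316188150971118869623653222850609968092664469745599466482138394372390992566890761738941233341524808355662204569028838122982313212591808534215998301965877428970709799996105341340987787981150454032840811285199677112527588901313953520878081212903621438998391528345169663450170043389507626877704134503165465450576302177875580992789947413283709426479771495694513439433996335591774398398647549258924050933248885599419898547087387766396015555974850825476361109442631236981851552802594905129287707713457509451711490904118848386356182576693964030199219514022164514468768468334400020282366491862131675302523606898939091126244140338981464014469244454919779182475908602070376228248627184446102523877450111305664947074865595637700573720830171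6876244511462398144774716376328759100759581854306360739333377156032979468331140749093131189475932941765474087654647595317940133461756009828849727405907990203831726514289219424253121075437097433922893127129609810806086710067150433392608077290869828898105189217710599773200774952497606869549744918255522036848242934758723126417982184295240447508810459669700415497565831353722102407426227688579133486118535315508122837668261570449740056183297690067581719804955481582092033782074389710250862253027028610794563024258876305295667556032881347756155128052006373384916162998059693721046628444841716256478095279496641726306759716705304990271004725098528333355789815914302644282560800461607395992571258796805585791274489111281662348550906829587647065399581448299835751836850833828063050970199258420216739404034398094168610264258611065833427383930979407748783255515079138659763894825154295741862404020901016247283425822073433727424971217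8486858492051504521384494263592861551878939028838513344079088624708353249794222611307227352401241812390173100162492330325435319367982719387637912894406375467731542652959230158939627970716738656510692308915856457016845598508441270987025712990557011046387934442699874240381956159002751167628108185292677539793756210227294334982976157633207530170079304446631295220779700044013203959869757140102520417644398978233716685587095467485254067594352608704476531654527381434434147358084098754746755618779784696306986402926748081521112129220070525080680124285905134798140106343292132395750540690665127227643780243025011021489441519509757389778516482360305138274176871210191880633780612355910736225018718624050942587826861624739842604870308891358701429556312189519027866888280809907808631318794117826468581452218169432788001292039611877030716386569185849967683780473670789165209216069347904421466987935976008479192108016037187081042130580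9666749538921980950432165352431105030288327658724398171006754063476878137363612408644484461241412470760338843265061324723324572963566681785124204641298198336338499743375420574633917196304434729199545999134649751118149736280521935937841118429702093330605164756352665944903694640148381375995830169725526895157915505054277058562540151847319171141492067617428945685046330353193831264390836428958229720472273600359287112594086859809894264698957877533898315042189557353690411707940257718022345297151679711145501288691143413570637833282919643766807549502243798728559737588466984055999920696337228970046919354476481621782813330620459209321086483119816406661991959765634994218625313890895948149630407423451760419879116736250431260291869292710341528108804812300461229702293749576275402642645819139109530321148508840231426171895900268140573065676307576146196148668796995695814087030722148476321858481709092219913524581886852227118308035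5023439426203889610004592343186222313064485530106462020357701242305846435210606772552383288794956365812251371051931434964074166685487888455522794268377664213599274055069819758133539112746256702421746019137559602967143697851131006816067592217646053919142811139003351199729114833773267274782848456204896915362742533328461639237295370110339800441985808000768261830678143248515647935038409274005767370212186454808264769428212885874452445497779744919926090877032704660344412201788025946394469931240240925516153851743526217838391639805435756598175484713394489998148037463189632593245400000516836617331657909847920622168445846717615452044869143933000972512334771350075354884712247255543012013108986982968373257164295015489825371423648934714947069075709453777865446913201811186872894780103466912545690150468521867196642706332891947208885645634355647866159464310880411561912260686695520384195172896513490484346814368269233711764362610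9680365766069707851382446907147321247475646191602620951383827262234460197645287091357693578615132931714627234430438879840747915576442482929418441031495514600661984692497877942647124345738854582302318687221212010752541008593709371543652253237213242706401325402312015455772854594946481632454354033159913819255835043285582140899473372056300309459302343065698891179539105717019766858983459576728405875486611597079669385001506779027916850509306303731108616677127613400878694485034329841588153017574105233455792805167699385946539817953006554589439478013609438930569287275559138440821150388432205206919809500156794959950104033959145926190911123485935219942484594839899349751072060865621901808517271018782895975185108427647317863360629902138311502015285531164586981096952123811447942622304322317566644220820886153918416415850078377351498299651856773738098192396387991781592678932853664131947980613625240841683805350042715260102891315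2726854351647090444542831729190287287614990539033765663876116017775920792769454178840029590376876094545348445878927516290026391982921565785437323373454776244078303172493481709097922724430428143515592127157177507607837119301261383809423405472199299305367422842987918951338567732796075937687568329627480219075555750531831373863599923519727236658611188025993459926963863943975262552991557240802193776323541349999546107536547289658719019524387113235766863977302207376760870856344075539411621636842668818954608457124792801537943556384760766355944814977152928355423943574113461645759788732354897057284539757478121504585905275528802219288134541499548569551221429008164265448663110610834568741144872605358647809476014188664286975661733993124135469712687258566972911634250115018973631548568416140313311531197332335821173204331601281282288118205996170839397498747210966544448670145710788554668095682889728435930454083130586736213287880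4702959926120457817424584610379667637481879258509600228434957747066831534392548408781957941217931347322556056812658117453522712272798341767737364847711737064454307078379637144164020932043463598833384787257752838176388178574925057498467442903803740862376989635928675138445001165706041514070647716441501225705430177531202129538740394161459404246355568887923864442165343142391732371193212491615366170694333703195910255203475714448426328519829463520788682086292843807326809470909136186918355295486597881441995454860101012086540637801167055930295366978388212981211413157415505717431766102678337049937978688106673134001190100066652963771484950027312520253420013408313151005701890071962958497399621080411690900135045716815233364136897494769732315789487402910987601877423822179863651413476712214350801820505632651477160895731097424327614837784765087188361948460669724137395676165180512738783147657209997722421097463776606717878419677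26475453683332967245301194470996856660794539721121027503056322080992964659926175182286827627544024817272146367659148372278191211067088643619474438526387061249147021204387174956350819752541058077249007680481258093722198078178992401328457531406928330297592628798500493069757326176996179998396596739854543864913358224953648236812861926058999802698231163114907876369534390199811242211775827220702149705009807072266708140599944905670400166336112304225846198254997678447158000849045335929250408152450133432311402559369728860249766648579873621812890150632532064296486813104000594176752582892708592343898719965499120532243537932499660893259962699109227988514948041932800)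

noncomputable def rc7 : Nat := (nat_lit 3137370769452965371522787844037246082302395010992837254782366034843714029305893679594935334924793879447012948936829645185544016875471132249228479853548179296715034655676351815944624743472374590189351307378425780809598153336980335237004413188093522535620482038469804880068792307567894424288831608988447842712272049052781213178939414253491866931861925643108331857971227961956617486418291702124871328401551313223813857499161366701668648700862743304258923422579156331681343094297156381691023722854147794267785034057085443276937481956836721640932945003990649787948905071249572066787059896679606706811487721293220504435256480233470097870895174191230400375400206416744292618417583078388203643870874961597949846634034100039756452463199415153463535409853598612506000947573612788102952979106687281529082568149693294480043250243646891021816894734794627983235567265259403159466906599318693803597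7735466469386086634429699358424854203586296886920511360363665892435602629246713336894117376394073490331808435934656850983290271016308601050298507701331485832952043945509003206340896281330261867531429738842291506903180495626527892401438102606934580903122341575408416348822585112496667468677315563832022323098999566710361218568800368977100599595250782758031577243905587895487245129330533748651318954587104323526149127244902716928533344707663003629966394254906659956153799250745421306432045838823052575662488864748190727759257646846084944347118946607299010439630207858457416530995431523137956889286475390711828785427612741073183996415791127623510426135976009809098294869674964405851623254378067473176616545008961571400729235880061754418405062495623528685682453007112189357370605499890063706184940805779276450382441762707291496107057765927824967695469138648069885033083379997991493908056096461374950171693259704639163428308500109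1768849810894605039585245875932688200472524467028776160242937800781445503345882827335862976822898894767048482393630552794607726607158052148387876316748342871485202079936512704840176168749346137794615469040564182694065066286482265344690342161950648501531194397299710864417420728702969205786453519687625112363059616239550572549308867664560503925223800486874855343091311205049794389884865921606152669190142509644288109813050937819675627849144239687149234689909400497005071173340162743671374880821596878187943677337784989100427948451389415316994763832850828724352523923327232773804772906646898711588083933147394020529865607675950000980785696496500814791684154125617099904596996361766602822224016902214351854011895900604201475542691436819138011753162513639186288097829494353385425814867009698813516292811290921633525952878527494381866467912927432531189677522345577045962240736254565322400448178323459480000871250885720926549598987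9086624645826136270318963411580934954178068592723848061719318185757420144237769678391815311556973383834195592148331236656341960940503696812352125943150703207527166170608814284499651753135288676737322194440875050065293427008773653692043133552160830109026412957984048611976629800646909712967825018800432871646560811246405058549830798489280846916535380567150839585993679545618680449740672745743240299433112592907207383532392723402562636382851988974150682296076478596200025109912867729463147449837816974766093131009982019346861332838727027359412555863614478895584445869258601889321755920914354283149047312923571608775496973980678546108072322914046528023715058073588525300393138081328444570232317831024834874165532810618788414644656727229448494980881334541302718927562504824544561554253693984549642929993348614307363234581372207670425772585703590689788508420972693645290779723661463935834855265083012371474119555496350859693442749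0595434077539035552715790344728442271071184286388428682554374575664606167329464709708825591341858212863843716669257874604417668010245854456054715692479675375233304002474213748440964071020917369083260912818575647695496937829809577793707024998545289896908453082275809174538407226169953319463232544185296666261570647733661629660942517335045371236864169856928534559364370881544440823256945337325593207036103953680629011422850885168158593674711737667307679829154603308508251114985160604063521870736541424225561624059979217001040503424742890779924094023290111532487200419404006251793924855073610109154642386450567054965801438640661679504183704492043007149603837238703165347722543250081290889468691866858985965815883979207595035132795092867858270238674145715717926298593592145880839938376347663181459668892372969552970455176985037652625974609694168742969926157100000940989135491718071286593878197977217490755880883815027558274541164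1487102661747293532709900262153246219888045962412093035314856077349708985039714166820544174796060335358269786163956435258403480859670302294283859925880737740228258676303676950292655130410643217722368621621084261993142699508620987746630654997779311466674023392730970965374107939049207014045398608183431685524194088867888029099159519689578011613524439110200372321943680717614856430681015394027637397890403691697476960085739302352610883042145623216626841533966379709752385516043499708766973398743622313766779188893865979650184791215150846386512957759529098685800902218277467197659313353558191047731143404846081114553195322103804293493600456952161075261739738333069093194078968972683528311763823396986783024223209910101343205484924602116643171192697213974396198518810362257804507564573668390650097631647901327052875812268250337330358522548805639937518272229304610574930080856657031450315822609154296867526566640277501300258897584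5161502948154050422031131051690052157760988483780885041992835624729295649207321189757108488070255469562531369369013576819619878434185561698631519832671555602654522749514996702230425876365676845440707861128467918572518830870674855820108460223659819126530636075463429049924080260044094552257490715265907058157368671732523449848497405441676557110664530694577462181685072559178338159892319902314441522414665051813911163223070473076728910074251185768846971794597592065380722148600253500662210116886401279035395475041694717697962149359581905707982895595366357084406393288919106962968642070265301866487209269257815764397211399858743146087374041870027607515683338092746483166723461016411316597054373573643095335442248413582435333911857788061399072007159654163639431058151422038688352123132026480648645327603833110540318618361008920494639368915970553028015692933547663797173944544608888631724415986079747964111940335363457814971008744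6532630978991138240434284360987432821541131137277910229306459835309779704567204417618192895427720225835458755614251801599912470097700566830333394694371364675482700441475067517935811016186848032304824934156234229705359919065654415169393965777138915045217375583106613175758583851089123865718006364733073196846285398166815903728060304809356961237323611035686056021256356437350906866525965961657586187503782568796856780212390256098089579503370819111375690252892108582053199479161778849122830224862535989927579711682259332218405693250090520197738310170972006259446518335248312775185514106925211146156642101884832589303600970810885459528343713176881205343971802942873014760511241125323625469490609881359730694614911589753092826851456334963571556279809944231073021672931007518824368640949847588937450427302209383451959610506056276732793993835451509517548390511156939430059623749275727505481080536253599980281216927958022179577340641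6525932034501232588785132599795655708101326366996587657713449383492144776532489740448788864519773614651020216537704586730836354466423175885963726367319107372859470931285468523463366112195445435181469132994344852178189285064697288944230960989862269765186698294883870696728667551907199002235663130417747713870042337940668443977207480643252756178546659501037536837377310872469269146927142471292240846900455805105636669533639093078426416770004310662685673397917702792831949069561128118479419950560961654305341600221864353050363610751563929643141464599234014174998688774312321526147163015528493625377496329979632936778129761629707180679228485395892619219501987383532962832495669682500736329097032472036281750226525447415895708775230058220245087984653229180252151583393463824539756306862802842076111657499129769108921114541698875749876335097401033349434600261315553490288055814990940721614238415814844481425434007405881488924880780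4552616835391857450638359613014184015598273214958617532308665951822530654122166220258678000928176788445478486931326118271861968134888590323156963612429593432386447790169859360820895113361188191167058474328036477990613512955050096986645983755249917043560018950765430309512363348618506536642435135769196468442134292146755050925875308197489976725453240920021415034186921952608666556841144120343273658603369234339813425828868381348613788754837862996889993478043082944543387346016573183607506016851811368020238661340496014749858870342574370954495704020135882022414338921022835794553814854528229060951653554008788282929998355645878563634895065999451662172090837932864695774983138721686396563745141704713777140589174345515702591740624737371115312186228038193722004370219498935849525406301280760984856407651049836886262133505864038196206981348100958969136733417061755253873201128767447710615373103268965897400223041627284596959144261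6748652599472283626645994729294965607317169942146183429340770055611495978021331558903792302898307227643168504471852767254109715892283646985267197385713187502758026508546316786676966410898578805902617066483335617291790872202904655215075284665657046273639564325773975949861934869503283599746788968434446356733146223057419653105400129267871170893761051947306074693172206508356508513740419176115087335021100965774377199446610093662659158169365618506295597499259478366058667411412647997665585046751123618453765025437910177697438794182651912999558080408214064686369110223913061159316116882259984498990871564831851496683292809752802345943070348210530551548109861722863672470972197293310238933831509757686355550681911833329722965044047915227042872185209407117926857000587543014332084710106037464530107347439086917788497032894734553153243874731081771190834231873355865311064793387758660221975987532865479293897587299103538113750503506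52506291343713377152576239552408614391439001834862286262070414381276569241965721082602254172476483906503319252187679404248521950250290239207535308810408659183564137442631787433744863203923716126043573315576527991211746078276254719057876812828115842379963199093245542618285766970208127324200067675806522973339742102469712505106190350915201989257243380691426477229541384147959445356310910263906334358436913797972202252788580893892621355942630601044229697624061354746494192099199738578496098902729071339898695027192640232863202570267533368676974195242050745380203559168151610253684176371500529019532371285850700871652256763896794123147930161229997485059102866407424)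

noncomputable def rc8 : Nat := (nat_lit 3173908674738769418024335512732472288971887069936325300453147176483172333243867575083968524919748454517378673637164831166987927322775692543329160815882615083953830866423127567537221242675908468716990920241589870115034550284939442419040244942931985268331628960457533635817065540501189836528202932702450067726369773219900583910654491821735039917714609504977851468196481899940135383466285550939344082448425439611008083394417491600508479464349338612637865822499361089000476985368994769277733310276942945523935596262760893757403804070572021133125267999751593720026464525675799663669060255723346761089459580010222849943999542872076650970891232653599746866632247602222662294736527157818049541209312709255544918708994565872325834598457942649033340252640503014932845948837037705385391203817269440504620919031571657971108682662071233293484750362239811761519591853191694605593959366291341340992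5176899098162047913435976742297691854314893989947692529363266356699287031090281371033966052654178043592535343801113518100420514148770677534855215867626637485478305473415481719845241750394076098261888663982276820875989949970231016596599269496232135722863094645197087601437325628366717623979924027610525306838222882532177191326011674477825838100430886121598334003414104822634679562064909580677157457664932140960349709033441175068842928077558506989185873349893893797100818593691114492511247341078899938060121874229142785781700106762434377779613196590336237203061762179845601258527764819870401835143856817771265351059533569915242319770951139667005239511247866460785114405630395859623219206820777576026000975397202696029531520843902029661383563445095793001519918787450862210147949986381208195668371504077733975711942318168797097367292388865268658104088901503246525176631673446395222044941489502729261661075494459940777674950181828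4049582729080943403727840734311168462746812862293547572987199457259120082462987237880222595114348442526061044442947937796357687834233920475562834824160053998509511801812320106535914721624828093915031425963237566058390977982361700745250091033608844152824104200153656409220997775119518455297486244703449094865538041619716338164212391865297226485096327414400833968596452431249137459710157331106240172492684154828698547434058404937255861904400816820730017849943373649101272948921345992757648795183200892887444385331283166066150385025220367198716776104969171385261713721479394278119227996103872757325071361160166788415906817169946860885793518804237353285529341475515341563501897468284286787652614057462868806964707204528720581412638813006530485467372247536553465746343414004692575994789792266774135893427398734760828011465875174753509070485692160143435630310626763840033902729828691373099392692212424321552242713472836087889944246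4980047522980284380352363156779701465263230685838240000022578230568483400625444628101356602606668699842716396007230991502807343596893834853597151822892735683261327734288741561492562301876823333372958388020928321239414640644033274459657680327244285693983794972866154277137885187478493627607444173096022912735351513360959504567644906504111016135585453940207246511435902133209213477455965025078359003254381552843545571101789941600976680144572158751071042223086156966570678884017395977963186424997231769769469467405723748233779114395732445599001995457105666769237976751853190367879428725837530026296776300794816608343482986674529717815642899736070025366234191603299299998333002171429472428410014777333032413642868831808898102230463739771208932182774107657165040658506373900053522267424671801753005546949838606420967925129588120191208749328089417170712083475010311421723426045965573652849371906206337533003100984469053657536187174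2845153667604357770352565090888185881724596378441221359664836138225617957369752256994386514709457972895331541523068782263028492937379235983497731651436595194381397633602592014013555772625207677881605496793502569591714829008757667023070889141105694861594478177703371396106716093373860529532841485081887598180122238078485575308117772433569932345427804705013433423359757565923395829429847846064844958350448210218376092080416094664222004095407693956935006255193198443373637339029683373177440114735313122739176065661713248614228177853131164484186702983770876221613631392528681801398726970336771869167094261663681896542042958252929569800539108039054101832738170361321365431141658969495027700840829177977883030165841298833014174700374918935295749733111392623306388640717694795893423864102953478159011252298273008862435730881133372497994605465312153262490998557896986292765542028537237699874373141986029864377010039923982439494761463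5260159092210016664275633096214369644304683005732537485193725191808387937169328794499025192936022358535479529774573796966773608771195961739505937121939193865552884481554342093240582908773475949170555645397372320614998336719954023520077154335410038351135120423825660194245899076468218524543619083488016344675623431614626276997581462269895417623745277544663334444927399351176021416952733111433582773920817478444490870664939433277070880382788346889660888999603999364386124683662497370587057656120650176912750436103433713165982831851455820243460227838313832504716421613310400925430854162659436283120127237805114471514093962938938699063019019519420074906323974938905069401836488273797934367587189916487646540479381628165034999771693277845645661611570138171434503971324201030620072775107660924048149202289746339243683215470358995345575198150078590716965149332347407673126759695874686595062120324287539992246709258131458872289368845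2006704808136488123550781603030237234731164083961029417243551796791347913547865497548701181310058294734345985481343874045118040690216654048369554966593683330611820327628547193241784860453578800315495730453256002839626690816583352035029220569694538072536228272359468626364252683087483303658249279169038522702409418669460887506181705212592495709202704979192122926743059727169970983192574818025970612092730380034080500442426997620276394873610129497083628100255320054976371160453955674994576150342442001907176927817845962548818386932489076092302531562735762657937871281499178812440573148571316336124568868923548610133204519576640133372395386580155754571985250896245695130387436036406425588374987307940176751412172883637073383861067200972668394155023631315928889445346225421967704587806505456987790141107600312095022269728300327527401678851615313992218881682182004136364038315705542338183088941195727182331534919713140355473269109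2559621773590488961250343580659462567042972381043731246227625776235366178356745823402507014645310477803504722688988692404629939237332771673422485072722485924213272718159807591347352997218887037856904680477012747018913589908234035819336481084524920542722198543815318778572913210207180093198503327960224678068077930257285129318568709189227832953278159554801673786607249140246213625078102176689901778118334918467897055711547628532466744210919118008217842348190853423457900257837564186048189981362989193468934818951669841645901895899305888225057837308311438320477906926675632156078185757842306330664294942625013214580492212944972582237097877207988215941663376069812810323486340523479208212750279194471814362349427344823080838540711915406134799096439137406319282389299943157373994598004667454058858750139660273262866356314731122661109964332034379761226491474357145435026400421695332994946359362294061234167403785507451638911392510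9564538751884499755870576136414220236088513547994412523551841974554376460417641791093104391190647684245638127836797907893405216417668129658400912448127853478272236218247189679868763681303511759860390411275251373142093710215443961713950998252073734533802117190526243841514974020815014458944538190382726766047506599632657150573045152641812139879698848020942219039248891573964203148876341367217809619814269681050046858727637870264523826534829405483328676773501730826961833917061146175754828749098185174694627766922796392674042577747882703564916670172530118982377741047688692623588274402661054198490170654800398198090521814089695699208853177106536558782832210630698741338845769477968967746841120081760583855511821585584877671645865934626419418597335389210910698883126347661476268180236010462356324443559371379535594739058110936178475490357941533296326526479934070465307612876522540271740021494379745579319707586178572776862360572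5101908639149153974422686347027444267920391322147384207366881784233832777414101752825551052216156427619829267344996522193603718515652781164617354259402475493818819558606696620750834395875109363341838645201296118193251359037195222686168071246332675052810128873030980243554528350270624626757713143355406904024078094321975632307571127870426913396359762685839486181169465112447876167350099940072954041873354647365483785036822595534736868983680088672134269228546431898156477551447555251148248784723256778209599503232346481525076605139724360338496993594100612907804122983112190945126350991023582615260316679655641316807281728913041248084402913393707691039300188912988090656678564823680072914036905963770230855389969170070781371659062395277208076950638595007392512424906648532696936572012364662984467242263221725847268071038987396148442327095277754967708537622248798272507409684170223589930504519513748905657139844290534345210537501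1261890346474495976367363844435875378013327135063665256754001720343628416668879895897043725337013779008985700409543700168046220210485081393103448363474902379439607321506922455862826061182913264655781707676119627837336608919478376080520177754066044597467663866861368140981675404727999278198116282167240915188490782751130471952116522241033362050900419415226418756761305858886493670880063076142641989240163030171814098724145047057225577693442196889080044547005608101794230939631661982932780325173709491832426660987771170021493533683142923799405369060724872712097239304907056517888747964752252726798731687615940422200492137865742167053918790170499171641342505710920981484891477715589486687369011919098801918462255392711986744995454818904170303733020466465773624783283356261864433933445373679783330409731519234405412577479654955847443551177833602479436069499267616815190464525880816023395984401974732365482435178620238028430008372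06141638805595640628409637899090560028821840314991728602671775089397256017773471316906807742910463662179089111240928512306435754128898343408668069107949217248706904756854995346302351309843064510787675894034387453943012298089992723235724633032132004871947408009720466715916410192688443874435802824390698233859375956386045403728782491566870614263866227699839069217651695455193276509588868798495064257205526236888369889741366457769800629540243399565733273537199747925303260654775996368123630786950357800601634878734584356609190960038677121862531355083116324416100566210934887620951039006946991007588773858303563240928003883142035159523802940326436112508337684217856)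

noncomputable def rc9 : Nat := (nat_lit 3210685718302578179211993837079661765232766557618510020607946251662977337280372260399521407587091589916959182022058497377993295122524036368122729301263026307222215272501978927235128250187510612547411042362847658974735196286848751338892931537787983575548679326190343808730924082312939590996543716992802724208417346573726286246594511606516360122418588532058970803967780432673553570384045354940800485661760103169337912553906233532569412382825650672325526993361982832584349000957218245700735851430276018376891919233031609804984023447191277802727832391482388579749410331158758069937277656382272625770974987871909841927134645867962643942911107612353967502602159925369380362737945376926236849248459883883717906657911630616866513716112707579132758973462930696463121391054879174033830277347099947917496305149608740033669571306771154847369976031940297227004693794622014984711669506724770166158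4337971680563809332410882482071658364495535742149798464877659787550011832983496408186889188058299597707682494125276993289640473637127918486165320645199695733397773510240557962936529435610120808125338917803023871450986885924622926750943542178661695344412270975974582328803131877176224210932297236171929299347246361523458962699255225585488348031526782101146080435334494537868771994373967681579259252955681809143597850942616713988319831371732475518036889100945479761763948650666515869549556707167654147060727467426141229295940873360951980888577284060386619619606948477556144749544517367132351088240864131052124783665487500125106827023763160811038300566443484798693305258777518418332067805559108851552259350064813667552570656265987910814897849584394807172518253674057679997642435657923007074128811064293047171451177136494804421898771640892102876744137027482657532890204626397061251943269138032767313183681089904999601526988292709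8993382772304290533640640080414482444393816551898628998262319775178957274615327353509781635607395042959698993258330546841227334293269880396946162425954447938824436076572840575418897992171268634875293100970620883065911104030938672609318372835446324374341812633737953460325992499462362845404011348825324485552557828238785489893025876364914937523049310231279546877185939567687094154333181761739001164800074130645001567191959921559447904789247570297122932567579882799263583757597347115311954186481330498076342887163195693206405436819642888242779326386039672838167002082963739066256150127883704223056243523239242579622329493596902009100422614859978317638971196887812406266474280935981656493545874642200761269481956509372969718635210970354173145661579087690691813497677076288918795418442485327037313432630503183283685357107528398820709671815492241834674514728912911377583100962233136624853686490637195141121813202298614424377016515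5918985467008635382532562385973894123940672864804627787639186598323168640327856303928763036460737819002955184101797183576049135954253728914356252648916282078303869033636181344689864833230924492565670922745370085526133330018420991466608593170959738838914776460776801877321938577191792288617060360649950779947177007083685026458652645997646156240864982406598133244458056997286913943244274806345408064511316343580689143795375593883158506211629911074294533323115891679909584910982060728179309547778930942149842902774170932795830674448994137118897463228852360305847766023679991394483645149514033878627173093428877972404421246213731644146344954167411883186886036903026861807215089643816116667620452433442084789177331010956618311934960050114180958168418712504895659469823153491465958144954272222095674012730468673823468320703923469391661502632987455044446679388237844943409953812069543699835757887827726007329374300900809936888139690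2790539406724721400691376653895078002665852614155815364137250604350477522907203579732142104704913169457603002492200374216556643959511363163618738059195599591231241402868475387400817515173951148008403190236863938511462858899263053189179423033621082263582636259798512423232833788486367840849875676246055593770889935341909541405805028405905646361556965127113703978544010518520779453728485805888956771927191951347144289865344268592346620130604090720617727366669928723893388418646215372537040927757954087321238944545693368499243302841348120745370273111954309868914054975788863405667422359573459238562857896883795754606832709532751187483263889936786014572249062445320443466227182489662630859694311037612956344115726049405557661254133138193528228289492216975696678724144925855740093134944780445861313800915472214643703336108272607046320919083605339191159369751113650024278764901193497098576316788369018943097644975200734275659390841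4037991457335687268125127934152208283056941650352200297422068289123614825100634508049391958451957468985501577621105358842415635127177134944351719285350567741300025458056884787107457888083650826742521364599551186333269869340859086605930099619145020549517695868832481303856444345601022216394807485325851582184928333097416310189111037407706046506638905028256113655505184530789089972166702915705755955544842229385262697960227472702457204341343750445048568011141115242487808140920269271582412182404860591839474994246964709204423081062510709975793649726453979566564561832467342623159432679183869199737090967409910087822461183968831463307077895741823876393171150419920660432613109417265252644343810061270551565035064342685666050334652088876470242283717241426814146818522630415992624784618820834168807051868027419934864967111112003224242988758452468698580849758781788462292803321064330895937630026149835030869974817290044930491595609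1506681472562202903164336866495661759176056012096328351421980476996989174817973938398448929423289926871318178717168024992767378424209648718171333934625983243747629853152973575198274615895377563507265133816105110288560860086246726057380800477143911515225371095955257609657192223564183833667728770889546328214307382124400375613184521469658652090727505649711951930569116405725762614774867338118907734659838532739265522698513235078765393057161762977682467785842925614484703930589408911839041836444237716219755322505409199660203074857823578101388571208527342426658310495867987919936927456525861899437827769251947775250782536203477946597036933400071523425781686115975511638383485132247448205410586127832469812795513240265554150693615344033064624621368366726078619441773542479681882408283861305144178400334935791288940881216064295372071974277968082267136784961149802478739502294104804315141580410259300860705819823269771121942881146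3564973125518147202111777635883832951959927421259510280508462418017251685256023293721372213148571804851305302411098914389705165284934301748782438703258606624550207960817940229806856797379259939038981068866638004209976528496367106577150793268050994228133347314611886691326385298006298883907200360168336373726823488206365487657968763975910809128841777278717413319118076430860848224070422057177570994316120729243948930485738515447706786306709409422701847444021149894045381513175117697272479933670436318176402480284002204269261546483478925797827447550557869325397262890193689401542947193900021371193719073959662162563757710013024576158646798983677307426140831532772492723584128272187329785735144544714841217758709449577771377865576574928301820743468482872282119221351405084484131578527935532692661326778412317087614630349443874747224758007903105758363413409934869239260749368403997906098138911154276875487270450898699338582133799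6815775402763734306802788940021943475235426865573234532305705600650264931534801368231771822114309792315314344605623913562755577948054861105416000166819801977666768501932966940949918434118530913378357989123150873781524296515233627628388385638408095468112378359362931517258823085166324553538345175602324463053439305228466320292180142548492632942112838819613645982761150444216893335148520670993286522346290545510576008421255274210561637398803194221003997843788144979629915170394714218001502598750113099758194540461105600791349541856308090200263858130349725595190639287998774366422781523583545116000961121316843004692179841173763514828387411721423585633553917026432201499861094503691182506378015113521890380500419775621432876930023446174418179796768172248661794056129845327701340414954176381430471588137918794396838770413437490236096789668941054118465795763956117319374974448551802778454912000012354180328372041530015841813393825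0718359910393173087884709990837140857587930986804030459800949426791348008877523677378095687323246170929680794657158849223691918762242635927815458164824428852826110131078355596956030594333953275272680881706131257477049149599431425074604536723711521176460725768643519051473863435573115328463828169340140551000251786674396215442570547966728711788227173345684344386304672600269313571452303800661674011603940936274656820755042341948960845711301986545124128083257803490900806194818430539332593216520430914363680884458264770164103118372165323108486859998952789547969170118077792437343638434138282252085029455471026309910987023434831029007608803261374690759592833305177039718365249200831322232102301281212249802624973668406016584216458102265733743461180152537810729295164015142458907928355809353776699226364039796463474895080587738618467936261752922108022997943193406584730174651666098544293580450939209612793105200413333549619218590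6850780239747807309199066062236728671697229522610151695405753381633662083608222506961889583977732298861848528244399485209027434909528755013975046719391879417798216051643588896212721810612241121683407108598299884806955893924208060210050786807711089065962144733890354204079682577543773091339617999158742570350368705428860091263575245989894653126474740029206717932966538029821847847031688948155181862471456888861254900308998426842874262547732843369287868773638252817559151552172125558470779734408417651339241477230471785786624023104045698462147417435683183413284389607757952632901436387191296358939682490713761940784915629861548653645484893739365411731303694844667113286677787247732675767702449703704321723002214436867515874436569796613534154696918941990587638243255293486989142365448070036176719954489652882566449655824046867413763257459011495373833768451811309259824136946071856766129334457517464160520822469402485615415023835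45498542841870085977618101900050457084894529420824100343649880021125957954732320779362403286392651115488536724596554561298485784650386253790129261126598311079431315482467850667932654939764867107075000098759830101588083494470019343411351410769879411023626848431842898419305962092382751093424853094853891355354398133691718472114065878038716002660205496128810543038261481554723341528056638115294454257709005785396587426095949439371192311187662802598971865502234817294868013968435875524613884932676857964743052234470267687610104864976241321562003665991193112009706044249894984525012199847155357454627486395530884107230071878369419428840523646948879412595361549647872)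

noncomputable def rc10 : Nat := (nat_lit 324760175322144540292193779240580685701799733316186231824469393264550182100548512644311623088930330585273733082530110763837449360894991423086695932521966870711600880954708433345757307165887895457570059160615837913239284002358233555256740056698257215556574348855304524241606390634452397392458007615538134651759507980190398494418567815912381138658938205621654130717126718137274691889048247362552379942966595799588356385952330561064014335141950793965301649446654255971001044536114392663093226845097051159827912915900675271098716164698454881459727160720990241086442103546276875521052629712850459936259327505959730339389681837561174622712434712913731371535746604797255324417882239135560304590975919584244951042193384606352154914231226197592226917828795586851314249083719023951403010456079819575238068160904768495554509704478459888230473297903182813038372885040998987537882769586988961972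3890475429213949444786494802680046382211856205787453980036595162523528724735876869246268281306963494702020852781956025436174716820318565852510992456858999397647379205110240347921327192537729292973212778523538742042767516273844270248082587393791623732542356021967431941464088532042437031732963063141286248022271296804577205106164536274713140817795250010584982409222933310578338493177859678309047125967548198887583973273372356770917769465258235855515971665787139233926862025098773202750749121843764863764538837805565175210669123775498337225558926373445322036683697307684204187106483181728443434808354614060345238510980742320730976724799409107616531891081251683457339063394652849740774727114247170593931893134410823452238375539075247963931205498050509219167797182006183625600998986695459420169830592817637431109116195297071695583394958363324791158786583113305748564896040181172901768013017558481943871361752092783645118647508941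1437548463349145129892038100457122943049225220168974923745292084004965064604788955465634693296059588335442160391464938695954462603162822058899165132682058335974180577091946149146986436510801282563897565082739360178059673470982324701072247730227720697619278007004804677342851372854495267737438109324660633229552776069391170093812640294739345266599368536109720353201899501994014279479954193057738804993868830347498738404150383117809859939685421113502703353534046735468361255647573468362756873606023880682301883708167691504417265056105453292910261298973542210221671755653146965031237703060846286725495948299614485710563876541872944742718599832396325124410123722919322368700493440045223905898048711450264600139289965351755739069878422299358488300251174316469876214492707050163066024108181118863890767942579719420051299889856178349274141556340355521511817034129959202697252919989963948282676379344587290746246151237693109108365112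1373482064552032869898378510896663974808648816969070715549507251901926940825479843979687991778877400834588634145018873018952108009672856801250729590810044937693205039262988580675318529518577797242909428506497303389182223801735033158961995614419685070425565819479153091250265718305182169628734439256898748444689660361888576743437957430197699966923770646969421194072275063545189172970230573334904884291211234983450154499210199124859223329916201515098925834095511054356115865793190845087645928002407726078009540018559486605331388754644667319531804110575318588481170595460453071292056010122987130149641974762513106872493301341225359579281478468875792127403543252731825515397277611869988556948673773845958945197929593936598104397803432073146573832308983828471154269462209290505190699426631607903104708859600492895853407042820540977981467088962142424696785514773836525644851726490288373781189843453048597686130074162655263671607345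9390631764502626734878877448824462686284851754949119850157968402864897734922976932551402062674258058153175244125578941765657520583859107830322805814984940874526200445552618461337133407329348178862789978606430447433627706483775652726840649628151490431059436030435688326787661793657044250477661197294228701424563904650970878993607284908966998682498785399980948453997219792813828601357749410070433571798958519521123941188236808812314306587818023459630637478240844999638639196288745987339793838644108911575844396500232495842775522843795414225724447196869168248999578100132247559329481858539909952191839407013490984019688466326284801745490766166765367650468259618634114546568523269278088141444294906890442384165375530605695836484847371890954632736808179201275304448162747743556121905063497825307262780980523447526207457853022063511779465633903383250690654141757254318287526759916691184663371437721051568963843177354617320593306242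9312515488806527060121675188471981771900858476681589678720435807009575425913292252193863902239192521418680200348677310154189666767844908132787694694052822966439668704389711842248795224415077534390058809788159605004503236647523641191726183820424793626189224835255296567792203349380859073738225732418200064079850810348702049157809258198245408178577520337958314044423884868366004376219312106870650910597350016789438380360757902171002687074534451144403726792413978812023379416057721619567328463839907491849425019495468881305721133327643406284855148886815317939840036565927396039552348288584021714989781823501572573175179543186804879281398808388615035099536420649456037583814912810026305066131695156955824618253355561048992185717984534483640266870927174075149355462774750393204858653789444131008867150828611518980119078933072965721125669829341591300065632154575515429598399213442190584500906750632704081941336762625054152970053687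3549378462546155256829630692313353016753820613455510283363746722666856803957915599912919460424456281286630345621653616527506828827120409298403469599200013356853601968155986902650650947463578409096318635591928435626525789228631740401084933847345987726256007555804475865972199288485216219453461240366692984310278962741832396432732238296005646011658182060187980518294907159815113099622607089631441860733418375663131585644936818463846971147414393934303007003209751397455136001095390403872442650079274762692060400479397082271639090952391021492582291601058329483758417944842958184713319526659162157569833559609721282443714608890752060053079137324696030153103920709071472662943260449005366852742490031852424452118590292004571219807980990653197154606757703864804038799774364990008747338528457172548604839213175064595072677218895836289073596220281864995639352763465657016048593092019886904906030078790124157175431963225267580201079884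4840978679501677586126159838639992130834444704812355743859353008100610187993238733405846052635333655759672985337289988981166368656364444503136898349997567829235609567417182068515845175108354642298186498221066992760698415118450074502763685408254803442427799831630435213915122748727034344319282802014968591698392367454915599439225270618173007468121296373085376167871157875674864377699846417586517394642348256081814653533589346520047269549607972185609822749257640589807723511009245980135839500396647566507879573653151459087509607717171568148113183151880381278268614541149036260459961398120288534728844226972227768171859188488988054835321283497998466213092251569055291879605660860004295374201764991630553826300994811245359120136453840329085198225621782528197354195322563295256587656969471748298855401944278370647169723491928073733623726407196134635958030765352668713796865497977252237658994843611074286034856658652765687141480521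3678095778356357937231675273098716133830273992620902980393260022780792115630849108997185980904417480769899117489732976912068457911583940568464336309553336064497074158122423178832715958337262339222473504851756727172313416715662920532667260069401160711783844191402894981228362638608988254536546792561658010070567229111728947838183529670236083429075757164059907826163289128535246372720949963481486978627910173421546791495870974771070100810137209690780044877375385620692830892861445538847223113685739996129164620437117384662111212014435752705206586194412850911656452782388499802081827143469813968159387680528201951647050869380579645085066357056980067218969975714374364640557802434646884489718505893492976178075218079012949768730613643256624543223899917090867585458908414702347661794951072499202690762498758919516235401614478560069025943184784116022730519006022004580640623447545644927651947952598852240330524010351577914462409317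0353510846597366901460764492751308657070561095440236967853284360402679478574058831671594204783970975052849762061359467363674515587939817233621844108488405282071399324608657811853095031185882485335665448883948190241933510160659890320229439130165135113688565610816066223171279942128469861862256349184495722520423694719544250938689363846066063378177668847176312422234368332814707443862805943006203348733679456911213523550159621649955554796615620371011184451690396564766829469300807598481793566104824832245666957887115013867534031635724421541323358282744574258776763779499645740432718068985112144506466036338980295966909798946907657848493967446906930285716179548441839797546136565533084722327682865838710249644922730321605284853729808621770517972677335338016131009725708380321924836971266326632512221147046980722984353028908131105122037548976174663916391177131918845386871572787636560958375882479619296024136833408632534207980064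6409220638190007473178372448337027835170504787843770878323432471054637352447961799320967338998569836519984164389004842147268693722527038206011472856867311867460134067308173393034703740319412097255890750276475651411073898492714437207035479943220993045695483775487659643622583410467503140956142305300731828935868494486963782519026197850379414346805133182912443459957225331069775843175374235040309674677245194107696882399098756942149145846349931048776533371718809340939424456821080270210003698620325537012882403925931960300713787731986426606720695356550449341148463539768348586702966200922013385135530765534868519133632544762213589363349958741936484787695865627331794907953179189081748633869308290137360156181378483543583515669723536686210137611569540917614992244083318421774088908419253948775828853719300288050286234050387895390344125263491026850623102816746760916079133244301027513434317665688830647059415704117386132010974388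119597284215735549734470661253519456114010725829942329772415766969038915473258909697358743708140238989310507058700650819347242646870818947906152966435081538589196452319065101987810531089608995192617901698464042859551039685661104440066641972646613104834851615543896919145298543876206558580450445849704764746148254562982098474685666226862630964661111800504664214810559637304105685862757247705880865742308300884053065478866915160408808339126694548489494438939390132713758690739314719214201547802030993254723109927092807643207187371254738470865276218101700790895854656180390416971334404982136103777066223266492864299382552758301537215490191344231488824882653227384832)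

noncomputable def rc11 : Nat := (nat_lit 328456472709857018499250846931905166118258642471749794587412973821008332941661374669695436469949844899859491445796083022688376793385686554047287250132398781762740822058175286829607638097354391192282564480994976390285721709061212995166462459237288703496742739986485397789812170885358004449524508329850936572734191821349551000758646493837261261972212411657487104807277727154754506371204513832170018572277900973664771612470541845710489308540407075778812100715911140096693167064975742242673005301268432068242185291044824395185071504639299408895894738784316365507962470877252913588894494349726631142037667482787929947687482330764489061691365443478631240938834709309781639388909424064293552784076170669019043755411553563709758624051425714506715441071152120315751266456683802446392646700980303597848662501762907390396270723953049358972292758330258018320740473493062767622733735400170272778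4373687751451173458427464470018309967220030874210521282329311424386693256008480573322210209573366638754207469096991837017691348280046723103987079981391597693391523357745496131905426904919917622259450637500729723648944178609803473907328934198620753863771362364574179068222601864435649913430602252403771424340847194297216077801207164749834198723658265324966598059169565970202268750740466927649972447935320762148011010552235048010926086533301660282780825137034937701318234958736363402044370923157944152316164266759289279180793028172022631935104877063949098909647540667294077424525137985262886538082389462784514987714495054373118074625273912748979684194508574364558306938453440654707380809791669460613111586963604916577895691542173200352946079499938277290584541941653185657886594658097676773334708071803717646936545600108883054048065084568098879231971127100801963092308291956810443483511766227538097696250504486809633802263367551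0152643235528875514569705642248864554099760608169486737695372973782000388978824297800522955769332295043535198715754869521231948388830801470683451544769191541691903071788049773567854978219279823611022261997140144551268970169142126557633824467389001830886499407039923305134716643103185681294612744460548413429380558256081029523623797256182933696011821308024423924774616124876659590278370096064107070020824970154298620151643910426270328599227336018505259650093937153092904838916697089230470132802760669459322672438467097688763816441447495446639658430536554317053992148717607884873092940399196493921451373854444363198593514462536280456610776064892920311857956314001382650378120120254329270861911752823742218379940716714034038851293768792275212365900734892334826011097603643486508656442665721434108808025075861608659696733188648343856618957612366855635156902681055321495782528175121094895127670924748098113253499104171435563558547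7806583041387783762049413549242354080591517988602133320142064688078419815428691881837831517740358157534257345068961019249392401529638317640612119383443792895027689837967243255517015533712366161595268993041563114640878979723908251788391716129782724987363037405388134517783477913489517236073446939594224654082175193498665001290363017901229065567702403085745751444548484641619162786139942892980757851490769025473624910942660508841161914729633141884242472309480339715415992719921212302924798484440171742367650582679894185336432004194115601703920562118348979037870320516544708930968180736050197283130971168910815830271856396038957529073004470810998523982441330935361364265618547039462187036847051627154450491954998954300827479219172595286749956071795884864988120408909594665589544938287427494293353647041651615786802745267537397457261139077745027526366001827766683553973890707239580942930986521271543173713183090050951094195895199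4760172455741170990966644335292721476738787490643225713233603292454877408252247942367776088438239923665883597130235714507771644919629075975392308160030406617089903492779168585277411374706012554807476085710389554203335539923582055933701700906905160835135756589748447285713419827981515316367297812793233225130713230278732980787833606842355488189129499397504322601482144521332444352082670331431300017752225205199864076652807540516004955435178213306078674227426273631022991039458582920577986939206886914848374930934469296539913980897536588678863172115505986057502559803993380448088909081050509712246489969276840846003758037669757800442605184166439004143420360927257790731986881263247628681979676435161758040839542522590277167406004998463619444037892869659540667784774203060202770592338120055491448200574775770860102172480145505153051696207262127395584848598218000494010777709098141030924293819021547779404779031641478779700972098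6295378001775283204767988051195959222811852217632905296023456340035284950807602238862252207192300399751305211245559467265636664907153373246508676723127376257681937973791180661173725930287654703073178763263341394310975451154562770799391456944152364601714296926750952759052460630890347055961410828380025096799324887090088163060503725453841618128729966263410359443933646578965161393727685949454852248344503380763894438835740395536822925190785879297779523493004044133620044463746470585778561691516349944197198772725553842095712932902443715870452398172070721518322897853253575567607165201960783758763258321009690423071266699619741512654483928897404165391282192786362617799724015317826218844020423986052195088243106902474652465427974842104812869092457551020589987801560859606996375402184794982480202763679365425328240559506820879530476439935323556099300452974030371263492241814828663353429605598273743548976484519373880702651080117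7388761964142294015201964695140523295347760620627549191714812567787811674866742014725059843974056259240846496177078549594600840143162135032674867344103182177685937645775597228730612361400300067088015822305906584564742935030644811033881570699587248422371218607288632036292506487653893622484848386289177573396760666779662108515577541300830993674900238679471615190031665909314379039514931468032344408127831817017302639392972457315811735944269490282040972134485249257418287124421155719139338171605661020432352394004710924349844737213764195907718882443378039543262109737326905797224457305374366385011865523212880630840548025445030336967107855029101449057375838079241839679316270264033566883482988498592543902924817388249056310645379768657442679591911073517838867242196682748523521383936005266009394680613045219763619691348493100547322593989028228072696664670076913907196025375574427037175689981790729018652985321166172577743861321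5570857494091285162809125910549807558399374426083670654640469815621657157854528889350091346514176008134775801217866566577101224438689087320551359822585710007729634446368144442320659547765214936888579085278292445960930537506200628200577841629865561219233815727291074122169850946007573097613345714210750332642686175542242736586493457332887461514242323995663122973411806572988505659552483331900070491715155730315975137542715415315457861440376317693652416584818762672386996740633964096059597797504598187668140096716912180410982805040316596412475186556553149073611216131198284636099320438284771143777328086513376196840890881802130432763766383453288508216459855772995904762227395218395701216278199715032608972136320040347600434149563358457043580482042912855988803563181558852983244740489028400900743228347012689511369653994460328481683304797253078483245064710910717878273817489657722570540988090407676355053153979444780378098395199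0985250150403203239654503447912582075570734483141844662899262141681323175217709385112104026814292011909055303074773977387619245142046067554412283862953962478741458665720569668476997754147165847365413177902360913996117505774737376197925585491577769244143141542173713625802368924020061115075307856895533195431645531902660119546147107068423770490657157148442006137613371677608774665541176787220948833469226233389351145470952034920532165018304080776594856642982782171011129402190223962783315998369846169250513614926331613874159090508655321963359335727290078227721141446995676048904021249321556061611632343145118387301365927972658207067837640053930938198498698551959915354624589111931564702799249492195836033094607939148082230426312404845111048812590111508100941406583425298352221327602528625985864831671581422000353840102573375771731186366593022336720868253355111903954198436070642184092170750859423977826350846955284598536566383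6889119590973989198984245721350924609915421746626313581338372678860041550658529389209505631504138213673004830048306549213535257662659927691851057281092313757975555104699898701980543099261389920021412930257379875381009524003095412720125173302192438826745809909601959528083895963259610014817106204221531021268714028070302248870915646029263276799522837948514673924009787276917861026385770584427973117990875125628179699397088901576892663369025961368741630671642369427491480390949498416856403796078788348584171787714845907496256397097496615745918696427680863203441504241998251507740356804551628326074565498947241960781261028798677403850819599672364608455894760867325939115757359137556214825556700993870990384981963863201223878450729109998044203184555482255168327179441605709266327803772275176704193299266813334348464748854192117668574371294307961631752257167530854586920502093891406494448791395900834359430407114424643542915704542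2172285368661484170108961294980379214610332668969677087025352100281183592586067366668747289921564291835656123306745943836536408597450019259732109410932412618639887520403655815180292664778703247180637594011774736913101152459309866127573308749538689237215754674561272254592356708945639673824801549700067324904489237797087206629943294279242107440882907603670871411056639701085856742512937517711318558996636919932358660821773202784863807034144537281991033567356386218126660107246608361907860782896604372224391839368041117257568212836461593707142340017228287647026520055234066545438158650249346944192756960986464794663102221433959440954890228138658071900497532192264012809106069804022856735722160312422551767003151753477147885033631953156027945842339206456646231285595216315965669862594727260194554407428898101892144376666048689162179408388236586849653340673826781675283554565944472827650567454979017718983929917527954150658532240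461219738129147715198993175140365816164331229132253276047167828785402254485648904942828713301858990237375434233804977292671881794295549013289540933456164632970003399684315246840576024609590131609195503377672024537456351047895963491607397103870743873898047439976122915410548283311708849523793968807233598716223054667139020380535479423804398221178511617823458615577901825224747227724560199449831119618526614894450073835638219462463889751819793430274180173757447666222934761974184903884525484855803007880101193571261451633087576999092353153218023209909079889002845264134170557847372437451268286658396593608997006677543462181122019656035140027338680661388498575556608)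

noncomputable def rc12 : Nat := (nat_lit 332149029934327927134349741199820848017362222678032584991131133343080877359998625496088587971990859941487887634656951695565616337582059644307036545685473061949811186666147480186171795551589461654668342110539083136244467040430293821095424512948934737538319828938854210207929008467582469225430391479848072182212974185633519758646287863486771993168607291901179037830938588618916283274960288557763124048218381488976404165321899469501474721918615486071261143064806856969250983928907863344023866438658192888494946381785190750552794290478684592444370161725146601814408524126516506867462065038077778489944828737710785279594103122942866222363791302189501126573219015344799980723145383628496088490257498970124278956744684327795071296999691293048903504881674481220815509062175793499203991029653742042237996139433890708110146618573893153783893046415674383309353213431206104153971921847163633295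4015462620911303866098408989358140794716745094734577445144375430432308918720339011515869099930141115607155895126323241594391375055180898990080872537277796912336501287636870980082285012244286104106999512131009640286587067685345789986677629074887624240659776257066635979790024980373641161262817658666920667621060486645653393737362548523656169411659835432309104784122437041357927752161749329775943171920277083324730877880240657798650864124219495239543501675171728898614812466215086217040446741479197122763558088521627354431371407726103994981952638719533601364300973917709572381495870816905392514624839120686224520403742112216716384779872953681601564902151481746212857023816206856273240970314164549503462808059425839683960353203786861971878168011886059803313448780142154575012749042492810656696435838919017009789930396125358350110322320961552477627617532308618899581734238923791521861066576986508358461076960497629260463362169106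2104783975060611722288657985220004755460315546820668507053790203571651720115336279121704049570010907260601255691648443374125185490517613635554569413517433575683850783293276549023942367401850762198050807700144213484108825907092595974126385628703310608611345980747381130597273383125492134874276604492017301526453702092389175305418844395601504297093227491462453663804488751670855483179840980040609409903809264919485358788693126319996302341468213244709518515838988168718256164017526812668888654576391230020278685405162699091720034196089255406571501871652651499126307407902529752332136661511260441768394407687923320455513913481680746754541449134397713012591425348347562321133622251049804414196721718273233558662950946292795612066017269720383417131285418733578044456324292119098292892532882407981179925786445171351678049561631779227675123617837477901451695487064827236760808196994064404412720836725277868064211484272279410579955321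1134175059072512964037258640646227045532610317004967405511465405688289590207410122170433026712212937380811539228038311970532591953147274986317670793393858387720854900165283957512452474348994289173230445399615221072963002309773938764987137064203552889115498488967251958280065883293158325595857457356256878545406887782854112346333389295771997338445043646192165598303005027251816736207744028639677037152980578765874465799787197677545916139721900413996040678994703465232443913713335239212305807716660402446825143602204848033990640305821907293876095643650032940185098664469615066749941364752947735916897332206588555506743389570025200760899713272049953153598801908602344350474735297551923294205124154095874208575539530597978556085008642698153498512900680769123692290023459333537956489068356470214336229073353051043065929516653682578933020591490687496151337017523699561369164044199457321638502985977857928592539406585719566560603760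2524702911992481630792353284291402319694218293472432580654180288269638637344942423393917342844475907698454216755957117133841680903757821034779176226082112095587664589373908507205079687240815114944332004690222166105821163044760252244001545825281589104941872658563630926321790525665569891741803739763175606661297113299424302807941923502126338304450114554794449779229098955062023384811219634644687617893974266780443541731546393751262678924266325097346365019293578374844278022047973496463935231488476369189814093416956870488523229132217904265843751167607495056553544192995524018609423417696566338230986866670472165989396274869954557244501802225139727567701042992944011882146752804087944227395423948564127511352313896228608569418816529972296328057476719396403498298150178520944406483522703263513746880384366542749558239679234744532843094750216033211548749362515342130681322412750169861142534866791787853602151041516803971167983826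3142378694561979138650264405838265851761313617323474339290517676506590238683520748973367760602085005312678589674863382863837755730752036791292375742459301522150790192868972978195537343574627973123438372599789570133142423763544916097115612756388446732421751194251374710388025549612123264163224494713879265533686655860446951643657106183053777357204187178787082132578848417038175085366761625734750289413555072160309933086142633296157811142899547543511593501165676742468590831427701679927271491774428529697553530040805607336744283951309787618380471144388182475861780231385374563331855564773174769701354750246906266427442776245426928323070628667335161391455500025381144789213793810367496024706963407081806655663378517138370833806754978081340106803830378796401943323098669836386975239351375831877766289507639591247224428443355691603673328499536746509677904517312331416377218997944191173508659329535345671311298369438576546003056525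5490669001612771546413068201305378210244429441742338888113812398082030927768391301415319743805782790028271461852467254826105311697049737699076934316642882195186925725399400135617473286833509613342429400416749832839454328480712059740055639197958956578902005355859914300819446172595288225333503492427083936199179612397237679784809170847499924643059261625982176356347939897116557861359241639231289959825004331290617728070116116218655962770060066089955552261916620099933593204237964176892528553781308867792622226643676711157256588718931434895368885694715484782767663881060448891165720338808382812384817543333445807004810085205822460788452577810470103202215044857942656504675311755410634851870501451130991422440056682055926510762478104467446291113746881140936286973835874905244979519982093141179139855191745614513654303455518736240026686850002561693165584017765174974765570555291406143182779926922687360590728251937577214706486535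0650738147035374740245297015877198819493966475413624466855131619359172558270663146527567470285997867438845408315379848209659707351451063854636938076702881331334781750732935363153274401913935609215992861958858632763798873737444297269009263732167617269402428534211866557676985231792439213346456180562186284491058793730949201511358632235478087534047589435461631051791884992531138067626606863016914529457900207693760169232271977188755902382491392505021320685321968061219616886083737065202320065876749466549225934416326281141097824204489787354463337177208988698025518532178776572999274564560959808339300678911286314352932759122270385628201759698969480372401009995744139654905702953894892921050425062765182604499274899108693960082928129980392802331871006830721942940154682075534360366540764956594977657072780265816699307791751533379115847765071246445393860168348938288100776367413189700080945448382095033467684665827217655268189632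4782510559844490161913886320890915540251381927854815917601835924758982996189150753523234491382038519891643668789594225982105942640020283405738330738367749375652267824503119021485897929409567382624908205275010939140168650773678745891014272763042945183892993835754353283839996255566423071273022178452729632133998351377176993327811799696397602843202284661005576638933008298099296742754473658727944801911699049107896777442515944586298436134861122208241026128438973098581303195204701164313646468161683610745856553591877144278526838286414865333074904747844759218970393466393027139750339926413462360850341991780043508674038849478531079772654888458859431413315280529665179383100068779077358824018235959523601000866946286161694981889015263869738561063697178175026934349618424683128561614864573072666789437837780570522683996765532844287900517500843978648894526187049648900899111381605144874041594325111058420130980161810666640455419891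7168975147886677095789620793772404963868209892096160983446883920032037635216510374458497158106352667561002579200406353719953516639077715139891249747359813168135153996753394567346108441870252839347624493395933667770555745727805533751796381837255223821471003288184923439649292443634550880770156221981659040603419323275183945938111837733932497094734075424999096734909362626027958748627725062061559101954084744419127763537301292420469926631762547164537199378413412829042456864551769804850309804608784593158990063415915202277561255379720487980006065718228901547371948849598658247546210251709935927910789891828654355234671830205447852980561758125372397356926156743568141780835299736947976435044980492506936940192966774377502687852908385912370889288070067116392618202720000065910854723180706863986818804172528751409925266493288059339778926565612075367471913716625754124094033858541588886540395678924451621439153772042781493166606574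3150742523157411718682112710051728709895311312521969883454232618614233013239469874467994325943374387313235534294652772425509495033563165694979911716314684916380008915652926717393261309621700611337706943966655030973163972208541198745068839460835424862026575695834268862468280292205639896265956194577945949724424921658523585565834193308544911758832330212155474850397500350891743410757075793747380286562308933490888022399113301345964405397548880495402626871453641218375604647745647714675714877824286723724759692496398809543012769205960228046659999464862845133755086760157392438068472422109897701127289852405898865783601750707043987398563991181757793972633646915969081916284964813164558217774142091570786628032559042462441201615081755659225522015253971575965088974287877195975579899281885911403456875028721020096908931427242448343677136689446549999479336638096011805083078594994727403279489752288328747458584097670468275158256971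798451109461448672655259903882528597813855517598517371414202154232895687675010489857817896465593537952458283979832447929458899781933836178102619670625475931231741422827901456687514527604582364791640143636047991901120415539318606772079344756738849830305245275826187605531064997133657903029941534753425309625166843769375125832803326019999209986757936554245828063608776254055883367296346675658196676506849476666421665500456049209906086792573833688968033696599404154256877989297838589988806463011121504596668499840936863072300963054452958981989603613752566454535236750343442013588817761081317026971281746686167263779714229993360430066282786841532445172673210157629440)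

noncomputable def rc13 : Nat := (nat_lit 335830198218807734578165843568333626804991645613861064847273572958008784226378325963352545325832880071851023123280085238647112190036690628733814684820415126161241753422136129557083366844933499649547944636126902531867030045712356996729046800357097717864594348915986276324440488442248890602452107840337111232649112534768442273212700357495976438095512777977834779694707563484911762161281270242619590891542825315375521061442259223695850788478010878964770111937783583826462792260478458678620837093158549877327868828874118236073713872355099434685134233555764673468035601405050316974600001321554412888162793216168616773650731809546406120035301616373331231420757650602090395182366717515546805309564338087470513707109088669231053032166293732391494792149317666436675693475859283041106467726563402776101579152573694839956151672654062858452936976065222121198117054212878392278848679537297120632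6339144914304338722016250753768422550392149239922121845703455403229428168908820458731225837136498251285724559704515968761886550840313839234560395366047577236668597700814821671794488635982115685878180946215421242434148106930286618845263653942024712143841872135232897731478136902819711424772847197964610483037126867085232083318452729239681886215682510307589526691562306853096880164237271440727271471479182870730014632974955527571028427954276579934895551089038554910346688228588032680660447468382196705390292070537981717092753453769698855354151390132927987643030537979672338775018979767816265092463800242584591350248060509190833990707610954827373665519365629298406324680975455197781212642198367421297930680590508304342392866669108688228964520718750501857224502558424277456633886403699880888329079855955618164428777966234317910120807692838640200640854447956174700383788615480069484367156982932765584530879084159532271955436047037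8571381784609608260432015338479785923609699108427719401137497801345163820810526041441553474150775920534835255296491879415644516127727980530698163112236188104605526279163043700497720099819608421625893447865427261352675576385570172323052160489604901628712749692477717669930763486191113176829439838826511806905220954660684255845915324116795182798413568585588660191179917282174758140954800667587610996633420470775832635387990002670649701186278776428858313672311158471756263063739710772075700979036116323179247439456320493106580662736962451077139655982774252086280104272640577225726862131184530841071461133343718272768734409390556557752982061184156750235864806413457746389013370553812458191894445273236871048039122374786782586944861065029755792624148804795142917962713443961817527037281252846662859043840188362835042403530864960768846734253094489484829683355918837056037348933577206624710295811930969290185246215916858571419973857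2656632247784698345288166166266880749343538470565773776214489793974755230893127405386991896932668969148712315629919438257855850367965329480465134419232112529122964919238451373295581105994017308570874689361119451245645765456974165263375741326961252753352760019037638583536845398358515017996564473488967998896889271713417463805037213760742011380070569486064727952117008297421337308833920229400825780781292040527697210140023880519785011849075784157611346797593218822369756045344465968474286193675586304682169792249156464128525250045989055199737974756554314601694389709835697580415573261121512155875537389437866828169507941610048784325261761047362549578422425609362584457369518668202872907184867420259712682750596155217432296276681274760058913888029861358101738657020608871815435435933291091678989977449893111103070362855439864712488160175376689023093554987193344938466293345512145310983784752050348914715720462341539109037313616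3180269502104990544357941693562998321269620087823746035637993354450442315885696644913098234612037394948821942206274331115319788095327677009386778725724220311550322390089439813122867764697679050465977009629743207830309556084068141722662771003036519433502012920296029719251536731440069936484136317961091349834642473970729090891475342888533405065992676032735266723748192620560900994372783394126763509227252135255676007018964431893748572937483020656740169663035656771722010650871256443277868020992281614879406344514437933081762408275438993948885895018914195810108177430651714669947514442280911415502003245067343507105027091520499601680328661951427155265016335834746560128338980913331981697860678145555357357516640457889014466758791576290641917073671756393598326978913412718255880291719096885990945959260594372065997264241344392521297938970593946477515984629373247027259965351758402036644482584079599082345399810827546032890730396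6681405636494241280912872939402831811689516522659794477159098005375569089982486180537171418491601355668878779232943553407864816103098143892598187954828047243864766297554243595763645033731950011505795817315111111056973083849290234274643031788231413414309259848481060493470035861843727643709843137619237188009133184929574381749120915465889700167416227466327219157959863627466118956561782601573663995780115312539222625270736677816434830968847884600215840239956303564695209109624309204143627013635932309452822058699880914070707185911206333121545294891768332863160029402159142832504048273544368410582623120426780671991371069016410262058096126158639734582650080364283499056242366666687712320975720773018678950195721006364421356363996663304728361436784233958589805118446169390665552834005035751379752684231586467551435543016445823124507424443334113318754738102933248147693163971127982843965615430789338451559692236703461032262284068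1124853525368579412680194046735417906100229358160672832994826029120760075774182986073615226327862739420690857501397681361897391995757978060190078393506301430858809487387285110422212953752813933651150209560705700044253470991679008663117636459432421955926330555591347300035960026866522532599114336565607593545091863941038264072837401797106785342820427430937480415638216817762672427317100779628330693695051963623784215782368969542612343749203336321433011843359673441160259270528133578130785845097946586471187151342957192007380479922181736294269348341633075654083346625123363625495922344198049004576586544206153292635631138458501486802352065107061030093466008995140301628193408122255665798952530126881160642643891556827960392595066524844380682320676437248288105709663368511042561126421420976095298310439974004499728107867996696867735494824486853307881521986107019028817205487023256667336468711744850770709089744020638349056971111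7575026996592613649896552397889082324041167660182464505458784065846687391943306963711688707961286437718974058326981587866244610688147090590972733883497447754088994387077912426597828845234310271498121315098650527994278258996372768276316088774394909189307337250114495794070031559418035749605077779981257715770375081767371894504807487106600008150576728291020581593873437308877178286797175808131976268501089160665297618925136152016851540419360585729927492976264397967774319568865441114071710506162384174782778605286838326880801440216690812407019487333064535773363995433961989103489414552696789248762629852700779299288722776653394602013016661551805845501982149595712861581585075619608120838756728100737434734787151360681694566036724136130870097606079530508030320016914271481229026607846893646787406179392264619531075863491231773985766169665796071340643896217715427985829069694449294716368543834253646732567986639965233510437253259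9758705250081480164598692103373344336224687060687728125450209368625602331725738509821920506077030274223965383371535774355048647441008894048658027074342212113314698393046975222240950848278488844930710847459550688512671033524698434846782194100703290583206329025026392639981502444124209813946296601635360711561636107397715299858544719694094392603884352331420850164278085267063729818914288635597479078710260331217482436561516673125308115129880005119878797270012725114124970318684040686776320725597143227193644259886067216445290151235262233989308374327080116460991173805048752474521223635712397531439757113446668779782165663286325658464975095796648398688553215814919040867236621471021583546292672865410976110263448355641311757665555102157535948012497423500080598099999889502670363072806880747624930389104658981940188883692501416004804359914120229003795404173627612936341306172991252623144027751838528999493040726023686151647163763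6758684403301531768376479846531311506439124695381951919074393643539541275673572139727440813316070654951656643191337368375365397461753683480024148207676182490281332969367075844326969797838860645075610078514802401748631889878122537181886357746285533038394259649493532950543280349370268268115109604464055724348773813563326350786715449138919850268212471496987751850625311145675085375471607670599818716094884555901483233665576917556711907268083557570480014262191060132694008220402839122144650605286537349477271673910660635145217643871298619222042524105559904647862120108604794895317672252548954484510794034206388590817328825036093848086690619848535126161191501681564886964323495234810756140225029657969106303013458658973413587137676341835573745623890972946827092873716011390780355476643872734260021327829010930087749656889568511167558023807900431361464060230499932607874890987329471524432118962748719949080101370084610595140051825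8604662284286841106904364752829894772475763490108853775823670589332308663570648499229108751598384084192802650540165349747837705274402090183518889384371107972330839010413780913880088027460178676217656204998581100709218947470436710318614076825601325240182595774763728289690922776040364693956553213050480846082099647526855778894630267216927766908041397381118241296854479527916612912560779175865895477292602791289446118781505382945894989420853612566115373594526887304420928302115505528729793464708721377066995417051682412462164579193818369764748820998559455535117465806193476474223132738163860866959987157983049133619101626997855630380546854594250927211459569000754089891586358158094911217127344928092273340039586549449745405313631699640406156051728706848323979095288460097518738301182400065641813590624805554155171322142452266009850244838487712030449500571141181741727666442184787522743604660735285889638688730476930391064083484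327439230287002618231441969746885151985508668110781428689083373973824210969298572852964268426962067637872992046620719076205516805982606765948147381134860726511560388823615519050616030076568188902542425245099197226754510641649504759633346635561024251353878485836205302236725670405155586033894000886388220490130681042466642794642208566465625634448091745290975233808327997595956901424232284168128250334601886437315166362748526376914563906343128208896745490032502761941603268338732061520449721256247086823901729301658039145971043500786096939819295730942386971793000279164264201199388839288996781202593673003218672384310526553753150898439684918394305182157096288780288)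

noncomputable def rc14 : Nat := (nat_lit 339492939606809688425036604146097429948049200990296586771737200597910042610664645334035092387882400638975304121041544170660329892446694130157130512560003636856287681928724960044735743079109407886502773697264344957039150987373756238778166321901518624653250444239757398923657410940782110398803322174041083419617869749296388199657311776102875930232271376856745730786009897099842500065968615034784129410967038953139534059135603587308755523082143300140863269153216203590361054229244484133365012725103960813689698229690056871588551965441970089476283563262008755283008707513088620368526589159549192795199608528437346585479151289341650739942218565315669547469367192600112152700515204718607551173996129212905705144338583063095663928824931615411658175310355632348209554743241516427631415181129684307207890061254975814601778818456888407811430047784977059985464843148856823431248013387251392199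3800961802191210229053825876707626277537848575915428716604906948052881581325713696951384092211258382738673152249865878888461852324001358333157985743440600976435293950690119370365248196126494012095898155044953166637977827496756117412599978415736467949846715068614575629959630291878107525640157838048806416411258923419078956388715129732807379251288910172565298390600114984048017886740256054652125685079791814791406423952640720996805525214284470718195161029315935366014718679111998943644147662564062053663008348524333061110205260001448825861615832181271469236970456077890950490666068906879483168948137922677021000502276324562160548817649944186991251342955853762827982000322140192728784474323995191139824144910153616507728960408141340497911203948223927237858823976090840490475488094899921363419400912685324722158849609036470528327236861144308619416581273695057855421450711454571830756425046924870199790702793506916112855005484999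9784524019966890710830993114443013469661503006678748635350568664300164912261474646281026213037879794948548340782306954786003963162271523186691597059868383931687150922169930711642897749904959278417012043434176427709422789424909197591235789442298530400584340220271190424632727563479641683581995725745210112773551894792607689144161117088123450753100372411987967771234478507834581421272806464029413617138375565398301276727704703521390207430857033581701137928773940297736548074625618409306052421627938880010078621255726092986958195833327254763620940221450014886591867982579243035178905866644592388213955040793873489108759175955534804374596794229048511809535856450430739071986909629260913867009216105527422488426341708970415815496695744598711227700566967672056421471406929440449804037002848336195587149212245728745732551060894498914469517814914893503136213941415912112672747296254053034183565134450463172318991598260526720225562993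0791801765565623124448011498268991888221774301550637490220805776367863448502962711060769939102061080411126276710852307942233893778837479015232245359421464987586999268528010432983719832133982147659208939092721752763771992465082464676636211725130023230835089300724634370525738676226547019821622118279351915526527193663153583495942347518152910010669276251831867517452423781086871998684392663012666531285039964411212651828785174238772102893550725122136158600024737250282881446417080696241251577703821479417341294040706725396830020795684822301833691256720999000862342550320453848886874447019871205149941400906170650145961543680352884123874765490183567256801962407843178065297225803355966965222766701960109994401831421168827935658356080312673154405163471878997286516538986676579601835767256461442490006030307428096342003802026108075316604876132468823267483967304389268853626120023579774181369651971475013594185185517062208391463874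3128771225191695824432712448926912495472518654991488623778230578740375106026255595085146078555491993670362210591284834778460766741932449095609867822430751343597150689685403904168092158471190674892960946103985153824970170818966108447502670357221079858519958038853037060650697935755407567252229909384852638791229096556606524682945074026667564228652843461767593877347310951537505410846977360911293541028954614508330258492207529840504008836369057765614696497736172254644405092142385289688891555945464165182578549751810474100972800746051552572047352945509803792884372144074898343887437539376435560971025563894682040455488302090512343451207110942768735140434505717894842665516960487115467174904403232615659083937677819732619238837429801828081838819429958331951813792595915589391448340859940399139906444871870993415136501967582963921316832472852423597931488101976512314846964486515210408212378318861809260723306345391924558686591073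0072611379092841582060349109132562834152987879540508195436776545931091237305167828089308186701555509946242015788996645281914599549983574596131211983344905776762986526876926482248570985184498747132881757223961421759288797597843781074501307226440993109020018076406390854695321997416706094040342822233574378277232094276952790942293626258306289955841036229596399284138534879944989723950549833946823908689088602468996899431996404041702973234817008216164912357553829164303612737987156550869800432659315011646393463957591295472132080073825044461590056263093814182381543918472946565721481846746417747901791248852867864876015108218685476827147312369368084204428007859585714124867124680561736475391995251049383389909566987337309228492566866933284245489935920392593584570342489556214630858465814372074706176625733481102856389669933949457253735610692980445828036238312384976908764823540585610046342493194437079023949504219139851324862308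4956449915866649697317327161223378963051077191476099340102418813261379202784320866528712272054386472707511087236725322322956194997475890602690667636537320210906404949743350669451055436779710553622874324456174771180240561679946294883390661153018736347845080901329046348693117638496531725074143645880573230992898401505606626140150010653113819982982856685382144718683215571548086702098274291979069969569257015943766236891625143782091777036107947595761684889529397557175294793447601724870495066797209231990854882051376174106362160472511278127486333133263307272071457083533316316906611459431214783993052074385370300141616505618062161629507167615733682834730069095590576788318311468616885922983893322067513420073531710296884100205453380950947962377535911018131859679796037012674867479009010459294287063240211653636177810796383461800713166613611571544188232665937553713053231903967750709461710578057382748965978772011448592151081288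4187473438416890065111704571518912068442159801593919322874926158543203906327695063630768259934467386075277536221067090019969466022495104467501547139453272701970253823689424811063592625027934136397632111867003451623013149914869213171041290806287185809976153821492873957745297514767266350172762057537341805592077720523855277700125377753549311088211795434457974596279504563102599915586349445350536605519975871460532659698633085300325395392995519942815227654320245847463571405528685717672442672009997819482260996431928436322678821758988464383993266092623942887772223941605344132213715425891765294730689737459146297832409161691818696946518185593983658381937200030884919282294126001124567115022692761060670019054929853763964562364004110943142644209682529252685183208587891278071331189306948038215427450815642570607202897408356721908763569826684587472737837419417994477698944086313195417077314161681075558960132414101320321598244993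9234007239935552955607628061968090457296260756072907009037376047981628803315701056671891334547171645502258113310955652880656002267567587360487769104503630407037381737911312880779219855968585538419042746116717013839739961740268728347785187676796043416364110574165833916024586822153056176318058229209707317211011167361995638653135817591427145462584731629548326069430646480788844691760815723995689199008080092672515355307153746801524809466156369819492024806058624896425637076790006057619653710066720069363167490801104167559050407983056867403670694371805587022112964025854558594556709161318173574618050351222975177711135751965210701600392465414126352170651747269349095130704181374136306282246057099825187767856464402211418809273679022450022952498154420749722202987121642654510894563481695432242781904499333024584711684629065552445057202396597616251988501258725302639032110543536442653555238471856008999766376066902608054146138408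8865894132957290691400174501420834785962738960991524336427295637161197532826958586521672574728514382595197621050048964016006380174401304752641369504044432374825565315780249019803643318951246959058350890703073245561692238805897758751562058110756105969835930408723664570898148369073910793179117526116215424664202663938850765131578063762487241566335178080535477585020110370975371522023221662076511619491532222787036289264914528232883809856001282218211743710152768917438269350222281590802083203444373073520982307301248102110808534534974124201037357645610332258253060198041204512026617839350355885988826052591871458623747676623151102698129668063107770040912626915729562732875418905404883663532188576077963085428448059102223013351815937603100352460092514563916558227652278364823122733987059042896617316952385773464637593270638617870727981105373669632135974972152751875555497842154464194558231703280797245810935957560353109395528186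9944318603405265862954930435226461543364840428118244414016223285930497808420917993067746957165383535051774326146814601250119404833369010030365167853972570527247818255118815447933221174857531425672442702120610537114352135931155826790133971795654217864728474613922458146250902447617867296833877261609362492560410244163840377484321185966029736668077662330732922749531527320514726312821998322520109141903016291944388588777409689121197998505183981840444708668803432733081924744146854278017117248006176559047680412351821517280335335795295404763068409447040826873074943444211343536035372940541776172711000674991001013086467682077942385899322672818397513489003658229381928083882281102118929875851337915088442308873468271509734645734145734541112113469801471396774406129170742085794103418186817898927466636555822902913876169045744597254222550273283083629750678752004774840774815498135781219739073582005136305552675245782139194513786625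419609615975906420119456227507147422111385535783249414526380853435999851317762706790844665595518538845683925998810777035682971396076471340902080251294112879531301379881013445874836135630730866606535392252430385657132773146885767595420742379819397921775778795613223745788286615809235245646430976476364358963416559666069576614579663693609096245674827053988611476679314534423143572135406255207435228820722182098498781419220353745414236437975596812737045071063895728183988990654260561500070746884443856755639350352391950087200303119495537594216182425527185871835079296133237052742501460118221156032178177432130895354378125214940899850692596221955802028034793381298176)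

noncomputable def rc15 : Nat := (nat_lit 343130863578768291885275218512230881130125902121421140705937310312364157827517036218652633289137761396610237391739485389256694357118741595466660887064115211485646564809367005399055504091095724162924472034588169385447284626362339471063833767990321719087431819505581032386458989887398229694514987820455148662085094317086866590529571017870416200169855992877864633743044492627177787012229443952013889664059916584225117332932043141086673149995949703241821296836595595729335460297682128514577965044071362768216655870789965082099176155654618110807478345940971919313045760825316696924042544204638454967546033464791215103731165615204081435740094789964727659537125026324563356479420534151000483307001578711232273947669417454755839074892634458166234863678922691979116891060352973077739304716739815124655695167035906977412786714958299053244188873780897170980179813919124036723282805597371369057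2171345986807860966133037226575561335061591455067567849080338574487442240668207885903404440443130497623776882440074377243658728854877701366828932118851774202925710488040879051479614349462388489985336143481656844965842384216977713477343910456800823547027691177557415855286434184603439677275623430634863238298104486305481993799037604857991250049963368342783101513560440913056844684349808476877098654726503618397203714506862730989381442874497318032737068157146332502807740124383342400897854139950581334222337091213363098344334093986663099472215845595626582857547555544371014307010445525364454130274533708203332860808599493900671029037500854598940547194037768140973470062844690004167115789321926501698354451048423629002403077545556814673628073604041187683554093587269117666560917438285837823202715861883465387980349222195197934763178977779105246542880683186394418992133569264355805615089841141331863546558545953375719242126669655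1558776145005571817900178183520753781444405018649149610244791513159733116040490029819673070809105239950716723031749142979152034955281437290573626107410982508749043815983977005389882322714333184194704338714365899081197899924880959773854234900255092277890970715115191629552788187220229458370282884149454313662696853363001906589685099190538233302688015516967400450192081123688695669528627404327495234475151967720302518766263287613851010647848599628290663605279401516835580415790194137905611335707817631483989591042842857482812511508903350165383484531139497857056021010400865334174006198298803330346029876651346736893933225661052972850557775348271621836485316849867142967780584233869878914277436791131241070952196120680670638891860505713306047242525943773645254022642737708526934809600823245823082454660606570320206476787778874086844757037422722436529035061156467361703806461704464152875080299953407458899706784643654903245838852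2800258215483504587030628441260464801049347796007555601551341712707669732406186336707897966814686521649478648923655289566358830180720599551316772680562192869326828783220022781075980334583019583587605102629601088659722043464489401727266395012509294159540639475083768268220124681836263271958090916397422719220915522519925207805389326346385594847114995775462110232415277502311247640583303737799134237673994829470161585355360512044537049576399640843013135389022220232585963748230047051646774761935365924063215362225299999228017043850812465907123262393098172836585172895868170007319056464074531776352824496032213386309335686150665944027765258963309728462203853370021651975479863839504771820596159611942388912103790701933649493576677625581047195244973482703919583872060786840984522220668627747467058365202483560791611845455019237914424172588163000339341804543693974151796145648386652869873391619110946093056490275606717774002130664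1949559734609422150988923329889710786844178630215957521861515328924036823695082939944233479444845166563088382482518828582218323820350972536393463572540319977759711354718174659051982822993239488286408579164326493417381283901549831824106192143152022032481276343694761329146138456194523718594893131986176111020304248808430561495639526202726525621341915137474860088952566678763723047682293317897717333957973569584912856076674987840443366537078643611252684146017786645391059044847941597189556726625911024389047069635793666626872277144718128115870461940011429040753600925187343925312188457022383457030016099281234991147238320674874769472610537760534180301461735244846346784409915878823703423403773561816408178261341585994669185783003347119059347187028029649198952723455779912222953723726680293997466848700404037680605889823682830871351012130164881823317895931078820584871033113496315982183569311897556873542626329673530441225373535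5151243010092009409330535906575774388238069495771092849216378742573455009028650276466468528671363073208917800517737857047842367523561801250608032987868138131238039574249071755930471553615484171460172988457720135554440520248764612601269882823896237883651599268473468153198126506856659748003758044534575741266028630328194688982925660446623978704908274972240566330874991792417670049082838289953741181346176429217681571334223721144294854801135049853132488492864620722485396756453581446968051029114242355942397718409005960954852872765321268276783492427083561651472187100237427633949350528441849129152104621305738438795796035229345868158709547659939607937767968841242036275374335058965528543019463126679268500208110550498989825538178130940739992059912132531106383752649524264582358624884303063579204477865751428098148870285400293518486656497781069511580621241736189649023362127724247980778861040143455538193458901158257414895947092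7462582133174463541404555596089186077573331263688631236953475668287885647262990914469763929402369540742539194291664050092579825038361942771972587226100570135741029829925396362629085163384607354428667789194215293117536142744330154319679775323759190929602864288881613695578043926649513668584349811953040960989583438407133359506057872684614632895765640684920418052293284617446552002102756630768517811163883202191609634338061219706916085265116803377141054983623293592615814538614851960331348637729097796216512190783888436984626015191030189076925987623162405398125125212803473936073444511898181708573733919622607869481459192853758618223503601797557073794825867264916247560204181706190943838153612567556783072498459136825795479863437648836427985848283337822450814543805778071680599871094793852530794199739121086129348219453240439454539383886108308251344509641806833218245753451693026752236862151186803820519014066018087996302466002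1935460396676221085269400484145194003832069858131473179096957003808053233699484431899051427754188530372156256701397613275701701093245096241963455513859592527679631369372724183127410225604785487377762871723173439633712448952998740441890369824015165274160070143995981669861183049444822071484537204020614644940028139475407007822909018389036093818212789800228631139813749140400290116596656171507671554138945670950062257907953193969862817232202564120785988286048743233251109623682920176084698899858244470351154675023508320713773579427945053692760001946158585193768748757323575092032706127322867851256976212040471899294777223171665367516481658182135039972836541679981847499391684671394020336223421880146183333465179324382190495273419871100025488279945232015723154573850922169155359098533742396867874504269389422238496908175014585124675029942696550076858507936030876008607842090987630628940739576389160117461848265968118859245112106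0454887375059663570072623204799217650753631134482822114267126803762490147692458907467439836462333995635934570277500615371052064666816020113566927577375151728773516103222695173389036894912134769313448921952221944590496530460084577382377722292961854857899380817411647675844969511327973333271655067272556746616564557136637684435564506955273243933638868174513886427818028735674524592585713980444917038896568466654710700781148941723333864854944294754239231508891330326762841811850016941455360639406171496351505736859138933501135248198702441674423250452191078989973455379106337170896364087008369661985119772080097819783903333724730629596015870061058762587770586115460712550370125586258488775826333985395792344222188699088150963398274269721786999679105417789375697795270178644625835358227442305748529145881227667436517910316662909970513517151004388584241626992258438015625848813527686758222516565066684340326953725061664289570637304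4413636164470442506639353406670004626829388202728509963048997588544710477321087782051105443129213819267560967401429663698830221403039439999674572679975334448824656048200772421939021069832877713596711991290907165665834561997620773980319191269273647161518714971987362967930412581828123107780019244669486565606340886711259867296146198100900694348128285893989372127294270366928533887593389725673331862503955978232941619760778818930506150527587324641648860804340463484614492559806108875379083366694843187711941039978571856605337504127905706563545195037083780367227624218426698211227270778015719227153570968575724340219806408694676293373578709776771670535710913120165989069370292410198039748834465848031211720122193851163769230166850447260018374914199321098085915583930595454480593044372416217655257905925658561570473898897542935224497081597702537263239335782480184860365423605997576509641283705875801132486463944047871468460269689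9683295916916506288362527072625921461986333552775125072212263675578334285687597923565432299240779760756727042851691313041412994391987780287669316453344458610211836549054606768652872426072238320026745204472775169655571920567948343506974212595246322189876056075622638530186638689753001043353723649252349389147402363109359059185075878393916246087868606097903798469785342469156793909311845806755120672324352676628399683638586209070657328607066117945509506786399703068343729949201855065550661202047862339514881408108331507924930504183416925441818904792174606549164091724142397977630527992247280137330418743182232882228757292801731934430114786184397972339879390821703764994962687053641601788306484709520525459238149914197207378017146192500916919254380763679177521912483472534017459438781960728420838077392686000114903249716373263747221031696260757342587272905622096160903708161158605030011536033530887147192781845343238737122590544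887961728295606815691813825894441315257414891053539289295315815509659095704596491392833396786985457159011024045683838113798154700008612401623641750678356076685827996583631484532923502525906863942871970139095982537813797279434831507161453544509154244679507214751257105973679737262905630994935423518743908052821167111084632176521813167206844601689979407795682127896282947492240438045608966527374263840274136407228251268131957299262312008094192090750904711725043539997029107531482596316770731104848925128820581342389450873793132210359576961171320216207631962948212329131543209605269387368821020842468220700666921759329799688537492119556283272384350289565297844158464)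

noncomputable def rc16 : Nat := (nat_lit 346738227101093891545158395287055926944704358793247397882131773688191707134225468444898278075096189183168601439616535822171221289541532624003093097448860494070444760168366572695202447793969719520948028296655235266509538057818853847061666464841236754330402345472413445834892930424804516312747792205182200558663601236402674724237497138236470803061947998260489058055175684319014675899786428949630177442341569702731697960108564975125718679020785974652493833111799442370865372969349217384731742497424918247982224541155001721965477827844621982180715868949706120950905898355965638430592320329065893934595598944738611175863032943821833471289933922761315954593052798772993080024361672077806342611768586556512151427985131734805623633051265264362995407724803099326151907079349441140684351276944922495918421501056603404955008157338416701765148785871736061927182527388649526190376640172895931628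0262348282632001577953652856446844801255321779728970298998308545889132074125128387388071105142113112214090370249796084596295207753666101233353605245070253471842767552138204190495708235531282161874693404288960992689420015783838128707524447813348759256745600669654993021104579561347120869293963605979671599265461072616311566334066523338752459700137960404772973305145515438795153131731965740819503515196486254378985472401915652240262638404386149501635810875705164780798951581426596315199952133277903266915372109900989026299175931527546980158397923222578692684954136008897850545082232470781610194317697780857876725346711332085022063154906144167817983436495717846255989886184503948914981061136517370608612117117986903720368254821781245037857320553039991497217560263700159141281332848804133523639223785175059845272850663030714827123678857987593415571592525365671031838415843827420503330459030270912855147366497636578634742530738070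3796443694316099811419951421544183251914018691450730757867001497537749639156898096013503556000074276653220317747898013611492645442435908616722020162842146864960121440979776104634646392430885691315782196399056392742762048252469591430217171079507270850552543791410033858119789326244579697470548388368031233293678895320649707642872236426630348620513240972014576345327874478474228716131378601654872436160831705733956935352731570023521952230654001175401295529252990117802711105141509763637121583467066499748589850964004804847755295468729463869171833550480495150500953909432572581980629680894603662000741400885141034908692378326857880046471939215383304135299893084225899240559773428024997285876190615217165126553977794212170003520694616215524688988451507695506442449562669627475584937804265535331703711880116430550789619094479940679913294816845448526666955273306306593175868078414493261448351315583855880423506085022414792601060382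5591886999731124292328322595280844624677573535192879507758836777004006622299855132936982467288392007506993425744178394507857326077581579402579721348370004017496039765527836530603190990920072826912286489923828785984806535774046907406084829270142563767908659012595263377454966326201514779931182913299352199533029647675996948092991150366129008247216452495614087655311598726940401400565795751140755309253426788206896038653610070224877426018441693383991556869442588812040111983602157345642715663890192372558394180965856544962725310543068668839346425634605048377105310992235361109901417766268958398333934050156338751102283624550187340981903523827873532251169216158280097441401881675875724389386905085808416496168789191203925844632356079218265288561253186697776986325609924923402591580574171388844919925168069364192192301604040318960173753705812045867423295331152500068858513166062269627793944820109736786012699539176542669362259717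0051725745267387526706790120523367462798505562437258628835479360188136624260214528583985462407215100199230263121008706684197477865305657998632808845428496588740830809421269293751470619323917654623160022528904535934937410747656159852754161191751739432496458027689526380142146215501867923116654227562451087160415627333051019327062291708208669196974827788073344601239958925860459882949923889219557189626758410804185564562994318389242516345108191841304159552132124240205596527077171569060934081296779019803582826844211756384146503163095349571095918676214049239159616213731113610290747121915054264898128742013491280654839080074762355083293450413766282358394086928511065516941175674178676642841905712966115724242382146184152175058728671544259052571017969948496755623858955446562365267540844694410774863506033290150600992843936054811011155340142820525809722614304974955198240425273092966761833214271735092287853114788480832469788670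5305526607694618793743758116065463068882613324791096747616692646891387437170805740080375111313815460864093879092634434367331968924771309009412144877199694890953412261692072933912814200625960396409667847110116324025131140215098570563823940986521678794492752172273610054143860239925154904020131114756013613387751160567827705647945020060538819553438758218633496797843392322179590735707381640496937570554328256812136201174811946193343430630798774859558915204940690939478188630706855433915008859411375034179203334280710055482776543833447273519354237960353115689477425899161779287308765146998534515362355072483055113753282364877266193141776660197845499912261029249842725007037438411879972915748419356467756879611826574640831354008455485755286403857980755330970609420577832747779943751701887086977151669481028394083384655714269057824247928749079177080307402412289426120825215061369447975237119128983210675017875393761338295213505644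3312011049361505731361425101702840795845576889214220898315484680079437702966832455565469076864519365031704921982530846144678944214372877962657202500716499945135763430073780809852628594678645947545664451715409363365896442529869753528973417949828041885953383566524253843809724951050802757731863689270944227477122146582798517557699207149612876206242650033880138538967872882622771137545479683197825665130877536442923608022146982359412560610154197268585105994103478723504937031846802607033115624500257070466539622642309050138120991629065219169768172711045403983305611523840428209393292230683612252154797537884449006217852895977864384430970965750052221309531684225408116516842302180492294362516916717834461326527935153129367146636622802134931879290277971957245626755267460412668475131784048904591160731494749066502242355705637199480551751970900718312591996555577037451831964103936805007501028208700458442056232474863419342462806601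7351443681913239289414468971464474633041489647770723880942106401590346209594891816709694404333052957179009761746942131545943101277869811148486270390456352555287312027725600898389256539276014388313490073070369122777430307398734775308448571761164343217066489543417139911304858448359430801185958867399582977620294961513524504890434601833313729916664742370858532445818738629800954649861426316054058121408337779013071650611386765957488159302906205697462258694570180118257003575553674592693040547069186340082473360888384566734901005477447713680847773403063925782403745090327136150234053435572591582464537470793405319117173152380556349691107051195647308470520051565513000171602839051262028231835913950836177601232634071542859670355089331302335312934181310238207799174017081366294343465733169761188207488029827787596387218228116020696586294226731510687346082952657035907960169496700023586970896626842472514665842916397872661692766555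8620200333624794388359407847969408077068724377593896732846896166252727478342083397159264922291498204456760159973072383542073025180556817865166774313810700171099411296188267513739189140630759333677138524379132816777784787852282236137941475700135160030870381033081733511357643123490479267338936451560243876885905857517329777472136662219783970929618635322406862708528620904772305504209534705055847742010247046025132501610045364004353457841162024915585601946987860743509739589009382794274490249504453154710776855578684734696404629594671077581769832159877567548196798449971953542688371612188775481260482501993752686433497370016266349382055317937477589746172876127243649948647398348006161306534434784054784851569554609755098152560045087391245132235404147156996573325420331154280178700209404955844490290680911402409080630147352794244994066616774491059193566882472819253690759028745451693619678978282011373070639146812557906960153712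1898890867478679814502342383510216925354622860938159950443734403984198375758417676146771435140126928645012665225432418310192165588264793223939051326371384113794372012332875079520498296907972331654346310578526020057323342042952524211754932593264414748681990059917473020282696187868718934287412525885406787647718707494933958513592192697990013472069989373959463342738002503525401762795819022452551767992271233705072588916355842238263138539690151008383259147819302961341592573987052642261599824369373570366799565332980543612541279735616829825912914332525380700103440675830980758204347474412533049345494395191964051818711034258321417908606905258271117801855306147900811595717758819233220418190302137990092089536099683972108037620758933623558275269008448622801299067150266324419474285348371723608878166710593531616920730750455165802265331464471949184860774789850792052229524307228232766753396020538531216330970317184921059729825411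4943839514242800749446241810594797969484637674798865887823396383162862640071704512886015678785862172446228138898352222195085140793531095742930896692749807310744954909045912842666272227193470080391526887864556459403744387764347320728923593141204527459960843401892511793691512007192966334600377155455229623905229824182417393228165351535301591066258342653308126356696491632008548567520875270326890079426855149364895874120329021188366882391173850100127299894492665216776458881785057568094600846903487739162886491060533859433545617034387583138386243222373016067089191332711169983357700557727699110776421057153574165694581091334374059327644745440299832778796401358571379731278103071157980201358074454607575411552678605826610642758207568922160287905105950975126638930234652057936276928870511363304803680948301122376186355257099701928037048303691718738559440228473072150713277506761788831493494440206887726419544600980187575235789217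300003335122324696666082775404023627148257443128983537199093885014966919999831435385717085358790430522979571442432300654699571983517936540811789270938172189072013859134859186021096409006037475040338230020689567958375120357418735966929677464887137846978593449232206225139658817659487680230540691722375733876179675521009096318225156212827312680566704185871394302702462963040086080996039720692273382025933317433533327065244071285564176382605837061545976397715772659667445574319557475472479787621637370472844604684802241352615177798948683968333189807521824572808522949098309418073908918007249665413302986107217966811141960201867050718515470659710048697731486249385984)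

noncomputable def rc17 : Nat := (nat_lit 350309802723959672381506256070752793505392246649638694816375972645085875354729525384434867383178498084881123489471636865763654828408857150341429290933344375342349866518627338455812543361050822066421452307468108918103856310340650229923038173629371670180134132021159988718742386047115958181248134728261284972118462452252106028920909852516645515518195490329709791425059434791638922533239522915394781872057683287162107113076597524738083278005297784168081153250242968984327493290308256331157393603149970642374391992490871333547396129893489159828635714866934959066821343877531665243189529573464903154550919543171584691254608900454702339059026104608542303611171303586167861138866728335893373409320574623056894901448821740048532486574109641141920500483669032872979950199024297370040608653334845942810981137825581374271795225210978873816601578095412636191567880231092142721341122279211678787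8632292782940930384841876849439115167197015972268870992353994068859894385045153611756757228590464283382119036902523793093967349796453372284436554325603804878266337084645931668010691425818729559578776211069376552276418627786313296526829430623325708383489611691301856973329136117962414551739990669388869565922468949416860726452201659505687835197258528543016004056634510796084612364097805573900505786409538844297745934794100525200650027531653693124761542605127705681062922231937987037770905460471720471458655226373509585026112699364053152347423353053752846019476235006339567493099739085047819574540446547243080673005530139340353465993659823567676719628672125931051171927720183722935719898678253745332991295274337433877388036212864340496981330084465760301051288687130398195922077588730518835216525198157020507624885727109003048697477423248920955641321383184807183613215225499511932577608301307094268890810586328412443523683229035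1453018673980745477864071346457328184938324879149776372176474350581462793217383454119924714650875836454430719921848490274381166405403187360406522628092259801741089287815222237851250508082775165042264142680651632464909236848501875361435237985716374133404855593927774321831328094005773223657653658159063337842057534691462251715559712274737430953583415528760285621054953703372772252036553569444280959218487854453018496933493399929058298814223596638098591715386061069314305931492493607469290596537991465455210803357054451530365688634564264659015842576784178983133158651153841195203164509032236662197143639011232471766730315034359838053270000380298673643698764885153639360083929334170179687766537965899483864622550224246489637163367787727286552983231885865061413113635233471238222138671253805086123825991814297990680400910995292983440539999004212798347336269161459892117570785654530183696280669799401148667704175960706594724740762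1906470313783930303928208755729339107574299965303139550597051437427215664132475845794393523539009167845241527544227751396375880693857530425317310556334719444888306369255065670837887662635549049750112986763245101059288837163407694128647521153409362834717692429782707182102183808341672326179038382880305081447819130970918323242657373921501265887486145533568393312038713840108961912531200001701953088192590454892246144669302214043207060255861454024098013292259645267624504458885878750907358205206178002575258233349126628277708099086398674166375409828712627719375936645654685548483118371987154708034328867515396199824749926600564026247518656583247767549317965131580007603065441504150618080476769077575744824205287001932664058676085905748438625128206777658874445858005944368881095733193706613212827986996748249293445539386481524706273938613691115851481610293288785242465223626640629698908050925808250533577889140955008509051076471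3509031592405847756818640508365992809861664754567086928269649923228111574345597584887733768615001814544127716574319017608793250777006822239057021002422487318043844516431061336323126203423315396658811379375384447740317074493638296194366755748770774611141468079592877785523834682537070343483020284541562377384030947594198744445524399788141289926865605333236705989742221981416118984459174866824784393317075774977344881662377346231859988252403989620574412493004988025282360099654778166391694755572928351810941900762356763001917577207877222125967564778365319580208374671234640872784139153999649237344588204264893992616174842011850418284176102589683195408062017865641417289740807008190390573976604463237441059446373883826319049230211542521200064464439861692769690816119694607917895637183029744427601174718682206900087428908221611647620332103048539553022282955321091036278778227232537826773025515923182849298779215627003553388520165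7900743746031397809725489723301965455640306510126769561800926115063973917048630839169542139941561153705276037544503588310072973138616011591798927795650607094188137965509158697681806387187674574218270669741042751014565539139082261190420221013555604077093321017183824997915308708529959710606346646711910038792673642116644349702291419109478739027092078773739900588725762364394390019745451604241148731006914724738632244035816138002711007354128816912723040760831417546272830335665979375394953113427516519143648036838661229576070314060836043153187128244751437392480078302851598864491502729880674071363657369363919468139091397728390483307268456790392156439182145906171243502183040906736175860120296657853776541795937076824377640965126188337751201171666843444648599341558579633905491137048193483111421591333222642132741920242227472110398665207234834981529266338430060150664652458608275402754484988642814030979825402687895597872239825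2189851028855866151231743747691525135367188589233468131339304286197904300185717458520720314909072468578321778104043544212053657464576678128270625665368278735392210738876994808692853013774949704096331895959049992835449409974482534543285641068200754077576384361295204490566477461699136727140875831103067891990089573802143860299280074631681923129962417418402897120640817648328723005212681858956089625584810311969946065759239316742186013451073690385849881953347790108617112253013540325261662904398754298049257711235616960174721188753238329609422871913204918852825563702750342880154990649592331041671047311793979902802287981263335593951140293170527354522665613029078449473642143743485436129363043286850956165447266983992580136900113503968823500764947561900006635620750391264243787958502894247346289213642283744699077764347259730466729876794673838171185880513401859473565995077454349111576334743727870333366737845841327401393944690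0350502000086486846579227472497163056595259486995881536036832745682354312913387465465802756464954885445935742783849086541990451586083346385460965206705790987343873209001368537243603165521578527259028833024354145137833123865338117887754621086520734952172602866920724658400416138593111729785885430368754191239286203562170608224708601727694998373406523443212202611720123323170611875852525299211452719732711936801822822667803869451352205539123966253718576619854408591138091081035646733471965310368852996015973726283350266991930106808391438105068087082229356174952092995252137570989358776163269414206893308737294684021052018076175627189505848688473045184099895000377042570955541556351944866449309770098975100559271251035758924108973225005739062708281184694333239526392543508290224665996032032111218203199539604590279175449427129269040759076062865084254848372203538775720001532011459820420418375055933845235203935990046215712124392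2249839680716274662737510815836195023816907023140898795708261761463265850223716593694350463786427432449158190312435911564678148210137221278294727208222619451448822006631400697879877099572213395237191830233656518065664393166109783584225490674823479329747831461666180422149788263679088484976402733383203242157473014701997206891570600954716291243474952004448497409835288817933345030350975839896641856359099618904059940355004118286266317657962231206705377796233284461081096532644750059197341445382949892059741150522320058369897708798346583622324323433659200359656264950023189427205338891012240771118544876673538026905923475361566941914516348771680460629137269704451070634398400019397111431557640125709083940982442714628070030804044492538122808686840261489812620505245841191987787363082867233530802718123237719394400491325868096591925138570233405448174655027172132531372096556041677180564276430342156751221028217579474482674607029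2450794506395255103468748957002138205514385096827681213205537585801553275468440840770876092160100360787761504914511914317947138969550249422864902429752634446685146721246854387995926692651436053209506702997749492702427711888298002413637070589299930447543826060159923559515934501730432479933246864401921060758698257498844460478733192227839870954280359444311036759653662454614159028516244006718480344473150052589110470812374969936277984595082201065651623567462374740540876071311173272247961729227070488457805487560290919818675245687372545935727537554986718066913368963591228093771705170793911982402384354925940401746842567037382815953987249516887920985405250568566496272094394380232848894674409752724882756297516462011712092090712281193089263544991359174274073021209497014837438566979462654458651462357499373969171987228473930733636885678384453883160616960659920933095426699130111852135122960267113344301282976182038793031531935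0012280264051153948423814577998973420106966346719744635531857898835231782146996503432681805238862539235636579632613211086913294738334496248060552432002169469504214735792758895851531287781375463033786576066399632332962622246658022354508273017105836226796610907620004410609833990308361807150991872650297889164308105405322466601157650247522527620996747529660586602454733529548347390181061686365016618586255768810314987774381604786671847619422717079849231304747978502070732971548401799971240395445050487444470343761268309243442556726087265187390460254303428318642538025199854619869605742226902638819957309866856593832083650412105702110493472746903289960635274394644248166164521772922769667951724517221700276367443696038466806174460055153680144941857147233757480726680457670449416493021402830332140388033520854265230585395611100016822780263412426027793647877874985336705345567108400596964897663589389989448813575942003852090285217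368356789770774530809621729487881564921001279460160375267870524665201372590840466807803461984627660360412187998887743321295448164141109361749553996804476290515809412956799732728788684245578786687495160015698711810964471872016739196133987216914349256695043029648738322816976136651351626610055223326889151688015633378770447754837427801644127924397810287322662149847234697156405335832878536057645633027673470025049540773531403212901560114904901474826449938656499800321703472675544295781341168820815251076687337296335462270606938329221852628029861157876183809669970093950721610428155873970213922523743982910019370218315642882257659412572385764394966180287580186083328)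

noncomputable def rc18 : Nat := (nat_lit 353840850110956907603823588174299262960324169081492757827754808244484969201200809123747880577250024670714188734098917709841570845513396052569917523423313016113875113146576363802053463341923299801197571272213262412569808593996429192164482287504468830473921253426428323714408460934877337243050237317232134615439229803252948640264043411028211568295938720707081678058063522997703956156250796124217447917082110519971566629174969354832471080654362510031823178994688530999000847212632356915203342774550196644572127529967056206591611166179913048358684518910397511406991854407937024889603824151647981888869845492105013980817306926921409795707411079793426746932633856411045144916085091667195360497477934885366778798800600284721845057209718981186536095706589577628014779650791856992867917549388542995176822556992758125780305232268536729260229866698199753602513349620389639494517680763910643104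1286298204780274534426648785801897473697930589782412982439938582260863937632459351655463346148693101646048214429509344534502093616189127980202814990992365666549566197062163400629087226896731414717965487339489343356716413520376148744261358640175692222780042970950320871287878515402826633093524536009241142927584333658427319222859179712507815332356025818132679274069798034519093406516801992457636534623777660488187172666704967915859895017957393898733529435282401983565473165638141327245448182639067430615761368093501399697831315142191798033214423824454169391168822158020476087372610791084768552855563837530317961565285826377713010862371672996532965939062102311718057517284638061177751543738349720024823113980909164236508838914271226295283253027672964862445863745801029052854972262183067470060460786138700088461074293000464300651027678526277469154526983488254882919240380583360851296901438142678860574890750024723386036699988829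4091957687241282301031402545612578881272652730446707701115242509892051635286804218726884863759527960008035661054336310960856693226841267206999257130173177210614413631267444660144108358440022939234648489086898597181962078901338224741034064253581179686202051414373155214079840631298484287034974957044968248552651104872222062049355149424444193241393779513038382691469067839327609838674927074015611279825553602135958171191543785375368545684207103746542973481551088328707345911630575601152313059407377484538471833260080422001871777608626255488221965488778243461964932504055010829048754444254542715981926644681122763187351015235383689122238525280755263997252708849796053335147191748338182625046026161091388023237589855925295039775876531054406967257603676248911361060576371967100779155649289544640436956646562836601329379260154272055813460234086202422974728354769218954474383179633107077920646408853104379042114406611206888927424583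5618910596828578622027601921533065669188627001900055543779610054200536676674135818879097002795919187868040555624895946490544741455481652429657908253449802024553930138913205220027491058946158347717496056153160697246935738829796479631849761269059834855834273216322716435611543307132692332120548008123276876894505355122842892425199814337206364834691524651202782662501717962656487835870058445681775567767144431015888698484192907244832249096284709861335086763206095687742439393446876887279944837984609618822596523290859075006511584666432086900966536180741944030062798104435543305349718605781546174522796048692360307318579596637918941424673231945706950744550625894455038371584823768675806201101625589144445487799308872662985806140009596262605622724485539336918718512629023916109215953209967684218548549953911881814643409710313020195550166046293260196142541976488914873553622426179354609690017904686196626523261068034912990640507661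1882031810278149051407586970654670945884194145206865587976920920728385609554646403249531052865633117855583042722114632102806637168528883153061018357544602502674442214194763031911228624314754176766839134029084164809470491458796479943637087156023073772125193006564645160857476492307140186662135034195643976318363124624258763170025024084266233948238064227284580340865850842881230713691591332697291337434832201557100880734044306527232793197038573770537201462047679833165520252177142830737024502550291449481288786132863440839753941857111464863096634313269955878068115745747443013918351683020626237066285245486211354920924805646013765822266459810139023622723497069934729187999916424509876080933355638730754603991505689834838327991245848723682156647511915998119988460007824378763544052596195534739860378841704844918734088611401695564485443523946035596251429279964852544553460674248950316158197605269590975696566788069239051890030820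2651536469692211288560108253628939975491343155790811130420133080156897549238365883251220969700461412583555700968148678973102333812595609651768116298970266835298003643777028785472010409466546611599993194122487997585031549103230433639705660180156480737189971268910804473304043449347061697315108384623465254923976259147904452960952055570538627849752139496954262880039837402743764392002040257288117050276330598581824711369552071478398774397305147633288599972322064219007992750669858608342107278883160286592230965385625794228820770517531182606472054103933102961547209567946497279560252932781631766634414161350755229217268154719803072707222968494291588655174184514328570834144150199079267749354909577880325772332546240375014362957359964924739990389527878866247839973657702621210472759099165369285913065779849797939304321950058026804977965269030842855359831248393683413313522382755193405099810217422560199464365970265989201859436809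6206101400826537122868942001355478672856866884184256870474807376484870996110240207257248440904994829119232113361165952003035627518951068091339029299784369712659090078891479683592813295292401790158058201201682991932133323227874611758153313864796522901086392124852208769169684470172706082070411449304724679498826360164302900311976341771269574377194396059867635150302635937300934573642393318910468123462744485722606699479325398287538028335926358449012878649327711109488684100950885986174882238638394273298635969614141790473942091192043056285264848141062750348658111606660829181849530998256195538575189668732441255824815301911420830229511952621676762159374819131339190874000547226218335687918219341076394872902876142797642874708482111829205303191525947150166368355866223367077370435834191775251099953616117886468427211299028330206558864500039417934459933168876221276695954183625117570527278717915786829443722746408852270323822036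7147742096111697288020446055235618768362313502728216363970842052218579983996225046532635339979871392195182362143455350871579865601875268193989887442049776252080761208951067493921588461215627872080651159646918413632355830679091523181457243140067438016771009829953972987584696150323632490037698504798263282700062551916747889393378250437898515491554131653919436631895140847880441460833931234447165348922570093143166771683450183011803268044079283115893861616117548651174018969217189901747099394302699681552653481269744494458833161312201831487015451947029156026494503710286280281751588365876523407606196170934622648573719778656425825209646452486931787230376364702300911534248484872099005617837354924970806456079453053983430006621715581150638534930260648757183067626245879953899739519485147270375062408898264411093761173857918659783369980358674987678651691500074657607536800085920594171868558847537744101478547669482347734689897668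3228924974598590136291311605846683823994084548314531452508993522788231982592433581973601214379715308480636809321583723057639325829251611382527093743652563581105917514894597336878137345101206270713978070947898773190689186876186179190584162724163672896370715160042643034354449386312572425687328729477477817581271692852102376298056611430904834013250405439522720739443751275264374080207658985937772135456913341629670622799076700178503666837785707571103889863764798262450422601812800233929755773725826161741224620948515594941426242744490539511635888583659454084438720347091999407542267680764958943531455709781587487952325939482772161034332866820498496622726399687740829038543541883728482244239474494265174273341877799693690921625667693717933797736367011092192469843758599279408077803967609214707394725938885182587503979402997188752011867922625497597824308380347237045925259474137070878304332976164892416253947575677608394054134471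5004914163630261314066439831456647641239422154341818438326521349166648268595284405873597461463507279159518037041754623609401538077460668703857394306838568115298050269149902415308748185606490184870200450584461725076279265865810660569330549503762896782594893494085816890004841180580131597801332566371351882544541387975985020330809503582574657971550574591997352075337541818107820831305665210231496734432534666325118367455546446072214766599979484326212399901177949972988927439995328141455627153462363318979792958294956162470256495165740965108851460315033013288904183001281309615171161415526143847136530891158186453464696728588445904327863790707187796930511372147130389784716726039056432793953193751960675440395209382019139871293031256144667292139032006271349710113528588098750409508431468630063557965494470622859133792710962878513920011105223554520686798875518915259355714721055729777077265879230049544328996269309669613940695585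9361715781624453065678913334478942912088827866368115284817000885942732941236574081180523647436270955869123623085921505649294941794215933576298346154402880034461346031439140083854823959622011117525956441647964828281190742385558372100865802265603761565112268845001597340665115335343962278893012245458656227517560291750127052551155775163043326863902746126899534692895503241908569945491440651009533133607360577609061289075368471571857499138964079675603709461278188819266389390984827838378490530860851981498583966821990222952142329123792538267016146627939170803850645664269395616353275238789005245282029176702989732770454764077680030013017539905920568404335193170385733932839892596428902087293810245109108435609675180424920022169842264663283711718634998981785188148487851366382245198373888419557793573605124911289511577348045631090049516415673013404891466704611415700598014649314141950857801681281738122136632380105358312127372173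335836089893183879575829772717122914071432379219210530106204808941817664063784524843991264172251912888420799401050177662743050808059930130413930115108112024960503102889808431276292309212616777070694375039303482929146041048496837608434988217632114754084336075134142074262939272507878489084631097231159503076451208126601782133699577761246949920049188479726988486309732618534323917255857705340821129063164254146104778629104422331716082981949370774790911154351960178083026529264435567537157126090007391028912107254792383692433476602596312850092066551016093666584284176306363336007921198840292179742747718760973245248023772349561726645733234619467497534240842840014848)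

noncomputable def rc19 : Nat := (nat_lit 357327183967738259940785059943176427450092019637773061234525534242701459741945021667852243222977184563092388202516729141565145967524840526529356804635923428581476410234219287945177611316752557198939306146823033156710058919748027591141746716134742531792010885753293326192888408839907481690219507655820277970856448869594900599756972031007108865209924128591968149244875971304980417865096297846071738055649378086839975536542173410283923601800809108233038748561053526901273851734845835958965007422778235199175314194901026637250776509085871018299588010961388838736328364592744180577546353107804320105888787281833414400173939048573773083886655628107119613340495162180866703303179322363188929686778006151296807063767613721444028871298406810058074957077433112215174541953794533568397897294285057375576801724229665514501967826220916067958678655630234277680007179761071864854881069279899577395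6291273515449491121728049628949410029583915208416724197773253839377261639380033079882488122193939336929454973637410050974771704229134129958394031753593471069972746166810544737459219893292167909625101749651993289386172427044284123687492868379469828326551484616356294840070618631836795488272952886449040192085337591223116656365116592079864953040822502136656099186734604713509985426114221869170120167252250083565698277640566510230956767646711632243744963741133348204248018055024159149992921328695943769959766674113891612575635297834361330735145767086796951203414110575472120248485142947215191650918404086636782679629524415022301137499927403677317516203425748991751855515322425151301776352897640486567647743353450737935651223813594917317899760974367479098677134743272954533693083902136271986253632587330384569871769298912487102168864577283918161726569072130054364844456707684706693071592236650730160903450088674844068819222786794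8862599405301044361943803911007052417627355251153798214996692280716358675047182486280132847576056234966851429424944397319770964146576078318423490123929848747214211229864597313736128396318668837465175197624463712877993565610901314764547337279231421304314022209675100333990035897235813193920940966257688007637021780550449683188096370299100019963954859684721781636752032078768608211875820704766997669754913353652729098107291064866694575350106837684726829689923020079212016149210685066156977222799575241189543456327663916955189532853457074891732169145376899376044984892985103189626907856372633217871640410135865474810979936453712928218253436693557157750197166006343557393981666014682151405990099236940020727546859101534270952016992051047022109030315224668992736287285807410367104779511693433082012628209646722838396278875571533565564482857301727315811731949052587172909428959148625432698275252512743317482694469480271001430400363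3840140168725560017264368584239400566999338221447405886140107955639731557633943819604744601679347309511582266147464915913360013419945935930408437697177686380454973587246846452859595028277413426920342964670637246554669773072379333430658997710733916140188319371273432979284169912658737897751831857884927763474328397841017970774270549002003711229818109694897566120726462123590254140391156428096800689702212868755938832866755606414862209104633429223678835970433052964551793390707976376657156713996883993814984846111585816550925017304750108510171641113007435496518536303440261170695911913039314430783932675934086490998350767944143844433737448796123815526145881769412661515656076309710338322617351322515422265229863838130175110068653665213622075852721316513583881402161182947767512400300694399319645129957091611718353724667507545329834435330385283905957260986658127409256701272931359727345478554800207763816712816655077915534069661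1748503037623540400744911731555589740061914064034070766478470001794539807174369702989771428629447821361682204211137960314772546790504754500087723407695878954132946462875338487604758472916500183842426696895044168322408843623938393649137557987999677230152513025070401807403835520171393250868114485324076816598075253708959993750815866121115160826604440925455535256303680373163204676796164298707156012401389104398683991044768375591951498525759107975169181784765785744620611203043556199475492130098538484584956952122922086604279043730062969746457789310201809715163166979531392603730856975910308990097600585560104583380031645450610359289731014518616749350476304258559572980410232089166373421085120752148847915222327414479149968400646903272560078844993588209434232838989603069136955596552007673867349423997985288367450000339029212694269011677105451313100583236772942601909736406447686401687420891496619696029286902869208184395207905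6457786887912468826135572875984457028141861184519187669446943393506612059150867492572607404003388426357248010250465019506635192757602991966494202713889587538619528645366354034745116279843584659108677204253893666523614735909936671986661326016280308792245077638584617218505563282082704599450652044865195005937624751222140151559321299305430548739425628299753985323495164509720569863818824666850219263999346149037608167503445634661374967734945798462207347337627388984601614764975191344164694554718459276766840815340418554103539689291541206330085254462559947222290419274008099987564380439061581837854114779080038692691207923129539206023486882878896143159171400279975537457763591330419922788816642807024572101703798094535940306203390564696235451540216513301511891319653287072370064661160772105860513639151235769318610281576253257754407129788289151161952406485022105115954260527405073237176865868613654929603139132732698510037328116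7100579499803675248028591418071899334365852090384108156183723090581674439627271320516970365540357040780234350959129214415754104228375173090798410563744268950277798217801947170426551291446188006446367126794786133691912755773896504781775394848632076487777675085535583150148833882637957890851700653915841566142023142306998359955128888857413640441280723547564190671051609383652009799383230664905118641110043384568329560169856455388272024015268522551326341715802913206447645600845128329579126101457358236072151748486180085796256545331324540819462977767243066993639230488664549717785354981569369967731009272396493261960023312698136245905464173400265918270187693374634416891523528341472167735521064275285633137242867694041605357861479827935691529383729494081252378984618834168053019666785581343148988185211413052042196762629273512890744083356531183941661289529513365971127814834797430842126950685342729732431517036717801217669267520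2741877243432904032532640522556105793815205229218036693158811037452163478785024348112096823396128339150711784907851329060652272614457380114724257374304598316306831683625436091948560012848452531403167280062424838717283267745354115414552913301522801482275102615588671317054854040728036160703424249442857004542867259003931411562968928243681203474812457208692026127946523955663443577792049136438138948029897158130503802002870467805906803627357973143010883646581698203172306924014229588021316292172315185540762773020053353220639674368865636281083036517418942882416858688477464461358246774405546734924855281819512633158672494949152394030730571727968667475223409004213968881788683803149961520336213629512162300517771679507059455004999397301998156287341251155119851442996305816788919954661235838032325676710404728060346495302606660490642197581903769338698171800928670141542128376461891081639270613234567405805173073999193636974934209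2401978755480919022723656366448549144685208122938742855410213652041721355504047565309460235054808858743864307612763531164668626221628840459181068515417649974002335068565307667495013776431098205015803431899172185277186800345136942647056179021798207726618349428852118016908243342680968136701002146442612781070155830214855004712482365207890028607782432858490779727719694172319807398105733842032940811561235356464031959400908200910218520425397297510291120392218107997085710108301678983554074608064800982145588825639327077672964528283807109739249944431069227286360615610017295876150073974695896294006116097726637038564828806434778224084023352728082718778003014339410661426766713325263452708654303790446331763417929299364132401733123073673692828574731040801401050849928260748595812253045550588358540099075518126701733220852255401243199177926841679858558035959406409272700029006378813662510613323424764935834712860811208116679370046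5974126142703352372285493826712295907663565528892053477018012918291946350640925623830497400799924362574187462488329357603337444169586621049087450905236171621850113336710105313783418761919996794812961592708322622638841999749357272645853017117840591725026738878803311291475272596290779779111962034118477800376751418171471853892034302448893800601746996054982890464095063931900798020952000770774343305193036718031946364168175814543319783777989506093115374452662897719469737729590982591421379343384472140574769495704791338477821533951586978399825411364646422417559613995923238841437070271154760762413756734204453877380262676399985442206332741772655294980655183069576920953627012375781666229058616638390658161152873471569564290572769418970306033439881100486159772733916690684739432083260440865111348238711448832207145179631334909017543510738760932838743744794614074354623090095929430632518071989102335104633438943696278404267546556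2221538731057468562614770553908358101184746821795280724687366489494764982190172598418568179330704181022741968565966879522175721099305892495764903271868103384779956518775577105159625890591903539938053559609762733045046483622787545722416002814615454954204769561598703362597589897010922472415196657344146668664805367807212202887593615573408846355665401481762866247941275475430254234987140987987226923497513476842993655462043889170965578515540224184636633653849150927475354812047232809369529802130587475817585883041839304171305385199598214487759114234598702124391683463134974837567472806768196921091476104136689746470073375838823640929837478278602211016342174939333705560050711058453235245367707872907795315486852267188576473067584643950140407069091406929776180716961703966133628053473267091542225630264761378428064444700886682727171882728477730038651944535068272922131410371063102163215946842195952074529825808657264887477089204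646220255795639789858579551885701443301848239768264840892251148828371663148718084835579004507261885889176727139011686019038199935706943055837260440011480869068492300057433803379602963663543874943465318298932195042984682509962337306852753482718129001221681939131717932484962124130869095176338731200552325271055537955063386069151597864665210662872055685358800237507006777044667779483904748316548929919743847294183120194651446246714012577329953188845888663531392919817837789269615841640807806171202395321868258547186836912144126056738936874935847031979981331746270426331267628901644274378635636199706388920412187602735490267506860487429694411823715230011420619833344)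

noncomputable def rc20 : Nat := (nat_lit 359052385866981921932215883566761071171603807344623451032842501324904684323016232019219776027727023311484674351056216222373382235641544664434295470409109988508500949040083563129886305757412572892433353481590219444040220541038007886719809920712671836428873345041603662558819165533263735709324151142895313178571650355844117504556094708909608235912285793799116272288430349496116211410549620270240958772016499942843487569941865526692395001996022725262091358815989552704409488683847282244300218668046797204459253084326076312509394711757521454368387519205164923569182622375018307186772585484084463206521703983075611080817636308334432310869705450380631065795677279308980751253601782713803702730468560955513108227228085723358097426781243378949386050901634784492112128808865309681856107475771631596532128962665538089020902575301675249265211482728367634410072915790236511653304159027745935960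8448555232538924516439074168745581255904425269159024273583624373180439156087777647721840894575254299280732872917144697320479470134423298137817141412627055419711354593258031130852928075867344900475262081932702635742673215290281259504092604274035484196581621536133925873270929769882659780660770156104923629786439961533144451870256727701455867532084654794823912099272922194464737015845785897401137769953053879385022587133298228652994313198103507498082017040435125918487561699845348276664513571119630209817883884416291172702020068532380622459755522170322703855899509714954383830245201442006763893196490516930218021692407882431426553926841306587920878656995649226317347803958887817313436887634343543408686664277135574680291708599222845208229905886883260059385253511551327505181787996517949319964471280216663167351227552780883515285828371431266615343221381982949095691211657376212745630410918420858462349728311862557450185842717280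0248881587640939042380903050042924912061588073953267732907009076660671411683696150765643403231137982150603314634793306504241148061407621763668741490487625420885099495964898365779994092106206032829439976046480239610509534055156163036066857554986595648376728730299290683494296190005541016805186412128811910492698411745925872223264258761696894158928273630634264517151373312502330986892581548920954083332561662104546212831837223395467418255700985044966212873993893742315289707408469790580791139884410174414066240007537863717071942026733067182197371225324607338592534862816449715374461911539510631041272893403040301639390182536384134312888964289495043240558861572854391838633489775258028104539872255670827485081337894747332124764945756123037758134644293689158429857693338251093953076369684340456482231721069631310119834169640271147084303449538070280057060651337926193018676861061632875288468728888286364331415292844641060963173906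0316225300672712009503404143483877994528405329719095568036480695918511698213427263803496575203202732828542090434274677758610920087259770196552690344149654819379600704538089693504069235918849827491319587537972293308229491451477823465280272710266053938437170103943518823948579355736119776345206312384707874958662514321062473981948492517039720482674632042608188783407755479076530848492590239195861416909737138623760744951544113891157470448705827716190583346301758601358625568017360240900311329560475128807662708695548393189599918982969831704612632898753335797255858871582320086650529907492633467417909121869700318399518883054817424358893963017905837368227584191554764355581533434785600917535127615050490002027492044842268377136415622856284926214843600492534812761066956319585793792620013784452159560294055987013260854814500917069798250173867938655632937118598798706623154048677839892436783709133820368337390586284147829815114920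3083647955115126115489469506047947923564912564081464234077004817143199787010787696868083764760943267435232131139983466573542067490768796229601800549560907026565754543742277387708419469961055294160333458395707564918727344576139102855322305815916393249976799356667933294255198401475853124883568226458841305384591783097916908028989537980733454531960049164617869255196566142293387147121322655368790683011721305499617733681341786059250926782408782902212366432251518192577694509791190391590511077922989263855019148409376949027203117797278040750617602524098715817672643998630024731718614789562408705292927850637970949103631250288037885793236108275844003341008978319455737979809758452639949655552781789684785199633996232071852084441830259804130208555681390308868255162516757400360738758606262357832252183487413991809895225984747211261559742344209517359936550003018715179871777022406679580474864636595105300846087121515072394005017281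8272423031085488587891940140233882219700676605347767643712250736114742832138938997880307444777454227889843635890207654492419173542434991954603635498064667897329799105969982538293354016756156264947863727724727357995910213711524028836889931600047580630797857733508265399769141165962759236851843308564134927762092320176630595552431207640930283368668341805374510546551688688102839716859401304980953417697122228115051471401073021547453850434314901182104352366334862336358507804165492208303289321758381568141180742090846005143636828329396683408153693581243167077048935309913571290955717058207650631852081539334529664818544815258167970402268988779908892846929785485986245413058813608178370815437520360603077909107703461434198146406202953096848016578652772449150989412293629344436059716558418330754647334872780283665674695844045117219429716230305487364109209348999714201780414361756385848363741872387115383988451845292571520512021250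9580286564314368641269256347397559989779749517695721403040637537348837655607284141302814814110601910032190704773797600954446080253447730302165851448181274663961013336530692152498751880127021339133376763991670479050034558875340148346752592906873445928573102786369007035445236797775697478066062003395670940562152175913377656712977982755480642142782171355245568492200786967438686454855391270814042470073531091221041747234597811228957111432794611496207402208837524765194382143140280610445550738332952832668942137196930644884009972768999351486933961357487588021388237399571416957383891565419566493564009419186296493993509263538773924160182961616943261869163947674198741362148967810228894157833043623784815533412818708870778422272778776231161595132773215704432788354346622886075941434174234618262985337907967679190792367291448886780319574909457437946809717611192499292387513755176206090161985363707486932434531510296489994631043066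9807417745679034195735564173219895415846644983875382604721811746026316306620664657213983223672301645552524249114300435699882811222205396080497324483638877100159520659933887313836751690988512221838663605364624096617192096268692728589353046774626664386272061051023531257355630547473135423802251398440541967964622754286476511095931787249523138019159326958306183601166790740353902124570421073372592300604182999875189068660907102579472739603367297410298449514175248797534988757056167768650861524924837957307910999094743679100918832897510037388939328241626909602455630707274454450509749583101037150029161570508594183358902307358911608036505708842243351388164027035622449013470940674113912051380299086052812484130714286200127792625589479854889997396370120668449490489307691217395477889446128471933311649323111393257161751062754379885652897605727095412962150324968593493621610266335171687821743508728792104115529485995802252857085697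3935914741565437776239970673578927719391689361203635062097160852391243633102963447239187976717932325675933396058211087096288277017098380763921017578259517168892222650980597488827981381873021819841981627252641461782444119375263275293923474394664842775632127239964391480300345245271793299566945348568101433380842206435143365164013871569118857418419208253775698254757656892360969756632020695310719051675911446708560917584226440502201737707987068006622385714004456765673341777818770013967009530198607399184584999555651996859908937271071232091884243725566934966779095719571460389512304472269731350444940869504509323970572238558695587340880690488844605147259308625299217865550683709711014607064276853505977225528663410019677387466458721908182762390615299351289488247972284083114687543942536293434889462323629932202715447022201278960203640016514800386454979063419925594213603572164659237763699720859203300947774501874536053934384970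4591725886639425115490500890277562155046107637939656363822789898343237620877771624683613119220920022593661127699212164604242726415860440699368213649568909174627618639115480513657036297306033940867275806263423277521246252177038628948762584952739449994542668782860974924151051170865394617053382020348507708938401110593530840944171384699011054340605530304006890606982913107590781966999590798288126500613645177336896487258782064628051640333622986874253895883344590162382674821606830334936807106338124157464495498674915805870685799848692855467319968771170054329751909192263216457398786784174945284696657387257075448662667999617427693515443027067311643893238686313214720574334161775422836156614121902545202002263841528096202577181312593192687729267236458495011968500816152374382992320645118895128431483969138988622341639227632648632679238449762116094928947603973737029213120275663408388765005555769818103848896512885199955239339191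1247394061861150078228963493255538127828386330476347662999938953362762522877873901172730073077778923845477646367603672952921559850185737888423121426681468983481476587401096377684845094809491864009189737237530869255406805910532546375832695795549375804466028030847755569084050096038284602840352844143131663326809545798654178305180597289702140612949394135749220338167915518852858890930592287089643307333408717417499851092130515252474416688543996348065467526611271175956227319756174736330448750496582170495002932584260645994670752524424520376367514579933418522542951552773490044264069302265677768461864754433223341830898219028399335555836434714037227065739581654235676905113579207895907460342832492746888173671853409795154075739250677968816661861493741718472842732053901502225999964445359749039023820360126666426873099765974154742431044193274028991808785539785056827334868434999632419300228719010771466658343771098099429007848221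176601879590365920268450440940076181529276635224333138474406318887568508611229215173432866200396929210665392526325498312163224157932623899198045331504151560798453000756321574116527388174364059193195522250092743026653864164697422342436320474033183200818210865072500640578846826178949035281210226013682691690707392983558593827859464632440083081445504759519786485451143854789335505688944413134202753143240907702721614936367679526137676016954541019262298901864368942954634792384815313809990072525467413994781430498784080215680647653729182661437091320437608886271195864409335643541192375838202833037763686797503034693261456761311916965415326690117161958472159615516672)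

end Vale.Agent.Lib.P154.PChain.BB.S6
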