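import Vale.Agent.Lib.P154.PChain.BB.R6_2

set_option linter.all false

namespace Vale.Agent.Lib.P154.PChain.BB.S7

open Vale.Agent.Lib.P154.Chain

noncomputable def pc0 : PT := (PT.nd (nat_lit 8140470) (PT.nd (nat_lit 7953114) (PT.nd (nat_lit 7828314) (PT.nd (nat_lit 3769740) (PT.nd (nat_lit 3707340) (PT.nd (nat_lit 3707262) PT.nil (PT.lf (nat_lit 76) (nat_lit 6) (nat_lit 1) (nat_lit 3) (nat_lit 270) (nat_lit 59) (nat_lit 271))) (PT.lf (nat_lit 76) (nat_lit 6) (nat_lit 1) (nat_lit 1) (nat_lit 271) (nat_lit 59) (nat_lit 270))) (PT.nd (nat_lit 4058496) (PT.lf (nat_lit 152) (nat_lit 3) (nat_lit 2) (nat_lit 1) (nat_lit 270) (nat_lit 60) (nat_lit 270)) (PT.lf (nat_lit 6536) (nat_lit 6) (nat_lit 86) (nat_lit 3) (nat_lit 237) (nat_lit 125) (nat_lit 238)))) (PT.nd (nat_lit 62400) (PT.nd (nat_lit 62322) (PT.lf (nat_lit 6536) (nat_lit 6) (nat_lit 86) (nat_lit 1) (nat_lit 238) (nat_lit 125) (nat_lit 237)) (PT.lf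 (nat_lit 6612) (nat_lit 6) (nat_lit 87) (nat_lit 3) (nat_lit 236) (nat_lit 126) (nat_lit 238))) (PT.nd (nat_lit 78) (PT.lf (nat_lit 6688) (nat_lit 3) (nat_lit 88) (nat_lit 1) (nat_lit 237) (nat_lit 126) (nat_lit 237)) (PT.lf (nat_lit 6612) (nat_lit 6) (nat_lit 87) (nat_lit 1) (nat_lit 238) (nat_lit 126) (nat_lit 236))))) (PT.nd (nat_lit 62556) (PT.nd (nat_lit 62400) (PT.nd (nat_lit 78) (PT.lf (nat_lit 6840) (nat_lit 6) (nat_lit 90) (nat_lit 3) (nat_lit 236) (nat_lit 127) (nat_lit 237)) (PT.lf (nat_lit 6840) (nat_lit 6) (nat_lit 90) (nat_lit 1) (nat_lit 237) (nat_lit 127) (nat_lit 236))) (PT.nd (nat_lit 78) (PT.lf (nat_lit 6916) (nat_lit 6) (nat_lit 91) (nat_lit 3) (nat_lit 235) (nat_lit 128) (nat_lit 237)) (PT.lf (nat_lit 6992) (nat_lit 3) (nat_lit 92) (nat_lit 1) (nat_lit 236) (nat_lit 128) (nat_lit 236)))) (PT.nd (nat_lit 62400) (PT.nd (nat_lit 62322) (PT.lf (nat_lit 6916) (nat_lit 6) (nat_lit 91)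 (nat_lit 1) (nat_lit 237) (nat_lit 128) (nat_lit 235)) (PT.lf (nat_lit 7144) (nat_lit 6) (nat_lit 94) (nat_lit 3) (nat_lit 235) (nat_lit 129) (nat_lit 236))) (PT.nd (nat_lit 62322) (PT.lf (nat_lit 7144) (nat_lit 6) (nat_lit 94) (nat_lit 1) (nat_lit 236) (nat_lit 129) (nat_lit 235)) (PT.lf (nat_lit 7220) (nat_lit 6) (nat_lit 95) (nat_lit 3) (nat_lit 234) (nat_lit 130) (nat_lit 236)))))) (PT.nd (nat_lit 187356) (PT.nd (nat_lit 124800) (PT.nd (nat_lit 62400) (PT.nd (nat_lit 78) (PT.lf (nat_lit 7296) (nat_lit 3) (nat_lit 96) (nat_lit 1) (nat_lit 235) (nat_lit 130) (nat_lit 235)) (PT.lf (nat_lit 7220) (nat_lit 6) (nat_lit 95) (nat_lit 1) (nat_lit 236) (nat_lit 130) (nat_lit 234))) (PT.nd (nat_lit 78) (PT.lf (nat_lit 7448) (nat_lit 6) (nat_lit 98) (nat_lit 3) (nat_lit 234) (nat_lit 131) (nat_lit 235)) (PT.lf (nat_lit 7448) (nat_lit 6) (nat_lit 98) (nat_lit 1) (nat_lit 235) (nat_lit 131) (nat_lit 234)))) (PT.nd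 (nat_lit 156) (PT.nd (nat_lit 78) (PT.lf (nat_lit 7524) (nat_lit 6) (nat_lit 99) (nat_lit 3) (nat_lit 233) (nat_lit 132) (nat_lit 235)) (PT.lf (nat_lit 7600) (nat_lit 3) (nat_lit 100) (nat_lit 1) (nat_lit 234) (nat_lit 132) (nat_lit 234))) (PT.nd (nat_lit 62322) (PT.lf (nat_lit 7524) (nat_lit 6) (nat_lit 99) (nat_lit 1) (nat_lit 235) (nat_lit 132) (nat_lit 233)) (PT.lf (nat_lit 7752) (nat_lit 6) (nat_lit 102) (nat_lit 3) (nat_lit 233) (nat_lit 133) (nat_lit 234))))) (PT.nd (nat_lit 124722) (PT.nd (nat_lit 62400) (PT.nd (nat_lit 62322) (PT.lf (nat_lit 7752) (nat_lit 6) (nat_lit 102) (nat_lit 1) (nat_lit 234) (nat_lit 133) (nat_lit 233)) (PT.lf (nat_lit 7828) (nat_lit 6) (nat_lit 103) (nat_lit 3) (nat_lit 232) (nat_lit 134) (nat_lit 234))) (PT.nd (nat_lit 78) (PT.lf (nat_lit 7904) (nat_lit 3) (nat_lit 104) (nat_lit 1) (nat_lit 233) (nat_lit 134) (nat_lit 233)) (PT.lf (nat_lit 7828) (nat_lit 6) (nat_lit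 103) (nat_lit 1) (nat_lit 234) (nat_lit 134) (nat_lit 232)))) (PT.nd (nat_lit 156) (PT.nd (nat_lit 78) (PT.lf (nat_lit 7980) (nat_lit 6) (nat_lit 105) (nat_lit 3) (nat_lit 231) (nat_lit 135) (nat_lit 234)) (PT.lf (nat_lit 8056) (nat_lit 6) (nat_lit 106) (nat_lit 3) (nat_lit 232) (nat_lit 135) (nat_lit 233))) (PT.nd (nat_lit 78) (PT.lf (nat_lit 8056) (nat_lit 6) (nat_lit 106) (nat_lit 1) (nat_lit 233) (nat_lit 135) (nat_lit 232)) (PT.nd (nat_lit 62244) (PT.lf (nat_lit 7980) (nat_lit 6) (nat_lit 105) (nat_lit 1) (nat_lit 234) (nat_lit 135) (nat_lit 231)) (PT.lf (nat_lit 8132) (nat_lit 6) (nat_lit 107) (nat_lit 3) (nat_lit 231) (nat_lit 136) (nat_lit 233))))))))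
noncomputable def pc1 : PT := (PT.nd (nat_lit 312078) (PT.nd (nat_lit 124956) (PT.nd (nat_lit 62478) (PT.nd (nat_lit 62322) (PT.nd (nat_lit 78) (PT.lf (nat_lit 8208) (nat_lit 3) (nat_lit 108) (nat_lit 1) (nat_lit 232) (nat_lit 136) (nat_lit 232)) (PT.lf (nat_lit 8132) (nat_lit 6) (nat_lit 107) (nat_lit 1) (nat_lit 233) (nat_lit 136) (nat_lit 231))) (PT.nd (nat_lit 78) (PT.lf (nat_lit 8284) (nat_lit 6) (nat_lit 109) (nat_lit 3) (nat_lit 230) (nat_lit 137) (nat_lit 233)) (PT.lf (nat_lit 8360) (nat_lit 6) (nat_lit 110) (nat_lit 3) (nat_lit 231) (nat_lit 137) (nat_lit 232)))) (PT.nd (nat_lit 62322) (PT.nd (nat_lit 78) (PT.lf (nat_lit 8360) (nat_lit 6) (nat_lit 110) (nat_lit 1) (nat_lit 232) (nat_lit 137) (nat_lit 231)) (PT.lf (nat_lit 8284) (nat_lit 6) (nat_lit 109) (nat_lit 1) (nat_lit 233) (nat_lit 137) (nat_lit 230))) (PT.nd (nat_lit 78) (PT.lf (nat_lit 8512) (nat_lit 6) (nat_lit 112) (nat_lit 3) (nat_lit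 230) (nat_lit 138) (nat_lit 232)) (PT.lf (nat_lit 8588) (nat_lit 3) (nat_lit 113) (nat_lit 1) (nat_lit 231) (nat_lit 138) (nat_lit 231))))) (PT.nd (nat_lit 62478) (PT.nd (nat_lit 62322) (PT.nd (nat_lit 62244) (PT.lf (nat_lit 8512) (nat_lit 6) (nat_lit 112) (nat_lit 1) (nat_lit 232) (nat_lit 138) (nat_lit 230)) (PT.lf (nat_lit 8664) (nat_lit 6) (nat_lit 114) (nat_lit 3) (nat_lit 229) (nat_lit 139) (nat_lit 232))) (PT.nd (nat_lit 78) (PT.lf (nat_lit 8740) (nat_lit 6) (nat_lit 115) (nat_lit 3) (nat_lit 230) (nat_lit 139) (nat_lit 231)) (PT.lf (nat_lit 8740) (nat_lit 6) (nat_lit 115) (nat_lit 1) (nat_lit 231) (nat_lit 139) (nat_lit 230)))) (PT.nd (nat_lit 62322) (PT.nd (nat_lit 62244) (PT.lf (nat_lit 8664) (nat_lit 6) (nat_lit 114) (nat_lit 1) (nat_lit 232) (nat_lit 139) (nat_lit 229)) (PT.lf (nat_lit 8892) (nat_lit 6) (nat_lit 117) (nat_lit 3) (nat_lit 229) (nat_lit 140) (nat_lit 231))) (PT.nd (nat_lit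 78) (PT.lf (nat_lit 8968) (nat_lit 3) (nat_lit 118) (nat_lit 1) (nat_lit 230) (nat_lit 140) (nat_lit 230)) (PT.lf (nat_lit 8892) (nat_lit 6) (nat_lit 117) (nat_lit 1) (nat_lit 231) (nat_lit 140) (nat_lit 229)))))) (PT.nd (nat_lit 124956) (PT.nd (nat_lit 62478) (PT.nd (nat_lit 156) (PT.nd (nat_lit 78) (PT.lf (nat_lit 9044) (nat_lit 6) (nat_lit 119) (nat_lit 3) (nat_lit 228) (nat_lit 141) (nat_lit 231)) (PT.lf (nat_lit 9120) (nat_lit 6) (nat_lit 120) (nat_lit 3) (nat_lit 229) (nat_lit 141) (nat_lit 230))) (PT.nd (nat_lit 78) (PT.lf (nat_lit 9120) (nat_lit 6) (nat_lit 120) (nat_lit 1) (nat_lit 230) (nat_lit 141) (nat_lit 229)) (PT.lf (nat_lit 9044) (nat_lit 6) (nat_lit 119) (nat_lit 1) (nat_lit 231) (nat_lit 141) (nat_lit 228)))) (PT.nd (nat_lit 156) (PT.nd (nat_lit 78) (PT.lf (nat_lit 9272) (nat_lit 6) (nat_lit 122) (nat_lit 3) (nat_lit 228) (nat_lit 142) (nat_lit 230)) (PT.lf (nat_lit 9348) (nat_lit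 3) (nat_lit 123) (nat_lit 1) (nat_lit 229) (nat_lit 142) (nat_lit 229))) (PT.nd (nat_lit 62244) (PT.lf (nat_lit 9272) (nat_lit 6) (nat_lit 122) (nat_lit 1) (nat_lit 230) (nat_lit 142) (nat_lit 228)) (PT.lf (nat_lit 9424) (nat_lit 6) (nat_lit 124) (nat_lit 3) (nat_lit 227) (nat_lit 143) (nat_lit 230))))) (PT.nd (nat_lit 62400) (PT.nd (nat_lit 156) (PT.nd (nat_lit 78) (PT.lf (nat_lit 9500) (nat_lit 6) (nat_lit 125) (nat_lit 3) (nat_lit 228) (nat_lit 143) (nat_lit 229)) (PT.lf (nat_lit 9500) (nat_lit 6) (nat_lit 125) (nat_lit 1) (nat_lit 229) (nat_lit 143) (nat_lit 228))) (PT.nd (nat_lit 62166) (PT.lf (nat_lit 9424) (nat_lit 6) (nat_lit 124) (nat_lit 1) (nat_lit 230) (nat_lit 143) (nat_lit 227)) (PT.lf (nat_lit 9576) (nat_lit 6) (nat_lit 126) (nat_lit 3) (nat_lit 226) (nat_lit 144) (nat_lit 230)))) (PT.nd (nat_lit 156) (PT.nd (nat_lit 78) (PT.lf (nat_lit 9652) (nat_lit 6) (nat_lit 127) (nat_lit 3) (nat_lit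 227) (nat_lit 144) (nat_lit 229)) (PT.lf (nat_lit 9728) (nat_lit 3) (nat_lit 128) (nat_lit 1) (nat_lit 228) (nat_lit 144) (nat_lit 228))) (PT.nd (nat_lit 78) (PT.lf (nat_lit 9652) (nat_lit 6) (nat_lit 127) (nat_lit 1) (nat_lit 229) (nat_lit 144) (nat_lit 227)) (PT.nd (nat_lit 62166) (PT.lf (nat_lit 9576) (nat_lit 6) (nat_lit 126) (nat_lit 1) (nat_lit 230) (nat_lit 144) (nat_lit 226)) (PT.lf (nat_lit 9804) (nat_lit 6) (nat_lit 129) (nat_lit 3) (nat_lit 226) (nat_lit 145) (nat_lit 229))))))))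
noncomputable def pc2 : PT := (PT.nd (nat_lit 187356) (PT.nd (nat_lit 124722) (PT.nd (nat_lit 62400) (PT.nd (nat_lit 156) (PT.nd (nat_lit 78) (PT.lf (nat_lit 9880) (nat_lit 6) (nat_lit 130) (nat_lit 3) (nat_lit 227) (nat_lit 145) (nat_lit 228)) (PT.lf (nat_lit 9880) (nat_lit 6) (nat_lit 130) (nat_lit 1) (nat_lit 228) (nat_lit 145) (nat_lit 227))) (PT.nd (nat_lit 62166) (PT.lf (nat_lit 9804) (nat_lit 6) (nat_lit 129) (nat_lit 1) (nat_lit 229) (nat_lit 145) (nat_lit 226)) (PT.lf (nat_lit 9956) (nat_lit 6) (nat_lit 131) (nat_lit 3) (nat_lit 225) (nat_lit 146) (nat_lit 229)))) (PT.nd (nat_lit 156) (PT.nd (nat_lit 78) (PT.lf (nat_lit 10032) (nat_lit 6) (nat_lit 132) (nat_lit 3) (nat_lit 226) (nat_lit 146) (nat_lit 228)) (PT.lf (nat_lit 10108) (nat_lit 3) (nat_lit 133) (nat_lit 1) (nat_lit 227) (nat_lit 146) (nat_lit 227))) (PT.nd (nat_lit 78) (PT.lf (nat_lit 10032) (nat_lit 6) (nat_lit 132) (nat_lit 1) (nat_lit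 228) (nat_lit 146) (nat_lit 226)) (PT.lf (nat_lit 9956) (nat_lit 6) (nat_lit 131) (nat_lit 1) (nat_lit 229) (nat_lit 146) (nat_lit 225))))) (PT.nd (nat_lit 312) (PT.nd (nat_lit 156) (PT.nd (nat_lit 78) (PT.lf (nat_lit 10184) (nat_lit 6) (nat_lit 134) (nat_lit 3) (nat_lit 224) (nat_lit 147) (nat_lit 229)) (PT.lf (nat_lit 10260) (nat_lit 6) (nat_lit 135) (nat_lit 3) (nat_lit 225) (nat_lit 147) (nat_lit 228))) (PT.nd (nat_lit 78) (PT.lf (nat_lit 10336) (nat_lit 6) (nat_lit 136) (nat_lit 3) (nat_lit 226) (nat_lit 147) (nat_lit 227)) (PT.lf (nat_lit 10336) (nat_lit 6) (nat_lit 136) (nat_lit 1) (nat_lit 227) (nat_lit 147) (nat_lit 226)))) (PT.nd (nat_lit 62166) (PT.nd (nat_lit 78) (PT.lf (nat_lit 10260) (nat_lit 6) (nat_lit 135) (nat_lit 1) (nat_lit 228) (nat_lit 147) (nat_lit 225)) (PT.lf (nat_lit 10184) (nat_lit 6) (nat_lit 134) (nat_lit 1) (nat_lit 229) (nat_lit 147) (nat_lit 224))) (PT.nd (nat_lit 78)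 (PT.lf (nat_lit 10412) (nat_lit 6) (nat_lit 137) (nat_lit 3) (nat_lit 224) (nat_lit 148) (nat_lit 228)) (PT.lf (nat_lit 10488) (nat_lit 6) (nat_lit 138) (nat_lit 3) (nat_lit 225) (nat_lit 148) (nat_lit 227)))))) (PT.nd (nat_lit 62634) (PT.nd (nat_lit 62322) (PT.nd (nat_lit 156) (PT.nd (nat_lit 78) (PT.lf (nat_lit 10564) (nat_lit 3) (nat_lit 139) (nat_lit 1) (nat_lit 226) (nat_lit 148) (nat_lit 226)) (PT.lf (nat_lit 10488) (nat_lit 6) (nat_lit 138) (nat_lit 1) (nat_lit 227) (nat_lit 148) (nat_lit 225))) (PT.nd (nat_lit 62088) (PT.lf (nat_lit 10412) (nat_lit 6) (nat_lit 137) (nat_lit 1) (nat_lit 228) (nat_lit 148) (nat_lit 224)) (PT.lf (nat_lit 10640) (nat_lit 6) (nat_lit 140) (nat_lit 3) (nat_lit 223) (nat_lit 149) (nat_lit 228)))) (PT.nd (nat_lit 156) (PT.nd (nat_lit 78) (PT.lf (nat_lit 10716) (nat_lit 6) (nat_lit 141) (nat_lit 3) (nat_lit 224) (nat_lit 149) (nat_lit 227)) (PT.lf (nat_lit 10792) (nat_lit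 6) (nat_lit 142) (nat_lit 3) (nat_lit 225) (nat_lit 149) (nat_lit 226))) (PT.nd (nat_lit 78) (PT.lf (nat_lit 10792) (nat_lit 6) (nat_lit 142) (nat_lit 1) (nat_lit 226) (nat_lit 149) (nat_lit 225)) (PT.lf (nat_lit 10716) (nat_lit 6) (nat_lit 141) (nat_lit 1) (nat_lit 227) (nat_lit 149) (nat_lit 224))))) (PT.nd (nat_lit 62322) (PT.nd (nat_lit 62166) (PT.nd (nat_lit 62088) (PT.lf (nat_lit 10640) (nat_lit 6) (nat_lit 140) (nat_lit 1) (nat_lit 228) (nat_lit 149) (nat_lit 223)) (PT.lf (nat_lit 10868) (nat_lit 6) (nat_lit 143) (nat_lit 3) (nat_lit 223) (nat_lit 150) (nat_lit 227))) (PT.nd (nat_lit 78) (PT.lf (nat_lit 10944) (nat_lit 6) (nat_lit 144) (nat_lit 3) (nat_lit 224) (nat_lit 150) (nat_lit 226)) (PT.lf (nat_lit 11020) (nat_lit 3) (nat_lit 145) (nat_lit 1) (nat_lit 225) (nat_lit 150) (nat_lit 225)))) (PT.nd (nat_lit 62166) (PT.nd (nat_lit 78) (PT.lf (nat_lit 10944) (nat_lit 6) (nat_lit 144) (nat_lit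 1) (nat_lit 226) (nat_lit 150) (nat_lit 224)) (PT.lf (nat_lit 10868) (nat_lit 6) (nat_lit 143) (nat_lit 1) (nat_lit 227) (nat_lit 150) (nat_lit 223))) (PT.nd (nat_lit 78) (PT.lf (nat_lit 11096) (nat_lit 6) (nat_lit 146) (nat_lit 3) (nat_lit 222) (nat_lit 151) (nat_lit 227)) (PT.nd (nat_lit 78) (PT.lf (nat_lit 11172) (nat_lit 6) (nat_lit 147) (nat_lit 3) (nat_lit 223) (nat_lit 151) (nat_lit 226)) (PT.lf (nat_lit 11248) (nat_lit 6) (nat_lit 148) (nat_lit 3) (nat_lit 224) (nat_lit 151) (nat_lit 225))))))))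
noncomputable def pc3 : PT := (PT.nd (nat_lit 187278) (PT.nd (nat_lit 124644) (PT.nd (nat_lit 62322) (PT.nd (nat_lit 156) (PT.nd (nat_lit 78) (PT.lf (nat_lit 11248) (nat_lit 6) (nat_lit 148) (nat_lit 1) (nat_lit 225) (nat_lit 151) (nat_lit 224)) (PT.lf (nat_lit 11172) (nat_lit 6) (nat_lit 147) (nat_lit 1) (nat_lit 226) (nat_lit 151) (nat_lit 223))) (PT.nd (nat_lit 62088) (PT.lf (nat_lit 11096) (nat_lit 6) (nat_lit 146) (nat_lit 1) (nat_lit 227) (nat_lit 151) (nat_lit 222)) (PT.lf (nat_lit 11324) (nat_lit 6) (nat_lit 149) (nat_lit 3) (nat_lit 222) (nat_lit 152) (nat_lit 226)))) (PT.nd (nat_lit 156) (PT.nd (nat_lit 78) (PT.lf (nat_lit 11400) (nat_lit 6) (nat_lit 150) (nat_lit 3) (nat_lit 223) (nat_lit 152) (nat_lit 225)) (PT.lf (nat_lit 11476) (nat_lit 3) (nat_lit 151) (nat_lit 1) (nat_lit 224) (nat_lit 152) (nat_lit 224))) (PT.nd (nat_lit 78) (PT.lf (nat_lit 11400) (nat_lit 6) (nat_lit 150) (nat_lit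 1) (nat_lit 225) (nat_lit 152) (nat_lit 223)) (PT.lf (nat_lit 11324) (nat_lit 6) (nat_lit 149) (nat_lit 1) (nat_lit 226) (nat_lit 152) (nat_lit 222))))) (PT.nd (nat_lit 312) (PT.nd (nat_lit 156) (PT.nd (nat_lit 78) (PT.lf (nat_lit 11552) (nat_lit 6) (nat_lit 152) (nat_lit 3) (nat_lit 221) (nat_lit 153) (nat_lit 226)) (PT.lf (nat_lit 11628) (nat_lit 6) (nat_lit 153) (nat_lit 3) (nat_lit 222) (nat_lit 153) (nat_lit 225))) (PT.nd (nat_lit 78) (PT.lf (nat_lit 11704) (nat_lit 6) (nat_lit 154) (nat_lit 3) (nat_lit 223) (nat_lit 153) (nat_lit 224)) (PT.lf (nat_lit 11704) (nat_lit 6) (nat_lit 154) (nat_lit 1) (nat_lit 224) (nat_lit 153) (nat_lit 223)))) (PT.nd (nat_lit 62088) (PT.nd (nat_lit 78) (PT.lf (nat_lit 11628) (nat_lit 6) (nat_lit 153) (nat_lit 1) (nat_lit 225) (nat_lit 153) (nat_lit 222)) (PT.lf (nat_lit 11552) (nat_lit 6) (nat_lit 152) (nat_lit 1) (nat_lit 226) (nat_lit 153) (nat_lit 221))) (PT.nd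 (nat_lit 78) (PT.lf (nat_lit 11780) (nat_lit 6) (nat_lit 155) (nat_lit 3) (nat_lit 220) (nat_lit 154) (nat_lit 226)) (PT.nd (nat_lit 78) (PT.lf (nat_lit 11856) (nat_lit 6) (nat_lit 156) (nat_lit 3) (nat_lit 221) (nat_lit 154) (nat_lit 225)) (PT.lf (nat_lit 11932) (nat_lit 6) (nat_lit 157) (nat_lit 3) (nat_lit 222) (nat_lit 154) (nat_lit 224))))))) (PT.nd (nat_lit 62556) (PT.nd (nat_lit 62244) (PT.nd (nat_lit 156) (PT.nd (nat_lit 78) (PT.lf (nat_lit 12008) (nat_lit 3) (nat_lit 158) (nat_lit 1) (nat_lit 223) (nat_lit 154) (nat_lit 223)) (PT.lf (nat_lit 11932) (nat_lit 6) (nat_lit 157) (nat_lit 1) (nat_lit 224) (nat_lit 154) (nat_lit 222))) (PT.nd (nat_lit 78) (PT.lf (nat_lit 11856) (nat_lit 6) (nat_lit 156) (nat_lit 1) (nat_lit 225) (nat_lit 154) (nat_lit 221)) (PT.lf (nat_lit 11780) (nat_lit 6) (nat_lit 155) (nat_lit 1) (nat_lit 226) (nat_lit 154) (nat_lit 220)))) (PT.nd (nat_lit 156) (PT.nd (nat_lit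 78) (PT.lf (nat_lit 12084) (nat_lit 6) (nat_lit 159) (nat_lit 3) (nat_lit 220) (nat_lit 155) (nat_lit 225)) (PT.lf (nat_lit 12160) (nat_lit 6) (nat_lit 160) (nat_lit 3) (nat_lit 221) (nat_lit 155) (nat_lit 224))) (PT.nd (nat_lit 78) (PT.lf (nat_lit 12236) (nat_lit 6) (nat_lit 161) (nat_lit 3) (nat_lit 222) (nat_lit 155) (nat_lit 223)) (PT.lf (nat_lit 12236) (nat_lit 6) (nat_lit 161) (nat_lit 1) (nat_lit 223) (nat_lit 155) (nat_lit 222))))) (PT.nd (nat_lit 62244) (PT.nd (nat_lit 62088) (PT.nd (nat_lit 78) (PT.lf (nat_lit 12160) (nat_lit 6) (nat_lit 160) (nat_lit 1) (nat_lit 224) (nat_lit 155) (nat_lit 221)) (PT.lf (nat_lit 12084) (nat_lit 6) (nat_lit 159) (nat_lit 1) (nat_lit 225) (nat_lit 155) (nat_lit 220))) (PT.nd (nat_lit 78) (PT.lf (nat_lit 12312) (nat_lit 6) (nat_lit 162) (nat_lit 3) (nat_lit 219) (nat_lit 156) (nat_lit 225)) (PT.lf (nat_lit 12388) (nat_lit 6) (nat_lit 163) (nat_lit 3) (nat_lit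 220) (nat_lit 156) (nat_lit 224)))) (PT.nd (nat_lit 156) (PT.nd (nat_lit 78) (PT.lf (nat_lit 12464) (nat_lit 6) (nat_lit 164) (nat_lit 3) (nat_lit 221) (nat_lit 156) (nat_lit 223)) (PT.lf (nat_lit 12540) (nat_lit 3) (nat_lit 165) (nat_lit 1) (nat_lit 222) (nat_lit 156) (nat_lit 222))) (PT.nd (nat_lit 78) (PT.lf (nat_lit 12464) (nat_lit 6) (nat_lit 164) (nat_lit 1) (nat_lit 223) (nat_lit 156) (nat_lit 221)) (PT.nd (nat_lit 78) (PT.lf (nat_lit 12388) (nat_lit 6) (nat_lit 163) (nat_lit 1) (nat_lit 224) (nat_lit 156) (nat_lit 220)) (PT.lf (nat_lit 12312) (nat_lit 6) (nat_lit 162) (nat_lit 1) (nat_lit 225) (nat_lit 156) (nat_lit 219))))))))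
noncomputable def pc4 : PT := (PT.nd (nat_lit 125034) (PT.nd (nat_lit 62556) (PT.nd (nat_lit 312) (PT.nd (nat_lit 156) (PT.nd (nat_lit 78) (PT.lf (nat_lit 12616) (nat_lit 6) (nat_lit 166) (nat_lit 3) (nat_lit 219) (nat_lit 157) (nat_lit 224)) (PT.lf (nat_lit 12692) (nat_lit 6) (nat_lit 167) (nat_lit 3) (nat_lit 220) (nat_lit 157) (nat_lit 223))) (PT.nd (nat_lit 78) (PT.lf (nat_lit 12768) (nat_lit 6) (nat_lit 168) (nat_lit 3) (nat_lit 221) (nat_lit 157) (nat_lit 222)) (PT.lf (nat_lit 12768) (nat_lit 6) (nat_lit 168) (nat_lit 1) (nat_lit 222) (nat_lit 157) (nat_lit 221)))) (PT.nd (nat_lit 62088) (PT.nd (nat_lit 78) (PT.lf (nat_lit 12692) (nat_lit 6) (nat_lit 167) (nat_lit 1) (nat_lit 223) (nat_lit 157) (nat_lit 220)) (PT.lf (nat_lit 12616) (nat_lit 6) (nat_lit 166) (nat_lit 1) (nat_lit 224) (nat_lit 157) (nat_lit 219))) (PT.nd (nat_lit 78) (PT.lf (nat_lit 12844) (nat_lit 6) (nat_lit 169) (nat_lit 3) (nat_lit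 218) (nat_lit 158) (nat_lit 224)) (PT.lf (nat_lit 12920) (nat_lit 6) (nat_lit 170) (nat_lit 3) (nat_lit 219) (nat_lit 158) (nat_lit 223))))) (PT.nd (nat_lit 312) (PT.nd (nat_lit 156) (PT.nd (nat_lit 78) (PT.lf (nat_lit 12996) (nat_lit 6) (nat_lit 171) (nat_lit 3) (nat_lit 220) (nat_lit 158) (nat_lit 222)) (PT.lf (nat_lit 13072) (nat_lit 3) (nat_lit 172) (nat_lit 1) (nat_lit 221) (nat_lit 158) (nat_lit 221))) (PT.nd (nat_lit 78) (PT.lf (nat_lit 12996) (nat_lit 6) (nat_lit 171) (nat_lit 1) (nat_lit 222) (nat_lit 158) (nat_lit 220)) (PT.lf (nat_lit 12920) (nat_lit 6) (nat_lit 170) (nat_lit 1) (nat_lit 223) (nat_lit 158) (nat_lit 219)))) (PT.nd (nat_lit 62010) (PT.nd (nat_lit 61932) (PT.lf (nat_lit 12844) (nat_lit 6) (nat_lit 169) (nat_lit 1) (nat_lit 224) (nat_lit 158) (nat_lit 218)) (PT.lf (nat_lit 13148) (nat_lit 6) (nat_lit 173) (nat_lit 3) (nat_lit 217) (nat_lit 159) (nat_lit 224))) (PT.nd (nat_lit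 78) (PT.lf (nat_lit 13224) (nat_lit 6) (nat_lit 174) (nat_lit 3) (nat_lit 218) (nat_lit 159) (nat_lit 223)) (PT.lf (nat_lit 13300) (nat_lit 6) (nat_lit 175) (nat_lit 3) (nat_lit 219) (nat_lit 159) (nat_lit 222)))))) (PT.nd (nat_lit 62478) (PT.nd (nat_lit 312) (PT.nd (nat_lit 156) (PT.nd (nat_lit 78) (PT.lf (nat_lit 13376) (nat_lit 6) (nat_lit 176) (nat_lit 3) (nat_lit 220) (nat_lit 159) (nat_lit 221)) (PT.lf (nat_lit 13376) (nat_lit 6) (nat_lit 176) (nat_lit 1) (nat_lit 221) (nat_lit 159) (nat_lit 220))) (PT.nd (nat_lit 78) (PT.lf (nat_lit 13300) (nat_lit 6) (nat_lit 175) (nat_lit 1) (nat_lit 222) (nat_lit 159) (nat_lit 219)) (PT.lf (nat_lit 13224) (nat_lit 6) (nat_lit 174) (nat_lit 1) (nat_lit 223) (nat_lit 159) (nat_lit 218)))) (PT.nd (nat_lit 62010) (PT.nd (nat_lit 61932) (PT.lf (nat_lit 13148) (nat_lit 6) (nat_lit 173) (nat_lit 1) (nat_lit 224) (nat_lit 159) (nat_lit 217)) (PT.lf (nat_lit 13452)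 (nat_lit 6) (nat_lit 177) (nat_lit 3) (nat_lit 217) (nat_lit 160) (nat_lit 223))) (PT.nd (nat_lit 78) (PT.lf (nat_lit 13528) (nat_lit 6) (nat_lit 178) (nat_lit 3) (nat_lit 218) (nat_lit 160) (nat_lit 222)) (PT.lf (nat_lit 13604) (nat_lit 6) (nat_lit 179) (nat_lit 3) (nat_lit 219) (nat_lit 160) (nat_lit 221))))) (PT.nd (nat_lit 62166) (PT.nd (nat_lit 156) (PT.nd (nat_lit 78) (PT.lf (nat_lit 13680) (nat_lit 3) (nat_lit 180) (nat_lit 1) (nat_lit 220) (nat_lit 160) (nat_lit 220)) (PT.lf (nat_lit 13604) (nat_lit 6) (nat_lit 179) (nat_lit 1) (nat_lit 221) (nat_lit 160) (nat_lit 219))) (PT.nd (nat_lit 78) (PT.lf (nat_lit 13528) (nat_lit 6) (nat_lit 178) (nat_lit 1) (nat_lit 222) (nat_lit 160) (nat_lit 218)) (PT.lf (nat_lit 13452) (nat_lit 6) (nat_lit 177) (nat_lit 1) (nat_lit 223) (nat_lit 160) (nat_lit 217)))) (PT.nd (nat_lit 156) (PT.nd (nat_lit 78) (PT.lf (nat_lit 13756) (nat_lit 6) (nat_lit 181) (nat_lit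 3) (nat_lit 216) (nat_lit 161) (nat_lit 223)) (PT.lf (nat_lit 13832) (nat_lit 6) (nat_lit 182) (nat_lit 3) (nat_lit 217) (nat_lit 161) (nat_lit 222))) (PT.nd (nat_lit 78) (PT.lf (nat_lit 13908) (nat_lit 6) (nat_lit 183) (nat_lit 3) (nat_lit 218) (nat_lit 161) (nat_lit 221)) (PT.nd (nat_lit 78) (PT.lf (nat_lit 13984) (nat_lit 6) (nat_lit 184) (nat_lit 3) (nat_lit 219) (nat_lit 161) (nat_lit 220)) (PT.lf (nat_lit 13984) (nat_lit 6) (nat_lit 184) (nat_lit 1) (nat_lit 220) (nat_lit 161) (nat_lit 219))))))))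
noncomputable def pc5 : PT := (PT.nd (nat_lit 124878) (PT.nd (nat_lit 62400) (PT.nd (nat_lit 62088) (PT.nd (nat_lit 156) (PT.nd (nat_lit 78) (PT.lf (nat_lit 13908) (nat_lit 6) (nat_lit 183) (nat_lit 1) (nat_lit 221) (nat_lit 161) (nat_lit 218)) (PT.lf (nat_lit 13832) (nat_lit 6) (nat_lit 182) (nat_lit 1) (nat_lit 222) (nat_lit 161) (nat_lit 217))) (PT.nd (nat_lit 61854) (PT.lf (nat_lit 13756) (nat_lit 6) (nat_lit 181) (nat_lit 1) (nat_lit 223) (nat_lit 161) (nat_lit 216)) (PT.lf (nat_lit 14060) (nat_lit 6) (nat_lit 185) (nat_lit 3) (nat_lit 215) (nat_lit 162) (nat_lit 223)))) (PT.nd (nat_lit 156) (PT.nd (nat_lit 78) (PT.lf (nat_lit 14136) (nat_lit 6) (nat_lit 186) (nat_lit 3) (nat_lit 216) (nat_lit 162) (nat_lit 222)) (PT.lf (nat_lit 14212) (nat_lit 6) (nat_lit 187) (nat_lit 3) (nat_lit 217) (nat_lit 162) (nat_lit 221))) (PT.nd (nat_lit 78) (PT.lf (nat_lit 14288) (nat_lit 6) (nat_lit 188) (nat_lit 3)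 (nat_lit 218) (nat_lit 162) (nat_lit 220)) (PT.lf (nat_lit 14364) (nat_lit 3) (nat_lit 189) (nat_lit 1) (nat_lit 219) (nat_lit 162) (nat_lit 219))))) (PT.nd (nat_lit 62088) (PT.nd (nat_lit 156) (PT.nd (nat_lit 78) (PT.lf (nat_lit 14288) (nat_lit 6) (nat_lit 188) (nat_lit 1) (nat_lit 220) (nat_lit 162) (nat_lit 218)) (PT.lf (nat_lit 14212) (nat_lit 6) (nat_lit 187) (nat_lit 1) (nat_lit 221) (nat_lit 162) (nat_lit 217))) (PT.nd (nat_lit 78) (PT.lf (nat_lit 14136) (nat_lit 6) (nat_lit 186) (nat_lit 1) (nat_lit 222) (nat_lit 162) (nat_lit 216)) (PT.lf (nat_lit 14060) (nat_lit 6) (nat_lit 185) (nat_lit 1) (nat_lit 223) (nat_lit 162) (nat_lit 215)))) (PT.nd (nat_lit 156) (PT.nd (nat_lit 78) (PT.lf (nat_lit 14440) (nat_lit 6) (nat_lit 190) (nat_lit 3) (nat_lit 215) (nat_lit 163) (nat_lit 222)) (PT.lf (nat_lit 14516) (nat_lit 6) (nat_lit 191) (nat_lit 3) (nat_lit 216) (nat_lit 163) (nat_lit 221))) (PT.nd (nat_lit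 78) (PT.lf (nat_lit 14592) (nat_lit 6) (nat_lit 192) (nat_lit 3) (nat_lit 217) (nat_lit 163) (nat_lit 220)) (PT.nd (nat_lit 78) (PT.lf (nat_lit 14668) (nat_lit 6) (nat_lit 193) (nat_lit 3) (nat_lit 218) (nat_lit 163) (nat_lit 219)) (PT.lf (nat_lit 14668) (nat_lit 6) (nat_lit 193) (nat_lit 1) (nat_lit 219) (nat_lit 163) (nat_lit 218))))))) (PT.nd (nat_lit 62400) (PT.nd (nat_lit 62088) (PT.nd (nat_lit 156) (PT.nd (nat_lit 78) (PT.lf (nat_lit 14592) (nat_lit 6) (nat_lit 192) (nat_lit 1) (nat_lit 220) (nat_lit 163) (nat_lit 217)) (PT.lf (nat_lit 14516) (nat_lit 6) (nat_lit 191) (nat_lit 1) (nat_lit 221) (nat_lit 163) (nat_lit 216))) (PT.nd (nat_lit 61854) (PT.lf (nat_lit 14440) (nat_lit 6) (nat_lit 190) (nat_lit 1) (nat_lit 222) (nat_lit 163) (nat_lit 215)) (PT.lf (nat_lit 14744) (nat_lit 6) (nat_lit 194) (nat_lit 3) (nat_lit 214) (nat_lit 164) (nat_lit 222)))) (PT.nd (nat_lit 156) (PT.nd (nat_lit 78) (PT.lf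 (nat_lit 14820) (nat_lit 6) (nat_lit 195) (nat_lit 3) (nat_lit 215) (nat_lit 164) (nat_lit 221)) (PT.lf (nat_lit 14896) (nat_lit 6) (nat_lit 196) (nat_lit 3) (nat_lit 216) (nat_lit 164) (nat_lit 220))) (PT.nd (nat_lit 78) (PT.lf (nat_lit 14972) (nat_lit 6) (nat_lit 197) (nat_lit 3) (nat_lit 217) (nat_lit 164) (nat_lit 219)) (PT.lf (nat_lit 15048) (nat_lit 3) (nat_lit 198) (nat_lit 1) (nat_lit 218) (nat_lit 164) (nat_lit 218))))) (PT.nd (nat_lit 62088) (PT.nd (nat_lit 156) (PT.nd (nat_lit 78) (PT.lf (nat_lit 14972) (nat_lit 6) (nat_lit 197) (nat_lit 1) (nat_lit 219) (nat_lit 164) (nat_lit 217)) (PT.lf (nat_lit 14896) (nat_lit 6) (nat_lit 196) (nat_lit 1) (nat_lit 220) (nat_lit 164) (nat_lit 216))) (PT.nd (nat_lit 78) (PT.lf (nat_lit 14820) (nat_lit 6) (nat_lit 195) (nat_lit 1) (nat_lit 221) (nat_lit 164) (nat_lit 215)) (PT.lf (nat_lit 14744) (nat_lit 6) (nat_lit 194) (nat_lit 1) (nat_lit 222) (nat_lit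 164) (nat_lit 214)))) (PT.nd (nat_lit 156) (PT.nd (nat_lit 78) (PT.lf (nat_lit 15124) (nat_lit 6) (nat_lit 199) (nat_lit 3) (nat_lit 214) (nat_lit 165) (nat_lit 221)) (PT.lf (nat_lit 15200) (nat_lit 6) (nat_lit 200) (nat_lit 3) (nat_lit 215) (nat_lit 165) (nat_lit 220))) (PT.nd (nat_lit 78) (PT.lf (nat_lit 15276) (nat_lit 6) (nat_lit 201) (nat_lit 3) (nat_lit 216) (nat_lit 165) (nat_lit 219)) (PT.nd (nat_lit 78) (PT.lf (nat_lit 15352) (nat_lit 6) (nat_lit 202) (nat_lit 3) (nat_lit 217) (nat_lit 165) (nat_lit 218)) (PT.lf (nat_lit 15352) (nat_lit 6) (nat_lit 202) (nat_lit 1) (nat_lit 218) (nat_lit 165) (nat_lit 217))))))))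
noncomputable def pc6 : PT := (PT.nd (nat_lit 124722) (PT.nd (nat_lit 62400) (PT.nd (nat_lit 62088) (PT.nd (nat_lit 156) (PT.nd (nat_lit 78) (PT.lf (nat_lit 15276) (nat_lit 6) (nat_lit 201) (nat_lit 1) (nat_lit 219) (nat_lit 165) (nat_lit 216)) (PT.lf (nat_lit 15200) (nat_lit 6) (nat_lit 200) (nat_lit 1) (nat_lit 220) (nat_lit 165) (nat_lit 215))) (PT.nd (nat_lit 61854) (PT.lf (nat_lit 15124) (nat_lit 6) (nat_lit 199) (nat_lit 1) (nat_lit 221) (nat_lit 165) (nat_lit 214)) (PT.lf (nat_lit 15428) (nat_lit 6) (nat_lit 203) (nat_lit 3) (nat_lit 213) (nat_lit 166) (nat_lit 221)))) (PT.nd (nat_lit 156) (PT.nd (nat_lit 78) (PT.lf (nat_lit 15504) (nat_lit 6) (nat_lit 204) (nat_lit 3) (nat_lit 214) (nat_lit 166) (nat_lit 220)) (PT.lf (nat_lit 15580) (nat_lit 6) (nat_lit 205) (nat_lit 3) (nat_lit 215) (nat_lit 166) (nat_lit 219))) (PT.nd (nat_lit 78) (PT.lf (nat_lit 15656) (nat_lit 6) (nat_lit 206) (nat_lit 3)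 (nat_lit 216) (nat_lit 166) (nat_lit 218)) (PT.lf (nat_lit 15732) (nat_lit 3) (nat_lit 207) (nat_lit 1) (nat_lit 217) (nat_lit 166) (nat_lit 217))))) (PT.nd (nat_lit 62010) (PT.nd (nat_lit 156) (PT.nd (nat_lit 78) (PT.lf (nat_lit 15656) (nat_lit 6) (nat_lit 206) (nat_lit 1) (nat_lit 218) (nat_lit 166) (nat_lit 216)) (PT.lf (nat_lit 15580) (nat_lit 6) (nat_lit 205) (nat_lit 1) (nat_lit 219) (nat_lit 166) (nat_lit 215))) (PT.nd (nat_lit 78) (PT.lf (nat_lit 15504) (nat_lit 6) (nat_lit 204) (nat_lit 1) (nat_lit 220) (nat_lit 166) (nat_lit 214)) (PT.lf (nat_lit 15428) (nat_lit 6) (nat_lit 203) (nat_lit 1) (nat_lit 221) (nat_lit 166) (nat_lit 213)))) (PT.nd (nat_lit 156) (PT.nd (nat_lit 78) (PT.lf (nat_lit 15808) (nat_lit 6) (nat_lit 208) (nat_lit 3) (nat_lit 212) (nat_lit 167) (nat_lit 221)) (PT.lf (nat_lit 15884) (nat_lit 6) (nat_lit 209) (nat_lit 3) (nat_lit 213) (nat_lit 167) (nat_lit 220))) (PT.nd (nat_lit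 78) (PT.lf (nat_lit 15960) (nat_lit 6) (nat_lit 210) (nat_lit 3) (nat_lit 214) (nat_lit 167) (nat_lit 219)) (PT.lf (nat_lit 16036) (nat_lit 6) (nat_lit 211) (nat_lit 3) (nat_lit 215) (nat_lit 167) (nat_lit 218)))))) (PT.nd (nat_lit 62322) (PT.nd (nat_lit 312) (PT.nd (nat_lit 156) (PT.nd (nat_lit 78) (PT.lf (nat_lit 16112) (nat_lit 6) (nat_lit 212) (nat_lit 3) (nat_lit 216) (nat_lit 167) (nat_lit 217)) (PT.lf (nat_lit 16112) (nat_lit 6) (nat_lit 212) (nat_lit 1) (nat_lit 217) (nat_lit 167) (nat_lit 216))) (PT.nd (nat_lit 78) (PT.lf (nat_lit 16036) (nat_lit 6) (nat_lit 211) (nat_lit 1) (nat_lit 218) (nat_lit 167) (nat_lit 215)) (PT.lf (nat_lit 15960) (nat_lit 6) (nat_lit 210) (nat_lit 1) (nat_lit 219) (nat_lit 167) (nat_lit 214)))) (PT.nd (nat_lit 61854) (PT.nd (nat_lit 78) (PT.lf (nat_lit 15884) (nat_lit 6) (nat_lit 209) (nat_lit 1) (nat_lit 220) (nat_lit 167) (nat_lit 213)) (PT.lf (nat_lit 15808) (nat_lit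 6) (nat_lit 208) (nat_lit 1) (nat_lit 221) (nat_lit 167) (nat_lit 212))) (PT.nd (nat_lit 78) (PT.lf (nat_lit 16264) (nat_lit 6) (nat_lit 214) (nat_lit 3) (nat_lit 212) (nat_lit 168) (nat_lit 220)) (PT.lf (nat_lit 16340) (nat_lit 6) (nat_lit 215) (nat_lit 3) (nat_lit 213) (nat_lit 168) (nat_lit 219))))) (PT.nd (nat_lit 312) (PT.nd (nat_lit 156) (PT.nd (nat_lit 78) (PT.lf (nat_lit 16416) (nat_lit 6) (nat_lit 216) (nat_lit 3) (nat_lit 214) (nat_lit 168) (nat_lit 218)) (PT.lf (nat_lit 16492) (nat_lit 6) (nat_lit 217) (nat_lit 3) (nat_lit 215) (nat_lit 168) (nat_lit 217))) (PT.nd (nat_lit 78) (PT.lf (nat_lit 16568) (nat_lit 3) (nat_lit 218) (nat_lit 1) (nat_lit 216) (nat_lit 168) (nat_lit 216)) (PT.lf (nat_lit 16492) (nat_lit 6) (nat_lit 217) (nat_lit 1) (nat_lit 217) (nat_lit 168) (nat_lit 215)))) (PT.nd (nat_lit 156) (PT.nd (nat_lit 78) (PT.lf (nat_lit 16416) (nat_lit 6) (nat_lit 216) (nat_lit 1) (nat_lit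 218) (nat_lit 168) (nat_lit 214)) (PT.lf (nat_lit 16340) (nat_lit 6) (nat_lit 215) (nat_lit 1) (nat_lit 219) (nat_lit 168) (nat_lit 213))) (PT.nd (nat_lit 61776) (PT.lf (nat_lit 16264) (nat_lit 6) (nat_lit 214) (nat_lit 1) (nat_lit 220) (nat_lit 168) (nat_lit 212)) (PT.nd (nat_lit 78) (PT.lf (nat_lit 16644) (nat_lit 6) (nat_lit 219) (nat_lit 3) (nat_lit 211) (nat_lit 169) (nat_lit 220)) (PT.lf (nat_lit 16720) (nat_lit 6) (nat_lit 220) (nat_lit 3) (nat_lit 212) (nat_lit 169) (nat_lit 219))))))))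
noncomputable def pc7 : PT := (PT.nd (nat_lit 62946) (PT.nd (nat_lit 62244) (PT.nd (nat_lit 312) (PT.nd (nat_lit 156) (PT.nd (nat_lit 78) (PT.lf (nat_lit 16796) (nat_lit 6) (nat_lit 221) (nat_lit 3) (nat_lit 213) (nat_lit 169) (nat_lit 218)) (PT.lf (nat_lit 16872) (nat_lit 6) (nat_lit 222) (nat_lit 3) (nat_lit 214) (nat_lit 169) (nat_lit 217))) (PT.nd (nat_lit 78) (PT.lf (nat_lit 16948) (nat_lit 6) (nat_lit 223) (nat_lit 3) (nat_lit 215) (nat_lit 169) (nat_lit 216)) (PT.lf (nat_lit 16948) (nat_lit 6) (nat_lit 223) (nat_lit 1) (nat_lit 216) (nat_lit 169) (nat_lit 215)))) (PT.nd (nat_lit 156) (PT.nd (nat_lit 78) (PT.lf (nat_lit 16872) (nat_lit 6) (nat_lit 222) (nat_lit 1) (nat_lit 217) (nat_lit 169) (nat_lit 214)) (PT.lf (nat_lit 16796) (nat_lit 6) (nat_lit 221) (nat_lit 1) (nat_lit 218) (nat_lit 169) (nat_lit 213))) (PT.nd (nat_lit 78) (PT.lf (nat_lit 16720) (nat_lit 6) (nat_lit 220) (nat_lit 1) (nat_lit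 219) (nat_lit 169) (nat_lit 212)) (PT.lf (nat_lit 16644) (nat_lit 6) (nat_lit 219) (nat_lit 1) (nat_lit 220) (nat_lit 169) (nat_lit 211))))) (PT.nd (nat_lit 312) (PT.nd (nat_lit 156) (PT.nd (nat_lit 78) (PT.lf (nat_lit 17024) (nat_lit 6) (nat_lit 224) (nat_lit 3) (nat_lit 210) (nat_lit 170) (nat_lit 220)) (PT.lf (nat_lit 17100) (nat_lit 6) (nat_lit 225) (nat_lit 3) (nat_lit 211) (nat_lit 170) (nat_lit 219))) (PT.nd (nat_lit 78) (PT.lf (nat_lit 17176) (nat_lit 6) (nat_lit 226) (nat_lit 3) (nat_lit 212) (nat_lit 170) (nat_lit 218)) (PT.lf (nat_lit 17252) (nat_lit 6) (nat_lit 227) (nat_lit 3) (nat_lit 213) (nat_lit 170) (nat_lit 217)))) (PT.nd (nat_lit 156) (PT.nd (nat_lit 78) (PT.lf (nat_lit 17328) (nat_lit 6) (nat_lit 228) (nat_lit 3) (nat_lit 214) (nat_lit 170) (nat_lit 216)) (PT.lf (nat_lit 17404) (nat_lit 3) (nat_lit 229) (nat_lit 1) (nat_lit 215) (nat_lit 170) (nat_lit 215))) (PT.nd (nat_lit 78)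 (PT.lf (nat_lit 17328) (nat_lit 6) (nat_lit 228) (nat_lit 1) (nat_lit 216) (nat_lit 170) (nat_lit 214)) (PT.nd (nat_lit 78) (PT.lf (nat_lit 17252) (nat_lit 6) (nat_lit 227) (nat_lit 1) (nat_lit 217) (nat_lit 170) (nat_lit 213)) (PT.lf (nat_lit 17176) (nat_lit 6) (nat_lit 226) (nat_lit 1) (nat_lit 218) (nat_lit 170) (nat_lit 212))))))) (PT.nd (nat_lit 62166) (PT.nd (nat_lit 61854) (PT.nd (nat_lit 61698) (PT.nd (nat_lit 78) (PT.lf (nat_lit 17100) (nat_lit 6) (nat_lit 225) (nat_lit 1) (nat_lit 219) (nat_lit 170) (nat_lit 211)) (PT.lf (nat_lit 17024) (nat_lit 6) (nat_lit 224) (nat_lit 1) (nat_lit 220) (nat_lit 170) (nat_lit 210))) (PT.nd (nat_lit 78) (PT.lf (nat_lit 17480) (nat_lit 6) (nat_lit 230) (nat_lit 3) (nat_lit 209) (nat_lit 171) (nat_lit 220)) (PT.lf (nat_lit 17556) (nat_lit 6) (nat_lit 231) (nat_lit 3) (nat_lit 210) (nat_lit 171) (nat_lit 219)))) (PT.nd (nat_lit 156) (PT.nd (nat_lit 78) (PT.lf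 (nat_lit 17632) (nat_lit 6) (nat_lit 232) (nat_lit 3) (nat_lit 211) (nat_lit 171) (nat_lit 218)) (PT.lf (nat_lit 17708) (nat_lit 6) (nat_lit 233) (nat_lit 3) (nat_lit 212) (nat_lit 171) (nat_lit 217))) (PT.nd (nat_lit 78) (PT.lf (nat_lit 17784) (nat_lit 6) (nat_lit 234) (nat_lit 3) (nat_lit 213) (nat_lit 171) (nat_lit 216)) (PT.lf (nat_lit 17860) (nat_lit 6) (nat_lit 235) (nat_lit 3) (nat_lit 214) (nat_lit 171) (nat_lit 215))))) (PT.nd (nat_lit 312) (PT.nd (nat_lit 156) (PT.nd (nat_lit 78) (PT.lf (nat_lit 17860) (nat_lit 6) (nat_lit 235) (nat_lit 1) (nat_lit 215) (nat_lit 171) (nat_lit 214)) (PT.lf (nat_lit 17784) (nat_lit 6) (nat_lit 234) (nat_lit 1) (nat_lit 216) (nat_lit 171) (nat_lit 213))) (PT.nd (nat_lit 78) (PT.lf (nat_lit 17708) (nat_lit 6) (nat_lit 233) (nat_lit 1) (nat_lit 217) (nat_lit 171) (nat_lit 212)) (PT.lf (nat_lit 17632) (nat_lit 6) (nat_lit 232) (nat_lit 1) (nat_lit 218) (nat_lit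 171) (nat_lit 211)))) (PT.nd (nat_lit 61698) (PT.nd (nat_lit 78) (PT.lf (nat_lit 17556) (nat_lit 6) (nat_lit 231) (nat_lit 1) (nat_lit 219) (nat_lit 171) (nat_lit 210)) (PT.lf (nat_lit 17480) (nat_lit 6) (nat_lit 230) (nat_lit 1) (nat_lit 220) (nat_lit 171) (nat_lit 209))) (PT.nd (nat_lit 78) (PT.lf (nat_lit 17936) (nat_lit 6) (nat_lit 236) (nat_lit 3) (nat_lit 209) (nat_lit 172) (nat_lit 219)) (PT.nd (nat_lit 78) (PT.lf (nat_lit 18012) (nat_lit 6) (nat_lit 237) (nat_lit 3) (nat_lit 210) (nat_lit 172) (nat_lit 218)) (PT.lf (nat_lit 18088) (nat_lit 6) (nat_lit 238) (nat_lit 3) (nat_lit 211) (nat_lit 172) (nat_lit 217))))))))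
noncomputable def pc8 : PT := (PT.nd (nat_lit 62790) (PT.nd (nat_lit 62166) (PT.nd (nat_lit 312) (PT.nd (nat_lit 156) (PT.nd (nat_lit 78) (PT.lf (nat_lit 18164) (nat_lit 6) (nat_lit 239) (nat_lit 3) (nat_lit 212) (nat_lit 172) (nat_lit 216)) (PT.lf (nat_lit 18240) (nat_lit 6) (nat_lit 240) (nat_lit 3) (nat_lit 213) (nat_lit 172) (nat_lit 215))) (PT.nd (nat_lit 78) (PT.lf (nat_lit 18316) (nat_lit 3) (nat_lit 241) (nat_lit 1) (nat_lit 214) (nat_lit 172) (nat_lit 214)) (PT.lf (nat_lit 18240) (nat_lit 6) (nat_lit 240) (nat_lit 1) (nat_lit 215) (nat_lit 172) (nat_lit 213)))) (PT.nd (nat_lit 156) (PT.nd (nat_lit 78) (PT.lf (nat_lit 18164) (nat_lit 6) (nat_lit 239) (nat_lit 1) (nat_lit 216) (nat_lit 172) (nat_lit 212)) (PT.lf (nat_lit 18088) (nat_lit 6) (nat_lit 238) (nat_lit 1) (nat_lit 217) (nat_lit 172) (nat_lit 211))) (PT.nd (nat_lit 78) (PT.lf (nat_lit 18012) (nat_lit 6) (nat_lit 237) (nat_lit 1) (nat_lit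 218) (nat_lit 172) (nat_lit 210)) (PT.lf (nat_lit 17936) (nat_lit 6) (nat_lit 236) (nat_lit 1) (nat_lit 219) (nat_lit 172) (nat_lit 209))))) (PT.nd (nat_lit 312) (PT.nd (nat_lit 156) (PT.nd (nat_lit 78) (PT.lf (nat_lit 18392) (nat_lit 6) (nat_lit 242) (nat_lit 3) (nat_lit 208) (nat_lit 173) (nat_lit 219)) (PT.lf (nat_lit 18468) (nat_lit 6) (nat_lit 243) (nat_lit 3) (nat_lit 209) (nat_lit 173) (nat_lit 218))) (PT.nd (nat_lit 78) (PT.lf (nat_lit 18544) (nat_lit 6) (nat_lit 244) (nat_lit 3) (nat_lit 210) (nat_lit 173) (nat_lit 217)) (PT.lf (nat_lit 18620) (nat_lit 6) (nat_lit 245) (nat_lit 3) (nat_lit 211) (nat_lit 173) (nat_lit 216)))) (PT.nd (nat_lit 156) (PT.nd (nat_lit 78) (PT.lf (nat_lit 18696) (nat_lit 6) (nat_lit 246) (nat_lit 3) (nat_lit 212) (nat_lit 173) (nat_lit 215)) (PT.lf (nat_lit 18772) (nat_lit 6) (nat_lit 247) (nat_lit 3) (nat_lit 213) (nat_lit 173) (nat_lit 214))) (PT.nd (nat_lit 78)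 (PT.lf (nat_lit 18772) (nat_lit 6) (nat_lit 247) (nat_lit 1) (nat_lit 214) (nat_lit 173) (nat_lit 213)) (PT.lf (nat_lit 18696) (nat_lit 6) (nat_lit 246) (nat_lit 1) (nat_lit 215) (nat_lit 173) (nat_lit 212)))))) (PT.nd (nat_lit 62088) (PT.nd (nat_lit 61776) (PT.nd (nat_lit 156) (PT.nd (nat_lit 78) (PT.lf (nat_lit 18620) (nat_lit 6) (nat_lit 245) (nat_lit 1) (nat_lit 216) (nat_lit 173) (nat_lit 211)) (PT.lf (nat_lit 18544) (nat_lit 6) (nat_lit 244) (nat_lit 1) (nat_lit 217) (nat_lit 173) (nat_lit 210))) (PT.nd (nat_lit 78) (PT.lf (nat_lit 18468) (nat_lit 6) (nat_lit 243) (nat_lit 1) (nat_lit 218) (nat_lit 173) (nat_lit 209)) (PT.lf (nat_lit 18392) (nat_lit 6) (nat_lit 242) (nat_lit 1) (nat_lit 219) (nat_lit 173) (nat_lit 208)))) (PT.nd (nat_lit 156) (PT.nd (nat_lit 78) (PT.lf (nat_lit 18848) (nat_lit 6) (nat_lit 248) (nat_lit 3) (nat_lit 207) (nat_lit 174) (nat_lit 219)) (PT.lf (nat_lit 18924) (nat_lit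 6) (nat_lit 249) (nat_lit 3) (nat_lit 208) (nat_lit 174) (nat_lit 218))) (PT.nd (nat_lit 78) (PT.lf (nat_lit 19000) (nat_lit 6) (nat_lit 250) (nat_lit 3) (nat_lit 209) (nat_lit 174) (nat_lit 217)) (PT.lf (nat_lit 19076) (nat_lit 6) (nat_lit 251) (nat_lit 3) (nat_lit 210) (nat_lit 174) (nat_lit 216))))) (PT.nd (nat_lit 312) (PT.nd (nat_lit 156) (PT.nd (nat_lit 78) (PT.lf (nat_lit 19152) (nat_lit 6) (nat_lit 252) (nat_lit 3) (nat_lit 211) (nat_lit 174) (nat_lit 215)) (PT.lf (nat_lit 19228) (nat_lit 6) (nat_lit 253) (nat_lit 3) (nat_lit 212) (nat_lit 174) (nat_lit 214))) (PT.nd (nat_lit 78) (PT.lf (nat_lit 19304) (nat_lit 3) (nat_lit 254) (nat_lit 1) (nat_lit 213) (nat_lit 174) (nat_lit 213)) (PT.lf (nat_lit 19228) (nat_lit 6) (nat_lit 253) (nat_lit 1) (nat_lit 214) (nat_lit 174) (nat_lit 212)))) (PT.nd (nat_lit 156) (PT.nd (nat_lit 78) (PT.lf (nat_lit 19152) (nat_lit 6) (nat_lit 252) (nat_lit 1) (nat_lit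 215) (nat_lit 174) (nat_lit 211)) (PT.lf (nat_lit 19076) (nat_lit 6) (nat_lit 251) (nat_lit 1) (nat_lit 216) (nat_lit 174) (nat_lit 210))) (PT.nd (nat_lit 78) (PT.lf (nat_lit 19000) (nat_lit 6) (nat_lit 250) (nat_lit 1) (nat_lit 217) (nat_lit 174) (nat_lit 209)) (PT.nd (nat_lit 78) (PT.lf (nat_lit 18924) (nat_lit 6) (nat_lit 249) (nat_lit 1) (nat_lit 218) (nat_lit 174) (nat_lit 208)) (PT.lf (nat_lit 18848) (nat_lit 6) (nat_lit 248) (nat_lit 1) (nat_lit 219) (nat_lit 174) (nat_lit 207))))))))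
noncomputable def pc9 : PT := (PT.nd (nat_lit 62712) (PT.nd (nat_lit 624) (PT.nd (nat_lit 312) (PT.nd (nat_lit 156) (PT.nd (nat_lit 78) (PT.lf (nat_lit 19380) (nat_lit 6) (nat_lit 255) (nat_lit 3) (nat_lit 207) (nat_lit 175) (nat_lit 218)) (PT.lf (nat_lit 19456) (nat_lit 6) (nat_lit 256) (nat_lit 3) (nat_lit 208) (nat_lit 175) (nat_lit 217))) (PT.nd (nat_lit 78) (PT.lf (nat_lit 19532) (nat_lit 6) (nat_lit 257) (nat_lit 3) (nat_lit 209) (nat_lit 175) (nat_lit 216)) (PT.lf (nat_lit 19608) (nat_lit 6) (nat_lit 258) (nat_lit 3) (nat_lit 210) (nat_lit 175) (nat_lit 215)))) (PT.nd (nat_lit 156) (PT.nd (nat_lit 78) (PT.lf (nat_lit 19684) (nat_lit 6) (nat_lit 259) (nat_lit 3) (nat_lit 211) (nat_lit 175) (nat_lit 214)) (PT.lf (nat_lit 19760) (nat_lit 6) (nat_lit 260) (nat_lit 3) (nat_lit 212) (nat_lit 175) (nat_lit 213))) (PT.nd (nat_lit 78) (PT.lf (nat_lit 19760) (nat_lit 6) (nat_lit 260) (nat_lit 1) (nat_lit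 213) (nat_lit 175) (nat_lit 212)) (PT.lf (nat_lit 19684) (nat_lit 6) (nat_lit 259) (nat_lit 1) (nat_lit 214) (nat_lit 175) (nat_lit 211))))) (PT.nd (nat_lit 61776) (PT.nd (nat_lit 156) (PT.nd (nat_lit 78) (PT.lf (nat_lit 19608) (nat_lit 6) (nat_lit 258) (nat_lit 1) (nat_lit 215) (nat_lit 175) (nat_lit 210)) (PT.lf (nat_lit 19532) (nat_lit 6) (nat_lit 257) (nat_lit 1) (nat_lit 216) (nat_lit 175) (nat_lit 209))) (PT.nd (nat_lit 78) (PT.lf (nat_lit 19456) (nat_lit 6) (nat_lit 256) (nat_lit 1) (nat_lit 217) (nat_lit 175) (nat_lit 208)) (PT.lf (nat_lit 19380) (nat_lit 6) (nat_lit 255) (nat_lit 1) (nat_lit 218) (nat_lit 175) (nat_lit 207)))) (PT.nd (nat_lit 156) (PT.nd (nat_lit 78) (PT.lf (nat_lit 19836) (nat_lit 6) (nat_lit 261) (nat_lit 3) (nat_lit 206) (nat_lit 176) (nat_lit 218)) (PT.lf (nat_lit 19912) (nat_lit 6) (nat_lit 262) (nat_lit 3) (nat_lit 207) (nat_lit 176) (nat_lit 217))) (PT.nd (nat_lit 78)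 (PT.lf (nat_lit 19988) (nat_lit 6) (nat_lit 263) (nat_lit 3) (nat_lit 208) (nat_lit 176) (nat_lit 216)) (PT.lf (nat_lit 20064) (nat_lit 6) (nat_lit 264) (nat_lit 3) (nat_lit 209) (nat_lit 176) (nat_lit 215)))))) (PT.nd (nat_lit 624) (PT.nd (nat_lit 312) (PT.nd (nat_lit 156) (PT.nd (nat_lit 78) (PT.lf (nat_lit 20140) (nat_lit 6) (nat_lit 265) (nat_lit 3) (nat_lit 210) (nat_lit 176) (nat_lit 214)) (PT.lf (nat_lit 20216) (nat_lit 6) (nat_lit 266) (nat_lit 3) (nat_lit 211) (nat_lit 176) (nat_lit 213))) (PT.nd (nat_lit 78) (PT.lf (nat_lit 20292) (nat_lit 3) (nat_lit 267) (nat_lit 1) (nat_lit 212) (nat_lit 176) (nat_lit 212)) (PT.lf (nat_lit 20216) (nat_lit 6) (nat_lit 266) (nat_lit 1) (nat_lit 213) (nat_lit 176) (nat_lit 211)))) (PT.nd (nat_lit 156) (PT.nd (nat_lit 78) (PT.lf (nat_lit 20140) (nat_lit 6) (nat_lit 265) (nat_lit 1) (nat_lit 214) (nat_lit 176) (nat_lit 210)) (PT.lf (nat_lit 20064) (nat_lit 6)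 (nat_lit 264) (nat_lit 1) (nat_lit 215) (nat_lit 176) (nat_lit 209))) (PT.nd (nat_lit 78) (PT.lf (nat_lit 19988) (nat_lit 6) (nat_lit 263) (nat_lit 1) (nat_lit 216) (nat_lit 176) (nat_lit 208)) (PT.lf (nat_lit 19912) (nat_lit 6) (nat_lit 262) (nat_lit 1) (nat_lit 217) (nat_lit 176) (nat_lit 207))))) (PT.nd (nat_lit 61698) (PT.nd (nat_lit 61542) (PT.nd (nat_lit 61464) (PT.lf (nat_lit 19836) (nat_lit 6) (nat_lit 261) (nat_lit 1) (nat_lit 218) (nat_lit 176) (nat_lit 206)) (PT.lf (nat_lit 20368) (nat_lit 6) (nat_lit 268) (nat_lit 3) (nat_lit 205) (nat_lit 177) (nat_lit 218))) (PT.nd (nat_lit 78) (PT.lf (nat_lit 20444) (nat_lit 6) (nat_lit 269) (nat_lit 3) (nat_lit 206) (nat_lit 177) (nat_lit 217)) (PT.lf (nat_lit 20520) (nat_lit 6) (nat_lit 270) (nat_lit 3) (nat_lit 207) (nat_lit 177) (nat_lit 216)))) (PT.nd (nat_lit 156) (PT.nd (nat_lit 78) (PT.lf (nat_lit 20596) (nat_lit 6) (nat_lit 271) (nat_lit 3) (nat_lit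 208) (nat_lit 177) (nat_lit 215)) (PT.lf (nat_lit 20672) (nat_lit 6) (nat_lit 272) (nat_lit 3) (nat_lit 209) (nat_lit 177) (nat_lit 214))) (PT.nd (nat_lit 78) (PT.lf (nat_lit 20748) (nat_lit 6) (nat_lit 273) (nat_lit 3) (nat_lit 210) (nat_lit 177) (nat_lit 213)) (PT.nd (nat_lit 78) (PT.lf (nat_lit 20824) (nat_lit 6) (nat_lit 274) (nat_lit 3) (nat_lit 211) (nat_lit 177) (nat_lit 212)) (PT.lf (nat_lit 20824) (nat_lit 6) (nat_lit 274) (nat_lit 1) (nat_lit 212) (nat_lit 177) (nat_lit 211))))))))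
noncomputable def pc10 : PT := (PT.nd (nat_lit 62556) (PT.nd (nat_lit 61932) (PT.nd (nat_lit 312) (PT.nd (nat_lit 156) (PT.nd (nat_lit 78) (PT.lf (nat_lit 20748) (nat_lit 6) (nat_lit 273) (nat_lit 1) (nat_lit 213) (nat_lit 177) (nat_lit 210)) (PT.lf (nat_lit 20672) (nat_lit 6) (nat_lit 272) (nat_lit 1) (nat_lit 214) (nat_lit 177) (nat_lit 209))) (PT.nd (nat_lit 78) (PT.lf (nat_lit 20596) (nat_lit 6) (nat_lit 271) (nat_lit 1) (nat_lit 215) (nat_lit 177) (nat_lit 208)) (PT.lf (nat_lit 20520) (nat_lit 6) (nat_lit 270) (nat_lit 1) (nat_lit 216) (nat_lit 177) (nat_lit 207)))) (PT.nd (nat_lit 61464) (PT.nd (nat_lit 78) (PT.lf (nat_lit 20444) (nat_lit 6) (nat_lit 269) (nat_lit 1) (nat_lit 217) (nat_lit 177) (nat_lit 206)) (PT.lf (nat_lit 20368) (nat_lit 6) (nat_lit 268) (nat_lit 1) (nat_lit 218) (nat_lit 177) (nat_lit 205))) (PT.nd (nat_lit 78) (PT.lf (nat_lit 20900) (nat_lit 6) (nat_lit 275) (nat_lit 3) (nat_lit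 204) (nat_lit 178) (nat_lit 218)) (PT.lf (nat_lit 20976) (nat_lit 6) (nat_lit 276) (nat_lit 3) (nat_lit 205) (nat_lit 178) (nat_lit 217))))) (PT.nd (nat_lit 312) (PT.nd (nat_lit 156) (PT.nd (nat_lit 78) (PT.lf (nat_lit 21052) (nat_lit 6) (nat_lit 277) (nat_lit 3) (nat_lit 206) (nat_lit 178) (nat_lit 216)) (PT.lf (nat_lit 21128) (nat_lit 6) (nat_lit 278) (nat_lit 3) (nat_lit 207) (nat_lit 178) (nat_lit 215))) (PT.nd (nat_lit 78) (PT.lf (nat_lit 21204) (nat_lit 6) (nat_lit 279) (nat_lit 3) (nat_lit 208) (nat_lit 178) (nat_lit 214)) (PT.lf (nat_lit 21280) (nat_lit 6) (nat_lit 280) (nat_lit 3) (nat_lit 209) (nat_lit 178) (nat_lit 213)))) (PT.nd (nat_lit 156) (PT.nd (nat_lit 78) (PT.lf (nat_lit 21356) (nat_lit 6) (nat_lit 281) (nat_lit 3) (nat_lit 210) (nat_lit 178) (nat_lit 212)) (PT.lf (nat_lit 21432) (nat_lit 3) (nat_lit 282) (nat_lit 1) (nat_lit 211) (nat_lit 178) (nat_lit 211))) (PT.nd (nat_lit 78)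 (PT.lf (nat_lit 21356) (nat_lit 6) (nat_lit 281) (nat_lit 1) (nat_lit 212) (nat_lit 178) (nat_lit 210)) (PT.lf (nat_lit 21280) (nat_lit 6) (nat_lit 280) (nat_lit 1) (nat_lit 213) (nat_lit 178) (nat_lit 209)))))) (PT.nd (nat_lit 61854) (PT.nd (nat_lit 312) (PT.nd (nat_lit 156) (PT.nd (nat_lit 78) (PT.lf (nat_lit 21204) (nat_lit 6) (nat_lit 279) (nat_lit 1) (nat_lit 214) (nat_lit 178) (nat_lit 208)) (PT.lf (nat_lit 21128) (nat_lit 6) (nat_lit 278) (nat_lit 1) (nat_lit 215) (nat_lit 178) (nat_lit 207))) (PT.nd (nat_lit 78) (PT.lf (nat_lit 21052) (nat_lit 6) (nat_lit 277) (nat_lit 1) (nat_lit 216) (nat_lit 178) (nat_lit 206)) (PT.lf (nat_lit 20976) (nat_lit 6) (nat_lit 276) (nat_lit 1) (nat_lit 217) (nat_lit 178) (nat_lit 205)))) (PT.nd (nat_lit 61386) (PT.nd (nat_lit 61308) (PT.lf (nat_lit 20900) (nat_lit 6) (nat_lit 275) (nat_lit 1) (nat_lit 218) (nat_lit 178) (nat_lit 204)) (PT.lf (nat_lit 21508) (nat_lit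 6) (nat_lit 283) (nat_lit 3) (nat_lit 203) (nat_lit 179) (nat_lit 218))) (PT.nd (nat_lit 78) (PT.lf (nat_lit 21584) (nat_lit 6) (nat_lit 284) (nat_lit 3) (nat_lit 204) (nat_lit 179) (nat_lit 217)) (PT.lf (nat_lit 21660) (nat_lit 6) (nat_lit 285) (nat_lit 3) (nat_lit 205) (nat_lit 179) (nat_lit 216))))) (PT.nd (nat_lit 312) (PT.nd (nat_lit 156) (PT.nd (nat_lit 78) (PT.lf (nat_lit 21736) (nat_lit 6) (nat_lit 286) (nat_lit 3) (nat_lit 206) (nat_lit 179) (nat_lit 215)) (PT.lf (nat_lit 21812) (nat_lit 6) (nat_lit 287) (nat_lit 3) (nat_lit 207) (nat_lit 179) (nat_lit 214))) (PT.nd (nat_lit 78) (PT.lf (nat_lit 21888) (nat_lit 6) (nat_lit 288) (nat_lit 3) (nat_lit 208) (nat_lit 179) (nat_lit 213)) (PT.lf (nat_lit 21964) (nat_lit 6) (nat_lit 289) (nat_lit 3) (nat_lit 209) (nat_lit 179) (nat_lit 212)))) (PT.nd (nat_lit 156) (PT.nd (nat_lit 78) (PT.lf (nat_lit 22040) (nat_lit 6) (nat_lit 290) (nat_lit 3) (nat_lit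 210) (nat_lit 179) (nat_lit 211)) (PT.lf (nat_lit 22040) (nat_lit 6) (nat_lit 290) (nat_lit 1) (nat_lit 211) (nat_lit 179) (nat_lit 210))) (PT.nd (nat_lit 78) (PT.lf (nat_lit 21964) (nat_lit 6) (nat_lit 289) (nat_lit 1) (nat_lit 212) (nat_lit 179) (nat_lit 209)) (PT.nd (nat_lit 78) (PT.lf (nat_lit 21888) (nat_lit 6) (nat_lit 288) (nat_lit 1) (nat_lit 213) (nat_lit 179) (nat_lit 208)) (PT.lf (nat_lit 21812) (nat_lit 6) (nat_lit 287) (nat_lit 1) (nat_lit 214) (nat_lit 179) (nat_lit 207))))))))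
noncomputable def pc11 : PT := (PT.nd (nat_lit 62556) (PT.nd (nat_lit 61854) (PT.nd (nat_lit 61542) (PT.nd (nat_lit 156) (PT.nd (nat_lit 78) (PT.lf (nat_lit 21736) (nat_lit 6) (nat_lit 286) (nat_lit 1) (nat_lit 215) (nat_lit 179) (nat_lit 206)) (PT.lf (nat_lit 21660) (nat_lit 6) (nat_lit 285) (nat_lit 1) (nat_lit 216) (nat_lit 179) (nat_lit 205))) (PT.nd (nat_lit 78) (PT.lf (nat_lit 21584) (nat_lit 6) (nat_lit 284) (nat_lit 1) (nat_lit 217) (nat_lit 179) (nat_lit 204)) (PT.lf (nat_lit 21508) (nat_lit 6) (nat_lit 283) (nat_lit 1) (nat_lit 218) (nat_lit 179) (nat_lit 203)))) (PT.nd (nat_lit 156) (PT.nd (nat_lit 78) (PT.lf (nat_lit 22116) (nat_lit 6) (nat_lit 291) (nat_lit 3) (nat_lit 203) (nat_lit 180) (nat_lit 217)) (PT.lf (nat_lit 22192) (nat_lit 6) (nat_lit 292) (nat_lit 3) (nat_lit 204) (nat_lit 180) (nat_lit 216))) (PT.nd (nat_lit 78) (PT.lf (nat_lit 22268) (nat_lit 6) (nat_lit 293) (nat_lit 3) (nat_lit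 205) (nat_lit 180) (nat_lit 215)) (PT.lf (nat_lit 22344) (nat_lit 6) (nat_lit 294) (nat_lit 3) (nat_lit 206) (nat_lit 180) (nat_lit 214))))) (PT.nd (nat_lit 312) (PT.nd (nat_lit 156) (PT.nd (nat_lit 78) (PT.lf (nat_lit 22420) (nat_lit 6) (nat_lit 295) (nat_lit 3) (nat_lit 207) (nat_lit 180) (nat_lit 213)) (PT.lf (nat_lit 22496) (nat_lit 6) (nat_lit 296) (nat_lit 3) (nat_lit 208) (nat_lit 180) (nat_lit 212))) (PT.nd (nat_lit 78) (PT.lf (nat_lit 22572) (nat_lit 6) (nat_lit 297) (nat_lit 3) (nat_lit 209) (nat_lit 180) (nat_lit 211)) (PT.lf (nat_lit 22648) (nat_lit 3) (nat_lit 298) (nat_lit 1) (nat_lit 210) (nat_lit 180) (nat_lit 210)))) (PT.nd (nat_lit 156) (PT.nd (nat_lit 78) (PT.lf (nat_lit 22572) (nat_lit 6) (nat_lit 297) (nat_lit 1) (nat_lit 211) (nat_lit 180) (nat_lit 209)) (PT.lf (nat_lit 22496) (nat_lit 6) (nat_lit 296) (nat_lit 1) (nat_lit 212) (nat_lit 180) (nat_lit 208))) (PT.nd (nat_lit 78)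 (PT.lf (nat_lit 22420) (nat_lit 6) (nat_lit 295) (nat_lit 1) (nat_lit 213) (nat_lit 180) (nat_lit 207)) (PT.nd (nat_lit 78) (PT.lf (nat_lit 22344) (nat_lit 6) (nat_lit 294) (nat_lit 1) (nat_lit 214) (nat_lit 180) (nat_lit 206)) (PT.lf (nat_lit 22268) (nat_lit 6) (nat_lit 293) (nat_lit 1) (nat_lit 215) (nat_lit 180) (nat_lit 205))))))) (PT.nd (nat_lit 61854) (PT.nd (nat_lit 61542) (PT.nd (nat_lit 61386) (PT.nd (nat_lit 78) (PT.lf (nat_lit 22192) (nat_lit 6) (nat_lit 292) (nat_lit 1) (nat_lit 216) (nat_lit 180) (nat_lit 204)) (PT.lf (nat_lit 22116) (nat_lit 6) (nat_lit 291) (nat_lit 1) (nat_lit 217) (nat_lit 180) (nat_lit 203))) (PT.nd (nat_lit 78) (PT.lf (nat_lit 22724) (nat_lit 6) (nat_lit 299) (nat_lit 3) (nat_lit 202) (nat_lit 181) (nat_lit 217)) (PT.lf (nat_lit 22800) (nat_lit 6) (nat_lit 300) (nat_lit 3) (nat_lit 203) (nat_lit 181) (nat_lit 216)))) (PT.nd (nat_lit 156) (PT.nd (nat_lit 78) (PT.lf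 (nat_lit 22876) (nat_lit 6) (nat_lit 301) (nat_lit 3) (nat_lit 204) (nat_lit 181) (nat_lit 215)) (PT.lf (nat_lit 22952) (nat_lit 6) (nat_lit 302) (nat_lit 3) (nat_lit 205) (nat_lit 181) (nat_lit 214))) (PT.nd (nat_lit 78) (PT.lf (nat_lit 23028) (nat_lit 6) (nat_lit 303) (nat_lit 3) (nat_lit 206) (nat_lit 181) (nat_lit 213)) (PT.lf (nat_lit 23104) (nat_lit 6) (nat_lit 304) (nat_lit 3) (nat_lit 207) (nat_lit 181) (nat_lit 212))))) (PT.nd (nat_lit 312) (PT.nd (nat_lit 156) (PT.nd (nat_lit 78) (PT.lf (nat_lit 23180) (nat_lit 6) (nat_lit 305) (nat_lit 3) (nat_lit 208) (nat_lit 181) (nat_lit 211)) (PT.lf (nat_lit 23256) (nat_lit 6) (nat_lit 306) (nat_lit 3) (nat_lit 209) (nat_lit 181) (nat_lit 210))) (PT.nd (nat_lit 78) (PT.lf (nat_lit 23256) (nat_lit 6) (nat_lit 306) (nat_lit 1) (nat_lit 210) (nat_lit 181) (nat_lit 209)) (PT.lf (nat_lit 23180) (nat_lit 6) (nat_lit 305) (nat_lit 1) (nat_lit 211) (nat_lit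 181) (nat_lit 208)))) (PT.nd (nat_lit 156) (PT.nd (nat_lit 78) (PT.lf (nat_lit 23104) (nat_lit 6) (nat_lit 304) (nat_lit 1) (nat_lit 212) (nat_lit 181) (nat_lit 207)) (PT.lf (nat_lit 23028) (nat_lit 6) (nat_lit 303) (nat_lit 1) (nat_lit 213) (nat_lit 181) (nat_lit 206))) (PT.nd (nat_lit 78) (PT.lf (nat_lit 22952) (nat_lit 6) (nat_lit 302) (nat_lit 1) (nat_lit 214) (nat_lit 181) (nat_lit 205)) (PT.nd (nat_lit 78) (PT.lf (nat_lit 22876) (nat_lit 6) (nat_lit 301) (nat_lit 1) (nat_lit 215) (nat_lit 181) (nat_lit 204)) (PT.lf (nat_lit 22800) (nat_lit 6) (nat_lit 300) (nat_lit 1) (nat_lit 216) (nat_lit 181) (nat_lit 203))))))))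
noncomputable def pc12 : PT := (PT.nd (nat_lit 62400) (PT.nd (nat_lit 61776) (PT.nd (nat_lit 61464) (PT.nd (nat_lit 61308) (PT.nd (nat_lit 61230) (PT.lf (nat_lit 22724) (nat_lit 6) (nat_lit 299) (nat_lit 1) (nat_lit 217) (nat_lit 181) (nat_lit 202)) (PT.lf (nat_lit 23332) (nat_lit 6) (nat_lit 307) (nat_lit 3) (nat_lit 201) (nat_lit 182) (nat_lit 217))) (PT.nd (nat_lit 78) (PT.lf (nat_lit 23408) (nat_lit 6) (nat_lit 308) (nat_lit 3) (nat_lit 202) (nat_lit 182) (nat_lit 216)) (PT.lf (nat_lit 23484) (nat_lit 6) (nat_lit 309) (nat_lit 3) (nat_lit 203) (nat_lit 182) (nat_lit 215)))) (PT.nd (nat_lit 156) (PT.nd (nat_lit 78) (PT.lf (nat_lit 23560) (nat_lit 6) (nat_lit 310) (nat_lit 3) (nat_lit 204) (nat_lit 182) (nat_lit 214)) (PT.lf (nat_lit 23636) (nat_lit 6) (nat_lit 311) (nat_lit 3) (nat_lit 205) (nat_lit 182) (nat_lit 213))) (PT.nd (nat_lit 78) (PT.lf (nat_lit 23712) (nat_lit 6) (nat_lit 312) (nat_lit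 3) (nat_lit 206) (nat_lit 182) (nat_lit 212)) (PT.lf (nat_lit 23788) (nat_lit 6) (nat_lit 313) (nat_lit 3) (nat_lit 207) (nat_lit 182) (nat_lit 211))))) (PT.nd (nat_lit 312) (PT.nd (nat_lit 156) (PT.nd (nat_lit 78) (PT.lf (nat_lit 23864) (nat_lit 6) (nat_lit 314) (nat_lit 3) (nat_lit 208) (nat_lit 182) (nat_lit 210)) (PT.lf (nat_lit 23940) (nat_lit 3) (nat_lit 315) (nat_lit 1) (nat_lit 209) (nat_lit 182) (nat_lit 209))) (PT.nd (nat_lit 78) (PT.lf (nat_lit 23864) (nat_lit 6) (nat_lit 314) (nat_lit 1) (nat_lit 210) (nat_lit 182) (nat_lit 208)) (PT.lf (nat_lit 23788) (nat_lit 6) (nat_lit 313) (nat_lit 1) (nat_lit 211) (nat_lit 182) (nat_lit 207)))) (PT.nd (nat_lit 156) (PT.nd (nat_lit 78) (PT.lf (nat_lit 23712) (nat_lit 6) (nat_lit 312) (nat_lit 1) (nat_lit 212) (nat_lit 182) (nat_lit 206)) (PT.lf (nat_lit 23636) (nat_lit 6) (nat_lit 311) (nat_lit 1) (nat_lit 213) (nat_lit 182) (nat_lit 205))) (PT.nd (nat_lit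 78) (PT.lf (nat_lit 23560) (nat_lit 6) (nat_lit 310) (nat_lit 1) (nat_lit 214) (nat_lit 182) (nat_lit 204)) (PT.lf (nat_lit 23484) (nat_lit 6) (nat_lit 309) (nat_lit 1) (nat_lit 215) (nat_lit 182) (nat_lit 203)))))) (PT.nd (nat_lit 61698) (PT.nd (nat_lit 61386) (PT.nd (nat_lit 61230) (PT.nd (nat_lit 78) (PT.lf (nat_lit 23408) (nat_lit 6) (nat_lit 308) (nat_lit 1) (nat_lit 216) (nat_lit 182) (nat_lit 202)) (PT.lf (nat_lit 23332) (nat_lit 6) (nat_lit 307) (nat_lit 1) (nat_lit 217) (nat_lit 182) (nat_lit 201))) (PT.nd (nat_lit 78) (PT.lf (nat_lit 24168) (nat_lit 6) (nat_lit 318) (nat_lit 3) (nat_lit 200) (nat_lit 183) (nat_lit 217)) (PT.lf (nat_lit 24244) (nat_lit 6) (nat_lit 319) (nat_lit 3) (nat_lit 201) (nat_lit 183) (nat_lit 216)))) (PT.nd (nat_lit 156) (PT.nd (nat_lit 78) (PT.lf (nat_lit 24320) (nat_lit 6) (nat_lit 320) (nat_lit 3) (nat_lit 202) (nat_lit 183) (nat_lit 215)) (PT.lf (nat_lit 24396)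 (nat_lit 6) (nat_lit 321) (nat_lit 3) (nat_lit 203) (nat_lit 183) (nat_lit 214))) (PT.nd (nat_lit 78) (PT.lf (nat_lit 24472) (nat_lit 6) (nat_lit 322) (nat_lit 3) (nat_lit 204) (nat_lit 183) (nat_lit 213)) (PT.lf (nat_lit 24548) (nat_lit 6) (nat_lit 323) (nat_lit 3) (nat_lit 205) (nat_lit 183) (nat_lit 212))))) (PT.nd (nat_lit 312) (PT.nd (nat_lit 156) (PT.nd (nat_lit 78) (PT.lf (nat_lit 24624) (nat_lit 6) (nat_lit 324) (nat_lit 3) (nat_lit 206) (nat_lit 183) (nat_lit 211)) (PT.lf (nat_lit 24700) (nat_lit 6) (nat_lit 325) (nat_lit 3) (nat_lit 207) (nat_lit 183) (nat_lit 210))) (PT.nd (nat_lit 78) (PT.lf (nat_lit 24776) (nat_lit 6) (nat_lit 326) (nat_lit 3) (nat_lit 208) (nat_lit 183) (nat_lit 209)) (PT.lf (nat_lit 24776) (nat_lit 6) (nat_lit 326) (nat_lit 1) (nat_lit 209) (nat_lit 183) (nat_lit 208)))) (PT.nd (nat_lit 156) (PT.nd (nat_lit 78) (PT.lf (nat_lit 24700) (nat_lit 6) (nat_lit 325) (nat_lit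 1) (nat_lit 210) (nat_lit 183) (nat_lit 207)) (PT.lf (nat_lit 24624) (nat_lit 6) (nat_lit 324) (nat_lit 1) (nat_lit 211) (nat_lit 183) (nat_lit 206))) (PT.nd (nat_lit 78) (PT.lf (nat_lit 24548) (nat_lit 6) (nat_lit 323) (nat_lit 1) (nat_lit 212) (nat_lit 183) (nat_lit 205)) (PT.nd (nat_lit 78) (PT.lf (nat_lit 24472) (nat_lit 6) (nat_lit 322) (nat_lit 1) (nat_lit 213) (nat_lit 183) (nat_lit 204)) (PT.lf (nat_lit 24396) (nat_lit 6) (nat_lit 321) (nat_lit 1) (nat_lit 214) (nat_lit 183) (nat_lit 203))))))))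
noncomputable def pc13 : PT := (PT.nd (nat_lit 62322) (PT.nd (nat_lit 61620) (PT.nd (nat_lit 61308) (PT.nd (nat_lit 156) (PT.nd (nat_lit 78) (PT.lf (nat_lit 24320) (nat_lit 6) (nat_lit 320) (nat_lit 1) (nat_lit 215) (nat_lit 183) (nat_lit 202)) (PT.lf (nat_lit 24244) (nat_lit 6) (nat_lit 319) (nat_lit 1) (nat_lit 216) (nat_lit 183) (nat_lit 201))) (PT.nd (nat_lit 61074) (PT.lf (nat_lit 24168) (nat_lit 6) (nat_lit 318) (nat_lit 1) (nat_lit 217) (nat_lit 183) (nat_lit 200)) (PT.lf (nat_lit 24092) (nat_lit 6) (nat_lit 317) (nat_lit 3) (nat_lit 199) (nat_lit 184) (nat_lit 217)))) (PT.nd (nat_lit 156) (PT.nd (nat_lit 78) (PT.lf (nat_lit 25460) (nat_lit 6) (nat_lit 335) (nat_lit 3) (nat_lit 200) (nat_lit 184) (nat_lit 216)) (PT.lf (nat_lit 25536) (nat_lit 6) (nat_lit 336) (nat_lit 3) (nat_lit 201) (nat_lit 184) (nat_lit 215))) (PT.nd (nat_lit 78) (PT.lf (nat_lit 25612) (nat_lit 6) (nat_lit 337) (nat_lit 3)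 (nat_lit 202) (nat_lit 184) (nat_lit 214)) (PT.lf (nat_lit 25688) (nat_lit 6) (nat_lit 338) (nat_lit 3) (nat_lit 203) (nat_lit 184) (nat_lit 213))))) (PT.nd (nat_lit 312) (PT.nd (nat_lit 156) (PT.nd (nat_lit 78) (PT.lf (nat_lit 25764) (nat_lit 6) (nat_lit 339) (nat_lit 3) (nat_lit 204) (nat_lit 184) (nat_lit 212)) (PT.lf (nat_lit 25840) (nat_lit 6) (nat_lit 340) (nat_lit 3) (nat_lit 205) (nat_lit 184) (nat_lit 211))) (PT.nd (nat_lit 78) (PT.lf (nat_lit 25916) (nat_lit 6) (nat_lit 341) (nat_lit 3) (nat_lit 206) (nat_lit 184) (nat_lit 210)) (PT.lf (nat_lit 25992) (nat_lit 6) (nat_lit 342) (nat_lit 3) (nat_lit 207) (nat_lit 184) (nat_lit 209)))) (PT.nd (nat_lit 156) (PT.nd (nat_lit 78) (PT.lf (nat_lit 26068) (nat_lit 3) (nat_lit 343) (nat_lit 1) (nat_lit 208) (nat_lit 184) (nat_lit 208)) (PT.lf (nat_lit 25992) (nat_lit 6) (nat_lit 342) (nat_lit 1) (nat_lit 209) (nat_lit 184) (nat_lit 207))) (PT.nd (nat_lit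 78) (PT.lf (nat_lit 25916) (nat_lit 6) (nat_lit 341) (nat_lit 1) (nat_lit 210) (nat_lit 184) (nat_lit 206)) (PT.nd (nat_lit 78) (PT.lf (nat_lit 25840) (nat_lit 6) (nat_lit 340) (nat_lit 1) (nat_lit 211) (nat_lit 184) (nat_lit 205)) (PT.lf (nat_lit 25764) (nat_lit 6) (nat_lit 339) (nat_lit 1) (nat_lit 212) (nat_lit 184) (nat_lit 204))))))) (PT.nd (nat_lit 61542) (PT.nd (nat_lit 312) (PT.nd (nat_lit 156) (PT.nd (nat_lit 78) (PT.lf (nat_lit 25688) (nat_lit 6) (nat_lit 338) (nat_lit 1) (nat_lit 213) (nat_lit 184) (nat_lit 203)) (PT.lf (nat_lit 25612) (nat_lit 6) (nat_lit 337) (nat_lit 1) (nat_lit 214) (nat_lit 184) (nat_lit 202))) (PT.nd (nat_lit 78) (PT.lf (nat_lit 25536) (nat_lit 6) (nat_lit 336) (nat_lit 1) (nat_lit 215) (nat_lit 184) (nat_lit 201)) (PT.lf (nat_lit 25460) (nat_lit 6) (nat_lit 335) (nat_lit 1) (nat_lit 216) (nat_lit 184) (nat_lit 200)))) (PT.nd (nat_lit 61074) (PT.nd (nat_lit 60996) (PT.lf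 (nat_lit 24092) (nat_lit 6) (nat_lit 317) (nat_lit 1) (nat_lit 217) (nat_lit 184) (nat_lit 199)) (PT.lf (nat_lit 24016) (nat_lit 6) (nat_lit 316) (nat_lit 3) (nat_lit 198) (nat_lit 185) (nat_lit 217))) (PT.nd (nat_lit 78) (PT.lf (nat_lit 25384) (nat_lit 6) (nat_lit 334) (nat_lit 3) (nat_lit 199) (nat_lit 185) (nat_lit 216)) (PT.lf (nat_lit 26676) (nat_lit 6) (nat_lit 351) (nat_lit 3) (nat_lit 200) (nat_lit 185) (nat_lit 215))))) (PT.nd (nat_lit 312) (PT.nd (nat_lit 156) (PT.nd (nat_lit 78) (PT.lf (nat_lit 26752) (nat_lit 6) (nat_lit 352) (nat_lit 3) (nat_lit 201) (nat_lit 185) (nat_lit 214)) (PT.lf (nat_lit 26828) (nat_lit 6) (nat_lit 353) (nat_lit 3) (nat_lit 202) (nat_lit 185) (nat_lit 213))) (PT.nd (nat_lit 78) (PT.lf (nat_lit 26904) (nat_lit 6) (nat_lit 354) (nat_lit 3) (nat_lit 203) (nat_lit 185) (nat_lit 212)) (PT.lf (nat_lit 26980) (nat_lit 6) (nat_lit 355) (nat_lit 3) (nat_lit 204) (nat_lit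 185) (nat_lit 211)))) (PT.nd (nat_lit 156) (PT.nd (nat_lit 78) (PT.lf (nat_lit 27056) (nat_lit 6) (nat_lit 356) (nat_lit 3) (nat_lit 205) (nat_lit 185) (nat_lit 210)) (PT.lf (nat_lit 27132) (nat_lit 6) (nat_lit 357) (nat_lit 3) (nat_lit 206) (nat_lit 185) (nat_lit 209))) (PT.nd (nat_lit 78) (PT.lf (nat_lit 27208) (nat_lit 6) (nat_lit 358) (nat_lit 3) (nat_lit 207) (nat_lit 185) (nat_lit 208)) (PT.nd (nat_lit 78) (PT.lf (nat_lit 27208) (nat_lit 6) (nat_lit 358) (nat_lit 1) (nat_lit 208) (nat_lit 185) (nat_lit 207)) (PT.lf (nat_lit 27132) (nat_lit 6) (nat_lit 357) (nat_lit 1) (nat_lit 209) (nat_lit 185) (nat_lit 206))))))))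
noncomputable def pc14 : PT := (PT.nd (nat_lit 62166) (PT.nd (nat_lit 61542) (PT.nd (nat_lit 312) (PT.nd (nat_lit 156) (PT.nd (nat_lit 78) (PT.lf (nat_lit 27056) (nat_lit 6) (nat_lit 356) (nat_lit 1) (nat_lit 210) (nat_lit 185) (nat_lit 205)) (PT.lf (nat_lit 26980) (nat_lit 6) (nat_lit 355) (nat_lit 1) (nat_lit 211) (nat_lit 185) (nat_lit 204))) (PT.nd (nat_lit 78) (PT.lf (nat_lit 26904) (nat_lit 6) (nat_lit 354) (nat_lit 1) (nat_lit 212) (nat_lit 185) (nat_lit 203)) (PT.lf (nat_lit 26828) (nat_lit 6) (nat_lit 353) (nat_lit 1) (nat_lit 213) (nat_lit 185) (nat_lit 202)))) (PT.nd (nat_lit 156) (PT.nd (nat_lit 78) (PT.lf (nat_lit 26752) (nat_lit 6) (nat_lit 352) (nat_lit 1) (nat_lit 214) (nat_lit 185) (nat_lit 201)) (PT.lf (nat_lit 26676) (nat_lit 6) (nat_lit 351) (nat_lit 1) (nat_lit 215) (nat_lit 185) (nat_lit 200))) (PT.nd (nat_lit 78) (PT.lf (nat_lit 25384) (nat_lit 6) (nat_lit 334) (nat_lit 1) (nat_lit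 216) (nat_lit 185) (nat_lit 199)) (PT.lf (nat_lit 24016) (nat_lit 6) (nat_lit 316) (nat_lit 1) (nat_lit 217) (nat_lit 185) (nat_lit 198))))) (PT.nd (nat_lit 312) (PT.nd (nat_lit 156) (PT.nd (nat_lit 78) (PT.lf (nat_lit 25308) (nat_lit 6) (nat_lit 333) (nat_lit 3) (nat_lit 198) (nat_lit 186) (nat_lit 216)) (PT.lf (nat_lit 26600) (nat_lit 6) (nat_lit 350) (nat_lit 3) (nat_lit 199) (nat_lit 186) (nat_lit 215))) (PT.nd (nat_lit 78) (PT.lf (nat_lit 27816) (nat_lit 6) (nat_lit 366) (nat_lit 3) (nat_lit 200) (nat_lit 186) (nat_lit 214)) (PT.lf (nat_lit 27892) (nat_lit 6) (nat_lit 367) (nat_lit 3) (nat_lit 201) (nat_lit 186) (nat_lit 213)))) (PT.nd (nat_lit 156) (PT.nd (nat_lit 78) (PT.lf (nat_lit 27968) (nat_lit 6) (nat_lit 368) (nat_lit 3) (nat_lit 202) (nat_lit 186) (nat_lit 212)) (PT.lf (nat_lit 28044) (nat_lit 6) (nat_lit 369) (nat_lit 3) (nat_lit 203) (nat_lit 186) (nat_lit 211))) (PT.nd (nat_lit 78)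 (PT.lf (nat_lit 28120) (nat_lit 6) (nat_lit 370) (nat_lit 3) (nat_lit 204) (nat_lit 186) (nat_lit 210)) (PT.lf (nat_lit 28196) (nat_lit 6) (nat_lit 371) (nat_lit 3) (nat_lit 205) (nat_lit 186) (nat_lit 209)))))) (PT.nd (nat_lit 624) (PT.nd (nat_lit 312) (PT.nd (nat_lit 156) (PT.nd (nat_lit 78) (PT.lf (nat_lit 28272) (nat_lit 6) (nat_lit 372) (nat_lit 3) (nat_lit 206) (nat_lit 186) (nat_lit 208)) (PT.lf (nat_lit 28348) (nat_lit 3) (nat_lit 373) (nat_lit 1) (nat_lit 207) (nat_lit 186) (nat_lit 207))) (PT.nd (nat_lit 78) (PT.lf (nat_lit 28272) (nat_lit 6) (nat_lit 372) (nat_lit 1) (nat_lit 208) (nat_lit 186) (nat_lit 206)) (PT.lf (nat_lit 28196) (nat_lit 6) (nat_lit 371) (nat_lit 1) (nat_lit 209) (nat_lit 186) (nat_lit 205)))) (PT.nd (nat_lit 156) (PT.nd (nat_lit 78) (PT.lf (nat_lit 28120) (nat_lit 6) (nat_lit 370) (nat_lit 1) (nat_lit 210) (nat_lit 186) (nat_lit 204)) (PT.lf (nat_lit 28044) (nat_lit 6)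 (nat_lit 369) (nat_lit 1) (nat_lit 211) (nat_lit 186) (nat_lit 203))) (PT.nd (nat_lit 78) (PT.lf (nat_lit 27968) (nat_lit 6) (nat_lit 368) (nat_lit 1) (nat_lit 212) (nat_lit 186) (nat_lit 202)) (PT.lf (nat_lit 27892) (nat_lit 6) (nat_lit 367) (nat_lit 1) (nat_lit 213) (nat_lit 186) (nat_lit 201))))) (PT.nd (nat_lit 61230) (PT.nd (nat_lit 156) (PT.nd (nat_lit 78) (PT.lf (nat_lit 27816) (nat_lit 6) (nat_lit 366) (nat_lit 1) (nat_lit 214) (nat_lit 186) (nat_lit 200)) (PT.lf (nat_lit 26600) (nat_lit 6) (nat_lit 350) (nat_lit 1) (nat_lit 215) (nat_lit 186) (nat_lit 199))) (PT.nd (nat_lit 60996) (PT.lf (nat_lit 25308) (nat_lit 6) (nat_lit 333) (nat_lit 1) (nat_lit 216) (nat_lit 186) (nat_lit 198)) (PT.lf (nat_lit 25232) (nat_lit 6) (nat_lit 332) (nat_lit 3) (nat_lit 197) (nat_lit 187) (nat_lit 216)))) (PT.nd (nat_lit 156) (PT.nd (nat_lit 78) (PT.lf (nat_lit 26524) (nat_lit 6) (nat_lit 349) (nat_lit 3) (nat_lit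 198) (nat_lit 187) (nat_lit 215)) (PT.lf (nat_lit 27740) (nat_lit 6) (nat_lit 365) (nat_lit 3) (nat_lit 199) (nat_lit 187) (nat_lit 214))) (PT.nd (nat_lit 78) (PT.lf (nat_lit 28880) (nat_lit 6) (nat_lit 380) (nat_lit 3) (nat_lit 200) (nat_lit 187) (nat_lit 213)) (PT.nd (nat_lit 78) (PT.lf (nat_lit 28956) (nat_lit 6) (nat_lit 381) (nat_lit 3) (nat_lit 201) (nat_lit 187) (nat_lit 212)) (PT.lf (nat_lit 29032) (nat_lit 6) (nat_lit 382) (nat_lit 3) (nat_lit 202) (nat_lit 187) (nat_lit 211))))))))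
noncomputable def pc15 : PT := (PT.nd (nat_lit 62166) (PT.nd (nat_lit 624) (PT.nd (nat_lit 312) (PT.nd (nat_lit 156) (PT.nd (nat_lit 78) (PT.lf (nat_lit 29108) (nat_lit 6) (nat_lit 383) (nat_lit 3) (nat_lit 203) (nat_lit 187) (nat_lit 210)) (PT.lf (nat_lit 29184) (nat_lit 6) (nat_lit 384) (nat_lit 3) (nat_lit 204) (nat_lit 187) (nat_lit 209))) (PT.nd (nat_lit 78) (PT.lf (nat_lit 29260) (nat_lit 6) (nat_lit 385) (nat_lit 3) (nat_lit 205) (nat_lit 187) (nat_lit 208)) (PT.lf (nat_lit 29336) (nat_lit 6) (nat_lit 386) (nat_lit 3) (nat_lit 206) (nat_lit 187) (nat_lit 207)))) (PT.nd (nat_lit 156) (PT.nd (nat_lit 78) (PT.lf (nat_lit 29336) (nat_lit 6) (nat_lit 386) (nat_lit 1) (nat_lit 207) (nat_lit 187) (nat_lit 206)) (PT.lf (nat_lit 29260) (nat_lit 6) (nat_lit 385) (nat_lit 1) (nat_lit 208) (nat_lit 187) (nat_lit 205))) (PT.nd (nat_lit 78) (PT.lf (nat_lit 29184) (nat_lit 6) (nat_lit 384) (nat_lit 1) (nat_lit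 209) (nat_lit 187) (nat_lit 204)) (PT.lf (nat_lit 29108) (nat_lit 6) (nat_lit 383) (nat_lit 1) (nat_lit 210) (nat_lit 187) (nat_lit 203))))) (PT.nd (nat_lit 312) (PT.nd (nat_lit 156) (PT.nd (nat_lit 78) (PT.lf (nat_lit 29032) (nat_lit 6) (nat_lit 382) (nat_lit 1) (nat_lit 211) (nat_lit 187) (nat_lit 202)) (PT.lf (nat_lit 28956) (nat_lit 6) (nat_lit 381) (nat_lit 1) (nat_lit 212) (nat_lit 187) (nat_lit 201))) (PT.nd (nat_lit 78) (PT.lf (nat_lit 28880) (nat_lit 6) (nat_lit 380) (nat_lit 1) (nat_lit 213) (nat_lit 187) (nat_lit 200)) (PT.lf (nat_lit 27740) (nat_lit 6) (nat_lit 365) (nat_lit 1) (nat_lit 214) (nat_lit 187) (nat_lit 199)))) (PT.nd (nat_lit 60996) (PT.nd (nat_lit 78) (PT.lf (nat_lit 26524) (nat_lit 6) (nat_lit 349) (nat_lit 1) (nat_lit 215) (nat_lit 187) (nat_lit 198)) (PT.lf (nat_lit 25232) (nat_lit 6) (nat_lit 332) (nat_lit 1) (nat_lit 216) (nat_lit 187) (nat_lit 197))) (PT.nd (nat_lit 78)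 (PT.lf (nat_lit 25156) (nat_lit 6) (nat_lit 331) (nat_lit 3) (nat_lit 196) (nat_lit 188) (nat_lit 216)) (PT.nd (nat_lit 78) (PT.lf (nat_lit 26448) (nat_lit 6) (nat_lit 348) (nat_lit 3) (nat_lit 197) (nat_lit 188) (nat_lit 215)) (PT.lf (nat_lit 27664) (nat_lit 6) (nat_lit 364) (nat_lit 3) (nat_lit 198) (nat_lit 188) (nat_lit 214))))))) (PT.nd (nat_lit 624) (PT.nd (nat_lit 312) (PT.nd (nat_lit 156) (PT.nd (nat_lit 78) (PT.lf (nat_lit 28804) (nat_lit 6) (nat_lit 379) (nat_lit 3) (nat_lit 199) (nat_lit 188) (nat_lit 213)) (PT.lf (nat_lit 29868) (nat_lit 6) (nat_lit 393) (nat_lit 3) (nat_lit 200) (nat_lit 188) (nat_lit 212))) (PT.nd (nat_lit 78) (PT.lf (nat_lit 29944) (nat_lit 6) (nat_lit 394) (nat_lit 3) (nat_lit 201) (nat_lit 188) (nat_lit 211)) (PT.lf (nat_lit 30020) (nat_lit 6) (nat_lit 395) (nat_lit 3) (nat_lit 202) (nat_lit 188) (nat_lit 210)))) (PT.nd (nat_lit 156) (PT.nd (nat_lit 78) (PT.lf (nat_lit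 30096) (nat_lit 6) (nat_lit 396) (nat_lit 3) (nat_lit 203) (nat_lit 188) (nat_lit 209)) (PT.lf (nat_lit 30172) (nat_lit 6) (nat_lit 397) (nat_lit 3) (nat_lit 204) (nat_lit 188) (nat_lit 208))) (PT.nd (nat_lit 78) (PT.lf (nat_lit 30248) (nat_lit 6) (nat_lit 398) (nat_lit 3) (nat_lit 205) (nat_lit 188) (nat_lit 207)) (PT.lf (nat_lit 30324) (nat_lit 3) (nat_lit 399) (nat_lit 1) (nat_lit 206) (nat_lit 188) (nat_lit 206))))) (PT.nd (nat_lit 312) (PT.nd (nat_lit 156) (PT.nd (nat_lit 78) (PT.lf (nat_lit 30248) (nat_lit 6) (nat_lit 398) (nat_lit 1) (nat_lit 207) (nat_lit 188) (nat_lit 205)) (PT.lf (nat_lit 30172) (nat_lit 6) (nat_lit 397) (nat_lit 1) (nat_lit 208) (nat_lit 188) (nat_lit 204))) (PT.nd (nat_lit 78) (PT.lf (nat_lit 30096) (nat_lit 6) (nat_lit 396) (nat_lit 1) (nat_lit 209) (nat_lit 188) (nat_lit 203)) (PT.lf (nat_lit 30020) (nat_lit 6) (nat_lit 395) (nat_lit 1) (nat_lit 210) (nat_lit 188) (nat_lit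 202)))) (PT.nd (nat_lit 156) (PT.nd (nat_lit 78) (PT.lf (nat_lit 29944) (nat_lit 6) (nat_lit 394) (nat_lit 1) (nat_lit 211) (nat_lit 188) (nat_lit 201)) (PT.lf (nat_lit 29868) (nat_lit 6) (nat_lit 393) (nat_lit 1) (nat_lit 212) (nat_lit 188) (nat_lit 200))) (PT.nd (nat_lit 78) (PT.lf (nat_lit 28804) (nat_lit 6) (nat_lit 379) (nat_lit 1) (nat_lit 213) (nat_lit 188) (nat_lit 199)) (PT.nd (nat_lit 78) (PT.lf (nat_lit 27664) (nat_lit 6) (nat_lit 364) (nat_lit 1) (nat_lit 214) (nat_lit 188) (nat_lit 198)) (PT.lf (nat_lit 26448) (nat_lit 6) (nat_lit 348) (nat_lit 1) (nat_lit 215) (nat_lit 188) (nat_lit 197))))))))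
noncomputable def pc16 : PT := (PT.nd (nat_lit 62010) (PT.nd (nat_lit 61386) (PT.nd (nat_lit 61074) (PT.nd (nat_lit 60918) (PT.nd (nat_lit 60840) (PT.lf (nat_lit 25156) (nat_lit 6) (nat_lit 331) (nat_lit 1) (nat_lit 216) (nat_lit 188) (nat_lit 196)) (PT.lf (nat_lit 25080) (nat_lit 6) (nat_lit 330) (nat_lit 3) (nat_lit 195) (nat_lit 189) (nat_lit 216))) (PT.nd (nat_lit 78) (PT.lf (nat_lit 26372) (nat_lit 6) (nat_lit 347) (nat_lit 3) (nat_lit 196) (nat_lit 189) (nat_lit 215)) (PT.lf (nat_lit 27588) (nat_lit 6) (nat_lit 363) (nat_lit 3) (nat_lit 197) (nat_lit 189) (nat_lit 214)))) (PT.nd (nat_lit 156) (PT.nd (nat_lit 78) (PT.lf (nat_lit 28728) (nat_lit 6) (nat_lit 378) (nat_lit 3) (nat_lit 198) (nat_lit 189) (nat_lit 213)) (PT.lf (nat_lit 29792) (nat_lit 6) (nat_lit 392) (nat_lit 3) (nat_lit 199) (nat_lit 189) (nat_lit 212))) (PT.nd (nat_lit 78) (PT.lf (nat_lit 30780) (nat_lit 6) (nat_lit 405) (nat_lit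 3) (nat_lit 200) (nat_lit 189) (nat_lit 211)) (PT.lf (nat_lit 30856) (nat_lit 6) (nat_lit 406) (nat_lit 3) (nat_lit 201) (nat_lit 189) (nat_lit 210))))) (PT.nd (nat_lit 312) (PT.nd (nat_lit 156) (PT.nd (nat_lit 78) (PT.lf (nat_lit 30932) (nat_lit 6) (nat_lit 407) (nat_lit 3) (nat_lit 202) (nat_lit 189) (nat_lit 209)) (PT.lf (nat_lit 31008) (nat_lit 6) (nat_lit 408) (nat_lit 3) (nat_lit 203) (nat_lit 189) (nat_lit 208))) (PT.nd (nat_lit 78) (PT.lf (nat_lit 31084) (nat_lit 6) (nat_lit 409) (nat_lit 3) (nat_lit 204) (nat_lit 189) (nat_lit 207)) (PT.lf (nat_lit 31160) (nat_lit 6) (nat_lit 410) (nat_lit 3) (nat_lit 205) (nat_lit 189) (nat_lit 206)))) (PT.nd (nat_lit 156) (PT.nd (nat_lit 78) (PT.lf (nat_lit 31160) (nat_lit 6) (nat_lit 410) (nat_lit 1) (nat_lit 206) (nat_lit 189) (nat_lit 205)) (PT.lf (nat_lit 31084) (nat_lit 6) (nat_lit 409) (nat_lit 1) (nat_lit 207) (nat_lit 189) (nat_lit 204))) (PT.nd (nat_lit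 78) (PT.lf (nat_lit 31008) (nat_lit 6) (nat_lit 408) (nat_lit 1) (nat_lit 208) (nat_lit 189) (nat_lit 203)) (PT.lf (nat_lit 30932) (nat_lit 6) (nat_lit 407) (nat_lit 1) (nat_lit 209) (nat_lit 189) (nat_lit 202)))))) (PT.nd (nat_lit 61308) (PT.nd (nat_lit 312) (PT.nd (nat_lit 156) (PT.nd (nat_lit 78) (PT.lf (nat_lit 30856) (nat_lit 6) (nat_lit 406) (nat_lit 1) (nat_lit 210) (nat_lit 189) (nat_lit 201)) (PT.lf (nat_lit 30780) (nat_lit 6) (nat_lit 405) (nat_lit 1) (nat_lit 211) (nat_lit 189) (nat_lit 200))) (PT.nd (nat_lit 78) (PT.lf (nat_lit 29792) (nat_lit 6) (nat_lit 392) (nat_lit 1) (nat_lit 212) (nat_lit 189) (nat_lit 199)) (PT.lf (nat_lit 28728) (nat_lit 6) (nat_lit 378) (nat_lit 1) (nat_lit 213) (nat_lit 189) (nat_lit 198)))) (PT.nd (nat_lit 156) (PT.nd (nat_lit 78) (PT.lf (nat_lit 27588) (nat_lit 6) (nat_lit 363) (nat_lit 1) (nat_lit 214) (nat_lit 189) (nat_lit 197)) (PT.lf (nat_lit 26372) (nat_lit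 6) (nat_lit 347) (nat_lit 1) (nat_lit 215) (nat_lit 189) (nat_lit 196))) (PT.nd (nat_lit 60762) (PT.lf (nat_lit 25080) (nat_lit 6) (nat_lit 330) (nat_lit 1) (nat_lit 216) (nat_lit 189) (nat_lit 195)) (PT.lf (nat_lit 25004) (nat_lit 6) (nat_lit 329) (nat_lit 3) (nat_lit 194) (nat_lit 190) (nat_lit 216))))) (PT.nd (nat_lit 312) (PT.nd (nat_lit 156) (PT.nd (nat_lit 78) (PT.lf (nat_lit 26296) (nat_lit 6) (nat_lit 346) (nat_lit 3) (nat_lit 195) (nat_lit 190) (nat_lit 215)) (PT.lf (nat_lit 27512) (nat_lit 6) (nat_lit 362) (nat_lit 3) (nat_lit 196) (nat_lit 190) (nat_lit 214))) (PT.nd (nat_lit 78) (PT.lf (nat_lit 28652) (nat_lit 6) (nat_lit 377) (nat_lit 3) (nat_lit 197) (nat_lit 190) (nat_lit 213)) (PT.lf (nat_lit 29716) (nat_lit 6) (nat_lit 391) (nat_lit 3) (nat_lit 198) (nat_lit 190) (nat_lit 212)))) (PT.nd (nat_lit 156) (PT.nd (nat_lit 78) (PT.lf (nat_lit 30704) (nat_lit 6) (nat_lit 404) (nat_lit 3) (nat_lit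 199) (nat_lit 190) (nat_lit 211)) (PT.lf (nat_lit 31616) (nat_lit 6) (nat_lit 416) (nat_lit 3) (nat_lit 200) (nat_lit 190) (nat_lit 210))) (PT.nd (nat_lit 78) (PT.lf (nat_lit 31692) (nat_lit 6) (nat_lit 417) (nat_lit 3) (nat_lit 201) (nat_lit 190) (nat_lit 209)) (PT.nd (nat_lit 78) (PT.lf (nat_lit 31768) (nat_lit 6) (nat_lit 418) (nat_lit 3) (nat_lit 202) (nat_lit 190) (nat_lit 208)) (PT.lf (nat_lit 31844) (nat_lit 6) (nat_lit 419) (nat_lit 3) (nat_lit 203) (nat_lit 190) (nat_lit 207))))))))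
noncomputable def pc17 : PT := (PT.nd (nat_lit 61854) (PT.nd (nat_lit 624) (PT.nd (nat_lit 312) (PT.nd (nat_lit 156) (PT.nd (nat_lit 78) (PT.lf (nat_lit 31920) (nat_lit 6) (nat_lit 420) (nat_lit 3) (nat_lit 204) (nat_lit 190) (nat_lit 206)) (PT.lf (nat_lit 31996) (nat_lit 3) (nat_lit 421) (nat_lit 1) (nat_lit 205) (nat_lit 190) (nat_lit 205))) (PT.nd (nat_lit 78) (PT.lf (nat_lit 31920) (nat_lit 6) (nat_lit 420) (nat_lit 1) (nat_lit 206) (nat_lit 190) (nat_lit 204)) (PT.lf (nat_lit 31844) (nat_lit 6) (nat_lit 419) (nat_lit 1) (nat_lit 207) (nat_lit 190) (nat_lit 203)))) (PT.nd (nat_lit 156) (PT.nd (nat_lit 78) (PT.lf (nat_lit 31768) (nat_lit 6) (nat_lit 418) (nat_lit 1) (nat_lit 208) (nat_lit 190) (nat_lit 202)) (PT.lf (nat_lit 31692) (nat_lit 6) (nat_lit 417) (nat_lit 1) (nat_lit 209) (nat_lit 190) (nat_lit 201))) (PT.nd (nat_lit 78) (PT.lf (nat_lit 31616) (nat_lit 6) (nat_lit 416) (nat_lit 1) (nat_lit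 210) (nat_lit 190) (nat_lit 200)) (PT.lf (nat_lit 30704) (nat_lit 6) (nat_lit 404) (nat_lit 1) (nat_lit 211) (nat_lit 190) (nat_lit 199))))) (PT.nd (nat_lit 312) (PT.nd (nat_lit 156) (PT.nd (nat_lit 78) (PT.lf (nat_lit 29716) (nat_lit 6) (nat_lit 391) (nat_lit 1) (nat_lit 212) (nat_lit 190) (nat_lit 198)) (PT.lf (nat_lit 28652) (nat_lit 6) (nat_lit 377) (nat_lit 1) (nat_lit 213) (nat_lit 190) (nat_lit 197))) (PT.nd (nat_lit 78) (PT.lf (nat_lit 27512) (nat_lit 6) (nat_lit 362) (nat_lit 1) (nat_lit 214) (nat_lit 190) (nat_lit 196)) (PT.lf (nat_lit 26296) (nat_lit 6) (nat_lit 346) (nat_lit 1) (nat_lit 215) (nat_lit 190) (nat_lit 195)))) (PT.nd (nat_lit 60762) (PT.nd (nat_lit 60684) (PT.lf (nat_lit 25004) (nat_lit 6) (nat_lit 329) (nat_lit 1) (nat_lit 216) (nat_lit 190) (nat_lit 194)) (PT.lf (nat_lit 24928) (nat_lit 6) (nat_lit 328) (nat_lit 3) (nat_lit 193) (nat_lit 191) (nat_lit 216))) (PT.nd (nat_lit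 78) (PT.lf (nat_lit 26220) (nat_lit 6) (nat_lit 345) (nat_lit 3) (nat_lit 194) (nat_lit 191) (nat_lit 215)) (PT.lf (nat_lit 27436) (nat_lit 6) (nat_lit 361) (nat_lit 3) (nat_lit 195) (nat_lit 191) (nat_lit 214)))))) (PT.nd (nat_lit 624) (PT.nd (nat_lit 312) (PT.nd (nat_lit 156) (PT.nd (nat_lit 78) (PT.lf (nat_lit 28576) (nat_lit 6) (nat_lit 376) (nat_lit 3) (nat_lit 196) (nat_lit 191) (nat_lit 213)) (PT.lf (nat_lit 29640) (nat_lit 6) (nat_lit 390) (nat_lit 3) (nat_lit 197) (nat_lit 191) (nat_lit 212))) (PT.nd (nat_lit 78) (PT.lf (nat_lit 30628) (nat_lit 6) (nat_lit 403) (nat_lit 3) (nat_lit 198) (nat_lit 191) (nat_lit 211)) (PT.lf (nat_lit 31540) (nat_lit 6) (nat_lit 415) (nat_lit 3) (nat_lit 199) (nat_lit 191) (nat_lit 210)))) (PT.nd (nat_lit 156) (PT.nd (nat_lit 78) (PT.lf (nat_lit 32376) (nat_lit 6) (nat_lit 426) (nat_lit 3) (nat_lit 200) (nat_lit 191) (nat_lit 209)) (PT.lf (nat_lit 32452) (nat_lit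 6) (nat_lit 427) (nat_lit 3) (nat_lit 201) (nat_lit 191) (nat_lit 208))) (PT.nd (nat_lit 78) (PT.lf (nat_lit 32528) (nat_lit 6) (nat_lit 428) (nat_lit 3) (nat_lit 202) (nat_lit 191) (nat_lit 207)) (PT.lf (nat_lit 32604) (nat_lit 6) (nat_lit 429) (nat_lit 3) (nat_lit 203) (nat_lit 191) (nat_lit 206))))) (PT.nd (nat_lit 312) (PT.nd (nat_lit 156) (PT.nd (nat_lit 78) (PT.lf (nat_lit 32680) (nat_lit 6) (nat_lit 430) (nat_lit 3) (nat_lit 204) (nat_lit 191) (nat_lit 205)) (PT.lf (nat_lit 32680) (nat_lit 6) (nat_lit 430) (nat_lit 1) (nat_lit 205) (nat_lit 191) (nat_lit 204))) (PT.nd (nat_lit 78) (PT.lf (nat_lit 32604) (nat_lit 6) (nat_lit 429) (nat_lit 1) (nat_lit 206) (nat_lit 191) (nat_lit 203)) (PT.lf (nat_lit 32528) (nat_lit 6) (nat_lit 428) (nat_lit 1) (nat_lit 207) (nat_lit 191) (nat_lit 202)))) (PT.nd (nat_lit 156) (PT.nd (nat_lit 78) (PT.lf (nat_lit 32452) (nat_lit 6) (nat_lit 427) (nat_lit 1) (nat_lit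 208) (nat_lit 191) (nat_lit 201)) (PT.lf (nat_lit 32376) (nat_lit 6) (nat_lit 426) (nat_lit 1) (nat_lit 209) (nat_lit 191) (nat_lit 200))) (PT.nd (nat_lit 78) (PT.lf (nat_lit 31540) (nat_lit 6) (nat_lit 415) (nat_lit 1) (nat_lit 210) (nat_lit 191) (nat_lit 199)) (PT.nd (nat_lit 78) (PT.lf (nat_lit 30628) (nat_lit 6) (nat_lit 403) (nat_lit 1) (nat_lit 211) (nat_lit 191) (nat_lit 198)) (PT.lf (nat_lit 29640) (nat_lit 6) (nat_lit 390) (nat_lit 1) (nat_lit 212) (nat_lit 191) (nat_lit 197))))))))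
noncomputable def pc18 : PT := (PT.nd (nat_lit 61776) (PT.nd (nat_lit 61152) (PT.nd (nat_lit 60840) (PT.nd (nat_lit 156) (PT.nd (nat_lit 78) (PT.lf (nat_lit 28576) (nat_lit 6) (nat_lit 376) (nat_lit 1) (nat_lit 213) (nat_lit 191) (nat_lit 196)) (PT.lf (nat_lit 27436) (nat_lit 6) (nat_lit 361) (nat_lit 1) (nat_lit 214) (nat_lit 191) (nat_lit 195))) (PT.nd (nat_lit 78) (PT.lf (nat_lit 26220) (nat_lit 6) (nat_lit 345) (nat_lit 1) (nat_lit 215) (nat_lit 191) (nat_lit 194)) (PT.lf (nat_lit 24928) (nat_lit 6) (nat_lit 328) (nat_lit 1) (nat_lit 216) (nat_lit 191) (nat_lit 193)))) (PT.nd (nat_lit 156) (PT.nd (nat_lit 78) (PT.lf (nat_lit 24852) (nat_lit 3) (nat_lit 327) (nat_lit 3) (nat_lit 192) (nat_lit 192) (nat_lit 216)) (PT.lf (nat_lit 26144) (nat_lit 6) (nat_lit 344) (nat_lit 3) (nat_lit 193) (nat_lit 192) (nat_lit 215))) (PT.nd (nat_lit 78) (PT.lf (nat_lit 27360) (nat_lit 6) (nat_lit 360) (nat_lit 3) (nat_lit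 194) (nat_lit 192) (nat_lit 214)) (PT.lf (nat_lit 28500) (nat_lit 6) (nat_lit 375) (nat_lit 3) (nat_lit 195) (nat_lit 192) (nat_lit 213))))) (PT.nd (nat_lit 312) (PT.nd (nat_lit 156) (PT.nd (nat_lit 78) (PT.lf (nat_lit 29564) (nat_lit 6) (nat_lit 389) (nat_lit 3) (nat_lit 196) (nat_lit 192) (nat_lit 212)) (PT.lf (nat_lit 30552) (nat_lit 6) (nat_lit 402) (nat_lit 3) (nat_lit 197) (nat_lit 192) (nat_lit 211))) (PT.nd (nat_lit 78) (PT.lf (nat_lit 31464) (nat_lit 6) (nat_lit 414) (nat_lit 3) (nat_lit 198) (nat_lit 192) (nat_lit 210)) (PT.lf (nat_lit 32300) (nat_lit 6) (nat_lit 425) (nat_lit 3) (nat_lit 199) (nat_lit 192) (nat_lit 209)))) (PT.nd (nat_lit 156) (PT.nd (nat_lit 78) (PT.lf (nat_lit 33060) (nat_lit 6) (nat_lit 435) (nat_lit 3) (nat_lit 200) (nat_lit 192) (nat_lit 208)) (PT.lf (nat_lit 33136) (nat_lit 6) (nat_lit 436) (nat_lit 3) (nat_lit 201) (nat_lit 192) (nat_lit 207))) (PT.nd (nat_lit 78)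 (PT.lf (nat_lit 33212) (nat_lit 6) (nat_lit 437) (nat_lit 3) (nat_lit 202) (nat_lit 192) (nat_lit 206)) (PT.lf (nat_lit 33288) (nat_lit 6) (nat_lit 438) (nat_lit 3) (nat_lit 203) (nat_lit 192) (nat_lit 205)))))) (PT.nd (nat_lit 624) (PT.nd (nat_lit 312) (PT.nd (nat_lit 156) (PT.nd (nat_lit 78) (PT.lf (nat_lit 33364) (nat_lit 3) (nat_lit 439) (nat_lit 1) (nat_lit 204) (nat_lit 192) (nat_lit 204)) (PT.lf (nat_lit 33288) (nat_lit 6) (nat_lit 438) (nat_lit 1) (nat_lit 205) (nat_lit 192) (nat_lit 203))) (PT.nd (nat_lit 78) (PT.lf (nat_lit 33212) (nat_lit 6) (nat_lit 437) (nat_lit 1) (nat_lit 206) (nat_lit 192) (nat_lit 202)) (PT.lf (nat_lit 33136) (nat_lit 6) (nat_lit 436) (nat_lit 1) (nat_lit 207) (nat_lit 192) (nat_lit 201)))) (PT.nd (nat_lit 156) (PT.nd (nat_lit 78) (PT.lf (nat_lit 33060) (nat_lit 6) (nat_lit 435) (nat_lit 1) (nat_lit 208) (nat_lit 192) (nat_lit 200)) (PT.lf (nat_lit 32300) (nat_lit 6)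 (nat_lit 425) (nat_lit 1) (nat_lit 209) (nat_lit 192) (nat_lit 199))) (PT.nd (nat_lit 78) (PT.lf (nat_lit 31464) (nat_lit 6) (nat_lit 414) (nat_lit 1) (nat_lit 210) (nat_lit 192) (nat_lit 198)) (PT.lf (nat_lit 30552) (nat_lit 6) (nat_lit 402) (nat_lit 1) (nat_lit 211) (nat_lit 192) (nat_lit 197))))) (PT.nd (nat_lit 312) (PT.nd (nat_lit 156) (PT.nd (nat_lit 78) (PT.lf (nat_lit 29564) (nat_lit 6) (nat_lit 389) (nat_lit 1) (nat_lit 212) (nat_lit 192) (nat_lit 196)) (PT.lf (nat_lit 28500) (nat_lit 6) (nat_lit 375) (nat_lit 1) (nat_lit 213) (nat_lit 192) (nat_lit 195))) (PT.nd (nat_lit 78) (PT.lf (nat_lit 27360) (nat_lit 6) (nat_lit 360) (nat_lit 1) (nat_lit 214) (nat_lit 192) (nat_lit 194)) (PT.lf (nat_lit 26144) (nat_lit 6) (nat_lit 344) (nat_lit 1) (nat_lit 215) (nat_lit 192) (nat_lit 193)))) (PT.nd (nat_lit 60606) (PT.nd (nat_lit 60528) (PT.lf (nat_lit 24852) (nat_lit 3) (nat_lit 327) (nat_lit 0) (nat_lit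 216) (nat_lit 192) (nat_lit 192)) (PT.lf (nat_lit 24928) (nat_lit 6) (nat_lit 328) (nat_lit 5) (nat_lit 191) (nat_lit 193) (nat_lit 216))) (PT.nd (nat_lit 78) (PT.lf (nat_lit 26144) (nat_lit 6) (nat_lit 344) (nat_lit 5) (nat_lit 192) (nat_lit 193) (nat_lit 215)) (PT.nd (nat_lit 78) (PT.lf (nat_lit 27284) (nat_lit 3) (nat_lit 359) (nat_lit 3) (nat_lit 193) (nat_lit 193) (nat_lit 214)) (PT.lf (nat_lit 28424) (nat_lit 6) (nat_lit 374) (nat_lit 3) (nat_lit 194) (nat_lit 193) (nat_lit 213))))))))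
noncomputable def pc19 : PT := (PT.nd (nat_lit 1326) (PT.nd (nat_lit 624) (PT.nd (nat_lit 312) (PT.nd (nat_lit 156) (PT.nd (nat_lit 78) (PT.lf (nat_lit 29488) (nat_lit 6) (nat_lit 388) (nat_lit 3) (nat_lit 195) (nat_lit 193) (nat_lit 212)) (PT.lf (nat_lit 30476) (nat_lit 6) (nat_lit 401) (nat_lit 3) (nat_lit 196) (nat_lit 193) (nat_lit 211))) (PT.nd (nat_lit 78) (PT.lf (nat_lit 31388) (nat_lit 6) (nat_lit 413) (nat_lit 3) (nat_lit 197) (nat_lit 193) (nat_lit 210)) (PT.lf (nat_lit 32224) (nat_lit 6) (nat_lit 424) (nat_lit 3) (nat_lit 198) (nat_lit 193) (nat_lit 209)))) (PT.nd (nat_lit 156) (PT.nd (nat_lit 78) (PT.lf (nat_lit 32984) (nat_lit 6) (nat_lit 434) (nat_lit 3) (nat_lit 199) (nat_lit 193) (nat_lit 208)) (PT.lf (nat_lit 33668) (nat_lit 6) (nat_lit 443) (nat_lit 3) (nat_lit 200) (nat_lit 193) (nat_lit 207))) (PT.nd (nat_lit 78) (PT.lf (nat_lit 33744) (nat_lit 6) (nat_lit 444) (nat_lit 3) (nat_lit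 201) (nat_lit 193) (nat_lit 206)) (PT.lf (nat_lit 33820) (nat_lit 6) (nat_lit 445) (nat_lit 3) (nat_lit 202) (nat_lit 193) (nat_lit 205))))) (PT.nd (nat_lit 312) (PT.nd (nat_lit 156) (PT.nd (nat_lit 78) (PT.lf (nat_lit 33896) (nat_lit 6) (nat_lit 446) (nat_lit 3) (nat_lit 203) (nat_lit 193) (nat_lit 204)) (PT.lf (nat_lit 33896) (nat_lit 6) (nat_lit 446) (nat_lit 1) (nat_lit 204) (nat_lit 193) (nat_lit 203))) (PT.nd (nat_lit 78) (PT.lf (nat_lit 33820) (nat_lit 6) (nat_lit 445) (nat_lit 1) (nat_lit 205) (nat_lit 193) (nat_lit 202)) (PT.lf (nat_lit 33744) (nat_lit 6) (nat_lit 444) (nat_lit 1) (nat_lit 206) (nat_lit 193) (nat_lit 201)))) (PT.nd (nat_lit 156) (PT.nd (nat_lit 78) (PT.lf (nat_lit 33668) (nat_lit 6) (nat_lit 443) (nat_lit 1) (nat_lit 207) (nat_lit 193) (nat_lit 200)) (PT.lf (nat_lit 32984) (nat_lit 6) (nat_lit 434) (nat_lit 1) (nat_lit 208) (nat_lit 193) (nat_lit 199))) (PT.nd (nat_lit 78)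 (PT.lf (nat_lit 32224) (nat_lit 6) (nat_lit 424) (nat_lit 1) (nat_lit 209) (nat_lit 193) (nat_lit 198)) (PT.nd (nat_lit 78) (PT.lf (nat_lit 31388) (nat_lit 6) (nat_lit 413) (nat_lit 1) (nat_lit 210) (nat_lit 193) (nat_lit 197)) (PT.lf (nat_lit 30476) (nat_lit 6) (nat_lit 401) (nat_lit 1) (nat_lit 211) (nat_lit 193) (nat_lit 196))))))) (PT.nd (nat_lit 60996) (PT.nd (nat_lit 312) (PT.nd (nat_lit 156) (PT.nd (nat_lit 78) (PT.lf (nat_lit 29488) (nat_lit 6) (nat_lit 388) (nat_lit 1) (nat_lit 212) (nat_lit 193) (nat_lit 195)) (PT.lf (nat_lit 28424) (nat_lit 6) (nat_lit 374) (nat_lit 1) (nat_lit 213) (nat_lit 193) (nat_lit 194))) (PT.nd (nat_lit 78) (PT.lf (nat_lit 27284) (nat_lit 3) (nat_lit 359) (nat_lit 0) (nat_lit 214) (nat_lit 193) (nat_lit 193)) (PT.lf (nat_lit 26144) (nat_lit 6) (nat_lit 344) (nat_lit 0) (nat_lit 215) (nat_lit 193) (nat_lit 192)))) (PT.nd (nat_lit 60528) (PT.nd (nat_lit 60450) (PT.lf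 (nat_lit 24928) (nat_lit 6) (nat_lit 328) (nat_lit 0) (nat_lit 216) (nat_lit 193) (nat_lit 191)) (PT.lf (nat_lit 25004) (nat_lit 6) (nat_lit 329) (nat_lit 5) (nat_lit 190) (nat_lit 194) (nat_lit 216))) (PT.nd (nat_lit 78) (PT.lf (nat_lit 26220) (nat_lit 6) (nat_lit 345) (nat_lit 5) (nat_lit 191) (nat_lit 194) (nat_lit 215)) (PT.lf (nat_lit 27360) (nat_lit 6) (nat_lit 360) (nat_lit 5) (nat_lit 192) (nat_lit 194) (nat_lit 214))))) (PT.nd (nat_lit 312) (PT.nd (nat_lit 156) (PT.nd (nat_lit 78) (PT.lf (nat_lit 28424) (nat_lit 6) (nat_lit 374) (nat_lit 5) (nat_lit 193) (nat_lit 194) (nat_lit 213)) (PT.lf (nat_lit 29412) (nat_lit 3) (nat_lit 387) (nat_lit 3) (nat_lit 194) (nat_lit 194) (nat_lit 212))) (PT.nd (nat_lit 78) (PT.lf (nat_lit 30400) (nat_lit 6) (nat_lit 400) (nat_lit 3) (nat_lit 195) (nat_lit 194) (nat_lit 211)) (PT.lf (nat_lit 31312) (nat_lit 6) (nat_lit 412) (nat_lit 3) (nat_lit 196) (nat_lit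 194) (nat_lit 210)))) (PT.nd (nat_lit 156) (PT.nd (nat_lit 78) (PT.lf (nat_lit 32148) (nat_lit 6) (nat_lit 423) (nat_lit 3) (nat_lit 197) (nat_lit 194) (nat_lit 209)) (PT.lf (nat_lit 32908) (nat_lit 6) (nat_lit 433) (nat_lit 3) (nat_lit 198) (nat_lit 194) (nat_lit 208))) (PT.nd (nat_lit 78) (PT.lf (nat_lit 33592) (nat_lit 6) (nat_lit 442) (nat_lit 3) (nat_lit 199) (nat_lit 194) (nat_lit 207)) (PT.nd (nat_lit 78) (PT.lf (nat_lit 34200) (nat_lit 6) (nat_lit 450) (nat_lit 3) (nat_lit 200) (nat_lit 194) (nat_lit 206)) (PT.lf (nat_lit 34276) (nat_lit 6) (nat_lit 451) (nat_lit 3) (nat_lit 201) (nat_lit 194) (nat_lit 205))))))))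
noncomputable def pc20 : PT := (PT.nd (nat_lit 61542) (PT.nd (nat_lit 624) (PT.nd (nat_lit 312) (PT.nd (nat_lit 156) (PT.nd (nat_lit 78) (PT.lf (nat_lit 34352) (nat_lit 6) (nat_lit 452) (nat_lit 3) (nat_lit 202) (nat_lit 194) (nat_lit 204)) (PT.lf (nat_lit 34428) (nat_lit 3) (nat_lit 453) (nat_lit 1) (nat_lit 203) (nat_lit 194) (nat_lit 203))) (PT.nd (nat_lit 78) (PT.lf (nat_lit 34352) (nat_lit 6) (nat_lit 452) (nat_lit 1) (nat_lit 204) (nat_lit 194) (nat_lit 202)) (PT.lf (nat_lit 34276) (nat_lit 6) (nat_lit 451) (nat_lit 1) (nat_lit 205) (nat_lit 194) (nat_lit 201)))) (PT.nd (nat_lit 156) (PT.nd (nat_lit 78) (PT.lf (nat_lit 34200) (nat_lit 6) (nat_lit 450) (nat_lit 1) (nat_lit 206) (nat_lit 194) (nat_lit 200)) (PT.lf (nat_lit 33592) (nat_lit 6) (nat_lit 442) (nat_lit 1) (nat_lit 207) (nat_lit 194) (nat_lit 199))) (PT.nd (nat_lit 78) (PT.lf (nat_lit 32908) (nat_lit 6) (nat_lit 433) (nat_lit 1) (nat_lit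 208) (nat_lit 194) (nat_lit 198)) (PT.lf (nat_lit 32148) (nat_lit 6) (nat_lit 423) (nat_lit 1) (nat_lit 209) (nat_lit 194) (nat_lit 197))))) (PT.nd (nat_lit 312) (PT.nd (nat_lit 156) (PT.nd (nat_lit 78) (PT.lf (nat_lit 31312) (nat_lit 6) (nat_lit 412) (nat_lit 1) (nat_lit 210) (nat_lit 194) (nat_lit 196)) (PT.lf (nat_lit 30400) (nat_lit 6) (nat_lit 400) (nat_lit 1) (nat_lit 211) (nat_lit 194) (nat_lit 195))) (PT.nd (nat_lit 78) (PT.lf (nat_lit 29412) (nat_lit 3) (nat_lit 387) (nat_lit 0) (nat_lit 212) (nat_lit 194) (nat_lit 194)) (PT.lf (nat_lit 28424) (nat_lit 6) (nat_lit 374) (nat_lit 0) (nat_lit 213) (nat_lit 194) (nat_lit 193)))) (PT.nd (nat_lit 156) (PT.nd (nat_lit 78) (PT.lf (nat_lit 27360) (nat_lit 6) (nat_lit 360) (nat_lit 0) (nat_lit 214) (nat_lit 194) (nat_lit 192)) (PT.lf (nat_lit 26220) (nat_lit 6) (nat_lit 345) (nat_lit 0) (nat_lit 215) (nat_lit 194) (nat_lit 191))) (PT.nd (nat_lit 60372)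 (PT.lf (nat_lit 25004) (nat_lit 6) (nat_lit 329) (nat_lit 0) (nat_lit 216) (nat_lit 194) (nat_lit 190)) (PT.lf (nat_lit 25080) (nat_lit 6) (nat_lit 330) (nat_lit 5) (nat_lit 189) (nat_lit 195) (nat_lit 216)))))) (PT.nd (nat_lit 624) (PT.nd (nat_lit 312) (PT.nd (nat_lit 156) (PT.nd (nat_lit 78) (PT.lf (nat_lit 26296) (nat_lit 6) (nat_lit 346) (nat_lit 5) (nat_lit 190) (nat_lit 195) (nat_lit 215)) (PT.lf (nat_lit 27436) (nat_lit 6) (nat_lit 361) (nat_lit 5) (nat_lit 191) (nat_lit 195) (nat_lit 214))) (PT.nd (nat_lit 78) (PT.lf (nat_lit 28500) (nat_lit 6) (nat_lit 375) (nat_lit 5) (nat_lit 192) (nat_lit 195) (nat_lit 213)) (PT.lf (nat_lit 29488) (nat_lit 6) (nat_lit 388) (nat_lit 5) (nat_lit 193) (nat_lit 195) (nat_lit 212)))) (PT.nd (nat_lit 156) (PT.nd (nat_lit 78) (PT.lf (nat_lit 30400) (nat_lit 6) (nat_lit 400) (nat_lit 5) (nat_lit 194) (nat_lit 195) (nat_lit 211)) (PT.lf (nat_lit 31236) (nat_lit 3)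 (nat_lit 411) (nat_lit 3) (nat_lit 195) (nat_lit 195) (nat_lit 210))) (PT.nd (nat_lit 78) (PT.lf (nat_lit 32072) (nat_lit 6) (nat_lit 422) (nat_lit 3) (nat_lit 196) (nat_lit 195) (nat_lit 209)) (PT.lf (nat_lit 32832) (nat_lit 6) (nat_lit 432) (nat_lit 3) (nat_lit 197) (nat_lit 195) (nat_lit 208))))) (PT.nd (nat_lit 312) (PT.nd (nat_lit 156) (PT.nd (nat_lit 78) (PT.lf (nat_lit 33516) (nat_lit 6) (nat_lit 441) (nat_lit 3) (nat_lit 198) (nat_lit 195) (nat_lit 207)) (PT.lf (nat_lit 34124) (nat_lit 6) (nat_lit 449) (nat_lit 3) (nat_lit 199) (nat_lit 195) (nat_lit 206))) (PT.nd (nat_lit 78) (PT.lf (nat_lit 34656) (nat_lit 6) (nat_lit 456) (nat_lit 3) (nat_lit 200) (nat_lit 195) (nat_lit 205)) (PT.lf (nat_lit 34732) (nat_lit 6) (nat_lit 457) (nat_lit 3) (nat_lit 201) (nat_lit 195) (nat_lit 204)))) (PT.nd (nat_lit 156) (PT.nd (nat_lit 78) (PT.lf (nat_lit 34808) (nat_lit 6) (nat_lit 458) (nat_lit 3) (nat_lit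 202) (nat_lit 195) (nat_lit 203)) (PT.lf (nat_lit 34808) (nat_lit 6) (nat_lit 458) (nat_lit 1) (nat_lit 203) (nat_lit 195) (nat_lit 202))) (PT.nd (nat_lit 78) (PT.lf (nat_lit 34732) (nat_lit 6) (nat_lit 457) (nat_lit 1) (nat_lit 204) (nat_lit 195) (nat_lit 201)) (PT.nd (nat_lit 78) (PT.lf (nat_lit 34656) (nat_lit 6) (nat_lit 456) (nat_lit 1) (nat_lit 205) (nat_lit 195) (nat_lit 200)) (PT.lf (nat_lit 34124) (nat_lit 6) (nat_lit 449) (nat_lit 1) (nat_lit 206) (nat_lit 195) (nat_lit 199))))))))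
noncomputable def pc21 : PT := (PT.nd (nat_lit 61542) (PT.nd (nat_lit 624) (PT.nd (nat_lit 312) (PT.nd (nat_lit 156) (PT.nd (nat_lit 78) (PT.lf (nat_lit 33516) (nat_lit 6) (nat_lit 441) (nat_lit 1) (nat_lit 207) (nat_lit 195) (nat_lit 198)) (PT.lf (nat_lit 32832) (nat_lit 6) (nat_lit 432) (nat_lit 1) (nat_lit 208) (nat_lit 195) (nat_lit 197))) (PT.nd (nat_lit 78) (PT.lf (nat_lit 32072) (nat_lit 6) (nat_lit 422) (nat_lit 1) (nat_lit 209) (nat_lit 195) (nat_lit 196)) (PT.lf (nat_lit 31236) (nat_lit 3) (nat_lit 411) (nat_lit 0) (nat_lit 210) (nat_lit 195) (nat_lit 195)))) (PT.nd (nat_lit 156) (PT.nd (nat_lit 78) (PT.lf (nat_lit 30400) (nat_lit 6) (nat_lit 400) (nat_lit 0) (nat_lit 211) (nat_lit 195) (nat_lit 194)) (PT.lf (nat_lit 29488) (nat_lit 6) (nat_lit 388) (nat_lit 0) (nat_lit 212) (nat_lit 195) (nat_lit 193))) (PT.nd (nat_lit 78) (PT.lf (nat_lit 28500) (nat_lit 6) (nat_lit 375) (nat_lit 0) (nat_lit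 213) (nat_lit 195) (nat_lit 192)) (PT.lf (nat_lit 27436) (nat_lit 6) (nat_lit 361) (nat_lit 0) (nat_lit 214) (nat_lit 195) (nat_lit 191))))) (PT.nd (nat_lit 60528) (PT.nd (nat_lit 60372) (PT.nd (nat_lit 78) (PT.lf (nat_lit 26296) (nat_lit 6) (nat_lit 346) (nat_lit 0) (nat_lit 215) (nat_lit 195) (nat_lit 190)) (PT.lf (nat_lit 25080) (nat_lit 6) (nat_lit 330) (nat_lit 0) (nat_lit 216) (nat_lit 195) (nat_lit 189))) (PT.nd (nat_lit 78) (PT.lf (nat_lit 25156) (nat_lit 6) (nat_lit 331) (nat_lit 5) (nat_lit 188) (nat_lit 196) (nat_lit 216)) (PT.lf (nat_lit 26372) (nat_lit 6) (nat_lit 347) (nat_lit 5) (nat_lit 189) (nat_lit 196) (nat_lit 215)))) (PT.nd (nat_lit 156) (PT.nd (nat_lit 78) (PT.lf (nat_lit 27512) (nat_lit 6) (nat_lit 362) (nat_lit 5) (nat_lit 190) (nat_lit 196) (nat_lit 214)) (PT.lf (nat_lit 28576) (nat_lit 6) (nat_lit 376) (nat_lit 5) (nat_lit 191) (nat_lit 196) (nat_lit 213))) (PT.nd (nat_lit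 78) (PT.lf (nat_lit 29564) (nat_lit 6) (nat_lit 389) (nat_lit 5) (nat_lit 192) (nat_lit 196) (nat_lit 212)) (PT.nd (nat_lit 78) (PT.lf (nat_lit 30476) (nat_lit 6) (nat_lit 401) (nat_lit 5) (nat_lit 193) (nat_lit 196) (nat_lit 211)) (PT.lf (nat_lit 31312) (nat_lit 6) (nat_lit 412) (nat_lit 5) (nat_lit 194) (nat_lit 196) (nat_lit 210))))))) (PT.nd (nat_lit 624) (PT.nd (nat_lit 312) (PT.nd (nat_lit 156) (PT.nd (nat_lit 78) (PT.lf (nat_lit 32072) (nat_lit 6) (nat_lit 422) (nat_lit 5) (nat_lit 195) (nat_lit 196) (nat_lit 209)) (PT.lf (nat_lit 32756) (nat_lit 3) (nat_lit 431) (nat_lit 3) (nat_lit 196) (nat_lit 196) (nat_lit 208))) (PT.nd (nat_lit 78) (PT.lf (nat_lit 33440) (nat_lit 6) (nat_lit 440) (nat_lit 3) (nat_lit 197) (nat_lit 196) (nat_lit 207)) (PT.lf (nat_lit 34048) (nat_lit 6) (nat_lit 448) (nat_lit 3) (nat_lit 198) (nat_lit 196) (nat_lit 206)))) (PT.nd (nat_lit 156) (PT.nd (nat_lit 78) (PT.lf (nat_lit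 34580) (nat_lit 6) (nat_lit 455) (nat_lit 3) (nat_lit 199) (nat_lit 196) (nat_lit 205)) (PT.lf (nat_lit 35036) (nat_lit 6) (nat_lit 461) (nat_lit 3) (nat_lit 200) (nat_lit 196) (nat_lit 204))) (PT.nd (nat_lit 78) (PT.lf (nat_lit 35112) (nat_lit 6) (nat_lit 462) (nat_lit 3) (nat_lit 201) (nat_lit 196) (nat_lit 203)) (PT.lf (nat_lit 35188) (nat_lit 3) (nat_lit 463) (nat_lit 1) (nat_lit 202) (nat_lit 196) (nat_lit 202))))) (PT.nd (nat_lit 312) (PT.nd (nat_lit 156) (PT.nd (nat_lit 78) (PT.lf (nat_lit 35112) (nat_lit 6) (nat_lit 462) (nat_lit 1) (nat_lit 203) (nat_lit 196) (nat_lit 201)) (PT.lf (nat_lit 35036) (nat_lit 6) (nat_lit 461) (nat_lit 1) (nat_lit 204) (nat_lit 196) (nat_lit 200))) (PT.nd (nat_lit 78) (PT.lf (nat_lit 34580) (nat_lit 6) (nat_lit 455) (nat_lit 1) (nat_lit 205) (nat_lit 196) (nat_lit 199)) (PT.lf (nat_lit 34048) (nat_lit 6) (nat_lit 448) (nat_lit 1) (nat_lit 206) (nat_lit 196) (nat_lit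 198)))) (PT.nd (nat_lit 156) (PT.nd (nat_lit 78) (PT.lf (nat_lit 33440) (nat_lit 6) (nat_lit 440) (nat_lit 1) (nat_lit 207) (nat_lit 196) (nat_lit 197)) (PT.lf (nat_lit 32756) (nat_lit 3) (nat_lit 431) (nat_lit 0) (nat_lit 208) (nat_lit 196) (nat_lit 196))) (PT.nd (nat_lit 78) (PT.lf (nat_lit 32072) (nat_lit 6) (nat_lit 422) (nat_lit 0) (nat_lit 209) (nat_lit 196) (nat_lit 195)) (PT.nd (nat_lit 78) (PT.lf (nat_lit 31312) (nat_lit 6) (nat_lit 412) (nat_lit 0) (nat_lit 210) (nat_lit 196) (nat_lit 194)) (PT.lf (nat_lit 30476) (nat_lit 6) (nat_lit 401) (nat_lit 0) (nat_lit 211) (nat_lit 196) (nat_lit 193))))))))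
noncomputable def pc22 : PT := (PT.nd (nat_lit 61386) (PT.nd (nat_lit 60762) (PT.nd (nat_lit 312) (PT.nd (nat_lit 156) (PT.nd (nat_lit 78) (PT.lf (nat_lit 29564) (nat_lit 6) (nat_lit 389) (nat_lit 0) (nat_lit 212) (nat_lit 196) (nat_lit 192)) (PT.lf (nat_lit 28576) (nat_lit 6) (nat_lit 376) (nat_lit 0) (nat_lit 213) (nat_lit 196) (nat_lit 191))) (PT.nd (nat_lit 78) (PT.lf (nat_lit 27512) (nat_lit 6) (nat_lit 362) (nat_lit 0) (nat_lit 214) (nat_lit 196) (nat_lit 190)) (PT.lf (nat_lit 26372) (nat_lit 6) (nat_lit 347) (nat_lit 0) (nat_lit 215) (nat_lit 196) (nat_lit 189)))) (PT.nd (nat_lit 60294) (PT.nd (nat_lit 60216) (PT.lf (nat_lit 25156) (nat_lit 6) (nat_lit 331) (nat_lit 0) (nat_lit 216) (nat_lit 196) (nat_lit 188)) (PT.lf (nat_lit 25232) (nat_lit 6) (nat_lit 332) (nat_lit 5) (nat_lit 187) (nat_lit 197) (nat_lit 216))) (PT.nd (nat_lit 78) (PT.lf (nat_lit 26448) (nat_lit 6) (nat_lit 348) (nat_lit 5)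 (nat_lit 188) (nat_lit 197) (nat_lit 215)) (PT.lf (nat_lit 27588) (nat_lit 6) (nat_lit 363) (nat_lit 5) (nat_lit 189) (nat_lit 197) (nat_lit 214))))) (PT.nd (nat_lit 312) (PT.nd (nat_lit 156) (PT.nd (nat_lit 78) (PT.lf (nat_lit 28652) (nat_lit 6) (nat_lit 377) (nat_lit 5) (nat_lit 190) (nat_lit 197) (nat_lit 213)) (PT.lf (nat_lit 29640) (nat_lit 6) (nat_lit 390) (nat_lit 5) (nat_lit 191) (nat_lit 197) (nat_lit 212))) (PT.nd (nat_lit 78) (PT.lf (nat_lit 30552) (nat_lit 6) (nat_lit 402) (nat_lit 5) (nat_lit 192) (nat_lit 197) (nat_lit 211)) (PT.lf (nat_lit 31388) (nat_lit 6) (nat_lit 413) (nat_lit 5) (nat_lit 193) (nat_lit 197) (nat_lit 210)))) (PT.nd (nat_lit 156) (PT.nd (nat_lit 78) (PT.lf (nat_lit 32148) (nat_lit 6) (nat_lit 423) (nat_lit 5) (nat_lit 194) (nat_lit 197) (nat_lit 209)) (PT.lf (nat_lit 32832) (nat_lit 6) (nat_lit 432) (nat_lit 5) (nat_lit 195) (nat_lit 197) (nat_lit 208))) (PT.nd (nat_lit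 78) (PT.lf (nat_lit 33440) (nat_lit 6) (nat_lit 440) (nat_lit 5) (nat_lit 196) (nat_lit 197) (nat_lit 207)) (PT.lf (nat_lit 33972) (nat_lit 3) (nat_lit 447) (nat_lit 3) (nat_lit 197) (nat_lit 197) (nat_lit 206)))))) (PT.nd (nat_lit 624) (PT.nd (nat_lit 312) (PT.nd (nat_lit 156) (PT.nd (nat_lit 78) (PT.lf (nat_lit 34504) (nat_lit 6) (nat_lit 454) (nat_lit 3) (nat_lit 198) (nat_lit 197) (nat_lit 205)) (PT.lf (nat_lit 34960) (nat_lit 6) (nat_lit 460) (nat_lit 3) (nat_lit 199) (nat_lit 197) (nat_lit 204))) (PT.nd (nat_lit 78) (PT.lf (nat_lit 35340) (nat_lit 6) (nat_lit 465) (nat_lit 3) (nat_lit 200) (nat_lit 197) (nat_lit 203)) (PT.lf (nat_lit 35416) (nat_lit 6) (nat_lit 466) (nat_lit 3) (nat_lit 201) (nat_lit 197) (nat_lit 202)))) (PT.nd (nat_lit 156) (PT.nd (nat_lit 78) (PT.lf (nat_lit 35416) (nat_lit 6) (nat_lit 466) (nat_lit 1) (nat_lit 202) (nat_lit 197) (nat_lit 201)) (PT.lf (nat_lit 35340) (nat_lit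 6) (nat_lit 465) (nat_lit 1) (nat_lit 203) (nat_lit 197) (nat_lit 200))) (PT.nd (nat_lit 78) (PT.lf (nat_lit 34960) (nat_lit 6) (nat_lit 460) (nat_lit 1) (nat_lit 204) (nat_lit 197) (nat_lit 199)) (PT.lf (nat_lit 34504) (nat_lit 6) (nat_lit 454) (nat_lit 1) (nat_lit 205) (nat_lit 197) (nat_lit 198))))) (PT.nd (nat_lit 312) (PT.nd (nat_lit 156) (PT.nd (nat_lit 78) (PT.lf (nat_lit 33972) (nat_lit 3) (nat_lit 447) (nat_lit 0) (nat_lit 206) (nat_lit 197) (nat_lit 197)) (PT.lf (nat_lit 33440) (nat_lit 6) (nat_lit 440) (nat_lit 0) (nat_lit 207) (nat_lit 197) (nat_lit 196))) (PT.nd (nat_lit 78) (PT.lf (nat_lit 32832) (nat_lit 6) (nat_lit 432) (nat_lit 0) (nat_lit 208) (nat_lit 197) (nat_lit 195)) (PT.lf (nat_lit 32148) (nat_lit 6) (nat_lit 423) (nat_lit 0) (nat_lit 209) (nat_lit 197) (nat_lit 194)))) (PT.nd (nat_lit 156) (PT.nd (nat_lit 78) (PT.lf (nat_lit 31388) (nat_lit 6) (nat_lit 413) (nat_lit 0) (nat_lit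 210) (nat_lit 197) (nat_lit 193)) (PT.lf (nat_lit 30552) (nat_lit 6) (nat_lit 402) (nat_lit 0) (nat_lit 211) (nat_lit 197) (nat_lit 192))) (PT.nd (nat_lit 78) (PT.lf (nat_lit 29640) (nat_lit 6) (nat_lit 390) (nat_lit 0) (nat_lit 212) (nat_lit 197) (nat_lit 191)) (PT.nd (nat_lit 78) (PT.lf (nat_lit 28652) (nat_lit 6) (nat_lit 377) (nat_lit 0) (nat_lit 213) (nat_lit 197) (nat_lit 190)) (PT.lf (nat_lit 27588) (nat_lit 6) (nat_lit 363) (nat_lit 0) (nat_lit 214) (nat_lit 197) (nat_lit 189))))))))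
noncomputable def pc23 : PT := (PT.nd (nat_lit 61308) (PT.nd (nat_lit 60606) (PT.nd (nat_lit 60294) (PT.nd (nat_lit 60138) (PT.nd (nat_lit 78) (PT.lf (nat_lit 26448) (nat_lit 6) (nat_lit 348) (nat_lit 0) (nat_lit 215) (nat_lit 197) (nat_lit 188)) (PT.lf (nat_lit 25232) (nat_lit 6) (nat_lit 332) (nat_lit 0) (nat_lit 216) (nat_lit 197) (nat_lit 187))) (PT.nd (nat_lit 78) (PT.lf (nat_lit 24016) (nat_lit 6) (nat_lit 316) (nat_lit 5) (nat_lit 185) (nat_lit 198) (nat_lit 217)) (PT.lf (nat_lit 25308) (nat_lit 6) (nat_lit 333) (nat_lit 5) (nat_lit 186) (nat_lit 198) (nat_lit 216)))) (PT.nd (nat_lit 156) (PT.nd (nat_lit 78) (PT.lf (nat_lit 26524) (nat_lit 6) (nat_lit 349) (nat_lit 5) (nat_lit 187) (nat_lit 198) (nat_lit 215)) (PT.lf (nat_lit 27664) (nat_lit 6) (nat_lit 364) (nat_lit 5) (nat_lit 188) (nat_lit 198) (nat_lit 214))) (PT.nd (nat_lit 78) (PT.lf (nat_lit 28728) (nat_lit 6) (nat_lit 378) (nat_lit 5)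 (nat_lit 189) (nat_lit 198) (nat_lit 213)) (PT.lf (nat_lit 29716) (nat_lit 6) (nat_lit 391) (nat_lit 5) (nat_lit 190) (nat_lit 198) (nat_lit 212))))) (PT.nd (nat_lit 312) (PT.nd (nat_lit 156) (PT.nd (nat_lit 78) (PT.lf (nat_lit 30628) (nat_lit 6) (nat_lit 403) (nat_lit 5) (nat_lit 191) (nat_lit 198) (nat_lit 211)) (PT.lf (nat_lit 31464) (nat_lit 6) (nat_lit 414) (nat_lit 5) (nat_lit 192) (nat_lit 198) (nat_lit 210))) (PT.nd (nat_lit 78) (PT.lf (nat_lit 32224) (nat_lit 6) (nat_lit 424) (nat_lit 5) (nat_lit 193) (nat_lit 198) (nat_lit 209)) (PT.lf (nat_lit 32908) (nat_lit 6) (nat_lit 433) (nat_lit 5) (nat_lit 194) (nat_lit 198) (nat_lit 208)))) (PT.nd (nat_lit 156) (PT.nd (nat_lit 78) (PT.lf (nat_lit 33516) (nat_lit 6) (nat_lit 441) (nat_lit 5) (nat_lit 195) (nat_lit 198) (nat_lit 207)) (PT.lf (nat_lit 34048) (nat_lit 6) (nat_lit 448) (nat_lit 5) (nat_lit 196) (nat_lit 198) (nat_lit 206))) (PT.nd (nat_lit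 78) (PT.lf (nat_lit 34504) (nat_lit 6) (nat_lit 454) (nat_lit 5) (nat_lit 197) (nat_lit 198) (nat_lit 205)) (PT.nd (nat_lit 78) (PT.lf (nat_lit 34884) (nat_lit 3) (nat_lit 459) (nat_lit 3) (nat_lit 198) (nat_lit 198) (nat_lit 204)) (PT.lf (nat_lit 35264) (nat_lit 6) (nat_lit 464) (nat_lit 3) (nat_lit 199) (nat_lit 198) (nat_lit 203))))))) (PT.nd (nat_lit 624) (PT.nd (nat_lit 312) (PT.nd (nat_lit 156) (PT.nd (nat_lit 78) (PT.lf (nat_lit 35568) (nat_lit 6) (nat_lit 468) (nat_lit 3) (nat_lit 200) (nat_lit 198) (nat_lit 202)) (PT.lf (nat_lit 35644) (nat_lit 3) (nat_lit 469) (nat_lit 1) (nat_lit 201) (nat_lit 198) (nat_lit 201))) (PT.nd (nat_lit 78) (PT.lf (nat_lit 35568) (nat_lit 6) (nat_lit 468) (nat_lit 1) (nat_lit 202) (nat_lit 198) (nat_lit 200)) (PT.lf (nat_lit 35264) (nat_lit 6) (nat_lit 464) (nat_lit 1) (nat_lit 203) (nat_lit 198) (nat_lit 199)))) (PT.nd (nat_lit 156) (PT.nd (nat_lit 78) (PT.lf (nat_lit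 34884) (nat_lit 3) (nat_lit 459) (nat_lit 0) (nat_lit 204) (nat_lit 198) (nat_lit 198)) (PT.lf (nat_lit 34504) (nat_lit 6) (nat_lit 454) (nat_lit 0) (nat_lit 205) (nat_lit 198) (nat_lit 197))) (PT.nd (nat_lit 78) (PT.lf (nat_lit 34048) (nat_lit 6) (nat_lit 448) (nat_lit 0) (nat_lit 206) (nat_lit 198) (nat_lit 196)) (PT.lf (nat_lit 33516) (nat_lit 6) (nat_lit 441) (nat_lit 0) (nat_lit 207) (nat_lit 198) (nat_lit 195))))) (PT.nd (nat_lit 312) (PT.nd (nat_lit 156) (PT.nd (nat_lit 78) (PT.lf (nat_lit 32908) (nat_lit 6) (nat_lit 433) (nat_lit 0) (nat_lit 208) (nat_lit 198) (nat_lit 194)) (PT.lf (nat_lit 32224) (nat_lit 6) (nat_lit 424) (nat_lit 0) (nat_lit 209) (nat_lit 198) (nat_lit 193))) (PT.nd (nat_lit 78) (PT.lf (nat_lit 31464) (nat_lit 6) (nat_lit 414) (nat_lit 0) (nat_lit 210) (nat_lit 198) (nat_lit 192)) (PT.lf (nat_lit 30628) (nat_lit 6) (nat_lit 403) (nat_lit 0) (nat_lit 211) (nat_lit 198) (nat_lit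 191)))) (PT.nd (nat_lit 156) (PT.nd (nat_lit 78) (PT.lf (nat_lit 29716) (nat_lit 6) (nat_lit 391) (nat_lit 0) (nat_lit 212) (nat_lit 198) (nat_lit 190)) (PT.lf (nat_lit 28728) (nat_lit 6) (nat_lit 378) (nat_lit 0) (nat_lit 213) (nat_lit 198) (nat_lit 189))) (PT.nd (nat_lit 78) (PT.lf (nat_lit 27664) (nat_lit 6) (nat_lit 364) (nat_lit 0) (nat_lit 214) (nat_lit 198) (nat_lit 188)) (PT.nd (nat_lit 78) (PT.lf (nat_lit 26524) (nat_lit 6) (nat_lit 349) (nat_lit 0) (nat_lit 215) (nat_lit 198) (nat_lit 187)) (PT.lf (nat_lit 25308) (nat_lit 6) (nat_lit 333) (nat_lit 0) (nat_lit 216) (nat_lit 198) (nat_lit 186))))))))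
noncomputable def pc24 : PT := (PT.nd (nat_lit 61074) (PT.nd (nat_lit 60450) (PT.nd (nat_lit 60138) (PT.nd (nat_lit 59982) (PT.nd (nat_lit 59904) (PT.lf (nat_lit 24016) (nat_lit 6) (nat_lit 316) (nat_lit 0) (nat_lit 217) (nat_lit 198) (nat_lit 185)) (PT.lf (nat_lit 24092) (nat_lit 6) (nat_lit 317) (nat_lit 5) (nat_lit 184) (nat_lit 199) (nat_lit 217))) (PT.nd (nat_lit 78) (PT.lf (nat_lit 25384) (nat_lit 6) (nat_lit 334) (nat_lit 5) (nat_lit 185) (nat_lit 199) (nat_lit 216)) (PT.lf (nat_lit 26600) (nat_lit 6) (nat_lit 350) (nat_lit 5) (nat_lit 186) (nat_lit 199) (nat_lit 215)))) (PT.nd (nat_lit 156) (PT.nd (nat_lit 78) (PT.lf (nat_lit 27740) (nat_lit 6) (nat_lit 365) (nat_lit 5) (nat_lit 187) (nat_lit 199) (nat_lit 214)) (PT.lf (nat_lit 28804) (nat_lit 6) (nat_lit 379) (nat_lit 5) (nat_lit 188) (nat_lit 199) (nat_lit 213))) (PT.nd (nat_lit 78) (PT.lf (nat_lit 29792) (nat_lit 6) (nat_lit 392) (nat_lit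 5) (nat_lit 189) (nat_lit 199) (nat_lit 212)) (PT.lf (nat_lit 30704) (nat_lit 6) (nat_lit 404) (nat_lit 5) (nat_lit 190) (nat_lit 199) (nat_lit 211))))) (PT.nd (nat_lit 312) (PT.nd (nat_lit 156) (PT.nd (nat_lit 78) (PT.lf (nat_lit 31540) (nat_lit 6) (nat_lit 415) (nat_lit 5) (nat_lit 191) (nat_lit 199) (nat_lit 210)) (PT.lf (nat_lit 32300) (nat_lit 6) (nat_lit 425) (nat_lit 5) (nat_lit 192) (nat_lit 199) (nat_lit 209))) (PT.nd (nat_lit 78) (PT.lf (nat_lit 32984) (nat_lit 6) (nat_lit 434) (nat_lit 5) (nat_lit 193) (nat_lit 199) (nat_lit 208)) (PT.lf (nat_lit 33592) (nat_lit 6) (nat_lit 442) (nat_lit 5) (nat_lit 194) (nat_lit 199) (nat_lit 207)))) (PT.nd (nat_lit 156) (PT.nd (nat_lit 78) (PT.lf (nat_lit 34124) (nat_lit 6) (nat_lit 449) (nat_lit 5) (nat_lit 195) (nat_lit 199) (nat_lit 206)) (PT.lf (nat_lit 34580) (nat_lit 6) (nat_lit 455) (nat_lit 5) (nat_lit 196) (nat_lit 199) (nat_lit 205))) (PT.nd (nat_lit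 78) (PT.lf (nat_lit 34960) (nat_lit 6) (nat_lit 460) (nat_lit 5) (nat_lit 197) (nat_lit 199) (nat_lit 204)) (PT.lf (nat_lit 35264) (nat_lit 6) (nat_lit 464) (nat_lit 5) (nat_lit 198) (nat_lit 199) (nat_lit 203)))))) (PT.nd (nat_lit 624) (PT.nd (nat_lit 312) (PT.nd (nat_lit 156) (PT.nd (nat_lit 78) (PT.lf (nat_lit 35492) (nat_lit 3) (nat_lit 467) (nat_lit 3) (nat_lit 199) (nat_lit 199) (nat_lit 202)) (PT.lf (nat_lit 35720) (nat_lit 6) (nat_lit 470) (nat_lit 3) (nat_lit 200) (nat_lit 199) (nat_lit 201))) (PT.nd (nat_lit 78) (PT.lf (nat_lit 35720) (nat_lit 6) (nat_lit 470) (nat_lit 1) (nat_lit 201) (nat_lit 199) (nat_lit 200)) (PT.lf (nat_lit 35492) (nat_lit 3) (nat_lit 467) (nat_lit 0) (nat_lit 202) (nat_lit 199) (nat_lit 199)))) (PT.nd (nat_lit 156) (PT.nd (nat_lit 78) (PT.lf (nat_lit 35264) (nat_lit 6) (nat_lit 464) (nat_lit 0) (nat_lit 203) (nat_lit 199) (nat_lit 198)) (PT.lf (nat_lit 34960) (nat_lit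 6) (nat_lit 460) (nat_lit 0) (nat_lit 204) (nat_lit 199) (nat_lit 197))) (PT.nd (nat_lit 78) (PT.lf (nat_lit 34580) (nat_lit 6) (nat_lit 455) (nat_lit 0) (nat_lit 205) (nat_lit 199) (nat_lit 196)) (PT.lf (nat_lit 34124) (nat_lit 6) (nat_lit 449) (nat_lit 0) (nat_lit 206) (nat_lit 199) (nat_lit 195))))) (PT.nd (nat_lit 312) (PT.nd (nat_lit 156) (PT.nd (nat_lit 78) (PT.lf (nat_lit 33592) (nat_lit 6) (nat_lit 442) (nat_lit 0) (nat_lit 207) (nat_lit 199) (nat_lit 194)) (PT.lf (nat_lit 32984) (nat_lit 6) (nat_lit 434) (nat_lit 0) (nat_lit 208) (nat_lit 199) (nat_lit 193))) (PT.nd (nat_lit 78) (PT.lf (nat_lit 32300) (nat_lit 6) (nat_lit 425) (nat_lit 0) (nat_lit 209) (nat_lit 199) (nat_lit 192)) (PT.lf (nat_lit 31540) (nat_lit 6) (nat_lit 415) (nat_lit 0) (nat_lit 210) (nat_lit 199) (nat_lit 191)))) (PT.nd (nat_lit 156) (PT.nd (nat_lit 78) (PT.lf (nat_lit 30704) (nat_lit 6) (nat_lit 404) (nat_lit 0) (nat_lit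 211) (nat_lit 199) (nat_lit 190)) (PT.lf (nat_lit 29792) (nat_lit 6) (nat_lit 392) (nat_lit 0) (nat_lit 212) (nat_lit 199) (nat_lit 189))) (PT.nd (nat_lit 78) (PT.lf (nat_lit 28804) (nat_lit 6) (nat_lit 379) (nat_lit 0) (nat_lit 213) (nat_lit 199) (nat_lit 188)) (PT.nd (nat_lit 78) (PT.lf (nat_lit 27740) (nat_lit 6) (nat_lit 365) (nat_lit 0) (nat_lit 214) (nat_lit 199) (nat_lit 187)) (PT.lf (nat_lit 26600) (nat_lit 6) (nat_lit 350) (nat_lit 0) (nat_lit 215) (nat_lit 199) (nat_lit 186))))))))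
noncomputable def pc25 : PT := (PT.nd (nat_lit 60996) (PT.nd (nat_lit 60372) (PT.nd (nat_lit 60060) (PT.nd (nat_lit 59904) (PT.nd (nat_lit 78) (PT.lf (nat_lit 25384) (nat_lit 6) (nat_lit 334) (nat_lit 0) (nat_lit 216) (nat_lit 199) (nat_lit 185)) (PT.lf (nat_lit 24092) (nat_lit 6) (nat_lit 317) (nat_lit 0) (nat_lit 217) (nat_lit 199) (nat_lit 184))) (PT.nd (nat_lit 78) (PT.lf (nat_lit 24168) (nat_lit 6) (nat_lit 318) (nat_lit 5) (nat_lit 183) (nat_lit 200) (nat_lit 217)) (PT.lf (nat_lit 25460) (nat_lit 6) (nat_lit 335) (nat_lit 5) (nat_lit 184) (nat_lit 200) (nat_lit 216)))) (PT.nd (nat_lit 156) (PT.nd (nat_lit 78) (PT.lf (nat_lit 26676) (nat_lit 6) (nat_lit 351) (nat_lit 5) (nat_lit 185) (nat_lit 200) (nat_lit 215)) (PT.lf (nat_lit 27816) (nat_lit 6) (nat_lit 366) (nat_lit 5) (nat_lit 186) (nat_lit 200) (nat_lit 214))) (PT.nd (nat_lit 78) (PT.lf (nat_lit 28880) (nat_lit 6) (nat_lit 380) (nat_lit 5)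 (nat_lit 187) (nat_lit 200) (nat_lit 213)) (PT.lf (nat_lit 29868) (nat_lit 6) (nat_lit 393) (nat_lit 5) (nat_lit 188) (nat_lit 200) (nat_lit 212))))) (PT.nd (nat_lit 312) (PT.nd (nat_lit 156) (PT.nd (nat_lit 78) (PT.lf (nat_lit 30780) (nat_lit 6) (nat_lit 405) (nat_lit 5) (nat_lit 189) (nat_lit 200) (nat_lit 211)) (PT.lf (nat_lit 31616) (nat_lit 6) (nat_lit 416) (nat_lit 5) (nat_lit 190) (nat_lit 200) (nat_lit 210))) (PT.nd (nat_lit 78) (PT.lf (nat_lit 32376) (nat_lit 6) (nat_lit 426) (nat_lit 5) (nat_lit 191) (nat_lit 200) (nat_lit 209)) (PT.lf (nat_lit 33060) (nat_lit 6) (nat_lit 435) (nat_lit 5) (nat_lit 192) (nat_lit 200) (nat_lit 208)))) (PT.nd (nat_lit 156) (PT.nd (nat_lit 78) (PT.lf (nat_lit 33668) (nat_lit 6) (nat_lit 443) (nat_lit 5) (nat_lit 193) (nat_lit 200) (nat_lit 207)) (PT.lf (nat_lit 34200) (nat_lit 6) (nat_lit 450) (nat_lit 5) (nat_lit 194) (nat_lit 200) (nat_lit 206))) (PT.nd (nat_lit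 78) (PT.lf (nat_lit 34656) (nat_lit 6) (nat_lit 456) (nat_lit 5) (nat_lit 195) (nat_lit 200) (nat_lit 205)) (PT.lf (nat_lit 35036) (nat_lit 6) (nat_lit 461) (nat_lit 5) (nat_lit 196) (nat_lit 200) (nat_lit 204)))))) (PT.nd (nat_lit 624) (PT.nd (nat_lit 312) (PT.nd (nat_lit 156) (PT.nd (nat_lit 78) (PT.lf (nat_lit 35340) (nat_lit 6) (nat_lit 465) (nat_lit 5) (nat_lit 197) (nat_lit 200) (nat_lit 203)) (PT.lf (nat_lit 35568) (nat_lit 6) (nat_lit 468) (nat_lit 5) (nat_lit 198) (nat_lit 200) (nat_lit 202))) (PT.nd (nat_lit 78) (PT.lf (nat_lit 35720) (nat_lit 6) (nat_lit 470) (nat_lit 5) (nat_lit 199) (nat_lit 200) (nat_lit 201)) (PT.lf (nat_lit 35796) (nat_lit 1) (nat_lit 471) (nat_lit 0) (nat_lit 200) (nat_lit 200) (nat_lit 200)))) (PT.nd (nat_lit 156) (PT.nd (nat_lit 78) (PT.lf (nat_lit 35720) (nat_lit 6) (nat_lit 470) (nat_lit 0) (nat_lit 201) (nat_lit 200) (nat_lit 199)) (PT.lf (nat_lit 35568) (nat_lit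 6) (nat_lit 468) (nat_lit 0) (nat_lit 202) (nat_lit 200) (nat_lit 198))) (PT.nd (nat_lit 78) (PT.lf (nat_lit 35340) (nat_lit 6) (nat_lit 465) (nat_lit 0) (nat_lit 203) (nat_lit 200) (nat_lit 197)) (PT.lf (nat_lit 35036) (nat_lit 6) (nat_lit 461) (nat_lit 0) (nat_lit 204) (nat_lit 200) (nat_lit 196))))) (PT.nd (nat_lit 312) (PT.nd (nat_lit 156) (PT.nd (nat_lit 78) (PT.lf (nat_lit 34656) (nat_lit 6) (nat_lit 456) (nat_lit 0) (nat_lit 205) (nat_lit 200) (nat_lit 195)) (PT.lf (nat_lit 34200) (nat_lit 6) (nat_lit 450) (nat_lit 0) (nat_lit 206) (nat_lit 200) (nat_lit 194))) (PT.nd (nat_lit 78) (PT.lf (nat_lit 33668) (nat_lit 6) (nat_lit 443) (nat_lit 0) (nat_lit 207) (nat_lit 200) (nat_lit 193)) (PT.lf (nat_lit 33060) (nat_lit 6) (nat_lit 435) (nat_lit 0) (nat_lit 208) (nat_lit 200) (nat_lit 192)))) (PT.nd (nat_lit 156) (PT.nd (nat_lit 78) (PT.lf (nat_lit 32376) (nat_lit 6) (nat_lit 426) (nat_lit 0) (nat_lit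 209) (nat_lit 200) (nat_lit 191)) (PT.lf (nat_lit 31616) (nat_lit 6) (nat_lit 416) (nat_lit 0) (nat_lit 210) (nat_lit 200) (nat_lit 190))) (PT.nd (nat_lit 78) (PT.lf (nat_lit 30780) (nat_lit 6) (nat_lit 405) (nat_lit 0) (nat_lit 211) (nat_lit 200) (nat_lit 189)) (PT.nd (nat_lit 78) (PT.lf (nat_lit 29868) (nat_lit 6) (nat_lit 393) (nat_lit 0) (nat_lit 212) (nat_lit 200) (nat_lit 188)) (PT.lf (nat_lit 28880) (nat_lit 6) (nat_lit 380) (nat_lit 0) (nat_lit 213) (nat_lit 200) (nat_lit 187))))))))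
noncomputable def pc26 : PT := (PT.nd (nat_lit 60918) (PT.nd (nat_lit 60294) (PT.nd (nat_lit 59982) (PT.nd (nat_lit 156) (PT.nd (nat_lit 78) (PT.lf (nat_lit 27816) (nat_lit 6) (nat_lit 366) (nat_lit 0) (nat_lit 214) (nat_lit 200) (nat_lit 186)) (PT.lf (nat_lit 26676) (nat_lit 6) (nat_lit 351) (nat_lit 0) (nat_lit 215) (nat_lit 200) (nat_lit 185))) (PT.nd (nat_lit 78) (PT.lf (nat_lit 25460) (nat_lit 6) (nat_lit 335) (nat_lit 0) (nat_lit 216) (nat_lit 200) (nat_lit 184)) (PT.lf (nat_lit 24168) (nat_lit 6) (nat_lit 318) (nat_lit 0) (nat_lit 217) (nat_lit 200) (nat_lit 183)))) (PT.nd (nat_lit 156) (PT.nd (nat_lit 78) (PT.lf (nat_lit 23332) (nat_lit 6) (nat_lit 307) (nat_lit 5) (nat_lit 182) (nat_lit 201) (nat_lit 217)) (PT.lf (nat_lit 24244) (nat_lit 6) (nat_lit 319) (nat_lit 5) (nat_lit 183) (nat_lit 201) (nat_lit 216))) (PT.nd (nat_lit 78) (PT.lf (nat_lit 25536) (nat_lit 6) (nat_lit 336) (nat_lit 5) (nat_lit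 184) (nat_lit 201) (nat_lit 215)) (PT.lf (nat_lit 26752) (nat_lit 6) (nat_lit 352) (nat_lit 5) (nat_lit 185) (nat_lit 201) (nat_lit 214))))) (PT.nd (nat_lit 312) (PT.nd (nat_lit 156) (PT.nd (nat_lit 78) (PT.lf (nat_lit 27892) (nat_lit 6) (nat_lit 367) (nat_lit 5) (nat_lit 186) (nat_lit 201) (nat_lit 213)) (PT.lf (nat_lit 28956) (nat_lit 6) (nat_lit 381) (nat_lit 5) (nat_lit 187) (nat_lit 201) (nat_lit 212))) (PT.nd (nat_lit 78) (PT.lf (nat_lit 29944) (nat_lit 6) (nat_lit 394) (nat_lit 5) (nat_lit 188) (nat_lit 201) (nat_lit 211)) (PT.lf (nat_lit 30856) (nat_lit 6) (nat_lit 406) (nat_lit 5) (nat_lit 189) (nat_lit 201) (nat_lit 210)))) (PT.nd (nat_lit 156) (PT.nd (nat_lit 78) (PT.lf (nat_lit 31692) (nat_lit 6) (nat_lit 417) (nat_lit 5) (nat_lit 190) (nat_lit 201) (nat_lit 209)) (PT.lf (nat_lit 32452) (nat_lit 6) (nat_lit 427) (nat_lit 5) (nat_lit 191) (nat_lit 201) (nat_lit 208))) (PT.nd (nat_lit 78)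 (PT.lf (nat_lit 33136) (nat_lit 6) (nat_lit 436) (nat_lit 5) (nat_lit 192) (nat_lit 201) (nat_lit 207)) (PT.lf (nat_lit 33744) (nat_lit 6) (nat_lit 444) (nat_lit 5) (nat_lit 193) (nat_lit 201) (nat_lit 206)))))) (PT.nd (nat_lit 624) (PT.nd (nat_lit 312) (PT.nd (nat_lit 156) (PT.nd (nat_lit 78) (PT.lf (nat_lit 34276) (nat_lit 6) (nat_lit 451) (nat_lit 5) (nat_lit 194) (nat_lit 201) (nat_lit 205)) (PT.lf (nat_lit 34732) (nat_lit 6) (nat_lit 457) (nat_lit 5) (nat_lit 195) (nat_lit 201) (nat_lit 204))) (PT.nd (nat_lit 78) (PT.lf (nat_lit 35112) (nat_lit 6) (nat_lit 462) (nat_lit 5) (nat_lit 196) (nat_lit 201) (nat_lit 203)) (PT.lf (nat_lit 35416) (nat_lit 6) (nat_lit 466) (nat_lit 5) (nat_lit 197) (nat_lit 201) (nat_lit 202)))) (PT.nd (nat_lit 156) (PT.nd (nat_lit 78) (PT.lf (nat_lit 35644) (nat_lit 3) (nat_lit 469) (nat_lit 4) (nat_lit 198) (nat_lit 201) (nat_lit 201)) (PT.lf (nat_lit 35720) (nat_lit 6)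 (nat_lit 470) (nat_lit 4) (nat_lit 199) (nat_lit 201) (nat_lit 200))) (PT.nd (nat_lit 78) (PT.lf (nat_lit 35720) (nat_lit 6) (nat_lit 470) (nat_lit 2) (nat_lit 200) (nat_lit 201) (nat_lit 199)) (PT.lf (nat_lit 35644) (nat_lit 3) (nat_lit 469) (nat_lit 0) (nat_lit 201) (nat_lit 201) (nat_lit 198))))) (PT.nd (nat_lit 312) (PT.nd (nat_lit 156) (PT.nd (nat_lit 78) (PT.lf (nat_lit 35416) (nat_lit 6) (nat_lit 466) (nat_lit 0) (nat_lit 202) (nat_lit 201) (nat_lit 197)) (PT.lf (nat_lit 35112) (nat_lit 6) (nat_lit 462) (nat_lit 0) (nat_lit 203) (nat_lit 201) (nat_lit 196))) (PT.nd (nat_lit 78) (PT.lf (nat_lit 34732) (nat_lit 6) (nat_lit 457) (nat_lit 0) (nat_lit 204) (nat_lit 201) (nat_lit 195)) (PT.lf (nat_lit 34276) (nat_lit 6) (nat_lit 451) (nat_lit 0) (nat_lit 205) (nat_lit 201) (nat_lit 194)))) (PT.nd (nat_lit 156) (PT.nd (nat_lit 78) (PT.lf (nat_lit 33744) (nat_lit 6) (nat_lit 444) (nat_lit 0) (nat_lit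 206) (nat_lit 201) (nat_lit 193)) (PT.lf (nat_lit 33136) (nat_lit 6) (nat_lit 436) (nat_lit 0) (nat_lit 207) (nat_lit 201) (nat_lit 192))) (PT.nd (nat_lit 78) (PT.lf (nat_lit 32452) (nat_lit 6) (nat_lit 427) (nat_lit 0) (nat_lit 208) (nat_lit 201) (nat_lit 191)) (PT.nd (nat_lit 78) (PT.lf (nat_lit 31692) (nat_lit 6) (nat_lit 417) (nat_lit 0) (nat_lit 209) (nat_lit 201) (nat_lit 190)) (PT.lf (nat_lit 30856) (nat_lit 6) (nat_lit 406) (nat_lit 0) (nat_lit 210) (nat_lit 201) (nat_lit 189))))))))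
noncomputable def pc27 : PT := (PT.nd (nat_lit 60918) (PT.nd (nat_lit 60216) (PT.nd (nat_lit 312) (PT.nd (nat_lit 156) (PT.nd (nat_lit 78) (PT.lf (nat_lit 29944) (nat_lit 6) (nat_lit 394) (nat_lit 0) (nat_lit 211) (nat_lit 201) (nat_lit 188)) (PT.lf (nat_lit 28956) (nat_lit 6) (nat_lit 381) (nat_lit 0) (nat_lit 212) (nat_lit 201) (nat_lit 187))) (PT.nd (nat_lit 78) (PT.lf (nat_lit 27892) (nat_lit 6) (nat_lit 367) (nat_lit 0) (nat_lit 213) (nat_lit 201) (nat_lit 186)) (PT.lf (nat_lit 26752) (nat_lit 6) (nat_lit 352) (nat_lit 0) (nat_lit 214) (nat_lit 201) (nat_lit 185)))) (PT.nd (nat_lit 156) (PT.nd (nat_lit 78) (PT.lf (nat_lit 25536) (nat_lit 6) (nat_lit 336) (nat_lit 0) (nat_lit 215) (nat_lit 201) (nat_lit 184)) (PT.lf (nat_lit 24244) (nat_lit 6) (nat_lit 319) (nat_lit 0) (nat_lit 216) (nat_lit 201) (nat_lit 183))) (PT.nd (nat_lit 59670) (PT.lf (nat_lit 23332) (nat_lit 6) (nat_lit 307) (nat_lit 0)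 (nat_lit 217) (nat_lit 201) (nat_lit 182)) (PT.lf (nat_lit 22724) (nat_lit 6) (nat_lit 299) (nat_lit 5) (nat_lit 181) (nat_lit 202) (nat_lit 217))))) (PT.nd (nat_lit 312) (PT.nd (nat_lit 156) (PT.nd (nat_lit 78) (PT.lf (nat_lit 23408) (nat_lit 6) (nat_lit 308) (nat_lit 5) (nat_lit 182) (nat_lit 202) (nat_lit 216)) (PT.lf (nat_lit 24320) (nat_lit 6) (nat_lit 320) (nat_lit 5) (nat_lit 183) (nat_lit 202) (nat_lit 215))) (PT.nd (nat_lit 78) (PT.lf (nat_lit 25612) (nat_lit 6) (nat_lit 337) (nat_lit 5) (nat_lit 184) (nat_lit 202) (nat_lit 214)) (PT.lf (nat_lit 26828) (nat_lit 6) (nat_lit 353) (nat_lit 5) (nat_lit 185) (nat_lit 202) (nat_lit 213)))) (PT.nd (nat_lit 156) (PT.nd (nat_lit 78) (PT.lf (nat_lit 27968) (nat_lit 6) (nat_lit 368) (nat_lit 5) (nat_lit 186) (nat_lit 202) (nat_lit 212)) (PT.lf (nat_lit 29032) (nat_lit 6) (nat_lit 382) (nat_lit 5) (nat_lit 187) (nat_lit 202) (nat_lit 211))) (PT.nd (nat_lit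 78) (PT.lf (nat_lit 30020) (nat_lit 6) (nat_lit 395) (nat_lit 5) (nat_lit 188) (nat_lit 202) (nat_lit 210)) (PT.nd (nat_lit 78) (PT.lf (nat_lit 30932) (nat_lit 6) (nat_lit 407) (nat_lit 5) (nat_lit 189) (nat_lit 202) (nat_lit 209)) (PT.lf (nat_lit 31768) (nat_lit 6) (nat_lit 418) (nat_lit 5) (nat_lit 190) (nat_lit 202) (nat_lit 208))))))) (PT.nd (nat_lit 624) (PT.nd (nat_lit 312) (PT.nd (nat_lit 156) (PT.nd (nat_lit 78) (PT.lf (nat_lit 32528) (nat_lit 6) (nat_lit 428) (nat_lit 5) (nat_lit 191) (nat_lit 202) (nat_lit 207)) (PT.lf (nat_lit 33212) (nat_lit 6) (nat_lit 437) (nat_lit 5) (nat_lit 192) (nat_lit 202) (nat_lit 206))) (PT.nd (nat_lit 78) (PT.lf (nat_lit 33820) (nat_lit 6) (nat_lit 445) (nat_lit 5) (nat_lit 193) (nat_lit 202) (nat_lit 205)) (PT.lf (nat_lit 34352) (nat_lit 6) (nat_lit 452) (nat_lit 5) (nat_lit 194) (nat_lit 202) (nat_lit 204)))) (PT.nd (nat_lit 156) (PT.nd (nat_lit 78) (PT.lf (nat_lit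 34808) (nat_lit 6) (nat_lit 458) (nat_lit 5) (nat_lit 195) (nat_lit 202) (nat_lit 203)) (PT.lf (nat_lit 35188) (nat_lit 3) (nat_lit 463) (nat_lit 4) (nat_lit 196) (nat_lit 202) (nat_lit 202))) (PT.nd (nat_lit 78) (PT.lf (nat_lit 35416) (nat_lit 6) (nat_lit 466) (nat_lit 4) (nat_lit 197) (nat_lit 202) (nat_lit 201)) (PT.lf (nat_lit 35568) (nat_lit 6) (nat_lit 468) (nat_lit 4) (nat_lit 198) (nat_lit 202) (nat_lit 200))))) (PT.nd (nat_lit 312) (PT.nd (nat_lit 156) (PT.nd (nat_lit 78) (PT.lf (nat_lit 35492) (nat_lit 3) (nat_lit 467) (nat_lit 2) (nat_lit 199) (nat_lit 202) (nat_lit 199)) (PT.lf (nat_lit 35568) (nat_lit 6) (nat_lit 468) (nat_lit 2) (nat_lit 200) (nat_lit 202) (nat_lit 198))) (PT.nd (nat_lit 78) (PT.lf (nat_lit 35416) (nat_lit 6) (nat_lit 466) (nat_lit 2) (nat_lit 201) (nat_lit 202) (nat_lit 197)) (PT.lf (nat_lit 35188) (nat_lit 3) (nat_lit 463) (nat_lit 0) (nat_lit 202) (nat_lit 202) (nat_lit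 196)))) (PT.nd (nat_lit 156) (PT.nd (nat_lit 78) (PT.lf (nat_lit 34808) (nat_lit 6) (nat_lit 458) (nat_lit 0) (nat_lit 203) (nat_lit 202) (nat_lit 195)) (PT.lf (nat_lit 34352) (nat_lit 6) (nat_lit 452) (nat_lit 0) (nat_lit 204) (nat_lit 202) (nat_lit 194))) (PT.nd (nat_lit 78) (PT.lf (nat_lit 33820) (nat_lit 6) (nat_lit 445) (nat_lit 0) (nat_lit 205) (nat_lit 202) (nat_lit 193)) (PT.nd (nat_lit 78) (PT.lf (nat_lit 33212) (nat_lit 6) (nat_lit 437) (nat_lit 0) (nat_lit 206) (nat_lit 202) (nat_lit 192)) (PT.lf (nat_lit 32528) (nat_lit 6) (nat_lit 428) (nat_lit 0) (nat_lit 207) (nat_lit 202) (nat_lit 191))))))))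
noncomputable def pc28 : PT := (PT.nd (nat_lit 60684) (PT.nd (nat_lit 624) (PT.nd (nat_lit 312) (PT.nd (nat_lit 156) (PT.nd (nat_lit 78) (PT.lf (nat_lit 31768) (nat_lit 6) (nat_lit 418) (nat_lit 0) (nat_lit 208) (nat_lit 202) (nat_lit 190)) (PT.lf (nat_lit 30932) (nat_lit 6) (nat_lit 407) (nat_lit 0) (nat_lit 209) (nat_lit 202) (nat_lit 189))) (PT.nd (nat_lit 78) (PT.lf (nat_lit 30020) (nat_lit 6) (nat_lit 395) (nat_lit 0) (nat_lit 210) (nat_lit 202) (nat_lit 188)) (PT.lf (nat_lit 29032) (nat_lit 6) (nat_lit 382) (nat_lit 0) (nat_lit 211) (nat_lit 202) (nat_lit 187)))) (PT.nd (nat_lit 156) (PT.nd (nat_lit 78) (PT.lf (nat_lit 27968) (nat_lit 6) (nat_lit 368) (nat_lit 0) (nat_lit 212) (nat_lit 202) (nat_lit 186)) (PT.lf (nat_lit 26828) (nat_lit 6) (nat_lit 353) (nat_lit 0) (nat_lit 213) (nat_lit 202) (nat_lit 185))) (PT.nd (nat_lit 78) (PT.lf (nat_lit 25612) (nat_lit 6) (nat_lit 337) (nat_lit 0) (nat_lit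 214) (nat_lit 202) (nat_lit 184)) (PT.lf (nat_lit 24320) (nat_lit 6) (nat_lit 320) (nat_lit 0) (nat_lit 215) (nat_lit 202) (nat_lit 183))))) (PT.nd (nat_lit 59748) (PT.nd (nat_lit 59592) (PT.nd (nat_lit 78) (PT.lf (nat_lit 23408) (nat_lit 6) (nat_lit 308) (nat_lit 0) (nat_lit 216) (nat_lit 202) (nat_lit 182)) (PT.lf (nat_lit 22724) (nat_lit 6) (nat_lit 299) (nat_lit 0) (nat_lit 217) (nat_lit 202) (nat_lit 181))) (PT.nd (nat_lit 78) (PT.lf (nat_lit 21508) (nat_lit 6) (nat_lit 283) (nat_lit 5) (nat_lit 179) (nat_lit 203) (nat_lit 218)) (PT.lf (nat_lit 22116) (nat_lit 6) (nat_lit 291) (nat_lit 5) (nat_lit 180) (nat_lit 203) (nat_lit 217)))) (PT.nd (nat_lit 156) (PT.nd (nat_lit 78) (PT.lf (nat_lit 22800) (nat_lit 6) (nat_lit 300) (nat_lit 5) (nat_lit 181) (nat_lit 203) (nat_lit 216)) (PT.lf (nat_lit 23484) (nat_lit 6) (nat_lit 309) (nat_lit 5) (nat_lit 182) (nat_lit 203) (nat_lit 215))) (PT.nd (nat_lit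 78) (PT.lf (nat_lit 24396) (nat_lit 6) (nat_lit 321) (nat_lit 5) (nat_lit 183) (nat_lit 203) (nat_lit 214)) (PT.lf (nat_lit 25688) (nat_lit 6) (nat_lit 338) (nat_lit 5) (nat_lit 184) (nat_lit 203) (nat_lit 213)))))) (PT.nd (nat_lit 624) (PT.nd (nat_lit 312) (PT.nd (nat_lit 156) (PT.nd (nat_lit 78) (PT.lf (nat_lit 26904) (nat_lit 6) (nat_lit 354) (nat_lit 5) (nat_lit 185) (nat_lit 203) (nat_lit 212)) (PT.lf (nat_lit 28044) (nat_lit 6) (nat_lit 369) (nat_lit 5) (nat_lit 186) (nat_lit 203) (nat_lit 211))) (PT.nd (nat_lit 78) (PT.lf (nat_lit 29108) (nat_lit 6) (nat_lit 383) (nat_lit 5) (nat_lit 187) (nat_lit 203) (nat_lit 210)) (PT.lf (nat_lit 30096) (nat_lit 6) (nat_lit 396) (nat_lit 5) (nat_lit 188) (nat_lit 203) (nat_lit 209)))) (PT.nd (nat_lit 156) (PT.nd (nat_lit 78) (PT.lf (nat_lit 31008) (nat_lit 6) (nat_lit 408) (nat_lit 5) (nat_lit 189) (nat_lit 203) (nat_lit 208)) (PT.lf (nat_lit 31844) (nat_lit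 6) (nat_lit 419) (nat_lit 5) (nat_lit 190) (nat_lit 203) (nat_lit 207))) (PT.nd (nat_lit 78) (PT.lf (nat_lit 32604) (nat_lit 6) (nat_lit 429) (nat_lit 5) (nat_lit 191) (nat_lit 203) (nat_lit 206)) (PT.lf (nat_lit 33288) (nat_lit 6) (nat_lit 438) (nat_lit 5) (nat_lit 192) (nat_lit 203) (nat_lit 205))))) (PT.nd (nat_lit 312) (PT.nd (nat_lit 156) (PT.nd (nat_lit 78) (PT.lf (nat_lit 33896) (nat_lit 6) (nat_lit 446) (nat_lit 5) (nat_lit 193) (nat_lit 203) (nat_lit 204)) (PT.lf (nat_lit 34428) (nat_lit 3) (nat_lit 453) (nat_lit 4) (nat_lit 194) (nat_lit 203) (nat_lit 203))) (PT.nd (nat_lit 78) (PT.lf (nat_lit 34808) (nat_lit 6) (nat_lit 458) (nat_lit 4) (nat_lit 195) (nat_lit 203) (nat_lit 202)) (PT.lf (nat_lit 35112) (nat_lit 6) (nat_lit 462) (nat_lit 4) (nat_lit 196) (nat_lit 203) (nat_lit 201)))) (PT.nd (nat_lit 156) (PT.nd (nat_lit 78) (PT.lf (nat_lit 35340) (nat_lit 6) (nat_lit 465) (nat_lit 4) (nat_lit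 197) (nat_lit 203) (nat_lit 200)) (PT.lf (nat_lit 35264) (nat_lit 6) (nat_lit 464) (nat_lit 4) (nat_lit 198) (nat_lit 203) (nat_lit 199))) (PT.nd (nat_lit 78) (PT.lf (nat_lit 35264) (nat_lit 6) (nat_lit 464) (nat_lit 2) (nat_lit 199) (nat_lit 203) (nat_lit 198)) (PT.nd (nat_lit 78) (PT.lf (nat_lit 35340) (nat_lit 6) (nat_lit 465) (nat_lit 2) (nat_lit 200) (nat_lit 203) (nat_lit 197)) (PT.lf (nat_lit 35112) (nat_lit 6) (nat_lit 462) (nat_lit 2) (nat_lit 201) (nat_lit 203) (nat_lit 196))))))))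
noncomputable def pc29 : PT := (PT.nd (nat_lit 60606) (PT.nd (nat_lit 624) (PT.nd (nat_lit 312) (PT.nd (nat_lit 156) (PT.nd (nat_lit 78) (PT.lf (nat_lit 34808) (nat_lit 6) (nat_lit 458) (nat_lit 2) (nat_lit 202) (nat_lit 203) (nat_lit 195)) (PT.lf (nat_lit 34428) (nat_lit 3) (nat_lit 453) (nat_lit 0) (nat_lit 203) (nat_lit 203) (nat_lit 194))) (PT.nd (nat_lit 78) (PT.lf (nat_lit 33896) (nat_lit 6) (nat_lit 446) (nat_lit 0) (nat_lit 204) (nat_lit 203) (nat_lit 193)) (PT.lf (nat_lit 33288) (nat_lit 6) (nat_lit 438) (nat_lit 0) (nat_lit 205) (nat_lit 203) (nat_lit 192)))) (PT.nd (nat_lit 156) (PT.nd (nat_lit 78) (PT.lf (nat_lit 32604) (nat_lit 6) (nat_lit 429) (nat_lit 0) (nat_lit 206) (nat_lit 203) (nat_lit 191)) (PT.lf (nat_lit 31844) (nat_lit 6) (nat_lit 419) (nat_lit 0) (nat_lit 207) (nat_lit 203) (nat_lit 190))) (PT.nd (nat_lit 78) (PT.lf (nat_lit 31008) (nat_lit 6) (nat_lit 408) (nat_lit 0) (nat_lit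 208) (nat_lit 203) (nat_lit 189)) (PT.lf (nat_lit 30096) (nat_lit 6) (nat_lit 396) (nat_lit 0) (nat_lit 209) (nat_lit 203) (nat_lit 188))))) (PT.nd (nat_lit 312) (PT.nd (nat_lit 156) (PT.nd (nat_lit 78) (PT.lf (nat_lit 29108) (nat_lit 6) (nat_lit 383) (nat_lit 0) (nat_lit 210) (nat_lit 203) (nat_lit 187)) (PT.lf (nat_lit 28044) (nat_lit 6) (nat_lit 369) (nat_lit 0) (nat_lit 211) (nat_lit 203) (nat_lit 186))) (PT.nd (nat_lit 78) (PT.lf (nat_lit 26904) (nat_lit 6) (nat_lit 354) (nat_lit 0) (nat_lit 212) (nat_lit 203) (nat_lit 185)) (PT.lf (nat_lit 25688) (nat_lit 6) (nat_lit 338) (nat_lit 0) (nat_lit 213) (nat_lit 203) (nat_lit 184)))) (PT.nd (nat_lit 156) (PT.nd (nat_lit 78) (PT.lf (nat_lit 24396) (nat_lit 6) (nat_lit 321) (nat_lit 0) (nat_lit 214) (nat_lit 203) (nat_lit 183)) (PT.lf (nat_lit 23484) (nat_lit 6) (nat_lit 309) (nat_lit 0) (nat_lit 215) (nat_lit 203) (nat_lit 182))) (PT.nd (nat_lit 78)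 (PT.lf (nat_lit 22800) (nat_lit 6) (nat_lit 300) (nat_lit 0) (nat_lit 216) (nat_lit 203) (nat_lit 181)) (PT.nd (nat_lit 78) (PT.lf (nat_lit 22116) (nat_lit 6) (nat_lit 291) (nat_lit 0) (nat_lit 217) (nat_lit 203) (nat_lit 180)) (PT.lf (nat_lit 21508) (nat_lit 6) (nat_lit 283) (nat_lit 0) (nat_lit 218) (nat_lit 203) (nat_lit 179))))))) (PT.nd (nat_lit 624) (PT.nd (nat_lit 312) (PT.nd (nat_lit 156) (PT.nd (nat_lit 78) (PT.lf (nat_lit 20900) (nat_lit 6) (nat_lit 275) (nat_lit 5) (nat_lit 178) (nat_lit 204) (nat_lit 218)) (PT.lf (nat_lit 21584) (nat_lit 6) (nat_lit 284) (nat_lit 5) (nat_lit 179) (nat_lit 204) (nat_lit 217))) (PT.nd (nat_lit 78) (PT.lf (nat_lit 22192) (nat_lit 6) (nat_lit 292) (nat_lit 5) (nat_lit 180) (nat_lit 204) (nat_lit 216)) (PT.lf (nat_lit 22876) (nat_lit 6) (nat_lit 301) (nat_lit 5) (nat_lit 181) (nat_lit 204) (nat_lit 215)))) (PT.nd (nat_lit 156) (PT.nd (nat_lit 78) (PT.lf (nat_lit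 23560) (nat_lit 6) (nat_lit 310) (nat_lit 5) (nat_lit 182) (nat_lit 204) (nat_lit 214)) (PT.lf (nat_lit 24472) (nat_lit 6) (nat_lit 322) (nat_lit 5) (nat_lit 183) (nat_lit 204) (nat_lit 213))) (PT.nd (nat_lit 78) (PT.lf (nat_lit 25764) (nat_lit 6) (nat_lit 339) (nat_lit 5) (nat_lit 184) (nat_lit 204) (nat_lit 212)) (PT.lf (nat_lit 26980) (nat_lit 6) (nat_lit 355) (nat_lit 5) (nat_lit 185) (nat_lit 204) (nat_lit 211))))) (PT.nd (nat_lit 312) (PT.nd (nat_lit 156) (PT.nd (nat_lit 78) (PT.lf (nat_lit 28120) (nat_lit 6) (nat_lit 370) (nat_lit 5) (nat_lit 186) (nat_lit 204) (nat_lit 210)) (PT.lf (nat_lit 29184) (nat_lit 6) (nat_lit 384) (nat_lit 5) (nat_lit 187) (nat_lit 204) (nat_lit 209))) (PT.nd (nat_lit 78) (PT.lf (nat_lit 30172) (nat_lit 6) (nat_lit 397) (nat_lit 5) (nat_lit 188) (nat_lit 204) (nat_lit 208)) (PT.lf (nat_lit 31084) (nat_lit 6) (nat_lit 409) (nat_lit 5) (nat_lit 189) (nat_lit 204) (nat_lit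 207)))) (PT.nd (nat_lit 156) (PT.nd (nat_lit 78) (PT.lf (nat_lit 31920) (nat_lit 6) (nat_lit 420) (nat_lit 5) (nat_lit 190) (nat_lit 204) (nat_lit 206)) (PT.lf (nat_lit 32680) (nat_lit 6) (nat_lit 430) (nat_lit 5) (nat_lit 191) (nat_lit 204) (nat_lit 205))) (PT.nd (nat_lit 78) (PT.lf (nat_lit 33364) (nat_lit 3) (nat_lit 439) (nat_lit 4) (nat_lit 192) (nat_lit 204) (nat_lit 204)) (PT.nd (nat_lit 78) (PT.lf (nat_lit 33896) (nat_lit 6) (nat_lit 446) (nat_lit 4) (nat_lit 193) (nat_lit 204) (nat_lit 203)) (PT.lf (nat_lit 34352) (nat_lit 6) (nat_lit 452) (nat_lit 4) (nat_lit 194) (nat_lit 204) (nat_lit 202))))))))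
noncomputable def pc30 : PT := (PT.nd (nat_lit 1248) (PT.nd (nat_lit 624) (PT.nd (nat_lit 312) (PT.nd (nat_lit 156) (PT.nd (nat_lit 78) (PT.lf (nat_lit 34732) (nat_lit 6) (nat_lit 457) (nat_lit 4) (nat_lit 195) (nat_lit 204) (nat_lit 201)) (PT.lf (nat_lit 35036) (nat_lit 6) (nat_lit 461) (nat_lit 4) (nat_lit 196) (nat_lit 204) (nat_lit 200))) (PT.nd (nat_lit 78) (PT.lf (nat_lit 34960) (nat_lit 6) (nat_lit 460) (nat_lit 4) (nat_lit 197) (nat_lit 204) (nat_lit 199)) (PT.lf (nat_lit 34884) (nat_lit 3) (nat_lit 459) (nat_lit 2) (nat_lit 198) (nat_lit 204) (nat_lit 198)))) (PT.nd (nat_lit 156) (PT.nd (nat_lit 78) (PT.lf (nat_lit 34960) (nat_lit 6) (nat_lit 460) (nat_lit 2) (nat_lit 199) (nat_lit 204) (nat_lit 197)) (PT.lf (nat_lit 35036) (nat_lit 6) (nat_lit 461) (nat_lit 2) (nat_lit 200) (nat_lit 204) (nat_lit 196))) (PT.nd (nat_lit 78) (PT.lf (nat_lit 34732) (nat_lit 6) (nat_lit 457) (nat_lit 2) (nat_lit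 201) (nat_lit 204) (nat_lit 195)) (PT.lf (nat_lit 34352) (nat_lit 6) (nat_lit 452) (nat_lit 2) (nat_lit 202) (nat_lit 204) (nat_lit 194))))) (PT.nd (nat_lit 312) (PT.nd (nat_lit 156) (PT.nd (nat_lit 78) (PT.lf (nat_lit 33896) (nat_lit 6) (nat_lit 446) (nat_lit 2) (nat_lit 203) (nat_lit 204) (nat_lit 193)) (PT.lf (nat_lit 33364) (nat_lit 3) (nat_lit 439) (nat_lit 0) (nat_lit 204) (nat_lit 204) (nat_lit 192))) (PT.nd (nat_lit 78) (PT.lf (nat_lit 32680) (nat_lit 6) (nat_lit 430) (nat_lit 0) (nat_lit 205) (nat_lit 204) (nat_lit 191)) (PT.lf (nat_lit 31920) (nat_lit 6) (nat_lit 420) (nat_lit 0) (nat_lit 206) (nat_lit 204) (nat_lit 190)))) (PT.nd (nat_lit 156) (PT.nd (nat_lit 78) (PT.lf (nat_lit 31084) (nat_lit 6) (nat_lit 409) (nat_lit 0) (nat_lit 207) (nat_lit 204) (nat_lit 189)) (PT.lf (nat_lit 30172) (nat_lit 6) (nat_lit 397) (nat_lit 0) (nat_lit 208) (nat_lit 204) (nat_lit 188))) (PT.nd (nat_lit 78)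 (PT.lf (nat_lit 29184) (nat_lit 6) (nat_lit 384) (nat_lit 0) (nat_lit 209) (nat_lit 204) (nat_lit 187)) (PT.lf (nat_lit 28120) (nat_lit 6) (nat_lit 370) (nat_lit 0) (nat_lit 210) (nat_lit 204) (nat_lit 186)))))) (PT.nd (nat_lit 59826) (PT.nd (nat_lit 312) (PT.nd (nat_lit 156) (PT.nd (nat_lit 78) (PT.lf (nat_lit 26980) (nat_lit 6) (nat_lit 355) (nat_lit 0) (nat_lit 211) (nat_lit 204) (nat_lit 185)) (PT.lf (nat_lit 25764) (nat_lit 6) (nat_lit 339) (nat_lit 0) (nat_lit 212) (nat_lit 204) (nat_lit 184))) (PT.nd (nat_lit 78) (PT.lf (nat_lit 24472) (nat_lit 6) (nat_lit 322) (nat_lit 0) (nat_lit 213) (nat_lit 204) (nat_lit 183)) (PT.lf (nat_lit 23560) (nat_lit 6) (nat_lit 310) (nat_lit 0) (nat_lit 214) (nat_lit 204) (nat_lit 182)))) (PT.nd (nat_lit 156) (PT.nd (nat_lit 78) (PT.lf (nat_lit 22876) (nat_lit 6) (nat_lit 301) (nat_lit 0) (nat_lit 215) (nat_lit 204) (nat_lit 181)) (PT.lf (nat_lit 22192) (nat_lit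 6) (nat_lit 292) (nat_lit 0) (nat_lit 216) (nat_lit 204) (nat_lit 180))) (PT.nd (nat_lit 78) (PT.lf (nat_lit 21584) (nat_lit 6) (nat_lit 284) (nat_lit 0) (nat_lit 217) (nat_lit 204) (nat_lit 179)) (PT.lf (nat_lit 20900) (nat_lit 6) (nat_lit 275) (nat_lit 0) (nat_lit 218) (nat_lit 204) (nat_lit 178))))) (PT.nd (nat_lit 312) (PT.nd (nat_lit 156) (PT.nd (nat_lit 78) (PT.lf (nat_lit 20368) (nat_lit 6) (nat_lit 268) (nat_lit 5) (nat_lit 177) (nat_lit 205) (nat_lit 218)) (PT.lf (nat_lit 20976) (nat_lit 6) (nat_lit 276) (nat_lit 5) (nat_lit 178) (nat_lit 205) (nat_lit 217))) (PT.nd (nat_lit 78) (PT.lf (nat_lit 21660) (nat_lit 6) (nat_lit 285) (nat_lit 5) (nat_lit 179) (nat_lit 205) (nat_lit 216)) (PT.lf (nat_lit 22268) (nat_lit 6) (nat_lit 293) (nat_lit 5) (nat_lit 180) (nat_lit 205) (nat_lit 215)))) (PT.nd (nat_lit 156) (PT.nd (nat_lit 78) (PT.lf (nat_lit 22952) (nat_lit 6) (nat_lit 302) (nat_lit 5) (nat_lit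 181) (nat_lit 205) (nat_lit 214)) (PT.lf (nat_lit 23636) (nat_lit 6) (nat_lit 311) (nat_lit 5) (nat_lit 182) (nat_lit 205) (nat_lit 213))) (PT.nd (nat_lit 78) (PT.lf (nat_lit 24548) (nat_lit 6) (nat_lit 323) (nat_lit 5) (nat_lit 183) (nat_lit 205) (nat_lit 212)) (PT.nd (nat_lit 78) (PT.lf (nat_lit 25840) (nat_lit 6) (nat_lit 340) (nat_lit 5) (nat_lit 184) (nat_lit 205) (nat_lit 211)) (PT.lf (nat_lit 27056) (nat_lit 6) (nat_lit 356) (nat_lit 5) (nat_lit 185) (nat_lit 205) (nat_lit 210))))))))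
noncomputable def pc31 : PT := (PT.nd (nat_lit 1326) (PT.nd (nat_lit 624) (PT.nd (nat_lit 312) (PT.nd (nat_lit 156) (PT.nd (nat_lit 78) (PT.lf (nat_lit 28196) (nat_lit 6) (nat_lit 371) (nat_lit 5) (nat_lit 186) (nat_lit 205) (nat_lit 209)) (PT.lf (nat_lit 29260) (nat_lit 6) (nat_lit 385) (nat_lit 5) (nat_lit 187) (nat_lit 205) (nat_lit 208))) (PT.nd (nat_lit 78) (PT.lf (nat_lit 30248) (nat_lit 6) (nat_lit 398) (nat_lit 5) (nat_lit 188) (nat_lit 205) (nat_lit 207)) (PT.lf (nat_lit 31160) (nat_lit 6) (nat_lit 410) (nat_lit 5) (nat_lit 189) (nat_lit 205) (nat_lit 206)))) (PT.nd (nat_lit 156) (PT.nd (nat_lit 78) (PT.lf (nat_lit 31996) (nat_lit 3) (nat_lit 421) (nat_lit 4) (nat_lit 190) (nat_lit 205) (nat_lit 205)) (PT.lf (nat_lit 32680) (nat_lit 6) (nat_lit 430) (nat_lit 4) (nat_lit 191) (nat_lit 205) (nat_lit 204))) (PT.nd (nat_lit 78) (PT.lf (nat_lit 33288) (nat_lit 6) (nat_lit 438) (nat_lit 4) (nat_lit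 192) (nat_lit 205) (nat_lit 203)) (PT.lf (nat_lit 33820) (nat_lit 6) (nat_lit 445) (nat_lit 4) (nat_lit 193) (nat_lit 205) (nat_lit 202))))) (PT.nd (nat_lit 312) (PT.nd (nat_lit 156) (PT.nd (nat_lit 78) (PT.lf (nat_lit 34276) (nat_lit 6) (nat_lit 451) (nat_lit 4) (nat_lit 194) (nat_lit 205) (nat_lit 201)) (PT.lf (nat_lit 34656) (nat_lit 6) (nat_lit 456) (nat_lit 4) (nat_lit 195) (nat_lit 205) (nat_lit 200))) (PT.nd (nat_lit 78) (PT.lf (nat_lit 34580) (nat_lit 6) (nat_lit 455) (nat_lit 4) (nat_lit 196) (nat_lit 205) (nat_lit 199)) (PT.lf (nat_lit 34504) (nat_lit 6) (nat_lit 454) (nat_lit 4) (nat_lit 197) (nat_lit 205) (nat_lit 198)))) (PT.nd (nat_lit 156) (PT.nd (nat_lit 78) (PT.lf (nat_lit 34504) (nat_lit 6) (nat_lit 454) (nat_lit 2) (nat_lit 198) (nat_lit 205) (nat_lit 197)) (PT.lf (nat_lit 34580) (nat_lit 6) (nat_lit 455) (nat_lit 2) (nat_lit 199) (nat_lit 205) (nat_lit 196))) (PT.nd (nat_lit 78)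 (PT.lf (nat_lit 34656) (nat_lit 6) (nat_lit 456) (nat_lit 2) (nat_lit 200) (nat_lit 205) (nat_lit 195)) (PT.nd (nat_lit 78) (PT.lf (nat_lit 34276) (nat_lit 6) (nat_lit 451) (nat_lit 2) (nat_lit 201) (nat_lit 205) (nat_lit 194)) (PT.lf (nat_lit 33820) (nat_lit 6) (nat_lit 445) (nat_lit 2) (nat_lit 202) (nat_lit 205) (nat_lit 193))))))) (PT.nd (nat_lit 624) (PT.nd (nat_lit 312) (PT.nd (nat_lit 156) (PT.nd (nat_lit 78) (PT.lf (nat_lit 33288) (nat_lit 6) (nat_lit 438) (nat_lit 2) (nat_lit 203) (nat_lit 205) (nat_lit 192)) (PT.lf (nat_lit 32680) (nat_lit 6) (nat_lit 430) (nat_lit 2) (nat_lit 204) (nat_lit 205) (nat_lit 191))) (PT.nd (nat_lit 78) (PT.lf (nat_lit 31996) (nat_lit 3) (nat_lit 421) (nat_lit 0) (nat_lit 205) (nat_lit 205) (nat_lit 190)) (PT.lf (nat_lit 31160) (nat_lit 6) (nat_lit 410) (nat_lit 0) (nat_lit 206) (nat_lit 205) (nat_lit 189)))) (PT.nd (nat_lit 156) (PT.nd (nat_lit 78) (PT.lf (nat_lit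 30248) (nat_lit 6) (nat_lit 398) (nat_lit 0) (nat_lit 207) (nat_lit 205) (nat_lit 188)) (PT.lf (nat_lit 29260) (nat_lit 6) (nat_lit 385) (nat_lit 0) (nat_lit 208) (nat_lit 205) (nat_lit 187))) (PT.nd (nat_lit 78) (PT.lf (nat_lit 28196) (nat_lit 6) (nat_lit 371) (nat_lit 0) (nat_lit 209) (nat_lit 205) (nat_lit 186)) (PT.lf (nat_lit 27056) (nat_lit 6) (nat_lit 356) (nat_lit 0) (nat_lit 210) (nat_lit 205) (nat_lit 185))))) (PT.nd (nat_lit 312) (PT.nd (nat_lit 156) (PT.nd (nat_lit 78) (PT.lf (nat_lit 25840) (nat_lit 6) (nat_lit 340) (nat_lit 0) (nat_lit 211) (nat_lit 205) (nat_lit 184)) (PT.lf (nat_lit 24548) (nat_lit 6) (nat_lit 323) (nat_lit 0) (nat_lit 212) (nat_lit 205) (nat_lit 183))) (PT.nd (nat_lit 78) (PT.lf (nat_lit 23636) (nat_lit 6) (nat_lit 311) (nat_lit 0) (nat_lit 213) (nat_lit 205) (nat_lit 182)) (PT.lf (nat_lit 22952) (nat_lit 6) (nat_lit 302) (nat_lit 0) (nat_lit 214) (nat_lit 205) (nat_lit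 181)))) (PT.nd (nat_lit 156) (PT.nd (nat_lit 78) (PT.lf (nat_lit 22268) (nat_lit 6) (nat_lit 293) (nat_lit 0) (nat_lit 215) (nat_lit 205) (nat_lit 180)) (PT.lf (nat_lit 21660) (nat_lit 6) (nat_lit 285) (nat_lit 0) (nat_lit 216) (nat_lit 205) (nat_lit 179))) (PT.nd (nat_lit 78) (PT.lf (nat_lit 20976) (nat_lit 6) (nat_lit 276) (nat_lit 0) (nat_lit 217) (nat_lit 205) (nat_lit 178)) (PT.nd (nat_lit 59202) (PT.lf (nat_lit 20368) (nat_lit 6) (nat_lit 268) (nat_lit 0) (nat_lit 218) (nat_lit 205) (nat_lit 177)) (PT.lf (nat_lit 19836) (nat_lit 6) (nat_lit 261) (nat_lit 5) (nat_lit 176) (nat_lit 206) (nat_lit 218))))))))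
noncomputable def pc32 : PT := (PT.nd (nat_lit 1248) (PT.nd (nat_lit 624) (PT.nd (nat_lit 312) (PT.nd (nat_lit 156) (PT.nd (nat_lit 78) (PT.lf (nat_lit 20444) (nat_lit 6) (nat_lit 269) (nat_lit 5) (nat_lit 177) (nat_lit 206) (nat_lit 217)) (PT.lf (nat_lit 21052) (nat_lit 6) (nat_lit 277) (nat_lit 5) (nat_lit 178) (nat_lit 206) (nat_lit 216))) (PT.nd (nat_lit 78) (PT.lf (nat_lit 21736) (nat_lit 6) (nat_lit 286) (nat_lit 5) (nat_lit 179) (nat_lit 206) (nat_lit 215)) (PT.lf (nat_lit 22344) (nat_lit 6) (nat_lit 294) (nat_lit 5) (nat_lit 180) (nat_lit 206) (nat_lit 214)))) (PT.nd (nat_lit 156) (PT.nd (nat_lit 78) (PT.lf (nat_lit 23028) (nat_lit 6) (nat_lit 303) (nat_lit 5) (nat_lit 181) (nat_lit 206) (nat_lit 213)) (PT.lf (nat_lit 23712) (nat_lit 6) (nat_lit 312) (nat_lit 5) (nat_lit 182) (nat_lit 206) (nat_lit 212))) (PT.nd (nat_lit 78) (PT.lf (nat_lit 24624) (nat_lit 6) (nat_lit 324) (nat_lit 5) (nat_lit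 183) (nat_lit 206) (nat_lit 211)) (PT.lf (nat_lit 25916) (nat_lit 6) (nat_lit 341) (nat_lit 5) (nat_lit 184) (nat_lit 206) (nat_lit 210))))) (PT.nd (nat_lit 312) (PT.nd (nat_lit 156) (PT.nd (nat_lit 78) (PT.lf (nat_lit 27132) (nat_lit 6) (nat_lit 357) (nat_lit 5) (nat_lit 185) (nat_lit 206) (nat_lit 209)) (PT.lf (nat_lit 28272) (nat_lit 6) (nat_lit 372) (nat_lit 5) (nat_lit 186) (nat_lit 206) (nat_lit 208))) (PT.nd (nat_lit 78) (PT.lf (nat_lit 29336) (nat_lit 6) (nat_lit 386) (nat_lit 5) (nat_lit 187) (nat_lit 206) (nat_lit 207)) (PT.lf (nat_lit 30324) (nat_lit 3) (nat_lit 399) (nat_lit 4) (nat_lit 188) (nat_lit 206) (nat_lit 206)))) (PT.nd (nat_lit 156) (PT.nd (nat_lit 78) (PT.lf (nat_lit 31160) (nat_lit 6) (nat_lit 410) (nat_lit 4) (nat_lit 189) (nat_lit 206) (nat_lit 205)) (PT.lf (nat_lit 31920) (nat_lit 6) (nat_lit 420) (nat_lit 4) (nat_lit 190) (nat_lit 206) (nat_lit 204))) (PT.nd (nat_lit 78)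 (PT.lf (nat_lit 32604) (nat_lit 6) (nat_lit 429) (nat_lit 4) (nat_lit 191) (nat_lit 206) (nat_lit 203)) (PT.lf (nat_lit 33212) (nat_lit 6) (nat_lit 437) (nat_lit 4) (nat_lit 192) (nat_lit 206) (nat_lit 202)))))) (PT.nd (nat_lit 624) (PT.nd (nat_lit 312) (PT.nd (nat_lit 156) (PT.nd (nat_lit 78) (PT.lf (nat_lit 33744) (nat_lit 6) (nat_lit 444) (nat_lit 4) (nat_lit 193) (nat_lit 206) (nat_lit 201)) (PT.lf (nat_lit 34200) (nat_lit 6) (nat_lit 450) (nat_lit 4) (nat_lit 194) (nat_lit 206) (nat_lit 200))) (PT.nd (nat_lit 78) (PT.lf (nat_lit 34124) (nat_lit 6) (nat_lit 449) (nat_lit 4) (nat_lit 195) (nat_lit 206) (nat_lit 199)) (PT.lf (nat_lit 34048) (nat_lit 6) (nat_lit 448) (nat_lit 4) (nat_lit 196) (nat_lit 206) (nat_lit 198)))) (PT.nd (nat_lit 156) (PT.nd (nat_lit 78) (PT.lf (nat_lit 33972) (nat_lit 3) (nat_lit 447) (nat_lit 2) (nat_lit 197) (nat_lit 206) (nat_lit 197)) (PT.lf (nat_lit 34048) (nat_lit 6)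 (nat_lit 448) (nat_lit 2) (nat_lit 198) (nat_lit 206) (nat_lit 196))) (PT.nd (nat_lit 78) (PT.lf (nat_lit 34124) (nat_lit 6) (nat_lit 449) (nat_lit 2) (nat_lit 199) (nat_lit 206) (nat_lit 195)) (PT.lf (nat_lit 34200) (nat_lit 6) (nat_lit 450) (nat_lit 2) (nat_lit 200) (nat_lit 206) (nat_lit 194))))) (PT.nd (nat_lit 312) (PT.nd (nat_lit 156) (PT.nd (nat_lit 78) (PT.lf (nat_lit 33744) (nat_lit 6) (nat_lit 444) (nat_lit 2) (nat_lit 201) (nat_lit 206) (nat_lit 193)) (PT.lf (nat_lit 33212) (nat_lit 6) (nat_lit 437) (nat_lit 2) (nat_lit 202) (nat_lit 206) (nat_lit 192))) (PT.nd (nat_lit 78) (PT.lf (nat_lit 32604) (nat_lit 6) (nat_lit 429) (nat_lit 2) (nat_lit 203) (nat_lit 206) (nat_lit 191)) (PT.lf (nat_lit 31920) (nat_lit 6) (nat_lit 420) (nat_lit 2) (nat_lit 204) (nat_lit 206) (nat_lit 190)))) (PT.nd (nat_lit 156) (PT.nd (nat_lit 78) (PT.lf (nat_lit 31160) (nat_lit 6) (nat_lit 410) (nat_lit 2) (nat_lit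 205) (nat_lit 206) (nat_lit 189)) (PT.lf (nat_lit 30324) (nat_lit 3) (nat_lit 399) (nat_lit 0) (nat_lit 206) (nat_lit 206) (nat_lit 188))) (PT.nd (nat_lit 78) (PT.lf (nat_lit 29336) (nat_lit 6) (nat_lit 386) (nat_lit 0) (nat_lit 207) (nat_lit 206) (nat_lit 187)) (PT.nd (nat_lit 78) (PT.lf (nat_lit 28272) (nat_lit 6) (nat_lit 372) (nat_lit 0) (nat_lit 208) (nat_lit 206) (nat_lit 186)) (PT.lf (nat_lit 27132) (nat_lit 6) (nat_lit 357) (nat_lit 0) (nat_lit 209) (nat_lit 206) (nat_lit 185))))))))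
noncomputable def pc33 : PT := (PT.nd (nat_lit 60216) (PT.nd (nat_lit 624) (PT.nd (nat_lit 312) (PT.nd (nat_lit 156) (PT.nd (nat_lit 78) (PT.lf (nat_lit 25916) (nat_lit 6) (nat_lit 341) (nat_lit 0) (nat_lit 210) (nat_lit 206) (nat_lit 184)) (PT.lf (nat_lit 24624) (nat_lit 6) (nat_lit 324) (nat_lit 0) (nat_lit 211) (nat_lit 206) (nat_lit 183))) (PT.nd (nat_lit 78) (PT.lf (nat_lit 23712) (nat_lit 6) (nat_lit 312) (nat_lit 0) (nat_lit 212) (nat_lit 206) (nat_lit 182)) (PT.lf (nat_lit 23028) (nat_lit 6) (nat_lit 303) (nat_lit 0) (nat_lit 213) (nat_lit 206) (nat_lit 181)))) (PT.nd (nat_lit 156) (PT.nd (nat_lit 78) (PT.lf (nat_lit 22344) (nat_lit 6) (nat_lit 294) (nat_lit 0) (nat_lit 214) (nat_lit 206) (nat_lit 180)) (PT.lf (nat_lit 21736) (nat_lit 6) (nat_lit 286) (nat_lit 0) (nat_lit 215) (nat_lit 206) (nat_lit 179))) (PT.nd (nat_lit 78) (PT.lf (nat_lit 21052) (nat_lit 6) (nat_lit 277) (nat_lit 0) (nat_lit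 216) (nat_lit 206) (nat_lit 178)) (PT.lf (nat_lit 20444) (nat_lit 6) (nat_lit 269) (nat_lit 0) (nat_lit 217) (nat_lit 206) (nat_lit 177))))) (PT.nd (nat_lit 59280) (PT.nd (nat_lit 59124) (PT.nd (nat_lit 59046) (PT.lf (nat_lit 19836) (nat_lit 6) (nat_lit 261) (nat_lit 0) (nat_lit 218) (nat_lit 206) (nat_lit 176)) (PT.lf (nat_lit 18848) (nat_lit 6) (nat_lit 248) (nat_lit 5) (nat_lit 174) (nat_lit 207) (nat_lit 219))) (PT.nd (nat_lit 78) (PT.lf (nat_lit 19380) (nat_lit 6) (nat_lit 255) (nat_lit 5) (nat_lit 175) (nat_lit 207) (nat_lit 218)) (PT.lf (nat_lit 19912) (nat_lit 6) (nat_lit 262) (nat_lit 5) (nat_lit 176) (nat_lit 207) (nat_lit 217)))) (PT.nd (nat_lit 156) (PT.nd (nat_lit 78) (PT.lf (nat_lit 20520) (nat_lit 6) (nat_lit 270) (nat_lit 5) (nat_lit 177) (nat_lit 207) (nat_lit 216)) (PT.lf (nat_lit 21128) (nat_lit 6) (nat_lit 278) (nat_lit 5) (nat_lit 178) (nat_lit 207) (nat_lit 215))) (PT.nd (nat_lit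 78) (PT.lf (nat_lit 21812) (nat_lit 6) (nat_lit 287) (nat_lit 5) (nat_lit 179) (nat_lit 207) (nat_lit 214)) (PT.lf (nat_lit 22420) (nat_lit 6) (nat_lit 295) (nat_lit 5) (nat_lit 180) (nat_lit 207) (nat_lit 213)))))) (PT.nd (nat_lit 624) (PT.nd (nat_lit 312) (PT.nd (nat_lit 156) (PT.nd (nat_lit 78) (PT.lf (nat_lit 23104) (nat_lit 6) (nat_lit 304) (nat_lit 5) (nat_lit 181) (nat_lit 207) (nat_lit 212)) (PT.lf (nat_lit 23788) (nat_lit 6) (nat_lit 313) (nat_lit 5) (nat_lit 182) (nat_lit 207) (nat_lit 211))) (PT.nd (nat_lit 78) (PT.lf (nat_lit 24700) (nat_lit 6) (nat_lit 325) (nat_lit 5) (nat_lit 183) (nat_lit 207) (nat_lit 210)) (PT.lf (nat_lit 25992) (nat_lit 6) (nat_lit 342) (nat_lit 5) (nat_lit 184) (nat_lit 207) (nat_lit 209)))) (PT.nd (nat_lit 156) (PT.nd (nat_lit 78) (PT.lf (nat_lit 27208) (nat_lit 6) (nat_lit 358) (nat_lit 5) (nat_lit 185) (nat_lit 207) (nat_lit 208)) (PT.lf (nat_lit 28348) (nat_lit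 3) (nat_lit 373) (nat_lit 4) (nat_lit 186) (nat_lit 207) (nat_lit 207))) (PT.nd (nat_lit 78) (PT.lf (nat_lit 29336) (nat_lit 6) (nat_lit 386) (nat_lit 4) (nat_lit 187) (nat_lit 207) (nat_lit 206)) (PT.lf (nat_lit 30248) (nat_lit 6) (nat_lit 398) (nat_lit 4) (nat_lit 188) (nat_lit 207) (nat_lit 205))))) (PT.nd (nat_lit 312) (PT.nd (nat_lit 156) (PT.nd (nat_lit 78) (PT.lf (nat_lit 31084) (nat_lit 6) (nat_lit 409) (nat_lit 4) (nat_lit 189) (nat_lit 207) (nat_lit 204)) (PT.lf (nat_lit 31844) (nat_lit 6) (nat_lit 419) (nat_lit 4) (nat_lit 190) (nat_lit 207) (nat_lit 203))) (PT.nd (nat_lit 78) (PT.lf (nat_lit 32528) (nat_lit 6) (nat_lit 428) (nat_lit 4) (nat_lit 191) (nat_lit 207) (nat_lit 202)) (PT.lf (nat_lit 33136) (nat_lit 6) (nat_lit 436) (nat_lit 4) (nat_lit 192) (nat_lit 207) (nat_lit 201)))) (PT.nd (nat_lit 156) (PT.nd (nat_lit 78) (PT.lf (nat_lit 33668) (nat_lit 6) (nat_lit 443) (nat_lit 4) (nat_lit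 193) (nat_lit 207) (nat_lit 200)) (PT.lf (nat_lit 33592) (nat_lit 6) (nat_lit 442) (nat_lit 4) (nat_lit 194) (nat_lit 207) (nat_lit 199))) (PT.nd (nat_lit 78) (PT.lf (nat_lit 33516) (nat_lit 6) (nat_lit 441) (nat_lit 4) (nat_lit 195) (nat_lit 207) (nat_lit 198)) (PT.nd (nat_lit 78) (PT.lf (nat_lit 33440) (nat_lit 6) (nat_lit 440) (nat_lit 4) (nat_lit 196) (nat_lit 207) (nat_lit 197)) (PT.lf (nat_lit 33440) (nat_lit 6) (nat_lit 440) (nat_lit 2) (nat_lit 197) (nat_lit 207) (nat_lit 196))))))))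
noncomputable def pc34 : PT := (PT.nd (nat_lit 1248) (PT.nd (nat_lit 624) (PT.nd (nat_lit 312) (PT.nd (nat_lit 156) (PT.nd (nat_lit 78) (PT.lf (nat_lit 33516) (nat_lit 6) (nat_lit 441) (nat_lit 2) (nat_lit 198) (nat_lit 207) (nat_lit 195)) (PT.lf (nat_lit 33592) (nat_lit 6) (nat_lit 442) (nat_lit 2) (nat_lit 199) (nat_lit 207) (nat_lit 194))) (PT.nd (nat_lit 78) (PT.lf (nat_lit 33668) (nat_lit 6) (nat_lit 443) (nat_lit 2) (nat_lit 200) (nat_lit 207) (nat_lit 193)) (PT.lf (nat_lit 33136) (nat_lit 6) (nat_lit 436) (nat_lit 2) (nat_lit 201) (nat_lit 207) (nat_lit 192)))) (PT.nd (nat_lit 156) (PT.nd (nat_lit 78) (PT.lf (nat_lit 32528) (nat_lit 6) (nat_lit 428) (nat_lit 2) (nat_lit 202) (nat_lit 207) (nat_lit 191)) (PT.lf (nat_lit 31844) (nat_lit 6) (nat_lit 419) (nat_lit 2) (nat_lit 203) (nat_lit 207) (nat_lit 190))) (PT.nd (nat_lit 78) (PT.lf (nat_lit 31084) (nat_lit 6) (nat_lit 409) (nat_lit 2) (nat_lit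 204) (nat_lit 207) (nat_lit 189)) (PT.lf (nat_lit 30248) (nat_lit 6) (nat_lit 398) (nat_lit 2) (nat_lit 205) (nat_lit 207) (nat_lit 188))))) (PT.nd (nat_lit 312) (PT.nd (nat_lit 156) (PT.nd (nat_lit 78) (PT.lf (nat_lit 29336) (nat_lit 6) (nat_lit 386) (nat_lit 2) (nat_lit 206) (nat_lit 207) (nat_lit 187)) (PT.lf (nat_lit 28348) (nat_lit 3) (nat_lit 373) (nat_lit 0) (nat_lit 207) (nat_lit 207) (nat_lit 186))) (PT.nd (nat_lit 78) (PT.lf (nat_lit 27208) (nat_lit 6) (nat_lit 358) (nat_lit 0) (nat_lit 208) (nat_lit 207) (nat_lit 185)) (PT.lf (nat_lit 25992) (nat_lit 6) (nat_lit 342) (nat_lit 0) (nat_lit 209) (nat_lit 207) (nat_lit 184)))) (PT.nd (nat_lit 156) (PT.nd (nat_lit 78) (PT.lf (nat_lit 24700) (nat_lit 6) (nat_lit 325) (nat_lit 0) (nat_lit 210) (nat_lit 207) (nat_lit 183)) (PT.lf (nat_lit 23788) (nat_lit 6) (nat_lit 313) (nat_lit 0) (nat_lit 211) (nat_lit 207) (nat_lit 182))) (PT.nd (nat_lit 78)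 (PT.lf (nat_lit 23104) (nat_lit 6) (nat_lit 304) (nat_lit 0) (nat_lit 212) (nat_lit 207) (nat_lit 181)) (PT.lf (nat_lit 22420) (nat_lit 6) (nat_lit 295) (nat_lit 0) (nat_lit 213) (nat_lit 207) (nat_lit 180)))))) (PT.nd (nat_lit 59436) (PT.nd (nat_lit 312) (PT.nd (nat_lit 156) (PT.nd (nat_lit 78) (PT.lf (nat_lit 21812) (nat_lit 6) (nat_lit 287) (nat_lit 0) (nat_lit 214) (nat_lit 207) (nat_lit 179)) (PT.lf (nat_lit 21128) (nat_lit 6) (nat_lit 278) (nat_lit 0) (nat_lit 215) (nat_lit 207) (nat_lit 178))) (PT.nd (nat_lit 78) (PT.lf (nat_lit 20520) (nat_lit 6) (nat_lit 270) (nat_lit 0) (nat_lit 216) (nat_lit 207) (nat_lit 177)) (PT.lf (nat_lit 19912) (nat_lit 6) (nat_lit 262) (nat_lit 0) (nat_lit 217) (nat_lit 207) (nat_lit 176)))) (PT.nd (nat_lit 58968) (PT.nd (nat_lit 78) (PT.lf (nat_lit 19380) (nat_lit 6) (nat_lit 255) (nat_lit 0) (nat_lit 218) (nat_lit 207) (nat_lit 175)) (PT.lf (nat_lit 18848) (nat_lit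 6) (nat_lit 248) (nat_lit 0) (nat_lit 219) (nat_lit 207) (nat_lit 174))) (PT.nd (nat_lit 78) (PT.lf (nat_lit 18392) (nat_lit 6) (nat_lit 242) (nat_lit 5) (nat_lit 173) (nat_lit 208) (nat_lit 219)) (PT.lf (nat_lit 18924) (nat_lit 6) (nat_lit 249) (nat_lit 5) (nat_lit 174) (nat_lit 208) (nat_lit 218))))) (PT.nd (nat_lit 312) (PT.nd (nat_lit 156) (PT.nd (nat_lit 78) (PT.lf (nat_lit 19456) (nat_lit 6) (nat_lit 256) (nat_lit 5) (nat_lit 175) (nat_lit 208) (nat_lit 217)) (PT.lf (nat_lit 19988) (nat_lit 6) (nat_lit 263) (nat_lit 5) (nat_lit 176) (nat_lit 208) (nat_lit 216))) (PT.nd (nat_lit 78) (PT.lf (nat_lit 20596) (nat_lit 6) (nat_lit 271) (nat_lit 5) (nat_lit 177) (nat_lit 208) (nat_lit 215)) (PT.lf (nat_lit 21204) (nat_lit 6) (nat_lit 279) (nat_lit 5) (nat_lit 178) (nat_lit 208) (nat_lit 214)))) (PT.nd (nat_lit 156) (PT.nd (nat_lit 78) (PT.lf (nat_lit 21888) (nat_lit 6) (nat_lit 288) (nat_lit 5) (nat_lit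 179) (nat_lit 208) (nat_lit 213)) (PT.lf (nat_lit 22496) (nat_lit 6) (nat_lit 296) (nat_lit 5) (nat_lit 180) (nat_lit 208) (nat_lit 212))) (PT.nd (nat_lit 78) (PT.lf (nat_lit 23180) (nat_lit 6) (nat_lit 305) (nat_lit 5) (nat_lit 181) (nat_lit 208) (nat_lit 211)) (PT.nd (nat_lit 78) (PT.lf (nat_lit 23864) (nat_lit 6) (nat_lit 314) (nat_lit 5) (nat_lit 182) (nat_lit 208) (nat_lit 210)) (PT.lf (nat_lit 24776) (nat_lit 6) (nat_lit 326) (nat_lit 5) (nat_lit 183) (nat_lit 208) (nat_lit 209))))))))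
noncomputable def pc35 : PT := (PT.nd (nat_lit 1326) (PT.nd (nat_lit 624) (PT.nd (nat_lit 312) (PT.nd (nat_lit 156) (PT.nd (nat_lit 78) (PT.lf (nat_lit 26068) (nat_lit 3) (nat_lit 343) (nat_lit 4) (nat_lit 184) (nat_lit 208) (nat_lit 208)) (PT.lf (nat_lit 27208) (nat_lit 6) (nat_lit 358) (nat_lit 4) (nat_lit 185) (nat_lit 208) (nat_lit 207))) (PT.nd (nat_lit 78) (PT.lf (nat_lit 28272) (nat_lit 6) (nat_lit 372) (nat_lit 4) (nat_lit 186) (nat_lit 208) (nat_lit 206)) (PT.lf (nat_lit 29260) (nat_lit 6) (nat_lit 385) (nat_lit 4) (nat_lit 187) (nat_lit 208) (nat_lit 205)))) (PT.nd (nat_lit 156) (PT.nd (nat_lit 78) (PT.lf (nat_lit 30172) (nat_lit 6) (nat_lit 397) (nat_lit 4) (nat_lit 188) (nat_lit 208) (nat_lit 204)) (PT.lf (nat_lit 31008) (nat_lit 6) (nat_lit 408) (nat_lit 4) (nat_lit 189) (nat_lit 208) (nat_lit 203))) (PT.nd (nat_lit 78) (PT.lf (nat_lit 31768) (nat_lit 6) (nat_lit 418) (nat_lit 4) (nat_lit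 190) (nat_lit 208) (nat_lit 202)) (PT.lf (nat_lit 32452) (nat_lit 6) (nat_lit 427) (nat_lit 4) (nat_lit 191) (nat_lit 208) (nat_lit 201))))) (PT.nd (nat_lit 312) (PT.nd (nat_lit 156) (PT.nd (nat_lit 78) (PT.lf (nat_lit 33060) (nat_lit 6) (nat_lit 435) (nat_lit 4) (nat_lit 192) (nat_lit 208) (nat_lit 200)) (PT.lf (nat_lit 32984) (nat_lit 6) (nat_lit 434) (nat_lit 4) (nat_lit 193) (nat_lit 208) (nat_lit 199))) (PT.nd (nat_lit 78) (PT.lf (nat_lit 32908) (nat_lit 6) (nat_lit 433) (nat_lit 4) (nat_lit 194) (nat_lit 208) (nat_lit 198)) (PT.lf (nat_lit 32832) (nat_lit 6) (nat_lit 432) (nat_lit 4) (nat_lit 195) (nat_lit 208) (nat_lit 197)))) (PT.nd (nat_lit 156) (PT.nd (nat_lit 78) (PT.lf (nat_lit 32756) (nat_lit 3) (nat_lit 431) (nat_lit 2) (nat_lit 196) (nat_lit 208) (nat_lit 196)) (PT.lf (nat_lit 32832) (nat_lit 6) (nat_lit 432) (nat_lit 2) (nat_lit 197) (nat_lit 208) (nat_lit 195))) (PT.nd (nat_lit 78)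 (PT.lf (nat_lit 32908) (nat_lit 6) (nat_lit 433) (nat_lit 2) (nat_lit 198) (nat_lit 208) (nat_lit 194)) (PT.nd (nat_lit 78) (PT.lf (nat_lit 32984) (nat_lit 6) (nat_lit 434) (nat_lit 2) (nat_lit 199) (nat_lit 208) (nat_lit 193)) (PT.lf (nat_lit 33060) (nat_lit 6) (nat_lit 435) (nat_lit 2) (nat_lit 200) (nat_lit 208) (nat_lit 192))))))) (PT.nd (nat_lit 624) (PT.nd (nat_lit 312) (PT.nd (nat_lit 156) (PT.nd (nat_lit 78) (PT.lf (nat_lit 32452) (nat_lit 6) (nat_lit 427) (nat_lit 2) (nat_lit 201) (nat_lit 208) (nat_lit 191)) (PT.lf (nat_lit 31768) (nat_lit 6) (nat_lit 418) (nat_lit 2) (nat_lit 202) (nat_lit 208) (nat_lit 190))) (PT.nd (nat_lit 78) (PT.lf (nat_lit 31008) (nat_lit 6) (nat_lit 408) (nat_lit 2) (nat_lit 203) (nat_lit 208) (nat_lit 189)) (PT.lf (nat_lit 30172) (nat_lit 6) (nat_lit 397) (nat_lit 2) (nat_lit 204) (nat_lit 208) (nat_lit 188)))) (PT.nd (nat_lit 156) (PT.nd (nat_lit 78) (PT.lf (nat_lit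 29260) (nat_lit 6) (nat_lit 385) (nat_lit 2) (nat_lit 205) (nat_lit 208) (nat_lit 187)) (PT.lf (nat_lit 28272) (nat_lit 6) (nat_lit 372) (nat_lit 2) (nat_lit 206) (nat_lit 208) (nat_lit 186))) (PT.nd (nat_lit 78) (PT.lf (nat_lit 27208) (nat_lit 6) (nat_lit 358) (nat_lit 2) (nat_lit 207) (nat_lit 208) (nat_lit 185)) (PT.lf (nat_lit 26068) (nat_lit 3) (nat_lit 343) (nat_lit 0) (nat_lit 208) (nat_lit 208) (nat_lit 184))))) (PT.nd (nat_lit 312) (PT.nd (nat_lit 156) (PT.nd (nat_lit 78) (PT.lf (nat_lit 24776) (nat_lit 6) (nat_lit 326) (nat_lit 0) (nat_lit 209) (nat_lit 208) (nat_lit 183)) (PT.lf (nat_lit 23864) (nat_lit 6) (nat_lit 314) (nat_lit 0) (nat_lit 210) (nat_lit 208) (nat_lit 182))) (PT.nd (nat_lit 78) (PT.lf (nat_lit 23180) (nat_lit 6) (nat_lit 305) (nat_lit 0) (nat_lit 211) (nat_lit 208) (nat_lit 181)) (PT.lf (nat_lit 22496) (nat_lit 6) (nat_lit 296) (nat_lit 0) (nat_lit 212) (nat_lit 208) (nat_lit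 180)))) (PT.nd (nat_lit 156) (PT.nd (nat_lit 78) (PT.lf (nat_lit 21888) (nat_lit 6) (nat_lit 288) (nat_lit 0) (nat_lit 213) (nat_lit 208) (nat_lit 179)) (PT.lf (nat_lit 21204) (nat_lit 6) (nat_lit 279) (nat_lit 0) (nat_lit 214) (nat_lit 208) (nat_lit 178))) (PT.nd (nat_lit 78) (PT.lf (nat_lit 20596) (nat_lit 6) (nat_lit 271) (nat_lit 0) (nat_lit 215) (nat_lit 208) (nat_lit 177)) (PT.nd (nat_lit 78) (PT.lf (nat_lit 19988) (nat_lit 6) (nat_lit 263) (nat_lit 0) (nat_lit 216) (nat_lit 208) (nat_lit 176)) (PT.lf (nat_lit 19456) (nat_lit 6) (nat_lit 256) (nat_lit 0) (nat_lit 217) (nat_lit 208) (nat_lit 175))))))))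
noncomputable def pc36 : PT := (PT.nd (nat_lit 59904) (PT.nd (nat_lit 59280) (PT.nd (nat_lit 58968) (PT.nd (nat_lit 58812) (PT.nd (nat_lit 78) (PT.lf (nat_lit 18924) (nat_lit 6) (nat_lit 249) (nat_lit 0) (nat_lit 218) (nat_lit 208) (nat_lit 174)) (PT.lf (nat_lit 18392) (nat_lit 6) (nat_lit 242) (nat_lit 0) (nat_lit 219) (nat_lit 208) (nat_lit 173))) (PT.nd (nat_lit 78) (PT.lf (nat_lit 17480) (nat_lit 6) (nat_lit 230) (nat_lit 5) (nat_lit 171) (nat_lit 209) (nat_lit 220)) (PT.lf (nat_lit 17936) (nat_lit 6) (nat_lit 236) (nat_lit 5) (nat_lit 172) (nat_lit 209) (nat_lit 219)))) (PT.nd (nat_lit 156) (PT.nd (nat_lit 78) (PT.lf (nat_lit 18468) (nat_lit 6) (nat_lit 243) (nat_lit 5) (nat_lit 173) (nat_lit 209) (nat_lit 218)) (PT.lf (nat_lit 19000) (nat_lit 6) (nat_lit 250) (nat_lit 5) (nat_lit 174) (nat_lit 209) (nat_lit 217))) (PT.nd (nat_lit 78) (PT.lf (nat_lit 19532) (nat_lit 6) (nat_lit 257) (nat_lit 5)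 (nat_lit 175) (nat_lit 209) (nat_lit 216)) (PT.lf (nat_lit 20064) (nat_lit 6) (nat_lit 264) (nat_lit 5) (nat_lit 176) (nat_lit 209) (nat_lit 215))))) (PT.nd (nat_lit 312) (PT.nd (nat_lit 156) (PT.nd (nat_lit 78) (PT.lf (nat_lit 20672) (nat_lit 6) (nat_lit 272) (nat_lit 5) (nat_lit 177) (nat_lit 209) (nat_lit 214)) (PT.lf (nat_lit 21280) (nat_lit 6) (nat_lit 280) (nat_lit 5) (nat_lit 178) (nat_lit 209) (nat_lit 213))) (PT.nd (nat_lit 78) (PT.lf (nat_lit 21964) (nat_lit 6) (nat_lit 289) (nat_lit 5) (nat_lit 179) (nat_lit 209) (nat_lit 212)) (PT.lf (nat_lit 22572) (nat_lit 6) (nat_lit 297) (nat_lit 5) (nat_lit 180) (nat_lit 209) (nat_lit 211)))) (PT.nd (nat_lit 156) (PT.nd (nat_lit 78) (PT.lf (nat_lit 23256) (nat_lit 6) (nat_lit 306) (nat_lit 5) (nat_lit 181) (nat_lit 209) (nat_lit 210)) (PT.lf (nat_lit 23940) (nat_lit 3) (nat_lit 315) (nat_lit 4) (nat_lit 182) (nat_lit 209) (nat_lit 209))) (PT.nd (nat_lit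 78) (PT.lf (nat_lit 24776) (nat_lit 6) (nat_lit 326) (nat_lit 4) (nat_lit 183) (nat_lit 209) (nat_lit 208)) (PT.lf (nat_lit 25992) (nat_lit 6) (nat_lit 342) (nat_lit 4) (nat_lit 184) (nat_lit 209) (nat_lit 207)))))) (PT.nd (nat_lit 624) (PT.nd (nat_lit 312) (PT.nd (nat_lit 156) (PT.nd (nat_lit 78) (PT.lf (nat_lit 27132) (nat_lit 6) (nat_lit 357) (nat_lit 4) (nat_lit 185) (nat_lit 209) (nat_lit 206)) (PT.lf (nat_lit 28196) (nat_lit 6) (nat_lit 371) (nat_lit 4) (nat_lit 186) (nat_lit 209) (nat_lit 205))) (PT.nd (nat_lit 78) (PT.lf (nat_lit 29184) (nat_lit 6) (nat_lit 384) (nat_lit 4) (nat_lit 187) (nat_lit 209) (nat_lit 204)) (PT.lf (nat_lit 30096) (nat_lit 6) (nat_lit 396) (nat_lit 4) (nat_lit 188) (nat_lit 209) (nat_lit 203)))) (PT.nd (nat_lit 156) (PT.nd (nat_lit 78) (PT.lf (nat_lit 30932) (nat_lit 6) (nat_lit 407) (nat_lit 4) (nat_lit 189) (nat_lit 209) (nat_lit 202)) (PT.lf (nat_lit 31692) (nat_lit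 6) (nat_lit 417) (nat_lit 4) (nat_lit 190) (nat_lit 209) (nat_lit 201))) (PT.nd (nat_lit 78) (PT.lf (nat_lit 32376) (nat_lit 6) (nat_lit 426) (nat_lit 4) (nat_lit 191) (nat_lit 209) (nat_lit 200)) (PT.lf (nat_lit 32300) (nat_lit 6) (nat_lit 425) (nat_lit 4) (nat_lit 192) (nat_lit 209) (nat_lit 199))))) (PT.nd (nat_lit 312) (PT.nd (nat_lit 156) (PT.nd (nat_lit 78) (PT.lf (nat_lit 32224) (nat_lit 6) (nat_lit 424) (nat_lit 4) (nat_lit 193) (nat_lit 209) (nat_lit 198)) (PT.lf (nat_lit 32148) (nat_lit 6) (nat_lit 423) (nat_lit 4) (nat_lit 194) (nat_lit 209) (nat_lit 197))) (PT.nd (nat_lit 78) (PT.lf (nat_lit 32072) (nat_lit 6) (nat_lit 422) (nat_lit 4) (nat_lit 195) (nat_lit 209) (nat_lit 196)) (PT.lf (nat_lit 32072) (nat_lit 6) (nat_lit 422) (nat_lit 2) (nat_lit 196) (nat_lit 209) (nat_lit 195)))) (PT.nd (nat_lit 156) (PT.nd (nat_lit 78) (PT.lf (nat_lit 32148) (nat_lit 6) (nat_lit 423) (nat_lit 2) (nat_lit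 197) (nat_lit 209) (nat_lit 194)) (PT.lf (nat_lit 32224) (nat_lit 6) (nat_lit 424) (nat_lit 2) (nat_lit 198) (nat_lit 209) (nat_lit 193))) (PT.nd (nat_lit 78) (PT.lf (nat_lit 32300) (nat_lit 6) (nat_lit 425) (nat_lit 2) (nat_lit 199) (nat_lit 209) (nat_lit 192)) (PT.nd (nat_lit 78) (PT.lf (nat_lit 32376) (nat_lit 6) (nat_lit 426) (nat_lit 2) (nat_lit 200) (nat_lit 209) (nat_lit 191)) (PT.lf (nat_lit 31692) (nat_lit 6) (nat_lit 417) (nat_lit 2) (nat_lit 201) (nat_lit 209) (nat_lit 190))))))))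
noncomputable def pc37 : PT := (PT.nd (nat_lit 1326) (PT.nd (nat_lit 624) (PT.nd (nat_lit 312) (PT.nd (nat_lit 156) (PT.nd (nat_lit 78) (PT.lf (nat_lit 30932) (nat_lit 6) (nat_lit 407) (nat_lit 2) (nat_lit 202) (nat_lit 209) (nat_lit 189)) (PT.lf (nat_lit 30096) (nat_lit 6) (nat_lit 396) (nat_lit 2) (nat_lit 203) (nat_lit 209) (nat_lit 188))) (PT.nd (nat_lit 78) (PT.lf (nat_lit 29184) (nat_lit 6) (nat_lit 384) (nat_lit 2) (nat_lit 204) (nat_lit 209) (nat_lit 187)) (PT.lf (nat_lit 28196) (nat_lit 6) (nat_lit 371) (nat_lit 2) (nat_lit 205) (nat_lit 209) (nat_lit 186)))) (PT.nd (nat_lit 156) (PT.nd (nat_lit 78) (PT.lf (nat_lit 27132) (nat_lit 6) (nat_lit 357) (nat_lit 2) (nat_lit 206) (nat_lit 209) (nat_lit 185)) (PT.lf (nat_lit 25992) (nat_lit 6) (nat_lit 342) (nat_lit 2) (nat_lit 207) (nat_lit 209) (nat_lit 184))) (PT.nd (nat_lit 78) (PT.lf (nat_lit 24776) (nat_lit 6) (nat_lit 326) (nat_lit 2) (nat_lit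 208) (nat_lit 209) (nat_lit 183)) (PT.lf (nat_lit 23940) (nat_lit 3) (nat_lit 315) (nat_lit 0) (nat_lit 209) (nat_lit 209) (nat_lit 182))))) (PT.nd (nat_lit 312) (PT.nd (nat_lit 156) (PT.nd (nat_lit 78) (PT.lf (nat_lit 23256) (nat_lit 6) (nat_lit 306) (nat_lit 0) (nat_lit 210) (nat_lit 209) (nat_lit 181)) (PT.lf (nat_lit 22572) (nat_lit 6) (nat_lit 297) (nat_lit 0) (nat_lit 211) (nat_lit 209) (nat_lit 180))) (PT.nd (nat_lit 78) (PT.lf (nat_lit 21964) (nat_lit 6) (nat_lit 289) (nat_lit 0) (nat_lit 212) (nat_lit 209) (nat_lit 179)) (PT.lf (nat_lit 21280) (nat_lit 6) (nat_lit 280) (nat_lit 0) (nat_lit 213) (nat_lit 209) (nat_lit 178)))) (PT.nd (nat_lit 156) (PT.nd (nat_lit 78) (PT.lf (nat_lit 20672) (nat_lit 6) (nat_lit 272) (nat_lit 0) (nat_lit 214) (nat_lit 209) (nat_lit 177)) (PT.lf (nat_lit 20064) (nat_lit 6) (nat_lit 264) (nat_lit 0) (nat_lit 215) (nat_lit 209) (nat_lit 176))) (PT.nd (nat_lit 78)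 (PT.lf (nat_lit 19532) (nat_lit 6) (nat_lit 257) (nat_lit 0) (nat_lit 216) (nat_lit 209) (nat_lit 175)) (PT.nd (nat_lit 78) (PT.lf (nat_lit 19000) (nat_lit 6) (nat_lit 250) (nat_lit 0) (nat_lit 217) (nat_lit 209) (nat_lit 174)) (PT.lf (nat_lit 18468) (nat_lit 6) (nat_lit 243) (nat_lit 0) (nat_lit 218) (nat_lit 209) (nat_lit 173))))))) (PT.nd (nat_lit 59124) (PT.nd (nat_lit 58812) (PT.nd (nat_lit 58656) (PT.nd (nat_lit 78) (PT.lf (nat_lit 17936) (nat_lit 6) (nat_lit 236) (nat_lit 0) (nat_lit 219) (nat_lit 209) (nat_lit 172)) (PT.lf (nat_lit 17480) (nat_lit 6) (nat_lit 230) (nat_lit 0) (nat_lit 220) (nat_lit 209) (nat_lit 171))) (PT.nd (nat_lit 78) (PT.lf (nat_lit 17024) (nat_lit 6) (nat_lit 224) (nat_lit 5) (nat_lit 170) (nat_lit 210) (nat_lit 220)) (PT.lf (nat_lit 17556) (nat_lit 6) (nat_lit 231) (nat_lit 5) (nat_lit 171) (nat_lit 210) (nat_lit 219)))) (PT.nd (nat_lit 156) (PT.nd (nat_lit 78) (PT.lf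 (nat_lit 18012) (nat_lit 6) (nat_lit 237) (nat_lit 5) (nat_lit 172) (nat_lit 210) (nat_lit 218)) (PT.lf (nat_lit 18544) (nat_lit 6) (nat_lit 244) (nat_lit 5) (nat_lit 173) (nat_lit 210) (nat_lit 217))) (PT.nd (nat_lit 78) (PT.lf (nat_lit 19076) (nat_lit 6) (nat_lit 251) (nat_lit 5) (nat_lit 174) (nat_lit 210) (nat_lit 216)) (PT.lf (nat_lit 19608) (nat_lit 6) (nat_lit 258) (nat_lit 5) (nat_lit 175) (nat_lit 210) (nat_lit 215))))) (PT.nd (nat_lit 312) (PT.nd (nat_lit 156) (PT.nd (nat_lit 78) (PT.lf (nat_lit 20140) (nat_lit 6) (nat_lit 265) (nat_lit 5) (nat_lit 176) (nat_lit 210) (nat_lit 214)) (PT.lf (nat_lit 20748) (nat_lit 6) (nat_lit 273) (nat_lit 5) (nat_lit 177) (nat_lit 210) (nat_lit 213))) (PT.nd (nat_lit 78) (PT.lf (nat_lit 21356) (nat_lit 6) (nat_lit 281) (nat_lit 5) (nat_lit 178) (nat_lit 210) (nat_lit 212)) (PT.lf (nat_lit 22040) (nat_lit 6) (nat_lit 290) (nat_lit 5) (nat_lit 179) (nat_lit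 210) (nat_lit 211)))) (PT.nd (nat_lit 156) (PT.nd (nat_lit 78) (PT.lf (nat_lit 22648) (nat_lit 3) (nat_lit 298) (nat_lit 4) (nat_lit 180) (nat_lit 210) (nat_lit 210)) (PT.lf (nat_lit 23256) (nat_lit 6) (nat_lit 306) (nat_lit 4) (nat_lit 181) (nat_lit 210) (nat_lit 209))) (PT.nd (nat_lit 78) (PT.lf (nat_lit 23864) (nat_lit 6) (nat_lit 314) (nat_lit 4) (nat_lit 182) (nat_lit 210) (nat_lit 208)) (PT.nd (nat_lit 78) (PT.lf (nat_lit 24700) (nat_lit 6) (nat_lit 325) (nat_lit 4) (nat_lit 183) (nat_lit 210) (nat_lit 207)) (PT.lf (nat_lit 25916) (nat_lit 6) (nat_lit 341) (nat_lit 4) (nat_lit 184) (nat_lit 210) (nat_lit 206))))))))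
noncomputable def pc38 : PT := (PT.nd (nat_lit 1248) (PT.nd (nat_lit 624) (PT.nd (nat_lit 312) (PT.nd (nat_lit 156) (PT.nd (nat_lit 78) (PT.lf (nat_lit 27056) (nat_lit 6) (nat_lit 356) (nat_lit 4) (nat_lit 185) (nat_lit 210) (nat_lit 205)) (PT.lf (nat_lit 28120) (nat_lit 6) (nat_lit 370) (nat_lit 4) (nat_lit 186) (nat_lit 210) (nat_lit 204))) (PT.nd (nat_lit 78) (PT.lf (nat_lit 29108) (nat_lit 6) (nat_lit 383) (nat_lit 4) (nat_lit 187) (nat_lit 210) (nat_lit 203)) (PT.lf (nat_lit 30020) (nat_lit 6) (nat_lit 395) (nat_lit 4) (nat_lit 188) (nat_lit 210) (nat_lit 202)))) (PT.nd (nat_lit 156) (PT.nd (nat_lit 78) (PT.lf (nat_lit 30856) (nat_lit 6) (nat_lit 406) (nat_lit 4) (nat_lit 189) (nat_lit 210) (nat_lit 201)) (PT.lf (nat_lit 31616) (nat_lit 6) (nat_lit 416) (nat_lit 4) (nat_lit 190) (nat_lit 210) (nat_lit 200))) (PT.nd (nat_lit 78) (PT.lf (nat_lit 31540) (nat_lit 6) (nat_lit 415) (nat_lit 4) (nat_lit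 191) (nat_lit 210) (nat_lit 199)) (PT.lf (nat_lit 31464) (nat_lit 6) (nat_lit 414) (nat_lit 4) (nat_lit 192) (nat_lit 210) (nat_lit 198))))) (PT.nd (nat_lit 312) (PT.nd (nat_lit 156) (PT.nd (nat_lit 78) (PT.lf (nat_lit 31388) (nat_lit 6) (nat_lit 413) (nat_lit 4) (nat_lit 193) (nat_lit 210) (nat_lit 197)) (PT.lf (nat_lit 31312) (nat_lit 6) (nat_lit 412) (nat_lit 4) (nat_lit 194) (nat_lit 210) (nat_lit 196))) (PT.nd (nat_lit 78) (PT.lf (nat_lit 31236) (nat_lit 3) (nat_lit 411) (nat_lit 2) (nat_lit 195) (nat_lit 210) (nat_lit 195)) (PT.lf (nat_lit 31312) (nat_lit 6) (nat_lit 412) (nat_lit 2) (nat_lit 196) (nat_lit 210) (nat_lit 194)))) (PT.nd (nat_lit 156) (PT.nd (nat_lit 78) (PT.lf (nat_lit 31388) (nat_lit 6) (nat_lit 413) (nat_lit 2) (nat_lit 197) (nat_lit 210) (nat_lit 193)) (PT.lf (nat_lit 31464) (nat_lit 6) (nat_lit 414) (nat_lit 2) (nat_lit 198) (nat_lit 210) (nat_lit 192))) (PT.nd (nat_lit 78)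 (PT.lf (nat_lit 31540) (nat_lit 6) (nat_lit 415) (nat_lit 2) (nat_lit 199) (nat_lit 210) (nat_lit 191)) (PT.lf (nat_lit 31616) (nat_lit 6) (nat_lit 416) (nat_lit 2) (nat_lit 200) (nat_lit 210) (nat_lit 190)))))) (PT.nd (nat_lit 624) (PT.nd (nat_lit 312) (PT.nd (nat_lit 156) (PT.nd (nat_lit 78) (PT.lf (nat_lit 30856) (nat_lit 6) (nat_lit 406) (nat_lit 2) (nat_lit 201) (nat_lit 210) (nat_lit 189)) (PT.lf (nat_lit 30020) (nat_lit 6) (nat_lit 395) (nat_lit 2) (nat_lit 202) (nat_lit 210) (nat_lit 188))) (PT.nd (nat_lit 78) (PT.lf (nat_lit 29108) (nat_lit 6) (nat_lit 383) (nat_lit 2) (nat_lit 203) (nat_lit 210) (nat_lit 187)) (PT.lf (nat_lit 28120) (nat_lit 6) (nat_lit 370) (nat_lit 2) (nat_lit 204) (nat_lit 210) (nat_lit 186)))) (PT.nd (nat_lit 156) (PT.nd (nat_lit 78) (PT.lf (nat_lit 27056) (nat_lit 6) (nat_lit 356) (nat_lit 2) (nat_lit 205) (nat_lit 210) (nat_lit 185)) (PT.lf (nat_lit 25916) (nat_lit 6)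 (nat_lit 341) (nat_lit 2) (nat_lit 206) (nat_lit 210) (nat_lit 184))) (PT.nd (nat_lit 78) (PT.lf (nat_lit 24700) (nat_lit 6) (nat_lit 325) (nat_lit 2) (nat_lit 207) (nat_lit 210) (nat_lit 183)) (PT.lf (nat_lit 23864) (nat_lit 6) (nat_lit 314) (nat_lit 2) (nat_lit 208) (nat_lit 210) (nat_lit 182))))) (PT.nd (nat_lit 312) (PT.nd (nat_lit 156) (PT.nd (nat_lit 78) (PT.lf (nat_lit 23256) (nat_lit 6) (nat_lit 306) (nat_lit 2) (nat_lit 209) (nat_lit 210) (nat_lit 181)) (PT.lf (nat_lit 22648) (nat_lit 3) (nat_lit 298) (nat_lit 0) (nat_lit 210) (nat_lit 210) (nat_lit 180))) (PT.nd (nat_lit 78) (PT.lf (nat_lit 22040) (nat_lit 6) (nat_lit 290) (nat_lit 0) (nat_lit 211) (nat_lit 210) (nat_lit 179)) (PT.lf (nat_lit 21356) (nat_lit 6) (nat_lit 281) (nat_lit 0) (nat_lit 212) (nat_lit 210) (nat_lit 178)))) (PT.nd (nat_lit 156) (PT.nd (nat_lit 78) (PT.lf (nat_lit 20748) (nat_lit 6) (nat_lit 273) (nat_lit 0) (nat_lit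 213) (nat_lit 210) (nat_lit 177)) (PT.lf (nat_lit 20140) (nat_lit 6) (nat_lit 265) (nat_lit 0) (nat_lit 214) (nat_lit 210) (nat_lit 176))) (PT.nd (nat_lit 78) (PT.lf (nat_lit 19608) (nat_lit 6) (nat_lit 258) (nat_lit 0) (nat_lit 215) (nat_lit 210) (nat_lit 175)) (PT.nd (nat_lit 78) (PT.lf (nat_lit 19076) (nat_lit 6) (nat_lit 251) (nat_lit 0) (nat_lit 216) (nat_lit 210) (nat_lit 174)) (PT.lf (nat_lit 18544) (nat_lit 6) (nat_lit 244) (nat_lit 0) (nat_lit 217) (nat_lit 210) (nat_lit 173))))))))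
noncomputable def pc39 : PT := (PT.nd (nat_lit 59748) (PT.nd (nat_lit 59046) (PT.nd (nat_lit 58734) (PT.nd (nat_lit 156) (PT.nd (nat_lit 78) (PT.lf (nat_lit 18012) (nat_lit 6) (nat_lit 237) (nat_lit 0) (nat_lit 218) (nat_lit 210) (nat_lit 172)) (PT.lf (nat_lit 17556) (nat_lit 6) (nat_lit 231) (nat_lit 0) (nat_lit 219) (nat_lit 210) (nat_lit 171))) (PT.nd (nat_lit 58500) (PT.lf (nat_lit 17024) (nat_lit 6) (nat_lit 224) (nat_lit 0) (nat_lit 220) (nat_lit 210) (nat_lit 170)) (PT.lf (nat_lit 16644) (nat_lit 6) (nat_lit 219) (nat_lit 5) (nat_lit 169) (nat_lit 211) (nat_lit 220)))) (PT.nd (nat_lit 156) (PT.nd (nat_lit 78) (PT.lf (nat_lit 17100) (nat_lit 6) (nat_lit 225) (nat_lit 5) (nat_lit 170) (nat_lit 211) (nat_lit 219)) (PT.lf (nat_lit 17632) (nat_lit 6) (nat_lit 232) (nat_lit 5) (nat_lit 171) (nat_lit 211) (nat_lit 218))) (PT.nd (nat_lit 78) (PT.lf (nat_lit 18088) (nat_lit 6) (nat_lit 238) (nat_lit 5)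 (nat_lit 172) (nat_lit 211) (nat_lit 217)) (PT.lf (nat_lit 18620) (nat_lit 6) (nat_lit 245) (nat_lit 5) (nat_lit 173) (nat_lit 211) (nat_lit 216))))) (PT.nd (nat_lit 312) (PT.nd (nat_lit 156) (PT.nd (nat_lit 78) (PT.lf (nat_lit 19152) (nat_lit 6) (nat_lit 252) (nat_lit 5) (nat_lit 174) (nat_lit 211) (nat_lit 215)) (PT.lf (nat_lit 19684) (nat_lit 6) (nat_lit 259) (nat_lit 5) (nat_lit 175) (nat_lit 211) (nat_lit 214))) (PT.nd (nat_lit 78) (PT.lf (nat_lit 20216) (nat_lit 6) (nat_lit 266) (nat_lit 5) (nat_lit 176) (nat_lit 211) (nat_lit 213)) (PT.lf (nat_lit 20824) (nat_lit 6) (nat_lit 274) (nat_lit 5) (nat_lit 177) (nat_lit 211) (nat_lit 212)))) (PT.nd (nat_lit 156) (PT.nd (nat_lit 78) (PT.lf (nat_lit 21432) (nat_lit 3) (nat_lit 282) (nat_lit 4) (nat_lit 178) (nat_lit 211) (nat_lit 211)) (PT.lf (nat_lit 22040) (nat_lit 6) (nat_lit 290) (nat_lit 4) (nat_lit 179) (nat_lit 211) (nat_lit 210))) (PT.nd (nat_lit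 78) (PT.lf (nat_lit 22572) (nat_lit 6) (nat_lit 297) (nat_lit 4) (nat_lit 180) (nat_lit 211) (nat_lit 209)) (PT.nd (nat_lit 78) (PT.lf (nat_lit 23180) (nat_lit 6) (nat_lit 305) (nat_lit 4) (nat_lit 181) (nat_lit 211) (nat_lit 208)) (PT.lf (nat_lit 23788) (nat_lit 6) (nat_lit 313) (nat_lit 4) (nat_lit 182) (nat_lit 211) (nat_lit 207))))))) (PT.nd (nat_lit 624) (PT.nd (nat_lit 312) (PT.nd (nat_lit 156) (PT.nd (nat_lit 78) (PT.lf (nat_lit 24624) (nat_lit 6) (nat_lit 324) (nat_lit 4) (nat_lit 183) (nat_lit 211) (nat_lit 206)) (PT.lf (nat_lit 25840) (nat_lit 6) (nat_lit 340) (nat_lit 4) (nat_lit 184) (nat_lit 211) (nat_lit 205))) (PT.nd (nat_lit 78) (PT.lf (nat_lit 26980) (nat_lit 6) (nat_lit 355) (nat_lit 4) (nat_lit 185) (nat_lit 211) (nat_lit 204)) (PT.lf (nat_lit 28044) (nat_lit 6) (nat_lit 369) (nat_lit 4) (nat_lit 186) (nat_lit 211) (nat_lit 203)))) (PT.nd (nat_lit 156) (PT.nd (nat_lit 78) (PT.lf (nat_lit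 29032) (nat_lit 6) (nat_lit 382) (nat_lit 4) (nat_lit 187) (nat_lit 211) (nat_lit 202)) (PT.lf (nat_lit 29944) (nat_lit 6) (nat_lit 394) (nat_lit 4) (nat_lit 188) (nat_lit 211) (nat_lit 201))) (PT.nd (nat_lit 78) (PT.lf (nat_lit 30780) (nat_lit 6) (nat_lit 405) (nat_lit 4) (nat_lit 189) (nat_lit 211) (nat_lit 200)) (PT.lf (nat_lit 30704) (nat_lit 6) (nat_lit 404) (nat_lit 4) (nat_lit 190) (nat_lit 211) (nat_lit 199))))) (PT.nd (nat_lit 312) (PT.nd (nat_lit 156) (PT.nd (nat_lit 78) (PT.lf (nat_lit 30628) (nat_lit 6) (nat_lit 403) (nat_lit 4) (nat_lit 191) (nat_lit 211) (nat_lit 198)) (PT.lf (nat_lit 30552) (nat_lit 6) (nat_lit 402) (nat_lit 4) (nat_lit 192) (nat_lit 211) (nat_lit 197))) (PT.nd (nat_lit 78) (PT.lf (nat_lit 30476) (nat_lit 6) (nat_lit 401) (nat_lit 4) (nat_lit 193) (nat_lit 211) (nat_lit 196)) (PT.lf (nat_lit 30400) (nat_lit 6) (nat_lit 400) (nat_lit 4) (nat_lit 194) (nat_lit 211) (nat_lit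 195)))) (PT.nd (nat_lit 156) (PT.nd (nat_lit 78) (PT.lf (nat_lit 30400) (nat_lit 6) (nat_lit 400) (nat_lit 2) (nat_lit 195) (nat_lit 211) (nat_lit 194)) (PT.lf (nat_lit 30476) (nat_lit 6) (nat_lit 401) (nat_lit 2) (nat_lit 196) (nat_lit 211) (nat_lit 193))) (PT.nd (nat_lit 78) (PT.lf (nat_lit 30552) (nat_lit 6) (nat_lit 402) (nat_lit 2) (nat_lit 197) (nat_lit 211) (nat_lit 192)) (PT.nd (nat_lit 78) (PT.lf (nat_lit 30628) (nat_lit 6) (nat_lit 403) (nat_lit 2) (nat_lit 198) (nat_lit 211) (nat_lit 191)) (PT.lf (nat_lit 30704) (nat_lit 6) (nat_lit 404) (nat_lit 2) (nat_lit 199) (nat_lit 211) (nat_lit 190))))))))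
noncomputable def pc40 : PT := (PT.nd (nat_lit 1248) (PT.nd (nat_lit 624) (PT.nd (nat_lit 312) (PT.nd (nat_lit 156) (PT.nd (nat_lit 78) (PT.lf (nat_lit 30780) (nat_lit 6) (nat_lit 405) (nat_lit 2) (nat_lit 200) (nat_lit 211) (nat_lit 189)) (PT.lf (nat_lit 29944) (nat_lit 6) (nat_lit 394) (nat_lit 2) (nat_lit 201) (nat_lit 211) (nat_lit 188))) (PT.nd (nat_lit 78) (PT.lf (nat_lit 29032) (nat_lit 6) (nat_lit 382) (nat_lit 2) (nat_lit 202) (nat_lit 211) (nat_lit 187)) (PT.lf (nat_lit 28044) (nat_lit 6) (nat_lit 369) (nat_lit 2) (nat_lit 203) (nat_lit 211) (nat_lit 186)))) (PT.nd (nat_lit 156) (PT.nd (nat_lit 78) (PT.lf (nat_lit 26980) (nat_lit 6) (nat_lit 355) (nat_lit 2) (nat_lit 204) (nat_lit 211) (nat_lit 185)) (PT.lf (nat_lit 25840) (nat_lit 6) (nat_lit 340) (nat_lit 2) (nat_lit 205) (nat_lit 211) (nat_lit 184))) (PT.nd (nat_lit 78) (PT.lf (nat_lit 24624) (nat_lit 6) (nat_lit 324) (nat_lit 2) (nat_lit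 206) (nat_lit 211) (nat_lit 183)) (PT.lf (nat_lit 23788) (nat_lit 6) (nat_lit 313) (nat_lit 2) (nat_lit 207) (nat_lit 211) (nat_lit 182))))) (PT.nd (nat_lit 312) (PT.nd (nat_lit 156) (PT.nd (nat_lit 78) (PT.lf (nat_lit 23180) (nat_lit 6) (nat_lit 305) (nat_lit 2) (nat_lit 208) (nat_lit 211) (nat_lit 181)) (PT.lf (nat_lit 22572) (nat_lit 6) (nat_lit 297) (nat_lit 2) (nat_lit 209) (nat_lit 211) (nat_lit 180))) (PT.nd (nat_lit 78) (PT.lf (nat_lit 22040) (nat_lit 6) (nat_lit 290) (nat_lit 2) (nat_lit 210) (nat_lit 211) (nat_lit 179)) (PT.lf (nat_lit 21432) (nat_lit 3) (nat_lit 282) (nat_lit 0) (nat_lit 211) (nat_lit 211) (nat_lit 178)))) (PT.nd (nat_lit 156) (PT.nd (nat_lit 78) (PT.lf (nat_lit 20824) (nat_lit 6) (nat_lit 274) (nat_lit 0) (nat_lit 212) (nat_lit 211) (nat_lit 177)) (PT.lf (nat_lit 20216) (nat_lit 6) (nat_lit 266) (nat_lit 0) (nat_lit 213) (nat_lit 211) (nat_lit 176))) (PT.nd (nat_lit 78)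 (PT.lf (nat_lit 19684) (nat_lit 6) (nat_lit 259) (nat_lit 0) (nat_lit 214) (nat_lit 211) (nat_lit 175)) (PT.lf (nat_lit 19152) (nat_lit 6) (nat_lit 252) (nat_lit 0) (nat_lit 215) (nat_lit 211) (nat_lit 174)))))) (PT.nd (nat_lit 58890) (PT.nd (nat_lit 312) (PT.nd (nat_lit 156) (PT.nd (nat_lit 78) (PT.lf (nat_lit 18620) (nat_lit 6) (nat_lit 245) (nat_lit 0) (nat_lit 216) (nat_lit 211) (nat_lit 173)) (PT.lf (nat_lit 18088) (nat_lit 6) (nat_lit 238) (nat_lit 0) (nat_lit 217) (nat_lit 211) (nat_lit 172))) (PT.nd (nat_lit 78) (PT.lf (nat_lit 17632) (nat_lit 6) (nat_lit 232) (nat_lit 0) (nat_lit 218) (nat_lit 211) (nat_lit 171)) (PT.lf (nat_lit 17100) (nat_lit 6) (nat_lit 225) (nat_lit 0) (nat_lit 219) (nat_lit 211) (nat_lit 170)))) (PT.nd (nat_lit 58422) (PT.nd (nat_lit 58344) (PT.lf (nat_lit 16644) (nat_lit 6) (nat_lit 219) (nat_lit 0) (nat_lit 220) (nat_lit 211) (nat_lit 169)) (PT.lf (nat_lit 15808) (nat_lit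 6) (nat_lit 208) (nat_lit 5) (nat_lit 167) (nat_lit 212) (nat_lit 221))) (PT.nd (nat_lit 78) (PT.lf (nat_lit 16264) (nat_lit 6) (nat_lit 214) (nat_lit 5) (nat_lit 168) (nat_lit 212) (nat_lit 220)) (PT.lf (nat_lit 16720) (nat_lit 6) (nat_lit 220) (nat_lit 5) (nat_lit 169) (nat_lit 212) (nat_lit 219))))) (PT.nd (nat_lit 312) (PT.nd (nat_lit 156) (PT.nd (nat_lit 78) (PT.lf (nat_lit 17176) (nat_lit 6) (nat_lit 226) (nat_lit 5) (nat_lit 170) (nat_lit 212) (nat_lit 218)) (PT.lf (nat_lit 17708) (nat_lit 6) (nat_lit 233) (nat_lit 5) (nat_lit 171) (nat_lit 212) (nat_lit 217))) (PT.nd (nat_lit 78) (PT.lf (nat_lit 18164) (nat_lit 6) (nat_lit 239) (nat_lit 5) (nat_lit 172) (nat_lit 212) (nat_lit 216)) (PT.lf (nat_lit 18696) (nat_lit 6) (nat_lit 246) (nat_lit 5) (nat_lit 173) (nat_lit 212) (nat_lit 215)))) (PT.nd (nat_lit 156) (PT.nd (nat_lit 78) (PT.lf (nat_lit 19228) (nat_lit 6) (nat_lit 253) (nat_lit 5) (nat_lit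 174) (nat_lit 212) (nat_lit 214)) (PT.lf (nat_lit 19760) (nat_lit 6) (nat_lit 260) (nat_lit 5) (nat_lit 175) (nat_lit 212) (nat_lit 213))) (PT.nd (nat_lit 78) (PT.lf (nat_lit 20292) (nat_lit 3) (nat_lit 267) (nat_lit 4) (nat_lit 176) (nat_lit 212) (nat_lit 212)) (PT.nd (nat_lit 78) (PT.lf (nat_lit 20824) (nat_lit 6) (nat_lit 274) (nat_lit 4) (nat_lit 177) (nat_lit 212) (nat_lit 211)) (PT.lf (nat_lit 21356) (nat_lit 6) (nat_lit 281) (nat_lit 4) (nat_lit 178) (nat_lit 212) (nat_lit 210))))))))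
noncomputable def pc41 : PT := (PT.nd (nat_lit 1248) (PT.nd (nat_lit 624) (PT.nd (nat_lit 312) (PT.nd (nat_lit 156) (PT.nd (nat_lit 78) (PT.lf (nat_lit 21964) (nat_lit 6) (nat_lit 289) (nat_lit 4) (nat_lit 179) (nat_lit 212) (nat_lit 209)) (PT.lf (nat_lit 22496) (nat_lit 6) (nat_lit 296) (nat_lit 4) (nat_lit 180) (nat_lit 212) (nat_lit 208))) (PT.nd (nat_lit 78) (PT.lf (nat_lit 23104) (nat_lit 6) (nat_lit 304) (nat_lit 4) (nat_lit 181) (nat_lit 212) (nat_lit 207)) (PT.lf (nat_lit 23712) (nat_lit 6) (nat_lit 312) (nat_lit 4) (nat_lit 182) (nat_lit 212) (nat_lit 206)))) (PT.nd (nat_lit 156) (PT.nd (nat_lit 78) (PT.lf (nat_lit 24548) (nat_lit 6) (nat_lit 323) (nat_lit 4) (nat_lit 183) (nat_lit 212) (nat_lit 205)) (PT.lf (nat_lit 25764) (nat_lit 6) (nat_lit 339) (nat_lit 4) (nat_lit 184) (nat_lit 212) (nat_lit 204))) (PT.nd (nat_lit 78) (PT.lf (nat_lit 26904) (nat_lit 6) (nat_lit 354) (nat_lit 4) (nat_lit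 185) (nat_lit 212) (nat_lit 203)) (PT.lf (nat_lit 27968) (nat_lit 6) (nat_lit 368) (nat_lit 4) (nat_lit 186) (nat_lit 212) (nat_lit 202))))) (PT.nd (nat_lit 312) (PT.nd (nat_lit 156) (PT.nd (nat_lit 78) (PT.lf (nat_lit 28956) (nat_lit 6) (nat_lit 381) (nat_lit 4) (nat_lit 187) (nat_lit 212) (nat_lit 201)) (PT.lf (nat_lit 29868) (nat_lit 6) (nat_lit 393) (nat_lit 4) (nat_lit 188) (nat_lit 212) (nat_lit 200))) (PT.nd (nat_lit 78) (PT.lf (nat_lit 29792) (nat_lit 6) (nat_lit 392) (nat_lit 4) (nat_lit 189) (nat_lit 212) (nat_lit 199)) (PT.lf (nat_lit 29716) (nat_lit 6) (nat_lit 391) (nat_lit 4) (nat_lit 190) (nat_lit 212) (nat_lit 198)))) (PT.nd (nat_lit 156) (PT.nd (nat_lit 78) (PT.lf (nat_lit 29640) (nat_lit 6) (nat_lit 390) (nat_lit 4) (nat_lit 191) (nat_lit 212) (nat_lit 197)) (PT.lf (nat_lit 29564) (nat_lit 6) (nat_lit 389) (nat_lit 4) (nat_lit 192) (nat_lit 212) (nat_lit 196))) (PT.nd (nat_lit 78)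 (PT.lf (nat_lit 29488) (nat_lit 6) (nat_lit 388) (nat_lit 4) (nat_lit 193) (nat_lit 212) (nat_lit 195)) (PT.lf (nat_lit 29412) (nat_lit 3) (nat_lit 387) (nat_lit 2) (nat_lit 194) (nat_lit 212) (nat_lit 194)))))) (PT.nd (nat_lit 624) (PT.nd (nat_lit 312) (PT.nd (nat_lit 156) (PT.nd (nat_lit 78) (PT.lf (nat_lit 29488) (nat_lit 6) (nat_lit 388) (nat_lit 2) (nat_lit 195) (nat_lit 212) (nat_lit 193)) (PT.lf (nat_lit 29564) (nat_lit 6) (nat_lit 389) (nat_lit 2) (nat_lit 196) (nat_lit 212) (nat_lit 192))) (PT.nd (nat_lit 78) (PT.lf (nat_lit 29640) (nat_lit 6) (nat_lit 390) (nat_lit 2) (nat_lit 197) (nat_lit 212) (nat_lit 191)) (PT.lf (nat_lit 29716) (nat_lit 6) (nat_lit 391) (nat_lit 2) (nat_lit 198) (nat_lit 212) (nat_lit 190)))) (PT.nd (nat_lit 156) (PT.nd (nat_lit 78) (PT.lf (nat_lit 29792) (nat_lit 6) (nat_lit 392) (nat_lit 2) (nat_lit 199) (nat_lit 212) (nat_lit 189)) (PT.lf (nat_lit 29868) (nat_lit 6)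 (nat_lit 393) (nat_lit 2) (nat_lit 200) (nat_lit 212) (nat_lit 188))) (PT.nd (nat_lit 78) (PT.lf (nat_lit 28956) (nat_lit 6) (nat_lit 381) (nat_lit 2) (nat_lit 201) (nat_lit 212) (nat_lit 187)) (PT.lf (nat_lit 27968) (nat_lit 6) (nat_lit 368) (nat_lit 2) (nat_lit 202) (nat_lit 212) (nat_lit 186))))) (PT.nd (nat_lit 312) (PT.nd (nat_lit 156) (PT.nd (nat_lit 78) (PT.lf (nat_lit 26904) (nat_lit 6) (nat_lit 354) (nat_lit 2) (nat_lit 203) (nat_lit 212) (nat_lit 185)) (PT.lf (nat_lit 25764) (nat_lit 6) (nat_lit 339) (nat_lit 2) (nat_lit 204) (nat_lit 212) (nat_lit 184))) (PT.nd (nat_lit 78) (PT.lf (nat_lit 24548) (nat_lit 6) (nat_lit 323) (nat_lit 2) (nat_lit 205) (nat_lit 212) (nat_lit 183)) (PT.lf (nat_lit 23712) (nat_lit 6) (nat_lit 312) (nat_lit 2) (nat_lit 206) (nat_lit 212) (nat_lit 182)))) (PT.nd (nat_lit 156) (PT.nd (nat_lit 78) (PT.lf (nat_lit 23104) (nat_lit 6) (nat_lit 304) (nat_lit 2) (nat_lit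 207) (nat_lit 212) (nat_lit 181)) (PT.lf (nat_lit 22496) (nat_lit 6) (nat_lit 296) (nat_lit 2) (nat_lit 208) (nat_lit 212) (nat_lit 180))) (PT.nd (nat_lit 78) (PT.lf (nat_lit 21964) (nat_lit 6) (nat_lit 289) (nat_lit 2) (nat_lit 209) (nat_lit 212) (nat_lit 179)) (PT.nd (nat_lit 78) (PT.lf (nat_lit 21356) (nat_lit 6) (nat_lit 281) (nat_lit 2) (nat_lit 210) (nat_lit 212) (nat_lit 178)) (PT.lf (nat_lit 20824) (nat_lit 6) (nat_lit 274) (nat_lit 2) (nat_lit 211) (nat_lit 212) (nat_lit 177))))))))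
noncomputable def pc42 : PT := (PT.nd (nat_lit 59358) (PT.nd (nat_lit 624) (PT.nd (nat_lit 312) (PT.nd (nat_lit 156) (PT.nd (nat_lit 78) (PT.lf (nat_lit 20292) (nat_lit 3) (nat_lit 267) (nat_lit 0) (nat_lit 212) (nat_lit 212) (nat_lit 176)) (PT.lf (nat_lit 19760) (nat_lit 6) (nat_lit 260) (nat_lit 0) (nat_lit 213) (nat_lit 212) (nat_lit 175))) (PT.nd (nat_lit 78) (PT.lf (nat_lit 19228) (nat_lit 6) (nat_lit 253) (nat_lit 0) (nat_lit 214) (nat_lit 212) (nat_lit 174)) (PT.lf (nat_lit 18696) (nat_lit 6) (nat_lit 246) (nat_lit 0) (nat_lit 215) (nat_lit 212) (nat_lit 173)))) (PT.nd (nat_lit 156) (PT.nd (nat_lit 78) (PT.lf (nat_lit 18164) (nat_lit 6) (nat_lit 239) (nat_lit 0) (nat_lit 216) (nat_lit 212) (nat_lit 172)) (PT.lf (nat_lit 17708) (nat_lit 6) (nat_lit 233) (nat_lit 0) (nat_lit 217) (nat_lit 212) (nat_lit 171))) (PT.nd (nat_lit 78) (PT.lf (nat_lit 17176) (nat_lit 6) (nat_lit 226) (nat_lit 0) (nat_lit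 218) (nat_lit 212) (nat_lit 170)) (PT.lf (nat_lit 16720) (nat_lit 6) (nat_lit 220) (nat_lit 0) (nat_lit 219) (nat_lit 212) (nat_lit 169))))) (PT.nd (nat_lit 58422) (PT.nd (nat_lit 58266) (PT.nd (nat_lit 78) (PT.lf (nat_lit 16264) (nat_lit 6) (nat_lit 214) (nat_lit 0) (nat_lit 220) (nat_lit 212) (nat_lit 168)) (PT.lf (nat_lit 15808) (nat_lit 6) (nat_lit 208) (nat_lit 0) (nat_lit 221) (nat_lit 212) (nat_lit 167))) (PT.nd (nat_lit 78) (PT.lf (nat_lit 15428) (nat_lit 6) (nat_lit 203) (nat_lit 5) (nat_lit 166) (nat_lit 213) (nat_lit 221)) (PT.lf (nat_lit 15884) (nat_lit 6) (nat_lit 209) (nat_lit 5) (nat_lit 167) (nat_lit 213) (nat_lit 220)))) (PT.nd (nat_lit 156) (PT.nd (nat_lit 78) (PT.lf (nat_lit 16340) (nat_lit 6) (nat_lit 215) (nat_lit 5) (nat_lit 168) (nat_lit 213) (nat_lit 219)) (PT.lf (nat_lit 16796) (nat_lit 6) (nat_lit 221) (nat_lit 5) (nat_lit 169) (nat_lit 213) (nat_lit 218))) (PT.nd (nat_lit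 78) (PT.lf (nat_lit 17252) (nat_lit 6) (nat_lit 227) (nat_lit 5) (nat_lit 170) (nat_lit 213) (nat_lit 217)) (PT.lf (nat_lit 17784) (nat_lit 6) (nat_lit 234) (nat_lit 5) (nat_lit 171) (nat_lit 213) (nat_lit 216)))))) (PT.nd (nat_lit 624) (PT.nd (nat_lit 312) (PT.nd (nat_lit 156) (PT.nd (nat_lit 78) (PT.lf (nat_lit 18240) (nat_lit 6) (nat_lit 240) (nat_lit 5) (nat_lit 172) (nat_lit 213) (nat_lit 215)) (PT.lf (nat_lit 18772) (nat_lit 6) (nat_lit 247) (nat_lit 5) (nat_lit 173) (nat_lit 213) (nat_lit 214))) (PT.nd (nat_lit 78) (PT.lf (nat_lit 19304) (nat_lit 3) (nat_lit 254) (nat_lit 4) (nat_lit 174) (nat_lit 213) (nat_lit 213)) (PT.lf (nat_lit 19760) (nat_lit 6) (nat_lit 260) (nat_lit 4) (nat_lit 175) (nat_lit 213) (nat_lit 212)))) (PT.nd (nat_lit 156) (PT.nd (nat_lit 78) (PT.lf (nat_lit 20216) (nat_lit 6) (nat_lit 266) (nat_lit 4) (nat_lit 176) (nat_lit 213) (nat_lit 211)) (PT.lf (nat_lit 20748) (nat_lit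 6) (nat_lit 273) (nat_lit 4) (nat_lit 177) (nat_lit 213) (nat_lit 210))) (PT.nd (nat_lit 78) (PT.lf (nat_lit 21280) (nat_lit 6) (nat_lit 280) (nat_lit 4) (nat_lit 178) (nat_lit 213) (nat_lit 209)) (PT.lf (nat_lit 21888) (nat_lit 6) (nat_lit 288) (nat_lit 4) (nat_lit 179) (nat_lit 213) (nat_lit 208))))) (PT.nd (nat_lit 312) (PT.nd (nat_lit 156) (PT.nd (nat_lit 78) (PT.lf (nat_lit 22420) (nat_lit 6) (nat_lit 295) (nat_lit 4) (nat_lit 180) (nat_lit 213) (nat_lit 207)) (PT.lf (nat_lit 23028) (nat_lit 6) (nat_lit 303) (nat_lit 4) (nat_lit 181) (nat_lit 213) (nat_lit 206))) (PT.nd (nat_lit 78) (PT.lf (nat_lit 23636) (nat_lit 6) (nat_lit 311) (nat_lit 4) (nat_lit 182) (nat_lit 213) (nat_lit 205)) (PT.lf (nat_lit 24472) (nat_lit 6) (nat_lit 322) (nat_lit 4) (nat_lit 183) (nat_lit 213) (nat_lit 204)))) (PT.nd (nat_lit 156) (PT.nd (nat_lit 78) (PT.lf (nat_lit 25688) (nat_lit 6) (nat_lit 338) (nat_lit 4) (nat_lit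 184) (nat_lit 213) (nat_lit 203)) (PT.lf (nat_lit 26828) (nat_lit 6) (nat_lit 353) (nat_lit 4) (nat_lit 185) (nat_lit 213) (nat_lit 202))) (PT.nd (nat_lit 78) (PT.lf (nat_lit 27892) (nat_lit 6) (nat_lit 367) (nat_lit 4) (nat_lit 186) (nat_lit 213) (nat_lit 201)) (PT.nd (nat_lit 78) (PT.lf (nat_lit 28880) (nat_lit 6) (nat_lit 380) (nat_lit 4) (nat_lit 187) (nat_lit 213) (nat_lit 200)) (PT.lf (nat_lit 28804) (nat_lit 6) (nat_lit 379) (nat_lit 4) (nat_lit 188) (nat_lit 213) (nat_lit 199))))))))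
noncomputable def pc43 : PT := (PT.nd (nat_lit 1326) (PT.nd (nat_lit 624) (PT.nd (nat_lit 312) (PT.nd (nat_lit 156) (PT.nd (nat_lit 78) (PT.lf (nat_lit 28728) (nat_lit 6) (nat_lit 378) (nat_lit 4) (nat_lit 189) (nat_lit 213) (nat_lit 198)) (PT.lf (nat_lit 28652) (nat_lit 6) (nat_lit 377) (nat_lit 4) (nat_lit 190) (nat_lit 213) (nat_lit 197))) (PT.nd (nat_lit 78) (PT.lf (nat_lit 28576) (nat_lit 6) (nat_lit 376) (nat_lit 4) (nat_lit 191) (nat_lit 213) (nat_lit 196)) (PT.lf (nat_lit 28500) (nat_lit 6) (nat_lit 375) (nat_lit 4) (nat_lit 192) (nat_lit 213) (nat_lit 195)))) (PT.nd (nat_lit 156) (PT.nd (nat_lit 78) (PT.lf (nat_lit 28424) (nat_lit 6) (nat_lit 374) (nat_lit 4) (nat_lit 193) (nat_lit 213) (nat_lit 194)) (PT.lf (nat_lit 28424) (nat_lit 6) (nat_lit 374) (nat_lit 2) (nat_lit 194) (nat_lit 213) (nat_lit 193))) (PT.nd (nat_lit 78) (PT.lf (nat_lit 28500) (nat_lit 6) (nat_lit 375) (nat_lit 2) (nat_lit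 195) (nat_lit 213) (nat_lit 192)) (PT.lf (nat_lit 28576) (nat_lit 6) (nat_lit 376) (nat_lit 2) (nat_lit 196) (nat_lit 213) (nat_lit 191))))) (PT.nd (nat_lit 312) (PT.nd (nat_lit 156) (PT.nd (nat_lit 78) (PT.lf (nat_lit 28652) (nat_lit 6) (nat_lit 377) (nat_lit 2) (nat_lit 197) (nat_lit 213) (nat_lit 190)) (PT.lf (nat_lit 28728) (nat_lit 6) (nat_lit 378) (nat_lit 2) (nat_lit 198) (nat_lit 213) (nat_lit 189))) (PT.nd (nat_lit 78) (PT.lf (nat_lit 28804) (nat_lit 6) (nat_lit 379) (nat_lit 2) (nat_lit 199) (nat_lit 213) (nat_lit 188)) (PT.lf (nat_lit 28880) (nat_lit 6) (nat_lit 380) (nat_lit 2) (nat_lit 200) (nat_lit 213) (nat_lit 187)))) (PT.nd (nat_lit 156) (PT.nd (nat_lit 78) (PT.lf (nat_lit 27892) (nat_lit 6) (nat_lit 367) (nat_lit 2) (nat_lit 201) (nat_lit 213) (nat_lit 186)) (PT.lf (nat_lit 26828) (nat_lit 6) (nat_lit 353) (nat_lit 2) (nat_lit 202) (nat_lit 213) (nat_lit 185))) (PT.nd (nat_lit 78)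 (PT.lf (nat_lit 25688) (nat_lit 6) (nat_lit 338) (nat_lit 2) (nat_lit 203) (nat_lit 213) (nat_lit 184)) (PT.nd (nat_lit 78) (PT.lf (nat_lit 24472) (nat_lit 6) (nat_lit 322) (nat_lit 2) (nat_lit 204) (nat_lit 213) (nat_lit 183)) (PT.lf (nat_lit 23636) (nat_lit 6) (nat_lit 311) (nat_lit 2) (nat_lit 205) (nat_lit 213) (nat_lit 182))))))) (PT.nd (nat_lit 624) (PT.nd (nat_lit 312) (PT.nd (nat_lit 156) (PT.nd (nat_lit 78) (PT.lf (nat_lit 23028) (nat_lit 6) (nat_lit 303) (nat_lit 2) (nat_lit 206) (nat_lit 213) (nat_lit 181)) (PT.lf (nat_lit 22420) (nat_lit 6) (nat_lit 295) (nat_lit 2) (nat_lit 207) (nat_lit 213) (nat_lit 180))) (PT.nd (nat_lit 78) (PT.lf (nat_lit 21888) (nat_lit 6) (nat_lit 288) (nat_lit 2) (nat_lit 208) (nat_lit 213) (nat_lit 179)) (PT.lf (nat_lit 21280) (nat_lit 6) (nat_lit 280) (nat_lit 2) (nat_lit 209) (nat_lit 213) (nat_lit 178)))) (PT.nd (nat_lit 156) (PT.nd (nat_lit 78) (PT.lf (nat_lit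 20748) (nat_lit 6) (nat_lit 273) (nat_lit 2) (nat_lit 210) (nat_lit 213) (nat_lit 177)) (PT.lf (nat_lit 20216) (nat_lit 6) (nat_lit 266) (nat_lit 2) (nat_lit 211) (nat_lit 213) (nat_lit 176))) (PT.nd (nat_lit 78) (PT.lf (nat_lit 19760) (nat_lit 6) (nat_lit 260) (nat_lit 2) (nat_lit 212) (nat_lit 213) (nat_lit 175)) (PT.lf (nat_lit 19304) (nat_lit 3) (nat_lit 254) (nat_lit 0) (nat_lit 213) (nat_lit 213) (nat_lit 174))))) (PT.nd (nat_lit 312) (PT.nd (nat_lit 156) (PT.nd (nat_lit 78) (PT.lf (nat_lit 18772) (nat_lit 6) (nat_lit 247) (nat_lit 0) (nat_lit 214) (nat_lit 213) (nat_lit 173)) (PT.lf (nat_lit 18240) (nat_lit 6) (nat_lit 240) (nat_lit 0) (nat_lit 215) (nat_lit 213) (nat_lit 172))) (PT.nd (nat_lit 78) (PT.lf (nat_lit 17784) (nat_lit 6) (nat_lit 234) (nat_lit 0) (nat_lit 216) (nat_lit 213) (nat_lit 171)) (PT.lf (nat_lit 17252) (nat_lit 6) (nat_lit 227) (nat_lit 0) (nat_lit 217) (nat_lit 213) (nat_lit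 170)))) (PT.nd (nat_lit 156) (PT.nd (nat_lit 78) (PT.lf (nat_lit 16796) (nat_lit 6) (nat_lit 221) (nat_lit 0) (nat_lit 218) (nat_lit 213) (nat_lit 169)) (PT.lf (nat_lit 16340) (nat_lit 6) (nat_lit 215) (nat_lit 0) (nat_lit 219) (nat_lit 213) (nat_lit 168))) (PT.nd (nat_lit 78) (PT.lf (nat_lit 15884) (nat_lit 6) (nat_lit 209) (nat_lit 0) (nat_lit 220) (nat_lit 213) (nat_lit 167)) (PT.nd (nat_lit 58032) (PT.lf (nat_lit 15428) (nat_lit 6) (nat_lit 203) (nat_lit 0) (nat_lit 221) (nat_lit 213) (nat_lit 166)) (PT.lf (nat_lit 14744) (nat_lit 6) (nat_lit 194) (nat_lit 5) (nat_lit 164) (nat_lit 214) (nat_lit 222))))))))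
noncomputable def pc44 : PT := (PT.nd (nat_lit 1248) (PT.nd (nat_lit 624) (PT.nd (nat_lit 312) (PT.nd (nat_lit 156) (PT.nd (nat_lit 78) (PT.lf (nat_lit 15124) (nat_lit 6) (nat_lit 199) (nat_lit 5) (nat_lit 165) (nat_lit 214) (nat_lit 221)) (PT.lf (nat_lit 15504) (nat_lit 6) (nat_lit 204) (nat_lit 5) (nat_lit 166) (nat_lit 214) (nat_lit 220))) (PT.nd (nat_lit 78) (PT.lf (nat_lit 15960) (nat_lit 6) (nat_lit 210) (nat_lit 5) (nat_lit 167) (nat_lit 214) (nat_lit 219)) (PT.lf (nat_lit 16416) (nat_lit 6) (nat_lit 216) (nat_lit 5) (nat_lit 168) (nat_lit 214) (nat_lit 218)))) (PT.nd (nat_lit 156) (PT.nd (nat_lit 78) (PT.lf (nat_lit 16872) (nat_lit 6) (nat_lit 222) (nat_lit 5) (nat_lit 169) (nat_lit 214) (nat_lit 217)) (PT.lf (nat_lit 17328) (nat_lit 6) (nat_lit 228) (nat_lit 5) (nat_lit 170) (nat_lit 214) (nat_lit 216))) (PT.nd (nat_lit 78) (PT.lf (nat_lit 17860) (nat_lit 6) (nat_lit 235) (nat_lit 5) (nat_lit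 171) (nat_lit 214) (nat_lit 215)) (PT.lf (nat_lit 18316) (nat_lit 3) (nat_lit 241) (nat_lit 4) (nat_lit 172) (nat_lit 214) (nat_lit 214))))) (PT.nd (nat_lit 312) (PT.nd (nat_lit 156) (PT.nd (nat_lit 78) (PT.lf (nat_lit 18772) (nat_lit 6) (nat_lit 247) (nat_lit 4) (nat_lit 173) (nat_lit 214) (nat_lit 213)) (PT.lf (nat_lit 19228) (nat_lit 6) (nat_lit 253) (nat_lit 4) (nat_lit 174) (nat_lit 214) (nat_lit 212))) (PT.nd (nat_lit 78) (PT.lf (nat_lit 19684) (nat_lit 6) (nat_lit 259) (nat_lit 4) (nat_lit 175) (nat_lit 214) (nat_lit 211)) (PT.lf (nat_lit 20140) (nat_lit 6) (nat_lit 265) (nat_lit 4) (nat_lit 176) (nat_lit 214) (nat_lit 210)))) (PT.nd (nat_lit 156) (PT.nd (nat_lit 78) (PT.lf (nat_lit 20672) (nat_lit 6) (nat_lit 272) (nat_lit 4) (nat_lit 177) (nat_lit 214) (nat_lit 209)) (PT.lf (nat_lit 21204) (nat_lit 6) (nat_lit 279) (nat_lit 4) (nat_lit 178) (nat_lit 214) (nat_lit 208))) (PT.nd (nat_lit 78)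 (PT.lf (nat_lit 21812) (nat_lit 6) (nat_lit 287) (nat_lit 4) (nat_lit 179) (nat_lit 214) (nat_lit 207)) (PT.lf (nat_lit 22344) (nat_lit 6) (nat_lit 294) (nat_lit 4) (nat_lit 180) (nat_lit 214) (nat_lit 206)))))) (PT.nd (nat_lit 624) (PT.nd (nat_lit 312) (PT.nd (nat_lit 156) (PT.nd (nat_lit 78) (PT.lf (nat_lit 22952) (nat_lit 6) (nat_lit 302) (nat_lit 4) (nat_lit 181) (nat_lit 214) (nat_lit 205)) (PT.lf (nat_lit 23560) (nat_lit 6) (nat_lit 310) (nat_lit 4) (nat_lit 182) (nat_lit 214) (nat_lit 204))) (PT.nd (nat_lit 78) (PT.lf (nat_lit 24396) (nat_lit 6) (nat_lit 321) (nat_lit 4) (nat_lit 183) (nat_lit 214) (nat_lit 203)) (PT.lf (nat_lit 25612) (nat_lit 6) (nat_lit 337) (nat_lit 4) (nat_lit 184) (nat_lit 214) (nat_lit 202)))) (PT.nd (nat_lit 156) (PT.nd (nat_lit 78) (PT.lf (nat_lit 26752) (nat_lit 6) (nat_lit 352) (nat_lit 4) (nat_lit 185) (nat_lit 214) (nat_lit 201)) (PT.lf (nat_lit 27816) (nat_lit 6)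 (nat_lit 366) (nat_lit 4) (nat_lit 186) (nat_lit 214) (nat_lit 200))) (PT.nd (nat_lit 78) (PT.lf (nat_lit 27740) (nat_lit 6) (nat_lit 365) (nat_lit 4) (nat_lit 187) (nat_lit 214) (nat_lit 199)) (PT.lf (nat_lit 27664) (nat_lit 6) (nat_lit 364) (nat_lit 4) (nat_lit 188) (nat_lit 214) (nat_lit 198))))) (PT.nd (nat_lit 312) (PT.nd (nat_lit 156) (PT.nd (nat_lit 78) (PT.lf (nat_lit 27588) (nat_lit 6) (nat_lit 363) (nat_lit 4) (nat_lit 189) (nat_lit 214) (nat_lit 197)) (PT.lf (nat_lit 27512) (nat_lit 6) (nat_lit 362) (nat_lit 4) (nat_lit 190) (nat_lit 214) (nat_lit 196))) (PT.nd (nat_lit 78) (PT.lf (nat_lit 27436) (nat_lit 6) (nat_lit 361) (nat_lit 4) (nat_lit 191) (nat_lit 214) (nat_lit 195)) (PT.lf (nat_lit 27360) (nat_lit 6) (nat_lit 360) (nat_lit 4) (nat_lit 192) (nat_lit 214) (nat_lit 194)))) (PT.nd (nat_lit 156) (PT.nd (nat_lit 78) (PT.lf (nat_lit 27284) (nat_lit 3) (nat_lit 359) (nat_lit 2) (nat_lit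 193) (nat_lit 214) (nat_lit 193)) (PT.lf (nat_lit 27360) (nat_lit 6) (nat_lit 360) (nat_lit 2) (nat_lit 194) (nat_lit 214) (nat_lit 192))) (PT.nd (nat_lit 78) (PT.lf (nat_lit 27436) (nat_lit 6) (nat_lit 361) (nat_lit 2) (nat_lit 195) (nat_lit 214) (nat_lit 191)) (PT.nd (nat_lit 78) (PT.lf (nat_lit 27512) (nat_lit 6) (nat_lit 362) (nat_lit 2) (nat_lit 196) (nat_lit 214) (nat_lit 190)) (PT.lf (nat_lit 27588) (nat_lit 6) (nat_lit 363) (nat_lit 2) (nat_lit 197) (nat_lit 214) (nat_lit 189))))))))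
noncomputable def pc45 : PT := (PT.nd (nat_lit 1326) (PT.nd (nat_lit 624) (PT.nd (nat_lit 312) (PT.nd (nat_lit 156) (PT.nd (nat_lit 78) (PT.lf (nat_lit 27664) (nat_lit 6) (nat_lit 364) (nat_lit 2) (nat_lit 198) (nat_lit 214) (nat_lit 188)) (PT.lf (nat_lit 27740) (nat_lit 6) (nat_lit 365) (nat_lit 2) (nat_lit 199) (nat_lit 214) (nat_lit 187))) (PT.nd (nat_lit 78) (PT.lf (nat_lit 27816) (nat_lit 6) (nat_lit 366) (nat_lit 2) (nat_lit 200) (nat_lit 214) (nat_lit 186)) (PT.lf (nat_lit 26752) (nat_lit 6) (nat_lit 352) (nat_lit 2) (nat_lit 201) (nat_lit 214) (nat_lit 185)))) (PT.nd (nat_lit 156) (PT.nd (nat_lit 78) (PT.lf (nat_lit 25612) (nat_lit 6) (nat_lit 337) (nat_lit 2) (nat_lit 202) (nat_lit 214) (nat_lit 184)) (PT.lf (nat_lit 24396) (nat_lit 6) (nat_lit 321) (nat_lit 2) (nat_lit 203) (nat_lit 214) (nat_lit 183))) (PT.nd (nat_lit 78) (PT.lf (nat_lit 23560) (nat_lit 6) (nat_lit 310) (nat_lit 2) (nat_lit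 204) (nat_lit 214) (nat_lit 182)) (PT.lf (nat_lit 22952) (nat_lit 6) (nat_lit 302) (nat_lit 2) (nat_lit 205) (nat_lit 214) (nat_lit 181))))) (PT.nd (nat_lit 312) (PT.nd (nat_lit 156) (PT.nd (nat_lit 78) (PT.lf (nat_lit 22344) (nat_lit 6) (nat_lit 294) (nat_lit 2) (nat_lit 206) (nat_lit 214) (nat_lit 180)) (PT.lf (nat_lit 21812) (nat_lit 6) (nat_lit 287) (nat_lit 2) (nat_lit 207) (nat_lit 214) (nat_lit 179))) (PT.nd (nat_lit 78) (PT.lf (nat_lit 21204) (nat_lit 6) (nat_lit 279) (nat_lit 2) (nat_lit 208) (nat_lit 214) (nat_lit 178)) (PT.lf (nat_lit 20672) (nat_lit 6) (nat_lit 272) (nat_lit 2) (nat_lit 209) (nat_lit 214) (nat_lit 177)))) (PT.nd (nat_lit 156) (PT.nd (nat_lit 78) (PT.lf (nat_lit 20140) (nat_lit 6) (nat_lit 265) (nat_lit 2) (nat_lit 210) (nat_lit 214) (nat_lit 176)) (PT.lf (nat_lit 19684) (nat_lit 6) (nat_lit 259) (nat_lit 2) (nat_lit 211) (nat_lit 214) (nat_lit 175))) (PT.nd (nat_lit 78)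 (PT.lf (nat_lit 19228) (nat_lit 6) (nat_lit 253) (nat_lit 2) (nat_lit 212) (nat_lit 214) (nat_lit 174)) (PT.nd (nat_lit 78) (PT.lf (nat_lit 18772) (nat_lit 6) (nat_lit 247) (nat_lit 2) (nat_lit 213) (nat_lit 214) (nat_lit 173)) (PT.lf (nat_lit 18316) (nat_lit 3) (nat_lit 241) (nat_lit 0) (nat_lit 214) (nat_lit 214) (nat_lit 172))))))) (PT.nd (nat_lit 58344) (PT.nd (nat_lit 312) (PT.nd (nat_lit 156) (PT.nd (nat_lit 78) (PT.lf (nat_lit 17860) (nat_lit 6) (nat_lit 235) (nat_lit 0) (nat_lit 215) (nat_lit 214) (nat_lit 171)) (PT.lf (nat_lit 17328) (nat_lit 6) (nat_lit 228) (nat_lit 0) (nat_lit 216) (nat_lit 214) (nat_lit 170))) (PT.nd (nat_lit 78) (PT.lf (nat_lit 16872) (nat_lit 6) (nat_lit 222) (nat_lit 0) (nat_lit 217) (nat_lit 214) (nat_lit 169)) (PT.lf (nat_lit 16416) (nat_lit 6) (nat_lit 216) (nat_lit 0) (nat_lit 218) (nat_lit 214) (nat_lit 168)))) (PT.nd (nat_lit 156) (PT.nd (nat_lit 78) (PT.lf (nat_lit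 15960) (nat_lit 6) (nat_lit 210) (nat_lit 0) (nat_lit 219) (nat_lit 214) (nat_lit 167)) (PT.lf (nat_lit 15504) (nat_lit 6) (nat_lit 204) (nat_lit 0) (nat_lit 220) (nat_lit 214) (nat_lit 166))) (PT.nd (nat_lit 78) (PT.lf (nat_lit 15124) (nat_lit 6) (nat_lit 199) (nat_lit 0) (nat_lit 221) (nat_lit 214) (nat_lit 165)) (PT.lf (nat_lit 14744) (nat_lit 6) (nat_lit 194) (nat_lit 0) (nat_lit 222) (nat_lit 214) (nat_lit 164))))) (PT.nd (nat_lit 312) (PT.nd (nat_lit 156) (PT.nd (nat_lit 78) (PT.lf (nat_lit 14060) (nat_lit 6) (nat_lit 185) (nat_lit 5) (nat_lit 162) (nat_lit 215) (nat_lit 223)) (PT.lf (nat_lit 14440) (nat_lit 6) (nat_lit 190) (nat_lit 5) (nat_lit 163) (nat_lit 215) (nat_lit 222))) (PT.nd (nat_lit 78) (PT.lf (nat_lit 14820) (nat_lit 6) (nat_lit 195) (nat_lit 5) (nat_lit 164) (nat_lit 215) (nat_lit 221)) (PT.lf (nat_lit 15200) (nat_lit 6) (nat_lit 200) (nat_lit 5) (nat_lit 165) (nat_lit 215) (nat_lit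 220)))) (PT.nd (nat_lit 156) (PT.nd (nat_lit 78) (PT.lf (nat_lit 15580) (nat_lit 6) (nat_lit 205) (nat_lit 5) (nat_lit 166) (nat_lit 215) (nat_lit 219)) (PT.lf (nat_lit 16036) (nat_lit 6) (nat_lit 211) (nat_lit 5) (nat_lit 167) (nat_lit 215) (nat_lit 218))) (PT.nd (nat_lit 78) (PT.lf (nat_lit 16492) (nat_lit 6) (nat_lit 217) (nat_lit 5) (nat_lit 168) (nat_lit 215) (nat_lit 217)) (PT.nd (nat_lit 78) (PT.lf (nat_lit 16948) (nat_lit 6) (nat_lit 223) (nat_lit 5) (nat_lit 169) (nat_lit 215) (nat_lit 216)) (PT.lf (nat_lit 17404) (nat_lit 3) (nat_lit 229) (nat_lit 4) (nat_lit 170) (nat_lit 215) (nat_lit 215))))))))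
noncomputable def pc46 : PT := (PT.nd (nat_lit 1248) (PT.nd (nat_lit 624) (PT.nd (nat_lit 312) (PT.nd (nat_lit 156) (PT.nd (nat_lit 78) (PT.lf (nat_lit 17860) (nat_lit 6) (nat_lit 235) (nat_lit 4) (nat_lit 171) (nat_lit 215) (nat_lit 214)) (PT.lf (nat_lit 18240) (nat_lit 6) (nat_lit 240) (nat_lit 4) (nat_lit 172) (nat_lit 215) (nat_lit 213))) (PT.nd (nat_lit 78) (PT.lf (nat_lit 18696) (nat_lit 6) (nat_lit 246) (nat_lit 4) (nat_lit 173) (nat_lit 215) (nat_lit 212)) (PT.lf (nat_lit 19152) (nat_lit 6) (nat_lit 252) (nat_lit 4) (nat_lit 174) (nat_lit 215) (nat_lit 211)))) (PT.nd (nat_lit 156) (PT.nd (nat_lit 78) (PT.lf (nat_lit 19608) (nat_lit 6) (nat_lit 258) (nat_lit 4) (nat_lit 175) (nat_lit 215) (nat_lit 210)) (PT.lf (nat_lit 20064) (nat_lit 6) (nat_lit 264) (nat_lit 4) (nat_lit 176) (nat_lit 215) (nat_lit 209))) (PT.nd (nat_lit 78) (PT.lf (nat_lit 20596) (nat_lit 6) (nat_lit 271) (nat_lit 4) (nat_lit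 177) (nat_lit 215) (nat_lit 208)) (PT.lf (nat_lit 21128) (nat_lit 6) (nat_lit 278) (nat_lit 4) (nat_lit 178) (nat_lit 215) (nat_lit 207))))) (PT.nd (nat_lit 312) (PT.nd (nat_lit 156) (PT.nd (nat_lit 78) (PT.lf (nat_lit 21736) (nat_lit 6) (nat_lit 286) (nat_lit 4) (nat_lit 179) (nat_lit 215) (nat_lit 206)) (PT.lf (nat_lit 22268) (nat_lit 6) (nat_lit 293) (nat_lit 4) (nat_lit 180) (nat_lit 215) (nat_lit 205))) (PT.nd (nat_lit 78) (PT.lf (nat_lit 22876) (nat_lit 6) (nat_lit 301) (nat_lit 4) (nat_lit 181) (nat_lit 215) (nat_lit 204)) (PT.lf (nat_lit 23484) (nat_lit 6) (nat_lit 309) (nat_lit 4) (nat_lit 182) (nat_lit 215) (nat_lit 203)))) (PT.nd (nat_lit 156) (PT.nd (nat_lit 78) (PT.lf (nat_lit 24320) (nat_lit 6) (nat_lit 320) (nat_lit 4) (nat_lit 183) (nat_lit 215) (nat_lit 202)) (PT.lf (nat_lit 25536) (nat_lit 6) (nat_lit 336) (nat_lit 4) (nat_lit 184) (nat_lit 215) (nat_lit 201))) (PT.nd (nat_lit 78)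 (PT.lf (nat_lit 26676) (nat_lit 6) (nat_lit 351) (nat_lit 4) (nat_lit 185) (nat_lit 215) (nat_lit 200)) (PT.lf (nat_lit 26600) (nat_lit 6) (nat_lit 350) (nat_lit 4) (nat_lit 186) (nat_lit 215) (nat_lit 199)))))) (PT.nd (nat_lit 624) (PT.nd (nat_lit 312) (PT.nd (nat_lit 156) (PT.nd (nat_lit 78) (PT.lf (nat_lit 26524) (nat_lit 6) (nat_lit 349) (nat_lit 4) (nat_lit 187) (nat_lit 215) (nat_lit 198)) (PT.lf (nat_lit 26448) (nat_lit 6) (nat_lit 348) (nat_lit 4) (nat_lit 188) (nat_lit 215) (nat_lit 197))) (PT.nd (nat_lit 78) (PT.lf (nat_lit 26372) (nat_lit 6) (nat_lit 347) (nat_lit 4) (nat_lit 189) (nat_lit 215) (nat_lit 196)) (PT.lf (nat_lit 26296) (nat_lit 6) (nat_lit 346) (nat_lit 4) (nat_lit 190) (nat_lit 215) (nat_lit 195)))) (PT.nd (nat_lit 156) (PT.nd (nat_lit 78) (PT.lf (nat_lit 26220) (nat_lit 6) (nat_lit 345) (nat_lit 4) (nat_lit 191) (nat_lit 215) (nat_lit 194)) (PT.lf (nat_lit 26144) (nat_lit 6)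 (nat_lit 344) (nat_lit 4) (nat_lit 192) (nat_lit 215) (nat_lit 193))) (PT.nd (nat_lit 78) (PT.lf (nat_lit 26144) (nat_lit 6) (nat_lit 344) (nat_lit 2) (nat_lit 193) (nat_lit 215) (nat_lit 192)) (PT.lf (nat_lit 26220) (nat_lit 6) (nat_lit 345) (nat_lit 2) (nat_lit 194) (nat_lit 215) (nat_lit 191))))) (PT.nd (nat_lit 312) (PT.nd (nat_lit 156) (PT.nd (nat_lit 78) (PT.lf (nat_lit 26296) (nat_lit 6) (nat_lit 346) (nat_lit 2) (nat_lit 195) (nat_lit 215) (nat_lit 190)) (PT.lf (nat_lit 26372) (nat_lit 6) (nat_lit 347) (nat_lit 2) (nat_lit 196) (nat_lit 215) (nat_lit 189))) (PT.nd (nat_lit 78) (PT.lf (nat_lit 26448) (nat_lit 6) (nat_lit 348) (nat_lit 2) (nat_lit 197) (nat_lit 215) (nat_lit 188)) (PT.lf (nat_lit 26524) (nat_lit 6) (nat_lit 349) (nat_lit 2) (nat_lit 198) (nat_lit 215) (nat_lit 187)))) (PT.nd (nat_lit 156) (PT.nd (nat_lit 78) (PT.lf (nat_lit 26600) (nat_lit 6) (nat_lit 350) (nat_lit 2) (nat_lit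 199) (nat_lit 215) (nat_lit 186)) (PT.lf (nat_lit 26676) (nat_lit 6) (nat_lit 351) (nat_lit 2) (nat_lit 200) (nat_lit 215) (nat_lit 185))) (PT.nd (nat_lit 78) (PT.lf (nat_lit 25536) (nat_lit 6) (nat_lit 336) (nat_lit 2) (nat_lit 201) (nat_lit 215) (nat_lit 184)) (PT.nd (nat_lit 78) (PT.lf (nat_lit 24320) (nat_lit 6) (nat_lit 320) (nat_lit 2) (nat_lit 202) (nat_lit 215) (nat_lit 183)) (PT.lf (nat_lit 23484) (nat_lit 6) (nat_lit 309) (nat_lit 2) (nat_lit 203) (nat_lit 215) (nat_lit 182))))))))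
noncomputable def pc47 : PT := (PT.nd (nat_lit 1326) (PT.nd (nat_lit 624) (PT.nd (nat_lit 312) (PT.nd (nat_lit 156) (PT.nd (nat_lit 78) (PT.lf (nat_lit 22876) (nat_lit 6) (nat_lit 301) (nat_lit 2) (nat_lit 204) (nat_lit 215) (nat_lit 181)) (PT.lf (nat_lit 22268) (nat_lit 6) (nat_lit 293) (nat_lit 2) (nat_lit 205) (nat_lit 215) (nat_lit 180))) (PT.nd (nat_lit 78) (PT.lf (nat_lit 21736) (nat_lit 6) (nat_lit 286) (nat_lit 2) (nat_lit 206) (nat_lit 215) (nat_lit 179)) (PT.lf (nat_lit 21128) (nat_lit 6) (nat_lit 278) (nat_lit 2) (nat_lit 207) (nat_lit 215) (nat_lit 178)))) (PT.nd (nat_lit 156) (PT.nd (nat_lit 78) (PT.lf (nat_lit 20596) (nat_lit 6) (nat_lit 271) (nat_lit 2) (nat_lit 208) (nat_lit 215) (nat_lit 177)) (PT.lf (nat_lit 20064) (nat_lit 6) (nat_lit 264) (nat_lit 2) (nat_lit 209) (nat_lit 215) (nat_lit 176))) (PT.nd (nat_lit 78) (PT.lf (nat_lit 19608) (nat_lit 6) (nat_lit 258) (nat_lit 2) (nat_lit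 210) (nat_lit 215) (nat_lit 175)) (PT.lf (nat_lit 19152) (nat_lit 6) (nat_lit 252) (nat_lit 2) (nat_lit 211) (nat_lit 215) (nat_lit 174))))) (PT.nd (nat_lit 312) (PT.nd (nat_lit 156) (PT.nd (nat_lit 78) (PT.lf (nat_lit 18696) (nat_lit 6) (nat_lit 246) (nat_lit 2) (nat_lit 212) (nat_lit 215) (nat_lit 173)) (PT.lf (nat_lit 18240) (nat_lit 6) (nat_lit 240) (nat_lit 2) (nat_lit 213) (nat_lit 215) (nat_lit 172))) (PT.nd (nat_lit 78) (PT.lf (nat_lit 17860) (nat_lit 6) (nat_lit 235) (nat_lit 2) (nat_lit 214) (nat_lit 215) (nat_lit 171)) (PT.lf (nat_lit 17404) (nat_lit 3) (nat_lit 229) (nat_lit 0) (nat_lit 215) (nat_lit 215) (nat_lit 170)))) (PT.nd (nat_lit 156) (PT.nd (nat_lit 78) (PT.lf (nat_lit 16948) (nat_lit 6) (nat_lit 223) (nat_lit 0) (nat_lit 216) (nat_lit 215) (nat_lit 169)) (PT.lf (nat_lit 16492) (nat_lit 6) (nat_lit 217) (nat_lit 0) (nat_lit 217) (nat_lit 215) (nat_lit 168))) (PT.nd (nat_lit 78)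 (PT.lf (nat_lit 16036) (nat_lit 6) (nat_lit 211) (nat_lit 0) (nat_lit 218) (nat_lit 215) (nat_lit 167)) (PT.nd (nat_lit 78) (PT.lf (nat_lit 15580) (nat_lit 6) (nat_lit 205) (nat_lit 0) (nat_lit 219) (nat_lit 215) (nat_lit 166)) (PT.lf (nat_lit 15200) (nat_lit 6) (nat_lit 200) (nat_lit 0) (nat_lit 220) (nat_lit 215) (nat_lit 165))))))) (PT.nd (nat_lit 58188) (PT.nd (nat_lit 57876) (PT.nd (nat_lit 156) (PT.nd (nat_lit 78) (PT.lf (nat_lit 14820) (nat_lit 6) (nat_lit 195) (nat_lit 0) (nat_lit 221) (nat_lit 215) (nat_lit 164)) (PT.lf (nat_lit 14440) (nat_lit 6) (nat_lit 190) (nat_lit 0) (nat_lit 222) (nat_lit 215) (nat_lit 163))) (PT.nd (nat_lit 57642) (PT.lf (nat_lit 14060) (nat_lit 6) (nat_lit 185) (nat_lit 0) (nat_lit 223) (nat_lit 215) (nat_lit 162)) (PT.lf (nat_lit 13756) (nat_lit 6) (nat_lit 181) (nat_lit 5) (nat_lit 161) (nat_lit 216) (nat_lit 223)))) (PT.nd (nat_lit 156) (PT.nd (nat_lit 78) (PT.lf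 (nat_lit 14136) (nat_lit 6) (nat_lit 186) (nat_lit 5) (nat_lit 162) (nat_lit 216) (nat_lit 222)) (PT.lf (nat_lit 14516) (nat_lit 6) (nat_lit 191) (nat_lit 5) (nat_lit 163) (nat_lit 216) (nat_lit 221))) (PT.nd (nat_lit 78) (PT.lf (nat_lit 14896) (nat_lit 6) (nat_lit 196) (nat_lit 5) (nat_lit 164) (nat_lit 216) (nat_lit 220)) (PT.lf (nat_lit 15276) (nat_lit 6) (nat_lit 201) (nat_lit 5) (nat_lit 165) (nat_lit 216) (nat_lit 219))))) (PT.nd (nat_lit 312) (PT.nd (nat_lit 156) (PT.nd (nat_lit 78) (PT.lf (nat_lit 15656) (nat_lit 6) (nat_lit 206) (nat_lit 5) (nat_lit 166) (nat_lit 216) (nat_lit 218)) (PT.lf (nat_lit 16112) (nat_lit 6) (nat_lit 212) (nat_lit 5) (nat_lit 167) (nat_lit 216) (nat_lit 217))) (PT.nd (nat_lit 78) (PT.lf (nat_lit 16568) (nat_lit 3) (nat_lit 218) (nat_lit 4) (nat_lit 168) (nat_lit 216) (nat_lit 216)) (PT.lf (nat_lit 16948) (nat_lit 6) (nat_lit 223) (nat_lit 4) (nat_lit 169) (nat_lit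 216) (nat_lit 215)))) (PT.nd (nat_lit 156) (PT.nd (nat_lit 78) (PT.lf (nat_lit 17328) (nat_lit 6) (nat_lit 228) (nat_lit 4) (nat_lit 170) (nat_lit 216) (nat_lit 214)) (PT.lf (nat_lit 17784) (nat_lit 6) (nat_lit 234) (nat_lit 4) (nat_lit 171) (nat_lit 216) (nat_lit 213))) (PT.nd (nat_lit 78) (PT.lf (nat_lit 18164) (nat_lit 6) (nat_lit 239) (nat_lit 4) (nat_lit 172) (nat_lit 216) (nat_lit 212)) (PT.nd (nat_lit 78) (PT.lf (nat_lit 18620) (nat_lit 6) (nat_lit 245) (nat_lit 4) (nat_lit 173) (nat_lit 216) (nat_lit 211)) (PT.lf (nat_lit 19076) (nat_lit 6) (nat_lit 251) (nat_lit 4) (nat_lit 174) (nat_lit 216) (nat_lit 210))))))))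
noncomputable def pc48 : PT := (PT.nd (nat_lit 1248) (PT.nd (nat_lit 624) (PT.nd (nat_lit 312) (PT.nd (nat_lit 156) (PT.nd (nat_lit 78) (PT.lf (nat_lit 19532) (nat_lit 6) (nat_lit 257) (nat_lit 4) (nat_lit 175) (nat_lit 216) (nat_lit 209)) (PT.lf (nat_lit 19988) (nat_lit 6) (nat_lit 263) (nat_lit 4) (nat_lit 176) (nat_lit 216) (nat_lit 208))) (PT.nd (nat_lit 78) (PT.lf (nat_lit 20520) (nat_lit 6) (nat_lit 270) (nat_lit 4) (nat_lit 177) (nat_lit 216) (nat_lit 207)) (PT.lf (nat_lit 21052) (nat_lit 6) (nat_lit 277) (nat_lit 4) (nat_lit 178) (nat_lit 216) (nat_lit 206)))) (PT.nd (nat_lit 156) (PT.nd (nat_lit 78) (PT.lf (nat_lit 21660) (nat_lit 6) (nat_lit 285) (nat_lit 4) (nat_lit 179) (nat_lit 216) (nat_lit 205)) (PT.lf (nat_lit 22192) (nat_lit 6) (nat_lit 292) (nat_lit 4) (nat_lit 180) (nat_lit 216) (nat_lit 204))) (PT.nd (nat_lit 78) (PT.lf (nat_lit 22800) (nat_lit 6) (nat_lit 300) (nat_lit 4) (nat_lit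 181) (nat_lit 216) (nat_lit 203)) (PT.lf (nat_lit 23408) (nat_lit 6) (nat_lit 308) (nat_lit 4) (nat_lit 182) (nat_lit 216) (nat_lit 202))))) (PT.nd (nat_lit 312) (PT.nd (nat_lit 156) (PT.nd (nat_lit 78) (PT.lf (nat_lit 24244) (nat_lit 6) (nat_lit 319) (nat_lit 4) (nat_lit 183) (nat_lit 216) (nat_lit 201)) (PT.lf (nat_lit 25460) (nat_lit 6) (nat_lit 335) (nat_lit 4) (nat_lit 184) (nat_lit 216) (nat_lit 200))) (PT.nd (nat_lit 78) (PT.lf (nat_lit 25384) (nat_lit 6) (nat_lit 334) (nat_lit 4) (nat_lit 185) (nat_lit 216) (nat_lit 199)) (PT.lf (nat_lit 25308) (nat_lit 6) (nat_lit 333) (nat_lit 4) (nat_lit 186) (nat_lit 216) (nat_lit 198)))) (PT.nd (nat_lit 156) (PT.nd (nat_lit 78) (PT.lf (nat_lit 25232) (nat_lit 6) (nat_lit 332) (nat_lit 4) (nat_lit 187) (nat_lit 216) (nat_lit 197)) (PT.lf (nat_lit 25156) (nat_lit 6) (nat_lit 331) (nat_lit 4) (nat_lit 188) (nat_lit 216) (nat_lit 196))) (PT.nd (nat_lit 78)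 (PT.lf (nat_lit 25080) (nat_lit 6) (nat_lit 330) (nat_lit 4) (nat_lit 189) (nat_lit 216) (nat_lit 195)) (PT.lf (nat_lit 25004) (nat_lit 6) (nat_lit 329) (nat_lit 4) (nat_lit 190) (nat_lit 216) (nat_lit 194)))))) (PT.nd (nat_lit 624) (PT.nd (nat_lit 312) (PT.nd (nat_lit 156) (PT.nd (nat_lit 78) (PT.lf (nat_lit 24928) (nat_lit 6) (nat_lit 328) (nat_lit 4) (nat_lit 191) (nat_lit 216) (nat_lit 193)) (PT.lf (nat_lit 24852) (nat_lit 3) (nat_lit 327) (nat_lit 2) (nat_lit 192) (nat_lit 216) (nat_lit 192))) (PT.nd (nat_lit 78) (PT.lf (nat_lit 24928) (nat_lit 6) (nat_lit 328) (nat_lit 2) (nat_lit 193) (nat_lit 216) (nat_lit 191)) (PT.lf (nat_lit 25004) (nat_lit 6) (nat_lit 329) (nat_lit 2) (nat_lit 194) (nat_lit 216) (nat_lit 190)))) (PT.nd (nat_lit 156) (PT.nd (nat_lit 78) (PT.lf (nat_lit 25080) (nat_lit 6) (nat_lit 330) (nat_lit 2) (nat_lit 195) (nat_lit 216) (nat_lit 189)) (PT.lf (nat_lit 25156) (nat_lit 6)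 (nat_lit 331) (nat_lit 2) (nat_lit 196) (nat_lit 216) (nat_lit 188))) (PT.nd (nat_lit 78) (PT.lf (nat_lit 25232) (nat_lit 6) (nat_lit 332) (nat_lit 2) (nat_lit 197) (nat_lit 216) (nat_lit 187)) (PT.lf (nat_lit 25308) (nat_lit 6) (nat_lit 333) (nat_lit 2) (nat_lit 198) (nat_lit 216) (nat_lit 186))))) (PT.nd (nat_lit 312) (PT.nd (nat_lit 156) (PT.nd (nat_lit 78) (PT.lf (nat_lit 25384) (nat_lit 6) (nat_lit 334) (nat_lit 2) (nat_lit 199) (nat_lit 216) (nat_lit 185)) (PT.lf (nat_lit 25460) (nat_lit 6) (nat_lit 335) (nat_lit 2) (nat_lit 200) (nat_lit 216) (nat_lit 184))) (PT.nd (nat_lit 78) (PT.lf (nat_lit 24244) (nat_lit 6) (nat_lit 319) (nat_lit 2) (nat_lit 201) (nat_lit 216) (nat_lit 183)) (PT.lf (nat_lit 23408) (nat_lit 6) (nat_lit 308) (nat_lit 2) (nat_lit 202) (nat_lit 216) (nat_lit 182)))) (PT.nd (nat_lit 156) (PT.nd (nat_lit 78) (PT.lf (nat_lit 22800) (nat_lit 6) (nat_lit 300) (nat_lit 2) (nat_lit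 203) (nat_lit 216) (nat_lit 181)) (PT.lf (nat_lit 22192) (nat_lit 6) (nat_lit 292) (nat_lit 2) (nat_lit 204) (nat_lit 216) (nat_lit 180))) (PT.nd (nat_lit 78) (PT.lf (nat_lit 21660) (nat_lit 6) (nat_lit 285) (nat_lit 2) (nat_lit 205) (nat_lit 216) (nat_lit 179)) (PT.nd (nat_lit 78) (PT.lf (nat_lit 21052) (nat_lit 6) (nat_lit 277) (nat_lit 2) (nat_lit 206) (nat_lit 216) (nat_lit 178)) (PT.lf (nat_lit 20520) (nat_lit 6) (nat_lit 270) (nat_lit 2) (nat_lit 207) (nat_lit 216) (nat_lit 177))))))))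
noncomputable def pc49 : PT := (PT.nd (nat_lit 58656) (PT.nd (nat_lit 624) (PT.nd (nat_lit 312) (PT.nd (nat_lit 156) (PT.nd (nat_lit 78) (PT.lf (nat_lit 19988) (nat_lit 6) (nat_lit 263) (nat_lit 2) (nat_lit 208) (nat_lit 216) (nat_lit 176)) (PT.lf (nat_lit 19532) (nat_lit 6) (nat_lit 257) (nat_lit 2) (nat_lit 209) (nat_lit 216) (nat_lit 175))) (PT.nd (nat_lit 78) (PT.lf (nat_lit 19076) (nat_lit 6) (nat_lit 251) (nat_lit 2) (nat_lit 210) (nat_lit 216) (nat_lit 174)) (PT.lf (nat_lit 18620) (nat_lit 6) (nat_lit 245) (nat_lit 2) (nat_lit 211) (nat_lit 216) (nat_lit 173)))) (PT.nd (nat_lit 156) (PT.nd (nat_lit 78) (PT.lf (nat_lit 18164) (nat_lit 6) (nat_lit 239) (nat_lit 2) (nat_lit 212) (nat_lit 216) (nat_lit 172)) (PT.lf (nat_lit 17784) (nat_lit 6) (nat_lit 234) (nat_lit 2) (nat_lit 213) (nat_lit 216) (nat_lit 171))) (PT.nd (nat_lit 78) (PT.lf (nat_lit 17328) (nat_lit 6) (nat_lit 228) (nat_lit 2) (nat_lit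 214) (nat_lit 216) (nat_lit 170)) (PT.lf (nat_lit 16948) (nat_lit 6) (nat_lit 223) (nat_lit 2) (nat_lit 215) (nat_lit 216) (nat_lit 169))))) (PT.nd (nat_lit 312) (PT.nd (nat_lit 156) (PT.nd (nat_lit 78) (PT.lf (nat_lit 16568) (nat_lit 3) (nat_lit 218) (nat_lit 0) (nat_lit 216) (nat_lit 216) (nat_lit 168)) (PT.lf (nat_lit 16112) (nat_lit 6) (nat_lit 212) (nat_lit 0) (nat_lit 217) (nat_lit 216) (nat_lit 167))) (PT.nd (nat_lit 78) (PT.lf (nat_lit 15656) (nat_lit 6) (nat_lit 206) (nat_lit 0) (nat_lit 218) (nat_lit 216) (nat_lit 166)) (PT.lf (nat_lit 15276) (nat_lit 6) (nat_lit 201) (nat_lit 0) (nat_lit 219) (nat_lit 216) (nat_lit 165)))) (PT.nd (nat_lit 156) (PT.nd (nat_lit 78) (PT.lf (nat_lit 14896) (nat_lit 6) (nat_lit 196) (nat_lit 0) (nat_lit 220) (nat_lit 216) (nat_lit 164)) (PT.lf (nat_lit 14516) (nat_lit 6) (nat_lit 191) (nat_lit 0) (nat_lit 221) (nat_lit 216) (nat_lit 163))) (PT.nd (nat_lit 78)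 (PT.lf (nat_lit 14136) (nat_lit 6) (nat_lit 186) (nat_lit 0) (nat_lit 222) (nat_lit 216) (nat_lit 162)) (PT.lf (nat_lit 13756) (nat_lit 6) (nat_lit 181) (nat_lit 0) (nat_lit 223) (nat_lit 216) (nat_lit 161)))))) (PT.nd (nat_lit 624) (PT.nd (nat_lit 312) (PT.nd (nat_lit 156) (PT.nd (nat_lit 78) (PT.lf (nat_lit 13148) (nat_lit 6) (nat_lit 173) (nat_lit 5) (nat_lit 159) (nat_lit 217) (nat_lit 224)) (PT.lf (nat_lit 13452) (nat_lit 6) (nat_lit 177) (nat_lit 5) (nat_lit 160) (nat_lit 217) (nat_lit 223))) (PT.nd (nat_lit 78) (PT.lf (nat_lit 13832) (nat_lit 6) (nat_lit 182) (nat_lit 5) (nat_lit 161) (nat_lit 217) (nat_lit 222)) (PT.lf (nat_lit 14212) (nat_lit 6) (nat_lit 187) (nat_lit 5) (nat_lit 162) (nat_lit 217) (nat_lit 221)))) (PT.nd (nat_lit 156) (PT.nd (nat_lit 78) (PT.lf (nat_lit 14592) (nat_lit 6) (nat_lit 192) (nat_lit 5) (nat_lit 163) (nat_lit 217) (nat_lit 220)) (PT.lf (nat_lit 14972) (nat_lit 6)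 (nat_lit 197) (nat_lit 5) (nat_lit 164) (nat_lit 217) (nat_lit 219))) (PT.nd (nat_lit 78) (PT.lf (nat_lit 15352) (nat_lit 6) (nat_lit 202) (nat_lit 5) (nat_lit 165) (nat_lit 217) (nat_lit 218)) (PT.lf (nat_lit 15732) (nat_lit 3) (nat_lit 207) (nat_lit 4) (nat_lit 166) (nat_lit 217) (nat_lit 217))))) (PT.nd (nat_lit 312) (PT.nd (nat_lit 156) (PT.nd (nat_lit 78) (PT.lf (nat_lit 16112) (nat_lit 6) (nat_lit 212) (nat_lit 4) (nat_lit 167) (nat_lit 217) (nat_lit 216)) (PT.lf (nat_lit 16492) (nat_lit 6) (nat_lit 217) (nat_lit 4) (nat_lit 168) (nat_lit 217) (nat_lit 215))) (PT.nd (nat_lit 78) (PT.lf (nat_lit 16872) (nat_lit 6) (nat_lit 222) (nat_lit 4) (nat_lit 169) (nat_lit 217) (nat_lit 214)) (PT.lf (nat_lit 17252) (nat_lit 6) (nat_lit 227) (nat_lit 4) (nat_lit 170) (nat_lit 217) (nat_lit 213)))) (PT.nd (nat_lit 156) (PT.nd (nat_lit 78) (PT.lf (nat_lit 17708) (nat_lit 6) (nat_lit 233) (nat_lit 4) (nat_lit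 171) (nat_lit 217) (nat_lit 212)) (PT.lf (nat_lit 18088) (nat_lit 6) (nat_lit 238) (nat_lit 4) (nat_lit 172) (nat_lit 217) (nat_lit 211))) (PT.nd (nat_lit 78) (PT.lf (nat_lit 18544) (nat_lit 6) (nat_lit 244) (nat_lit 4) (nat_lit 173) (nat_lit 217) (nat_lit 210)) (PT.nd (nat_lit 78) (PT.lf (nat_lit 19000) (nat_lit 6) (nat_lit 250) (nat_lit 4) (nat_lit 174) (nat_lit 217) (nat_lit 209)) (PT.lf (nat_lit 19456) (nat_lit 6) (nat_lit 256) (nat_lit 4) (nat_lit 175) (nat_lit 217) (nat_lit 208))))))))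
noncomputable def pc50 : PT := (PT.nd (nat_lit 2184) (PT.nd (nat_lit 624) (PT.nd (nat_lit 312) (PT.nd (nat_lit 156) (PT.nd (nat_lit 78) (PT.lf (nat_lit 19912) (nat_lit 6) (nat_lit 262) (nat_lit 4) (nat_lit 176) (nat_lit 217) (nat_lit 207)) (PT.lf (nat_lit 20444) (nat_lit 6) (nat_lit 269) (nat_lit 4) (nat_lit 177) (nat_lit 217) (nat_lit 206))) (PT.nd (nat_lit 78) (PT.lf (nat_lit 20976) (nat_lit 6) (nat_lit 276) (nat_lit 4) (nat_lit 178) (nat_lit 217) (nat_lit 205)) (PT.lf (nat_lit 21584) (nat_lit 6) (nat_lit 284) (nat_lit 4) (nat_lit 179) (nat_lit 217) (nat_lit 204)))) (PT.nd (nat_lit 156) (PT.nd (nat_lit 78) (PT.lf (nat_lit 22116) (nat_lit 6) (nat_lit 291) (nat_lit 4) (nat_lit 180) (nat_lit 217) (nat_lit 203)) (PT.lf (nat_lit 22724) (nat_lit 6) (nat_lit 299) (nat_lit 4) (nat_lit 181) (nat_lit 217) (nat_lit 202))) (PT.nd (nat_lit 78) (PT.lf (nat_lit 23332) (nat_lit 6) (nat_lit 307) (nat_lit 4) (nat_lit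 182) (nat_lit 217) (nat_lit 201)) (PT.lf (nat_lit 24168) (nat_lit 6) (nat_lit 318) (nat_lit 4) (nat_lit 183) (nat_lit 217) (nat_lit 200))))) (PT.nd (nat_lit 1248) (PT.nd (nat_lit 1092) (PT.nd (nat_lit 78) (PT.lf (nat_lit 24092) (nat_lit 6) (nat_lit 317) (nat_lit 4) (nat_lit 184) (nat_lit 217) (nat_lit 199)) (PT.lf (nat_lit 24016) (nat_lit 6) (nat_lit 316) (nat_lit 4) (nat_lit 185) (nat_lit 217) (nat_lit 198))) (PT.nd (nat_lit 78) (PT.lf (nat_lit 24016) (nat_lit 6) (nat_lit 316) (nat_lit 2) (nat_lit 198) (nat_lit 217) (nat_lit 185)) (PT.lf (nat_lit 24092) (nat_lit 6) (nat_lit 317) (nat_lit 2) (nat_lit 199) (nat_lit 217) (nat_lit 184)))) (PT.nd (nat_lit 156) (PT.nd (nat_lit 78) (PT.lf (nat_lit 24168) (nat_lit 6) (nat_lit 318) (nat_lit 2) (nat_lit 200) (nat_lit 217) (nat_lit 183)) (PT.lf (nat_lit 23332) (nat_lit 6) (nat_lit 307) (nat_lit 2) (nat_lit 201) (nat_lit 217) (nat_lit 182))) (PT.nd (nat_lit 78)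 (PT.lf (nat_lit 22724) (nat_lit 6) (nat_lit 299) (nat_lit 2) (nat_lit 202) (nat_lit 217) (nat_lit 181)) (PT.lf (nat_lit 22116) (nat_lit 6) (nat_lit 291) (nat_lit 2) (nat_lit 203) (nat_lit 217) (nat_lit 180)))))) (PT.nd (nat_lit 624) (PT.nd (nat_lit 312) (PT.nd (nat_lit 156) (PT.nd (nat_lit 78) (PT.lf (nat_lit 21584) (nat_lit 6) (nat_lit 284) (nat_lit 2) (nat_lit 204) (nat_lit 217) (nat_lit 179)) (PT.lf (nat_lit 20976) (nat_lit 6) (nat_lit 276) (nat_lit 2) (nat_lit 205) (nat_lit 217) (nat_lit 178))) (PT.nd (nat_lit 78) (PT.lf (nat_lit 20444) (nat_lit 6) (nat_lit 269) (nat_lit 2) (nat_lit 206) (nat_lit 217) (nat_lit 177)) (PT.lf (nat_lit 19912) (nat_lit 6) (nat_lit 262) (nat_lit 2) (nat_lit 207) (nat_lit 217) (nat_lit 176)))) (PT.nd (nat_lit 156) (PT.nd (nat_lit 78) (PT.lf (nat_lit 19456) (nat_lit 6) (nat_lit 256) (nat_lit 2) (nat_lit 208) (nat_lit 217) (nat_lit 175)) (PT.lf (nat_lit 19000) (nat_lit 6)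 (nat_lit 250) (nat_lit 2) (nat_lit 209) (nat_lit 217) (nat_lit 174))) (PT.nd (nat_lit 78) (PT.lf (nat_lit 18544) (nat_lit 6) (nat_lit 244) (nat_lit 2) (nat_lit 210) (nat_lit 217) (nat_lit 173)) (PT.lf (nat_lit 18088) (nat_lit 6) (nat_lit 238) (nat_lit 2) (nat_lit 211) (nat_lit 217) (nat_lit 172))))) (PT.nd (nat_lit 312) (PT.nd (nat_lit 156) (PT.nd (nat_lit 78) (PT.lf (nat_lit 17708) (nat_lit 6) (nat_lit 233) (nat_lit 2) (nat_lit 212) (nat_lit 217) (nat_lit 171)) (PT.lf (nat_lit 17252) (nat_lit 6) (nat_lit 227) (nat_lit 2) (nat_lit 213) (nat_lit 217) (nat_lit 170))) (PT.nd (nat_lit 78) (PT.lf (nat_lit 16872) (nat_lit 6) (nat_lit 222) (nat_lit 2) (nat_lit 214) (nat_lit 217) (nat_lit 169)) (PT.lf (nat_lit 16492) (nat_lit 6) (nat_lit 217) (nat_lit 2) (nat_lit 215) (nat_lit 217) (nat_lit 168)))) (PT.nd (nat_lit 156) (PT.nd (nat_lit 78) (PT.lf (nat_lit 16112) (nat_lit 6) (nat_lit 212) (nat_lit 2) (nat_lit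 216) (nat_lit 217) (nat_lit 167)) (PT.lf (nat_lit 15732) (nat_lit 3) (nat_lit 207) (nat_lit 0) (nat_lit 217) (nat_lit 217) (nat_lit 166))) (PT.nd (nat_lit 78) (PT.lf (nat_lit 15352) (nat_lit 6) (nat_lit 202) (nat_lit 0) (nat_lit 218) (nat_lit 217) (nat_lit 165)) (PT.nd (nat_lit 78) (PT.lf (nat_lit 14972) (nat_lit 6) (nat_lit 197) (nat_lit 0) (nat_lit 219) (nat_lit 217) (nat_lit 164)) (PT.lf (nat_lit 14592) (nat_lit 6) (nat_lit 192) (nat_lit 0) (nat_lit 220) (nat_lit 217) (nat_lit 163))))))))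
noncomputable def pc51 : PT := (PT.nd (nat_lit 58578) (PT.nd (nat_lit 57876) (PT.nd (nat_lit 57564) (PT.nd (nat_lit 156) (PT.nd (nat_lit 78) (PT.lf (nat_lit 14212) (nat_lit 6) (nat_lit 187) (nat_lit 0) (nat_lit 221) (nat_lit 217) (nat_lit 162)) (PT.lf (nat_lit 13832) (nat_lit 6) (nat_lit 182) (nat_lit 0) (nat_lit 222) (nat_lit 217) (nat_lit 161))) (PT.nd (nat_lit 78) (PT.lf (nat_lit 13452) (nat_lit 6) (nat_lit 177) (nat_lit 0) (nat_lit 223) (nat_lit 217) (nat_lit 160)) (PT.lf (nat_lit 13148) (nat_lit 6) (nat_lit 173) (nat_lit 0) (nat_lit 224) (nat_lit 217) (nat_lit 159)))) (PT.nd (nat_lit 156) (PT.nd (nat_lit 78) (PT.lf (nat_lit 12844) (nat_lit 6) (nat_lit 169) (nat_lit 5) (nat_lit 158) (nat_lit 218) (nat_lit 224)) (PT.lf (nat_lit 13224) (nat_lit 6) (nat_lit 174) (nat_lit 5) (nat_lit 159) (nat_lit 218) (nat_lit 223))) (PT.nd (nat_lit 78) (PT.lf (nat_lit 13528) (nat_lit 6) (nat_lit 178) (nat_lit 5) (nat_lit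 160) (nat_lit 218) (nat_lit 222)) (PT.lf (nat_lit 13908) (nat_lit 6) (nat_lit 183) (nat_lit 5) (nat_lit 161) (nat_lit 218) (nat_lit 221))))) (PT.nd (nat_lit 312) (PT.nd (nat_lit 156) (PT.nd (nat_lit 78) (PT.lf (nat_lit 14288) (nat_lit 6) (nat_lit 188) (nat_lit 5) (nat_lit 162) (nat_lit 218) (nat_lit 220)) (PT.lf (nat_lit 14668) (nat_lit 6) (nat_lit 193) (nat_lit 5) (nat_lit 163) (nat_lit 218) (nat_lit 219))) (PT.nd (nat_lit 78) (PT.lf (nat_lit 15048) (nat_lit 3) (nat_lit 198) (nat_lit 4) (nat_lit 164) (nat_lit 218) (nat_lit 218)) (PT.lf (nat_lit 15352) (nat_lit 6) (nat_lit 202) (nat_lit 4) (nat_lit 165) (nat_lit 218) (nat_lit 217)))) (PT.nd (nat_lit 156) (PT.nd (nat_lit 78) (PT.lf (nat_lit 15656) (nat_lit 6) (nat_lit 206) (nat_lit 4) (nat_lit 166) (nat_lit 218) (nat_lit 216)) (PT.lf (nat_lit 16036) (nat_lit 6) (nat_lit 211) (nat_lit 4) (nat_lit 167) (nat_lit 218) (nat_lit 215))) (PT.nd (nat_lit 78)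 (PT.lf (nat_lit 16416) (nat_lit 6) (nat_lit 216) (nat_lit 4) (nat_lit 168) (nat_lit 218) (nat_lit 214)) (PT.nd (nat_lit 78) (PT.lf (nat_lit 16796) (nat_lit 6) (nat_lit 221) (nat_lit 4) (nat_lit 169) (nat_lit 218) (nat_lit 213)) (PT.lf (nat_lit 17176) (nat_lit 6) (nat_lit 226) (nat_lit 4) (nat_lit 170) (nat_lit 218) (nat_lit 212))))))) (PT.nd (nat_lit 624) (PT.nd (nat_lit 312) (PT.nd (nat_lit 156) (PT.nd (nat_lit 78) (PT.lf (nat_lit 17632) (nat_lit 6) (nat_lit 232) (nat_lit 4) (nat_lit 171) (nat_lit 218) (nat_lit 211)) (PT.lf (nat_lit 18012) (nat_lit 6) (nat_lit 237) (nat_lit 4) (nat_lit 172) (nat_lit 218) (nat_lit 210))) (PT.nd (nat_lit 78) (PT.lf (nat_lit 18468) (nat_lit 6) (nat_lit 243) (nat_lit 4) (nat_lit 173) (nat_lit 218) (nat_lit 209)) (PT.lf (nat_lit 18924) (nat_lit 6) (nat_lit 249) (nat_lit 4) (nat_lit 174) (nat_lit 218) (nat_lit 208)))) (PT.nd (nat_lit 156) (PT.nd (nat_lit 78) (PT.lf (nat_lit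 19380) (nat_lit 6) (nat_lit 255) (nat_lit 4) (nat_lit 175) (nat_lit 218) (nat_lit 207)) (PT.lf (nat_lit 19836) (nat_lit 6) (nat_lit 261) (nat_lit 4) (nat_lit 176) (nat_lit 218) (nat_lit 206))) (PT.nd (nat_lit 78) (PT.lf (nat_lit 20368) (nat_lit 6) (nat_lit 268) (nat_lit 4) (nat_lit 177) (nat_lit 218) (nat_lit 205)) (PT.lf (nat_lit 20900) (nat_lit 6) (nat_lit 275) (nat_lit 4) (nat_lit 178) (nat_lit 218) (nat_lit 204))))) (PT.nd (nat_lit 2106) (PT.nd (nat_lit 1950) (PT.nd (nat_lit 1872) (PT.lf (nat_lit 21508) (nat_lit 6) (nat_lit 283) (nat_lit 4) (nat_lit 179) (nat_lit 218) (nat_lit 203)) (PT.lf (nat_lit 21508) (nat_lit 6) (nat_lit 283) (nat_lit 2) (nat_lit 203) (nat_lit 218) (nat_lit 179))) (PT.nd (nat_lit 78) (PT.lf (nat_lit 20900) (nat_lit 6) (nat_lit 275) (nat_lit 2) (nat_lit 204) (nat_lit 218) (nat_lit 178)) (PT.lf (nat_lit 20368) (nat_lit 6) (nat_lit 268) (nat_lit 2) (nat_lit 205) (nat_lit 218)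 (nat_lit 177)))) (PT.nd (nat_lit 156) (PT.nd (nat_lit 78) (PT.lf (nat_lit 19836) (nat_lit 6) (nat_lit 261) (nat_lit 2) (nat_lit 206) (nat_lit 218) (nat_lit 176)) (PT.lf (nat_lit 19380) (nat_lit 6) (nat_lit 255) (nat_lit 2) (nat_lit 207) (nat_lit 218) (nat_lit 175))) (PT.nd (nat_lit 78) (PT.lf (nat_lit 18924) (nat_lit 6) (nat_lit 249) (nat_lit 2) (nat_lit 208) (nat_lit 218) (nat_lit 174)) (PT.nd (nat_lit 78) (PT.lf (nat_lit 18468) (nat_lit 6) (nat_lit 243) (nat_lit 2) (nat_lit 209) (nat_lit 218) (nat_lit 173)) (PT.lf (nat_lit 18012) (nat_lit 6) (nat_lit 237) (nat_lit 2) (nat_lit 210) (nat_lit 218) (nat_lit 172))))))))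
noncomputable def pc52 : PT := (PT.nd (nat_lit 58344) (PT.nd (nat_lit 624) (PT.nd (nat_lit 312) (PT.nd (nat_lit 156) (PT.nd (nat_lit 78) (PT.lf (nat_lit 17632) (nat_lit 6) (nat_lit 232) (nat_lit 2) (nat_lit 211) (nat_lit 218) (nat_lit 171)) (PT.lf (nat_lit 17176) (nat_lit 6) (nat_lit 226) (nat_lit 2) (nat_lit 212) (nat_lit 218) (nat_lit 170))) (PT.nd (nat_lit 78) (PT.lf (nat_lit 16796) (nat_lit 6) (nat_lit 221) (nat_lit 2) (nat_lit 213) (nat_lit 218) (nat_lit 169)) (PT.lf (nat_lit 16416) (nat_lit 6) (nat_lit 216) (nat_lit 2) (nat_lit 214) (nat_lit 218) (nat_lit 168)))) (PT.nd (nat_lit 156) (PT.nd (nat_lit 78) (PT.lf (nat_lit 16036) (nat_lit 6) (nat_lit 211) (nat_lit 2) (nat_lit 215) (nat_lit 218) (nat_lit 167)) (PT.lf (nat_lit 15656) (nat_lit 6) (nat_lit 206) (nat_lit 2) (nat_lit 216) (nat_lit 218) (nat_lit 166))) (PT.nd (nat_lit 78) (PT.lf (nat_lit 15352) (nat_lit 6) (nat_lit 202) (nat_lit 2) (nat_lit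 217) (nat_lit 218) (nat_lit 165)) (PT.lf (nat_lit 15048) (nat_lit 3) (nat_lit 198) (nat_lit 0) (nat_lit 218) (nat_lit 218) (nat_lit 164))))) (PT.nd (nat_lit 312) (PT.nd (nat_lit 156) (PT.nd (nat_lit 78) (PT.lf (nat_lit 14668) (nat_lit 6) (nat_lit 193) (nat_lit 0) (nat_lit 219) (nat_lit 218) (nat_lit 163)) (PT.lf (nat_lit 14288) (nat_lit 6) (nat_lit 188) (nat_lit 0) (nat_lit 220) (nat_lit 218) (nat_lit 162))) (PT.nd (nat_lit 78) (PT.lf (nat_lit 13908) (nat_lit 6) (nat_lit 183) (nat_lit 0) (nat_lit 221) (nat_lit 218) (nat_lit 161)) (PT.lf (nat_lit 13528) (nat_lit 6) (nat_lit 178) (nat_lit 0) (nat_lit 222) (nat_lit 218) (nat_lit 160)))) (PT.nd (nat_lit 57252) (PT.nd (nat_lit 78) (PT.lf (nat_lit 13224) (nat_lit 6) (nat_lit 174) (nat_lit 0) (nat_lit 223) (nat_lit 218) (nat_lit 159)) (PT.lf (nat_lit 12844) (nat_lit 6) (nat_lit 169) (nat_lit 0) (nat_lit 224) (nat_lit 218) (nat_lit 158))) (PT.nd (nat_lit 78)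 (PT.lf (nat_lit 12312) (nat_lit 6) (nat_lit 162) (nat_lit 5) (nat_lit 156) (nat_lit 219) (nat_lit 225)) (PT.lf (nat_lit 12616) (nat_lit 6) (nat_lit 166) (nat_lit 5) (nat_lit 157) (nat_lit 219) (nat_lit 224)))))) (PT.nd (nat_lit 624) (PT.nd (nat_lit 312) (PT.nd (nat_lit 156) (PT.nd (nat_lit 78) (PT.lf (nat_lit 12920) (nat_lit 6) (nat_lit 170) (nat_lit 5) (nat_lit 158) (nat_lit 219) (nat_lit 223)) (PT.lf (nat_lit 13300) (nat_lit 6) (nat_lit 175) (nat_lit 5) (nat_lit 159) (nat_lit 219) (nat_lit 222))) (PT.nd (nat_lit 78) (PT.lf (nat_lit 13604) (nat_lit 6) (nat_lit 179) (nat_lit 5) (nat_lit 160) (nat_lit 219) (nat_lit 221)) (PT.lf (nat_lit 13984) (nat_lit 6) (nat_lit 184) (nat_lit 5) (nat_lit 161) (nat_lit 219) (nat_lit 220)))) (PT.nd (nat_lit 156) (PT.nd (nat_lit 78) (PT.lf (nat_lit 14364) (nat_lit 3) (nat_lit 189) (nat_lit 4) (nat_lit 162) (nat_lit 219) (nat_lit 219)) (PT.lf (nat_lit 14668) (nat_lit 6)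 (nat_lit 193) (nat_lit 4) (nat_lit 163) (nat_lit 219) (nat_lit 218))) (PT.nd (nat_lit 78) (PT.lf (nat_lit 14972) (nat_lit 6) (nat_lit 197) (nat_lit 4) (nat_lit 164) (nat_lit 219) (nat_lit 217)) (PT.lf (nat_lit 15276) (nat_lit 6) (nat_lit 201) (nat_lit 4) (nat_lit 165) (nat_lit 219) (nat_lit 216))))) (PT.nd (nat_lit 312) (PT.nd (nat_lit 156) (PT.nd (nat_lit 78) (PT.lf (nat_lit 15580) (nat_lit 6) (nat_lit 205) (nat_lit 4) (nat_lit 166) (nat_lit 219) (nat_lit 215)) (PT.lf (nat_lit 15960) (nat_lit 6) (nat_lit 210) (nat_lit 4) (nat_lit 167) (nat_lit 219) (nat_lit 214))) (PT.nd (nat_lit 78) (PT.lf (nat_lit 16340) (nat_lit 6) (nat_lit 215) (nat_lit 4) (nat_lit 168) (nat_lit 219) (nat_lit 213)) (PT.lf (nat_lit 16720) (nat_lit 6) (nat_lit 220) (nat_lit 4) (nat_lit 169) (nat_lit 219) (nat_lit 212)))) (PT.nd (nat_lit 156) (PT.nd (nat_lit 78) (PT.lf (nat_lit 17100) (nat_lit 6) (nat_lit 225) (nat_lit 4) (nat_lit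 170) (nat_lit 219) (nat_lit 211)) (PT.lf (nat_lit 17556) (nat_lit 6) (nat_lit 231) (nat_lit 4) (nat_lit 171) (nat_lit 219) (nat_lit 210))) (PT.nd (nat_lit 78) (PT.lf (nat_lit 17936) (nat_lit 6) (nat_lit 236) (nat_lit 4) (nat_lit 172) (nat_lit 219) (nat_lit 209)) (PT.nd (nat_lit 78) (PT.lf (nat_lit 18392) (nat_lit 6) (nat_lit 242) (nat_lit 4) (nat_lit 173) (nat_lit 219) (nat_lit 208)) (PT.lf (nat_lit 18848) (nat_lit 6) (nat_lit 248) (nat_lit 4) (nat_lit 174) (nat_lit 219) (nat_lit 207))))))))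
noncomputable def pc53 : PT := (PT.nd (nat_lit 1326) (PT.nd (nat_lit 624) (PT.nd (nat_lit 312) (PT.nd (nat_lit 156) (PT.nd (nat_lit 78) (PT.lf (nat_lit 18848) (nat_lit 6) (nat_lit 248) (nat_lit 2) (nat_lit 207) (nat_lit 219) (nat_lit 174)) (PT.lf (nat_lit 18392) (nat_lit 6) (nat_lit 242) (nat_lit 2) (nat_lit 208) (nat_lit 219) (nat_lit 173))) (PT.nd (nat_lit 78) (PT.lf (nat_lit 17936) (nat_lit 6) (nat_lit 236) (nat_lit 2) (nat_lit 209) (nat_lit 219) (nat_lit 172)) (PT.lf (nat_lit 17556) (nat_lit 6) (nat_lit 231) (nat_lit 2) (nat_lit 210) (nat_lit 219) (nat_lit 171)))) (PT.nd (nat_lit 156) (PT.nd (nat_lit 78) (PT.lf (nat_lit 17100) (nat_lit 6) (nat_lit 225) (nat_lit 2) (nat_lit 211) (nat_lit 219) (nat_lit 170)) (PT.lf (nat_lit 16720) (nat_lit 6) (nat_lit 220) (nat_lit 2) (nat_lit 212) (nat_lit 219) (nat_lit 169))) (PT.nd (nat_lit 78) (PT.lf (nat_lit 16340) (nat_lit 6) (nat_lit 215) (nat_lit 2) (nat_lit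 213) (nat_lit 219) (nat_lit 168)) (PT.lf (nat_lit 15960) (nat_lit 6) (nat_lit 210) (nat_lit 2) (nat_lit 214) (nat_lit 219) (nat_lit 167))))) (PT.nd (nat_lit 312) (PT.nd (nat_lit 156) (PT.nd (nat_lit 78) (PT.lf (nat_lit 15580) (nat_lit 6) (nat_lit 205) (nat_lit 2) (nat_lit 215) (nat_lit 219) (nat_lit 166)) (PT.lf (nat_lit 15276) (nat_lit 6) (nat_lit 201) (nat_lit 2) (nat_lit 216) (nat_lit 219) (nat_lit 165))) (PT.nd (nat_lit 78) (PT.lf (nat_lit 14972) (nat_lit 6) (nat_lit 197) (nat_lit 2) (nat_lit 217) (nat_lit 219) (nat_lit 164)) (PT.lf (nat_lit 14668) (nat_lit 6) (nat_lit 193) (nat_lit 2) (nat_lit 218) (nat_lit 219) (nat_lit 163)))) (PT.nd (nat_lit 156) (PT.nd (nat_lit 78) (PT.lf (nat_lit 14364) (nat_lit 3) (nat_lit 189) (nat_lit 0) (nat_lit 219) (nat_lit 219) (nat_lit 162)) (PT.lf (nat_lit 13984) (nat_lit 6) (nat_lit 184) (nat_lit 0) (nat_lit 220) (nat_lit 219) (nat_lit 161))) (PT.nd (nat_lit 78)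 (PT.lf (nat_lit 13604) (nat_lit 6) (nat_lit 179) (nat_lit 0) (nat_lit 221) (nat_lit 219) (nat_lit 160)) (PT.nd (nat_lit 78) (PT.lf (nat_lit 13300) (nat_lit 6) (nat_lit 175) (nat_lit 0) (nat_lit 222) (nat_lit 219) (nat_lit 159)) (PT.lf (nat_lit 12920) (nat_lit 6) (nat_lit 170) (nat_lit 0) (nat_lit 223) (nat_lit 219) (nat_lit 158))))))) (PT.nd (nat_lit 57486) (PT.nd (nat_lit 57174) (PT.nd (nat_lit 57018) (PT.nd (nat_lit 78) (PT.lf (nat_lit 12616) (nat_lit 6) (nat_lit 166) (nat_lit 0) (nat_lit 224) (nat_lit 219) (nat_lit 157)) (PT.lf (nat_lit 12312) (nat_lit 6) (nat_lit 162) (nat_lit 0) (nat_lit 225) (nat_lit 219) (nat_lit 156))) (PT.nd (nat_lit 78) (PT.lf (nat_lit 11780) (nat_lit 6) (nat_lit 155) (nat_lit 5) (nat_lit 154) (nat_lit 220) (nat_lit 226)) (PT.lf (nat_lit 12084) (nat_lit 6) (nat_lit 159) (nat_lit 5) (nat_lit 155) (nat_lit 220) (nat_lit 225)))) (PT.nd (nat_lit 156) (PT.nd (nat_lit 78) (PT.lf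 (nat_lit 12388) (nat_lit 6) (nat_lit 163) (nat_lit 5) (nat_lit 156) (nat_lit 220) (nat_lit 224)) (PT.lf (nat_lit 12692) (nat_lit 6) (nat_lit 167) (nat_lit 5) (nat_lit 157) (nat_lit 220) (nat_lit 223))) (PT.nd (nat_lit 78) (PT.lf (nat_lit 12996) (nat_lit 6) (nat_lit 171) (nat_lit 5) (nat_lit 158) (nat_lit 220) (nat_lit 222)) (PT.lf (nat_lit 13376) (nat_lit 6) (nat_lit 176) (nat_lit 5) (nat_lit 159) (nat_lit 220) (nat_lit 221))))) (PT.nd (nat_lit 312) (PT.nd (nat_lit 156) (PT.nd (nat_lit 78) (PT.lf (nat_lit 13680) (nat_lit 3) (nat_lit 180) (nat_lit 4) (nat_lit 160) (nat_lit 220) (nat_lit 220)) (PT.lf (nat_lit 13984) (nat_lit 6) (nat_lit 184) (nat_lit 4) (nat_lit 161) (nat_lit 220) (nat_lit 219))) (PT.nd (nat_lit 78) (PT.lf (nat_lit 14288) (nat_lit 6) (nat_lit 188) (nat_lit 4) (nat_lit 162) (nat_lit 220) (nat_lit 218)) (PT.lf (nat_lit 14592) (nat_lit 6) (nat_lit 192) (nat_lit 4) (nat_lit 163) (nat_lit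 220) (nat_lit 217)))) (PT.nd (nat_lit 156) (PT.nd (nat_lit 78) (PT.lf (nat_lit 14896) (nat_lit 6) (nat_lit 196) (nat_lit 4) (nat_lit 164) (nat_lit 220) (nat_lit 216)) (PT.lf (nat_lit 15200) (nat_lit 6) (nat_lit 200) (nat_lit 4) (nat_lit 165) (nat_lit 220) (nat_lit 215))) (PT.nd (nat_lit 78) (PT.lf (nat_lit 15504) (nat_lit 6) (nat_lit 204) (nat_lit 4) (nat_lit 166) (nat_lit 220) (nat_lit 214)) (PT.nd (nat_lit 78) (PT.lf (nat_lit 15884) (nat_lit 6) (nat_lit 209) (nat_lit 4) (nat_lit 167) (nat_lit 220) (nat_lit 213)) (PT.lf (nat_lit 16264) (nat_lit 6) (nat_lit 214) (nat_lit 4) (nat_lit 168) (nat_lit 220) (nat_lit 212))))))))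
noncomputable def pc54 : PT := (PT.nd (nat_lit 4134) (PT.nd (nat_lit 3510) (PT.nd (nat_lit 3198) (PT.nd (nat_lit 156) (PT.nd (nat_lit 78) (PT.lf (nat_lit 16644) (nat_lit 6) (nat_lit 219) (nat_lit 4) (nat_lit 169) (nat_lit 220) (nat_lit 211)) (PT.lf (nat_lit 17024) (nat_lit 6) (nat_lit 224) (nat_lit 4) (nat_lit 170) (nat_lit 220) (nat_lit 210))) (PT.nd (nat_lit 2964) (PT.lf (nat_lit 17480) (nat_lit 6) (nat_lit 230) (nat_lit 4) (nat_lit 171) (nat_lit 220) (nat_lit 209)) (PT.lf (nat_lit 17480) (nat_lit 6) (nat_lit 230) (nat_lit 2) (nat_lit 209) (nat_lit 220) (nat_lit 171)))) (PT.nd (nat_lit 156) (PT.nd (nat_lit 78) (PT.lf (nat_lit 17024) (nat_lit 6) (nat_lit 224) (nat_lit 2) (nat_lit 210) (nat_lit 220) (nat_lit 170)) (PT.lf (nat_lit 16644) (nat_lit 6) (nat_lit 219) (nat_lit 2) (nat_lit 211) (nat_lit 220) (nat_lit 169))) (PT.nd (nat_lit 78) (PT.lf (nat_lit 16264) (nat_lit 6) (nat_lit 214) (nat_lit 2) (nat_lit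 212) (nat_lit 220) (nat_lit 168)) (PT.lf (nat_lit 15884) (nat_lit 6) (nat_lit 209) (nat_lit 2) (nat_lit 213) (nat_lit 220) (nat_lit 167))))) (PT.nd (nat_lit 312) (PT.nd (nat_lit 156) (PT.nd (nat_lit 78) (PT.lf (nat_lit 15504) (nat_lit 6) (nat_lit 204) (nat_lit 2) (nat_lit 214) (nat_lit 220) (nat_lit 166)) (PT.lf (nat_lit 15200) (nat_lit 6) (nat_lit 200) (nat_lit 2) (nat_lit 215) (nat_lit 220) (nat_lit 165))) (PT.nd (nat_lit 78) (PT.lf (nat_lit 14896) (nat_lit 6) (nat_lit 196) (nat_lit 2) (nat_lit 216) (nat_lit 220) (nat_lit 164)) (PT.lf (nat_lit 14592) (nat_lit 6) (nat_lit 192) (nat_lit 2) (nat_lit 217) (nat_lit 220) (nat_lit 163)))) (PT.nd (nat_lit 156) (PT.nd (nat_lit 78) (PT.lf (nat_lit 14288) (nat_lit 6) (nat_lit 188) (nat_lit 2) (nat_lit 218) (nat_lit 220) (nat_lit 162)) (PT.lf (nat_lit 13984) (nat_lit 6) (nat_lit 184) (nat_lit 2) (nat_lit 219) (nat_lit 220) (nat_lit 161))) (PT.nd (nat_lit 78)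 (PT.lf (nat_lit 13680) (nat_lit 3) (nat_lit 180) (nat_lit 0) (nat_lit 220) (nat_lit 220) (nat_lit 160)) (PT.lf (nat_lit 13376) (nat_lit 6) (nat_lit 176) (nat_lit 0) (nat_lit 221) (nat_lit 220) (nat_lit 159)))))) (PT.nd (nat_lit 57330) (PT.nd (nat_lit 312) (PT.nd (nat_lit 156) (PT.nd (nat_lit 78) (PT.lf (nat_lit 12996) (nat_lit 6) (nat_lit 171) (nat_lit 0) (nat_lit 222) (nat_lit 220) (nat_lit 158)) (PT.lf (nat_lit 12692) (nat_lit 6) (nat_lit 167) (nat_lit 0) (nat_lit 223) (nat_lit 220) (nat_lit 157))) (PT.nd (nat_lit 78) (PT.lf (nat_lit 12388) (nat_lit 6) (nat_lit 163) (nat_lit 0) (nat_lit 224) (nat_lit 220) (nat_lit 156)) (PT.lf (nat_lit 12084) (nat_lit 6) (nat_lit 159) (nat_lit 0) (nat_lit 225) (nat_lit 220) (nat_lit 155)))) (PT.nd (nat_lit 56862) (PT.nd (nat_lit 56784) (PT.lf (nat_lit 11780) (nat_lit 6) (nat_lit 155) (nat_lit 0) (nat_lit 226) (nat_lit 220) (nat_lit 154)) (PT.lf (nat_lit 11552) (nat_lit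 6) (nat_lit 152) (nat_lit 5) (nat_lit 153) (nat_lit 221) (nat_lit 226))) (PT.nd (nat_lit 78) (PT.lf (nat_lit 11856) (nat_lit 6) (nat_lit 156) (nat_lit 5) (nat_lit 154) (nat_lit 221) (nat_lit 225)) (PT.lf (nat_lit 12160) (nat_lit 6) (nat_lit 160) (nat_lit 5) (nat_lit 155) (nat_lit 221) (nat_lit 224))))) (PT.nd (nat_lit 312) (PT.nd (nat_lit 156) (PT.nd (nat_lit 78) (PT.lf (nat_lit 12464) (nat_lit 6) (nat_lit 164) (nat_lit 5) (nat_lit 156) (nat_lit 221) (nat_lit 223)) (PT.lf (nat_lit 12768) (nat_lit 6) (nat_lit 168) (nat_lit 5) (nat_lit 157) (nat_lit 221) (nat_lit 222))) (PT.nd (nat_lit 78) (PT.lf (nat_lit 13072) (nat_lit 3) (nat_lit 172) (nat_lit 4) (nat_lit 158) (nat_lit 221) (nat_lit 221)) (PT.lf (nat_lit 13376) (nat_lit 6) (nat_lit 176) (nat_lit 4) (nat_lit 159) (nat_lit 221) (nat_lit 220)))) (PT.nd (nat_lit 156) (PT.nd (nat_lit 78) (PT.lf (nat_lit 13604) (nat_lit 6) (nat_lit 179) (nat_lit 4) (nat_lit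 160) (nat_lit 221) (nat_lit 219)) (PT.lf (nat_lit 13908) (nat_lit 6) (nat_lit 183) (nat_lit 4) (nat_lit 161) (nat_lit 221) (nat_lit 218))) (PT.nd (nat_lit 78) (PT.lf (nat_lit 14212) (nat_lit 6) (nat_lit 187) (nat_lit 4) (nat_lit 162) (nat_lit 221) (nat_lit 217)) (PT.nd (nat_lit 78) (PT.lf (nat_lit 14516) (nat_lit 6) (nat_lit 191) (nat_lit 4) (nat_lit 163) (nat_lit 221) (nat_lit 216)) (PT.lf (nat_lit 14820) (nat_lit 6) (nat_lit 195) (nat_lit 4) (nat_lit 164) (nat_lit 221) (nat_lit 215))))))))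
noncomputable def pc55 : PT := (PT.nd (nat_lit 4758) (PT.nd (nat_lit 4056) (PT.nd (nat_lit 3744) (PT.nd (nat_lit 156) (PT.nd (nat_lit 78) (PT.lf (nat_lit 15124) (nat_lit 6) (nat_lit 199) (nat_lit 4) (nat_lit 165) (nat_lit 221) (nat_lit 214)) (PT.lf (nat_lit 15428) (nat_lit 6) (nat_lit 203) (nat_lit 4) (nat_lit 166) (nat_lit 221) (nat_lit 213))) (PT.nd (nat_lit 3510) (PT.lf (nat_lit 15808) (nat_lit 6) (nat_lit 208) (nat_lit 4) (nat_lit 167) (nat_lit 221) (nat_lit 212)) (PT.lf (nat_lit 15808) (nat_lit 6) (nat_lit 208) (nat_lit 2) (nat_lit 212) (nat_lit 221) (nat_lit 167)))) (PT.nd (nat_lit 156) (PT.nd (nat_lit 78) (PT.lf (nat_lit 15428) (nat_lit 6) (nat_lit 203) (nat_lit 2) (nat_lit 213) (nat_lit 221) (nat_lit 166)) (PT.lf (nat_lit 15124) (nat_lit 6) (nat_lit 199) (nat_lit 2) (nat_lit 214) (nat_lit 221) (nat_lit 165))) (PT.nd (nat_lit 78) (PT.lf (nat_lit 14820) (nat_lit 6) (nat_lit 195) (nat_lit 2) (nat_lit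 215) (nat_lit 221) (nat_lit 164)) (PT.lf (nat_lit 14516) (nat_lit 6) (nat_lit 191) (nat_lit 2) (nat_lit 216) (nat_lit 221) (nat_lit 163))))) (PT.nd (nat_lit 312) (PT.nd (nat_lit 156) (PT.nd (nat_lit 78) (PT.lf (nat_lit 14212) (nat_lit 6) (nat_lit 187) (nat_lit 2) (nat_lit 217) (nat_lit 221) (nat_lit 162)) (PT.lf (nat_lit 13908) (nat_lit 6) (nat_lit 183) (nat_lit 2) (nat_lit 218) (nat_lit 221) (nat_lit 161))) (PT.nd (nat_lit 78) (PT.lf (nat_lit 13604) (nat_lit 6) (nat_lit 179) (nat_lit 2) (nat_lit 219) (nat_lit 221) (nat_lit 160)) (PT.lf (nat_lit 13376) (nat_lit 6) (nat_lit 176) (nat_lit 2) (nat_lit 220) (nat_lit 221) (nat_lit 159)))) (PT.nd (nat_lit 156) (PT.nd (nat_lit 78) (PT.lf (nat_lit 13072) (nat_lit 3) (nat_lit 172) (nat_lit 0) (nat_lit 221) (nat_lit 221) (nat_lit 158)) (PT.lf (nat_lit 12768) (nat_lit 6) (nat_lit 168) (nat_lit 0) (nat_lit 222) (nat_lit 221) (nat_lit 157))) (PT.nd (nat_lit 78)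 (PT.lf (nat_lit 12464) (nat_lit 6) (nat_lit 164) (nat_lit 0) (nat_lit 223) (nat_lit 221) (nat_lit 156)) (PT.nd (nat_lit 78) (PT.lf (nat_lit 12160) (nat_lit 6) (nat_lit 160) (nat_lit 0) (nat_lit 224) (nat_lit 221) (nat_lit 155)) (PT.lf (nat_lit 11856) (nat_lit 6) (nat_lit 156) (nat_lit 0) (nat_lit 225) (nat_lit 221) (nat_lit 154))))))) (PT.nd (nat_lit 57174) (PT.nd (nat_lit 56862) (PT.nd (nat_lit 56706) (PT.nd (nat_lit 56628) (PT.lf (nat_lit 11552) (nat_lit 6) (nat_lit 152) (nat_lit 0) (nat_lit 226) (nat_lit 221) (nat_lit 153)) (PT.lf (nat_lit 11096) (nat_lit 6) (nat_lit 146) (nat_lit 5) (nat_lit 151) (nat_lit 222) (nat_lit 227))) (PT.nd (nat_lit 78) (PT.lf (nat_lit 11324) (nat_lit 6) (nat_lit 149) (nat_lit 5) (nat_lit 152) (nat_lit 222) (nat_lit 226)) (PT.lf (nat_lit 11628) (nat_lit 6) (nat_lit 153) (nat_lit 5) (nat_lit 153) (nat_lit 222) (nat_lit 225)))) (PT.nd (nat_lit 156) (PT.nd (nat_lit 78) (PT.lf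 (nat_lit 11932) (nat_lit 6) (nat_lit 157) (nat_lit 5) (nat_lit 154) (nat_lit 222) (nat_lit 224)) (PT.lf (nat_lit 12236) (nat_lit 6) (nat_lit 161) (nat_lit 5) (nat_lit 155) (nat_lit 222) (nat_lit 223))) (PT.nd (nat_lit 78) (PT.lf (nat_lit 12540) (nat_lit 3) (nat_lit 165) (nat_lit 4) (nat_lit 156) (nat_lit 222) (nat_lit 222)) (PT.lf (nat_lit 12768) (nat_lit 6) (nat_lit 168) (nat_lit 4) (nat_lit 157) (nat_lit 222) (nat_lit 221))))) (PT.nd (nat_lit 312) (PT.nd (nat_lit 156) (PT.nd (nat_lit 78) (PT.lf (nat_lit 12996) (nat_lit 6) (nat_lit 171) (nat_lit 4) (nat_lit 158) (nat_lit 222) (nat_lit 220)) (PT.lf (nat_lit 13300) (nat_lit 6) (nat_lit 175) (nat_lit 4) (nat_lit 159) (nat_lit 222) (nat_lit 219))) (PT.nd (nat_lit 78) (PT.lf (nat_lit 13528) (nat_lit 6) (nat_lit 178) (nat_lit 4) (nat_lit 160) (nat_lit 222) (nat_lit 218)) (PT.lf (nat_lit 13832) (nat_lit 6) (nat_lit 182) (nat_lit 4) (nat_lit 161) (nat_lit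 222) (nat_lit 217)))) (PT.nd (nat_lit 156) (PT.nd (nat_lit 78) (PT.lf (nat_lit 14136) (nat_lit 6) (nat_lit 186) (nat_lit 4) (nat_lit 162) (nat_lit 222) (nat_lit 216)) (PT.lf (nat_lit 14440) (nat_lit 6) (nat_lit 190) (nat_lit 4) (nat_lit 163) (nat_lit 222) (nat_lit 215))) (PT.nd (nat_lit 3900) (PT.lf (nat_lit 14744) (nat_lit 6) (nat_lit 194) (nat_lit 4) (nat_lit 164) (nat_lit 222) (nat_lit 214)) (PT.nd (nat_lit 78) (PT.lf (nat_lit 14744) (nat_lit 6) (nat_lit 194) (nat_lit 2) (nat_lit 214) (nat_lit 222) (nat_lit 164)) (PT.lf (nat_lit 14440) (nat_lit 6) (nat_lit 190) (nat_lit 2) (nat_lit 215) (nat_lit 222) (nat_lit 163))))))))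
noncomputable def pc56 : PT := (PT.nd (nat_lit 57564) (PT.nd (nat_lit 624) (PT.nd (nat_lit 312) (PT.nd (nat_lit 156) (PT.nd (nat_lit 78) (PT.lf (nat_lit 14136) (nat_lit 6) (nat_lit 186) (nat_lit 2) (nat_lit 216) (nat_lit 222) (nat_lit 162)) (PT.lf (nat_lit 13832) (nat_lit 6) (nat_lit 182) (nat_lit 2) (nat_lit 217) (nat_lit 222) (nat_lit 161))) (PT.nd (nat_lit 78) (PT.lf (nat_lit 13528) (nat_lit 6) (nat_lit 178) (nat_lit 2) (nat_lit 218) (nat_lit 222) (nat_lit 160)) (PT.lf (nat_lit 13300) (nat_lit 6) (nat_lit 175) (nat_lit 2) (nat_lit 219) (nat_lit 222) (nat_lit 159)))) (PT.nd (nat_lit 156) (PT.nd (nat_lit 78) (PT.lf (nat_lit 12996) (nat_lit 6) (nat_lit 171) (nat_lit 2) (nat_lit 220) (nat_lit 222) (nat_lit 158)) (PT.lf (nat_lit 12768) (nat_lit 6) (nat_lit 168) (nat_lit 2) (nat_lit 221) (nat_lit 222) (nat_lit 157))) (PT.nd (nat_lit 78) (PT.lf (nat_lit 12540) (nat_lit 3) (nat_lit 165) (nat_lit 0) (nat_lit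 222) (nat_lit 222) (nat_lit 156)) (PT.lf (nat_lit 12236) (nat_lit 6) (nat_lit 161) (nat_lit 0) (nat_lit 223) (nat_lit 222) (nat_lit 155))))) (PT.nd (nat_lit 56628) (PT.nd (nat_lit 156) (PT.nd (nat_lit 78) (PT.lf (nat_lit 11932) (nat_lit 6) (nat_lit 157) (nat_lit 0) (nat_lit 224) (nat_lit 222) (nat_lit 154)) (PT.lf (nat_lit 11628) (nat_lit 6) (nat_lit 153) (nat_lit 0) (nat_lit 225) (nat_lit 222) (nat_lit 153))) (PT.nd (nat_lit 78) (PT.lf (nat_lit 11324) (nat_lit 6) (nat_lit 149) (nat_lit 0) (nat_lit 226) (nat_lit 222) (nat_lit 152)) (PT.lf (nat_lit 11096) (nat_lit 6) (nat_lit 146) (nat_lit 0) (nat_lit 227) (nat_lit 222) (nat_lit 151)))) (PT.nd (nat_lit 156) (PT.nd (nat_lit 78) (PT.lf (nat_lit 10640) (nat_lit 6) (nat_lit 140) (nat_lit 5) (nat_lit 149) (nat_lit 223) (nat_lit 228)) (PT.lf (nat_lit 10868) (nat_lit 6) (nat_lit 143) (nat_lit 5) (nat_lit 150) (nat_lit 223) (nat_lit 227))) (PT.nd (nat_lit 78)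 (PT.lf (nat_lit 11172) (nat_lit 6) (nat_lit 147) (nat_lit 5) (nat_lit 151) (nat_lit 223) (nat_lit 226)) (PT.lf (nat_lit 11400) (nat_lit 6) (nat_lit 150) (nat_lit 5) (nat_lit 152) (nat_lit 223) (nat_lit 225)))))) (PT.nd (nat_lit 624) (PT.nd (nat_lit 312) (PT.nd (nat_lit 156) (PT.nd (nat_lit 78) (PT.lf (nat_lit 11704) (nat_lit 6) (nat_lit 154) (nat_lit 5) (nat_lit 153) (nat_lit 223) (nat_lit 224)) (PT.lf (nat_lit 12008) (nat_lit 3) (nat_lit 158) (nat_lit 4) (nat_lit 154) (nat_lit 223) (nat_lit 223))) (PT.nd (nat_lit 78) (PT.lf (nat_lit 12236) (nat_lit 6) (nat_lit 161) (nat_lit 4) (nat_lit 155) (nat_lit 223) (nat_lit 222)) (PT.lf (nat_lit 12464) (nat_lit 6) (nat_lit 164) (nat_lit 4) (nat_lit 156) (nat_lit 223) (nat_lit 221)))) (PT.nd (nat_lit 156) (PT.nd (nat_lit 78) (PT.lf (nat_lit 12692) (nat_lit 6) (nat_lit 167) (nat_lit 4) (nat_lit 157) (nat_lit 223) (nat_lit 220)) (PT.lf (nat_lit 12920) (nat_lit 6)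 (nat_lit 170) (nat_lit 4) (nat_lit 158) (nat_lit 223) (nat_lit 219))) (PT.nd (nat_lit 78) (PT.lf (nat_lit 13224) (nat_lit 6) (nat_lit 174) (nat_lit 4) (nat_lit 159) (nat_lit 223) (nat_lit 218)) (PT.lf (nat_lit 13452) (nat_lit 6) (nat_lit 177) (nat_lit 4) (nat_lit 160) (nat_lit 223) (nat_lit 217))))) (PT.nd (nat_lit 4368) (PT.nd (nat_lit 4212) (PT.nd (nat_lit 78) (PT.lf (nat_lit 13756) (nat_lit 6) (nat_lit 181) (nat_lit 4) (nat_lit 161) (nat_lit 223) (nat_lit 216)) (PT.lf (nat_lit 14060) (nat_lit 6) (nat_lit 185) (nat_lit 4) (nat_lit 162) (nat_lit 223) (nat_lit 215))) (PT.nd (nat_lit 78) (PT.lf (nat_lit 14060) (nat_lit 6) (nat_lit 185) (nat_lit 2) (nat_lit 215) (nat_lit 223) (nat_lit 162)) (PT.lf (nat_lit 13756) (nat_lit 6) (nat_lit 181) (nat_lit 2) (nat_lit 216) (nat_lit 223) (nat_lit 161)))) (PT.nd (nat_lit 156) (PT.nd (nat_lit 78) (PT.lf (nat_lit 13452) (nat_lit 6) (nat_lit 177) (nat_lit 2) (nat_lit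 217) (nat_lit 223) (nat_lit 160)) (PT.lf (nat_lit 13224) (nat_lit 6) (nat_lit 174) (nat_lit 2) (nat_lit 218) (nat_lit 223) (nat_lit 159))) (PT.nd (nat_lit 78) (PT.lf (nat_lit 12920) (nat_lit 6) (nat_lit 170) (nat_lit 2) (nat_lit 219) (nat_lit 223) (nat_lit 158)) (PT.nd (nat_lit 78) (PT.lf (nat_lit 12692) (nat_lit 6) (nat_lit 167) (nat_lit 2) (nat_lit 220) (nat_lit 223) (nat_lit 157)) (PT.lf (nat_lit 12464) (nat_lit 6) (nat_lit 164) (nat_lit 2) (nat_lit 221) (nat_lit 223) (nat_lit 156))))))))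
noncomputable def pc57 : PT := (PT.nd (nat_lit 57408) (PT.nd (nat_lit 56706) (PT.nd (nat_lit 312) (PT.nd (nat_lit 156) (PT.nd (nat_lit 78) (PT.lf (nat_lit 12236) (nat_lit 6) (nat_lit 161) (nat_lit 2) (nat_lit 222) (nat_lit 223) (nat_lit 155)) (PT.lf (nat_lit 12008) (nat_lit 3) (nat_lit 158) (nat_lit 0) (nat_lit 223) (nat_lit 223) (nat_lit 154))) (PT.nd (nat_lit 78) (PT.lf (nat_lit 11704) (nat_lit 6) (nat_lit 154) (nat_lit 0) (nat_lit 224) (nat_lit 223) (nat_lit 153)) (PT.lf (nat_lit 11400) (nat_lit 6) (nat_lit 150) (nat_lit 0) (nat_lit 225) (nat_lit 223) (nat_lit 152)))) (PT.nd (nat_lit 156) (PT.nd (nat_lit 78) (PT.lf (nat_lit 11172) (nat_lit 6) (nat_lit 147) (nat_lit 0) (nat_lit 226) (nat_lit 223) (nat_lit 151)) (PT.lf (nat_lit 10868) (nat_lit 6) (nat_lit 143) (nat_lit 0) (nat_lit 227) (nat_lit 223) (nat_lit 150))) (PT.nd (nat_lit 56160) (PT.lf (nat_lit 10640) (nat_lit 6) (nat_lit 140) (nat_lit 0)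 (nat_lit 228) (nat_lit 223) (nat_lit 149)) (PT.lf (nat_lit 10184) (nat_lit 6) (nat_lit 134) (nat_lit 5) (nat_lit 147) (nat_lit 224) (nat_lit 229))))) (PT.nd (nat_lit 312) (PT.nd (nat_lit 156) (PT.nd (nat_lit 78) (PT.lf (nat_lit 10412) (nat_lit 6) (nat_lit 137) (nat_lit 5) (nat_lit 148) (nat_lit 224) (nat_lit 228)) (PT.lf (nat_lit 10716) (nat_lit 6) (nat_lit 141) (nat_lit 5) (nat_lit 149) (nat_lit 224) (nat_lit 227))) (PT.nd (nat_lit 78) (PT.lf (nat_lit 10944) (nat_lit 6) (nat_lit 144) (nat_lit 5) (nat_lit 150) (nat_lit 224) (nat_lit 226)) (PT.lf (nat_lit 11248) (nat_lit 6) (nat_lit 148) (nat_lit 5) (nat_lit 151) (nat_lit 224) (nat_lit 225)))) (PT.nd (nat_lit 156) (PT.nd (nat_lit 78) (PT.lf (nat_lit 11476) (nat_lit 3) (nat_lit 151) (nat_lit 4) (nat_lit 152) (nat_lit 224) (nat_lit 224)) (PT.lf (nat_lit 11704) (nat_lit 6) (nat_lit 154) (nat_lit 4) (nat_lit 153) (nat_lit 224) (nat_lit 223))) (PT.nd (nat_lit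 78) (PT.lf (nat_lit 11932) (nat_lit 6) (nat_lit 157) (nat_lit 4) (nat_lit 154) (nat_lit 224) (nat_lit 222)) (PT.nd (nat_lit 78) (PT.lf (nat_lit 12160) (nat_lit 6) (nat_lit 160) (nat_lit 4) (nat_lit 155) (nat_lit 224) (nat_lit 221)) (PT.lf (nat_lit 12388) (nat_lit 6) (nat_lit 163) (nat_lit 4) (nat_lit 156) (nat_lit 224) (nat_lit 220))))))) (PT.nd (nat_lit 5070) (PT.nd (nat_lit 4758) (PT.nd (nat_lit 156) (PT.nd (nat_lit 78) (PT.lf (nat_lit 12616) (nat_lit 6) (nat_lit 166) (nat_lit 4) (nat_lit 157) (nat_lit 224) (nat_lit 219)) (PT.lf (nat_lit 12844) (nat_lit 6) (nat_lit 169) (nat_lit 4) (nat_lit 158) (nat_lit 224) (nat_lit 218))) (PT.nd (nat_lit 4524) (PT.lf (nat_lit 13148) (nat_lit 6) (nat_lit 173) (nat_lit 4) (nat_lit 159) (nat_lit 224) (nat_lit 217)) (PT.lf (nat_lit 13148) (nat_lit 6) (nat_lit 173) (nat_lit 2) (nat_lit 217) (nat_lit 224) (nat_lit 159)))) (PT.nd (nat_lit 156) (PT.nd (nat_lit 78) (PT.lf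 (nat_lit 12844) (nat_lit 6) (nat_lit 169) (nat_lit 2) (nat_lit 218) (nat_lit 224) (nat_lit 158)) (PT.lf (nat_lit 12616) (nat_lit 6) (nat_lit 166) (nat_lit 2) (nat_lit 219) (nat_lit 224) (nat_lit 157))) (PT.nd (nat_lit 78) (PT.lf (nat_lit 12388) (nat_lit 6) (nat_lit 163) (nat_lit 2) (nat_lit 220) (nat_lit 224) (nat_lit 156)) (PT.lf (nat_lit 12160) (nat_lit 6) (nat_lit 160) (nat_lit 2) (nat_lit 221) (nat_lit 224) (nat_lit 155))))) (PT.nd (nat_lit 312) (PT.nd (nat_lit 156) (PT.nd (nat_lit 78) (PT.lf (nat_lit 11932) (nat_lit 6) (nat_lit 157) (nat_lit 2) (nat_lit 222) (nat_lit 224) (nat_lit 154)) (PT.lf (nat_lit 11704) (nat_lit 6) (nat_lit 154) (nat_lit 2) (nat_lit 223) (nat_lit 224) (nat_lit 153))) (PT.nd (nat_lit 78) (PT.lf (nat_lit 11476) (nat_lit 3) (nat_lit 151) (nat_lit 0) (nat_lit 224) (nat_lit 224) (nat_lit 152)) (PT.lf (nat_lit 11248) (nat_lit 6) (nat_lit 148) (nat_lit 0) (nat_lit 225) (nat_lit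 224) (nat_lit 151)))) (PT.nd (nat_lit 156) (PT.nd (nat_lit 78) (PT.lf (nat_lit 10944) (nat_lit 6) (nat_lit 144) (nat_lit 0) (nat_lit 226) (nat_lit 224) (nat_lit 150)) (PT.lf (nat_lit 10716) (nat_lit 6) (nat_lit 141) (nat_lit 0) (nat_lit 227) (nat_lit 224) (nat_lit 149))) (PT.nd (nat_lit 78) (PT.lf (nat_lit 10412) (nat_lit 6) (nat_lit 137) (nat_lit 0) (nat_lit 228) (nat_lit 224) (nat_lit 148)) (PT.nd (nat_lit 56004) (PT.lf (nat_lit 10184) (nat_lit 6) (nat_lit 134) (nat_lit 0) (nat_lit 229) (nat_lit 224) (nat_lit 147)) (PT.lf (nat_lit 9956) (nat_lit 6) (nat_lit 131) (nat_lit 5) (nat_lit 146) (nat_lit 225) (nat_lit 229))))))))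
noncomputable def pc58 : PT := (PT.nd (nat_lit 6084) (PT.nd (nat_lit 624) (PT.nd (nat_lit 312) (PT.nd (nat_lit 156) (PT.nd (nat_lit 78) (PT.lf (nat_lit 10260) (nat_lit 6) (nat_lit 135) (nat_lit 5) (nat_lit 147) (nat_lit 225) (nat_lit 228)) (PT.lf (nat_lit 10488) (nat_lit 6) (nat_lit 138) (nat_lit 5) (nat_lit 148) (nat_lit 225) (nat_lit 227))) (PT.nd (nat_lit 78) (PT.lf (nat_lit 10792) (nat_lit 6) (nat_lit 142) (nat_lit 5) (nat_lit 149) (nat_lit 225) (nat_lit 226)) (PT.lf (nat_lit 11020) (nat_lit 3) (nat_lit 145) (nat_lit 4) (nat_lit 150) (nat_lit 225) (nat_lit 225)))) (PT.nd (nat_lit 156) (PT.nd (nat_lit 78) (PT.lf (nat_lit 11248) (nat_lit 6) (nat_lit 148) (nat_lit 4) (nat_lit 151) (nat_lit 225) (nat_lit 224)) (PT.lf (nat_lit 11400) (nat_lit 6) (nat_lit 150) (nat_lit 4) (nat_lit 152) (nat_lit 225) (nat_lit 223))) (PT.nd (nat_lit 78) (PT.lf (nat_lit 11628) (nat_lit 6) (nat_lit 153) (nat_lit 4) (nat_lit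 153) (nat_lit 225) (nat_lit 222)) (PT.lf (nat_lit 11856) (nat_lit 6) (nat_lit 156) (nat_lit 4) (nat_lit 154) (nat_lit 225) (nat_lit 221))))) (PT.nd (nat_lit 5148) (PT.nd (nat_lit 4992) (PT.nd (nat_lit 78) (PT.lf (nat_lit 12084) (nat_lit 6) (nat_lit 159) (nat_lit 4) (nat_lit 155) (nat_lit 225) (nat_lit 220)) (PT.lf (nat_lit 12312) (nat_lit 6) (nat_lit 162) (nat_lit 4) (nat_lit 156) (nat_lit 225) (nat_lit 219))) (PT.nd (nat_lit 78) (PT.lf (nat_lit 12312) (nat_lit 6) (nat_lit 162) (nat_lit 2) (nat_lit 219) (nat_lit 225) (nat_lit 156)) (PT.lf (nat_lit 12084) (nat_lit 6) (nat_lit 159) (nat_lit 2) (nat_lit 220) (nat_lit 225) (nat_lit 155)))) (PT.nd (nat_lit 156) (PT.nd (nat_lit 78) (PT.lf (nat_lit 11856) (nat_lit 6) (nat_lit 156) (nat_lit 2) (nat_lit 221) (nat_lit 225) (nat_lit 154)) (PT.lf (nat_lit 11628) (nat_lit 6) (nat_lit 153) (nat_lit 2) (nat_lit 222) (nat_lit 225) (nat_lit 153))) (PT.nd (nat_lit 78)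 (PT.lf (nat_lit 11400) (nat_lit 6) (nat_lit 150) (nat_lit 2) (nat_lit 223) (nat_lit 225) (nat_lit 152)) (PT.lf (nat_lit 11248) (nat_lit 6) (nat_lit 148) (nat_lit 2) (nat_lit 224) (nat_lit 225) (nat_lit 151)))))) (PT.nd (nat_lit 56394) (PT.nd (nat_lit 312) (PT.nd (nat_lit 156) (PT.nd (nat_lit 78) (PT.lf (nat_lit 11020) (nat_lit 3) (nat_lit 145) (nat_lit 0) (nat_lit 225) (nat_lit 225) (nat_lit 150)) (PT.lf (nat_lit 10792) (nat_lit 6) (nat_lit 142) (nat_lit 0) (nat_lit 226) (nat_lit 225) (nat_lit 149))) (PT.nd (nat_lit 78) (PT.lf (nat_lit 10488) (nat_lit 6) (nat_lit 138) (nat_lit 0) (nat_lit 227) (nat_lit 225) (nat_lit 148)) (PT.lf (nat_lit 10260) (nat_lit 6) (nat_lit 135) (nat_lit 0) (nat_lit 228) (nat_lit 225) (nat_lit 147)))) (PT.nd (nat_lit 55926) (PT.nd (nat_lit 55848) (PT.lf (nat_lit 9956) (nat_lit 6) (nat_lit 131) (nat_lit 0) (nat_lit 229) (nat_lit 225) (nat_lit 146)) (PT.lf (nat_lit 9576) (nat_lit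 6) (nat_lit 126) (nat_lit 5) (nat_lit 144) (nat_lit 226) (nat_lit 230))) (PT.nd (nat_lit 78) (PT.lf (nat_lit 9804) (nat_lit 6) (nat_lit 129) (nat_lit 5) (nat_lit 145) (nat_lit 226) (nat_lit 229)) (PT.lf (nat_lit 10032) (nat_lit 6) (nat_lit 132) (nat_lit 5) (nat_lit 146) (nat_lit 226) (nat_lit 228))))) (PT.nd (nat_lit 312) (PT.nd (nat_lit 156) (PT.nd (nat_lit 78) (PT.lf (nat_lit 10336) (nat_lit 6) (nat_lit 136) (nat_lit 5) (nat_lit 147) (nat_lit 226) (nat_lit 227)) (PT.lf (nat_lit 10564) (nat_lit 3) (nat_lit 139) (nat_lit 4) (nat_lit 148) (nat_lit 226) (nat_lit 226))) (PT.nd (nat_lit 78) (PT.lf (nat_lit 10792) (nat_lit 6) (nat_lit 142) (nat_lit 4) (nat_lit 149) (nat_lit 226) (nat_lit 225)) (PT.lf (nat_lit 10944) (nat_lit 6) (nat_lit 144) (nat_lit 4) (nat_lit 150) (nat_lit 226) (nat_lit 224)))) (PT.nd (nat_lit 156) (PT.nd (nat_lit 78) (PT.lf (nat_lit 11172) (nat_lit 6) (nat_lit 147) (nat_lit 4) (nat_lit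 151) (nat_lit 226) (nat_lit 223)) (PT.lf (nat_lit 11324) (nat_lit 6) (nat_lit 149) (nat_lit 4) (nat_lit 152) (nat_lit 226) (nat_lit 222))) (PT.nd (nat_lit 78) (PT.lf (nat_lit 11552) (nat_lit 6) (nat_lit 152) (nat_lit 4) (nat_lit 153) (nat_lit 226) (nat_lit 221)) (PT.nd (nat_lit 5148) (PT.lf (nat_lit 11780) (nat_lit 6) (nat_lit 155) (nat_lit 4) (nat_lit 154) (nat_lit 226) (nat_lit 220)) (PT.lf (nat_lit 11780) (nat_lit 6) (nat_lit 155) (nat_lit 2) (nat_lit 220) (nat_lit 226) (nat_lit 154))))))))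
noncomputable def pc59 : PT := (PT.nd (nat_lit 56940) (PT.nd (nat_lit 624) (PT.nd (nat_lit 312) (PT.nd (nat_lit 156) (PT.nd (nat_lit 78) (PT.lf (nat_lit 11552) (nat_lit 6) (nat_lit 152) (nat_lit 2) (nat_lit 221) (nat_lit 226) (nat_lit 153)) (PT.lf (nat_lit 11324) (nat_lit 6) (nat_lit 149) (nat_lit 2) (nat_lit 222) (nat_lit 226) (nat_lit 152))) (PT.nd (nat_lit 78) (PT.lf (nat_lit 11172) (nat_lit 6) (nat_lit 147) (nat_lit 2) (nat_lit 223) (nat_lit 226) (nat_lit 151)) (PT.lf (nat_lit 10944) (nat_lit 6) (nat_lit 144) (nat_lit 2) (nat_lit 224) (nat_lit 226) (nat_lit 150)))) (PT.nd (nat_lit 156) (PT.nd (nat_lit 78) (PT.lf (nat_lit 10792) (nat_lit 6) (nat_lit 142) (nat_lit 2) (nat_lit 225) (nat_lit 226) (nat_lit 149)) (PT.lf (nat_lit 10564) (nat_lit 3) (nat_lit 139) (nat_lit 0) (nat_lit 226) (nat_lit 226) (nat_lit 148))) (PT.nd (nat_lit 78) (PT.lf (nat_lit 10336) (nat_lit 6) (nat_lit 136) (nat_lit 0) (nat_lit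 227) (nat_lit 226) (nat_lit 147)) (PT.lf (nat_lit 10032) (nat_lit 6) (nat_lit 132) (nat_lit 0) (nat_lit 228) (nat_lit 226) (nat_lit 146))))) (PT.nd (nat_lit 55926) (PT.nd (nat_lit 55770) (PT.nd (nat_lit 78) (PT.lf (nat_lit 9804) (nat_lit 6) (nat_lit 129) (nat_lit 0) (nat_lit 229) (nat_lit 226) (nat_lit 145)) (PT.lf (nat_lit 9576) (nat_lit 6) (nat_lit 126) (nat_lit 0) (nat_lit 230) (nat_lit 226) (nat_lit 144))) (PT.nd (nat_lit 78) (PT.lf (nat_lit 9424) (nat_lit 6) (nat_lit 124) (nat_lit 5) (nat_lit 143) (nat_lit 227) (nat_lit 230)) (PT.lf (nat_lit 9652) (nat_lit 6) (nat_lit 127) (nat_lit 5) (nat_lit 144) (nat_lit 227) (nat_lit 229)))) (PT.nd (nat_lit 156) (PT.nd (nat_lit 78) (PT.lf (nat_lit 9880) (nat_lit 6) (nat_lit 130) (nat_lit 5) (nat_lit 145) (nat_lit 227) (nat_lit 228)) (PT.lf (nat_lit 10108) (nat_lit 3) (nat_lit 133) (nat_lit 4) (nat_lit 146) (nat_lit 227) (nat_lit 227))) (PT.nd (nat_lit 78) (PT.lf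 (nat_lit 10336) (nat_lit 6) (nat_lit 136) (nat_lit 4) (nat_lit 147) (nat_lit 227) (nat_lit 226)) (PT.nd (nat_lit 78) (PT.lf (nat_lit 10488) (nat_lit 6) (nat_lit 138) (nat_lit 4) (nat_lit 148) (nat_lit 227) (nat_lit 225)) (PT.lf (nat_lit 10716) (nat_lit 6) (nat_lit 141) (nat_lit 4) (nat_lit 149) (nat_lit 227) (nat_lit 224))))))) (PT.nd (nat_lit 6084) (PT.nd (nat_lit 5772) (PT.nd (nat_lit 5616) (PT.nd (nat_lit 78) (PT.lf (nat_lit 10868) (nat_lit 6) (nat_lit 143) (nat_lit 4) (nat_lit 150) (nat_lit 227) (nat_lit 223)) (PT.lf (nat_lit 11096) (nat_lit 6) (nat_lit 146) (nat_lit 4) (nat_lit 151) (nat_lit 227) (nat_lit 222))) (PT.nd (nat_lit 78) (PT.lf (nat_lit 11096) (nat_lit 6) (nat_lit 146) (nat_lit 2) (nat_lit 222) (nat_lit 227) (nat_lit 151)) (PT.lf (nat_lit 10868) (nat_lit 6) (nat_lit 143) (nat_lit 2) (nat_lit 223) (nat_lit 227) (nat_lit 150)))) (PT.nd (nat_lit 156) (PT.nd (nat_lit 78) (PT.lf (nat_lit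 10716) (nat_lit 6) (nat_lit 141) (nat_lit 2) (nat_lit 224) (nat_lit 227) (nat_lit 149)) (PT.lf (nat_lit 10488) (nat_lit 6) (nat_lit 138) (nat_lit 2) (nat_lit 225) (nat_lit 227) (nat_lit 148))) (PT.nd (nat_lit 78) (PT.lf (nat_lit 10336) (nat_lit 6) (nat_lit 136) (nat_lit 2) (nat_lit 226) (nat_lit 227) (nat_lit 147)) (PT.lf (nat_lit 10108) (nat_lit 3) (nat_lit 133) (nat_lit 0) (nat_lit 227) (nat_lit 227) (nat_lit 146))))) (PT.nd (nat_lit 55770) (PT.nd (nat_lit 156) (PT.nd (nat_lit 78) (PT.lf (nat_lit 9880) (nat_lit 6) (nat_lit 130) (nat_lit 0) (nat_lit 228) (nat_lit 227) (nat_lit 145)) (PT.lf (nat_lit 9652) (nat_lit 6) (nat_lit 127) (nat_lit 0) (nat_lit 229) (nat_lit 227) (nat_lit 144))) (PT.nd (nat_lit 55536) (PT.lf (nat_lit 9424) (nat_lit 6) (nat_lit 124) (nat_lit 0) (nat_lit 230) (nat_lit 227) (nat_lit 143)) (PT.lf (nat_lit 9044) (nat_lit 6) (nat_lit 119) (nat_lit 5) (nat_lit 141) (nat_lit 228) (nat_lit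 231)))) (PT.nd (nat_lit 156) (PT.nd (nat_lit 78) (PT.lf (nat_lit 9272) (nat_lit 6) (nat_lit 122) (nat_lit 5) (nat_lit 142) (nat_lit 228) (nat_lit 230)) (PT.lf (nat_lit 9500) (nat_lit 6) (nat_lit 125) (nat_lit 5) (nat_lit 143) (nat_lit 228) (nat_lit 229))) (PT.nd (nat_lit 78) (PT.lf (nat_lit 9728) (nat_lit 3) (nat_lit 128) (nat_lit 4) (nat_lit 144) (nat_lit 228) (nat_lit 228)) (PT.nd (nat_lit 78) (PT.lf (nat_lit 9880) (nat_lit 6) (nat_lit 130) (nat_lit 4) (nat_lit 145) (nat_lit 228) (nat_lit 227)) (PT.lf (nat_lit 10032) (nat_lit 6) (nat_lit 132) (nat_lit 4) (nat_lit 146) (nat_lit 228) (nat_lit 226))))))))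
noncomputable def pc60 : PT := (PT.nd (nat_lit 62166) (PT.nd (nat_lit 6318) (PT.nd (nat_lit 6006) (PT.nd (nat_lit 156) (PT.nd (nat_lit 78) (PT.lf (nat_lit 10260) (nat_lit 6) (nat_lit 135) (nat_lit 4) (nat_lit 147) (nat_lit 228) (nat_lit 225)) (PT.lf (nat_lit 10412) (nat_lit 6) (nat_lit 137) (nat_lit 4) (nat_lit 148) (nat_lit 228) (nat_lit 224))) (PT.nd (nat_lit 5772) (PT.lf (nat_lit 10640) (nat_lit 6) (nat_lit 140) (nat_lit 4) (nat_lit 149) (nat_lit 228) (nat_lit 223)) (PT.lf (nat_lit 10640) (nat_lit 6) (nat_lit 140) (nat_lit 2) (nat_lit 223) (nat_lit 228) (nat_lit 149)))) (PT.nd (nat_lit 156) (PT.nd (nat_lit 78) (PT.lf (nat_lit 10412) (nat_lit 6) (nat_lit 137) (nat_lit 2) (nat_lit 224) (nat_lit 228) (nat_lit 148)) (PT.lf (nat_lit 10260) (nat_lit 6) (nat_lit 135) (nat_lit 2) (nat_lit 225) (nat_lit 228) (nat_lit 147))) (PT.nd (nat_lit 78) (PT.lf (nat_lit 10032) (nat_lit 6) (nat_lit 132) (nat_lit 2) (nat_lit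 226) (nat_lit 228) (nat_lit 146)) (PT.lf (nat_lit 9880) (nat_lit 6) (nat_lit 130) (nat_lit 2) (nat_lit 227) (nat_lit 228) (nat_lit 145))))) (PT.nd (nat_lit 55536) (PT.nd (nat_lit 156) (PT.nd (nat_lit 78) (PT.lf (nat_lit 9728) (nat_lit 3) (nat_lit 128) (nat_lit 0) (nat_lit 228) (nat_lit 228) (nat_lit 144)) (PT.lf (nat_lit 9500) (nat_lit 6) (nat_lit 125) (nat_lit 0) (nat_lit 229) (nat_lit 228) (nat_lit 143))) (PT.nd (nat_lit 78) (PT.lf (nat_lit 9272) (nat_lit 6) (nat_lit 122) (nat_lit 0) (nat_lit 230) (nat_lit 228) (nat_lit 142)) (PT.lf (nat_lit 9044) (nat_lit 6) (nat_lit 119) (nat_lit 0) (nat_lit 231) (nat_lit 228) (nat_lit 141)))) (PT.nd (nat_lit 156) (PT.nd (nat_lit 78) (PT.lf (nat_lit 8664) (nat_lit 6) (nat_lit 114) (nat_lit 5) (nat_lit 139) (nat_lit 229) (nat_lit 232)) (PT.lf (nat_lit 8892) (nat_lit 6) (nat_lit 117) (nat_lit 5) (nat_lit 140) (nat_lit 229) (nat_lit 231))) (PT.nd (nat_lit 78) (PT.lf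 (nat_lit 9120) (nat_lit 6) (nat_lit 120) (nat_lit 5) (nat_lit 141) (nat_lit 229) (nat_lit 230)) (PT.lf (nat_lit 9348) (nat_lit 3) (nat_lit 123) (nat_lit 4) (nat_lit 142) (nat_lit 229) (nat_lit 229)))))) (PT.nd (nat_lit 6552) (PT.nd (nat_lit 312) (PT.nd (nat_lit 156) (PT.nd (nat_lit 78) (PT.lf (nat_lit 9500) (nat_lit 6) (nat_lit 125) (nat_lit 4) (nat_lit 143) (nat_lit 229) (nat_lit 228)) (PT.lf (nat_lit 9652) (nat_lit 6) (nat_lit 127) (nat_lit 4) (nat_lit 144) (nat_lit 229) (nat_lit 227))) (PT.nd (nat_lit 78) (PT.lf (nat_lit 9804) (nat_lit 6) (nat_lit 129) (nat_lit 4) (nat_lit 145) (nat_lit 229) (nat_lit 226)) (PT.lf (nat_lit 9956) (nat_lit 6) (nat_lit 131) (nat_lit 4) (nat_lit 146) (nat_lit 229) (nat_lit 225)))) (PT.nd (nat_lit 6084) (PT.nd (nat_lit 6006) (PT.lf (nat_lit 10184) (nat_lit 6) (nat_lit 134) (nat_lit 4) (nat_lit 147) (nat_lit 229) (nat_lit 224)) (PT.lf (nat_lit 10184) (nat_lit 6) (nat_lit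 134) (nat_lit 2) (nat_lit 224) (nat_lit 229) (nat_lit 147))) (PT.nd (nat_lit 78) (PT.lf (nat_lit 9956) (nat_lit 6) (nat_lit 131) (nat_lit 2) (nat_lit 225) (nat_lit 229) (nat_lit 146)) (PT.lf (nat_lit 9804) (nat_lit 6) (nat_lit 129) (nat_lit 2) (nat_lit 226) (nat_lit 229) (nat_lit 145))))) (PT.nd (nat_lit 312) (PT.nd (nat_lit 156) (PT.nd (nat_lit 78) (PT.lf (nat_lit 9652) (nat_lit 6) (nat_lit 127) (nat_lit 2) (nat_lit 227) (nat_lit 229) (nat_lit 144)) (PT.lf (nat_lit 9500) (nat_lit 6) (nat_lit 125) (nat_lit 2) (nat_lit 228) (nat_lit 229) (nat_lit 143))) (PT.nd (nat_lit 78) (PT.lf (nat_lit 9348) (nat_lit 3) (nat_lit 123) (nat_lit 0) (nat_lit 229) (nat_lit 229) (nat_lit 142)) (PT.lf (nat_lit 9120) (nat_lit 6) (nat_lit 120) (nat_lit 0) (nat_lit 230) (nat_lit 229) (nat_lit 141)))) (PT.nd (nat_lit 55146) (PT.nd (nat_lit 78) (PT.lf (nat_lit 8892) (nat_lit 6) (nat_lit 117) (nat_lit 0) (nat_lit 231) (nat_lit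 229) (nat_lit 140)) (PT.lf (nat_lit 8664) (nat_lit 6) (nat_lit 114) (nat_lit 0) (nat_lit 232) (nat_lit 229) (nat_lit 139))) (PT.nd (nat_lit 78) (PT.lf (nat_lit 8284) (nat_lit 6) (nat_lit 109) (nat_lit 5) (nat_lit 137) (nat_lit 230) (nat_lit 233)) (PT.nd (nat_lit 78) (PT.lf (nat_lit 8512) (nat_lit 6) (nat_lit 112) (nat_lit 5) (nat_lit 138) (nat_lit 230) (nat_lit 232)) (PT.lf (nat_lit 8740) (nat_lit 6) (nat_lit 115) (nat_lit 5) (nat_lit 139) (nat_lit 230) (nat_lit 231))))))))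
noncomputable def pc61 : PT := (PT.nd (nat_lit 62400) (PT.nd (nat_lit 6942) (PT.nd (nat_lit 312) (PT.nd (nat_lit 156) (PT.nd (nat_lit 78) (PT.lf (nat_lit 8968) (nat_lit 3) (nat_lit 118) (nat_lit 4) (nat_lit 140) (nat_lit 230) (nat_lit 230)) (PT.lf (nat_lit 9120) (nat_lit 6) (nat_lit 120) (nat_lit 4) (nat_lit 141) (nat_lit 230) (nat_lit 229))) (PT.nd (nat_lit 78) (PT.lf (nat_lit 9272) (nat_lit 6) (nat_lit 122) (nat_lit 4) (nat_lit 142) (nat_lit 230) (nat_lit 228)) (PT.lf (nat_lit 9424) (nat_lit 6) (nat_lit 124) (nat_lit 4) (nat_lit 143) (nat_lit 230) (nat_lit 227)))) (PT.nd (nat_lit 6474) (PT.nd (nat_lit 6396) (PT.lf (nat_lit 9576) (nat_lit 6) (nat_lit 126) (nat_lit 4) (nat_lit 144) (nat_lit 230) (nat_lit 226)) (PT.lf (nat_lit 9576) (nat_lit 6) (nat_lit 126) (nat_lit 2) (nat_lit 226) (nat_lit 230) (nat_lit 144))) (PT.nd (nat_lit 78) (PT.lf (nat_lit 9424) (nat_lit 6) (nat_lit 124) (nat_lit 2) (nat_lit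 227) (nat_lit 230) (nat_lit 143)) (PT.lf (nat_lit 9272) (nat_lit 6) (nat_lit 122) (nat_lit 2) (nat_lit 228) (nat_lit 230) (nat_lit 142))))) (PT.nd (nat_lit 312) (PT.nd (nat_lit 156) (PT.nd (nat_lit 78) (PT.lf (nat_lit 9120) (nat_lit 6) (nat_lit 120) (nat_lit 2) (nat_lit 229) (nat_lit 230) (nat_lit 141)) (PT.lf (nat_lit 8968) (nat_lit 3) (nat_lit 118) (nat_lit 0) (nat_lit 230) (nat_lit 230) (nat_lit 140))) (PT.nd (nat_lit 78) (PT.lf (nat_lit 8740) (nat_lit 6) (nat_lit 115) (nat_lit 0) (nat_lit 231) (nat_lit 230) (nat_lit 139)) (PT.lf (nat_lit 8512) (nat_lit 6) (nat_lit 112) (nat_lit 0) (nat_lit 232) (nat_lit 230) (nat_lit 138)))) (PT.nd (nat_lit 54912) (PT.nd (nat_lit 54834) (PT.lf (nat_lit 8284) (nat_lit 6) (nat_lit 109) (nat_lit 0) (nat_lit 233) (nat_lit 230) (nat_lit 137)) (PT.lf (nat_lit 7980) (nat_lit 6) (nat_lit 105) (nat_lit 5) (nat_lit 135) (nat_lit 231) (nat_lit 234))) (PT.nd (nat_lit 78) (PT.lf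 (nat_lit 8132) (nat_lit 6) (nat_lit 107) (nat_lit 5) (nat_lit 136) (nat_lit 231) (nat_lit 233)) (PT.nd (nat_lit 78) (PT.lf (nat_lit 8360) (nat_lit 6) (nat_lit 110) (nat_lit 5) (nat_lit 137) (nat_lit 231) (nat_lit 232)) (PT.lf (nat_lit 8588) (nat_lit 3) (nat_lit 113) (nat_lit 4) (nat_lit 138) (nat_lit 231) (nat_lit 231))))))) (PT.nd (nat_lit 7332) (PT.nd (nat_lit 7020) (PT.nd (nat_lit 156) (PT.nd (nat_lit 78) (PT.lf (nat_lit 8740) (nat_lit 6) (nat_lit 115) (nat_lit 4) (nat_lit 139) (nat_lit 231) (nat_lit 230)) (PT.lf (nat_lit 8892) (nat_lit 6) (nat_lit 117) (nat_lit 4) (nat_lit 140) (nat_lit 231) (nat_lit 229))) (PT.nd (nat_lit 6786) (PT.lf (nat_lit 9044) (nat_lit 6) (nat_lit 119) (nat_lit 4) (nat_lit 141) (nat_lit 231) (nat_lit 228)) (PT.lf (nat_lit 9044) (nat_lit 6) (nat_lit 119) (nat_lit 2) (nat_lit 228) (nat_lit 231) (nat_lit 141)))) (PT.nd (nat_lit 156) (PT.nd (nat_lit 78) (PT.lf (nat_lit 8892)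 (nat_lit 6) (nat_lit 117) (nat_lit 2) (nat_lit 229) (nat_lit 231) (nat_lit 140)) (PT.lf (nat_lit 8740) (nat_lit 6) (nat_lit 115) (nat_lit 2) (nat_lit 230) (nat_lit 231) (nat_lit 139))) (PT.nd (nat_lit 78) (PT.lf (nat_lit 8588) (nat_lit 3) (nat_lit 113) (nat_lit 0) (nat_lit 231) (nat_lit 231) (nat_lit 138)) (PT.lf (nat_lit 8360) (nat_lit 6) (nat_lit 110) (nat_lit 0) (nat_lit 232) (nat_lit 231) (nat_lit 137))))) (PT.nd (nat_lit 54912) (PT.nd (nat_lit 54756) (PT.nd (nat_lit 78) (PT.lf (nat_lit 8132) (nat_lit 6) (nat_lit 107) (nat_lit 0) (nat_lit 233) (nat_lit 231) (nat_lit 136)) (PT.lf (nat_lit 7980) (nat_lit 6) (nat_lit 105) (nat_lit 0) (nat_lit 234) (nat_lit 231) (nat_lit 135))) (PT.nd (nat_lit 78) (PT.lf (nat_lit 7828) (nat_lit 6) (nat_lit 103) (nat_lit 5) (nat_lit 134) (nat_lit 232) (nat_lit 234)) (PT.lf (nat_lit 8056) (nat_lit 6) (nat_lit 106) (nat_lit 5) (nat_lit 135) (nat_lit 232) (nat_lit 233))))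 (PT.nd (nat_lit 156) (PT.nd (nat_lit 78) (PT.lf (nat_lit 8208) (nat_lit 3) (nat_lit 108) (nat_lit 4) (nat_lit 136) (nat_lit 232) (nat_lit 232)) (PT.lf (nat_lit 8360) (nat_lit 6) (nat_lit 110) (nat_lit 4) (nat_lit 137) (nat_lit 232) (nat_lit 231))) (PT.nd (nat_lit 78) (PT.lf (nat_lit 8512) (nat_lit 6) (nat_lit 112) (nat_lit 4) (nat_lit 138) (nat_lit 232) (nat_lit 230)) (PT.nd (nat_lit 7020) (PT.lf (nat_lit 8664) (nat_lit 6) (nat_lit 114) (nat_lit 4) (nat_lit 139) (nat_lit 232) (nat_lit 229)) (PT.lf (nat_lit 8664) (nat_lit 6) (nat_lit 114) (nat_lit 2) (nat_lit 229) (nat_lit 232) (nat_lit 139))))))))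
noncomputable def pc62 : PT := (PT.nd (nat_lit 62868) (PT.nd (nat_lit 55068) (PT.nd (nat_lit 312) (PT.nd (nat_lit 156) (PT.nd (nat_lit 78) (PT.lf (nat_lit 8512) (nat_lit 6) (nat_lit 112) (nat_lit 2) (nat_lit 230) (nat_lit 232) (nat_lit 138)) (PT.lf (nat_lit 8360) (nat_lit 6) (nat_lit 110) (nat_lit 2) (nat_lit 231) (nat_lit 232) (nat_lit 137))) (PT.nd (nat_lit 78) (PT.lf (nat_lit 8208) (nat_lit 3) (nat_lit 108) (nat_lit 0) (nat_lit 232) (nat_lit 232) (nat_lit 136)) (PT.lf (nat_lit 8056) (nat_lit 6) (nat_lit 106) (nat_lit 0) (nat_lit 233) (nat_lit 232) (nat_lit 135)))) (PT.nd (nat_lit 54600) (PT.nd (nat_lit 54522) (PT.lf (nat_lit 7828) (nat_lit 6) (nat_lit 103) (nat_lit 0) (nat_lit 234) (nat_lit 232) (nat_lit 134)) (PT.lf (nat_lit 7524) (nat_lit 6) (nat_lit 99) (nat_lit 5) (nat_lit 132) (nat_lit 233) (nat_lit 235))) (PT.nd (nat_lit 78) (PT.lf (nat_lit 7752) (nat_lit 6) (nat_lit 102) (nat_lit 5) (nat_lit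 133) (nat_lit 233) (nat_lit 234)) (PT.lf (nat_lit 7904) (nat_lit 3) (nat_lit 104) (nat_lit 4) (nat_lit 134) (nat_lit 233) (nat_lit 233))))) (PT.nd (nat_lit 7488) (PT.nd (nat_lit 156) (PT.nd (nat_lit 78) (PT.lf (nat_lit 8056) (nat_lit 6) (nat_lit 106) (nat_lit 4) (nat_lit 135) (nat_lit 233) (nat_lit 232)) (PT.lf (nat_lit 8132) (nat_lit 6) (nat_lit 107) (nat_lit 4) (nat_lit 136) (nat_lit 233) (nat_lit 231))) (PT.nd (nat_lit 7254) (PT.lf (nat_lit 8284) (nat_lit 6) (nat_lit 109) (nat_lit 4) (nat_lit 137) (nat_lit 233) (nat_lit 230)) (PT.lf (nat_lit 8284) (nat_lit 6) (nat_lit 109) (nat_lit 2) (nat_lit 230) (nat_lit 233) (nat_lit 137)))) (PT.nd (nat_lit 156) (PT.nd (nat_lit 78) (PT.lf (nat_lit 8132) (nat_lit 6) (nat_lit 107) (nat_lit 2) (nat_lit 231) (nat_lit 233) (nat_lit 136)) (PT.lf (nat_lit 8056) (nat_lit 6) (nat_lit 106) (nat_lit 2) (nat_lit 232) (nat_lit 233) (nat_lit 135))) (PT.nd (nat_lit 78) (PT.lf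 (nat_lit 7904) (nat_lit 3) (nat_lit 104) (nat_lit 0) (nat_lit 233) (nat_lit 233) (nat_lit 134)) (PT.lf (nat_lit 7752) (nat_lit 6) (nat_lit 102) (nat_lit 0) (nat_lit 234) (nat_lit 233) (nat_lit 133)))))) (PT.nd (nat_lit 62244) (PT.nd (nat_lit 54522) (PT.nd (nat_lit 54366) (PT.nd (nat_lit 54288) (PT.lf (nat_lit 7524) (nat_lit 6) (nat_lit 99) (nat_lit 0) (nat_lit 235) (nat_lit 233) (nat_lit 132)) (PT.lf (nat_lit 7220) (nat_lit 6) (nat_lit 95) (nat_lit 5) (nat_lit 130) (nat_lit 234) (nat_lit 236))) (PT.nd (nat_lit 78) (PT.lf (nat_lit 7448) (nat_lit 6) (nat_lit 98) (nat_lit 5) (nat_lit 131) (nat_lit 234) (nat_lit 235)) (PT.lf (nat_lit 7600) (nat_lit 3) (nat_lit 100) (nat_lit 4) (nat_lit 132) (nat_lit 234) (nat_lit 234)))) (PT.nd (nat_lit 156) (PT.nd (nat_lit 78) (PT.lf (nat_lit 7752) (nat_lit 6) (nat_lit 102) (nat_lit 4) (nat_lit 133) (nat_lit 234) (nat_lit 233)) (PT.lf (nat_lit 7828) (nat_lit 6) (nat_lit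 103) (nat_lit 4) (nat_lit 134) (nat_lit 234) (nat_lit 232))) (PT.nd (nat_lit 7488) (PT.lf (nat_lit 7980) (nat_lit 6) (nat_lit 105) (nat_lit 4) (nat_lit 135) (nat_lit 234) (nat_lit 231)) (PT.lf (nat_lit 7980) (nat_lit 6) (nat_lit 105) (nat_lit 2) (nat_lit 231) (nat_lit 234) (nat_lit 135))))) (PT.nd (nat_lit 312) (PT.nd (nat_lit 156) (PT.nd (nat_lit 78) (PT.lf (nat_lit 7828) (nat_lit 6) (nat_lit 103) (nat_lit 2) (nat_lit 232) (nat_lit 234) (nat_lit 134)) (PT.lf (nat_lit 7752) (nat_lit 6) (nat_lit 102) (nat_lit 2) (nat_lit 233) (nat_lit 234) (nat_lit 133))) (PT.nd (nat_lit 78) (PT.lf (nat_lit 7600) (nat_lit 3) (nat_lit 100) (nat_lit 0) (nat_lit 234) (nat_lit 234) (nat_lit 132)) (PT.lf (nat_lit 7448) (nat_lit 6) (nat_lit 98) (nat_lit 0) (nat_lit 235) (nat_lit 234) (nat_lit 131)))) (PT.nd (nat_lit 54132) (PT.nd (nat_lit 54054) (PT.lf (nat_lit 7220) (nat_lit 6) (nat_lit 95) (nat_lit 0) (nat_lit 236) (nat_lit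 234) (nat_lit 130)) (PT.lf (nat_lit 6916) (nat_lit 6) (nat_lit 91) (nat_lit 5) (nat_lit 128) (nat_lit 235) (nat_lit 237))) (PT.nd (nat_lit 78) (PT.lf (nat_lit 7144) (nat_lit 6) (nat_lit 94) (nat_lit 5) (nat_lit 129) (nat_lit 235) (nat_lit 236)) (PT.nd (nat_lit 78) (PT.lf (nat_lit 7296) (nat_lit 3) (nat_lit 96) (nat_lit 4) (nat_lit 130) (nat_lit 235) (nat_lit 235)) (PT.lf (nat_lit 7448) (nat_lit 6) (nat_lit 98) (nat_lit 4) (nat_lit 131) (nat_lit 235) (nat_lit 234))))))))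
noncomputable def pc63 : PT := (PT.nd (nat_lit 124488) (PT.nd (nat_lit 62166) (PT.nd (nat_lit 8112) (PT.nd (nat_lit 7956) (PT.nd (nat_lit 7878) (PT.lf (nat_lit 7524) (nat_lit 6) (nat_lit 99) (nat_lit 4) (nat_lit 132) (nat_lit 235) (nat_lit 233)) (PT.lf (nat_lit 7524) (nat_lit 6) (nat_lit 99) (nat_lit 2) (nat_lit 233) (nat_lit 235) (nat_lit 132))) (PT.nd (nat_lit 78) (PT.lf (nat_lit 7448) (nat_lit 6) (nat_lit 98) (nat_lit 2) (nat_lit 234) (nat_lit 235) (nat_lit 131)) (PT.lf (nat_lit 7296) (nat_lit 3) (nat_lit 96) (nat_lit 0) (nat_lit 235) (nat_lit 235) (nat_lit 130)))) (PT.nd (nat_lit 53898) (PT.nd (nat_lit 78) (PT.lf (nat_lit 7144) (nat_lit 6) (nat_lit 94) (nat_lit 0) (nat_lit 236) (nat_lit 235) (nat_lit 129)) (PT.lf (nat_lit 6916) (nat_lit 6) (nat_lit 91) (nat_lit 0) (nat_lit 237) (nat_lit 235) (nat_lit 128))) (PT.nd (nat_lit 78) (PT.lf (nat_lit 6612) (nat_lit 6) (nat_lit 87) (nat_lit 5) (nat_lit 126)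 (nat_lit 236) (nat_lit 238)) (PT.lf (nat_lit 6840) (nat_lit 6) (nat_lit 90) (nat_lit 5) (nat_lit 127) (nat_lit 236) (nat_lit 237))))) (PT.nd (nat_lit 8346) (PT.nd (nat_lit 156) (PT.nd (nat_lit 78) (PT.lf (nat_lit 6992) (nat_lit 3) (nat_lit 92) (nat_lit 4) (nat_lit 128) (nat_lit 236) (nat_lit 236)) (PT.lf (nat_lit 7144) (nat_lit 6) (nat_lit 94) (nat_lit 4) (nat_lit 129) (nat_lit 236) (nat_lit 235))) (PT.nd (nat_lit 8112) (PT.lf (nat_lit 7220) (nat_lit 6) (nat_lit 95) (nat_lit 4) (nat_lit 130) (nat_lit 236) (nat_lit 234)) (PT.lf (nat_lit 7220) (nat_lit 6) (nat_lit 95) (nat_lit 2) (nat_lit 234) (nat_lit 236) (nat_lit 130)))) (PT.nd (nat_lit 156) (PT.nd (nat_lit 78) (PT.lf (nat_lit 7144) (nat_lit 6) (nat_lit 94) (nat_lit 2) (nat_lit 235) (nat_lit 236) (nat_lit 129)) (PT.lf (nat_lit 6992) (nat_lit 3) (nat_lit 92) (nat_lit 0) (nat_lit 236) (nat_lit 236) (nat_lit 128))) (PT.nd (nat_lit 78) (PT.lf (nat_lit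 6840) (nat_lit 6) (nat_lit 90) (nat_lit 0) (nat_lit 237) (nat_lit 236) (nat_lit 127)) (PT.nd (nat_lit 53664) (PT.lf (nat_lit 6612) (nat_lit 6) (nat_lit 87) (nat_lit 0) (nat_lit 238) (nat_lit 236) (nat_lit 126)) (PT.lf (nat_lit 6536) (nat_lit 6) (nat_lit 86) (nat_lit 5) (nat_lit 125) (nat_lit 237) (nat_lit 238))))))) (PT.nd (nat_lit 62478) (PT.nd (nat_lit 8580) (PT.nd (nat_lit 156) (PT.nd (nat_lit 78) (PT.lf (nat_lit 6688) (nat_lit 3) (nat_lit 88) (nat_lit 4) (nat_lit 126) (nat_lit 237) (nat_lit 237)) (PT.lf (nat_lit 6840) (nat_lit 6) (nat_lit 90) (nat_lit 4) (nat_lit 127) (nat_lit 237) (nat_lit 236))) (PT.nd (nat_lit 8346) (PT.lf (nat_lit 6916) (nat_lit 6) (nat_lit 91) (nat_lit 4) (nat_lit 128) (nat_lit 237) (nat_lit 235)) (PT.lf (nat_lit 6916) (nat_lit 6) (nat_lit 91) (nat_lit 2) (nat_lit 235) (nat_lit 237) (nat_lit 128)))) (PT.nd (nat_lit 156) (PT.nd (nat_lit 78) (PT.lf (nat_lit 6840) (nat_lit 6)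 (nat_lit 90) (nat_lit 2) (nat_lit 236) (nat_lit 237) (nat_lit 127)) (PT.lf (nat_lit 6688) (nat_lit 3) (nat_lit 88) (nat_lit 0) (nat_lit 237) (nat_lit 237) (nat_lit 126))) (PT.nd (nat_lit 53664) (PT.lf (nat_lit 6536) (nat_lit 6) (nat_lit 86) (nat_lit 0) (nat_lit 238) (nat_lit 237) (nat_lit 125)) (PT.lf (nat_lit 6536) (nat_lit 6) (nat_lit 86) (nat_lit 4) (nat_lit 125) (nat_lit 238) (nat_lit 237))))) (PT.nd (nat_lit 1994148) (PT.nd (nat_lit 8658) (PT.nd (nat_lit 8580) (PT.lf (nat_lit 6612) (nat_lit 6) (nat_lit 87) (nat_lit 4) (nat_lit 126) (nat_lit 238) (nat_lit 236)) (PT.lf (nat_lit 6612) (nat_lit 6) (nat_lit 87) (nat_lit 2) (nat_lit 236) (nat_lit 238) (nat_lit 126))) (PT.nd (nat_lit 1985412) (PT.lf (nat_lit 6536) (nat_lit 6) (nat_lit 86) (nat_lit 2) (nat_lit 237) (nat_lit 238) (nat_lit 125)) (PT.lf (nat_lit 76) (nat_lit 6) (nat_lit 1) (nat_lit 5) (nat_lit 59) (nat_lit 270) (nat_lit 271)))) (PT.nd (nat_lit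 16458) (PT.nd (nat_lit 16380) (PT.lf (nat_lit 152) (nat_lit 3) (nat_lit 2) (nat_lit 4) (nat_lit 60) (nat_lit 270) (nat_lit 270)) (PT.lf (nat_lit 152) (nat_lit 3) (nat_lit 2) (nat_lit 0) (nat_lit 270) (nat_lit 270) (nat_lit 60))) (PT.nd (nat_lit 45942) (PT.lf (nat_lit 76) (nat_lit 6) (nat_lit 1) (nat_lit 0) (nat_lit 271) (nat_lit 270) (nat_lit 59)) (PT.nd (nat_lit 16458) (PT.lf (nat_lit 76) (nat_lit 6) (nat_lit 1) (nat_lit 4) (nat_lit 59) (nat_lit 271) (nat_lit 270)) (PT.lf (nat_lit 76) (nat_lit 6) (nat_lit 1) (nat_lit 2) (nat_lit 270) (nat_lit 271) (nat_lit 59))))))))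
noncomputable def xc0 : XT := (XT.nd (nat_lit 249678) (nat_lit 0) (nat_lit 0) (XT.nd (nat_lit 125112) (nat_lit 0) (nat_lit 0) (XT.nd (nat_lit 62634) (nat_lit 0) (nat_lit 0) (XT.nd (nat_lit 62322) (nat_lit 0) (nat_lit 76) (XT.nd (nat_lit 78) (nat_lit 228) (nat_lit 0) (XT.lf (nat_lit 0) (nat_lit 503095961) (nat_lit 152) (nat_lit 3581065313) (nat_lit 152) (nat_lit 3581065313) (nat_lit 14) (nat_lit 4) (nat_lit 16) (nat_lit 5) (nat_lit 16) (nat_lit 4) (nat_lit 488) (nat_lit 356) (nat_lit 356)) (XT.nd (nat_lit 78) (nat_lit 76) (nat_lit 0) (XT.lf (nat_lit 0) (nat_lit 3763802717) (nat_lit 152) (nat_lit 8471020730) (nat_lit 0) (nat_lit 3326559425) (nat_lit 12) (nat_lit 5) (nat_lit 14) (nat_lit 4) (nat_lit 12) (nat_lit 4) (nat_lit 489) (nat_lit 356) (nat_lit 355)) (XT.lf (nat_lit 0) (nat_lit 13194338302) (nat_lit 76) (nat_lit 1732784710) (nat_lit 76) (nat_lit 871033368) (nat_lit 11) (nat_lit 4) (nat_lit 12) (nat_lit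 5) (nat_lit 12) (nat_lit 4) (nat_lit 490) (nat_lit 356) (nat_lit 354)))) (XT.nd (nat_lit 156) (nat_lit 456) (nat_lit 0) (XT.nd (nat_lit 78) (nat_lit 152) (nat_lit 0) (XT.lf (nat_lit 0) (nat_lit 1038295997) (nat_lit 152) (nat_lit 5364597674) (nat_lit 0) (nat_lit 1038295997) (nat_lit 20) (nat_lit 5) (nat_lit 22) (nat_lit 4) (nat_lit 20) (nat_lit 4) (nat_lit 486) (nat_lit 357) (nat_lit 357)) (XT.lf (nat_lit 0) (nat_lit 10129152586) (nat_lit 152) (nat_lit 2722147661) (nat_lit 152) (nat_lit 2253592503) (nat_lit 18) (nat_lit 4) (nat_lit 20) (nat_lit 5) (nat_lit 20) (nat_lit 4) (nat_lit 487) (nat_lit 357) (nat_lit 356))) (XT.nd (nat_lit 78) (nat_lit 152) (nat_lit 0) (XT.lf (nat_lit 0) (nat_lit 794715767) (nat_lit 152) (nat_lit 7721660097) (nat_lit 152) (nat_lit 6816304137) (nat_lit 14) (nat_lit 4) (nat_lit 16) (nat_lit 5) (nat_lit 16) (nat_lit 4) (nat_lit 488) (nat_lit 357) (nat_lit 355)) (XT.lf (nat_lit 0)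 (nat_lit 3989251594) (nat_lit 152) (nat_lit 8899490888) (nat_lit 0) (nat_lit 2677139661) (nat_lit 12) (nat_lit 5) (nat_lit 14) (nat_lit 4) (nat_lit 12) (nat_lit 4) (nat_lit 489) (nat_lit 357) (nat_lit 354))))) (XT.nd (nat_lit 62166) (nat_lit 0) (nat_lit 76) (XT.nd (nat_lit 62010) (nat_lit 0) (nat_lit 988) (XT.lf (nat_lit 0) (nat_lit 12552529302) (nat_lit 76) (nat_lit 2488308597) (nat_lit 76) (nat_lit 764052927) (nat_lit 11) (nat_lit 4) (nat_lit 12) (nat_lit 5) (nat_lit 12) (nat_lit 4) (nat_lit 490) (nat_lit 357) (nat_lit 353)) (XT.nd (nat_lit 78) (nat_lit 152) (nat_lit 0) (XT.lf (nat_lit 0) (nat_lit 3505762064) (nat_lit 152) (nat_lit 1859691484) (nat_lit 152) (nat_lit 1859691484) (nat_lit 26) (nat_lit 4) (nat_lit 28) (nat_lit 5) (nat_lit 28) (nat_lit 4) (nat_lit 484) (nat_lit 358) (nat_lit 358)) (XT.lf (nat_lit 0) (nat_lit 6683350129) (nat_lit 152) (nat_lit 1790377532) (nat_lit 0) (nat_lit 6191086079)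 (nat_lit 24) (nat_lit 5) (nat_lit 26) (nat_lit 4) (nat_lit 24) (nat_lit 4) (nat_lit 485) (nat_lit 358) (nat_lit 357)))) (XT.nd (nat_lit 156) (nat_lit 456) (nat_lit 0) (XT.nd (nat_lit 78) (nat_lit 152) (nat_lit 0) (XT.lf (nat_lit 0) (nat_lit 2450093444) (nat_lit 152) (nat_lit 10935542193) (nat_lit 0) (nat_lit 1498926473) (nat_lit 20) (nat_lit 5) (nat_lit 22) (nat_lit 4) (nat_lit 20) (nat_lit 4) (nat_lit 486) (nat_lit 358) (nat_lit 356)) (XT.lf (nat_lit 0) (nat_lit 9717064388) (nat_lit 152) (nat_lit 3399129365) (nat_lit 152) (nat_lit 1993054473) (nat_lit 18) (nat_lit 4) (nat_lit 20) (nat_lit 5) (nat_lit 20) (nat_lit 4) (nat_lit 487) (nat_lit 358) (nat_lit 355))) (XT.nd (nat_lit 78) (nat_lit 152) (nat_lit 0) (XT.lf (nat_lit 0) (nat_lit 160102517) (nat_lit 152) (nat_lit 8495381458) (nat_lit 152) (nat_lit 6683878451) (nat_lit 14) (nat_lit 4) (nat_lit 16) (nat_lit 5) (nat_lit 16) (nat_lit 4) (nat_lit 488)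 (nat_lit 358) (nat_lit 354)) (XT.lf (nat_lit 0) (nat_lit 4003103050) (nat_lit 152) (nat_lit 9756805595) (nat_lit 0) (nat_lit 1814975972) (nat_lit 12) (nat_lit 5) (nat_lit 14) (nat_lit 4) (nat_lit 12) (nat_lit 4) (nat_lit 489) (nat_lit 358) (nat_lit 353)))))) (XT.nd (nat_lit 62322) (nat_lit 0) (nat_lit 0) (XT.nd (nat_lit 62010) (nat_lit 0) (nat_lit 532) (XT.nd (nat_lit 61854) (nat_lit 0) (nat_lit 1292) (XT.lf (nat_lit 0) (nat_lit 11482224538) (nat_lit 76) (nat_lit 3461081768) (nat_lit 76) (nat_lit 872815138) (nat_lit 11) (nat_lit 4) (nat_lit 12) (nat_lit 5) (nat_lit 12) (nat_lit 4) (nat_lit 490) (nat_lit 358) (nat_lit 352)) (XT.nd (nat_lit 78) (nat_lit 304) (nat_lit 0) (XT.lf (nat_lit 0) (nat_lit 2410401534) (nat_lit 152) (nat_lit 2196191649) (nat_lit 0) (nat_lit 2410401534) (nat_lit 32) (nat_lit 5) (nat_lit 34) (nat_lit 4) (nat_lit 32) (nat_lit 4) (nat_lit 482) (nat_lit 359) (nat_lit 359)) (XT.lf (nat_lit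 0) (nat_lit 850779861) (nat_lit 152) (nat_lit 13056818925) (nat_lit 0) (nat_lit 333607251) (nat_lit 28) (nat_lit 5) (nat_lit 30) (nat_lit 4) (nat_lit 28) (nat_lit 4) (nat_lit 483) (nat_lit 359) (nat_lit 358)))) (XT.nd (nat_lit 156) (nat_lit 456) (nat_lit 0) (XT.nd (nat_lit 78) (nat_lit 152) (nat_lit 0) (XT.lf (nat_lit 0) (nat_lit 6813131631) (nat_lit 152) (nat_lit 4329277198) (nat_lit 152) (nat_lit 3309995257) (nat_lit 26) (nat_lit 4) (nat_lit 28) (nat_lit 5) (nat_lit 28) (nat_lit 4) (nat_lit 484) (nat_lit 359) (nat_lit 357)) (XT.lf (nat_lit 0) (nat_lit 6976934204) (nat_lit 152) (nat_lit 2192437739) (nat_lit 0) (nat_lit 5499711922) (nat_lit 24) (nat_lit 5) (nat_lit 26) (nat_lit 4) (nat_lit 24) (nat_lit 4) (nat_lit 485) (nat_lit 359) (nat_lit 356))) (XT.nd (nat_lit 78) (nat_lit 152) (nat_lit 0) (XT.lf (nat_lit 0) (nat_lit 2619757180) (nat_lit 152) (nat_lit 11554763030) (nat_lit 0) (nat_lit 716592121)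 (nat_lit 20) (nat_lit 5) (nat_lit 22) (nat_lit 4) (nat_lit 20) (nat_lit 4) (nat_lit 486) (nat_lit 359) (nat_lit 355)) (XT.lf (nat_lit 0) (nat_lit 8892527916) (nat_lit 152) (nat_lit 4285129153) (nat_lit 152) (nat_lit 1940305918) (nat_lit 18) (nat_lit 4) (nat_lit 20) (nat_lit 5) (nat_lit 20) (nat_lit 4) (nat_lit 487) (nat_lit 359) (nat_lit 354))))) (XT.nd (nat_lit 61932) (nat_lit 0) (nat_lit 1140) (XT.nd (nat_lit 156) (nat_lit 76) (nat_lit 0) (XT.nd (nat_lit 78) (nat_lit 304) (nat_lit 0) (XT.lf (nat_lit 0) (nat_lit 8591600159) (nat_lit 152) (nat_lit 886422258) (nat_lit 0) (nat_lit 5872367237) (nat_lit 16) (nat_lit 5) (nat_lit 18) (nat_lit 4) (nat_lit 16) (nat_lit 4) (nat_lit 488) (nat_lit 359) (nat_lit 353)) (XT.lf (nat_lit 0) (nat_lit 3805369190) (nat_lit 152) (nat_lit 11043713962) (nat_lit 0) (nat_lit 739315009) (nat_lit 12) (nat_lit 5) (nat_lit 14) (nat_lit 4) (nat_lit 12) (nat_lit 4) (nat_lit 489)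 (nat_lit 359) (nat_lit 352))) (XT.nd (nat_lit 61698) (nat_lit 0) (nat_lit 2128) (XT.lf (nat_lit 0) (nat_lit 9982488793) (nat_lit 76) (nat_lit 4651954216) (nat_lit 76) (nat_lit 1197415034) (nat_lit 11) (nat_lit 4) (nat_lit 12) (nat_lit 5) (nat_lit 12) (nat_lit 4) (nat_lit 490) (nat_lit 359) (nat_lit 351)) (XT.lf (nat_lit 0) (nat_lit 6046115722) (nat_lit 152) (nat_lit 385236621) (nat_lit 152) (nat_lit 385236621) (nat_lit 39) (nat_lit 4) (nat_lit 41) (nat_lit 5) (nat_lit 41) (nat_lit 4) (nat_lit 480) (nat_lit 360) (nat_lit 360)))) (XT.nd (nat_lit 156) (nat_lit 456) (nat_lit 0) (XT.nd (nat_lit 78) (nat_lit 152) (nat_lit 0) (XT.lf (nat_lit 0) (nat_lit 3921363685) (nat_lit 152) (nat_lit 5232448225) (nat_lit 152) (nat_lit 4678239850) (nat_lit 34) (nat_lit 4) (nat_lit 36) (nat_lit 5) (nat_lit 36) (nat_lit 4) (nat_lit 481) (nat_lit 360) (nat_lit 359)) (XT.lf (nat_lit 0) (nat_lit 5260503632) (nat_lit 152) (nat_lit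 4585913232) (nat_lit 0) (nat_lit 4189646025) (nat_lit 32) (nat_lit 5) (nat_lit 34) (nat_lit 4) (nat_lit 32) (nat_lit 4) (nat_lit 482) (nat_lit 360) (nat_lit 358))) (XT.nd (nat_lit 78) (nat_lit 152) (nat_lit 0) (XT.lf (nat_lit 0) (nat_lit 788618799) (nat_lit 76) (nat_lit 385454429) (nat_lit 152) (nat_lit 13071321924) (nat_lit 28) (nat_lit 5) (nat_lit 29) (nat_lit 5) (nat_lit 30) (nat_lit 4) (nat_lit 483) (nat_lit 360) (nat_lit 357)) (XT.lf (nat_lit 0) (nat_lit 6217780789) (nat_lit 152) (nat_lit 5140210863) (nat_lit 152) (nat_lit 3100756347) (nat_lit 26) (nat_lit 4) (nat_lit 28) (nat_lit 5) (nat_lit 28) (nat_lit 4) (nat_lit 484) (nat_lit 360) (nat_lit 356))))))) (XT.nd (nat_lit 62556) (nat_lit 0) (nat_lit 0) (XT.nd (nat_lit 62010) (nat_lit 0) (nat_lit 988) (XT.nd (nat_lit 234) (nat_lit 532) (nat_lit 0) (XT.nd (nat_lit 78) (nat_lit 456) (nat_lit 0) (XT.lf (nat_lit 0) (nat_lit 7072094835) (nat_lit 152)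 (nat_lit 2996909467) (nat_lit 0) (nat_lit 4608623545) (nat_lit 24) (nat_lit 5) (nat_lit 26) (nat_lit 4) (nat_lit 24) (nat_lit 4) (nat_lit 485) (nat_lit 360) (nat_lit 355)) (XT.nd (nat_lit 78) (nat_lit 152) (nat_lit 0) (XT.lf (nat_lit 0) (nat_lit 2312817613) (nat_lit 76) (nat_lit 274697358) (nat_lit 152) (nat_lit 12314485084) (nat_lit 20) (nat_lit 5) (nat_lit 21) (nat_lit 5) (nat_lit 22) (nat_lit 4) (nat_lit 486) (nat_lit 360) (nat_lit 354)) (XT.lf (nat_lit 0) (nat_lit 7654822700) (nat_lit 152) (nat_lit 5380921199) (nat_lit 152) (nat_lit 2095300747) (nat_lit 18) (nat_lit 4) (nat_lit 20) (nat_lit 5) (nat_lit 20) (nat_lit 4) (nat_lit 487) (nat_lit 360) (nat_lit 353)))) (XT.nd (nat_lit 156) (nat_lit 76) (nat_lit 0) (XT.nd (nat_lit 78) (nat_lit 304) (nat_lit 0) (XT.lf (nat_lit 0) (nat_lit 8322628155) (nat_lit 152) (nat_lit 2349894685) (nat_lit 0) (nat_lit 4693289290) (nat_lit 16) (nat_lit 5) (nat_lit 18)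 (nat_lit 4) (nat_lit 16) (nat_lit 4) (nat_lit 488) (nat_lit 360) (nat_lit 352)) (XT.lf (nat_lit 0) (nat_lit 2841398066) (nat_lit 76) (nat_lit 558102741) (nat_lit 152) (nat_lit 12206861302) (nat_lit 12) (nat_lit 5) (nat_lit 13) (nat_lit 5) (nat_lit 14) (nat_lit 4) (nat_lit 489) (nat_lit 360) (nat_lit 351))) (XT.nd (nat_lit 61542) (nat_lit 0) (nat_lit 2508) (XT.lf (nat_lit 0) (nat_lit 8052011618) (nat_lit 76) (nat_lit 6061966511) (nat_lit 76) (nat_lit 1738136248) (nat_lit 11) (nat_lit 4) (nat_lit 12) (nat_lit 5) (nat_lit 12) (nat_lit 4) (nat_lit 490) (nat_lit 360) (nat_lit 350)) (XT.lf (nat_lit 0) (nat_lit 554467991) (nat_lit 152) (nat_lit 3034295992) (nat_lit 152) (nat_lit 3034295992) (nat_lit 44) (nat_lit 4) (nat_lit 46) (nat_lit 5) (nat_lit 46) (nat_lit 4) (nat_lit 478) (nat_lit 361) (nat_lit 361))))) (XT.nd (nat_lit 234) (nat_lit 760) (nat_lit 0) (XT.nd (nat_lit 78) (nat_lit 532) (nat_lit 0) (XT.lf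 (nat_lit 0) (nat_lit 3535283941) (nat_lit 228) (nat_lit 6949853688) (nat_lit 0) (nat_lit 2953032622) (nat_lit 41) (nat_lit 5) (nat_lit 44) (nat_lit 4) (nat_lit 41) (nat_lit 4) (nat_lit 479) (nat_lit 361) (nat_lit 360)) (XT.nd (nat_lit 78) (nat_lit 380) (nat_lit 0) (XT.lf (nat_lit 0) (nat_lit 11906268631) (nat_lit 152) (nat_lit 1438231479) (nat_lit 152) (nat_lit 290687618) (nat_lit 39) (nat_lit 4) (nat_lit 41) (nat_lit 5) (nat_lit 41) (nat_lit 4) (nat_lit 480) (nat_lit 361) (nat_lit 359)) (XT.lf (nat_lit 0) (nat_lit 3539371820) (nat_lit 152) (nat_lit 5979948581) (nat_lit 152) (nat_lit 4316839196) (nat_lit 34) (nat_lit 4) (nat_lit 36) (nat_lit 5) (nat_lit 36) (nat_lit 4) (nat_lit 481) (nat_lit 361) (nat_lit 358)))) (XT.nd (nat_lit 156) (nat_lit 380) (nat_lit 0) (XT.nd (nat_lit 78) (nat_lit 228) (nat_lit 0) (XT.lf (nat_lit 0) (nat_lit 5509131920) (nat_lit 152) (nat_lit 5166672138) (nat_lit 0) (nat_lit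 3366481006) (nat_lit 32) (nat_lit 5) (nat_lit 34) (nat_lit 4) (nat_lit 32) (nat_lit 4) (nat_lit 482) (nat_lit 361) (nat_lit 357)) (XT.lf (nat_lit 0) (nat_lit 1304786618) (nat_lit 228) (nat_lit 4216426) (nat_lit 76) (nat_lit 12944753664) (nat_lit 29) (nat_lit 5) (nat_lit 32) (nat_lit 5) (nat_lit 30) (nat_lit 4) (nat_lit 483) (nat_lit 361) (nat_lit 356))) (XT.nd (nat_lit 78) (nat_lit 152) (nat_lit 0) (XT.lf (nat_lit 0) (nat_lit 5224951391) (nat_lit 152) (nat_lit 6152892547) (nat_lit 152) (nat_lit 3091483408) (nat_lit 26) (nat_lit 4) (nat_lit 28) (nat_lit 5) (nat_lit 28) (nat_lit 4) (nat_lit 484) (nat_lit 361) (nat_lit 355)) (XT.lf (nat_lit 0) (nat_lit 6968915173) (nat_lit 152) (nat_lit 4204495654) (nat_lit 0) (nat_lit 3517042326) (nat_lit 24) (nat_lit 5) (nat_lit 26) (nat_lit 4) (nat_lit 24) (nat_lit 4) (nat_lit 485) (nat_lit 361) (nat_lit 354)))))) (XT.nd (nat_lit 61854) (nat_lit 0) (nat_lit 988) (XT.nd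 (nat_lit 234) (nat_lit 380) (nat_lit 0) (XT.nd (nat_lit 78) (nat_lit 304) (nat_lit 0) (XT.lf (nat_lit 0) (nat_lit 873158755) (nat_lit 76) (nat_lit 1484465915) (nat_lit 152) (nat_lit 12559524405) (nat_lit 20) (nat_lit 5) (nat_lit 21) (nat_lit 5) (nat_lit 22) (nat_lit 4) (nat_lit 486) (nat_lit 361) (nat_lit 353)) (XT.nd (nat_lit 78) (nat_lit 152) (nat_lit 0) (XT.lf (nat_lit 0) (nat_lit 6002867251) (nat_lit 152) (nat_lit 6687462992) (nat_lit 152) (nat_lit 2458174391) (nat_lit 18) (nat_lit 4) (nat_lit 20) (nat_lit 5) (nat_lit 20) (nat_lit 4) (nat_lit 487) (nat_lit 361) (nat_lit 352)) (XT.lf (nat_lit 0) (nat_lit 7847293448) (nat_lit 152) (nat_lit 4233693298) (nat_lit 0) (nat_lit 3304677374) (nat_lit 16) (nat_lit 5) (nat_lit 18) (nat_lit 4) (nat_lit 16) (nat_lit 4) (nat_lit 488) (nat_lit 361) (nat_lit 351)))) (XT.nd (nat_lit 61464) (nat_lit 0) (nat_lit 2888) (XT.nd (nat_lit 78) (nat_lit 76) (nat_lit 0) (XT.lf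 (nat_lit 0) (nat_lit 704023846) (nat_lit 76) (nat_lit 2083774779) (nat_lit 152) (nat_lit 12840940430) (nat_lit 12) (nat_lit 5) (nat_lit 13) (nat_lit 5) (nat_lit 14) (nat_lit 4) (nat_lit 489) (nat_lit 361) (nat_lit 350)) (XT.lf (nat_lit 0) (nat_lit 5689106187) (nat_lit 76) (nat_lit 7692350702) (nat_lit 76) (nat_lit 2495451253) (nat_lit 11) (nat_lit 4) (nat_lit 12) (nat_lit 5) (nat_lit 12) (nat_lit 4) (nat_lit 490) (nat_lit 361) (nat_lit 349))) (XT.nd (nat_lit 78) (nat_lit 152) (nat_lit 0) (XT.lf (nat_lit 0) (nat_lit 912469276) (nat_lit 228) (nat_lit 4611798327) (nat_lit 0) (nat_lit 912469276) (nat_lit 51) (nat_lit 5) (nat_lit 54) (nat_lit 4) (nat_lit 51) (nat_lit 4) (nat_lit 476) (nat_lit 362) (nat_lit 362)) (XT.lf (nat_lit 0) (nat_lit 8892270430) (nat_lit 152) (nat_lit 2395135370) (nat_lit 152) (nat_lit 1771187869) (nat_lit 49) (nat_lit 4) (nat_lit 51) (nat_lit 5) (nat_lit 51) (nat_lit 4) (nat_lit 477)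 (nat_lit 362) (nat_lit 361))))) (XT.nd (nat_lit 312) (nat_lit 760) (nat_lit 0) (XT.nd (nat_lit 156) (nat_lit 532) (nat_lit 0) (XT.nd (nat_lit 78) (nat_lit 228) (nat_lit 0) (XT.lf (nat_lit 0) (nat_lit 925178266) (nat_lit 152) (nat_lit 6764273881) (nat_lit 152) (nat_lit 5558664300) (nat_lit 44) (nat_lit 4) (nat_lit 46) (nat_lit 5) (nat_lit 46) (nat_lit 4) (nat_lit 478) (nat_lit 362) (nat_lit 360)) (XT.lf (nat_lit 0) (nat_lit 3933528341) (nat_lit 228) (nat_lit 7322407159) (nat_lit 0) (nat_lit 2186265621) (nat_lit 41) (nat_lit 5) (nat_lit 44) (nat_lit 4) (nat_lit 41) (nat_lit 4) (nat_lit 479) (nat_lit 362) (nat_lit 359))) (XT.nd (nat_lit 78) (nat_lit 304) (nat_lit 0) (XT.lf (nat_lit 0) (nat_lit 1524367) (nat_lit 228) (nat_lit 2293011208) (nat_lit 76) (nat_lit 11346683103) (nat_lit 38) (nat_lit 5) (nat_lit 41) (nat_lit 5) (nat_lit 39) (nat_lit 4) (nat_lit 480) (nat_lit 362) (nat_lit 358)) (XT.lf (nat_lit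 0) (nat_lit 2775054312) (nat_lit 152) (nat_lit 6921394073) (nat_lit 152) (nat_lit 4147930476) (nat_lit 34) (nat_lit 4) (nat_lit 36) (nat_lit 5) (nat_lit 36) (nat_lit 4) (nat_lit 481) (nat_lit 362) (nat_lit 357)))) (XT.nd (nat_lit 156) (nat_lit 380) (nat_lit 0) (XT.nd (nat_lit 78) (nat_lit 228) (nat_lit 0) (XT.lf (nat_lit 0) (nat_lit 5566905182) (nat_lit 152) (nat_lit 6135167475) (nat_lit 0) (nat_lit 2350588741) (nat_lit 32) (nat_lit 5) (nat_lit 34) (nat_lit 4) (nat_lit 32) (nat_lit 4) (nat_lit 482) (nat_lit 362) (nat_lit 356)) (XT.lf (nat_lit 0) (nat_lit 1248500282) (nat_lit 228) (nat_lit 1177097794) (nat_lit 76) (nat_lit 11840590613) (nat_lit 29) (nat_lit 5) (nat_lit 32) (nat_lit 5) (nat_lit 30) (nat_lit 4) (nat_lit 483) (nat_lit 362) (nat_lit 355))) (XT.nd (nat_lit 78) (nat_lit 152) (nat_lit 0) (XT.lf (nat_lit 0) (nat_lit 3833775917) (nat_lit 152) (nat_lit 7368207117) (nat_lit 152) (nat_lit 3282168338)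 (nat_lit 26) (nat_lit 4) (nat_lit 28) (nat_lit 5) (nat_lit 28) (nat_lit 4) (nat_lit 484) (nat_lit 362) (nat_lit 354)) (XT.lf (nat_lit 0) (nat_lit 6667305059) (nat_lit 152) (nat_lit 5816251471) (nat_lit 0) (nat_lit 2224014456) (nat_lit 24) (nat_lit 5) (nat_lit 26) (nat_lit 4) (nat_lit 24) (nat_lit 4) (nat_lit 485) (nat_lit 362) (nat_lit 353))))))))
noncomputable def xc1 : XT := (XT.nd (nat_lit 124410) (nat_lit 0) (nat_lit 76) (XT.nd (nat_lit 62244) (nat_lit 0) (nat_lit 76) (XT.nd (nat_lit 61698) (nat_lit 0) (nat_lit 1596) (XT.nd (nat_lit 234) (nat_lit 380) (nat_lit 0) (XT.nd (nat_lit 78) (nat_lit 380) (nat_lit 0) (XT.lf (nat_lit 0) (nat_lit 1931527795) (nat_lit 228) (nat_lit 966235749) (nat_lit 76) (nat_lit 12038776235) (nat_lit 21) (nat_lit 5) (nat_lit 24) (nat_lit 5) (nat_lit 22) (nat_lit 4) (nat_lit 486) (nat_lit 362) (nat_lit 352)) (XT.nd (nat_lit 78) (nat_lit 152) (nat_lit 0) (XT.lf (nat_lit 0)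 (nat_lit 3935218113) (nat_lit 152) (nat_lit 8205896169) (nat_lit 152) (nat_lit 3029243926) (nat_lit 18) (nat_lit 4) (nat_lit 20) (nat_lit 5) (nat_lit 20) (nat_lit 4) (nat_lit 487) (nat_lit 362) (nat_lit 351)) (XT.lf (nat_lit 0) (nat_lit 7165180697) (nat_lit 152) (nat_lit 6539464136) (nat_lit 0) (nat_lit 1705318137) (nat_lit 16) (nat_lit 5) (nat_lit 18) (nat_lit 4) (nat_lit 16) (nat_lit 4) (nat_lit 488) (nat_lit 362) (nat_lit 350)))) (XT.nd (nat_lit 61308) (nat_lit 0) (nat_lit 3496) (XT.nd (nat_lit 78) (nat_lit 152) (nat_lit 0) (XT.lf (nat_lit 0) (nat_lit 1976968792) (nat_lit 228) (nat_lit 1839893659) (nat_lit 76) (nat_lit 11838541281) (nat_lit 13) (nat_lit 5) (nat_lit 16) (nat_lit 5) (nat_lit 14) (nat_lit 4) (nat_lit 489) (nat_lit 362) (nat_lit 349)) (XT.lf (nat_lit 0) (nat_lit 2891707827) (nat_lit 76) (nat_lit 9544531396) (nat_lit 76) (nat_lit 3470021783) (nat_lit 11) (nat_lit 4) (nat_lit 12) (nat_lit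 5) (nat_lit 12) (nat_lit 4) (nat_lit 490) (nat_lit 362) (nat_lit 348))) (XT.nd (nat_lit 78) (nat_lit 228) (nat_lit 0) (XT.lf (nat_lit 0) (nat_lit 3020684747) (nat_lit 228) (nat_lit 1618175844) (nat_lit 228) (nat_lit 1618175844) (nat_lit 60) (nat_lit 4) (nat_lit 63) (nat_lit 5) (nat_lit 63) (nat_lit 4) (nat_lit 474) (nat_lit 363) (nat_lit 363)) (XT.lf (nat_lit 0) (nat_lit 5900290788) (nat_lit 228) (nat_lit 1547481123) (nat_lit 0) (nat_lit 5244771544) (nat_lit 57) (nat_lit 5) (nat_lit 60) (nat_lit 4) (nat_lit 57) (nat_lit 4) (nat_lit 475) (nat_lit 363) (nat_lit 362))))) (XT.nd (nat_lit 234) (nat_lit 912) (nat_lit 0) (XT.nd (nat_lit 78) (nat_lit 532) (nat_lit 0) (XT.lf (nat_lit 0) (nat_lit 2369637315) (nat_lit 228) (nat_lit 9402772647) (nat_lit 0) (nat_lit 1103023890) (nat_lit 51) (nat_lit 5) (nat_lit 54) (nat_lit 4) (nat_lit 51) (nat_lit 4) (nat_lit 476) (nat_lit 363) (nat_lit 361)) (XT.nd (nat_lit 78)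 (nat_lit 380) (nat_lit 0) (XT.lf (nat_lit 0) (nat_lit 8534444207) (nat_lit 152) (nat_lit 3200223361) (nat_lit 152) (nat_lit 1327835663) (nat_lit 49) (nat_lit 4) (nat_lit 51) (nat_lit 5) (nat_lit 51) (nat_lit 4) (nat_lit 477) (nat_lit 363) (nat_lit 360)) (XT.lf (nat_lit 0) (nat_lit 373744549) (nat_lit 152) (nat_lit 7646317869) (nat_lit 152) (nat_lit 5234045261) (nat_lit 44) (nat_lit 4) (nat_lit 46) (nat_lit 5) (nat_lit 46) (nat_lit 4) (nat_lit 478) (nat_lit 363) (nat_lit 359)))) (XT.nd (nat_lit 156) (nat_lit 456) (nat_lit 0) (XT.nd (nat_lit 78) (nat_lit 228) (nat_lit 0) (XT.lf (nat_lit 0) (nat_lit 4148113804) (nat_lit 228) (nat_lit 8067839633) (nat_lit 0) (nat_lit 1234312948) (nat_lit 41) (nat_lit 5) (nat_lit 44) (nat_lit 4) (nat_lit 41) (nat_lit 4) (nat_lit 479) (nat_lit 363) (nat_lit 358)) (XT.lf (nat_lit 0) (nat_lit 105082347) (nat_lit 228) (nat_lit 3234376950) (nat_lit 76) (nat_lit 10311803528) (nat_lit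 38) (nat_lit 5) (nat_lit 41) (nat_lit 5) (nat_lit 39) (nat_lit 4) (nat_lit 480) (nat_lit 363) (nat_lit 357))) (XT.nd (nat_lit 78) (nat_lit 152) (nat_lit 0) (XT.lf (nat_lit 0) (nat_lit 1627743311) (nat_lit 152) (nat_lit 8057607324) (nat_lit 152) (nat_lit 4171366099) (nat_lit 34) (nat_lit 4) (nat_lit 36) (nat_lit 5) (nat_lit 36) (nat_lit 4) (nat_lit 481) (nat_lit 363) (nat_lit 356)) (XT.lf (nat_lit 0) (nat_lit 5433873897) (nat_lit 152) (nat_lit 7492245501) (nat_lit 0) (nat_lit 1141081556) (nat_lit 32) (nat_lit 5) (nat_lit 34) (nat_lit 4) (nat_lit 32) (nat_lit 4) (nat_lit 482) (nat_lit 363) (nat_lit 355)))))) (XT.nd (nat_lit 546) (nat_lit 76) (nat_lit 0) (XT.nd (nat_lit 234) (nat_lit 836) (nat_lit 0) (XT.nd (nat_lit 78) (nat_lit 380) (nat_lit 0) (XT.lf (nat_lit 0) (nat_lit 1000044802) (nat_lit 228) (nat_lit 2741393030) (nat_lit 76) (nat_lit 10541366532) (nat_lit 29) (nat_lit 5) (nat_lit 32) (nat_lit 5)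 (nat_lit 30) (nat_lit 4) (nat_lit 483) (nat_lit 363) (nat_lit 354)) (XT.nd (nat_lit 78) (nat_lit 152) (nat_lit 0) (XT.lf (nat_lit 0) (nat_lit 2043038777) (nat_lit 152) (nat_lit 8787216498) (nat_lit 152) (nat_lit 3672977753) (nat_lit 26) (nat_lit 4) (nat_lit 28) (nat_lit 5) (nat_lit 28) (nat_lit 4) (nat_lit 484) (nat_lit 363) (nat_lit 353)) (XT.lf (nat_lit 0) (nat_lit 6167000952) (nat_lit 152) (nat_lit 7833585249) (nat_lit 0) (nat_lit 728410105) (nat_lit 24) (nat_lit 5) (nat_lit 26) (nat_lit 4) (nat_lit 24) (nat_lit 4) (nat_lit 485) (nat_lit 363) (nat_lit 352)))) (XT.nd (nat_lit 156) (nat_lit 380) (nat_lit 0) (XT.nd (nat_lit 78) (nat_lit 228) (nat_lit 0) (XT.lf (nat_lit 0) (nat_lit 1310848013) (nat_lit 228) (nat_lit 3202941251) (nat_lit 76) (nat_lit 10446359929) (nat_lit 21) (nat_lit 5) (nat_lit 24) (nat_lit 5) (nat_lit 22) (nat_lit 4) (nat_lit 486) (nat_lit 363) (nat_lit 351)) (XT.lf (nat_lit 0) (nat_lit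 1450068601) (nat_lit 152) (nat_lit 9937547517) (nat_lit 152) (nat_lit 3809008343) (nat_lit 18) (nat_lit 4) (nat_lit 20) (nat_lit 5) (nat_lit 20) (nat_lit 4) (nat_lit 487) (nat_lit 363) (nat_lit 350))) (XT.nd (nat_lit 78) (nat_lit 228) (nat_lit 0) (XT.lf (nat_lit 0) (nat_lit 6168795399) (nat_lit 76) (nat_lit 107597073) (nat_lit 152) (nat_lit 9162323466) (nat_lit 16) (nat_lit 5) (nat_lit 17) (nat_lit 5) (nat_lit 18) (nat_lit 4) (nat_lit 488) (nat_lit 363) (nat_lit 349)) (XT.lf (nat_lit 0) (nat_lit 961571541) (nat_lit 228) (nat_lit 4802134471) (nat_lit 76) (nat_lit 9922768059) (nat_lit 13) (nat_lit 5) (nat_lit 16) (nat_lit 5) (nat_lit 14) (nat_lit 4) (nat_lit 489) (nat_lit 363) (nat_lit 348))))) (XT.nd (nat_lit 61308) (nat_lit 0) (nat_lit 2584) (XT.nd (nat_lit 61152) (nat_lit 0) (nat_lit 3648) (XT.nd (nat_lit 61074) (nat_lit 0) (nat_lit 4332) (XT.lf (nat_lit 0) (nat_lit 11279723780) (nat_lit 152) (nat_lit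 338134166) (nat_lit 0) (nat_lit 4322296177) (nat_lit 12) (nat_lit 5) (nat_lit 14) (nat_lit 4) (nat_lit 12) (nat_lit 4) (nat_lit 490) (nat_lit 363) (nat_lit 347)) (XT.lf (nat_lit 0) (nat_lit 2081567924) (nat_lit 228) (nat_lit 1920795464) (nat_lit 0) (nat_lit 2081567924) (nat_lit 69) (nat_lit 5) (nat_lit 72) (nat_lit 4) (nat_lit 69) (nat_lit 4) (nat_lit 472) (nat_lit 364) (nat_lit 364))) (XT.nd (nat_lit 78) (nat_lit 228) (nat_lit 0) (XT.lf (nat_lit 0) (nat_lit 836339734) (nat_lit 228) (nat_lit 11356245137) (nat_lit 0) (nat_lit 147651216) (nat_lit 63) (nat_lit 5) (nat_lit 66) (nat_lit 4) (nat_lit 63) (nat_lit 4) (nat_lit 473) (nat_lit 364) (nat_lit 363)) (XT.lf (nat_lit 0) (nat_lit 5869363842) (nat_lit 228) (nat_lit 4001964800) (nat_lit 228) (nat_lit 2644646654) (nat_lit 60) (nat_lit 4) (nat_lit 63) (nat_lit 5) (nat_lit 63) (nat_lit 4) (nat_lit 474) (nat_lit 364) (nat_lit 362)))) (XT.nd (nat_lit 156) (nat_lit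 380) (nat_lit 0) (XT.nd (nat_lit 78) (nat_lit 456) (nat_lit 0) (XT.lf (nat_lit 0) (nat_lit 6383586050) (nat_lit 228) (nat_lit 1896341216) (nat_lit 0) (nat_lit 4416455535) (nat_lit 57) (nat_lit 5) (nat_lit 60) (nat_lit 4) (nat_lit 57) (nat_lit 4) (nat_lit 475) (nat_lit 364) (nat_lit 361)) (XT.lf (nat_lit 0) (nat_lit 2737596131) (nat_lit 228) (nat_lit 9940457187) (nat_lit 0) (nat_lit 203262530) (nat_lit 51) (nat_lit 5) (nat_lit 54) (nat_lit 4) (nat_lit 51) (nat_lit 4) (nat_lit 476) (nat_lit 364) (nat_lit 360))) (XT.nd (nat_lit 78) (nat_lit 228) (nat_lit 0) (XT.lf (nat_lit 0) (nat_lit 7818479099) (nat_lit 152) (nat_lit 4187155319) (nat_lit 152) (nat_lit 1064691357) (nat_lit 49) (nat_lit 4) (nat_lit 51) (nat_lit 5) (nat_lit 51) (nat_lit 4) (nat_lit 477) (nat_lit 364) (nat_lit 359)) (XT.lf (nat_lit 0) (nat_lit 8173191663) (nat_lit 228) (nat_lit 538688121) (nat_lit 0) (nat_lit 4552148219) (nat_lit 46) (nat_lit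 5) (nat_lit 49) (nat_lit 4) (nat_lit 46) (nat_lit 4) (nat_lit 478) (nat_lit 364) (nat_lit 358))))))) (XT.nd (nat_lit 62010) (nat_lit 0) (nat_lit 608) (XT.nd (nat_lit 546) (nat_lit 912) (nat_lit 0) (XT.nd (nat_lit 234) (nat_lit 760) (nat_lit 0) (XT.nd (nat_lit 78) (nat_lit 532) (nat_lit 0) (XT.lf (nat_lit 0) (nat_lit 4179227830) (nat_lit 228) (nat_lit 9186802459) (nat_lit 0) (nat_lit 96342799) (nat_lit 41) (nat_lit 5) (nat_lit 44) (nat_lit 4) (nat_lit 41) (nat_lit 4) (nat_lit 479) (nat_lit 364) (nat_lit 357)) (XT.nd (nat_lit 78) (nat_lit 304) (nat_lit 0) (XT.lf (nat_lit 0) (nat_lit 23889230) (nat_lit 228) (nat_lit 4551951540) (nat_lit 76) (nat_lit 9089525924) (nat_lit 38) (nat_lit 5) (nat_lit 41) (nat_lit 5) (nat_lit 39) (nat_lit 4) (nat_lit 480) (nat_lit 364) (nat_lit 356)) (XT.lf (nat_lit 0) (nat_lit 96436310) (nat_lit 152) (nat_lit 9389581141) (nat_lit 152) (nat_lit 4387166545) (nat_lit 34) (nat_lit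 4) (nat_lit 36) (nat_lit 5) (nat_lit 36) (nat_lit 4) (nat_lit 481) (nat_lit 364) (nat_lit 355)))) (XT.nd (nat_lit 156) (nat_lit 380) (nat_lit 0) (XT.nd (nat_lit 78) (nat_lit 228) (nat_lit 0) (XT.lf (nat_lit 0) (nat_lit 4845058907) (nat_lit 76) (nat_lit 266593823) (nat_lit 152) (nat_lit 8974229093) (nat_lit 32) (nat_lit 5) (nat_lit 33) (nat_lit 5) (nat_lit 34) (nat_lit 4) (nat_lit 482) (nat_lit 364) (nat_lit 354)) (XT.lf (nat_lit 0) (nat_lit 559203080) (nat_lit 228) (nat_lit 4698468992) (nat_lit 76) (nat_lit 9045946177) (nat_lit 29) (nat_lit 5) (nat_lit 32) (nat_lit 5) (nat_lit 30) (nat_lit 4) (nat_lit 483) (nat_lit 364) (nat_lit 353))) (XT.nd (nat_lit 78) (nat_lit 304) (nat_lit 0) (XT.lf (nat_lit 0) (nat_lit 10263302120) (nat_lit 152) (nat_lit 146872887) (nat_lit 0) (nat_lit 4116394657) (nat_lit 28) (nat_lit 5) (nat_lit 30) (nat_lit 4) (nat_lit 28) (nat_lit 4) (nat_lit 484) (nat_lit 364) (nat_lit 352))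 (XT.lf (nat_lit 0) (nat_lit 4489971686) (nat_lit 76) (nat_lit 983982674) (nat_lit 152) (nat_lit 9280665701) (nat_lit 24) (nat_lit 5) (nat_lit 25) (nat_lit 5) (nat_lit 26) (nat_lit 4) (nat_lit 485) (nat_lit 364) (nat_lit 351))))) (XT.nd (nat_lit 312) (nat_lit 152) (nat_lit 0) (XT.nd (nat_lit 156) (nat_lit 456) (nat_lit 0) (XT.nd (nat_lit 78) (nat_lit 76) (nat_lit 0) (XT.lf (nat_lit 0) (nat_lit 489373856) (nat_lit 228) (nat_lit 5850363786) (nat_lit 76) (nat_lit 8648373685) (nat_lit 21) (nat_lit 5) (nat_lit 24) (nat_lit 5) (nat_lit 22) (nat_lit 4) (nat_lit 486) (nat_lit 364) (nat_lit 350)) (XT.lf (nat_lit 0) (nat_lit 10438622577) (nat_lit 152) (nat_lit 1435673428) (nat_lit 0) (nat_lit 3352841437) (nat_lit 20) (nat_lit 5) (nat_lit 22) (nat_lit 4) (nat_lit 20) (nat_lit 4) (nat_lit 487) (nat_lit 364) (nat_lit 349))) (XT.nd (nat_lit 78) (nat_lit 152) (nat_lit 0) (XT.lf (nat_lit 0) (nat_lit 3032335184) (nat_lit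 76) (nat_lit 2159743079) (nat_lit 152) (nat_lit 10279631366) (nat_lit 16) (nat_lit 5) (nat_lit 17) (nat_lit 5) (nat_lit 18) (nat_lit 4) (nat_lit 488) (nat_lit 364) (nat_lit 348)) (XT.lf (nat_lit 0) (nat_lit 7525777702) (nat_lit 152) (nat_lit 7928898414) (nat_lit 152) (nat_lit 267357804) (nat_lit 14) (nat_lit 4) (nat_lit 16) (nat_lit 5) (nat_lit 16) (nat_lit 4) (nat_lit 489) (nat_lit 364) (nat_lit 347)))) (XT.nd (nat_lit 60996) (nat_lit 0) (nat_lit 4332) (XT.nd (nat_lit 60918) (nat_lit 0) (nat_lit 5092) (XT.lf (nat_lit 0) (nat_lit 9930303622) (nat_lit 152) (nat_lit 3964046692) (nat_lit 0) (nat_lit 2083878724) (nat_lit 12) (nat_lit 5) (nat_lit 14) (nat_lit 4) (nat_lit 12) (nat_lit 4) (nat_lit 490) (nat_lit 364) (nat_lit 346)) (XT.lf (nat_lit 0) (nat_lit 5269508107) (nat_lit 228) (nat_lit 323920029) (nat_lit 228) (nat_lit 323920029) (nat_lit 79) (nat_lit 4) (nat_lit 82) (nat_lit 5) (nat_lit 82) (nat_lit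 4) (nat_lit 470) (nat_lit 365) (nat_lit 365))) (XT.nd (nat_lit 78) (nat_lit 228) (nat_lit 0) (XT.lf (nat_lit 0) (nat_lit 3397017584) (nat_lit 228) (nat_lit 4670499402) (nat_lit 228) (nat_lit 3932492522) (nat_lit 72) (nat_lit 4) (nat_lit 75) (nat_lit 5) (nat_lit 75) (nat_lit 4) (nat_lit 471) (nat_lit 365) (nat_lit 364)) (XT.lf (nat_lit 0) (nat_lit 4793245346) (nat_lit 228) (nat_lit 4009239756) (nat_lit 0) (nat_lit 3367246902) (nat_lit 69) (nat_lit 5) (nat_lit 72) (nat_lit 4) (nat_lit 69) (nat_lit 4) (nat_lit 472) (nat_lit 365) (nat_lit 363)))))) (XT.nd (nat_lit 546) (nat_lit 1596) (nat_lit 0) (XT.nd (nat_lit 234) (nat_lit 1216) (nat_lit 0) (XT.nd (nat_lit 78) (nat_lit 456) (nat_lit 0) (XT.lf (nat_lit 0) (nat_lit 638439450) (nat_lit 152) (nat_lit 721184369) (nat_lit 228) (nat_lit 10984335203) (nat_lit 63) (nat_lit 5) (nat_lit 65) (nat_lit 5) (nat_lit 66) (nat_lit 4) (nat_lit 473) (nat_lit 365) (nat_lit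 362)) (XT.nd (nat_lit 78) (nat_lit 228) (nat_lit 0) (XT.lf (nat_lit 0) (nat_lit 5353196587) (nat_lit 228) (nat_lit 4942154974) (nat_lit 228) (nat_lit 2226332675) (nat_lit 60) (nat_lit 4) (nat_lit 63) (nat_lit 5) (nat_lit 63) (nat_lit 4) (nat_lit 474) (nat_lit 365) (nat_lit 361)) (XT.lf (nat_lit 0) (nat_lit 6695079628) (nat_lit 228) (nat_lit 2594366231) (nat_lit 0) (nat_lit 3414618989) (nat_lit 57) (nat_lit 5) (nat_lit 60) (nat_lit 4) (nat_lit 57) (nat_lit 4) (nat_lit 475) (nat_lit 365) (nat_lit 360)))) (XT.nd (nat_lit 156) (nat_lit 608) (nat_lit 0) (XT.nd (nat_lit 78) (nat_lit 152) (nat_lit 0) (XT.lf (nat_lit 0) (nat_lit 2048132194) (nat_lit 152) (nat_lit 886761766) (nat_lit 228) (nat_lit 9956115774) (nat_lit 51) (nat_lit 5) (nat_lit 53) (nat_lit 5) (nat_lit 54) (nat_lit 4) (nat_lit 476) (nat_lit 365) (nat_lit 359)) (XT.lf (nat_lit 0) (nat_lit 6743749503) (nat_lit 152) (nat_lit 5356793611) (nat_lit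 152) (nat_lit 981525018) (nat_lit 49) (nat_lit 4) (nat_lit 51) (nat_lit 5) (nat_lit 51) (nat_lit 4) (nat_lit 477) (nat_lit 365) (nat_lit 358))) (XT.nd (nat_lit 78) (nat_lit 380) (nat_lit 0) (XT.lf (nat_lit 0) (nat_lit 8150248727) (nat_lit 228) (nat_lit 1810341431) (nat_lit 0) (nat_lit 3317270427) (nat_lit 46) (nat_lit 5) (nat_lit 49) (nat_lit 4) (nat_lit 46) (nat_lit 4) (nat_lit 478) (nat_lit 365) (nat_lit 357)) (XT.lf (nat_lit 0) (nat_lit 2790013622) (nat_lit 152) (nat_lit 1244967136) (nat_lit 228) (nat_lit 9443389387) (nat_lit 41) (nat_lit 5) (nat_lit 43) (nat_lit 5) (nat_lit 44) (nat_lit 4) (nat_lit 479) (nat_lit 365) (nat_lit 356))))) (XT.nd (nat_lit 312) (nat_lit 760) (nat_lit 0) (XT.nd (nat_lit 156) (nat_lit 456) (nat_lit 0) (XT.nd (nat_lit 78) (nat_lit 228) (nat_lit 0) (XT.lf (nat_lit 0) (nat_lit 7435031559) (nat_lit 152) (nat_lit 6003135533) (nat_lit 152) (nat_lit 245343656) (nat_lit 39) (nat_lit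 4) (nat_lit 41) (nat_lit 5) (nat_lit 41) (nat_lit 4) (nat_lit 480) (nat_lit 365) (nat_lit 355)) (XT.lf (nat_lit 0) (nat_lit 9110092638) (nat_lit 228) (nat_lit 1796332411) (nat_lit 0) (nat_lit 2987133627) (nat_lit 36) (nat_lit 5) (nat_lit 39) (nat_lit 4) (nat_lit 36) (nat_lit 4) (nat_lit 481) (nat_lit 365) (nat_lit 354))) (XT.nd (nat_lit 78) (nat_lit 152) (nat_lit 0) (XT.lf (nat_lit 0) (nat_lit 2719087944) (nat_lit 76) (nat_lit 1887935691) (nat_lit 152) (nat_lit 9501555420) (nat_lit 32) (nat_lit 5) (nat_lit 33) (nat_lit 5) (nat_lit 34) (nat_lit 4) (nat_lit 482) (nat_lit 365) (nat_lit 353)) (XT.lf (nat_lit 0) (nat_lit 7278113455) (nat_lit 152) (nat_lit 6975126333) (nat_lit 152) (nat_lit 75398955) (nat_lit 30) (nat_lit 4) (nat_lit 32) (nat_lit 5) (nat_lit 32) (nat_lit 4) (nat_lit 483) (nat_lit 365) (nat_lit 352)))) (XT.nd (nat_lit 156) (nat_lit 304) (nat_lit 0) (XT.nd (nat_lit 78) (nat_lit 304) (nat_lit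 0) (XT.lf (nat_lit 0) (nat_lit 9515542634) (nat_lit 152) (nat_lit 2707745377) (nat_lit 0) (nat_lit 2330595370) (nat_lit 28) (nat_lit 5) (nat_lit 30) (nat_lit 4) (nat_lit 28) (nat_lit 4) (nat_lit 484) (nat_lit 365) (nat_lit 351)) (XT.lf (nat_lit 0) (nat_lit 1673155551) (nat_lit 76) (nat_lit 2914153186) (nat_lit 152) (nat_lit 10197160922) (nat_lit 24) (nat_lit 5) (nat_lit 25) (nat_lit 5) (nat_lit 26) (nat_lit 4) (nat_lit 485) (nat_lit 365) (nat_lit 350))) (XT.nd (nat_lit 78) (nat_lit 152) (nat_lit 0) (XT.lf (nat_lit 0) (nat_lit 6106053159) (nat_lit 152) (nat_lit 8373623348) (nat_lit 152) (nat_lit 540703896) (nat_lit 22) (nat_lit 4) (nat_lit 24) (nat_lit 5) (nat_lit 24) (nat_lit 4) (nat_lit 486) (nat_lit 365) (nat_lit 349)) (XT.lf (nat_lit 0) (nat_lit 9296007040) (nat_lit 152) (nat_lit 4719070244) (nat_lit 0) (nat_lit 1246792475) (nat_lit 20) (nat_lit 5) (nat_lit 22) (nat_lit 4) (nat_lit 20) (nat_lit 4)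 (nat_lit 487) (nat_lit 365) (nat_lit 348))))))))
noncomputable def xc2 : XT := (XT.nd (nat_lit 123474) (nat_lit 0) (nat_lit 76) (XT.nd (nat_lit 61776) (nat_lit 0) (nat_lit 0) (XT.nd (nat_lit 61230) (nat_lit 0) (nat_lit 2584) (XT.nd (nat_lit 60918) (nat_lit 0) (nat_lit 4560) (XT.nd (nat_lit 78) (nat_lit 380) (nat_lit 0) (XT.lf (nat_lit 0) (nat_lit 3903513685) (nat_lit 228) (nat_lit 523225433) (nat_lit 76) (nat_lit 11082389293) (nat_lit 17) (nat_lit 5) (nat_lit 20) (nat_lit 5) (nat_lit 18) (nat_lit 4) (nat_lit 488) (nat_lit 365) (nat_lit 347)) (XT.nd (nat_lit 78) (nat_lit 152) (nat_lit 0) (XT.lf (nat_lit 0) (nat_lit 3730792623) (nat_lit 152) (nat_lit 10308234481) (nat_lit 152) (nat_lit 1722967697) (nat_lit 14) (nat_lit 4) (nat_lit 16) (nat_lit 5) (nat_lit 16) (nat_lit 4) (nat_lit 489) (nat_lit 365) (nat_lit 346)) (XT.lf (nat_lit 0) (nat_lit 7991259787) (nat_lit 76) (nat_lit 379227166) (nat_lit 152) (nat_lit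 7650358321) (nat_lit 12) (nat_lit 5) (nat_lit 13) (nat_lit 5) (nat_lit 14) (nat_lit 4) (nat_lit 490) (nat_lit 365) (nat_lit 345)))) (XT.nd (nat_lit 156) (nat_lit 760) (nat_lit 0) (XT.nd (nat_lit 78) (nat_lit 304) (nat_lit 0) (XT.lf (nat_lit 0) (nat_lit 577357219) (nat_lit 228) (nat_lit 2589607318) (nat_lit 228) (nat_lit 2589607318) (nat_lit 86) (nat_lit 4) (nat_lit 89) (nat_lit 5) (nat_lit 89) (nat_lit 4) (nat_lit 468) (nat_lit 366) (nat_lit 366)) (XT.lf (nat_lit 0) (nat_lit 3259256058) (nat_lit 304) (nat_lit 5929523590) (nat_lit 0) (nat_lit 2483906030) (nat_lit 82) (nat_lit 5) (nat_lit 86) (nat_lit 4) (nat_lit 82) (nat_lit 4) (nat_lit 469) (nat_lit 366) (nat_lit 365))) (XT.nd (nat_lit 78) (nat_lit 456) (nat_lit 0) (XT.lf (nat_lit 0) (nat_lit 34454404) (nat_lit 304) (nat_lit 1458519148) (nat_lit 76) (nat_lit 10343534776) (nat_lit 78) (nat_lit 5) (nat_lit 82) (nat_lit 5) (nat_lit 79) (nat_lit 4) (nat_lit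 470) (nat_lit 366) (nat_lit 364)) (XT.lf (nat_lit 0) (nat_lit 3066406477) (nat_lit 228) (nat_lit 5575987839) (nat_lit 228) (nat_lit 3361322339) (nat_lit 72) (nat_lit 4) (nat_lit 75) (nat_lit 5) (nat_lit 75) (nat_lit 4) (nat_lit 471) (nat_lit 366) (nat_lit 363))))) (XT.nd (nat_lit 234) (nat_lit 1064) (nat_lit 0) (XT.nd (nat_lit 78) (nat_lit 684) (nat_lit 0) (XT.lf (nat_lit 0) (nat_lit 5258125977) (nat_lit 228) (nat_lit 4512332727) (nat_lit 0) (nat_lit 2404883069) (nat_lit 69) (nat_lit 5) (nat_lit 72) (nat_lit 4) (nat_lit 69) (nat_lit 4) (nat_lit 472) (nat_lit 366) (nat_lit 362)) (XT.nd (nat_lit 78) (nat_lit 380) (nat_lit 0) (XT.lf (nat_lit 0) (nat_lit 1715700248) (nat_lit 304) (nat_lit 49666484) (nat_lit 76) (nat_lit 10586086623) (nat_lit 65) (nat_lit 5) (nat_lit 69) (nat_lit 5) (nat_lit 66) (nat_lit 4) (nat_lit 473) (nat_lit 366) (nat_lit 361)) (XT.lf (nat_lit 0) (nat_lit 4492416711) (nat_lit 228) (nat_lit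 6057743734) (nat_lit 228) (nat_lit 1981044234) (nat_lit 60) (nat_lit 4) (nat_lit 63) (nat_lit 5) (nat_lit 63) (nat_lit 4) (nat_lit 474) (nat_lit 366) (nat_lit 360)))) (XT.nd (nat_lit 156) (nat_lit 380) (nat_lit 0) (XT.nd (nat_lit 78) (nat_lit 456) (nat_lit 0) (XT.lf (nat_lit 0) (nat_lit 6835043700) (nat_lit 228) (nat_lit 3642166094) (nat_lit 0) (nat_lit 2238386515) (nat_lit 57) (nat_lit 5) (nat_lit 60) (nat_lit 4) (nat_lit 57) (nat_lit 4) (nat_lit 475) (nat_lit 366) (nat_lit 359)) (XT.lf (nat_lit 0) (nat_lit 797010437) (nat_lit 152) (nat_lit 2161448958) (nat_lit 228) (nat_lit 9946129465) (nat_lit 51) (nat_lit 5) (nat_lit 53) (nat_lit 5) (nat_lit 54) (nat_lit 4) (nat_lit 476) (nat_lit 366) (nat_lit 358))) (XT.nd (nat_lit 78) (nat_lit 228) (nat_lit 0) (XT.lf (nat_lit 0) (nat_lit 5309316337) (nat_lit 152) (nat_lit 6710160251) (nat_lit 152) (nat_lit 1078263976) (nat_lit 49) (nat_lit 4) (nat_lit 51) (nat_lit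 5) (nat_lit 51) (nat_lit 4) (nat_lit 477) (nat_lit 366) (nat_lit 357)) (XT.lf (nat_lit 0) (nat_lit 7948786965) (nat_lit 228) (nat_lit 3447228262) (nat_lit 0) (nat_lit 1899650818) (nat_lit 46) (nat_lit 5) (nat_lit 49) (nat_lit 4) (nat_lit 46) (nat_lit 4) (nat_lit 478) (nat_lit 366) (nat_lit 356)))))) (XT.nd (nat_lit 546) (nat_lit 988) (nat_lit 0) (XT.nd (nat_lit 234) (nat_lit 836) (nat_lit 0) (XT.nd (nat_lit 78) (nat_lit 380) (nat_lit 0) (XT.lf (nat_lit 0) (nat_lit 930800465) (nat_lit 152) (nat_lit 2778227661) (nat_lit 228) (nat_lit 9789367779) (nat_lit 41) (nat_lit 5) (nat_lit 43) (nat_lit 5) (nat_lit 44) (nat_lit 4) (nat_lit 479) (nat_lit 366) (nat_lit 355)) (XT.nd (nat_lit 78) (nat_lit 228) (nat_lit 0) (XT.lf (nat_lit 0) (nat_lit 5380492630) (nat_lit 152) (nat_lit 7622814827) (nat_lit 152) (nat_lit 702407778) (nat_lit 39) (nat_lit 4) (nat_lit 41) (nat_lit 5) (nat_lit 41) (nat_lit 4) (nat_lit 480)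 (nat_lit 366) (nat_lit 354)) (XT.lf (nat_lit 0) (nat_lit 8548558259) (nat_lit 228) (nat_lit 4069769433) (nat_lit 0) (nat_lit 1299704676) (nat_lit 36) (nat_lit 5) (nat_lit 39) (nat_lit 4) (nat_lit 36) (nat_lit 4) (nat_lit 481) (nat_lit 366) (nat_lit 353)))) (XT.nd (nat_lit 156) (nat_lit 380) (nat_lit 0) (XT.nd (nat_lit 78) (nat_lit 152) (nat_lit 0) (XT.lf (nat_lit 0) (nat_lit 202842178) (nat_lit 76) (nat_lit 3709196379) (nat_lit 152) (nat_lit 10223424068) (nat_lit 32) (nat_lit 5) (nat_lit 33) (nat_lit 5) (nat_lit 34) (nat_lit 4) (nat_lit 482) (nat_lit 366) (nat_lit 352)) (XT.lf (nat_lit 0) (nat_lit 4553720502) (nat_lit 152) (nat_lit 8890751208) (nat_lit 152) (nat_lit 913326780) (nat_lit 30) (nat_lit 4) (nat_lit 32) (nat_lit 5) (nat_lit 32) (nat_lit 4) (nat_lit 483) (nat_lit 366) (nat_lit 351))) (XT.nd (nat_lit 78) (nat_lit 228) (nat_lit 0) (XT.lf (nat_lit 0) (nat_lit 8573058675) (nat_lit 152) (nat_lit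 5668611168) (nat_lit 0) (nat_lit 343793499) (nat_lit 28) (nat_lit 5) (nat_lit 30) (nat_lit 4) (nat_lit 28) (nat_lit 4) (nat_lit 484) (nat_lit 366) (nat_lit 350)) (XT.lf (nat_lit 0) (nat_lit 3511577751) (nat_lit 228) (nat_lit 1532247859) (nat_lit 76) (nat_lit 9774639803) (nat_lit 25) (nat_lit 5) (nat_lit 28) (nat_lit 5) (nat_lit 26) (nat_lit 4) (nat_lit 485) (nat_lit 366) (nat_lit 349))))) (XT.nd (nat_lit 312) (nat_lit 304) (nat_lit 0) (XT.nd (nat_lit 156) (nat_lit 304) (nat_lit 0) (XT.nd (nat_lit 78) (nat_lit 152) (nat_lit 0) (XT.lf (nat_lit 0) (nat_lit 2658417484) (nat_lit 152) (nat_lit 10616165304) (nat_lit 152) (nat_lit 1782381079) (nat_lit 22) (nat_lit 4) (nat_lit 24) (nat_lit 5) (nat_lit 24) (nat_lit 4) (nat_lit 486) (nat_lit 366) (nat_lit 348)) (XT.lf (nat_lit 0) (nat_lit 6871848872) (nat_lit 76) (nat_lit 1084549039) (nat_lit 152) (nat_lit 7344501316) (nat_lit 20) (nat_lit 5) (nat_lit 21) (nat_lit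 5) (nat_lit 22) (nat_lit 4) (nat_lit 487) (nat_lit 366) (nat_lit 347))) (XT.nd (nat_lit 78) (nat_lit 76) (nat_lit 0) (XT.lf (nat_lit 0) (nat_lit 2428601892) (nat_lit 228) (nat_lit 4462554503) (nat_lit 76) (nat_lit 8659468001) (nat_lit 17) (nat_lit 5) (nat_lit 20) (nat_lit 5) (nat_lit 18) (nat_lit 4) (nat_lit 488) (nat_lit 366) (nat_lit 346)) (XT.lf (nat_lit 0) (nat_lit 12415996869) (nat_lit 152) (nat_lit 490954464) (nat_lit 0) (nat_lit 2899502221) (nat_lit 16) (nat_lit 5) (nat_lit 18) (nat_lit 4) (nat_lit 16) (nat_lit 4) (nat_lit 489) (nat_lit 366) (nat_lit 345)))) (XT.nd (nat_lit 60684) (nat_lit 0) (nat_lit 5624) (XT.nd (nat_lit 60606) (nat_lit 0) (nat_lit 6384) (XT.lf (nat_lit 0) (nat_lit 3516777999) (nat_lit 76) (nat_lit 3094837833) (nat_lit 152) (nat_lit 9456170135) (nat_lit 12) (nat_lit 5) (nat_lit 13) (nat_lit 5) (nat_lit 14) (nat_lit 4) (nat_lit 490) (nat_lit 366) (nat_lit 344)) (XT.lf (nat_lit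 0) (nat_lit 895286491) (nat_lit 304) (nat_lit 3811366610) (nat_lit 0) (nat_lit 895286491) (nat_lit 96) (nat_lit 5) (nat_lit 100) (nat_lit 4) (nat_lit 96) (nat_lit 4) (nat_lit 466) (nat_lit 367) (nat_lit 367))) (XT.nd (nat_lit 78) (nat_lit 532) (nat_lit 0) (XT.lf (nat_lit 0) (nat_lit 8023207940) (nat_lit 228) (nat_lit 2082606753) (nat_lit 228) (nat_lit 1251732359) (nat_lit 93) (nat_lit 4) (nat_lit 96) (nat_lit 5) (nat_lit 96) (nat_lit 4) (nat_lit 467) (nat_lit 367) (nat_lit 366)) (XT.lf (nat_lit 0) (nat_lit 995986944) (nat_lit 228) (nat_lit 6062201973) (nat_lit 228) (nat_lit 4456762205) (nat_lit 86) (nat_lit 4) (nat_lit 89) (nat_lit 5) (nat_lit 89) (nat_lit 4) (nat_lit 468) (nat_lit 367) (nat_lit 365))))))) (XT.nd (nat_lit 1170) (nat_lit 1292) (nat_lit 0) (XT.nd (nat_lit 546) (nat_lit 2052) (nat_lit 0) (XT.nd (nat_lit 234) (nat_lit 1140) (nat_lit 0) (XT.nd (nat_lit 78) (nat_lit 760) (nat_lit 0) (XT.lf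 (nat_lit 0) (nat_lit 3875700151) (nat_lit 304) (nat_lit 6251658119) (nat_lit 0) (nat_lit 1548972577) (nat_lit 82) (nat_lit 5) (nat_lit 86) (nat_lit 4) (nat_lit 82) (nat_lit 4) (nat_lit 469) (nat_lit 367) (nat_lit 364)) (XT.nd (nat_lit 78) (nat_lit 456) (nat_lit 0) (XT.lf (nat_lit 0) (nat_lit 548361420) (nat_lit 304) (nat_lit 1949879269) (nat_lit 76) (nat_lit 9343651195) (nat_lit 78) (nat_lit 5) (nat_lit 82) (nat_lit 5) (nat_lit 79) (nat_lit 4) (nat_lit 470) (nat_lit 367) (nat_lit 363)) (XT.lf (nat_lit 0) (nat_lit 2404895380) (nat_lit 228) (nat_lit 6649749035) (nat_lit 228) (nat_lit 2956489770) (nat_lit 72) (nat_lit 4) (nat_lit 75) (nat_lit 5) (nat_lit 75) (nat_lit 4) (nat_lit 471) (nat_lit 367) (nat_lit 362)))) (XT.nd (nat_lit 156) (nat_lit 608) (nat_lit 0) (XT.nd (nat_lit 78) (nat_lit 304) (nat_lit 0) (XT.lf (nat_lit 0) (nat_lit 5558183946) (nat_lit 228) (nat_lit 5351309438) (nat_lit 0) (nat_lit 1275203451)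 (nat_lit 69) (nat_lit 5) (nat_lit 72) (nat_lit 4) (nat_lit 69) (nat_lit 4) (nat_lit 472) (nat_lit 367) (nat_lit 361)) (XT.lf (nat_lit 0) (nat_lit 1909952747) (nat_lit 304) (nat_lit 1067728447) (nat_lit 76) (nat_lit 9384942988) (nat_lit 65) (nat_lit 5) (nat_lit 69) (nat_lit 5) (nat_lit 66) (nat_lit 4) (nat_lit 473) (nat_lit 367) (nat_lit 360))) (XT.nd (nat_lit 78) (nat_lit 228) (nat_lit 0) (XT.lf (nat_lit 0) (nat_lit 3286272075) (nat_lit 228) (nat_lit 7349705867) (nat_lit 228) (nat_lit 1908567001) (nat_lit 60) (nat_lit 4) (nat_lit 63) (nat_lit 5) (nat_lit 63) (nat_lit 4) (nat_lit 474) (nat_lit 367) (nat_lit 359)) (XT.lf (nat_lit 0) (nat_lit 6803600564) (nat_lit 228) (nat_lit 5040656357) (nat_lit 0) (nat_lit 886730337) (nat_lit 57) (nat_lit 5) (nat_lit 60) (nat_lit 4) (nat_lit 57) (nat_lit 4) (nat_lit 475) (nat_lit 367) (nat_lit 358))))) (XT.nd (nat_lit 312) (nat_lit 988) (nat_lit 0) (XT.nd (nat_lit 156)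 (nat_lit 456) (nat_lit 0) (XT.nd (nat_lit 78) (nat_lit 304) (nat_lit 0) (XT.lf (nat_lit 0) (nat_lit 2812249345) (nat_lit 304) (nat_lit 801583207) (nat_lit 76) (nat_lit 9308153811) (nat_lit 53) (nat_lit 5) (nat_lit 57) (nat_lit 5) (nat_lit 54) (nat_lit 4) (nat_lit 476) (nat_lit 367) (nat_lit 357)) (XT.lf (nat_lit 0) (nat_lit 3513926212) (nat_lit 152) (nat_lit 8248437792) (nat_lit 152) (nat_lit 1354992762) (nat_lit 49) (nat_lit 4) (nat_lit 51) (nat_lit 5) (nat_lit 51) (nat_lit 4) (nat_lit 477) (nat_lit 367) (nat_lit 356))) (XT.nd (nat_lit 78) (nat_lit 228) (nat_lit 0) (XT.lf (nat_lit 0) (nat_lit 7568630342) (nat_lit 228) (nat_lit 5450778903) (nat_lit 0) (nat_lit 298050696) (nat_lit 46) (nat_lit 5) (nat_lit 49) (nat_lit 4) (nat_lit 46) (nat_lit 4) (nat_lit 478) (nat_lit 367) (nat_lit 355)) (XT.lf (nat_lit 0) (nat_lit 3208911531) (nat_lit 228) (nat_lit 1285957192) (nat_lit 76) (nat_lit 9027442614) (nat_lit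 43) (nat_lit 5) (nat_lit 46) (nat_lit 5) (nat_lit 44) (nat_lit 4) (nat_lit 479) (nat_lit 367) (nat_lit 354)))) (XT.nd (nat_lit 156) (nat_lit 456) (nat_lit 0) (XT.nd (nat_lit 78) (nat_lit 228) (nat_lit 0) (XT.lf (nat_lit 0) (nat_lit 2948163448) (nat_lit 152) (nat_lit 9436454216) (nat_lit 152) (nat_lit 1347385037) (nat_lit 39) (nat_lit 4) (nat_lit 41) (nat_lit 5) (nat_lit 41) (nat_lit 4) (nat_lit 480) (nat_lit 367) (nat_lit 353)) (XT.lf (nat_lit 0) (nat_lit 7215615576) (nat_lit 152) (nat_lit 588502900) (nat_lit 228) (nat_lit 6142444083) (nat_lit 36) (nat_lit 5) (nat_lit 38) (nat_lit 5) (nat_lit 39) (nat_lit 4) (nat_lit 481) (nat_lit 367) (nat_lit 352))) (XT.nd (nat_lit 78) (nat_lit 228) (nat_lit 0) (XT.lf (nat_lit 0) (nat_lit 3043658578) (nat_lit 228) (nat_lit 2670388985) (nat_lit 76) (nat_lit 8452157095) (nat_lit 33) (nat_lit 5) (nat_lit 36) (nat_lit 5) (nat_lit 34) (nat_lit 4) (nat_lit 482) (nat_lit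 367) (nat_lit 351)) (XT.lf (nat_lit 0) (nat_lit 1433342407) (nat_lit 152) (nat_lit 11009973093) (nat_lit 152) (nat_lit 1947881048) (nat_lit 30) (nat_lit 4) (nat_lit 32) (nat_lit 5) (nat_lit 32) (nat_lit 4) (nat_lit 483) (nat_lit 367) (nat_lit 350)))))) (XT.nd (nat_lit 60918) (nat_lit 0) (nat_lit 4484) (XT.nd (nat_lit 234) (nat_lit 836) (nat_lit 0) (XT.nd (nat_lit 78) (nat_lit 304) (nat_lit 0) (XT.lf (nat_lit 0) (nat_lit 5576893781) (nat_lit 76) (nat_lit 1870276002) (nat_lit 152) (nat_lit 7173924494) (nat_lit 28) (nat_lit 5) (nat_lit 29) (nat_lit 5) (nat_lit 30) (nat_lit 4) (nat_lit 484) (nat_lit 367) (nat_lit 349)) (XT.nd (nat_lit 78) (nat_lit 76) (nat_lit 0) (XT.lf (nat_lit 0) (nat_lit 2249268768) (nat_lit 228) (nat_lit 5122075787) (nat_lit 76) (nat_lit 7485223529) (nat_lit 25) (nat_lit 5) (nat_lit 28) (nat_lit 5) (nat_lit 26) (nat_lit 4) (nat_lit 485) (nat_lit 367) (nat_lit 348)) (XT.lf (nat_lit 0)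 (nat_lit 11875541878) (nat_lit 152) (nat_lit 1189085701) (nat_lit 0) (nat_lit 2033174038) (nat_lit 24) (nat_lit 5) (nat_lit 26) (nat_lit 4) (nat_lit 24) (nat_lit 4) (nat_lit 486) (nat_lit 367) (nat_lit 347)))) (XT.nd (nat_lit 156) (nat_lit 304) (nat_lit 0) (XT.nd (nat_lit 78) (nat_lit 228) (nat_lit 0) (XT.lf (nat_lit 0) (nat_lit 2772796575) (nat_lit 76) (nat_lit 3648384829) (nat_lit 152) (nat_lit 8923027407) (nat_lit 20) (nat_lit 5) (nat_lit 21) (nat_lit 5) (nat_lit 22) (nat_lit 4) (nat_lit 487) (nat_lit 367) (nat_lit 346)) (XT.lf (nat_lit 0) (nat_lit 746366195) (nat_lit 228) (nat_lit 8828863777) (nat_lit 76) (nat_lit 6021397629) (nat_lit 17) (nat_lit 5) (nat_lit 20) (nat_lit 5) (nat_lit 18) (nat_lit 4) (nat_lit 488) (nat_lit 367) (nat_lit 345))) (XT.nd (nat_lit 78) (nat_lit 228) (nat_lit 0) (XT.lf (nat_lit 0) (nat_lit 10607994394) (nat_lit 152) (nat_lit 5095021593) (nat_lit 0) (nat_lit 151956498) (nat_lit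 16) (nat_lit 5) (nat_lit 18) (nat_lit 4) (nat_lit 16) (nat_lit 4) (nat_lit 489) (nat_lit 367) (nat_lit 344)) (XT.lf (nat_lit 0) (nat_lit 4647528115) (nat_lit 228) (nat_lit 1380838222) (nat_lit 76) (nat_lit 10090818302) (nat_lit 13) (nat_lit 5) (nat_lit 16) (nat_lit 5) (nat_lit 14) (nat_lit 4) (nat_lit 490) (nat_lit 367) (nat_lit 343))))) (XT.nd (nat_lit 312) (nat_lit 1596) (nat_lit 0) (XT.nd (nat_lit 156) (nat_lit 836) (nat_lit 0) (XT.nd (nat_lit 78) (nat_lit 304) (nat_lit 0) (XT.lf (nat_lit 0) (nat_lit 2973944601) (nat_lit 304) (nat_lit 1239541199) (nat_lit 304) (nat_lit 1239541199) (nat_lit 108) (nat_lit 4) (nat_lit 112) (nat_lit 5) (nat_lit 112) (nat_lit 4) (nat_lit 464) (nat_lit 368) (nat_lit 368)) (XT.lf (nat_lit 0) (nat_lit 5556056643) (nat_lit 304) (nat_lit 814760848) (nat_lit 0) (nat_lit 4683140005) (nat_lit 104) (nat_lit 5) (nat_lit 108) (nat_lit 4) (nat_lit 104) (nat_lit 4) (nat_lit 465) (nat_lit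 368) (nat_lit 367))) (XT.nd (nat_lit 78) (nat_lit 228) (nat_lit 0) (XT.lf (nat_lit 0) (nat_lit 2557498773) (nat_lit 304) (nat_lit 7777335155) (nat_lit 0) (nat_lit 870823753) (nat_lit 96) (nat_lit 5) (nat_lit 100) (nat_lit 4) (nat_lit 96) (nat_lit 4) (nat_lit 466) (nat_lit 368) (nat_lit 366)) (XT.lf (nat_lit 0) (nat_lit 7714457725) (nat_lit 228) (nat_lit 3069991900) (nat_lit 228) (nat_lit 576642711) (nat_lit 93) (nat_lit 4) (nat_lit 96) (nat_lit 5) (nat_lit 96) (nat_lit 4) (nat_lit 467) (nat_lit 368) (nat_lit 365)))) (XT.nd (nat_lit 156) (nat_lit 760) (nat_lit 0) (XT.nd (nat_lit 78) (nat_lit 304) (nat_lit 0) (XT.lf (nat_lit 0) (nat_lit 519665765) (nat_lit 228) (nat_lit 7106495756) (nat_lit 228) (nat_lit 3894213410) (nat_lit 86) (nat_lit 4) (nat_lit 89) (nat_lit 5) (nat_lit 89) (nat_lit 4) (nat_lit 468) (nat_lit 368) (nat_lit 364)) (XT.lf (nat_lit 0) (nat_lit 4333776950) (nat_lit 304) (nat_lit 6896208652)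 (nat_lit 0) (nat_lit 453638767) (nat_lit 82) (nat_lit 5) (nat_lit 86) (nat_lit 4) (nat_lit 82) (nat_lit 4) (nat_lit 469) (nat_lit 368) (nat_lit 363))) (XT.nd (nat_lit 78) (nat_lit 456) (nat_lit 0) (XT.lf (nat_lit 0) (nat_lit 902826572) (nat_lit 304) (nat_lit 2765983618) (nat_lit 76) (nat_lit 8182125637) (nat_lit 78) (nat_lit 5) (nat_lit 82) (nat_lit 5) (nat_lit 79) (nat_lit 4) (nat_lit 470) (nat_lit 368) (nat_lit 362)) (XT.lf (nat_lit 0) (nat_lit 1411906273) (nat_lit 228) (nat_lit 7892721229) (nat_lit 228) (nat_lit 2717641080) (nat_lit 72) (nat_lit 4) (nat_lit 75) (nat_lit 5) (nat_lit 75) (nat_lit 4) (nat_lit 471) (nat_lit 368) (nat_lit 361))))))))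
noncomputable def xc3 : XT := (XT.nd (nat_lit 62478) (nat_lit 0) (nat_lit 0) (XT.nd (nat_lit 1092) (nat_lit 912) (nat_lit 0) (XT.nd (nat_lit 546) (nat_lit 1596) (nat_lit 0) (XT.nd (nat_lit 234) (nat_lit 1064) (nat_lit 0) (XT.nd (nat_lit 78) (nat_lit 684) (nat_lit 0) (XT.lf (nat_lit 0) (nat_lit 5670749530) (nat_lit 152) (nat_lit 23081772) (nat_lit 228) (nat_lit 6503971064) (nat_lit 69) (nat_lit 5) (nat_lit 71) (nat_lit 5) (nat_lit 72) (nat_lit 4) (nat_lit 472) (nat_lit 368) (nat_lit 360)) (XT.nd (nat_lit 78) (nat_lit 380) (nat_lit 0) (XT.lf (nat_lit 0) (nat_lit 1938405882) (nat_lit 304) (nat_lit 2425009255) (nat_lit 76) (nat_lit 8014149033) (nat_lit 65) (nat_lit 5) (nat_lit 69) (nat_lit 5) (nat_lit 66) (nat_lit 4) (nat_lit 473) (nat_lit 368) (nat_lit 359)) (XT.lf (nat_lit 0) (nat_lit 1733708767) (nat_lit 228) (nat_lit 8819170272) (nat_lit 228) (nat_lit 2008837647) (nat_lit 60) (nat_lit 4) (nat_lit 63)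 (nat_lit 5) (nat_lit 63) (nat_lit 4) (nat_lit 474) (nat_lit 368) (nat_lit 358)))) (XT.nd (nat_lit 156) (nat_lit 532) (nat_lit 0) (XT.nd (nat_lit 78) (nat_lit 304) (nat_lit 0) (XT.lf (nat_lit 0) (nat_lit 5954887136) (nat_lit 152) (nat_lit 650056206) (nat_lit 228) (nat_lit 6145223392) (nat_lit 57) (nat_lit 5) (nat_lit 59) (nat_lit 5) (nat_lit 60) (nat_lit 4) (nat_lit 475) (nat_lit 368) (nat_lit 357)) (XT.lf (nat_lit 0) (nat_lit 2498366903) (nat_lit 304) (nat_lit 2744539250) (nat_lit 76) (nat_lit 7700266674) (nat_lit 53) (nat_lit 5) (nat_lit 57) (nat_lit 5) (nat_lit 54) (nat_lit 4) (nat_lit 476) (nat_lit 368) (nat_lit 356))) (XT.nd (nat_lit 78) (nat_lit 228) (nat_lit 0) (XT.lf (nat_lit 0) (nat_lit 1356010340) (nat_lit 152) (nat_lit 9972970361) (nat_lit 152) (nat_lit 1811953176) (nat_lit 49) (nat_lit 4) (nat_lit 51) (nat_lit 5) (nat_lit 51) (nat_lit 4) (nat_lit 477) (nat_lit 368) (nat_lit 355)) (XT.lf (nat_lit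 0) (nat_lit 5510525787) (nat_lit 152) (nat_lit 1508716483) (nat_lit 228) (nat_lit 6323823133) (nat_lit 46) (nat_lit 5) (nat_lit 48) (nat_lit 5) (nat_lit 49) (nat_lit 4) (nat_lit 478) (nat_lit 368) (nat_lit 354))))) (XT.nd (nat_lit 234) (nat_lit 836) (nat_lit 0) (XT.nd (nat_lit 78) (nat_lit 532) (nat_lit 0) (XT.lf (nat_lit 0) (nat_lit 2534214759) (nat_lit 228) (nat_lit 3862154341) (nat_lit 76) (nat_lit 7153767822) (nat_lit 43) (nat_lit 5) (nat_lit 46) (nat_lit 5) (nat_lit 44) (nat_lit 4) (nat_lit 479) (nat_lit 368) (nat_lit 353)) (XT.nd (nat_lit 78) (nat_lit 228) (nat_lit 0) (XT.lf (nat_lit 0) (nat_lit 135918678) (nat_lit 152) (nat_lit 11445638432) (nat_lit 152) (nat_lit 2180839004) (nat_lit 39) (nat_lit 4) (nat_lit 41) (nat_lit 5) (nat_lit 41) (nat_lit 4) (nat_lit 480) (nat_lit 368) (nat_lit 352)) (XT.lf (nat_lit 0) (nat_lit 4190856326) (nat_lit 152) (nat_lit 2691273825) (nat_lit 228) (nat_lit 7096923880)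 (nat_lit 36) (nat_lit 5) (nat_lit 38) (nat_lit 5) (nat_lit 39) (nat_lit 4) (nat_lit 481) (nat_lit 368) (nat_lit 351)))) (XT.nd (nat_lit 156) (nat_lit 532) (nat_lit 0) (XT.nd (nat_lit 78) (nat_lit 76) (nat_lit 0) (XT.lf (nat_lit 0) (nat_lit 1987422904) (nat_lit 228) (nat_lit 5930794207) (nat_lit 76) (nat_lit 6282888944) (nat_lit 33) (nat_lit 5) (nat_lit 36) (nat_lit 5) (nat_lit 34) (nat_lit 4) (nat_lit 482) (nat_lit 368) (nat_lit 350)) (XT.lf (nat_lit 0) (nat_lit 11262438417) (nat_lit 152) (nat_lit 2058392420) (nat_lit 0) (nat_lit 1107760423) (nat_lit 32) (nat_lit 5) (nat_lit 34) (nat_lit 4) (nat_lit 32) (nat_lit 4) (nat_lit 483) (nat_lit 368) (nat_lit 349))) (XT.nd (nat_lit 78) (nat_lit 228) (nat_lit 0) (XT.lf (nat_lit 0) (nat_lit 1832060815) (nat_lit 76) (nat_lit 4296285868) (nat_lit 152) (nat_lit 8532631548) (nat_lit 28) (nat_lit 5) (nat_lit 29) (nat_lit 5) (nat_lit 30) (nat_lit 4) (nat_lit 484) (nat_lit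 368) (nat_lit 348)) (XT.lf (nat_lit 0) (nat_lit 788415562) (nat_lit 228) (nat_lit 9121408713) (nat_lit 76) (nat_lit 4989203954) (nat_lit 25) (nat_lit 5) (nat_lit 28) (nat_lit 5) (nat_lit 26) (nat_lit 4) (nat_lit 485) (nat_lit 368) (nat_lit 347)))))) (XT.nd (nat_lit 60762) (nat_lit 0) (nat_lit 4484) (XT.nd (nat_lit 234) (nat_lit 380) (nat_lit 0) (XT.nd (nat_lit 78) (nat_lit 456) (nat_lit 0) (XT.lf (nat_lit 0) (nat_lit 9723614748) (nat_lit 76) (nat_lit 573591866) (nat_lit 152) (nat_lit 4845405217) (nat_lit 24) (nat_lit 5) (nat_lit 25) (nat_lit 5) (nat_lit 26) (nat_lit 4) (nat_lit 486) (nat_lit 368) (nat_lit 346)) (XT.nd (nat_lit 78) (nat_lit 228) (nat_lit 0) (XT.lf (nat_lit 0) (nat_lit 4692172871) (nat_lit 228) (nat_lit 1726626480) (nat_lit 76) (nat_lit 8972973870) (nat_lit 21) (nat_lit 5) (nat_lit 24) (nat_lit 5) (nat_lit 22) (nat_lit 4) (nat_lit 487) (nat_lit 368) (nat_lit 345)) (XT.lf (nat_lit 0) (nat_lit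 2013528456) (nat_lit 152) (nat_lit 12473623866) (nat_lit 152) (nat_lit 1159875291) (nat_lit 18) (nat_lit 4) (nat_lit 20) (nat_lit 5) (nat_lit 20) (nat_lit 4) (nat_lit 488) (nat_lit 368) (nat_lit 344)))) (XT.nd (nat_lit 60372) (nat_lit 0) (nat_lit 7524) (XT.nd (nat_lit 78) (nat_lit 228) (nat_lit 0) (XT.lf (nat_lit 0) (nat_lit 5754823203) (nat_lit 76) (nat_lit 2852916915) (nat_lit 152) (nat_lit 7299967862) (nat_lit 16) (nat_lit 5) (nat_lit 17) (nat_lit 5) (nat_lit 18) (nat_lit 4) (nat_lit 489) (nat_lit 368) (nat_lit 343)) (XT.lf (nat_lit 0) (nat_lit 2493142768) (nat_lit 228) (nat_lit 6672265329) (nat_lit 76) (nat_lit 7009345404) (nat_lit 13) (nat_lit 5) (nat_lit 16) (nat_lit 5) (nat_lit 14) (nat_lit 4) (nat_lit 490) (nat_lit 368) (nat_lit 342))) (XT.nd (nat_lit 78) (nat_lit 608) (nat_lit 0) (XT.lf (nat_lit 0) (nat_lit 2070144751) (nat_lit 380) (nat_lit 1169492250) (nat_lit 0) (nat_lit 2070144751) (nat_lit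 120) (nat_lit 5) (nat_lit 125) (nat_lit 4) (nat_lit 120) (nat_lit 4) (nat_lit 462) (nat_lit 369) (nat_lit 369)) (XT.lf (nat_lit 0) (nat_lit 1310070559) (nat_lit 304) (nat_lit 9059033611) (nat_lit 0) (nat_lit 392984339) (nat_lit 112) (nat_lit 5) (nat_lit 116) (nat_lit 4) (nat_lit 112) (nat_lit 4) (nat_lit 463) (nat_lit 369) (nat_lit 368))))) (XT.nd (nat_lit 312) (nat_lit 1596) (nat_lit 0) (XT.nd (nat_lit 156) (nat_lit 836) (nat_lit 0) (XT.nd (nat_lit 78) (nat_lit 304) (nat_lit 0) (XT.lf (nat_lit 0) (nat_lit 5799829072) (nat_lit 304) (nat_lit 3457708796) (nat_lit 304) (nat_lit 1650247604) (nat_lit 108) (nat_lit 4) (nat_lit 112) (nat_lit 5) (nat_lit 112) (nat_lit 4) (nat_lit 464) (nat_lit 369) (nat_lit 367)) (XT.lf (nat_lit 0) (nat_lit 6280766933) (nat_lit 304) (nat_lit 1115426236) (nat_lit 0) (nat_lit 3661254275) (nat_lit 104) (nat_lit 5) (nat_lit 108) (nat_lit 4) (nat_lit 104) (nat_lit 4) (nat_lit 465)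 (nat_lit 369) (nat_lit 366))) (XT.nd (nat_lit 78) (nat_lit 228) (nat_lit 0) (XT.lf (nat_lit 0) (nat_lit 2968359442) (nat_lit 228) (nat_lit 205244395) (nat_lit 304) (nat_lit 8037364236) (nat_lit 96) (nat_lit 5) (nat_lit 99) (nat_lit 5) (nat_lit 100) (nat_lit 4) (nat_lit 466) (nat_lit 369) (nat_lit 365)) (XT.lf (nat_lit 0) (nat_lit 7096687513) (nat_lit 228) (nat_lit 4214750565) (nat_lit 228) (nat_lit 56747926) (nat_lit 93) (nat_lit 4) (nat_lit 96) (nat_lit 5) (nat_lit 96) (nat_lit 4) (nat_lit 467) (nat_lit 369) (nat_lit 364)))) (XT.nd (nat_lit 156) (nat_lit 760) (nat_lit 0) (XT.nd (nat_lit 78) (nat_lit 532) (nat_lit 0) (XT.lf (nat_lit 0) (nat_lit 8040126487) (nat_lit 304) (nat_lit 271063014) (nat_lit 0) (nat_lit 3218194712) (nat_lit 89) (nat_lit 5) (nat_lit 93) (nat_lit 4) (nat_lit 89) (nat_lit 4) (nat_lit 468) (nat_lit 369) (nat_lit 363)) (XT.lf (nat_lit 0) (nat_lit 3825445321) (nat_lit 228) (nat_lit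 813724633) (nat_lit 304) (nat_lit 7055296996) (nat_lit 82) (nat_lit 5) (nat_lit 85) (nat_lit 5) (nat_lit 86) (nat_lit 4) (nat_lit 469) (nat_lit 369) (nat_lit 362))) (XT.nd (nat_lit 78) (nat_lit 456) (nat_lit 0) (XT.lf (nat_lit 0) (nat_lit 1098159586) (nat_lit 304) (nat_lit 3907545296) (nat_lit 76) (nat_lit 6857943178) (nat_lit 78) (nat_lit 5) (nat_lit 82) (nat_lit 5) (nat_lit 79) (nat_lit 4) (nat_lit 470) (nat_lit 369) (nat_lit 361)) (XT.lf (nat_lit 0) (nat_lit 86571497) (nat_lit 228) (nat_lit 9305990513) (nat_lit 228) (nat_lit 2644567565) (nat_lit 72) (nat_lit 4) (nat_lit 75) (nat_lit 5) (nat_lit 75) (nat_lit 4) (nat_lit 471) (nat_lit 369) (nat_lit 360))))))) (XT.nd (nat_lit 1170) (nat_lit 836) (nat_lit 0) (XT.nd (nat_lit 546) (nat_lit 1672) (nat_lit 0) (XT.nd (nat_lit 234) (nat_lit 1292) (nat_lit 0) (XT.nd (nat_lit 78) (nat_lit 456) (nat_lit 0) (XT.lf (nat_lit 0) (nat_lit 4164538242) (nat_lit 152)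 (nat_lit 1510002553) (nat_lit 228) (nat_lit 6539941940) (nat_lit 69) (nat_lit 5) (nat_lit 71) (nat_lit 5) (nat_lit 72) (nat_lit 4) (nat_lit 472) (nat_lit 369) (nat_lit 359)) (XT.nd (nat_lit 78) (nat_lit 152) (nat_lit 0) (XT.lf (nat_lit 0) (nat_lit 1801084512) (nat_lit 304) (nat_lit 4122694880) (nat_lit 76) (nat_lit 6472506976) (nat_lit 65) (nat_lit 5) (nat_lit 69) (nat_lit 5) (nat_lit 66) (nat_lit 4) (nat_lit 473) (nat_lit 369) (nat_lit 358)) (XT.lf (nat_lit 0) (nat_lit 10301872995) (nat_lit 228) (nat_lit 164444442) (nat_lit 0) (nat_lit 2116395835) (nat_lit 63) (nat_lit 5) (nat_lit 66) (nat_lit 4) (nat_lit 63) (nat_lit 4) (nat_lit 474) (nat_lit 369) (nat_lit 357)))) (XT.nd (nat_lit 156) (nat_lit 532) (nat_lit 0) (XT.nd (nat_lit 78) (nat_lit 304) (nat_lit 0) (XT.lf (nat_lit 0) (nat_lit 3862746782) (nat_lit 152) (nat_lit 2378931796) (nat_lit 228) (nat_lit 6531417314) (nat_lit 57) (nat_lit 5) (nat_lit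 59) (nat_lit 5) (nat_lit 60) (nat_lit 4) (nat_lit 475) (nat_lit 369) (nat_lit 356)) (XT.lf (nat_lit 0) (nat_lit 2011363084) (nat_lit 304) (nat_lit 5044008356) (nat_lit 76) (nat_lit 5912898821) (nat_lit 53) (nat_lit 5) (nat_lit 57) (nat_lit 5) (nat_lit 54) (nat_lit 4) (nat_lit 476) (nat_lit 369) (nat_lit 355))) (XT.nd (nat_lit 78) (nat_lit 380) (nat_lit 0) (XT.lf (nat_lit 0) (nat_lit 10726520497) (nat_lit 228) (nat_lit 1151020381) (nat_lit 0) (nat_lit 1290800171) (nat_lit 51) (nat_lit 5) (nat_lit 54) (nat_lit 4) (nat_lit 51) (nat_lit 4) (nat_lit 477) (nat_lit 369) (nat_lit 354)) (XT.lf (nat_lit 0) (nat_lit 2784658931) (nat_lit 152) (nat_lit 3508870362) (nat_lit 228) (nat_lit 7079107782) (nat_lit 46) (nat_lit 5) (nat_lit 48) (nat_lit 5) (nat_lit 49) (nat_lit 4) (nat_lit 478) (nat_lit 369) (nat_lit 353))))) (XT.nd (nat_lit 312) (nat_lit 684) (nat_lit 0) (XT.nd (nat_lit 156) (nat_lit 608) (nat_lit 0) (XT.nd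 (nat_lit 78) (nat_lit 152) (nat_lit 0) (XT.lf (nat_lit 0) (nat_lit 1678304898) (nat_lit 228) (nat_lit 6812249642) (nat_lit 76) (nat_lit 5091463302) (nat_lit 43) (nat_lit 5) (nat_lit 46) (nat_lit 5) (nat_lit 44) (nat_lit 4) (nat_lit 479) (nat_lit 369) (nat_lit 352)) (XT.lf (nat_lit 0) (nat_lit 10613283195) (nat_lit 228) (nat_lit 3018583593) (nat_lit 0) (nat_lit 164658064) (nat_lit 41) (nat_lit 5) (nat_lit 44) (nat_lit 4) (nat_lit 41) (nat_lit 4) (nat_lit 480) (nat_lit 369) (nat_lit 351))) (XT.nd (nat_lit 78) (nat_lit 228) (nat_lit 0) (XT.lf (nat_lit 0) (nat_lit 780063894) (nat_lit 152) (nat_lit 4993173080) (nat_lit 228) (nat_lit 8242469216) (nat_lit 36) (nat_lit 5) (nat_lit 38) (nat_lit 5) (nat_lit 39) (nat_lit 4) (nat_lit 481) (nat_lit 369) (nat_lit 350)) (XT.lf (nat_lit 0) (nat_lit 741091625) (nat_lit 228) (nat_lit 9583882696) (nat_lit 76) (nat_lit 3915249331) (nat_lit 33) (nat_lit 5) (nat_lit 36)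 (nat_lit 5) (nat_lit 34) (nat_lit 4) (nat_lit 482) (nat_lit 369) (nat_lit 349)))) (XT.nd (nat_lit 156) (nat_lit 380) (nat_lit 0) (XT.nd (nat_lit 78) (nat_lit 228) (nat_lit 0) (XT.lf (nat_lit 0) (nat_lit 8533096296) (nat_lit 76) (nat_lit 1375000732) (nat_lit 152) (nat_lit 4561772504) (nat_lit 32) (nat_lit 5) (nat_lit 33) (nat_lit 5) (nat_lit 34) (nat_lit 4) (nat_lit 483) (nat_lit 369) (nat_lit 348)) (XT.lf (nat_lit 0) (nat_lit 4628229173) (nat_lit 228) (nat_lit 2288202859) (nat_lit 76) (nat_lit 7788462180) (nat_lit 29) (nat_lit 5) (nat_lit 32) (nat_lit 5) (nat_lit 30) (nat_lit 4) (nat_lit 484) (nat_lit 369) (nat_lit 347))) (XT.nd (nat_lit 78) (nat_lit 152) (nat_lit 0) (XT.lf (nat_lit 0) (nat_lit 1406288439) (nat_lit 152) (nat_lit 12655629547) (nat_lit 152) (nat_lit 883850192) (nat_lit 26) (nat_lit 4) (nat_lit 28) (nat_lit 5) (nat_lit 28) (nat_lit 4) (nat_lit 485) (nat_lit 369) (nat_lit 346)) (XT.lf (nat_lit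 0) (nat_lit 5110641890) (nat_lit 76) (nat_lit 3421333667) (nat_lit 152) (nat_lit 6659582553) (nat_lit 24) (nat_lit 5) (nat_lit 25) (nat_lit 5) (nat_lit 26) (nat_lit 4) (nat_lit 486) (nat_lit 369) (nat_lit 345)))))) (XT.nd (nat_lit 60606) (nat_lit 0) (nat_lit 4940) (XT.nd (nat_lit 234) (nat_lit 228) (nat_lit 0) (XT.nd (nat_lit 78) (nat_lit 380) (nat_lit 0) (XT.lf (nat_lit 0) (nat_lit 2777269161) (nat_lit 228) (nat_lit 6611348410) (nat_lit 76) (nat_lit 6054828295) (nat_lit 21) (nat_lit 5) (nat_lit 24) (nat_lit 5) (nat_lit 22) (nat_lit 4) (nat_lit 487) (nat_lit 369) (nat_lit 344)) (XT.nd (nat_lit 78) (nat_lit 304) (nat_lit 0) (XT.lf (nat_lit 0) (nat_lit 12433245419) (nat_lit 152) (nat_lit 3135849322) (nat_lit 0) (nat_lit 132385964) (nat_lit 20) (nat_lit 5) (nat_lit 22) (nat_lit 4) (nat_lit 20) (nat_lit 4) (nat_lit 488) (nat_lit 369) (nat_lit 343)) (XT.lf (nat_lit 0) (nat_lit 312139784) (nat_lit 76) (nat_lit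 6085270808) (nat_lit 152) (nat_lit 9567617045) (nat_lit 16) (nat_lit 5) (nat_lit 17) (nat_lit 5) (nat_lit 18) (nat_lit 4) (nat_lit 489) (nat_lit 369) (nat_lit 342)))) (XT.nd (nat_lit 60216) (nat_lit 0) (nat_lit 8132) (XT.nd (nat_lit 60138) (nat_lit 0) (nat_lit 8816) (XT.lf (nat_lit 0) (nat_lit 123744062) (nat_lit 228) (nat_lit 12408250072) (nat_lit 76) (nat_lit 3703003635) (nat_lit 13) (nat_lit 5) (nat_lit 16) (nat_lit 5) (nat_lit 14) (nat_lit 4) (nat_lit 490) (nat_lit 369) (nat_lit 341)) (XT.lf (nat_lit 0) (nat_lit 68622374) (nat_lit 380) (nat_lit 5035014963) (nat_lit 0) (nat_lit 68622374) (nat_lit 129) (nat_lit 5) (nat_lit 134) (nat_lit 4) (nat_lit 129) (nat_lit 4) (nat_lit 460) (nat_lit 370) (nat_lit 370))) (XT.nd (nat_lit 78) (nat_lit 380) (nat_lit 0) (XT.lf (nat_lit 0) (nat_lit 4178253187) (nat_lit 304) (nat_lit 3642702514) (nat_lit 304) (nat_lit 2659941915) (nat_lit 125) (nat_lit 4) (nat_lit 129)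 (nat_lit 5) (nat_lit 129) (nat_lit 4) (nat_lit 461) (nat_lit 370) (nat_lit 369)) (XT.lf (nat_lit 0) (nat_lit 5018542031) (nat_lit 380) (nat_lit 2483104064) (nat_lit 0) (nat_lit 3119623303) (nat_lit 120) (nat_lit 5) (nat_lit 125) (nat_lit 4) (nat_lit 120) (nat_lit 4) (nat_lit 462) (nat_lit 370) (nat_lit 368))))) (XT.nd (nat_lit 312) (nat_lit 1368) (nat_lit 0) (XT.nd (nat_lit 156) (nat_lit 912) (nat_lit 0) (XT.nd (nat_lit 78) (nat_lit 304) (nat_lit 0) (XT.lf (nat_lit 0) (nat_lit 1405407353) (nat_lit 228) (nat_lit 679992919) (nat_lit 304) (nat_lit 8680075795) (nat_lit 112) (nat_lit 5) (nat_lit 115) (nat_lit 5) (nat_lit 116) (nat_lit 4) (nat_lit 463) (nat_lit 370) (nat_lit 367)) (XT.lf (nat_lit 0) (nat_lit 5355519309) (nat_lit 304) (nat_lit 4586981903) (nat_lit 304) (nat_lit 970480184) (nat_lit 108) (nat_lit 4) (nat_lit 112) (nat_lit 5) (nat_lit 112) (nat_lit 4) (nat_lit 464) (nat_lit 370) (nat_lit 366)))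 (XT.nd (nat_lit 78) (nat_lit 608) (nat_lit 0) (XT.lf (nat_lit 0) (nat_lit 6857904115) (nat_lit 304) (nat_lit 1717019730) (nat_lit 0) (nat_lit 2489506543) (nat_lit 104) (nat_lit 5) (nat_lit 108) (nat_lit 4) (nat_lit 104) (nat_lit 4) (nat_lit 465) (nat_lit 370) (nat_lit 365)) (XT.lf (nat_lit 0) (nat_lit 2195334328) (nat_lit 228) (nat_lit 1449504424) (nat_lit 304) (nat_lit 7574868005) (nat_lit 96) (nat_lit 5) (nat_lit 99) (nat_lit 5) (nat_lit 100) (nat_lit 4) (nat_lit 466) (nat_lit 370) (nat_lit 364)))) (XT.nd (nat_lit 156) (nat_lit 836) (nat_lit 0) (XT.nd (nat_lit 78) (nat_lit 228) (nat_lit 0) (XT.lf (nat_lit 0) (nat_lit 304361469) (nat_lit 304) (nat_lit 5211479126) (nat_lit 76) (nat_lit 5862953610) (nat_lit 92) (nat_lit 5) (nat_lit 96) (nat_lit 5) (nat_lit 93) (nat_lit 4) (nat_lit 467) (nat_lit 370) (nat_lit 363)) (XT.lf (nat_lit 0) (nat_lit 8304103912) (nat_lit 304) (nat_lit 1369500387) (nat_lit 0)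 (nat_lit 1868309371) (nat_lit 89) (nat_lit 5) (nat_lit 93) (nat_lit 4) (nat_lit 89) (nat_lit 4) (nat_lit 468) (nat_lit 370) (nat_lit 362))) (XT.nd (nat_lit 78) (nat_lit 304) (nat_lit 0) (XT.lf (nat_lit 0) (nat_lit 2539180282) (nat_lit 228) (nat_lit 2251731128) (nat_lit 304) (nat_lit 6917981350) (nat_lit 82) (nat_lit 5) (nat_lit 85) (nat_lit 5) (nat_lit 86) (nat_lit 4) (nat_lit 469) (nat_lit 370) (nat_lit 361)) (XT.lf (nat_lit 0) (nat_lit 1134531142) (nat_lit 304) (nat_lit 5375561785) (nat_lit 76) (nat_lit 5369946764) (nat_lit 78) (nat_lit 5) (nat_lit 82) (nat_lit 5) (nat_lit 79) (nat_lit 4) (nat_lit 470) (nat_lit 370) (nat_lit 360))))))))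
noncomputable def xc4 : XT := (XT.nd (nat_lit 62166) (nat_lit 0) (nat_lit 0) (XT.nd (nat_lit 1092) (nat_lit 988) (nat_lit 0) (XT.nd (nat_lit 546) (nat_lit 1672) (nat_lit 0) (XT.nd (nat_lit 234) (nat_lit 1064) (nat_lit 0) (XT.nd (nat_lit 78) (nat_lit 760) (nat_lit 0) (XT.lf (nat_lit 0) (nat_lit 9328732974) (nat_lit 304) (nat_lit 1551646444) (nat_lit 0) (nat_lit 1175146567) (nat_lit 75) (nat_lit 5) (nat_lit 79) (nat_lit 4) (nat_lit 75) (nat_lit 4) (nat_lit 471) (nat_lit 370) (nat_lit 359)) (XT.nd (nat_lit 78) (nat_lit 304) (nat_lit 0) (XT.lf (nat_lit 0) (nat_lit 2321994711) (nat_lit 152) (nat_lit 3169911358) (nat_lit 228) (nat_lit 6743014235) (nat_lit 69) (nat_lit 5) (nat_lit 71) (nat_lit 5) (nat_lit 72) (nat_lit 4) (nat_lit 472) (nat_lit 370) (nat_lit 358)) (XT.lf (nat_lit 0) (nat_lit 1497868650) (nat_lit 304) (nat_lit 6162268738) (nat_lit 76) (nat_lit 4758669752) (nat_lit 65) (nat_lit 5) (nat_lit 69)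 (nat_lit 5) (nat_lit 66) (nat_lit 4) (nat_lit 473) (nat_lit 370) (nat_lit 357)))) (XT.nd (nat_lit 156) (nat_lit 456) (nat_lit 0) (XT.nd (nat_lit 78) (nat_lit 456) (nat_lit 0) (XT.lf (nat_lit 0) (nat_lit 9895182825) (nat_lit 228) (nat_lit 2384712607) (nat_lit 0) (nat_lit 327408771) (nat_lit 63) (nat_lit 5) (nat_lit 66) (nat_lit 4) (nat_lit 63) (nat_lit 4) (nat_lit 474) (nat_lit 370) (nat_lit 356)) (XT.lf (nat_lit 0) (nat_lit 1418032182) (nat_lit 152) (nat_lit 4289622922) (nat_lit 228) (nat_lit 7092256339) (nat_lit 57) (nat_lit 5) (nat_lit 59) (nat_lit 5) (nat_lit 60) (nat_lit 4) (nat_lit 475) (nat_lit 370) (nat_lit 355))) (XT.nd (nat_lit 78) (nat_lit 152) (nat_lit 0) (XT.lf (nat_lit 0) (nat_lit 1350812350) (nat_lit 304) (nat_lit 7701999770) (nat_lit 76) (nat_lit 3944488473) (nat_lit 53) (nat_lit 5) (nat_lit 57) (nat_lit 5) (nat_lit 54) (nat_lit 4) (nat_lit 476) (nat_lit 370) (nat_lit 354)) (XT.lf (nat_lit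 0) (nat_lit 9192352221) (nat_lit 152) (nat_lit 770714044) (nat_lit 228) (nat_lit 3236363779) (nat_lit 51) (nat_lit 5) (nat_lit 53) (nat_lit 5) (nat_lit 54) (nat_lit 4) (nat_lit 477) (nat_lit 370) (nat_lit 353))))) (XT.nd (nat_lit 234) (nat_lit 912) (nat_lit 0) (XT.nd (nat_lit 78) (nat_lit 532) (nat_lit 0) (XT.lf (nat_lit 0) (nat_lit 5390917608) (nat_lit 228) (nat_lit 307218504) (nat_lit 76) (nat_lit 7708063478) (nat_lit 48) (nat_lit 5) (nat_lit 51) (nat_lit 5) (nat_lit 49) (nat_lit 4) (nat_lit 478) (nat_lit 370) (nat_lit 352)) (XT.nd (nat_lit 78) (nat_lit 152) (nat_lit 0) (XT.lf (nat_lit 0) (nat_lit 640434064) (nat_lit 228) (nat_lit 10138820849) (nat_lit 76) (nat_lit 2838727040) (nat_lit 43) (nat_lit 5) (nat_lit 46) (nat_lit 5) (nat_lit 44) (nat_lit 4) (nat_lit 479) (nat_lit 370) (nat_lit 351)) (XT.lf (nat_lit 0) (nat_lit 7268709459) (nat_lit 152) (nat_lit 2208083498) (nat_lit 228) (nat_lit 4357668915)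 (nat_lit 41) (nat_lit 5) (nat_lit 43) (nat_lit 5) (nat_lit 44) (nat_lit 4) (nat_lit 480) (nat_lit 370) (nat_lit 350)))) (XT.nd (nat_lit 156) (nat_lit 380) (nat_lit 0) (XT.nd (nat_lit 78) (nat_lit 304) (nat_lit 0) (XT.lf (nat_lit 0) (nat_lit 4496076178) (nat_lit 228) (nat_lit 2980137562) (nat_lit 76) (nat_lit 6579945197) (nat_lit 38) (nat_lit 5) (nat_lit 41) (nat_lit 5) (nat_lit 39) (nat_lit 4) (nat_lit 481) (nat_lit 370) (nat_lit 349)) (XT.lf (nat_lit 0) (nat_lit 646071786) (nat_lit 152) (nat_lit 12931748812) (nat_lit 152) (nat_lit 705679397) (nat_lit 34) (nat_lit 4) (nat_lit 36) (nat_lit 5) (nat_lit 36) (nat_lit 4) (nat_lit 482) (nat_lit 370) (nat_lit 348))) (XT.nd (nat_lit 78) (nat_lit 228) (nat_lit 0) (XT.lf (nat_lit 0) (nat_lit 4291585975) (nat_lit 76) (nat_lit 4077902140) (nat_lit 152) (nat_lit 6145771714) (nat_lit 32) (nat_lit 5) (nat_lit 33) (nat_lit 5) (nat_lit 34) (nat_lit 4) (nat_lit 483)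 (nat_lit 370) (nat_lit 347)) (XT.lf (nat_lit 0) (nat_lit 2944992831) (nat_lit 228) (nat_lit 6788535024) (nat_lit 76) (nat_lit 5019363010) (nat_lit 29) (nat_lit 5) (nat_lit 32) (nat_lit 5) (nat_lit 30) (nat_lit 4) (nat_lit 484) (nat_lit 370) (nat_lit 346)))))) (XT.nd (nat_lit 60450) (nat_lit 0) (nat_lit 6080) (XT.nd (nat_lit 234) (nat_lit 380) (nat_lit 0) (XT.nd (nat_lit 78) (nat_lit 532) (nat_lit 0) (XT.lf (nat_lit 0) (nat_lit 11652683781) (nat_lit 76) (nat_lit 599453394) (nat_lit 152) (nat_lit 2744158970) (nat_lit 28) (nat_lit 5) (nat_lit 29) (nat_lit 5) (nat_lit 30) (nat_lit 4) (nat_lit 485) (nat_lit 370) (nat_lit 345)) (XT.nd (nat_lit 78) (nat_lit 228) (nat_lit 0) (XT.lf (nat_lit 0) (nat_lit 79410256) (nat_lit 76) (nat_lit 6485519871) (nat_lit 152) (nat_lit 8680020617) (nat_lit 24) (nat_lit 5) (nat_lit 25) (nat_lit 5) (nat_lit 26) (nat_lit 4) (nat_lit 486) (nat_lit 370) (nat_lit 344)) (XT.lf (nat_lit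 0) (nat_lit 656794221) (nat_lit 228) (nat_lit 11922003144) (nat_lit 76) (nat_lit 2920834586) (nat_lit 21) (nat_lit 5) (nat_lit 24) (nat_lit 5) (nat_lit 22) (nat_lit 4) (nat_lit 487) (nat_lit 370) (nat_lit 343)))) (XT.nd (nat_lit 156) (nat_lit 76) (nat_lit 0) (XT.nd (nat_lit 78) (nat_lit 228) (nat_lit 0) (XT.lf (nat_lit 0) (nat_lit 7049891018) (nat_lit 76) (nat_lit 3155348611) (nat_lit 152) (nat_lit 5554578151) (nat_lit 20) (nat_lit 5) (nat_lit 21) (nat_lit 5) (nat_lit 22) (nat_lit 4) (nat_lit 488) (nat_lit 370) (nat_lit 342)) (XT.lf (nat_lit 0) (nat_lit 4010250795) (nat_lit 228) (nat_lit 5498759778) (nat_lit 76) (nat_lit 6517267436) (nat_lit 17) (nat_lit 5) (nat_lit 20) (nat_lit 5) (nat_lit 18) (nat_lit 4) (nat_lit 489) (nat_lit 370) (nat_lit 341))) (XT.nd (nat_lit 59982) (nat_lit 0) (nat_lit 9652) (XT.lf (nat_lit 0) (nat_lit 13819179589) (nat_lit 152) (nat_lit 2280059866) (nat_lit 0) (nat_lit 200106579)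 (nat_lit 16) (nat_lit 5) (nat_lit 18) (nat_lit 4) (nat_lit 16) (nat_lit 4) (nat_lit 490) (nat_lit 370) (nat_lit 340)) (XT.lf (nat_lit 0) (nat_lit 1436674124) (nat_lit 380) (nat_lit 1801514504) (nat_lit 380) (nat_lit 1801514504) (nat_lit 143) (nat_lit 4) (nat_lit 148) (nat_lit 5) (nat_lit 148) (nat_lit 4) (nat_lit 458) (nat_lit 371) (nat_lit 371))))) (XT.nd (nat_lit 312) (nat_lit 1824) (nat_lit 0) (XT.nd (nat_lit 156) (nat_lit 684) (nat_lit 0) (XT.nd (nat_lit 78) (nat_lit 684) (nat_lit 0) (XT.lf (nat_lit 0) (nat_lit 3839152302) (nat_lit 380) (nat_lit 3565026019) (nat_lit 0) (nat_lit 2806664017) (nat_lit 138) (nat_lit 5) (nat_lit 143) (nat_lit 4) (nat_lit 138) (nat_lit 4) (nat_lit 459) (nat_lit 371) (nat_lit 370)) (XT.lf (nat_lit 0) (nat_lit 127832158) (nat_lit 304) (nat_lit 942829353) (nat_lit 380) (nat_lit 9275435631) (nat_lit 129) (nat_lit 5) (nat_lit 133) (nat_lit 5) (nat_lit 134) (nat_lit 4) (nat_lit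 460) (nat_lit 371) (nat_lit 369))) (XT.nd (nat_lit 78) (nat_lit 380) (nat_lit 0) (XT.lf (nat_lit 0) (nat_lit 3894443030) (nat_lit 304) (nat_lit 4769491365) (nat_lit 304) (nat_lit 1820350846) (nat_lit 125) (nat_lit 4) (nat_lit 129) (nat_lit 5) (nat_lit 129) (nat_lit 4) (nat_lit 461) (nat_lit 371) (nat_lit 368)) (XT.lf (nat_lit 0) (nat_lit 5755148292) (nat_lit 380) (nat_lit 2915588683) (nat_lit 0) (nat_lit 1955651587) (nat_lit 120) (nat_lit 5) (nat_lit 125) (nat_lit 4) (nat_lit 120) (nat_lit 4) (nat_lit 462) (nat_lit 371) (nat_lit 367)))) (XT.nd (nat_lit 156) (nat_lit 912) (nat_lit 0) (XT.nd (nat_lit 78) (nat_lit 304) (nat_lit 0) (XT.lf (nat_lit 0) (nat_lit 810729745) (nat_lit 228) (nat_lit 1908060850) (nat_lit 304) (nat_lit 8053480754) (nat_lit 112) (nat_lit 5) (nat_lit 115) (nat_lit 5) (nat_lit 116) (nat_lit 4) (nat_lit 463) (nat_lit 371) (nat_lit 366)) (XT.lf (nat_lit 0) (nat_lit 4614571683) (nat_lit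 304) (nat_lit 5867888464) (nat_lit 304) (nat_lit 439186169) (nat_lit 108) (nat_lit 4) (nat_lit 112) (nat_lit 5) (nat_lit 112) (nat_lit 4) (nat_lit 464) (nat_lit 371) (nat_lit 365))) (XT.nd (nat_lit 78) (nat_lit 608) (nat_lit 0) (XT.lf (nat_lit 0) (nat_lit 7287972486) (nat_lit 304) (nat_lit 2620066993) (nat_lit 0) (nat_lit 1166872953) (nat_lit 104) (nat_lit 5) (nat_lit 108) (nat_lit 4) (nat_lit 104) (nat_lit 4) (nat_lit 465) (nat_lit 371) (nat_lit 364)) (XT.lf (nat_lit 0) (nat_lit 1114415409) (nat_lit 228) (nat_lit 2851470763) (nat_lit 304) (nat_lit 7266109778) (nat_lit 96) (nat_lit 5) (nat_lit 99) (nat_lit 5) (nat_lit 100) (nat_lit 4) (nat_lit 466) (nat_lit 371) (nat_lit 363))))))) (XT.nd (nat_lit 1092) (nat_lit 1900) (nat_lit 0) (XT.nd (nat_lit 546) (nat_lit 1824) (nat_lit 0) (XT.nd (nat_lit 234) (nat_lit 1292) (nat_lit 0) (XT.nd (nat_lit 78) (nat_lit 760) (nat_lit 0) (XT.lf (nat_lit 0) (nat_lit 512330353)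 (nat_lit 304) (nat_lit 6464759569) (nat_lit 76) (nat_lit 4415889053) (nat_lit 92) (nat_lit 5) (nat_lit 96) (nat_lit 5) (nat_lit 93) (nat_lit 4) (nat_lit 467) (nat_lit 371) (nat_lit 362)) (XT.nd (nat_lit 78) (nat_lit 532) (nat_lit 0) (XT.lf (nat_lit 0) (nat_lit 8414950444) (nat_lit 304) (nat_lit 2783421662) (nat_lit 0) (nat_lit 359669626) (nat_lit 89) (nat_lit 5) (nat_lit 93) (nat_lit 4) (nat_lit 89) (nat_lit 4) (nat_lit 468) (nat_lit 371) (nat_lit 361)) (XT.lf (nat_lit 0) (nat_lit 930540834) (nat_lit 228) (nat_lit 3855608606) (nat_lit 304) (nat_lit 6940824651) (nat_lit 82) (nat_lit 5) (nat_lit 85) (nat_lit 5) (nat_lit 86) (nat_lit 4) (nat_lit 469) (nat_lit 371) (nat_lit 360)))) (XT.nd (nat_lit 156) (nat_lit 760) (nat_lit 0) (XT.nd (nat_lit 78) (nat_lit 228) (nat_lit 0) (XT.lf (nat_lit 0) (nat_lit 1011973021) (nat_lit 304) (nat_lit 7171315817) (nat_lit 76) (nat_lit 3716836206) (nat_lit 78) (nat_lit 5)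 (nat_lit 82) (nat_lit 5) (nat_lit 79) (nat_lit 4) (nat_lit 470) (nat_lit 371) (nat_lit 359)) (XT.lf (nat_lit 0) (nat_lit 8554661809) (nat_lit 228) (nat_lit 554542971) (nat_lit 304) (nat_lit 2968346703) (nat_lit 75) (nat_lit 5) (nat_lit 78) (nat_lit 5) (nat_lit 79) (nat_lit 4) (nat_lit 471) (nat_lit 371) (nat_lit 358))) (XT.nd (nat_lit 78) (nat_lit 304) (nat_lit 0) (XT.lf (nat_lit 0) (nat_lit 141508950) (nat_lit 152) (nat_lit 5004258593) (nat_lit 228) (nat_lit 7113365390) (nat_lit 69) (nat_lit 5) (nat_lit 71) (nat_lit 5) (nat_lit 72) (nat_lit 4) (nat_lit 472) (nat_lit 371) (nat_lit 357)) (XT.lf (nat_lit 0) (nat_lit 1028493348) (nat_lit 304) (nat_lit 8545512980) (nat_lit 76) (nat_lit 2871139834) (nat_lit 65) (nat_lit 5) (nat_lit 69) (nat_lit 5) (nat_lit 66) (nat_lit 4) (nat_lit 473) (nat_lit 371) (nat_lit 356))))) (XT.nd (nat_lit 234) (nat_lit 912) (nat_lit 0) (XT.nd (nat_lit 78) (nat_lit 760) (nat_lit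 0) (XT.lf (nat_lit 0) (nat_lit 7672975721) (nat_lit 152) (nat_lit 1658992339) (nat_lit 228) (nat_lit 3303552609) (nat_lit 63) (nat_lit 5) (nat_lit 65) (nat_lit 5) (nat_lit 66) (nat_lit 4) (nat_lit 474) (nat_lit 371) (nat_lit 355)) (XT.nd (nat_lit 78) (nat_lit 456) (nat_lit 0) (XT.lf (nat_lit 0) (nat_lit 5011375215) (nat_lit 304) (nat_lit 1363275606) (nat_lit 76) (nat_lit 6455806617) (nat_lit 59) (nat_lit 5) (nat_lit 63) (nat_lit 5) (nat_lit 60) (nat_lit 4) (nat_lit 475) (nat_lit 371) (nat_lit 354)) (XT.lf (nat_lit 0) (nat_lit 516137520) (nat_lit 304) (nat_lit 10720836008) (nat_lit 76) (nat_lit 1793315662) (nat_lit 53) (nat_lit 5) (nat_lit 57) (nat_lit 5) (nat_lit 54) (nat_lit 4) (nat_lit 476) (nat_lit 371) (nat_lit 353)))) (XT.nd (nat_lit 156) (nat_lit 532) (nat_lit 0) (XT.nd (nat_lit 78) (nat_lit 228) (nat_lit 0) (XT.lf (nat_lit 0) (nat_lit 5997168427) (nat_lit 152) (nat_lit 3036678161) (nat_lit 228)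 (nat_lit 4200463525) (nat_lit 51) (nat_lit 5) (nat_lit 53) (nat_lit 5) (nat_lit 54) (nat_lit 4) (nat_lit 477) (nat_lit 371) (nat_lit 352)) (XT.lf (nat_lit 0) (nat_lit 4329095890) (nat_lit 228) (nat_lit 3730483879) (nat_lit 76) (nat_lit 5383832956) (nat_lit 48) (nat_lit 5) (nat_lit 51) (nat_lit 5) (nat_lit 49) (nat_lit 4) (nat_lit 478) (nat_lit 371) (nat_lit 351))) (XT.nd (nat_lit 78) (nat_lit 380) (nat_lit 0) (XT.lf (nat_lit 0) (nat_lit 13071205317) (nat_lit 228) (nat_lit 188108282) (nat_lit 0) (nat_lit 398645975) (nat_lit 46) (nat_lit 5) (nat_lit 49) (nat_lit 4) (nat_lit 46) (nat_lit 4) (nat_lit 479) (nat_lit 371) (nat_lit 350)) (XT.lf (nat_lit 0) (nat_lit 3378013074) (nat_lit 152) (nat_lit 4780212555) (nat_lit 228) (nat_lit 5718272050) (nat_lit 41) (nat_lit 5) (nat_lit 43) (nat_lit 5) (nat_lit 44) (nat_lit 4) (nat_lit 480) (nat_lit 371) (nat_lit 349)))))) (XT.nd (nat_lit 546) (nat_lit 608) (nat_lit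 0) (XT.nd (nat_lit 234) (nat_lit 684) (nat_lit 0) (XT.nd (nat_lit 78) (nat_lit 380) (nat_lit 0) (XT.lf (nat_lit 0) (nat_lit 3037520479) (nat_lit 228) (nat_lit 7117296518) (nat_lit 76) (nat_lit 3945870849) (nat_lit 38) (nat_lit 5) (nat_lit 41) (nat_lit 5) (nat_lit 39) (nat_lit 4) (nat_lit 481) (nat_lit 371) (nat_lit 348)) (XT.nd (nat_lit 78) (nat_lit 228) (nat_lit 0) (XT.lf (nat_lit 0) (nat_lit 10604966039) (nat_lit 152) (nat_lit 1402231357) (nat_lit 228) (nat_lit 2323073327) (nat_lit 36) (nat_lit 5) (nat_lit 38) (nat_lit 5) (nat_lit 39) (nat_lit 4) (nat_lit 482) (nat_lit 371) (nat_lit 347)) (XT.lf (nat_lit 0) (nat_lit 6640255722) (nat_lit 228) (nat_lit 346006399) (nat_lit 76) (nat_lit 7578639923) (nat_lit 33) (nat_lit 5) (nat_lit 36) (nat_lit 5) (nat_lit 34) (nat_lit 4) (nat_lit 483) (nat_lit 371) (nat_lit 346)))) (XT.nd (nat_lit 156) (nat_lit 304) (nat_lit 0) (XT.nd (nat_lit 78) (nat_lit 76) (nat_lit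 0) (XT.lf (nat_lit 0) (nat_lit 1065271915) (nat_lit 228) (nat_lit 11696895813) (nat_lit 76) (nat_lit 2043080299) (nat_lit 29) (nat_lit 5) (nat_lit 32) (nat_lit 5) (nat_lit 30) (nat_lit 4) (nat_lit 484) (nat_lit 371) (nat_lit 345)) (XT.lf (nat_lit 0) (nat_lit 6546783481) (nat_lit 76) (nat_lit 3722661481) (nat_lit 152) (nat_lit 4781268181) (nat_lit 28) (nat_lit 5) (nat_lit 29) (nat_lit 5) (nat_lit 30) (nat_lit 4) (nat_lit 485) (nat_lit 371) (nat_lit 344))) (XT.nd (nat_lit 78) (nat_lit 76) (nat_lit 0) (XT.lf (nat_lit 0) (nat_lit 4429246213) (nat_lit 228) (nat_lit 5303989150) (nat_lit 76) (nat_lit 5568903134) (nat_lit 25) (nat_lit 5) (nat_lit 28) (nat_lit 5) (nat_lit 26) (nat_lit 4) (nat_lit 486) (nat_lit 371) (nat_lit 343)) (XT.lf (nat_lit 0) (nat_lit 13470816673) (nat_lit 76) (nat_lit 412434834) (nat_lit 152) (nat_lit 1676581108) (nat_lit 24) (nat_lit 5) (nat_lit 25) (nat_lit 5) (nat_lit 26) (nat_lit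 4) (nat_lit 487) (nat_lit 371) (nat_lit 342))))) (XT.nd (nat_lit 60060) (nat_lit 0) (nat_lit 8892) (XT.nd (nat_lit 156) (nat_lit 76) (nat_lit 0) (XT.nd (nat_lit 78) (nat_lit 228) (nat_lit 0) (XT.lf (nat_lit 0) (nat_lit 1100910638) (nat_lit 76) (nat_lit 6669026344) (nat_lit 152) (nat_lit 8052777854) (nat_lit 20) (nat_lit 5) (nat_lit 21) (nat_lit 5) (nat_lit 22) (nat_lit 4) (nat_lit 488) (nat_lit 371) (nat_lit 341)) (XT.lf (nat_lit 0) (nat_lit 1412892357) (nat_lit 228) (nat_lit 11746143625) (nat_lit 76) (nat_lit 2933102289) (nat_lit 17) (nat_lit 5) (nat_lit 20) (nat_lit 5) (nat_lit 18) (nat_lit 4) (nat_lit 489) (nat_lit 371) (nat_lit 340))) (XT.nd (nat_lit 59826) (nat_lit 0) (nat_lit 10792) (XT.lf (nat_lit 0) (nat_lit 7561130906) (nat_lit 76) (nat_lit 3550156554) (nat_lit 152) (nat_lit 5256129843) (nat_lit 16) (nat_lit 5) (nat_lit 17) (nat_lit 5) (nat_lit 18) (nat_lit 4) (nat_lit 490) (nat_lit 371) (nat_lit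 339)) (XT.lf (nat_lit 0) (nat_lit 1371710131) (nat_lit 380) (nat_lit 2169188892) (nat_lit 0) (nat_lit 1371710131) (nat_lit 158) (nat_lit 5) (nat_lit 163) (nat_lit 4) (nat_lit 158) (nat_lit 4) (nat_lit 456) (nat_lit 372) (nat_lit 372)))) (XT.nd (nat_lit 156) (nat_lit 760) (nat_lit 0) (XT.nd (nat_lit 78) (nat_lit 684) (nat_lit 0) (XT.lf (nat_lit 0) (nat_lit 136980108) (nat_lit 456) (nat_lit 829727017) (nat_lit 76) (nat_lit 8985024929) (nat_lit 152) (nat_lit 5) (nat_lit 158) (nat_lit 5) (nat_lit 153) (nat_lit 4) (nat_lit 457) (nat_lit 372) (nat_lit 371)) (XT.lf (nat_lit 0) (nat_lit 2737513747) (nat_lit 380) (nat_lit 4740710864) (nat_lit 380) (nat_lit 2602840621) (nat_lit 143) (nat_lit 4) (nat_lit 148) (nat_lit 5) (nat_lit 148) (nat_lit 4) (nat_lit 458) (nat_lit 372) (nat_lit 370))) (XT.nd (nat_lit 78) (nat_lit 380) (nat_lit 0) (XT.lf (nat_lit 0) (nat_lit 4735703247) (nat_lit 380) (nat_lit 3841143562) (nat_lit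 0) (nat_lit 1637336218) (nat_lit 138) (nat_lit 5) (nat_lit 143) (nat_lit 4) (nat_lit 138) (nat_lit 4) (nat_lit 459) (nat_lit 372) (nat_lit 369)) (XT.lf (nat_lit 0) (nat_lit 1868266405) (nat_lit 380) (nat_lit 297688123) (nat_lit 76) (nat_lit 8185046280) (nat_lit 133) (nat_lit 5) (nat_lit 138) (nat_lit 5) (nat_lit 134) (nat_lit 4) (nat_lit 460) (nat_lit 372) (nat_lit 368))))))))
noncomputable def xc5 : XT := (XT.nd (nat_lit 2262) (nat_lit 304) (nat_lit 0) (XT.nd (nat_lit 1092) (nat_lit 3268) (nat_lit 0) (XT.nd (nat_lit 546) (nat_lit 2204) (nat_lit 0) (XT.nd (nat_lit 234) (nat_lit 1748) (nat_lit 0) (XT.nd (nat_lit 78) (nat_lit 760) (nat_lit 0) (XT.lf (nat_lit 0) (nat_lit 3326574727) (nat_lit 304) (nat_lit 6041293042) (nat_lit 304) (nat_lit 1123195684) (nat_lit 125) (nat_lit 4) (nat_lit 129) (nat_lit 5) (nat_lit 129) (nat_lit 4) (nat_lit 461) (nat_lit 372) (nat_lit 367)) (XT.nd (nat_lit 78) (nat_lit 380)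 (nat_lit 0) (XT.lf (nat_lit 0) (nat_lit 6350751922) (nat_lit 380) (nat_lit 3636816258) (nat_lit 0) (nat_lit 647357291) (nat_lit 120) (nat_lit 5) (nat_lit 125) (nat_lit 4) (nat_lit 120) (nat_lit 4) (nat_lit 462) (nat_lit 372) (nat_lit 366)) (XT.lf (nat_lit 0) (nat_lit 3208721567) (nat_lit 380) (nat_lit 77826146) (nat_lit 76) (nat_lit 7495974048) (nat_lit 115) (nat_lit 5) (nat_lit 120) (nat_lit 5) (nat_lit 116) (nat_lit 4) (nat_lit 463) (nat_lit 372) (nat_lit 365)))) (XT.nd (nat_lit 156) (nat_lit 912) (nat_lit 0) (XT.nd (nat_lit 78) (nat_lit 304) (nat_lit 0) (XT.lf (nat_lit 0) (nat_lit 3576338762) (nat_lit 304) (nat_lit 7301547719) (nat_lit 304) (nat_lit 55901321) (nat_lit 108) (nat_lit 4) (nat_lit 112) (nat_lit 5) (nat_lit 112) (nat_lit 4) (nat_lit 464) (nat_lit 372) (nat_lit 364)) (XT.lf (nat_lit 0) (nat_lit 7261480122) (nat_lit 228) (nat_lit 311892723) (nat_lit 304) (nat_lit 3515489388) (nat_lit 104)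 (nat_lit 5) (nat_lit 107) (nat_lit 5) (nat_lit 108) (nat_lit 4) (nat_lit 465) (nat_lit 372) (nat_lit 363))) (XT.nd (nat_lit 78) (nat_lit 532) (nat_lit 0) (XT.lf (nat_lit 0) (nat_lit 4138814326) (nat_lit 380) (nat_lit 271730648) (nat_lit 76) (nat_lit 6837265664) (nat_lit 99) (nat_lit 5) (nat_lit 104) (nat_lit 5) (nat_lit 100) (nat_lit 4) (nat_lit 466) (nat_lit 372) (nat_lit 362)) (XT.lf (nat_lit 0) (nat_lit 568084704) (nat_lit 304) (nat_lit 8032066473) (nat_lit 76) (nat_lit 2810608898) (nat_lit 92) (nat_lit 5) (nat_lit 96) (nat_lit 5) (nat_lit 93) (nat_lit 4) (nat_lit 467) (nat_lit 372) (nat_lit 361))))) (XT.nd (nat_lit 234) (nat_lit 1140) (nat_lit 0) (XT.nd (nat_lit 78) (nat_lit 836) (nat_lit 0) (XT.lf (nat_lit 0) (nat_lit 7054935822) (nat_lit 228) (nat_lit 1326439239) (nat_lit 304) (nat_lit 3196235189) (nat_lit 89) (nat_lit 5) (nat_lit 92) (nat_lit 5) (nat_lit 93) (nat_lit 4) (nat_lit 468) (nat_lit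 372) (nat_lit 360)) (XT.nd (nat_lit 78) (nat_lit 532) (nat_lit 0) (XT.lf (nat_lit 0) (nat_lit 4631384746) (nat_lit 304) (nat_lit 988738811) (nat_lit 76) (nat_lit 6128473090) (nat_lit 85) (nat_lit 5) (nat_lit 89) (nat_lit 5) (nat_lit 86) (nat_lit 4) (nat_lit 469) (nat_lit 372) (nat_lit 359)) (XT.lf (nat_lit 0) (nat_lit 730378133) (nat_lit 304) (nat_lit 9296376498) (nat_lit 76) (nat_lit 1897167036) (nat_lit 78) (nat_lit 5) (nat_lit 82) (nat_lit 5) (nat_lit 79) (nat_lit 4) (nat_lit 470) (nat_lit 372) (nat_lit 358)))) (XT.nd (nat_lit 156) (nat_lit 608) (nat_lit 0) (XT.nd (nat_lit 78) (nat_lit 304) (nat_lit 0) (XT.lf (nat_lit 0) (nat_lit 6267879679) (nat_lit 228) (nat_lit 2470579964) (nat_lit 304) (nat_lit 3364672191) (nat_lit 75) (nat_lit 5) (nat_lit 78) (nat_lit 5) (nat_lit 79) (nat_lit 4) (nat_lit 471) (nat_lit 372) (nat_lit 357)) (XT.lf (nat_lit 0) (nat_lit 4651267672) (nat_lit 304) (nat_lit 2347625611)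 (nat_lit 76) (nat_lit 5287939599) (nat_lit 71) (nat_lit 5) (nat_lit 75) (nat_lit 5) (nat_lit 72) (nat_lit 4) (nat_lit 472) (nat_lit 372) (nat_lit 356))) (XT.nd (nat_lit 78) (nat_lit 152) (nat_lit 0) (XT.lf (nat_lit 0) (nat_lit 392548473) (nat_lit 304) (nat_lit 11274510053) (nat_lit 76) (nat_lit 808267923) (nat_lit 65) (nat_lit 5) (nat_lit 69) (nat_lit 5) (nat_lit 66) (nat_lit 4) (nat_lit 473) (nat_lit 372) (nat_lit 355)) (XT.lf (nat_lit 0) (nat_lit 4774802337) (nat_lit 152) (nat_lit 3829474474) (nat_lit 228) (nat_lit 4063259709) (nat_lit 63) (nat_lit 5) (nat_lit 65) (nat_lit 5) (nat_lit 66) (nat_lit 4) (nat_lit 474) (nat_lit 372) (nat_lit 354)))))) (XT.nd (nat_lit 546) (nat_lit 1368) (nat_lit 0) (XT.nd (nat_lit 234) (nat_lit 988) (nat_lit 0) (XT.nd (nat_lit 78) (nat_lit 608) (nat_lit 0) (XT.lf (nat_lit 0) (nat_lit 4154779458) (nat_lit 304) (nat_lit 4478457980) (nat_lit 76) (nat_lit 4231472153) (nat_lit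 59) (nat_lit 5) (nat_lit 63) (nat_lit 5) (nat_lit 60) (nat_lit 4) (nat_lit 475) (nat_lit 372) (nat_lit 353)) (XT.nd (nat_lit 78) (nat_lit 456) (nat_lit 0) (XT.lf (nat_lit 0) (nat_lit 12037920003) (nat_lit 152) (nat_lit 539582832) (nat_lit 228) (nat_lit 489492112) (nat_lit 57) (nat_lit 5) (nat_lit 59) (nat_lit 5) (nat_lit 60) (nat_lit 4) (nat_lit 476) (nat_lit 372) (nat_lit 352)) (XT.lf (nat_lit 0) (nat_lit 2437639327) (nat_lit 152) (nat_lit 5491918092) (nat_lit 228) (nat_lit 5343624157) (nat_lit 51) (nat_lit 5) (nat_lit 53) (nat_lit 5) (nat_lit 54) (nat_lit 4) (nat_lit 477) (nat_lit 372) (nat_lit 351)))) (XT.nd (nat_lit 156) (nat_lit 608) (nat_lit 0) (XT.nd (nat_lit 78) (nat_lit 152) (nat_lit 0) (XT.lf (nat_lit 0) (nat_lit 3089056483) (nat_lit 228) (nat_lit 7524649697) (nat_lit 76) (nat_lit 2870964415) (nat_lit 48) (nat_lit 5) (nat_lit 51) (nat_lit 5) (nat_lit 49) (nat_lit 4) (nat_lit 478) (nat_lit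 372) (nat_lit 350)) (XT.lf (nat_lit 0) (nat_lit 9497962163) (nat_lit 152) (nat_lit 2234775549) (nat_lit 228) (nat_lit 1968448811) (nat_lit 46) (nat_lit 5) (nat_lit 48) (nat_lit 5) (nat_lit 49) (nat_lit 4) (nat_lit 479) (nat_lit 372) (nat_lit 349))) (XT.nd (nat_lit 78) (nat_lit 380) (nat_lit 0) (XT.lf (nat_lit 0) (nat_lit 6661166088) (nat_lit 228) (nat_lit 884685583) (nat_lit 76) (nat_lit 6376722590) (nat_lit 43) (nat_lit 5) (nat_lit 46) (nat_lit 5) (nat_lit 44) (nat_lit 4) (nat_lit 480) (nat_lit 372) (nat_lit 348)) (XT.lf (nat_lit 0) (nat_lit 1391230720) (nat_lit 228) (nat_lit 11645258645) (nat_lit 76) (nat_lit 1112943756) (nat_lit 38) (nat_lit 5) (nat_lit 41) (nat_lit 5) (nat_lit 39) (nat_lit 4) (nat_lit 481) (nat_lit 372) (nat_lit 347))))) (XT.nd (nat_lit 312) (nat_lit 608) (nat_lit 0) (XT.nd (nat_lit 156) (nat_lit 380) (nat_lit 0) (XT.nd (nat_lit 78) (nat_lit 228) (nat_lit 0) (XT.lf (nat_lit 0) (nat_lit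 5887587463) (nat_lit 152) (nat_lit 4373832773) (nat_lit 228) (nat_lit 4119585964) (nat_lit 36) (nat_lit 5) (nat_lit 38) (nat_lit 5) (nat_lit 39) (nat_lit 4) (nat_lit 482) (nat_lit 372) (nat_lit 346)) (XT.lf (nat_lit 0) (nat_lit 4747102163) (nat_lit 228) (nat_lit 5326742237) (nat_lit 76) (nat_lit 4544430885) (nat_lit 33) (nat_lit 5) (nat_lit 36) (nat_lit 5) (nat_lit 34) (nat_lit 4) (nat_lit 483) (nat_lit 372) (nat_lit 345))) (XT.nd (nat_lit 78) (nat_lit 304) (nat_lit 0) (XT.lf (nat_lit 0) (nat_lit 12720068451) (nat_lit 76) (nat_lit 1137200026) (nat_lit 152) (nat_lit 1004181277) (nat_lit 32) (nat_lit 5) (nat_lit 33) (nat_lit 5) (nat_lit 34) (nat_lit 4) (nat_lit 484) (nat_lit 372) (nat_lit 344)) (XT.lf (nat_lit 0) (nat_lit 1026939905) (nat_lit 76) (nat_lit 7061031806) (nat_lit 152) (nat_lit 7021577759) (nat_lit 28) (nat_lit 5) (nat_lit 29) (nat_lit 5) (nat_lit 30) (nat_lit 4) (nat_lit 485) (nat_lit 372)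 (nat_lit 343)))) (XT.nd (nat_lit 156) (nat_lit 304) (nat_lit 0) (XT.nd (nat_lit 78) (nat_lit 76) (nat_lit 0) (XT.lf (nat_lit 0) (nat_lit 2091423206) (nat_lit 228) (nat_lit 11108161909) (nat_lit 76) (nat_lit 2164218909) (nat_lit 25) (nat_lit 5) (nat_lit 28) (nat_lit 5) (nat_lit 26) (nat_lit 4) (nat_lit 486) (nat_lit 372) (nat_lit 342)) (XT.lf (nat_lit 0) (nat_lit 7463341867) (nat_lit 76) (nat_lit 3976795057) (nat_lit 152) (nat_lit 4183467420) (nat_lit 24) (nat_lit 5) (nat_lit 25) (nat_lit 5) (nat_lit 26) (nat_lit 4) (nat_lit 487) (nat_lit 372) (nat_lit 341))) (XT.nd (nat_lit 78) (nat_lit 76) (nat_lit 0) (XT.lf (nat_lit 0) (nat_lit 5158656331) (nat_lit 228) (nat_lit 5216297665) (nat_lit 76) (nat_lit 5514603899) (nat_lit 21) (nat_lit 5) (nat_lit 24) (nat_lit 5) (nat_lit 22) (nat_lit 4) (nat_lit 488) (nat_lit 372) (nat_lit 340)) (XT.lf (nat_lit 0) (nat_lit 13900234628) (nat_lit 76) (nat_lit 865196723) (nat_lit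 152) (nat_lit 1396681850) (nat_lit 20) (nat_lit 5) (nat_lit 21) (nat_lit 5) (nat_lit 22) (nat_lit 4) (nat_lit 489) (nat_lit 372) (nat_lit 339))))))) (XT.nd (nat_lit 60762) (nat_lit 0) (nat_lit 1520) (XT.nd (nat_lit 60138) (nat_lit 0) (nat_lit 5776) (XT.nd (nat_lit 59826) (nat_lit 0) (nat_lit 9272) (XT.nd (nat_lit 59670) (nat_lit 0) (nat_lit 11172) (XT.lf (nat_lit 0) (nat_lit 653428191) (nat_lit 76) (nat_lit 7535838342) (nat_lit 152) (nat_lit 8250922677) (nat_lit 16) (nat_lit 5) (nat_lit 17) (nat_lit 5) (nat_lit 18) (nat_lit 4) (nat_lit 490) (nat_lit 372) (nat_lit 338)) (XT.nd (nat_lit 78) (nat_lit 836) (nat_lit 0) (XT.lf (nat_lit 0) (nat_lit 4058815192) (nat_lit 380) (nat_lit 365978603) (nat_lit 380) (nat_lit 365978603) (nat_lit 174) (nat_lit 4) (nat_lit 179) (nat_lit 5) (nat_lit 179) (nat_lit 4) (nat_lit 454) (nat_lit 373) (nat_lit 373)) (XT.lf (nat_lit 0) (nat_lit 1906735579) (nat_lit 380) (nat_lit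 4479040508) (nat_lit 380) (nat_lit 3316628474) (nat_lit 163) (nat_lit 4) (nat_lit 168) (nat_lit 5) (nat_lit 168) (nat_lit 4) (nat_lit 455) (nat_lit 373) (nat_lit 372)))) (XT.nd (nat_lit 156) (nat_lit 1064) (nat_lit 0) (XT.nd (nat_lit 78) (nat_lit 456) (nat_lit 0) (XT.lf (nat_lit 0) (nat_lit 3801224067) (nat_lit 380) (nat_lit 4470454301) (nat_lit 0) (nat_lit 1555177590) (nat_lit 158) (nat_lit 5) (nat_lit 163) (nat_lit 4) (nat_lit 158) (nat_lit 4) (nat_lit 456) (nat_lit 373) (nat_lit 371)) (XT.lf (nat_lit 0) (nat_lit 1097610402) (nat_lit 456) (nat_lit 1103074276) (nat_lit 76) (nat_lit 7754182826) (nat_lit 152) (nat_lit 5) (nat_lit 158) (nat_lit 5) (nat_lit 153) (nat_lit 4) (nat_lit 457) (nat_lit 373) (nat_lit 370))) (XT.nd (nat_lit 78) (nat_lit 380) (nat_lit 0) (XT.lf (nat_lit 0) (nat_lit 2329891549) (nat_lit 380) (nat_lit 6016880277) (nat_lit 380) (nat_lit 1739271749) (nat_lit 143) (nat_lit 4) (nat_lit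 148) (nat_lit 5) (nat_lit 148) (nat_lit 4) (nat_lit 458) (nat_lit 373) (nat_lit 369)) (XT.lf (nat_lit 0) (nat_lit 5497100246) (nat_lit 380) (nat_lit 4393619916) (nat_lit 0) (nat_lit 330147162) (nat_lit 138) (nat_lit 5) (nat_lit 143) (nat_lit 4) (nat_lit 138) (nat_lit 4) (nat_lit 459) (nat_lit 373) (nat_lit 368))))) (XT.nd (nat_lit 312) (nat_lit 1748) (nat_lit 0) (XT.nd (nat_lit 156) (nat_lit 760) (nat_lit 0) (XT.nd (nat_lit 78) (nat_lit 608) (nat_lit 0) (XT.lf (nat_lit 0) (nat_lit 2530555932) (nat_lit 380) (nat_lit 1000103143) (nat_lit 76) (nat_lit 6828579643) (nat_lit 133) (nat_lit 5) (nat_lit 138) (nat_lit 5) (nat_lit 134) (nat_lit 4) (nat_lit 460) (nat_lit 373) (nat_lit 367)) (XT.lf (nat_lit 0) (nat_lit 2474152082) (nat_lit 304) (nat_lit 7459218828) (nat_lit 304) (nat_lit 567867263) (nat_lit 125) (nat_lit 4) (nat_lit 129) (nat_lit 5) (nat_lit 129) (nat_lit 4) (nat_lit 461) (nat_lit 373) (nat_lit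 366))) (XT.nd (nat_lit 78) (nat_lit 380) (nat_lit 0) (XT.lf (nat_lit 0) (nat_lit 5994059212) (nat_lit 304) (nat_lit 817119421) (nat_lit 380) (nat_lit 3835602847) (nat_lit 120) (nat_lit 5) (nat_lit 124) (nat_lit 5) (nat_lit 125) (nat_lit 4) (nat_lit 462) (nat_lit 373) (nat_lit 365)) (XT.lf (nat_lit 0) (nat_lit 3562292429) (nat_lit 380) (nat_lit 1247561010) (nat_lit 76) (nat_lit 5986249398) (nat_lit 115) (nat_lit 5) (nat_lit 120) (nat_lit 5) (nat_lit 116) (nat_lit 4) (nat_lit 463) (nat_lit 373) (nat_lit 364)))) (XT.nd (nat_lit 156) (nat_lit 912) (nat_lit 0) (XT.nd (nat_lit 78) (nat_lit 228) (nat_lit 0) (XT.lf (nat_lit 0) (nat_lit 177352348) (nat_lit 380) (nat_lit 8710669902) (nat_lit 76) (nat_lit 2061370876) (nat_lit 107) (nat_lit 5) (nat_lit 112) (nat_lit 5) (nat_lit 108) (nat_lit 4) (nat_lit 464) (nat_lit 373) (nat_lit 363)) (XT.lf (nat_lit 0) (nat_lit 5759480024) (nat_lit 228) (nat_lit 1961533314)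 (nat_lit 304) (nat_lit 3385145468) (nat_lit 104) (nat_lit 5) (nat_lit 107) (nat_lit 5) (nat_lit 108) (nat_lit 4) (nat_lit 465) (nat_lit 373) (nat_lit 362))) (XT.nd (nat_lit 78) (nat_lit 532) (nat_lit 0) (XT.lf (nat_lit 0) (nat_lit 4171233642) (nat_lit 380) (nat_lit 1949247198) (nat_lit 76) (nat_lit 5146534608) (nat_lit 99) (nat_lit 5) (nat_lit 104) (nat_lit 5) (nat_lit 100) (nat_lit 4) (nat_lit 466) (nat_lit 373) (nat_lit 361)) (XT.lf (nat_lit 0) (nat_lit 471673241) (nat_lit 304) (nat_lit 9914769332) (nat_lit 76) (nat_lit 1045710473) (nat_lit 92) (nat_lit 5) (nat_lit 96) (nat_lit 5) (nat_lit 93) (nat_lit 4) (nat_lit 467) (nat_lit 373) (nat_lit 360)))))) (XT.nd (nat_lit 546) (nat_lit 2052) (nat_lit 0) (XT.nd (nat_lit 234) (nat_lit 1140) (nat_lit 0) (XT.nd (nat_lit 78) (nat_lit 836) (nat_lit 0) (XT.lf (nat_lit 0) (nat_lit 5017152413) (nat_lit 228) (nat_lit 3181005314) (nat_lit 304) (nat_lit 3402582407)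 (nat_lit 89) (nat_lit 5) (nat_lit 92) (nat_lit 5) (nat_lit 93) (nat_lit 4) (nat_lit 468) (nat_lit 373) (nat_lit 359)) (XT.nd (nat_lit 78) (nat_lit 532) (nat_lit 0) (XT.lf (nat_lit 0) (nat_lit 4328126395) (nat_lit 304) (nat_lit 3217014207) (nat_lit 76) (nat_lit 4228605832) (nat_lit 85) (nat_lit 5) (nat_lit 89) (nat_lit 5) (nat_lit 86) (nat_lit 4) (nat_lit 469) (nat_lit 373) (nat_lit 358)) (XT.lf (nat_lit 0) (nat_lit 198241365) (nat_lit 228) (nat_lit 91855446) (nat_lit 304) (nat_lit 11661341616) (nat_lit 78) (nat_lit 5) (nat_lit 81) (nat_lit 5) (nat_lit 82) (nat_lit 5) (nat_lit 470) (nat_lit 373) (nat_lit 357)))) (XT.nd (nat_lit 156) (nat_lit 608) (nat_lit 0) (XT.nd (nat_lit 78) (nat_lit 304) (nat_lit 0) (XT.lf (nat_lit 0) (nat_lit 3649420845) (nat_lit 228) (nat_lit 4559021539) (nat_lit 304) (nat_lit 3924001630) (nat_lit 75) (nat_lit 5) (nat_lit 78) (nat_lit 5) (nat_lit 79) (nat_lit 4) (nat_lit 471) (nat_lit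 373) (nat_lit 356)) (XT.lf (nat_lit 0) (nat_lit 3995655548) (nat_lit 304) (nat_lit 5172467957) (nat_lit 76) (nat_lit 3150167223) (nat_lit 71) (nat_lit 5) (nat_lit 75) (nat_lit 5) (nat_lit 72) (nat_lit 4) (nat_lit 472) (nat_lit 373) (nat_lit 355))) (XT.nd (nat_lit 78) (nat_lit 456) (nat_lit 0) (XT.lf (nat_lit 0) (nat_lit 10678744374) (nat_lit 152) (nat_lit 1435900659) (nat_lit 228) (nat_lit 394249285) (nat_lit 69) (nat_lit 5) (nat_lit 71) (nat_lit 5) (nat_lit 72) (nat_lit 4) (nat_lit 473) (nat_lit 373) (nat_lit 354)) (XT.lf (nat_lit 0) (nat_lit 1527736146) (nat_lit 152) (nat_lit 6181583080) (nat_lit 228) (nat_lit 4994103583) (nat_lit 63) (nat_lit 5) (nat_lit 65) (nat_lit 5) (nat_lit 66) (nat_lit 4) (nat_lit 474) (nat_lit 373) (nat_lit 353))))) (XT.nd (nat_lit 312) (nat_lit 912) (nat_lit 0) (XT.nd (nat_lit 156) (nat_lit 684) (nat_lit 0) (XT.nd (nat_lit 78) (nat_lit 152) (nat_lit 0) (XT.lf (nat_lit 0)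 (nat_lit 3127912546) (nat_lit 304) (nat_lit 7948834689) (nat_lit 76) (nat_lit 1826134730) (nat_lit 59) (nat_lit 5) (nat_lit 63) (nat_lit 5) (nat_lit 60) (nat_lit 4) (nat_lit 475) (nat_lit 373) (nat_lit 352)) (XT.lf (nat_lit 0) (nat_lit 8394580236) (nat_lit 152) (nat_lit 3063256664) (nat_lit 228) (nat_lit 1649186971) (nat_lit 57) (nat_lit 5) (nat_lit 59) (nat_lit 5) (nat_lit 60) (nat_lit 4) (nat_lit 476) (nat_lit 373) (nat_lit 351))) (XT.nd (nat_lit 78) (nat_lit 380) (nat_lit 0) (XT.lf (nat_lit 0) (nat_lit 6658903665) (nat_lit 304) (nat_lit 1469812314) (nat_lit 76) (nat_lit 5187169025) (nat_lit 53) (nat_lit 5) (nat_lit 57) (nat_lit 5) (nat_lit 54) (nat_lit 4) (nat_lit 477) (nat_lit 373) (nat_lit 350)) (XT.lf (nat_lit 0) (nat_lit 1669715857) (nat_lit 228) (nat_lit 11693031249) (nat_lit 76) (nat_lit 167262144) (nat_lit 48) (nat_lit 5) (nat_lit 51) (nat_lit 5) (nat_lit 49) (nat_lit 4) (nat_lit 478) (nat_lit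 373) (nat_lit 349)))) (XT.nd (nat_lit 156) (nat_lit 532) (nat_lit 0) (XT.nd (nat_lit 78) (nat_lit 228) (nat_lit 0) (XT.lf (nat_lit 0) (nat_lit 5147994753) (nat_lit 152) (nat_lit 5069198276) (nat_lit 228) (nat_lit 3531256731) (nat_lit 46) (nat_lit 5) (nat_lit 48) (nat_lit 5) (nat_lit 49) (nat_lit 4) (nat_lit 479) (nat_lit 373) (nat_lit 348)) (XT.lf (nat_lit 0) (nat_lit 5002929008) (nat_lit 228) (nat_lit 5485493177) (nat_lit 76) (nat_lit 3483937240) (nat_lit 43) (nat_lit 5) (nat_lit 46) (nat_lit 5) (nat_lit 44) (nat_lit 4) (nat_lit 480) (nat_lit 373) (nat_lit 347))) (XT.nd (nat_lit 78) (nat_lit 380) (nat_lit 0) (XT.lf (nat_lit 0) (nat_lit 11851840669) (nat_lit 152) (nat_lit 1928300861) (nat_lit 228) (nat_lit 421679415) (nat_lit 41) (nat_lit 5) (nat_lit 43) (nat_lit 5) (nat_lit 44) (nat_lit 4) (nat_lit 481) (nat_lit 373) (nat_lit 346)) (XT.lf (nat_lit 0) (nat_lit 773967432) (nat_lit 152) (nat_lit 7551936017)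 (nat_lit 228) (nat_lit 6110108513) (nat_lit 36) (nat_lit 5) (nat_lit 38) (nat_lit 5) (nat_lit 39) (nat_lit 4) (nat_lit 482) (nat_lit 373) (nat_lit 345))))))))
noncomputable def xc6 : XT := (XT.nd (nat_lit 61698) (nat_lit 0) (nat_lit 0) (XT.nd (nat_lit 60528) (nat_lit 0) (nat_lit 4104) (XT.nd (nat_lit 546) (nat_lit 228) (nat_lit 0) (XT.nd (nat_lit 234) (nat_lit 684) (nat_lit 0) (XT.nd (nat_lit 78) (nat_lit 304) (nat_lit 0) (XT.lf (nat_lit 0) (nat_lit 2660509404) (nat_lit 228) (nat_lit 10711258560) (nat_lit 76) (nat_lit 1304215504) (nat_lit 33) (nat_lit 5) (nat_lit 36) (nat_lit 5) (nat_lit 34) (nat_lit 4) (nat_lit 483) (nat_lit 373) (nat_lit 344)) (XT.nd (nat_lit 78) (nat_lit 228) (nat_lit 0) (XT.lf (nat_lit 0) (nat_lit 7140727869) (nat_lit 76) (nat_lit 4528371023) (nat_lit 152) (nat_lit 3252090990) (nat_lit 32) (nat_lit 5) (nat_lit 33) (nat_lit 5) (nat_lit 34) (nat_lit 4) (nat_lit 484) (nat_lit 373)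 (nat_lit 343)) (XT.lf (nat_lit 0) (nat_lit 5737701099) (nat_lit 228) (nat_lit 4847252676) (nat_lit 76) (nat_lit 4587264960) (nat_lit 29) (nat_lit 5) (nat_lit 32) (nat_lit 5) (nat_lit 30) (nat_lit 4) (nat_lit 485) (nat_lit 373) (nat_lit 342)))) (XT.nd (nat_lit 156) (nat_lit 304) (nat_lit 0) (XT.nd (nat_lit 78) (nat_lit 304) (nat_lit 0) (XT.lf (nat_lit 0) (nat_lit 13532865030) (nat_lit 76) (nat_lit 1461902207) (nat_lit 152) (nat_lit 434746786) (nat_lit 28) (nat_lit 5) (nat_lit 29) (nat_lit 5) (nat_lit 30) (nat_lit 4) (nat_lit 486) (nat_lit 373) (nat_lit 341)) (XT.lf (nat_lit 0) (nat_lit 1026982311) (nat_lit 76) (nat_lit 7764488684) (nat_lit 152) (nat_lit 6900464115) (nat_lit 24) (nat_lit 5) (nat_lit 25) (nat_lit 5) (nat_lit 26) (nat_lit 4) (nat_lit 487) (nat_lit 373) (nat_lit 340))) (XT.nd (nat_lit 78) (nat_lit 76) (nat_lit 0) (XT.lf (nat_lit 0) (nat_lit 2344793178) (nat_lit 228) (nat_lit 11956385831)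 (nat_lit 76) (nat_lit 1659712811) (nat_lit 21) (nat_lit 5) (nat_lit 24) (nat_lit 5) (nat_lit 22) (nat_lit 4) (nat_lit 488) (nat_lit 373) (nat_lit 339)) (XT.lf (nat_lit 0) (nat_lit 6950274686) (nat_lit 76) (nat_lit 4893227317) (nat_lit 152) (nat_lit 4392106779) (nat_lit 20) (nat_lit 5) (nat_lit 21) (nat_lit 5) (nat_lit 22) (nat_lit 4) (nat_lit 489) (nat_lit 373) (nat_lit 338))))) (XT.nd (nat_lit 59670) (nat_lit 0) (nat_lit 10260) (XT.nd (nat_lit 59514) (nat_lit 0) (nat_lit 12312) (XT.lf (nat_lit 0) (nat_lit 5092803226) (nat_lit 228) (nat_lit 6620531629) (nat_lit 76) (nat_lit 4803545695) (nat_lit 17) (nat_lit 5) (nat_lit 20) (nat_lit 5) (nat_lit 18) (nat_lit 4) (nat_lit 490) (nat_lit 373) (nat_lit 337)) (XT.nd (nat_lit 78) (nat_lit 456) (nat_lit 0) (XT.lf (nat_lit 0) (nat_lit 711394336) (nat_lit 380) (nat_lit 1981176750) (nat_lit 380) (nat_lit 1981176750) (nat_lit 185) (nat_lit 4) (nat_lit 190) (nat_lit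 5) (nat_lit 190) (nat_lit 4) (nat_lit 452) (nat_lit 374) (nat_lit 374)) (XT.lf (nat_lit 0) (nat_lit 2951431115) (nat_lit 456) (nat_lit 4781928503) (nat_lit 0) (nat_lit 1730201032) (nat_lit 179) (nat_lit 5) (nat_lit 185) (nat_lit 4) (nat_lit 179) (nat_lit 4) (nat_lit 453) (nat_lit 374) (nat_lit 373)))) (XT.nd (nat_lit 156) (nat_lit 836) (nat_lit 0) (XT.nd (nat_lit 78) (nat_lit 760) (nat_lit 0) (XT.lf (nat_lit 0) (nat_lit 402337203) (nat_lit 456) (nat_lit 1594169207) (nat_lit 76) (nat_lit 7586586631) (nat_lit 173) (nat_lit 5) (nat_lit 179) (nat_lit 5) (nat_lit 174) (nat_lit 4) (nat_lit 454) (nat_lit 374) (nat_lit 372)) (XT.lf (nat_lit 0) (nat_lit 1646942152) (nat_lit 380) (nat_lit 5773484819) (nat_lit 380) (nat_lit 2285233018) (nat_lit 163) (nat_lit 4) (nat_lit 168) (nat_lit 5) (nat_lit 168) (nat_lit 4) (nat_lit 455) (nat_lit 374) (nat_lit 371))) (XT.nd (nat_lit 78) (nat_lit 456) (nat_lit 0) (XT.lf (nat_lit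 0) (nat_lit 4729513300) (nat_lit 380) (nat_lit 4866799254) (nat_lit 0) (nat_lit 235457780) (nat_lit 158) (nat_lit 5) (nat_lit 163) (nat_lit 4) (nat_lit 158) (nat_lit 4) (nat_lit 456) (nat_lit 374) (nat_lit 370)) (XT.lf (nat_lit 0) (nat_lit 1927794526) (nat_lit 456) (nat_lit 1642823985) (nat_lit 76) (nat_lit 6390666307) (nat_lit 152) (nat_lit 5) (nat_lit 158) (nat_lit 5) (nat_lit 153) (nat_lit 4) (nat_lit 457) (nat_lit 374) (nat_lit 369)))))) (XT.nd (nat_lit 546) (nat_lit 2736) (nat_lit 0) (XT.nd (nat_lit 234) (nat_lit 1976) (nat_lit 0) (XT.nd (nat_lit 78) (nat_lit 760) (nat_lit 0) (XT.lf (nat_lit 0) (nat_lit 1650125482) (nat_lit 380) (nat_lit 7432652346) (nat_lit 380) (nat_lit 1011567817) (nat_lit 143) (nat_lit 4) (nat_lit 148) (nat_lit 5) (nat_lit 148) (nat_lit 4) (nat_lit 458) (nat_lit 374) (nat_lit 368)) (XT.nd (nat_lit 78) (nat_lit 380) (nat_lit 0) (XT.lf (nat_lit 0) (nat_lit 5000473992) (nat_lit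 304) (nat_lit 1130877009) (nat_lit 380) (nat_lit 4099403220) (nat_lit 138) (nat_lit 5) (nat_lit 142) (nat_lit 5) (nat_lit 143) (nat_lit 4) (nat_lit 459) (nat_lit 374) (nat_lit 367)) (XT.lf (nat_lit 0) (nat_lit 3057278820) (nat_lit 380) (nat_lit 1981703204) (nat_lit 76) (nat_lit 5331852645) (nat_lit 133) (nat_lit 5) (nat_lit 138) (nat_lit 5) (nat_lit 134) (nat_lit 4) (nat_lit 460) (nat_lit 374) (nat_lit 366)))) (XT.nd (nat_lit 156) (nat_lit 988) (nat_lit 0) (XT.nd (nat_lit 78) (nat_lit 380) (nat_lit 0) (XT.lf (nat_lit 0) (nat_lit 1336430260) (nat_lit 304) (nat_lit 9024507686) (nat_lit 304) (nat_lit 153880346) (nat_lit 125) (nat_lit 4) (nat_lit 129) (nat_lit 5) (nat_lit 129) (nat_lit 4) (nat_lit 461) (nat_lit 374) (nat_lit 365)) (XT.lf (nat_lit 0) (nat_lit 4697859881) (nat_lit 304) (nat_lit 2438885240) (nat_lit 380) (nat_lit 3525223539) (nat_lit 120) (nat_lit 5) (nat_lit 124) (nat_lit 5) (nat_lit 125)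 (nat_lit 4) (nat_lit 462) (nat_lit 374) (nat_lit 364))) (XT.nd (nat_lit 78) (nat_lit 608) (nat_lit 0) (XT.lf (nat_lit 0) (nat_lit 3774548333) (nat_lit 380) (nat_lit 2710129810) (nat_lit 76) (nat_lit 4328453576) (nat_lit 115) (nat_lit 5) (nat_lit 120) (nat_lit 5) (nat_lit 116) (nat_lit 4) (nat_lit 463) (nat_lit 374) (nat_lit 363)) (XT.lf (nat_lit 0) (nat_lit 264338553) (nat_lit 380) (nat_lit 10366157319) (nat_lit 76) (nat_lit 338015300) (nat_lit 107) (nat_lit 5) (nat_lit 112) (nat_lit 5) (nat_lit 108) (nat_lit 4) (nat_lit 464) (nat_lit 374) (nat_lit 362))))) (XT.nd (nat_lit 312) (nat_lit 1368) (nat_lit 0) (XT.nd (nat_lit 156) (nat_lit 760) (nat_lit 0) (XT.nd (nat_lit 78) (nat_lit 380) (nat_lit 0) (XT.lf (nat_lit 0) (nat_lit 3955363048) (nat_lit 228) (nat_lit 3767983123) (nat_lit 304) (nat_lit 3403624627) (nat_lit 104) (nat_lit 5) (nat_lit 107) (nat_lit 5) (nat_lit 108) (nat_lit 4) (nat_lit 465) (nat_lit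 374) (nat_lit 361)) (XT.lf (nat_lit 0) (nat_lit 4055936926) (nat_lit 380) (nat_lit 3934215791) (nat_lit 76) (nat_lit 3299619161) (nat_lit 99) (nat_lit 5) (nat_lit 104) (nat_lit 5) (nat_lit 100) (nat_lit 4) (nat_lit 466) (nat_lit 374) (nat_lit 360))) (XT.nd (nat_lit 78) (nat_lit 456) (nat_lit 0) (XT.lf (nat_lit 0) (nat_lit 233109707) (nat_lit 304) (nat_lit 654545678) (nat_lit 76) (nat_lit 10569319233) (nat_lit 95) (nat_lit 5) (nat_lit 99) (nat_lit 5) (nat_lit 96) (nat_lit 5) (nat_lit 467) (nat_lit 374) (nat_lit 359)) (XT.lf (nat_lit 0) (nat_lit 2661902830) (nat_lit 228) (nat_lit 5200869273) (nat_lit 304) (nat_lit 3764726819) (nat_lit 89) (nat_lit 5) (nat_lit 92) (nat_lit 5) (nat_lit 93) (nat_lit 4) (nat_lit 468) (nat_lit 374) (nat_lit 358)))) (XT.nd (nat_lit 156) (nat_lit 836) (nat_lit 0) (XT.nd (nat_lit 78) (nat_lit 228) (nat_lit 0) (XT.lf (nat_lit 0) (nat_lit 3870067717) (nat_lit 304) (nat_lit 5768436600)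 (nat_lit 76) (nat_lit 2164061944) (nat_lit 85) (nat_lit 5) (nat_lit 89) (nat_lit 5) (nat_lit 86) (nat_lit 4) (nat_lit 469) (nat_lit 374) (nat_lit 357)) (XT.lf (nat_lit 0) (nat_lit 9439506988) (nat_lit 228) (nat_lit 2259308079) (nat_lit 304) (nat_lit 283253171) (nat_lit 82) (nat_lit 5) (nat_lit 85) (nat_lit 5) (nat_lit 86) (nat_lit 4) (nat_lit 470) (nat_lit 374) (nat_lit 356))) (XT.nd (nat_lit 78) (nat_lit 304) (nat_lit 0) (XT.lf (nat_lit 0) (nat_lit 696997332) (nat_lit 228) (nat_lit 6821692548) (nat_lit 304) (nat_lit 4646823756) (nat_lit 75) (nat_lit 5) (nat_lit 78) (nat_lit 5) (nat_lit 79) (nat_lit 4) (nat_lit 471) (nat_lit 374) (nat_lit 355)) (XT.lf (nat_lit 0) (nat_lit 3177439539) (nat_lit 304) (nat_lit 8337342310) (nat_lit 76) (nat_lit 838770486) (nat_lit 71) (nat_lit 5) (nat_lit 75) (nat_lit 5) (nat_lit 72) (nat_lit 4) (nat_lit 472) (nat_lit 374) (nat_lit 354))))))) (XT.nd (nat_lit 1170) (nat_lit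 608) (nat_lit 0) (XT.nd (nat_lit 546) (nat_lit 1596) (nat_lit 0) (XT.nd (nat_lit 234) (nat_lit 988) (nat_lit 0) (XT.nd (nat_lit 78) (nat_lit 760) (nat_lit 0) (XT.lf (nat_lit 0) (nat_lit 7348093751) (nat_lit 152) (nat_lit 3858349715) (nat_lit 228) (nat_lit 1339512800) (nat_lit 69) (nat_lit 5) (nat_lit 71) (nat_lit 5) (nat_lit 72) (nat_lit 4) (nat_lit 473) (nat_lit 374) (nat_lit 353)) (XT.nd (nat_lit 78) (nat_lit 456) (nat_lit 0) (XT.lf (nat_lit 0) (nat_lit 6659760000) (nat_lit 304) (nat_lit 2043897769) (nat_lit 76) (nat_lit 4039284193) (nat_lit 65) (nat_lit 5) (nat_lit 69) (nat_lit 5) (nat_lit 66) (nat_lit 4) (nat_lit 474) (nat_lit 374) (nat_lit 352)) (XT.lf (nat_lit 0) (nat_lit 1162454330) (nat_lit 228) (nat_lit 772438067) (nat_lit 304) (nat_lit 11010015215) (nat_lit 59) (nat_lit 5) (nat_lit 62) (nat_lit 5) (nat_lit 63) (nat_lit 5) (nat_lit 475) (nat_lit 374) (nat_lit 351)))) (XT.nd (nat_lit 156) (nat_lit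 532) (nat_lit 0) (XT.nd (nat_lit 78) (nat_lit 304) (nat_lit 0) (XT.lf (nat_lit 0) (nat_lit 4391947594) (nat_lit 152) (nat_lit 5774736091) (nat_lit 228) (nat_lit 2984329048) (nat_lit 57) (nat_lit 5) (nat_lit 59) (nat_lit 5) (nat_lit 60) (nat_lit 4) (nat_lit 476) (nat_lit 374) (nat_lit 350)) (XT.lf (nat_lit 0) (nat_lit 5229331592) (nat_lit 304) (nat_lit 5711316549) (nat_lit 76) (nat_lit 2421638437) (nat_lit 53) (nat_lit 5) (nat_lit 57) (nat_lit 5) (nat_lit 54) (nat_lit 4) (nat_lit 477) (nat_lit 374) (nat_lit 349))) (XT.nd (nat_lit 78) (nat_lit 304) (nat_lit 0) (XT.lf (nat_lit 0) (nat_lit 105180074) (nat_lit 228) (nat_lit 2642995776) (nat_lit 76) (nat_lit 10830585530) (nat_lit 50) (nat_lit 5) (nat_lit 53) (nat_lit 5) (nat_lit 51) (nat_lit 5) (nat_lit 478) (nat_lit 374) (nat_lit 348)) (XT.lf (nat_lit 0) (nat_lit 418823245) (nat_lit 152) (nat_lit 8101801089) (nat_lit 228) (nat_lit 5279218702) (nat_lit 46)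 (nat_lit 5) (nat_lit 48) (nat_lit 5) (nat_lit 49) (nat_lit 4) (nat_lit 479) (nat_lit 374) (nat_lit 347))))) (XT.nd (nat_lit 312) (nat_lit 760) (nat_lit 0) (XT.nd (nat_lit 156) (nat_lit 456) (nat_lit 0) (XT.nd (nat_lit 78) (nat_lit 152) (nat_lit 0) (XT.lf (nat_lit 0) (nat_lit 3160133143) (nat_lit 228) (nat_lit 10472733078) (nat_lit 76) (nat_lit 393469096) (nat_lit 43) (nat_lit 5) (nat_lit 46) (nat_lit 5) (nat_lit 44) (nat_lit 4) (nat_lit 480) (nat_lit 374) (nat_lit 346)) (XT.lf (nat_lit 0) (nat_lit 6677939746) (nat_lit 152) (nat_lit 5161338094) (nat_lit 228) (nat_lit 2418480803) (nat_lit 41) (nat_lit 5) (nat_lit 43) (nat_lit 5) (nat_lit 44) (nat_lit 4) (nat_lit 481) (nat_lit 374) (nat_lit 345))) (XT.nd (nat_lit 78) (nat_lit 228) (nat_lit 0) (XT.lf (nat_lit 0) (nat_lit 6229733386) (nat_lit 228) (nat_lit 4678191559) (nat_lit 76) (nat_lit 3586795577) (nat_lit 38) (nat_lit 5) (nat_lit 41) (nat_lit 5) (nat_lit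 39) (nat_lit 4) (nat_lit 482) (nat_lit 374) (nat_lit 344)) (XT.lf (nat_lit 0) (nat_lit 404325663) (nat_lit 228) (nat_lit 1757223677) (nat_lit 76) (nat_lit 12576014248) (nat_lit 35) (nat_lit 5) (nat_lit 38) (nat_lit 5) (nat_lit 36) (nat_lit 5) (nat_lit 483) (nat_lit 374) (nat_lit 343)))) (XT.nd (nat_lit 156) (nat_lit 304) (nat_lit 0) (XT.nd (nat_lit 78) (nat_lit 228) (nat_lit 0) (XT.lf (nat_lit 0) (nat_lit 1151063626) (nat_lit 76) (nat_lit 8133842609) (nat_lit 152) (nat_lit 5700424342) (nat_lit 32) (nat_lit 5) (nat_lit 33) (nat_lit 5) (nat_lit 34) (nat_lit 4) (nat_lit 484) (nat_lit 374) (nat_lit 342)) (XT.lf (nat_lit 0) (nat_lit 3194081983) (nat_lit 228) (nat_lit 11126372022) (nat_lit 76) (nat_lit 918771648) (nat_lit 29) (nat_lit 5) (nat_lit 32) (nat_lit 5) (nat_lit 30) (nat_lit 4) (nat_lit 485) (nat_lit 374) (nat_lit 341))) (XT.nd (nat_lit 78) (nat_lit 228) (nat_lit 0) (XT.lf (nat_lit 0) (nat_lit 7052743791)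 (nat_lit 76) (nat_lit 5294296560) (nat_lit 152) (nat_lit 3151563111) (nat_lit 28) (nat_lit 5) (nat_lit 29) (nat_lit 5) (nat_lit 30) (nat_lit 4) (nat_lit 486) (nat_lit 374) (nat_lit 340)) (XT.lf (nat_lit 0) (nat_lit 5972881736) (nat_lit 228) (nat_lit 5767242381) (nat_lit 76) (nat_lit 4024001656) (nat_lit 25) (nat_lit 5) (nat_lit 28) (nat_lit 5) (nat_lit 26) (nat_lit 4) (nat_lit 487) (nat_lit 374) (nat_lit 339)))))) (XT.nd (nat_lit 59826) (nat_lit 0) (nat_lit 8436) (XT.nd (nat_lit 59514) (nat_lit 0) (nat_lit 12312) (XT.nd (nat_lit 78) (nat_lit 532) (nat_lit 0) (XT.lf (nat_lit 0) (nat_lit 12953766286) (nat_lit 76) (nat_lit 2428696936) (nat_lit 152) (nat_lit 653650167) (nat_lit 24) (nat_lit 5) (nat_lit 25) (nat_lit 5) (nat_lit 26) (nat_lit 4) (nat_lit 488) (nat_lit 374) (nat_lit 338)) (XT.nd (nat_lit 78) (nat_lit 304) (nat_lit 0) (XT.lf (nat_lit 0) (nat_lit 8711214827) (nat_lit 228) (nat_lit 439439368)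 (nat_lit 76) (nat_lit 7163109687) (nat_lit 21) (nat_lit 5) (nat_lit 24) (nat_lit 5) (nat_lit 22) (nat_lit 4) (nat_lit 489) (nat_lit 374) (nat_lit 337)) (XT.lf (nat_lit 0) (nat_lit 1782831186) (nat_lit 228) (nat_lit 14340553064) (nat_lit 76) (nat_lit 474901298) (nat_lit 17) (nat_lit 5) (nat_lit 20) (nat_lit 5) (nat_lit 18) (nat_lit 4) (nat_lit 490) (nat_lit 374) (nat_lit 336)))) (XT.nd (nat_lit 156) (nat_lit 1292) (nat_lit 0) (XT.nd (nat_lit 78) (nat_lit 456) (nat_lit 0) (XT.lf (nat_lit 0) (nat_lit 1092152987) (nat_lit 456) (nat_lit 2377472107) (nat_lit 0) (nat_lit 1092152987) (nat_lit 202) (nat_lit 5) (nat_lit 208) (nat_lit 4) (nat_lit 202) (nat_lit 4) (nat_lit 450) (nat_lit 375) (nat_lit 375)) (XT.lf (nat_lit 0) (nat_lit 7483199480) (nat_lit 456) (nat_lit 1530178873) (nat_lit 456) (nat_lit 221494061) (nat_lit 196) (nat_lit 4) (nat_lit 202) (nat_lit 5) (nat_lit 202) (nat_lit 4) (nat_lit 451) (nat_lit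 375) (nat_lit 374))) (XT.nd (nat_lit 78) (nat_lit 456) (nat_lit 0) (XT.lf (nat_lit 0) (nat_lit 1298767690) (nat_lit 380) (nat_lit 5289503202) (nat_lit 380) (nat_lit 2760824192) (nat_lit 185) (nat_lit 4) (nat_lit 190) (nat_lit 5) (nat_lit 190) (nat_lit 4) (nat_lit 452) (nat_lit 375) (nat_lit 373)) (XT.lf (nat_lit 0) (nat_lit 4048583967) (nat_lit 456) (nat_lit 5034367239) (nat_lit 0) (nat_lit 383826624) (nat_lit 179) (nat_lit 5) (nat_lit 185) (nat_lit 4) (nat_lit 179) (nat_lit 4) (nat_lit 453) (nat_lit 375) (nat_lit 372))))) (XT.nd (nat_lit 312) (nat_lit 1824) (nat_lit 0) (XT.nd (nat_lit 156) (nat_lit 836) (nat_lit 0) (XT.nd (nat_lit 78) (nat_lit 760) (nat_lit 0) (XT.lf (nat_lit 0) (nat_lit 1402080368) (nat_lit 456) (nat_lit 1983681478) (nat_lit 76) (nat_lit 6202004588) (nat_lit 173) (nat_lit 5) (nat_lit 179) (nat_lit 5) (nat_lit 174) (nat_lit 4) (nat_lit 454) (nat_lit 375) (nat_lit 371)) (XT.lf (nat_lit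 0) (nat_lit 1127128294) (nat_lit 380) (nat_lit 7201092476) (nat_lit 380) (nat_lit 1383952919) (nat_lit 163) (nat_lit 4) (nat_lit 168) (nat_lit 5) (nat_lit 168) (nat_lit 4) (nat_lit 455) (nat_lit 375) (nat_lit 370))) (XT.nd (nat_lit 78) (nat_lit 456) (nat_lit 0) (XT.lf (nat_lit 0) (nat_lit 4304040780) (nat_lit 304) (nat_lit 1233064177) (nat_lit 380) (nat_lit 4302700658) (nat_lit 158) (nat_lit 5) (nat_lit 162) (nat_lit 5) (nat_lit 163) (nat_lit 4) (nat_lit 456) (nat_lit 375) (nat_lit 369)) (XT.lf (nat_lit 0) (nat_lit 2628257885) (nat_lit 456) (nat_lit 2449447768) (nat_lit 76) (nat_lit 4893283949) (nat_lit 152) (nat_lit 5) (nat_lit 158) (nat_lit 5) (nat_lit 153) (nat_lit 4) (nat_lit 457) (nat_lit 375) (nat_lit 368)))) (XT.nd (nat_lit 156) (nat_lit 760) (nat_lit 0) (XT.nd (nat_lit 78) (nat_lit 380) (nat_lit 0) (XT.lf (nat_lit 0) (nat_lit 697621575) (nat_lit 380) (nat_lit 8989264156) (nat_lit 380) (nat_lit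 419092969) (nat_lit 143) (nat_lit 4) (nat_lit 148) (nat_lit 5) (nat_lit 148) (nat_lit 4) (nat_lit 458) (nat_lit 375) (nat_lit 367)) (XT.lf (nat_lit 0) (nat_lit 3896335861) (nat_lit 304) (nat_lit 2738419864) (nat_lit 380) (nat_lit 3609181714) (nat_lit 138) (nat_lit 5) (nat_lit 142) (nat_lit 5) (nat_lit 143) (nat_lit 4) (nat_lit 459) (nat_lit 375) (nat_lit 366))) (XT.nd (nat_lit 78) (nat_lit 380) (nat_lit 0) (XT.lf (nat_lit 0) (nat_lit 3448895312) (nat_lit 380) (nat_lit 3243346015) (nat_lit 76) (nat_lit 3693557466) (nat_lit 133) (nat_lit 5) (nat_lit 138) (nat_lit 5) (nat_lit 134) (nat_lit 4) (nat_lit 460) (nat_lit 375) (nat_lit 365)) (XT.lf (nat_lit 0) (nat_lit 119502044) (nat_lit 380) (nat_lit 88578574) (nat_lit 76) (nat_lit 10323680838) (nat_lit 128) (nat_lit 5) (nat_lit 133) (nat_lit 5) (nat_lit 129) (nat_lit 5) (nat_lit 461) (nat_lit 375) (nat_lit 364))))))))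
noncomputable def xc7 : XT := (XT.nd (nat_lit 61386) (nat_lit 0) (nat_lit 2736) (XT.nd (nat_lit 1092) (nat_lit 3192) (nat_lit 0) (XT.nd (nat_lit 546) (nat_lit 2280) (nat_lit 0) (XT.nd (nat_lit 234) (nat_lit 1444) (nat_lit 0) (XT.nd (nat_lit 78) (nat_lit 684) (nat_lit 0) (XT.lf (nat_lit 0) (nat_lit 3112722726) (nat_lit 304) (nat_lit 4210754206) (nat_lit 380) (nat_lit 3357108528) (nat_lit 120) (nat_lit 5) (nat_lit 124) (nat_lit 5) (nat_lit 125) (nat_lit 4) (nat_lit 462) (nat_lit 375) (nat_lit 363)) (XT.nd (nat_lit 78) (nat_lit 304) (nat_lit 0) (XT.lf (nat_lit 0) (nat_lit 3845674746) (nat_lit 380) (nat_lit 4466810520) (nat_lit 76) (nat_lit 2521138024) (nat_lit 115) (nat_lit 5) (nat_lit 120) (nat_lit 5) (nat_lit 116) (nat_lit 4) (nat_lit 463) (nat_lit 375) (nat_lit 362)) (XT.lf (nat_lit 0) (nat_lit 224723216) (nat_lit 304) (nat_lit 1326532232) (nat_lit 76) (nat_lit 9439533320) (nat_lit 111) (nat_lit 5)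 (nat_lit 115) (nat_lit 5) (nat_lit 112) (nat_lit 5) (nat_lit 464) (nat_lit 375) (nat_lit 361)))) (XT.nd (nat_lit 156) (nat_lit 532) (nat_lit 0) (XT.nd (nat_lit 78) (nat_lit 380) (nat_lit 0) (XT.lf (nat_lit 0) (nat_lit 1847552783) (nat_lit 228) (nat_lit 5732820603) (nat_lit 304) (nat_lit 3570943012) (nat_lit 104) (nat_lit 5) (nat_lit 107) (nat_lit 5) (nat_lit 108) (nat_lit 4) (nat_lit 465) (nat_lit 375) (nat_lit 360)) (XT.lf (nat_lit 0) (nat_lit 3792823432) (nat_lit 380) (nat_lit 6228370865) (nat_lit 76) (nat_lit 1294905511) (nat_lit 99) (nat_lit 5) (nat_lit 104) (nat_lit 5) (nat_lit 100) (nat_lit 4) (nat_lit 466) (nat_lit 375) (nat_lit 359))) (XT.nd (nat_lit 78) (nat_lit 304) (nat_lit 0) (XT.lf (nat_lit 0) (nat_lit 8358371050) (nat_lit 228) (nat_lit 2986808734) (nat_lit 304) (nat_lit 139852617) (nat_lit 96) (nat_lit 5) (nat_lit 99) (nat_lit 5) (nat_lit 100) (nat_lit 4) (nat_lit 467) (nat_lit 375) (nat_lit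 358)) (XT.lf (nat_lit 0) (nat_lit 7375008699) (nat_lit 304) (nat_lit 12702108) (nat_lit 76) (nat_lit 4270197516) (nat_lit 92) (nat_lit 5) (nat_lit 96) (nat_lit 5) (nat_lit 93) (nat_lit 4) (nat_lit 468) (nat_lit 375) (nat_lit 357))))) (XT.nd (nat_lit 234) (nat_lit 1216) (nat_lit 0) (XT.nd (nat_lit 78) (nat_lit 532) (nat_lit 0) (XT.lf (nat_lit 0) (nat_lit 3189396570) (nat_lit 228) (nat_lit 67852439) (nat_lit 304) (nat_lit 8577823492) (nat_lit 85) (nat_lit 5) (nat_lit 88) (nat_lit 5) (nat_lit 89) (nat_lit 5) (nat_lit 469) (nat_lit 375) (nat_lit 356)) (XT.nd (nat_lit 78) (nat_lit 304) (nat_lit 0) (XT.lf (nat_lit 0) (nat_lit 6403887555) (nat_lit 228) (nat_lit 4594304498) (nat_lit 304) (nat_lit 1018139205) (nat_lit 82) (nat_lit 5) (nat_lit 85) (nat_lit 5) (nat_lit 86) (nat_lit 4) (nat_lit 470) (nat_lit 375) (nat_lit 355)) (XT.lf (nat_lit 0) (nat_lit 6685428229) (nat_lit 304) (nat_lit 2557976484) (nat_lit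 76) (nat_lit 2958628306) (nat_lit 78) (nat_lit 5) (nat_lit 82) (nat_lit 5) (nat_lit 79) (nat_lit 4) (nat_lit 471) (nat_lit 375) (nat_lit 354)))) (XT.nd (nat_lit 156) (nat_lit 532) (nat_lit 0) (XT.nd (nat_lit 78) (nat_lit 152) (nat_lit 0) (XT.lf (nat_lit 0) (nat_lit 536573658) (nat_lit 228) (nat_lit 1670174922) (nat_lit 304) (nat_lit 10185683057) (nat_lit 71) (nat_lit 5) (nat_lit 74) (nat_lit 5) (nat_lit 75) (nat_lit 5) (nat_lit 472) (nat_lit 375) (nat_lit 353)) (XT.lf (nat_lit 0) (nat_lit 3673693498) (nat_lit 152) (nat_lit 6460988808) (nat_lit 228) (nat_lit 2452175276) (nat_lit 69) (nat_lit 5) (nat_lit 71) (nat_lit 5) (nat_lit 72) (nat_lit 4) (nat_lit 473) (nat_lit 375) (nat_lit 352))) (XT.nd (nat_lit 78) (nat_lit 228) (nat_lit 0) (XT.lf (nat_lit 0) (nat_lit 5453446754) (nat_lit 304) (nat_lit 5945715534) (nat_lit 76) (nat_lit 1386990926) (nat_lit 65) (nat_lit 5) (nat_lit 69) (nat_lit 5) (nat_lit 66)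 (nat_lit 4) (nat_lit 474) (nat_lit 375) (nat_lit 351)) (XT.lf (nat_lit 0) (nat_lit 602369975) (nat_lit 228) (nat_lit 2960870141) (nat_lit 76) (nat_lit 9427029271) (nat_lit 62) (nat_lit 5) (nat_lit 65) (nat_lit 5) (nat_lit 63) (nat_lit 5) (nat_lit 475) (nat_lit 375) (nat_lit 350)))))) (XT.nd (nat_lit 546) (nat_lit 1368) (nat_lit 0) (XT.nd (nat_lit 234) (nat_lit 988) (nat_lit 0) (XT.nd (nat_lit 78) (nat_lit 456) (nat_lit 0) (XT.lf (nat_lit 0) (nat_lit 26524632) (nat_lit 152) (nat_lit 8676390367) (nat_lit 228) (nat_lit 4496084972) (nat_lit 57) (nat_lit 5) (nat_lit 59) (nat_lit 5) (nat_lit 60) (nat_lit 4) (nat_lit 476) (nat_lit 375) (nat_lit 349)) (XT.nd (nat_lit 78) (nat_lit 152) (nat_lit 0) (XT.lf (nat_lit 0) (nat_lit 3086613209) (nat_lit 228) (nat_lit 540662419) (nat_lit 304) (nat_lit 9785397544) (nat_lit 53) (nat_lit 5) (nat_lit 56) (nat_lit 5) (nat_lit 57) (nat_lit 5) (nat_lit 477) (nat_lit 375) (nat_lit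 348)) (XT.lf (nat_lit 0) (nat_lit 6146445314) (nat_lit 152) (nat_lit 5838581261) (nat_lit 228) (nat_lit 1646101147) (nat_lit 51) (nat_lit 5) (nat_lit 53) (nat_lit 5) (nat_lit 54) (nat_lit 4) (nat_lit 478) (nat_lit 375) (nat_lit 347)))) (XT.nd (nat_lit 156) (nat_lit 532) (nat_lit 0) (XT.nd (nat_lit 78) (nat_lit 228) (nat_lit 0) (XT.lf (nat_lit 0) (nat_lit 6672023703) (nat_lit 228) (nat_lit 4632126128) (nat_lit 76) (nat_lit 2550651937) (nat_lit 48) (nat_lit 5) (nat_lit 51) (nat_lit 5) (nat_lit 49) (nat_lit 4) (nat_lit 479) (nat_lit 375) (nat_lit 346)) (XT.lf (nat_lit 0) (nat_lit 1161823678) (nat_lit 228) (nat_lit 1762237713) (nat_lit 76) (nat_lit 11159874603) (nat_lit 45) (nat_lit 5) (nat_lit 48) (nat_lit 5) (nat_lit 46) (nat_lit 5) (nat_lit 480) (nat_lit 375) (nat_lit 345))) (XT.nd (nat_lit 78) (nat_lit 228) (nat_lit 0) (XT.lf (nat_lit 0) (nat_lit 1111561646) (nat_lit 152) (nat_lit 8600013213) (nat_lit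 228) (nat_lit 4606372768) (nat_lit 41) (nat_lit 5) (nat_lit 43) (nat_lit 5) (nat_lit 44) (nat_lit 4) (nat_lit 481) (nat_lit 375) (nat_lit 344)) (XT.lf (nat_lit 0) (nat_lit 3947932038) (nat_lit 228) (nat_lit 10520409268) (nat_lit 76) (nat_lit 89304800) (nat_lit 38) (nat_lit 5) (nat_lit 41) (nat_lit 5) (nat_lit 39) (nat_lit 4) (nat_lit 482) (nat_lit 375) (nat_lit 343))))) (XT.nd (nat_lit 312) (nat_lit 608) (nat_lit 0) (XT.nd (nat_lit 156) (nat_lit 380) (nat_lit 0) (XT.nd (nat_lit 78) (nat_lit 228) (nat_lit 0) (XT.lf (nat_lit 0) (nat_lit 6948365407) (nat_lit 152) (nat_lit 5816787403) (nat_lit 228) (nat_lit 2037397198) (nat_lit 36) (nat_lit 5) (nat_lit 38) (nat_lit 5) (nat_lit 39) (nat_lit 4) (nat_lit 483) (nat_lit 375) (nat_lit 342)) (XT.lf (nat_lit 0) (nat_lit 6736720709) (nat_lit 228) (nat_lit 5185248738) (nat_lit 76) (nat_lit 3131276166) (nat_lit 33) (nat_lit 5) (nat_lit 36) (nat_lit 5) (nat_lit 34)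 (nat_lit 4) (nat_lit 484) (nat_lit 375) (nat_lit 341))) (XT.nd (nat_lit 78) (nat_lit 228) (nat_lit 0) (XT.lf (nat_lit 0) (nat_lit 484224616) (nat_lit 152) (nat_lit 2505226999) (nat_lit 76) (nat_lit 12320590498) (nat_lit 31) (nat_lit 5) (nat_lit 33) (nat_lit 5) (nat_lit 32) (nat_lit 5) (nat_lit 485) (nat_lit 375) (nat_lit 340)) (XT.lf (nat_lit 0) (nat_lit 146531462) (nat_lit 76) (nat_lit 9349583707) (nat_lit 152) (nat_lit 6076126465) (nat_lit 28) (nat_lit 5) (nat_lit 29) (nat_lit 5) (nat_lit 30) (nat_lit 4) (nat_lit 486) (nat_lit 375) (nat_lit 339)))) (XT.nd (nat_lit 156) (nat_lit 304) (nat_lit 0) (XT.nd (nat_lit 78) (nat_lit 76) (nat_lit 0) (XT.lf (nat_lit 0) (nat_lit 2857435250) (nat_lit 152) (nat_lit 96650984) (nat_lit 228) (nat_lit 12886709578) (nat_lit 25) (nat_lit 5) (nat_lit 27) (nat_lit 5) (nat_lit 28) (nat_lit 5) (nat_lit 487) (nat_lit 375) (nat_lit 338)) (XT.lf (nat_lit 0) (nat_lit 5530287234)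 (nat_lit 76) (nat_lit 6725659616) (nat_lit 152) (nat_lit 3858991325) (nat_lit 24) (nat_lit 5) (nat_lit 25) (nat_lit 5) (nat_lit 26) (nat_lit 4) (nat_lit 488) (nat_lit 375) (nat_lit 337))) (XT.nd (nat_lit 78) (nat_lit 76) (nat_lit 0) (XT.lf (nat_lit 0) (nat_lit 5411000139) (nat_lit 228) (nat_lit 8184126688) (nat_lit 76) (nat_lit 2800616619) (nat_lit 21) (nat_lit 5) (nat_lit 24) (nat_lit 5) (nat_lit 22) (nat_lit 4) (nat_lit 489) (nat_lit 375) (nat_lit 336)) (XT.lf (nat_lit 0) (nat_lit 10884051577) (nat_lit 76) (nat_lit 4093823404) (nat_lit 152) (nat_lit 1705164109) (nat_lit 20) (nat_lit 5) (nat_lit 21) (nat_lit 5) (nat_lit 22) (nat_lit 4) (nat_lit 490) (nat_lit 375) (nat_lit 335))))))) (XT.nd (nat_lit 1170) (nat_lit 4864) (nat_lit 0) (XT.nd (nat_lit 546) (nat_lit 4028) (nat_lit 0) (XT.nd (nat_lit 234) (nat_lit 2204) (nat_lit 0) (XT.nd (nat_lit 78) (nat_lit 1444) (nat_lit 0) (XT.lf (nat_lit 0) (nat_lit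 3676695738) (nat_lit 456) (nat_lit 389031525) (nat_lit 456) (nat_lit 389031525) (nat_lit 221) (nat_lit 4) (nat_lit 227) (nat_lit 5) (nat_lit 227) (nat_lit 4) (nat_lit 448) (nat_lit 376) (nat_lit 376)) (XT.nd (nat_lit 78) (nat_lit 456) (nat_lit 0) (XT.lf (nat_lit 0) (nat_lit 1305671329) (nat_lit 456) (nat_lit 4542434141) (nat_lit 456) (nat_lit 3167529878) (nat_lit 208) (nat_lit 4) (nat_lit 214) (nat_lit 5) (nat_lit 214) (nat_lit 4) (nat_lit 449) (nat_lit 376) (nat_lit 375)) (XT.lf (nat_lit 0) (nat_lit 3453203265) (nat_lit 456) (nat_lit 4875362338) (nat_lit 0) (nat_lit 796573098) (nat_lit 202) (nat_lit 5) (nat_lit 208) (nat_lit 4) (nat_lit 202) (nat_lit 4) (nat_lit 450) (nat_lit 376) (nat_lit 374)))) (XT.nd (nat_lit 156) (nat_lit 912) (nat_lit 0) (XT.nd (nat_lit 78) (nat_lit 760) (nat_lit 0) (XT.lf (nat_lit 0) (nat_lit 953277398) (nat_lit 532) (nat_lit 2001577601) (nat_lit 76) (nat_lit 6283042190) (nat_lit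 195) (nat_lit 5) (nat_lit 202) (nat_lit 5) (nat_lit 196) (nat_lit 4) (nat_lit 451) (nat_lit 376) (nat_lit 373)) (XT.lf (nat_lit 0) (nat_lit 926596375) (nat_lit 380) (nat_lit 6743432943) (nat_lit 380) (nat_lit 1683865398) (nat_lit 185) (nat_lit 4) (nat_lit 190) (nat_lit 5) (nat_lit 190) (nat_lit 4) (nat_lit 452) (nat_lit 376) (nat_lit 372))) (XT.nd (nat_lit 78) (nat_lit 456) (nat_lit 0) (XT.lf (nat_lit 0) (nat_lit 3926442832) (nat_lit 380) (nat_lit 1103339042) (nat_lit 456) (nat_lit 4443289855) (nat_lit 179) (nat_lit 5) (nat_lit 184) (nat_lit 5) (nat_lit 185) (nat_lit 4) (nat_lit 453) (nat_lit 376) (nat_lit 371)) (XT.lf (nat_lit 0) (nat_lit 2277745602) (nat_lit 456) (nat_lit 2628039226) (nat_lit 76) (nat_lit 4689879284) (nat_lit 173) (nat_lit 5) (nat_lit 179) (nat_lit 5) (nat_lit 174) (nat_lit 4) (nat_lit 454) (nat_lit 376) (nat_lit 370))))) (XT.nd (nat_lit 312) (nat_lit 2052) (nat_lit 0) (XT.nd (nat_lit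 156) (nat_lit 836) (nat_lit 0) (XT.nd (nat_lit 78) (nat_lit 380) (nat_lit 0) (XT.lf (nat_lit 0) (nat_lit 346839799) (nat_lit 380) (nat_lit 8763110901) (nat_lit 380) (nat_lit 612000652) (nat_lit 163) (nat_lit 4) (nat_lit 168) (nat_lit 5) (nat_lit 168) (nat_lit 4) (nat_lit 455) (nat_lit 376) (nat_lit 369)) (XT.lf (nat_lit 0) (nat_lit 3378727785) (nat_lit 304) (nat_lit 2840394031) (nat_lit 380) (nat_lit 3631958662) (nat_lit 158) (nat_lit 5) (nat_lit 162) (nat_lit 5) (nat_lit 163) (nat_lit 4) (nat_lit 456) (nat_lit 376) (nat_lit 368))) (XT.nd (nat_lit 78) (nat_lit 380) (nat_lit 0) (XT.lf (nat_lit 0) (nat_lit 3199612533) (nat_lit 456) (nat_lit 3523650443) (nat_lit 76) (nat_lit 3260727360) (nat_lit 152) (nat_lit 5) (nat_lit 158) (nat_lit 5) (nat_lit 153) (nat_lit 4) (nat_lit 457) (nat_lit 376) (nat_lit 367)) (XT.lf (nat_lit 0) (nat_lit 45350166) (nat_lit 380) (nat_lit 525528563) (nat_lit 76) (nat_lit 9549925413)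 (nat_lit 147) (nat_lit 5) (nat_lit 152) (nat_lit 5) (nat_lit 148) (nat_lit 5) (nat_lit 458) (nat_lit 376) (nat_lit 366)))) (XT.nd (nat_lit 156) (nat_lit 988) (nat_lit 0) (XT.nd (nat_lit 78) (nat_lit 380) (nat_lit 0) (XT.lf (nat_lit 0) (nat_lit 2516083694) (nat_lit 304) (nat_lit 4489498568) (nat_lit 380) (nat_lit 3254889673) (nat_lit 138) (nat_lit 5) (nat_lit 142) (nat_lit 5) (nat_lit 143) (nat_lit 4) (nat_lit 459) (nat_lit 376) (nat_lit 365)) (XT.lf (nat_lit 0) (nat_lit 3705747598) (nat_lit 380) (nat_lit 4786133982) (nat_lit 76) (nat_lit 1912262586) (nat_lit 133) (nat_lit 5) (nat_lit 138) (nat_lit 5) (nat_lit 134) (nat_lit 4) (nat_lit 460) (nat_lit 376) (nat_lit 364))) (XT.nd (nat_lit 78) (nat_lit 608) (nat_lit 0) (XT.lf (nat_lit 0) (nat_lit 273356540) (nat_lit 380) (nat_lit 1790753443) (nat_lit 76) (nat_lit 8487597334) (nat_lit 128) (nat_lit 5) (nat_lit 133) (nat_lit 5) (nat_lit 129) (nat_lit 5) (nat_lit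 461) (nat_lit 376) (nat_lit 363)) (XT.lf (nat_lit 0) (nat_lit 1237262677) (nat_lit 304) (nat_lit 6134274552) (nat_lit 380) (nat_lit 3331110918) (nat_lit 120) (nat_lit 5) (nat_lit 124) (nat_lit 5) (nat_lit 125) (nat_lit 4) (nat_lit 462) (nat_lit 376) (nat_lit 362)))))) (XT.nd (nat_lit 546) (nat_lit 2204) (nat_lit 0) (XT.nd (nat_lit 234) (nat_lit 1672) (nat_lit 0) (XT.nd (nat_lit 78) (nat_lit 608) (nat_lit 0) (XT.lf (nat_lit 0) (nat_lit 3775733815) (nat_lit 380) (nat_lit 6519138103) (nat_lit 76) (nat_lit 562723532) (nat_lit 115) (nat_lit 5) (nat_lit 120) (nat_lit 5) (nat_lit 116) (nat_lit 4) (nat_lit 463) (nat_lit 376) (nat_lit 361)) (XT.nd (nat_lit 78) (nat_lit 304) (nat_lit 0) (XT.lf (nat_lit 0) (nat_lit 48738535) (nat_lit 304) (nat_lit 3548340915) (nat_lit 76) (nat_lit 7419360595) (nat_lit 111) (nat_lit 5) (nat_lit 115) (nat_lit 5) (nat_lit 112) (nat_lit 5) (nat_lit 464) (nat_lit 376) (nat_lit 360))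 (XT.lf (nat_lit 0) (nat_lit 7295643554) (nat_lit 380) (nat_lit 558372076) (nat_lit 76) (nat_lit 3325127776) (nat_lit 107) (nat_lit 5) (nat_lit 112) (nat_lit 5) (nat_lit 108) (nat_lit 4) (nat_lit 465) (nat_lit 376) (nat_lit 359)))) (XT.nd (nat_lit 156) (nat_lit 836) (nat_lit 0) (XT.nd (nat_lit 78) (nat_lit 228) (nat_lit 0) (XT.lf (nat_lit 0) (nat_lit 2506471373) (nat_lit 304) (nat_lit 880911342) (nat_lit 380) (nat_lit 7958525139) (nat_lit 99) (nat_lit 5) (nat_lit 103) (nat_lit 5) (nat_lit 104) (nat_lit 5) (nat_lit 466) (nat_lit 376) (nat_lit 358)) (XT.lf (nat_lit 0) (nat_lit 5600945884) (nat_lit 228) (nat_lit 5248140571) (nat_lit 304) (nat_lit 667567813) (nat_lit 96) (nat_lit 5) (nat_lit 99) (nat_lit 5) (nat_lit 100) (nat_lit 4) (nat_lit 467) (nat_lit 376) (nat_lit 357))) (XT.nd (nat_lit 78) (nat_lit 532) (nat_lit 0) (XT.lf (nat_lit 0) (nat_lit 6753730250) (nat_lit 304) (nat_lit 2970035784) (nat_lit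 76) (nat_lit 1967843096) (nat_lit 92) (nat_lit 5) (nat_lit 96) (nat_lit 5) (nat_lit 93) (nat_lit 4) (nat_lit 468) (nat_lit 376) (nat_lit 356)) (XT.lf (nat_lit 0) (nat_lit 4844761) (nat_lit 228) (nat_lit 2499194453) (nat_lit 304) (nat_lit 9366956253) (nat_lit 85) (nat_lit 5) (nat_lit 88) (nat_lit 5) (nat_lit 89) (nat_lit 5) (nat_lit 469) (nat_lit 376) (nat_lit 355))))) (XT.nd (nat_lit 312) (nat_lit 1140) (nat_lit 0) (XT.nd (nat_lit 156) (nat_lit 532) (nat_lit 0) (XT.nd (nat_lit 78) (nat_lit 304) (nat_lit 0) (XT.lf (nat_lit 0) (nat_lit 3039532849) (nat_lit 228) (nat_lit 7102135914) (nat_lit 304) (nat_lit 1912652407) (nat_lit 82) (nat_lit 5) (nat_lit 85) (nat_lit 5) (nat_lit 86) (nat_lit 4) (nat_lit 470) (nat_lit 376) (nat_lit 354)) (XT.lf (nat_lit 0) (nat_lit 5697814937) (nat_lit 304) (nat_lit 6138775845) (nat_lit 76) (nat_lit 405645581) (nat_lit 78) (nat_lit 5) (nat_lit 82) (nat_lit 5) (nat_lit 79) (nat_lit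 4) (nat_lit 471) (nat_lit 376) (nat_lit 353))) (XT.nd (nat_lit 78) (nat_lit 228) (nat_lit 0) (XT.lf (nat_lit 0) (nat_lit 1099942273) (nat_lit 304) (nat_lit 3248704625) (nat_lit 76) (nat_lit 8085971553) (nat_lit 74) (nat_lit 5) (nat_lit 78) (nat_lit 5) (nat_lit 75) (nat_lit 5) (nat_lit 472) (nat_lit 376) (nat_lit 352)) (XT.lf (nat_lit 0) (nat_lit 8900682351) (nat_lit 304) (nat_lit 343107307) (nat_lit 76) (nat_lit 3387799205) (nat_lit 71) (nat_lit 5) (nat_lit 75) (nat_lit 5) (nat_lit 72) (nat_lit 4) (nat_lit 473) (nat_lit 376) (nat_lit 351)))) (XT.nd (nat_lit 156) (nat_lit 532) (nat_lit 0) (XT.nd (nat_lit 78) (nat_lit 152) (nat_lit 0) (XT.lf (nat_lit 0) (nat_lit 2622417678) (nat_lit 228) (nat_lit 1466510230) (nat_lit 304) (nat_lit 8744174365) (nat_lit 65) (nat_lit 5) (nat_lit 68) (nat_lit 5) (nat_lit 69) (nat_lit 5) (nat_lit 474) (nat_lit 376) (nat_lit 350)) (XT.lf (nat_lit 0) (nat_lit 5606792508) (nat_lit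 152) (nat_lit 6528240513) (nat_lit 228) (nat_lit 904288671) (nat_lit 63) (nat_lit 5) (nat_lit 65) (nat_lit 5) (nat_lit 66) (nat_lit 4) (nat_lit 475) (nat_lit 376) (nat_lit 349))) (XT.nd (nat_lit 78) (nat_lit 228) (nat_lit 0) (XT.lf (nat_lit 0) (nat_lit 7095803065) (nat_lit 304) (nat_lit 4643789579) (nat_lit 76) (nat_lit 1510823842) (nat_lit 59) (nat_lit 5) (nat_lit 63) (nat_lit 5) (nat_lit 60) (nat_lit 4) (nat_lit 476) (nat_lit 376) (nat_lit 348)) (XT.lf (nat_lit 0) (nat_lit 1877127669) (nat_lit 228) (nat_lit 1840483951) (nat_lit 76) (nat_lit 9748961357) (nat_lit 56) (nat_lit 5) (nat_lit 59) (nat_lit 5) (nat_lit 57) (nat_lit 5) (nat_lit 477) (nat_lit 376) (nat_lit 347))))))))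
noncomputable def xc8 : XT := (XT.nd (nat_lit 61230) (nat_lit 0) (nat_lit 304) (XT.nd (nat_lit 60060) (nat_lit 0) (nat_lit 8208) (XT.nd (nat_lit 546) (nat_lit 988) (nat_lit 0) (XT.nd (nat_lit 234) (nat_lit 988) (nat_lit 0) (XT.nd (nat_lit 78) (nat_lit 380) (nat_lit 0) (XT.lf (nat_lit 0) (nat_lit 981116773) (nat_lit 152) (nat_lit 9125603608) (nat_lit 228) (nat_lit 3580870792) (nat_lit 51) (nat_lit 5) (nat_lit 53) (nat_lit 5) (nat_lit 54) (nat_lit 4) (nat_lit 478) (nat_lit 376) (nat_lit 346)) (XT.nd (nat_lit 78) (nat_lit 152) (nat_lit 0) (XT.lf (nat_lit 0) (nat_lit 3848271611) (nat_lit 152) (nat_lit 801443758) (nat_lit 228) (nat_lit 9264059816) (nat_lit 48) (nat_lit 5) (nat_lit 50) (nat_lit 5) (nat_lit 51) (nat_lit 5) (nat_lit 479) (nat_lit 376) (nat_lit 345)) (XT.lf (nat_lit 0) (nat_lit 6717064801) (nat_lit 152) (nat_lit 6419953684) (nat_lit 228) (nat_lit 1008084760) (nat_lit 46) (nat_lit 5) (nat_lit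 48) (nat_lit 5) (nat_lit 49) (nat_lit 4) (nat_lit 480) (nat_lit 376) (nat_lit 344)))) (XT.nd (nat_lit 156) (nat_lit 532) (nat_lit 0) (XT.nd (nat_lit 78) (nat_lit 228) (nat_lit 0) (XT.lf (nat_lit 0) (nat_lit 7426676853) (nat_lit 228) (nat_lit 4788520537) (nat_lit 76) (nat_lit 2166613030) (nat_lit 43) (nat_lit 5) (nat_lit 46) (nat_lit 5) (nat_lit 44) (nat_lit 4) (nat_lit 481) (nat_lit 376) (nat_lit 343)) (XT.lf (nat_lit 0) (nat_lit 1511344429) (nat_lit 228) (nat_lit 2138841455) (nat_lit 76) (nat_lit 10974001036) (nat_lit 40) (nat_lit 5) (nat_lit 43) (nat_lit 5) (nat_lit 41) (nat_lit 5) (nat_lit 482) (nat_lit 376) (nat_lit 342))) (XT.nd (nat_lit 78) (nat_lit 228) (nat_lit 0) (XT.lf (nat_lit 0) (nat_lit 506321526) (nat_lit 152) (nat_lit 9683155291) (nat_lit 228) (nat_lit 4682396167) (nat_lit 36) (nat_lit 5) (nat_lit 38) (nat_lit 5) (nat_lit 39) (nat_lit 4) (nat_lit 483) (nat_lit 376) (nat_lit 341)) (XT.lf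 (nat_lit 0) (nat_lit 3198042830) (nat_lit 152) (nat_lit 805567788) (nat_lit 228) (nat_lit 11121757820) (nat_lit 33) (nat_lit 5) (nat_lit 35) (nat_lit 5) (nat_lit 36) (nat_lit 5) (nat_lit 484) (nat_lit 376) (nat_lit 340))))) (XT.nd (nat_lit 234) (nat_lit 608) (nat_lit 0) (XT.nd (nat_lit 78) (nat_lit 304) (nat_lit 0) (XT.lf (nat_lit 0) (nat_lit 5872167764) (nat_lit 76) (nat_lit 7087160511) (nat_lit 152) (nat_lit 2425067282) (nat_lit 32) (nat_lit 5) (nat_lit 33) (nat_lit 5) (nat_lit 34) (nat_lit 4) (nat_lit 485) (nat_lit 376) (nat_lit 339)) (XT.nd (nat_lit 78) (nat_lit 76) (nat_lit 0) (XT.lf (nat_lit 0) (nat_lit 6486194571) (nat_lit 228) (nat_lit 7097484674) (nat_lit 76) (nat_lit 2065879758) (nat_lit 29) (nat_lit 5) (nat_lit 32) (nat_lit 5) (nat_lit 30) (nat_lit 4) (nat_lit 486) (nat_lit 376) (nat_lit 338)) (XT.lf (nat_lit 0) (nat_lit 11234907218) (nat_lit 76) (nat_lit 4467108031) (nat_lit 152) (nat_lit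 218938826) (nat_lit 28) (nat_lit 5) (nat_lit 29) (nat_lit 5) (nat_lit 30) (nat_lit 4) (nat_lit 487) (nat_lit 376) (nat_lit 337)))) (XT.nd (nat_lit 156) (nat_lit 76) (nat_lit 0) (XT.nd (nat_lit 78) (nat_lit 304) (nat_lit 0) (XT.lf (nat_lit 0) (nat_lit 8933297783) (nat_lit 228) (nat_lit 2306179911) (nat_lit 76) (nat_lit 4958697399) (nat_lit 25) (nat_lit 5) (nat_lit 28) (nat_lit 5) (nat_lit 26) (nat_lit 4) (nat_lit 488) (nat_lit 376) (nat_lit 336)) (XT.lf (nat_lit 0) (nat_lit 88774125) (nat_lit 152) (nat_lit 1817877204) (nat_lit 228) (nat_lit 14575634237) (nat_lit 21) (nat_lit 5) (nat_lit 23) (nat_lit 5) (nat_lit 24) (nat_lit 5) (nat_lit 489) (nat_lit 376) (nat_lit 335))) (XT.nd (nat_lit 59046) (nat_lit 0) (nat_lit 16264) (XT.lf (nat_lit 0) (nat_lit 2470643545) (nat_lit 76) (nat_lit 8880530789) (nat_lit 152) (nat_lit 5420854208) (nat_lit 20) (nat_lit 5) (nat_lit 21) (nat_lit 5) (nat_lit 22) (nat_lit 4)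 (nat_lit 490) (nat_lit 376) (nat_lit 334)) (XT.lf (nat_lit 0) (nat_lit 843895164) (nat_lit 532) (nat_lit 1754219314) (nat_lit 532) (nat_lit 1754219314) (nat_lit 234) (nat_lit 4) (nat_lit 241) (nat_lit 5) (nat_lit 241) (nat_lit 4) (nat_lit 446) (nat_lit 377) (nat_lit 377)))))) (XT.nd (nat_lit 546) (nat_lit 3876) (nat_lit 0) (XT.nd (nat_lit 234) (nat_lit 2204) (nat_lit 0) (XT.nd (nat_lit 78) (nat_lit 1444) (nat_lit 0) (XT.lf (nat_lit 0) (nat_lit 2940710423) (nat_lit 532) (nat_lit 4369256768) (nat_lit 0) (nat_lit 1496236004) (nat_lit 227) (nat_lit 5) (nat_lit 234) (nat_lit 4) (nat_lit 227) (nat_lit 4) (nat_lit 447) (nat_lit 377) (nat_lit 376)) (XT.nd (nat_lit 78) (nat_lit 912) (nat_lit 0) (XT.lf (nat_lit 0) (nat_lit 579636144) (nat_lit 532) (nat_lit 1676011754) (nat_lit 76) (nat_lit 6655345499) (nat_lit 220) (nat_lit 5) (nat_lit 227) (nat_lit 5) (nat_lit 221) (nat_lit 4) (nat_lit 448) (nat_lit 377) (nat_lit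 375)) (XT.lf (nat_lit 0) (nat_lit 1069171858) (nat_lit 456) (nat_lit 6037763671) (nat_lit 456) (nat_lit 1911849509) (nat_lit 208) (nat_lit 4) (nat_lit 214) (nat_lit 5) (nat_lit 214) (nat_lit 4) (nat_lit 449) (nat_lit 377) (nat_lit 374)))) (XT.nd (nat_lit 156) (nat_lit 1216) (nat_lit 0) (XT.nd (nat_lit 78) (nat_lit 532) (nat_lit 0) (XT.lf (nat_lit 0) (nat_lit 3888393188) (nat_lit 380) (nat_lit 720659526) (nat_lit 456) (nat_lit 4520741399) (nat_lit 202) (nat_lit 5) (nat_lit 207) (nat_lit 5) (nat_lit 208) (nat_lit 4) (nat_lit 450) (nat_lit 377) (nat_lit 373)) (XT.lf (nat_lit 0) (nat_lit 2006513234) (nat_lit 532) (nat_lit 2495985877) (nat_lit 76) (nat_lit 4741562661) (nat_lit 195) (nat_lit 5) (nat_lit 202) (nat_lit 5) (nat_lit 196) (nat_lit 4) (nat_lit 451) (nat_lit 377) (nat_lit 372))) (XT.nd (nat_lit 78) (nat_lit 456) (nat_lit 0) (XT.lf (nat_lit 0) (nat_lit 305949530) (nat_lit 380) (nat_lit 8325413146)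 (nat_lit 380) (nat_lit 730536085) (nat_lit 185) (nat_lit 4) (nat_lit 190) (nat_lit 5) (nat_lit 190) (nat_lit 4) (nat_lit 452) (nat_lit 377) (nat_lit 371)) (XT.lf (nat_lit 0) (nat_lit 3167168033) (nat_lit 380) (nat_lit 2724908991) (nat_lit 456) (nat_lit 3590446924) (nat_lit 179) (nat_lit 5) (nat_lit 184) (nat_lit 5) (nat_lit 185) (nat_lit 4) (nat_lit 453) (nat_lit 377) (nat_lit 370))))) (XT.nd (nat_lit 312) (nat_lit 1824) (nat_lit 0) (XT.nd (nat_lit 156) (nat_lit 1140) (nat_lit 0) (XT.nd (nat_lit 78) (nat_lit 456) (nat_lit 0) (XT.lf (nat_lit 0) (nat_lit 3030098047) (nat_lit 456) (nat_lit 3527805482) (nat_lit 76) (nat_lit 3048889443) (nat_lit 173) (nat_lit 5) (nat_lit 179) (nat_lit 5) (nat_lit 174) (nat_lit 4) (nat_lit 454) (nat_lit 377) (nat_lit 369)) (XT.lf (nat_lit 0) (nat_lit 40204965) (nat_lit 456) (nat_lit 690505783) (nat_lit 76) (nat_lit 9004100367) (nat_lit 167) (nat_lit 5) (nat_lit 173) (nat_lit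 5) (nat_lit 168) (nat_lit 5) (nat_lit 455) (nat_lit 377) (nat_lit 368))) (XT.nd (nat_lit 78) (nat_lit 456) (nat_lit 0) (XT.lf (nat_lit 0) (nat_lit 2189803616) (nat_lit 304) (nat_lit 4584807135) (nat_lit 380) (nat_lit 3091025008) (nat_lit 158) (nat_lit 5) (nat_lit 162) (nat_lit 5) (nat_lit 163) (nat_lit 4) (nat_lit 456) (nat_lit 377) (nat_lit 367)) (XT.lf (nat_lit 0) (nat_lit 3642357713) (nat_lit 456) (nat_lit 4866370634) (nat_lit 76) (nat_lit 1491570035) (nat_lit 152) (nat_lit 5) (nat_lit 158) (nat_lit 5) (nat_lit 153) (nat_lit 4) (nat_lit 457) (nat_lit 377) (nat_lit 366)))) (XT.nd (nat_lit 156) (nat_lit 760) (nat_lit 0) (XT.nd (nat_lit 78) (nat_lit 684) (nat_lit 0) (XT.lf (nat_lit 0) (nat_lit 386384317) (nat_lit 380) (nat_lit 2020742539) (nat_lit 76) (nat_lit 7731527233) (nat_lit 147) (nat_lit 5) (nat_lit 152) (nat_lit 5) (nat_lit 148) (nat_lit 5) (nat_lit 458) (nat_lit 377) (nat_lit 365)) (XT.lf (nat_lit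 0) (nat_lit 858511447) (nat_lit 304) (nat_lit 6385643190) (nat_lit 380) (nat_lit 3036217520) (nat_lit 138) (nat_lit 5) (nat_lit 142) (nat_lit 5) (nat_lit 143) (nat_lit 4) (nat_lit 459) (nat_lit 377) (nat_lit 364))) (XT.nd (nat_lit 78) (nat_lit 380) (nat_lit 0) (XT.lf (nat_lit 0) (nat_lit 3814380462) (nat_lit 304) (nat_lit 13769047) (nat_lit 380) (nat_lit 6597735522) (nat_lit 133) (nat_lit 5) (nat_lit 137) (nat_lit 5) (nat_lit 138) (nat_lit 5) (nat_lit 460) (nat_lit 377) (nat_lit 363)) (XT.lf (nat_lit 0) (nat_lit 291289147) (nat_lit 380) (nat_lit 3778240507) (nat_lit 76) (nat_lit 6505534565) (nat_lit 128) (nat_lit 5) (nat_lit 133) (nat_lit 5) (nat_lit 129) (nat_lit 5) (nat_lit 461) (nat_lit 377) (nat_lit 362))))))) (XT.nd (nat_lit 1092) (nat_lit 2964) (nat_lit 0) (XT.nd (nat_lit 546) (nat_lit 2204) (nat_lit 0) (XT.nd (nat_lit 234) (nat_lit 1520) (nat_lit 0) (XT.nd (nat_lit 78) (nat_lit 912) (nat_lit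 0) (XT.lf (nat_lit 0) (nat_lit 7287007218) (nat_lit 380) (nat_lit 917959814) (nat_lit 76) (nat_lit 2523088185) (nat_lit 124) (nat_lit 5) (nat_lit 129) (nat_lit 5) (nat_lit 125) (nat_lit 4) (nat_lit 462) (nat_lit 377) (nat_lit 361)) (XT.nd (nat_lit 78) (nat_lit 228) (nat_lit 0) (XT.lf (nat_lit 0) (nat_lit 2005772038) (nat_lit 304) (nat_lit 1569079898) (nat_lit 380) (nat_lit 7310013464) (nat_lit 115) (nat_lit 5) (nat_lit 119) (nat_lit 5) (nat_lit 120) (nat_lit 5) (nat_lit 463) (nat_lit 377) (nat_lit 360)) (XT.lf (nat_lit 0) (nat_lit 4973124058) (nat_lit 228) (nat_lit 5798945095) (nat_lit 304) (nat_lit 273505734) (nat_lit 112) (nat_lit 5) (nat_lit 115) (nat_lit 5) (nat_lit 116) (nat_lit 4) (nat_lit 464) (nat_lit 377) (nat_lit 359)))) (XT.nd (nat_lit 156) (nat_lit 836) (nat_lit 0) (XT.nd (nat_lit 78) (nat_lit 304) (nat_lit 0) (XT.lf (nat_lit 0) (nat_lit 6879224138) (nat_lit 380) (nat_lit 3243674959) (nat_lit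 76) (nat_lit 1087370716) (nat_lit 107) (nat_lit 5) (nat_lit 112) (nat_lit 5) (nat_lit 108) (nat_lit 4) (nat_lit 465) (nat_lit 377) (nat_lit 358)) (XT.lf (nat_lit 0) (nat_lit 2845678023) (nat_lit 304) (nat_lit 389233289) (nat_lit 76) (nat_lit 8144182401) (nat_lit 103) (nat_lit 5) (nat_lit 107) (nat_lit 5) (nat_lit 104) (nat_lit 5) (nat_lit 466) (nat_lit 377) (nat_lit 357))) (XT.nd (nat_lit 78) (nat_lit 304) (nat_lit 0) (XT.lf (nat_lit 0) (nat_lit 2529308328) (nat_lit 228) (nat_lit 7675191106) (nat_lit 304) (nat_lit 1347399083) (nat_lit 96) (nat_lit 5) (nat_lit 99) (nat_lit 5) (nat_lit 100) (nat_lit 4) (nat_lit 467) (nat_lit 377) (nat_lit 356)) (XT.lf (nat_lit 0) (nat_lit 5478029399) (nat_lit 228) (nat_lit 506369339) (nat_lit 304) (nat_lit 5744511955) (nat_lit 92) (nat_lit 5) (nat_lit 95) (nat_lit 5) (nat_lit 96) (nat_lit 5) (nat_lit 468) (nat_lit 377) (nat_lit 355))))) (XT.nd (nat_lit 234) (nat_lit 1140)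 (nat_lit 0) (XT.nd (nat_lit 78) (nat_lit 760) (nat_lit 0) (XT.lf (nat_lit 0) (nat_lit 1618317813) (nat_lit 304) (nat_lit 3461781138) (nat_lit 76) (nat_lit 6830096847) (nat_lit 88) (nat_lit 5) (nat_lit 92) (nat_lit 5) (nat_lit 89) (nat_lit 5) (nat_lit 469) (nat_lit 377) (nat_lit 354)) (XT.nd (nat_lit 78) (nat_lit 532) (nat_lit 0) (XT.lf (nat_lit 0) (nat_lit 9132759188) (nat_lit 304) (nat_lit 647886784) (nat_lit 76) (nat_lit 2315339946) (nat_lit 85) (nat_lit 5) (nat_lit 89) (nat_lit 5) (nat_lit 86) (nat_lit 4) (nat_lit 470) (nat_lit 377) (nat_lit 353)) (XT.lf (nat_lit 0) (nat_lit 2212997397) (nat_lit 228) (nat_lit 2352739824) (nat_lit 304) (nat_lit 7720206572) (nat_lit 78) (nat_lit 5) (nat_lit 81) (nat_lit 5) (nat_lit 82) (nat_lit 5) (nat_lit 471) (nat_lit 377) (nat_lit 352)))) (XT.nd (nat_lit 156) (nat_lit 608) (nat_lit 0) (XT.nd (nat_lit 78) (nat_lit 304) (nat_lit 0) (XT.lf (nat_lit 0) (nat_lit 5110532135)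 (nat_lit 228) (nat_lit 7202702159) (nat_lit 304) (nat_lit 167317142) (nat_lit 75) (nat_lit 5) (nat_lit 78) (nat_lit 5) (nat_lit 79) (nat_lit 4) (nat_lit 472) (nat_lit 377) (nat_lit 351)) (XT.lf (nat_lit 0) (nat_lit 7527233651) (nat_lit 304) (nat_lit 4657604512) (nat_lit 76) (nat_lit 494873661) (nat_lit 71) (nat_lit 5) (nat_lit 75) (nat_lit 5) (nat_lit 72) (nat_lit 4) (nat_lit 473) (nat_lit 377) (nat_lit 350))) (XT.nd (nat_lit 78) (nat_lit 380) (nat_lit 0) (XT.lf (nat_lit 0) (nat_lit 2578542265) (nat_lit 228) (nat_lit 1933826650) (nat_lit 76) (nat_lit 8371190626) (nat_lit 68) (nat_lit 5) (nat_lit 71) (nat_lit 5) (nat_lit 69) (nat_lit 5) (nat_lit 474) (nat_lit 377) (nat_lit 349)) (XT.lf (nat_lit 0) (nat_lit 821385775) (nat_lit 152) (nat_lit 9678531716) (nat_lit 228) (nat_lit 2592356597) (nat_lit 63) (nat_lit 5) (nat_lit 65) (nat_lit 5) (nat_lit 66) (nat_lit 4) (nat_lit 475) (nat_lit 377) (nat_lit 348))))))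 (XT.nd (nat_lit 546) (nat_lit 1292) (nat_lit 0) (XT.nd (nat_lit 234) (nat_lit 912) (nat_lit 0) (XT.nd (nat_lit 78) (nat_lit 456) (nat_lit 0) (XT.lf (nat_lit 0) (nat_lit 3614895182) (nat_lit 228) (nat_lit 1712166308) (nat_lit 304) (nat_lit 7978583360) (nat_lit 59) (nat_lit 5) (nat_lit 62) (nat_lit 5) (nat_lit 63) (nat_lit 5) (nat_lit 476) (nat_lit 377) (nat_lit 347)) (XT.nd (nat_lit 78) (nat_lit 304) (nat_lit 0) (XT.lf (nat_lit 0) (nat_lit 6426501877) (nat_lit 152) (nat_lit 7069048493) (nat_lit 228) (nat_lit 28590489) (nat_lit 57) (nat_lit 5) (nat_lit 59) (nat_lit 5) (nat_lit 60) (nat_lit 4) (nat_lit 477) (nat_lit 377) (nat_lit 346)) (XT.lf (nat_lit 0) (nat_lit 8078425959) (nat_lit 304) (nat_lit 4504169555) (nat_lit 76) (nat_lit 1165026746) (nat_lit 53) (nat_lit 5) (nat_lit 57) (nat_lit 5) (nat_lit 54) (nat_lit 4) (nat_lit 478) (nat_lit 377) (nat_lit 345)))) (XT.nd (nat_lit 156) (nat_lit 380) (nat_lit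 0) (XT.nd (nat_lit 78) (nat_lit 304) (nat_lit 0) (XT.lf (nat_lit 0) (nat_lit 2474616964) (nat_lit 228) (nat_lit 1902541656) (nat_lit 76) (nat_lit 9599202506) (nat_lit 50) (nat_lit 5) (nat_lit 53) (nat_lit 5) (nat_lit 51) (nat_lit 5) (nat_lit 479) (nat_lit 377) (nat_lit 344)) (XT.lf (nat_lit 0) (nat_lit 715290735) (nat_lit 152) (nat_lit 10113222407) (nat_lit 228) (nat_lit 3381844616) (nat_lit 46) (nat_lit 5) (nat_lit 48) (nat_lit 5) (nat_lit 49) (nat_lit 4) (nat_lit 480) (nat_lit 377) (nat_lit 343))) (XT.nd (nat_lit 78) (nat_lit 152) (nat_lit 0) (XT.lf (nat_lit 0) (nat_lit 3367921583) (nat_lit 152) (nat_lit 1603375581) (nat_lit 228) (nat_lit 9478331463) (nat_lit 43) (nat_lit 5) (nat_lit 45) (nat_lit 5) (nat_lit 46) (nat_lit 5) (nat_lit 481) (nat_lit 377) (nat_lit 342)) (XT.lf (nat_lit 0) (nat_lit 6022257323) (nat_lit 152) (nat_lit 7568453910) (nat_lit 228) (nat_lit 1103687642) (nat_lit 41) (nat_lit 5)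 (nat_lit 43) (nat_lit 5) (nat_lit 44) (nat_lit 4) (nat_lit 482) (nat_lit 377) (nat_lit 341))))) (XT.nd (nat_lit 312) (nat_lit 380) (nat_lit 0) (XT.nd (nat_lit 156) (nat_lit 456) (nat_lit 0) (XT.nd (nat_lit 78) (nat_lit 228) (nat_lit 0) (XT.lf (nat_lit 0) (nat_lit 7459257178) (nat_lit 228) (nat_lit 6265443024) (nat_lit 76) (nat_lit 1220121685) (nat_lit 38) (nat_lit 5) (nat_lit 41) (nat_lit 5) (nat_lit 39) (nat_lit 4) (nat_lit 483) (nat_lit 377) (nat_lit 340)) (XT.lf (nat_lit 0) (nat_lit 1117902654) (nat_lit 228) (nat_lit 3860073592) (nat_lit 76) (nat_lit 10223091528) (nat_lit 35) (nat_lit 5) (nat_lit 38) (nat_lit 5) (nat_lit 36) (nat_lit 5) (nat_lit 484) (nat_lit 377) (nat_lit 339))) (XT.nd (nat_lit 78) (nat_lit 304) (nat_lit 0) (XT.lf (nat_lit 0) (nat_lit 9926467609) (nat_lit 228) (nat_lit 1468147092) (nat_lit 76) (nat_lit 4068423597) (nat_lit 33) (nat_lit 5) (nat_lit 36) (nat_lit 5) (nat_lit 34) (nat_lit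 4) (nat_lit 485) (nat_lit 377) (nat_lit 338)) (XT.lf (nat_lit 0) (nat_lit 943597811) (nat_lit 152) (nat_lit 2343329043) (nat_lit 228) (nat_lit 12444250709) (nat_lit 29) (nat_lit 5) (nat_lit 31) (nat_lit 5) (nat_lit 32) (nat_lit 5) (nat_lit 486) (nat_lit 377) (nat_lit 337)))) (XT.nd (nat_lit 156) (nat_lit 76) (nat_lit 0) (XT.nd (nat_lit 78) (nat_lit 228) (nat_lit 0) (XT.lf (nat_lit 0) (nat_lit 3353584743) (nat_lit 76) (nat_lit 9027660697) (nat_lit 152) (nat_lit 3623757561) (nat_lit 28) (nat_lit 5) (nat_lit 29) (nat_lit 5) (nat_lit 30) (nat_lit 4) (nat_lit 487) (nat_lit 377) (nat_lit 336)) (XT.lf (nat_lit 0) (nat_lit 5435258548) (nat_lit 228) (nat_lit 10514718010) (nat_lit 76) (nat_lit 335447404) (nat_lit 25) (nat_lit 5) (nat_lit 28) (nat_lit 5) (nat_lit 26) (nat_lit 4) (nat_lit 488) (nat_lit 377) (nat_lit 335))) (XT.nd (nat_lit 58968) (nat_lit 0) (nat_lit 17556) (XT.lf (nat_lit 0) (nat_lit 8162486606)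 (nat_lit 76) (nat_lit 6644860690) (nat_lit 152) (nat_lit 1764621108) (nat_lit 24) (nat_lit 5) (nat_lit 25) (nat_lit 5) (nat_lit 26) (nat_lit 4) (nat_lit 489) (nat_lit 377) (nat_lit 334)) (XT.lf (nat_lit 0) (nat_lit 1253498879) (nat_lit 608) (nat_lit 1747712166) (nat_lit 0) (nat_lit 1253498879) (nat_lit 255) (nat_lit 5) (nat_lit 263) (nat_lit 4) (nat_lit 255) (nat_lit 4) (nat_lit 444) (nat_lit 378) (nat_lit 378))))))))
noncomputable def xc9 : XT := (XT.nd (nat_lit 2262) (nat_lit 3496) (nat_lit 0) (XT.nd (nat_lit 1092) (nat_lit 5776) (nat_lit 0) (XT.nd (nat_lit 546) (nat_lit 3648) (nat_lit 0) (XT.nd (nat_lit 234) (nat_lit 2432) (nat_lit 0) (XT.nd (nat_lit 78) (nat_lit 1520) (nat_lit 0) (XT.lf (nat_lit 0) (nat_lit 277912570) (nat_lit 608) (nat_lit 986532727) (nat_lit 76) (nat_lit 7342025363) (nat_lit 247) (nat_lit 5) (nat_lit 255) (nat_lit 5) (nat_lit 248) (nat_lit 4) (nat_lit 445) (nat_lit 378) (nat_lit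 377)) (XT.nd (nat_lit 78) (nat_lit 532) (nat_lit 0) (XT.lf (nat_lit 0) (nat_lit 1575273748) (nat_lit 532) (nat_lit 5060937992) (nat_lit 532) (nat_lit 2070009260) (nat_lit 234) (nat_lit 4) (nat_lit 241) (nat_lit 5) (nat_lit 241) (nat_lit 4) (nat_lit 446) (nat_lit 378) (nat_lit 376)) (XT.lf (nat_lit 0) (nat_lit 4210223799) (nat_lit 456) (nat_lit 62846956) (nat_lit 532) (nat_lit 4536244833) (nat_lit 227) (nat_lit 5) (nat_lit 233) (nat_lit 5) (nat_lit 234) (nat_lit 4) (nat_lit 447) (nat_lit 378) (nat_lit 375)))) (XT.nd (nat_lit 156) (nat_lit 988) (nat_lit 0) (XT.nd (nat_lit 78) (nat_lit 912) (nat_lit 0) (XT.lf (nat_lit 0) (nat_lit 1813758378) (nat_lit 532) (nat_lit 2032449172) (nat_lit 76) (nat_lit 5069281088) (nat_lit 220) (nat_lit 5) (nat_lit 227) (nat_lit 5) (nat_lit 221) (nat_lit 4) (nat_lit 448) (nat_lit 378) (nat_lit 374)) (XT.lf (nat_lit 0) (nat_lit 595966265) (nat_lit 456) (nat_lit 7654825065) (nat_lit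 456) (nat_lit 774295836) (nat_lit 208) (nat_lit 4) (nat_lit 214) (nat_lit 5) (nat_lit 214) (nat_lit 4) (nat_lit 449) (nat_lit 378) (nat_lit 373))) (XT.nd (nat_lit 78) (nat_lit 532) (nat_lit 0) (XT.lf (nat_lit 0) (nat_lit 3282763550) (nat_lit 380) (nat_lit 2371456720) (nat_lit 456) (nat_lit 3483279079) (nat_lit 202) (nat_lit 5) (nat_lit 207) (nat_lit 5) (nat_lit 208) (nat_lit 4) (nat_lit 450) (nat_lit 378) (nat_lit 372)) (XT.lf (nat_lit 0) (nat_lit 2942038686) (nat_lit 532) (nat_lit 3233891684) (nat_lit 76) (nat_lit 3077469941) (nat_lit 195) (nat_lit 5) (nat_lit 202) (nat_lit 5) (nat_lit 196) (nat_lit 4) (nat_lit 451) (nat_lit 378) (nat_lit 371))))) (XT.nd (nat_lit 234) (nat_lit 1976) (nat_lit 0) (XT.nd (nat_lit 78) (nat_lit 1216) (nat_lit 0) (XT.lf (nat_lit 0) (nat_lit 106740732) (nat_lit 456) (nat_lit 561366620) (nat_lit 76) (nat_lit 8704832770) (nat_lit 189) (nat_lit 5) (nat_lit 195) (nat_lit 5) (nat_lit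 190) (nat_lit 5) (nat_lit 452) (nat_lit 378) (nat_lit 370)) (XT.nd (nat_lit 78) (nat_lit 456) (nat_lit 0) (XT.lf (nat_lit 0) (nat_lit 2156498430) (nat_lit 380) (nat_lit 4477199273) (nat_lit 456) (nat_lit 2861495549) (nat_lit 179) (nat_lit 5) (nat_lit 184) (nat_lit 5) (nat_lit 185) (nat_lit 4) (nat_lit 453) (nat_lit 378) (nat_lit 369)) (XT.lf (nat_lit 0) (nat_lit 3659795100) (nat_lit 456) (nat_lit 4683766450) (nat_lit 76) (nat_lit 1277601193) (nat_lit 173) (nat_lit 5) (nat_lit 179) (nat_lit 5) (nat_lit 174) (nat_lit 4) (nat_lit 454) (nat_lit 378) (nat_lit 368)))) (XT.nd (nat_lit 156) (nat_lit 836) (nat_lit 0) (XT.nd (nat_lit 78) (nat_lit 684) (nat_lit 0) (XT.lf (nat_lit 0) (nat_lit 569163433) (nat_lit 456) (nat_lit 1992310946) (nat_lit 76) (nat_lit 7189193762) (nat_lit 167) (nat_lit 5) (nat_lit 173) (nat_lit 5) (nat_lit 168) (nat_lit 5) (nat_lit 455) (nat_lit 378) (nat_lit 367)) (XT.lf (nat_lit 0) (nat_lit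 736229408) (nat_lit 304) (nat_lit 6467827731) (nat_lit 380) (nat_lit 2679427035) (nat_lit 158) (nat_lit 5) (nat_lit 162) (nat_lit 5) (nat_lit 163) (nat_lit 4) (nat_lit 456) (nat_lit 378) (nat_lit 366))) (XT.nd (nat_lit 78) (nat_lit 380) (nat_lit 0) (XT.lf (nat_lit 0) (nat_lit 3538356603) (nat_lit 380) (nat_lit 421258777) (nat_lit 456) (nat_lit 6060257906) (nat_lit 152) (nat_lit 5) (nat_lit 157) (nat_lit 5) (nat_lit 158) (nat_lit 5) (nat_lit 457) (nat_lit 378) (nat_lit 365)) (XT.lf (nat_lit 0) (nat_lit 597879070) (nat_lit 380) (nat_lit 3788359792) (nat_lit 76) (nat_lit 5773598193) (nat_lit 147) (nat_lit 5) (nat_lit 152) (nat_lit 5) (nat_lit 148) (nat_lit 5) (nat_lit 458) (nat_lit 378) (nat_lit 364)))))) (XT.nd (nat_lit 546) (nat_lit 2736) (nat_lit 0) (XT.nd (nat_lit 234) (nat_lit 1596) (nat_lit 0) (XT.nd (nat_lit 78) (nat_lit 1064) (nat_lit 0) (XT.lf (nat_lit 0) (nat_lit 7357679296) (nat_lit 456) (nat_lit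 1063693319) (nat_lit 76) (nat_lit 1882142923) (nat_lit 142) (nat_lit 5) (nat_lit 148) (nat_lit 5) (nat_lit 143) (nat_lit 4) (nat_lit 459) (nat_lit 378) (nat_lit 363)) (XT.nd (nat_lit 78) (nat_lit 380) (nat_lit 0) (XT.lf (nat_lit 0) (nat_lit 1716265258) (nat_lit 304) (nat_lit 2113396039) (nat_lit 380) (nat_lit 6621110021) (nat_lit 133) (nat_lit 5) (nat_lit 137) (nat_lit 5) (nat_lit 138) (nat_lit 5) (nat_lit 460) (nat_lit 378) (nat_lit 362)) (XT.lf (nat_lit 0) (nat_lit 173315534) (nat_lit 380) (nat_lit 6052776403) (nat_lit 76) (nat_lit 4375760631) (nat_lit 128) (nat_lit 5) (nat_lit 133) (nat_lit 5) (nat_lit 129) (nat_lit 5) (nat_lit 461) (nat_lit 378) (nat_lit 361)))) (XT.nd (nat_lit 156) (nat_lit 912) (nat_lit 0) (XT.nd (nat_lit 78) (nat_lit 380) (nat_lit 0) (XT.lf (nat_lit 0) (nat_lit 7073709584) (nat_lit 380) (nat_lit 3346956926) (nat_lit 76) (nat_lit 336084428) (nat_lit 124) (nat_lit 5) (nat_lit 129)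 (nat_lit 5) (nat_lit 125) (nat_lit 4) (nat_lit 462) (nat_lit 378) (nat_lit 360)) (XT.lf (nat_lit 0) (nat_lit 3241452180) (nat_lit 380) (nat_lit 619462744) (nat_lit 76) (nat_lit 7054570069) (nat_lit 119) (nat_lit 5) (nat_lit 124) (nat_lit 5) (nat_lit 120) (nat_lit 5) (nat_lit 463) (nat_lit 378) (nat_lit 359))) (XT.nd (nat_lit 78) (nat_lit 380) (nat_lit 0) (XT.lf (nat_lit 0) (nat_lit 2177677787) (nat_lit 228) (nat_lit 8159302884) (nat_lit 304) (nat_lit 741248404) (nat_lit 112) (nat_lit 5) (nat_lit 115) (nat_lit 5) (nat_lit 116) (nat_lit 4) (nat_lit 464) (nat_lit 378) (nat_lit 358)) (XT.lf (nat_lit 0) (nat_lit 5001247252) (nat_lit 304) (nat_lit 1326118526) (nat_lit 380) (nat_lit 4917424749) (nat_lit 107) (nat_lit 5) (nat_lit 111) (nat_lit 5) (nat_lit 112) (nat_lit 5) (nat_lit 465) (nat_lit 378) (nat_lit 357))))) (XT.nd (nat_lit 312) (nat_lit 1292) (nat_lit 0) (XT.nd (nat_lit 156) (nat_lit 836) (nat_lit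 0) (XT.nd (nat_lit 78) (nat_lit 304) (nat_lit 0) (XT.lf (nat_lit 0) (nat_lit 2174462819) (nat_lit 304) (nat_lit 3561419027) (nat_lit 76) (nat_lit 5679660000) (nat_lit 103) (nat_lit 5) (nat_lit 107) (nat_lit 5) (nat_lit 104) (nat_lit 5) (nat_lit 466) (nat_lit 378) (nat_lit 356)) (XT.lf (nat_lit 0) (nat_lit 9416434154) (nat_lit 380) (nat_lit 847956673) (nat_lit 76) (nat_lit 1326293547) (nat_lit 99) (nat_lit 5) (nat_lit 104) (nat_lit 5) (nat_lit 100) (nat_lit 4) (nat_lit 467) (nat_lit 378) (nat_lit 355))) (XT.nd (nat_lit 78) (nat_lit 304) (nat_lit 0) (XT.lf (nat_lit 0) (nat_lit 1900768154) (nat_lit 228) (nat_lit 3176330696) (nat_lit 304) (nat_lit 6692531618) (nat_lit 92) (nat_lit 5) (nat_lit 95) (nat_lit 5) (nat_lit 96) (nat_lit 5) (nat_lit 468) (nat_lit 378) (nat_lit 354)) (XT.lf (nat_lit 0) (nat_lit 578697590) (nat_lit 304) (nat_lit 7255149054) (nat_lit 76) (nat_lit 4119273366) (nat_lit 88) (nat_lit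 5) (nat_lit 92) (nat_lit 5) (nat_lit 89) (nat_lit 5) (nat_lit 469) (nat_lit 378) (nat_lit 353)))) (XT.nd (nat_lit 156) (nat_lit 760) (nat_lit 0) (XT.nd (nat_lit 78) (nat_lit 304) (nat_lit 0) (XT.lf (nat_lit 0) (nat_lit 7511879224) (nat_lit 228) (nat_lit 479458446) (nat_lit 304) (nat_lit 4149609123) (nat_lit 85) (nat_lit 5) (nat_lit 88) (nat_lit 5) (nat_lit 89) (nat_lit 5) (nat_lit 470) (nat_lit 378) (nat_lit 352)) (XT.lf (nat_lit 0) (nat_lit 3289858713) (nat_lit 304) (nat_lit 1992566810) (nat_lit 76) (nat_lit 7050734920) (nat_lit 81) (nat_lit 5) (nat_lit 85) (nat_lit 5) (nat_lit 82) (nat_lit 5) (nat_lit 471) (nat_lit 378) (nat_lit 351))) (XT.nd (nat_lit 78) (nat_lit 304) (nat_lit 0) (XT.lf (nat_lit 0) (nat_lit 684966669) (nat_lit 228) (nat_lit 10231023049) (nat_lit 304) (nat_lit 1614206277) (nat_lit 75) (nat_lit 5) (nat_lit 78) (nat_lit 5) (nat_lit 79) (nat_lit 4) (nat_lit 472) (nat_lit 378) (nat_lit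 350)) (XT.lf (nat_lit 0) (nat_lit 3392687965) (nat_lit 228) (nat_lit 2613565087) (nat_lit 304) (nat_lit 6725153126) (nat_lit 71) (nat_lit 5) (nat_lit 74) (nat_lit 5) (nat_lit 75) (nat_lit 5) (nat_lit 473) (nat_lit 378) (nat_lit 349))))))) (XT.nd (nat_lit 1170) (nat_lit 152) (nat_lit 0) (XT.nd (nat_lit 546) (nat_lit 1596) (nat_lit 0) (XT.nd (nat_lit 234) (nat_lit 1064) (nat_lit 0) (XT.nd (nat_lit 78) (nat_lit 456) (nat_lit 0) (XT.lf (nat_lit 0) (nat_lit 918466343) (nat_lit 228) (nat_lit 6809594199) (nat_lit 76) (nat_lit 5209558639) (nat_lit 68) (nat_lit 5) (nat_lit 71) (nat_lit 5) (nat_lit 69) (nat_lit 5) (nat_lit 474) (nat_lit 378) (nat_lit 348)) (XT.nd (nat_lit 78) (nat_lit 228) (nat_lit 0) (XT.lf (nat_lit 0) (nat_lit 8722041969) (nat_lit 304) (nat_lit 4270211293) (nat_lit 76) (nat_lit 156436976) (nat_lit 65) (nat_lit 5) (nat_lit 69) (nat_lit 5) (nat_lit 66) (nat_lit 4) (nat_lit 475) (nat_lit 378)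 (nat_lit 347)) (XT.lf (nat_lit 0) (nat_lit 3406438330) (nat_lit 228) (nat_lit 1731442937) (nat_lit 76) (nat_lit 8226626184) (nat_lit 62) (nat_lit 5) (nat_lit 65) (nat_lit 5) (nat_lit 63) (nat_lit 5) (nat_lit 476) (nat_lit 378) (nat_lit 346)))) (XT.nd (nat_lit 156) (nat_lit 380) (nat_lit 0) (XT.nd (nat_lit 78) (nat_lit 304) (nat_lit 0) (XT.lf (nat_lit 0) (nat_lit 842306818) (nat_lit 152) (nat_lit 10604748522) (nat_lit 228) (nat_lit 2138506035) (nat_lit 57) (nat_lit 5) (nat_lit 59) (nat_lit 5) (nat_lit 60) (nat_lit 4) (nat_lit 477) (nat_lit 378) (nat_lit 345)) (XT.lf (nat_lit 0) (nat_lit 3439231160) (nat_lit 228) (nat_lit 2454283638) (nat_lit 304) (nat_lit 7917855762) (nat_lit 53) (nat_lit 5) (nat_lit 56) (nat_lit 5) (nat_lit 57) (nat_lit 5) (nat_lit 478) (nat_lit 378) (nat_lit 344))) (XT.nd (nat_lit 78) (nat_lit 152) (nat_lit 0) (XT.lf (nat_lit 0) (nat_lit 143034879) (nat_lit 228) (nat_lit 7987398039)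 (nat_lit 76) (nat_lit 5912217221) (nat_lit 50) (nat_lit 5) (nat_lit 53) (nat_lit 5) (nat_lit 51) (nat_lit 5) (nat_lit 479) (nat_lit 378) (nat_lit 343)) (XT.lf (nat_lit 0) (nat_lit 8370704685) (nat_lit 228) (nat_lit 5606563458) (nat_lit 76) (nat_lit 301903572) (nat_lit 48) (nat_lit 5) (nat_lit 51) (nat_lit 5) (nat_lit 49) (nat_lit 4) (nat_lit 480) (nat_lit 378) (nat_lit 342))))) (XT.nd (nat_lit 312) (nat_lit 684) (nat_lit 0) (XT.nd (nat_lit 156) (nat_lit 532) (nat_lit 0) (XT.nd (nat_lit 78) (nat_lit 152) (nat_lit 0) (XT.lf (nat_lit 0) (nat_lit 2362519915) (nat_lit 228) (nat_lit 3228867436) (nat_lit 76) (nat_lit 8929689564) (nat_lit 45) (nat_lit 5) (nat_lit 48) (nat_lit 5) (nat_lit 46) (nat_lit 5) (nat_lit 481) (nat_lit 378) (nat_lit 341)) (XT.lf (nat_lit 0) (nat_lit 10839940379) (nat_lit 228) (nat_lit 844745978) (nat_lit 76) (nat_lit 3084001067) (nat_lit 43) (nat_lit 5) (nat_lit 46) (nat_lit 5) (nat_lit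 44) (nat_lit 4) (nat_lit 482) (nat_lit 378) (nat_lit 340))) (XT.nd (nat_lit 78) (nat_lit 152) (nat_lit 0) (XT.lf (nat_lit 0) (nat_lit 1558263631) (nat_lit 152) (nat_lit 2998061638) (nat_lit 228) (nat_lit 10465450852) (nat_lit 38) (nat_lit 5) (nat_lit 40) (nat_lit 5) (nat_lit 41) (nat_lit 5) (nat_lit 483) (nat_lit 378) (nat_lit 339)) (XT.lf (nat_lit 0) (nat_lit 3972466967) (nat_lit 152) (nat_lit 9336861536) (nat_lit 228) (nat_lit 1971275225) (nat_lit 36) (nat_lit 5) (nat_lit 38) (nat_lit 5) (nat_lit 39) (nat_lit 4) (nat_lit 484) (nat_lit 378) (nat_lit 338)))) (XT.nd (nat_lit 156) (nat_lit 380) (nat_lit 0) (XT.nd (nat_lit 78) (nat_lit 76) (nat_lit 0) (XT.lf (nat_lit 0) (nat_lit 6387023169) (nat_lit 152) (nat_lit 346009707) (nat_lit 228) (nat_lit 8812399904) (nat_lit 33) (nat_lit 5) (nat_lit 35) (nat_lit 5) (nat_lit 36) (nat_lit 5) (nat_lit 485) (nat_lit 378) (nat_lit 337)) (XT.lf (nat_lit 0) (nat_lit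 8794125420) (nat_lit 76) (nat_lit 6961958614) (nat_lit 152) (nat_lit 60174825) (nat_lit 32) (nat_lit 5) (nat_lit 33) (nat_lit 5) (nat_lit 34) (nat_lit 4) (nat_lit 486) (nat_lit 378) (nat_lit 336))) (XT.nd (nat_lit 78) (nat_lit 152) (nat_lit 0) (XT.lf (nat_lit 0) (nat_lit 8883156340) (nat_lit 228) (nat_lit 4904845885) (nat_lit 76) (nat_lit 2305125735) (nat_lit 29) (nat_lit 5) (nat_lit 32) (nat_lit 5) (nat_lit 30) (nat_lit 4) (nat_lit 487) (nat_lit 378) (nat_lit 335)) (XT.lf (nat_lit 0) (nat_lit 1770966408) (nat_lit 152) (nat_lit 2790797294) (nat_lit 76) (nat_lit 11814753438) (nat_lit 27) (nat_lit 5) (nat_lit 29) (nat_lit 5) (nat_lit 28) (nat_lit 5) (nat_lit 488) (nat_lit 378) (nat_lit 334)))))) (XT.nd (nat_lit 59280) (nat_lit 0) (nat_lit 10792) (XT.nd (nat_lit 58968) (nat_lit 0) (nat_lit 15352) (XT.nd (nat_lit 58812) (nat_lit 0) (nat_lit 18088) (XT.lf (nat_lit 0) (nat_lit 10989631161) (nat_lit 228) (nat_lit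 703169807) (nat_lit 76) (nat_lit 4973329385) (nat_lit 25) (nat_lit 5) (nat_lit 28) (nat_lit 5) (nat_lit 26) (nat_lit 4) (nat_lit 489) (nat_lit 378) (nat_lit 333)) (XT.nd (nat_lit 78) (nat_lit 608) (nat_lit 0) (XT.lf (nat_lit 0) (nat_lit 22156982) (nat_lit 608) (nat_lit 4117598103) (nat_lit 0) (nat_lit 22156982) (nat_lit 271) (nat_lit 5) (nat_lit 279) (nat_lit 4) (nat_lit 271) (nat_lit 4) (nat_lit 442) (nat_lit 379) (nat_lit 379)) (XT.lf (nat_lit 0) (nat_lit 2465613542) (nat_lit 608) (nat_lit 3788151674) (nat_lit 608) (nat_lit 2161910998) (nat_lit 263) (nat_lit 4) (nat_lit 271) (nat_lit 5) (nat_lit 271) (nat_lit 4) (nat_lit 443) (nat_lit 379) (nat_lit 378)))) (XT.nd (nat_lit 156) (nat_lit 1520) (nat_lit 0) (XT.nd (nat_lit 78) (nat_lit 608) (nat_lit 0) (XT.lf (nat_lit 0) (nat_lit 4024382998) (nat_lit 608) (nat_lit 3604464808) (nat_lit 0) (nat_lit 882113272) (nat_lit 255) (nat_lit 5) (nat_lit 263) (nat_lit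 4) (nat_lit 255) (nat_lit 4) (nat_lit 444) (nat_lit 379) (nat_lit 377)) (XT.lf (nat_lit 0) (nat_lit 1697229570) (nat_lit 608) (nat_lit 1216697178) (nat_lit 76) (nat_lit 5695423008) (nat_lit 247) (nat_lit 5) (nat_lit 255) (nat_lit 5) (nat_lit 248) (nat_lit 4) (nat_lit 445) (nat_lit 379) (nat_lit 376))) (XT.nd (nat_lit 78) (nat_lit 532) (nat_lit 0) (XT.lf (nat_lit 0) (nat_lit 1237625688) (nat_lit 532) (nat_lit 6728863904) (nat_lit 532) (nat_lit 744393008) (nat_lit 234) (nat_lit 4) (nat_lit 241) (nat_lit 5) (nat_lit 241) (nat_lit 4) (nat_lit 446) (nat_lit 379) (nat_lit 375)) (XT.lf (nat_lit 0) (nat_lit 3746183785) (nat_lit 456) (nat_lit 1758490210) (nat_lit 532) (nat_lit 3310665241) (nat_lit 227) (nat_lit 5) (nat_lit 233) (nat_lit 5) (nat_lit 234) (nat_lit 4) (nat_lit 447) (nat_lit 379) (nat_lit 374))))) (XT.nd (nat_lit 312) (nat_lit 2128) (nat_lit 0) (XT.nd (nat_lit 156) (nat_lit 1368) (nat_lit 0) (XT.nd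 (nat_lit 78) (nat_lit 532) (nat_lit 0) (XT.lf (nat_lit 0) (nat_lit 2935586444) (nat_lit 532) (nat_lit 2620698105) (nat_lit 76) (nat_lit 3366823709) (nat_lit 220) (nat_lit 5) (nat_lit 227) (nat_lit 5) (nat_lit 221) (nat_lit 4) (nat_lit 448) (nat_lit 379) (nat_lit 373)) (XT.lf (nat_lit 0) (nat_lit 246026948) (nat_lit 532) (nat_lit 116844410) (nat_lit 76) (nat_lit 8671581327) (nat_lit 213) (nat_lit 5) (nat_lit 220) (nat_lit 5) (nat_lit 214) (nat_lit 5) (nat_lit 449) (nat_lit 379) (nat_lit 372))) (XT.nd (nat_lit 78) (nat_lit 532) (nat_lit 0) (XT.lf (nat_lit 0) (nat_lit 2437703682) (nat_lit 380) (nat_lit 4146674891) (nat_lit 456) (nat_lit 2563987380) (nat_lit 202) (nat_lit 5) (nat_lit 207) (nat_lit 5) (nat_lit 208) (nat_lit 4) (nat_lit 450) (nat_lit 379) (nat_lit 371)) (XT.lf (nat_lit 0) (nat_lit 3760671201) (nat_lit 532) (nat_lit 4215939793) (nat_lit 76) (nat_lit 1289309971) (nat_lit 195) (nat_lit 5) (nat_lit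 202) (nat_lit 5) (nat_lit 196) (nat_lit 4) (nat_lit 451) (nat_lit 379) (nat_lit 370)))) (XT.nd (nat_lit 156) (nat_lit 912) (nat_lit 0) (XT.nd (nat_lit 78) (nat_lit 760) (nat_lit 0) (XT.lf (nat_lit 0) (nat_lit 825284685) (nat_lit 456) (nat_lit 1682832497) (nat_lit 76) (nat_lit 6878780136) (nat_lit 189) (nat_lit 5) (nat_lit 195) (nat_lit 5) (nat_lit 190) (nat_lit 5) (nat_lit 452) (nat_lit 379) (nat_lit 369)) (XT.lf (nat_lit 0) (nat_lit 893550915) (nat_lit 380) (nat_lit 6361741016) (nat_lit 456) (nat_lit 2255798780) (nat_lit 179) (nat_lit 5) (nat_lit 184) (nat_lit 5) (nat_lit 185) (nat_lit 4) (nat_lit 453) (nat_lit 379) (nat_lit 368))) (XT.nd (nat_lit 78) (nat_lit 456) (nat_lit 0) (XT.lf (nat_lit 0) (nat_lit 3537656129) (nat_lit 380) (nat_lit 633846202) (nat_lit 456) (nat_lit 5467201340) (nat_lit 173) (nat_lit 5) (nat_lit 178) (nat_lit 5) (nat_lit 179) (nat_lit 5) (nat_lit 454) (nat_lit 379) (nat_lit 367))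 (XT.lf (nat_lit 0) (nat_lit 974761595) (nat_lit 456) (nat_lit 3553938603) (nat_lit 76) (nat_lit 5241087592) (nat_lit 167) (nat_lit 5) (nat_lit 173) (nat_lit 5) (nat_lit 168) (nat_lit 5) (nat_lit 455) (nat_lit 379) (nat_lit 366))))))))
noncomputable def xc10 : XT := (XT.nd (nat_lit 2262) (nat_lit 988) (nat_lit 0) (XT.nd (nat_lit 1092) (nat_lit 3876) (nat_lit 0) (XT.nd (nat_lit 546) (nat_lit 2660) (nat_lit 0) (XT.nd (nat_lit 234) (nat_lit 1748) (nat_lit 0) (XT.nd (nat_lit 78) (nat_lit 1140) (nat_lit 0) (XT.lf (nat_lit 0) (nat_lit 7514220235) (nat_lit 456) (nat_lit 970369255) (nat_lit 76) (nat_lit 1419924149) (nat_lit 162) (nat_lit 5) (nat_lit 168) (nat_lit 5) (nat_lit 163) (nat_lit 4) (nat_lit 456) (nat_lit 379) (nat_lit 365)) (XT.nd (nat_lit 78) (nat_lit 380) (nat_lit 0) (XT.lf (nat_lit 0) (nat_lit 1664077061) (nat_lit 380) (nat_lit 2495580992) (nat_lit 456) (nat_lit 5882914193) (nat_lit 152) (nat_lit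 5) (nat_lit 157) (nat_lit 5) (nat_lit 158) (nat_lit 5) (nat_lit 457) (nat_lit 379) (nat_lit 364)) (XT.lf (nat_lit 0) (nat_lit 680019227) (nat_lit 380) (nat_lit 5829924841) (nat_lit 76) (nat_lit 3674427482) (nat_lit 147) (nat_lit 5) (nat_lit 152) (nat_lit 5) (nat_lit 148) (nat_lit 5) (nat_lit 458) (nat_lit 379) (nat_lit 363)))) (XT.nd (nat_lit 156) (nat_lit 988) (nat_lit 0) (XT.nd (nat_lit 78) (nat_lit 380) (nat_lit 0) (XT.lf (nat_lit 0) (nat_lit 7076694375) (nat_lit 380) (nat_lit 271716080) (nat_lit 456) (nat_lit 2981468738) (nat_lit 142) (nat_lit 5) (nat_lit 147) (nat_lit 5) (nat_lit 148) (nat_lit 5) (nat_lit 459) (nat_lit 379) (nat_lit 362)) (XT.lf (nat_lit 0) (nat_lit 3702023412) (nat_lit 380) (nat_lit 656610434) (nat_lit 76) (nat_lit 6120356143) (nat_lit 137) (nat_lit 5) (nat_lit 142) (nat_lit 5) (nat_lit 138) (nat_lit 5) (nat_lit 460) (nat_lit 379) (nat_lit 361))) (XT.nd (nat_lit 78) (nat_lit 380)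 (nat_lit 0) (XT.lf (nat_lit 0) (nat_lit 2015205864) (nat_lit 304) (nat_lit 8535139890) (nat_lit 380) (nat_lit 81739408) (nat_lit 129) (nat_lit 5) (nat_lit 133) (nat_lit 5) (nat_lit 134) (nat_lit 4) (nat_lit 461) (nat_lit 379) (nat_lit 360)) (XT.lf (nat_lit 0) (nat_lit 4707404664) (nat_lit 304) (nat_lit 2029195037) (nat_lit 380) (nat_lit 4052057847) (nat_lit 124) (nat_lit 5) (nat_lit 128) (nat_lit 5) (nat_lit 129) (nat_lit 5) (nat_lit 462) (nat_lit 379) (nat_lit 359))))) (XT.nd (nat_lit 234) (nat_lit 1368) (nat_lit 0) (XT.nd (nat_lit 78) (nat_lit 912) (nat_lit 0) (XT.lf (nat_lit 0) (nat_lit 2782428223) (nat_lit 380) (nat_lit 3513772728) (nat_lit 76) (nat_lit 4653136335) (nat_lit 119) (nat_lit 5) (nat_lit 124) (nat_lit 5) (nat_lit 120) (nat_lit 5) (nat_lit 463) (nat_lit 379) (nat_lit 358)) (XT.nd (nat_lit 78) (nat_lit 608) (nat_lit 0) (XT.lf (nat_lit 0) (nat_lit 9766162643) (nat_lit 380) (nat_lit 908284618)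 (nat_lit 76) (nat_lit 439870787) (nat_lit 115) (nat_lit 5) (nat_lit 120) (nat_lit 5) (nat_lit 116) (nat_lit 4) (nat_lit 464) (nat_lit 379) (nat_lit 357)) (XT.lf (nat_lit 0) (nat_lit 1722553935) (nat_lit 304) (nat_lit 3916624008) (nat_lit 380) (nat_lit 5643565934) (nat_lit 107) (nat_lit 5) (nat_lit 111) (nat_lit 5) (nat_lit 112) (nat_lit 5) (nat_lit 465) (nat_lit 379) (nat_lit 356)))) (XT.nd (nat_lit 156) (nat_lit 760) (nat_lit 0) (XT.nd (nat_lit 78) (nat_lit 304) (nat_lit 0) (XT.lf (nat_lit 0) (nat_lit 1356876930) (nat_lit 304) (nat_lit 7045730475) (nat_lit 76) (nat_lit 3053002168) (nat_lit 103) (nat_lit 5) (nat_lit 107) (nat_lit 5) (nat_lit 104) (nat_lit 5) (nat_lit 466) (nat_lit 379) (nat_lit 355)) (XT.lf (nat_lit 0) (nat_lit 7115868752) (nat_lit 304) (nat_lit 1390274984) (nat_lit 380) (nat_lit 3126463158) (nat_lit 99) (nat_lit 5) (nat_lit 103) (nat_lit 5) (nat_lit 104) (nat_lit 5) (nat_lit 467) (nat_lit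 379) (nat_lit 354))) (XT.nd (nat_lit 78) (nat_lit 456) (nat_lit 0) (XT.lf (nat_lit 0) (nat_lit 4031077638) (nat_lit 304) (nat_lit 1973898811) (nat_lit 76) (nat_lit 5808826789) (nat_lit 95) (nat_lit 5) (nat_lit 99) (nat_lit 5) (nat_lit 96) (nat_lit 5) (nat_lit 468) (nat_lit 379) (nat_lit 353)) (XT.lf (nat_lit 0) (nat_lit 617037039) (nat_lit 228) (nat_lit 10758743723) (nat_lit 304) (nat_lit 623944459) (nat_lit 89) (nat_lit 5) (nat_lit 92) (nat_lit 5) (nat_lit 93) (nat_lit 4) (nat_lit 469) (nat_lit 379) (nat_lit 352)))))) (XT.nd (nat_lit 546) (nat_lit 1824) (nat_lit 0) (XT.nd (nat_lit 234) (nat_lit 1216) (nat_lit 0) (XT.nd (nat_lit 78) (nat_lit 532) (nat_lit 0) (XT.lf (nat_lit 0) (nat_lit 3228759860) (nat_lit 228) (nat_lit 3481172801) (nat_lit 304) (nat_lit 5479439901) (nat_lit 85) (nat_lit 5) (nat_lit 88) (nat_lit 5) (nat_lit 89) (nat_lit 5) (nat_lit 470) (nat_lit 379) (nat_lit 351)) (XT.nd (nat_lit 78)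 (nat_lit 228) (nat_lit 0) (XT.lf (nat_lit 0) (nat_lit 1869867754) (nat_lit 304) (nat_lit 6507171519) (nat_lit 76) (nat_lit 4006872232) (nat_lit 81) (nat_lit 5) (nat_lit 85) (nat_lit 5) (nat_lit 82) (nat_lit 5) (nat_lit 471) (nat_lit 379) (nat_lit 350)) (XT.lf (nat_lit 0) (nat_lit 8543954089) (nat_lit 228) (nat_lit 844434281) (nat_lit 304) (nat_lit 3194711465) (nat_lit 78) (nat_lit 5) (nat_lit 81) (nat_lit 5) (nat_lit 82) (nat_lit 5) (nat_lit 472) (nat_lit 379) (nat_lit 349)))) (XT.nd (nat_lit 156) (nat_lit 532) (nat_lit 0) (XT.nd (nat_lit 78) (nat_lit 380) (nat_lit 0) (XT.lf (nat_lit 0) (nat_lit 4334223649) (nat_lit 304) (nat_lit 1570186235) (nat_lit 76) (nat_lit 6882350967) (nat_lit 74) (nat_lit 5) (nat_lit 78) (nat_lit 5) (nat_lit 75) (nat_lit 5) (nat_lit 473) (nat_lit 379) (nat_lit 348)) (XT.lf (nat_lit 0) (nat_lit 946025053) (nat_lit 152) (nat_lit 11127656862) (nat_lit 228) (nat_lit 921867338) (nat_lit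 69) (nat_lit 5) (nat_lit 71) (nat_lit 5) (nat_lit 72) (nat_lit 4) (nat_lit 474) (nat_lit 379) (nat_lit 347))) (XT.nd (nat_lit 78) (nat_lit 228) (nat_lit 0) (XT.lf (nat_lit 0) (nat_lit 3473335033) (nat_lit 228) (nat_lit 3327724316) (nat_lit 304) (nat_lit 6407535957) (nat_lit 65) (nat_lit 5) (nat_lit 68) (nat_lit 5) (nat_lit 69) (nat_lit 5) (nat_lit 475) (nat_lit 379) (nat_lit 346)) (XT.lf (nat_lit 0) (nat_lit 1336801382) (nat_lit 228) (nat_lit 7397659585) (nat_lit 76) (nat_lit 4692503833) (nat_lit 62) (nat_lit 5) (nat_lit 65) (nat_lit 5) (nat_lit 63) (nat_lit 5) (nat_lit 476) (nat_lit 379) (nat_lit 345))))) (XT.nd (nat_lit 312) (nat_lit 760) (nat_lit 0) (XT.nd (nat_lit 156) (nat_lit 608) (nat_lit 0) (XT.nd (nat_lit 78) (nat_lit 228) (nat_lit 0) (XT.lf (nat_lit 0) (nat_lit 8594422880) (nat_lit 228) (nat_lit 664746240) (nat_lit 304) (nat_lit 4391215052) (nat_lit 59) (nat_lit 5) (nat_lit 62) (nat_lit 5)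 (nat_lit 63) (nat_lit 5) (nat_lit 477) (nat_lit 379) (nat_lit 344)) (XT.lf (nat_lit 0) (nat_lit 3554622241) (nat_lit 228) (nat_lit 2718530686) (nat_lit 76) (nat_lit 7605647959) (nat_lit 56) (nat_lit 5) (nat_lit 59) (nat_lit 5) (nat_lit 57) (nat_lit 5) (nat_lit 478) (nat_lit 379) (nat_lit 343))) (XT.nd (nat_lit 78) (nat_lit 380) (nat_lit 0) (XT.lf (nat_lit 0) (nat_lit 11711679219) (nat_lit 304) (nat_lit 360018590) (nat_lit 76) (nat_lit 2041142562) (nat_lit 53) (nat_lit 5) (nat_lit 57) (nat_lit 5) (nat_lit 54) (nat_lit 4) (nat_lit 479) (nat_lit 379) (nat_lit 342)) (XT.lf (nat_lit 0) (nat_lit 2013447630) (nat_lit 152) (nat_lit 3742622317) (nat_lit 228) (nat_lit 8595642816) (nat_lit 48) (nat_lit 5) (nat_lit 50) (nat_lit 5) (nat_lit 51) (nat_lit 5) (nat_lit 480) (nat_lit 379) (nat_lit 341)))) (XT.nd (nat_lit 156) (nat_lit 380) (nat_lit 0) (XT.nd (nat_lit 78) (nat_lit 228) (nat_lit 0) (XT.lf (nat_lit 0) (nat_lit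 4411907543) (nat_lit 152) (nat_lit 9766038865) (nat_lit 228) (nat_lit 418437271) (nat_lit 46) (nat_lit 5) (nat_lit 48) (nat_lit 5) (nat_lit 49) (nat_lit 4) (nat_lit 481) (nat_lit 379) (nat_lit 340)) (XT.lf (nat_lit 0) (nat_lit 6800629958) (nat_lit 152) (nat_lit 1144103999) (nat_lit 228) (nat_lit 6901709684) (nat_lit 43) (nat_lit 5) (nat_lit 45) (nat_lit 5) (nat_lit 46) (nat_lit 5) (nat_lit 482) (nat_lit 379) (nat_lit 339))) (XT.nd (nat_lit 78) (nat_lit 152) (nat_lit 0) (XT.lf (nat_lit 0) (nat_lit 1503707124) (nat_lit 228) (nat_lit 5909191389) (nat_lit 76) (nat_lit 7689393163) (nat_lit 40) (nat_lit 5) (nat_lit 43) (nat_lit 5) (nat_lit 41) (nat_lit 5) (nat_lit 483) (nat_lit 379) (nat_lit 338)) (XT.lf (nat_lit 0) (nat_lit 10110345971) (nat_lit 228) (nat_lit 3775743581) (nat_lit 76) (nat_lit 1477957366) (nat_lit 38) (nat_lit 5) (nat_lit 41) (nat_lit 5) (nat_lit 39) (nat_lit 4) (nat_lit 484) (nat_lit 379)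 (nat_lit 337))))))) (XT.nd (nat_lit 59748) (nat_lit 0) (nat_lit 6840) (XT.nd (nat_lit 59124) (nat_lit 0) (nat_lit 14288) (XT.nd (nat_lit 234) (nat_lit 304) (nat_lit 0) (XT.nd (nat_lit 78) (nat_lit 456) (nat_lit 0) (XT.lf (nat_lit 0) (nat_lit 3374977262) (nat_lit 228) (nat_lit 1654458255) (nat_lit 76) (nat_lit 10602240608) (nat_lit 35) (nat_lit 5) (nat_lit 38) (nat_lit 5) (nat_lit 36) (nat_lit 5) (nat_lit 485) (nat_lit 379) (nat_lit 336)) (XT.nd (nat_lit 78) (nat_lit 228) (nat_lit 0) (XT.lf (nat_lit 0) (nat_lit 469464854) (nat_lit 76) (nat_lit 11781560255) (nat_lit 152) (nat_lit 3654417484) (nat_lit 32) (nat_lit 5) (nat_lit 33) (nat_lit 5) (nat_lit 34) (nat_lit 4) (nat_lit 486) (nat_lit 379) (nat_lit 335)) (XT.lf (nat_lit 0) (nat_lit 2605320284) (nat_lit 152) (nat_lit 2608704161) (nat_lit 228) (nat_lit 10971194846) (nat_lit 29) (nat_lit 5) (nat_lit 31) (nat_lit 5) (nat_lit 32) (nat_lit 5) (nat_lit 487)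 (nat_lit 379) (nat_lit 334)))) (XT.nd (nat_lit 58734) (nat_lit 0) (nat_lit 19912) (XT.nd (nat_lit 78) (nat_lit 228) (nat_lit 0) (XT.lf (nat_lit 0) (nat_lit 4728842935) (nat_lit 76) (nat_lit 9648317892) (nat_lit 152) (nat_lit 2094180146) (nat_lit 28) (nat_lit 5) (nat_lit 29) (nat_lit 5) (nat_lit 30) (nat_lit 4) (nat_lit 488) (nat_lit 379) (nat_lit 333)) (XT.lf (nat_lit 0) (nat_lit 6844742489) (nat_lit 152) (nat_lit 165168463) (nat_lit 228) (nat_lit 9754156236) (nat_lit 25) (nat_lit 5) (nat_lit 27) (nat_lit 5) (nat_lit 28) (nat_lit 5) (nat_lit 489) (nat_lit 379) (nat_lit 332))) (XT.nd (nat_lit 78) (nat_lit 684) (nat_lit 0) (XT.lf (nat_lit 0) (nat_lit 1880834080) (nat_lit 608) (nat_lit 1096262904) (nat_lit 608) (nat_lit 1096262904) (nat_lit 296) (nat_lit 4) (nat_lit 304) (nat_lit 5) (nat_lit 304) (nat_lit 4) (nat_lit 440) (nat_lit 380) (nat_lit 380)) (XT.lf (nat_lit 0) (nat_lit 3855103478) (nat_lit 684)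 (nat_lit 2232654940) (nat_lit 0) (nat_lit 2146575023) (nat_lit 287) (nat_lit 5) (nat_lit 296) (nat_lit 4) (nat_lit 287) (nat_lit 4) (nat_lit 441) (nat_lit 380) (nat_lit 379))))) (XT.nd (nat_lit 312) (nat_lit 2584) (nat_lit 0) (XT.nd (nat_lit 156) (nat_lit 1216) (nat_lit 0) (XT.nd (nat_lit 78) (nat_lit 1140) (nat_lit 0) (XT.lf (nat_lit 0) (nat_lit 1653309500) (nat_lit 684) (nat_lit 27608752) (nat_lit 76) (nat_lit 6644228487) (nat_lit 278) (nat_lit 5) (nat_lit 287) (nat_lit 5) (nat_lit 279) (nat_lit 4) (nat_lit 442) (nat_lit 380) (nat_lit 378)) (XT.lf (nat_lit 0) (nat_lit 2251897586) (nat_lit 608) (nat_lit 5523496739) (nat_lit 608) (nat_lit 643353722) (nat_lit 263) (nat_lit 4) (nat_lit 271) (nat_lit 5) (nat_lit 271) (nat_lit 4) (nat_lit 443) (nat_lit 380) (nat_lit 377))) (XT.nd (nat_lit 78) (nat_lit 608) (nat_lit 0) (XT.lf (nat_lit 0) (nat_lit 4578189310) (nat_lit 532) (nat_lit 863008776) (nat_lit 608)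 (nat_lit 3074275965) (nat_lit 255) (nat_lit 5) (nat_lit 262) (nat_lit 5) (nat_lit 263) (nat_lit 4) (nat_lit 444) (nat_lit 380) (nat_lit 376)) (XT.lf (nat_lit 0) (nat_lit 3009488826) (nat_lit 608) (nat_lit 1667177097) (nat_lit 76) (nat_lit 3938645541) (nat_lit 247) (nat_lit 5) (nat_lit 255) (nat_lit 5) (nat_lit 248) (nat_lit 4) (nat_lit 445) (nat_lit 380) (nat_lit 375)))) (XT.nd (nat_lit 156) (nat_lit 1064) (nat_lit 0) (XT.nd (nat_lit 78) (nat_lit 456) (nat_lit 0) (XT.lf (nat_lit 0) (nat_lit 463409958) (nat_lit 608) (nat_lit 8047154093) (nat_lit 76) (nat_lit 208031433) (nat_lit 233) (nat_lit 5) (nat_lit 241) (nat_lit 5) (nat_lit 234) (nat_lit 4) (nat_lit 446) (nat_lit 380) (nat_lit 374)) (XT.lf (nat_lit 0) (nat_lit 3054461444) (nat_lit 456) (nat_lit 3572291201) (nat_lit 532) (nat_lit 2197723634) (nat_lit 227) (nat_lit 5) (nat_lit 233) (nat_lit 5) (nat_lit 234) (nat_lit 4) (nat_lit 447) (nat_lit 380)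 (nat_lit 373))) (XT.nd (nat_lit 78) (nat_lit 532) (nat_lit 0) (XT.lf (nat_lit 0) (nat_lit 3946100582) (nat_lit 532) (nat_lit 3441272556) (nat_lit 76) (nat_lit 1546485778) (nat_lit 220) (nat_lit 5) (nat_lit 227) (nat_lit 5) (nat_lit 221) (nat_lit 4) (nat_lit 448) (nat_lit 380) (nat_lit 372)) (XT.lf (nat_lit 0) (nat_lit 1156770328) (nat_lit 532) (nat_lit 1070612891) (nat_lit 76) (nat_lit 6819209904) (nat_lit 213) (nat_lit 5) (nat_lit 220) (nat_lit 5) (nat_lit 214) (nat_lit 5) (nat_lit 449) (nat_lit 380) (nat_lit 371)))))) (XT.nd (nat_lit 546) (nat_lit 3572) (nat_lit 0) (XT.nd (nat_lit 234) (nat_lit 2052) (nat_lit 0) (XT.nd (nat_lit 78) (nat_lit 988) (nat_lit 0) (XT.lf (nat_lit 0) (nat_lit 1352475184) (nat_lit 380) (nat_lit 6047865200) (nat_lit 456) (nat_lit 1762063039) (nat_lit 202) (nat_lit 5) (nat_lit 207) (nat_lit 5) (nat_lit 208) (nat_lit 4) (nat_lit 450) (nat_lit 380) (nat_lit 370)) (XT.nd (nat_lit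 78) (nat_lit 456) (nat_lit 0) (XT.lf (nat_lit 0) (nat_lit 3834455782) (nat_lit 456) (nat_lit 632778726) (nat_lit 532) (nat_lit 4814317998) (nat_lit 195) (nat_lit 5) (nat_lit 201) (nat_lit 5) (nat_lit 202) (nat_lit 5) (nat_lit 451) (nat_lit 380) (nat_lit 369)) (XT.lf (nat_lit 0) (nat_lit 1426454169) (nat_lit 456) (nat_lit 3051833338) (nat_lit 76) (nat_lit 4925766912) (nat_lit 189) (nat_lit 5) (nat_lit 195) (nat_lit 5) (nat_lit 190) (nat_lit 5) (nat_lit 452) (nat_lit 380) (nat_lit 368)))) (XT.nd (nat_lit 156) (nat_lit 836) (nat_lit 0) (XT.nd (nat_lit 78) (nat_lit 836) (nat_lit 0) (XT.lf (nat_lit 0) (nat_lit 7761446334) (nat_lit 456) (nat_lit 614610214) (nat_lit 76) (nat_lit 1154092796) (nat_lit 184) (nat_lit 5) (nat_lit 190) (nat_lit 5) (nat_lit 185) (nat_lit 4) (nat_lit 453) (nat_lit 380) (nat_lit 367)) (XT.lf (nat_lit 0) (nat_lit 1873275955) (nat_lit 380) (nat_lit 2697555581) (nat_lit 456) (nat_lit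 5088496253) (nat_lit 173) (nat_lit 5) (nat_lit 178) (nat_lit 5) (nat_lit 179) (nat_lit 5) (nat_lit 454) (nat_lit 380) (nat_lit 366))) (XT.nd (nat_lit 78) (nat_lit 380) (nat_lit 0) (XT.lf (nat_lit 0) (nat_lit 1257353856) (nat_lit 456) (nat_lit 5376753284) (nat_lit 76) (nat_lit 3158079629) (nat_lit 167) (nat_lit 5) (nat_lit 173) (nat_lit 5) (nat_lit 168) (nat_lit 5) (nat_lit 455) (nat_lit 380) (nat_lit 365)) (XT.lf (nat_lit 0) (nat_lit 6992761574) (nat_lit 380) (nat_lit 717394064) (nat_lit 456) (nat_lit 2218491200) (nat_lit 162) (nat_lit 5) (nat_lit 167) (nat_lit 5) (nat_lit 168) (nat_lit 5) (nat_lit 456) (nat_lit 380) (nat_lit 364))))) (XT.nd (nat_lit 312) (nat_lit 1672) (nat_lit 0) (XT.nd (nat_lit 156) (nat_lit 760) (nat_lit 0) (XT.nd (nat_lit 78) (nat_lit 760) (nat_lit 0) (XT.lf (nat_lit 0) (nat_lit 4235967548) (nat_lit 380) (nat_lit 474237016) (nat_lit 76) (nat_lit 5358344393) (nat_lit 157) (nat_lit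 5) (nat_lit 162) (nat_lit 5) (nat_lit 158) (nat_lit 5) (nat_lit 457) (nat_lit 380) (nat_lit 363)) (XT.lf (nat_lit 0) (nat_lit 632876561) (nat_lit 380) (nat_lit 8147221580) (nat_lit 76) (nat_lit 1432180872) (nat_lit 147) (nat_lit 5) (nat_lit 152) (nat_lit 5) (nat_lit 148) (nat_lit 5) (nat_lit 458) (nat_lit 380) (nat_lit 362))) (XT.nd (nat_lit 78) (nat_lit 380) (nat_lit 0) (XT.lf (nat_lit 0) (nat_lit 4624658644) (nat_lit 380) (nat_lit 2597679180) (nat_lit 456) (nat_lit 3137028383) (nat_lit 142) (nat_lit 5) (nat_lit 147) (nat_lit 5) (nat_lit 148) (nat_lit 5) (nat_lit 459) (nat_lit 380) (nat_lit 361)) (XT.lf (nat_lit 0) (nat_lit 3453797973) (nat_lit 380) (nat_lit 3288799238) (nat_lit 76) (nat_lit 3767795018) (nat_lit 137) (nat_lit 5) (nat_lit 142) (nat_lit 5) (nat_lit 138) (nat_lit 5) (nat_lit 460) (nat_lit 380) (nat_lit 360)))) (XT.nd (nat_lit 156) (nat_lit 684) (nat_lit 0) (XT.nd (nat_lit 78) (nat_lit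 684) (nat_lit 0) (XT.lf (nat_lit 0) (nat_lit 9865532116) (nat_lit 304) (nat_lit 330482164) (nat_lit 380) (nat_lit 469596123) (nat_lit 133) (nat_lit 5) (nat_lit 137) (nat_lit 5) (nat_lit 138) (nat_lit 5) (nat_lit 461) (nat_lit 380) (nat_lit 359)) (XT.lf (nat_lit 0) (nat_lit 1710729416) (nat_lit 304) (nat_lit 4554689504) (nat_lit 380) (nat_lit 4558583288) (nat_lit 124) (nat_lit 5) (nat_lit 128) (nat_lit 5) (nat_lit 129) (nat_lit 5) (nat_lit 462) (nat_lit 380) (nat_lit 358))) (XT.nd (nat_lit 78) (nat_lit 304) (nat_lit 0) (XT.lf (nat_lit 0) (nat_lit 2184356175) (nat_lit 380) (nat_lit 6705992983) (nat_lit 76) (nat_lit 2096363155) (nat_lit 119) (nat_lit 5) (nat_lit 124) (nat_lit 5) (nat_lit 120) (nat_lit 5) (nat_lit 463) (nat_lit 380) (nat_lit 357)) (XT.lf (nat_lit 0) (nat_lit 6872048203) (nat_lit 304) (nat_lit 2211567371) (nat_lit 380) (nat_lit 2069767776) (nat_lit 115) (nat_lit 5) (nat_lit 119) (nat_lit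 5) (nat_lit 120) (nat_lit 5) (nat_lit 464) (nat_lit 380) (nat_lit 356))))))))
noncomputable def xc11 : XT := (XT.nd (nat_lit 60684) (nat_lit 0) (nat_lit 4408) (XT.nd (nat_lit 1092) (nat_lit 2204) (nat_lit 0) (XT.nd (nat_lit 546) (nat_lit 1900) (nat_lit 0) (XT.nd (nat_lit 234) (nat_lit 1368) (nat_lit 0) (XT.nd (nat_lit 78) (nat_lit 912) (nat_lit 0) (XT.lf (nat_lit 0) (nat_lit 4819014713) (nat_lit 304) (nat_lit 1840592635) (nat_lit 76) (nat_lit 4664456571) (nat_lit 111) (nat_lit 5) (nat_lit 115) (nat_lit 5) (nat_lit 112) (nat_lit 5) (nat_lit 465) (nat_lit 380) (nat_lit 355)) (XT.nd (nat_lit 78) (nat_lit 304) (nat_lit 0) (XT.lf (nat_lit 0) (nat_lit 392205962) (nat_lit 304) (nat_lit 10845212177) (nat_lit 76) (nat_lit 261913768) (nat_lit 103) (nat_lit 5) (nat_lit 107) (nat_lit 5) (nat_lit 104) (nat_lit 5) (nat_lit 466) (nat_lit 380) (nat_lit 354)) (XT.lf (nat_lit 0) (nat_lit 3163813390) (nat_lit 304) (nat_lit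 4293385300) (nat_lit 380) (nat_lit 4220816700) (nat_lit 99) (nat_lit 5) (nat_lit 103) (nat_lit 5) (nat_lit 104) (nat_lit 5) (nat_lit 467) (nat_lit 380) (nat_lit 353)))) (XT.nd (nat_lit 156) (nat_lit 836) (nat_lit 0) (XT.nd (nat_lit 78) (nat_lit 228) (nat_lit 0) (XT.lf (nat_lit 0) (nat_lit 2846888029) (nat_lit 304) (nat_lit 6146393939) (nat_lit 76) (nat_lit 2868156294) (nat_lit 95) (nat_lit 5) (nat_lit 99) (nat_lit 5) (nat_lit 96) (nat_lit 5) (nat_lit 468) (nat_lit 380) (nat_lit 352)) (XT.lf (nat_lit 0) (nat_lit 8288660709) (nat_lit 228) (nat_lit 1805531493) (nat_lit 304) (nat_lit 1955116650) (nat_lit 92) (nat_lit 5) (nat_lit 95) (nat_lit 5) (nat_lit 96) (nat_lit 5) (nat_lit 469) (nat_lit 380) (nat_lit 351))) (XT.nd (nat_lit 78) (nat_lit 532) (nat_lit 0) (XT.lf (nat_lit 0) (nat_lit 5281213313) (nat_lit 304) (nat_lit 1371241262) (nat_lit 76) (nat_lit 5588975189) (nat_lit 88) (nat_lit 5) (nat_lit 92) (nat_lit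 5) (nat_lit 89) (nat_lit 5) (nat_lit 470) (nat_lit 380) (nat_lit 350)) (XT.lf (nat_lit 0) (nat_lit 290155329) (nat_lit 304) (nat_lit 11363785388) (nat_lit 76) (nat_lit 784587975) (nat_lit 81) (nat_lit 5) (nat_lit 85) (nat_lit 5) (nat_lit 82) (nat_lit 5) (nat_lit 471) (nat_lit 380) (nat_lit 349))))) (XT.nd (nat_lit 234) (nat_lit 1140) (nat_lit 0) (XT.nd (nat_lit 78) (nat_lit 532) (nat_lit 0) (XT.lf (nat_lit 0) (nat_lit 3522690176) (nat_lit 228) (nat_lit 4197369406) (nat_lit 304) (nat_lit 4919430321) (nat_lit 78) (nat_lit 5) (nat_lit 81) (nat_lit 5) (nat_lit 82) (nat_lit 5) (nat_lit 472) (nat_lit 380) (nat_lit 348)) (XT.nd (nat_lit 78) (nat_lit 228) (nat_lit 0) (XT.lf (nat_lit 0) (nat_lit 2520424284) (nat_lit 304) (nat_lit 6839259834) (nat_lit 76) (nat_lit 3485925299) (nat_lit 74) (nat_lit 5) (nat_lit 78) (nat_lit 5) (nat_lit 75) (nat_lit 5) (nat_lit 473) (nat_lit 380) (nat_lit 347)) (XT.lf (nat_lit 0)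 (nat_lit 8504239086) (nat_lit 228) (nat_lit 1647284488) (nat_lit 304) (nat_lit 2905041935) (nat_lit 71) (nat_lit 5) (nat_lit 74) (nat_lit 5) (nat_lit 75) (nat_lit 5) (nat_lit 474) (nat_lit 380) (nat_lit 346)))) (XT.nd (nat_lit 156) (nat_lit 532) (nat_lit 0) (XT.nd (nat_lit 78) (nat_lit 380) (nat_lit 0) (XT.lf (nat_lit 0) (nat_lit 4725539345) (nat_lit 228) (nat_lit 2267307472) (nat_lit 76) (nat_lit 6279389856) (nat_lit 68) (nat_lit 5) (nat_lit 71) (nat_lit 5) (nat_lit 69) (nat_lit 5) (nat_lit 475) (nat_lit 380) (nat_lit 345)) (XT.lf (nat_lit 0) (nat_lit 51337747) (nat_lit 152) (nat_lit 12522900449) (nat_lit 228) (nat_lit 919183325) (nat_lit 63) (nat_lit 5) (nat_lit 65) (nat_lit 5) (nat_lit 66) (nat_lit 4) (nat_lit 476) (nat_lit 380) (nat_lit 344))) (XT.nd (nat_lit 78) (nat_lit 228) (nat_lit 0) (XT.lf (nat_lit 0) (nat_lit 2377703081) (nat_lit 228) (nat_lit 4543510790) (nat_lit 304) (nat_lit 6797627346)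 (nat_lit 59) (nat_lit 5) (nat_lit 62) (nat_lit 5) (nat_lit 63) (nat_lit 5) (nat_lit 477) (nat_lit 380) (nat_lit 343)) (XT.lf (nat_lit 0) (nat_lit 1058983381) (nat_lit 228) (nat_lit 9213369720) (nat_lit 76) (nat_lit 3677633480) (nat_lit 56) (nat_lit 5) (nat_lit 59) (nat_lit 5) (nat_lit 57) (nat_lit 5) (nat_lit 478) (nat_lit 380) (nat_lit 342)))))) (XT.nd (nat_lit 546) (nat_lit 684) (nat_lit 0) (XT.nd (nat_lit 234) (nat_lit 912) (nat_lit 0) (XT.nd (nat_lit 78) (nat_lit 380) (nat_lit 0) (XT.lf (nat_lit 0) (nat_lit 7089022908) (nat_lit 228) (nat_lit 2017826482) (nat_lit 304) (nat_lit 5079360913) (nat_lit 53) (nat_lit 5) (nat_lit 56) (nat_lit 5) (nat_lit 57) (nat_lit 5) (nat_lit 479) (nat_lit 380) (nat_lit 341)) (XT.nd (nat_lit 78) (nat_lit 152) (nat_lit 0) (XT.lf (nat_lit 0) (nat_lit 2989475330) (nat_lit 228) (nat_lit 4979383766) (nat_lit 76) (nat_lit 6459042165) (nat_lit 50) (nat_lit 5) (nat_lit 53) (nat_lit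 5) (nat_lit 51) (nat_lit 5) (nat_lit 480) (nat_lit 380) (nat_lit 340)) (XT.lf (nat_lit 0) (nat_lit 11270204590) (nat_lit 228) (nat_lit 2849593304) (nat_lit 76) (nat_lit 555597611) (nat_lit 48) (nat_lit 5) (nat_lit 51) (nat_lit 5) (nat_lit 49) (nat_lit 4) (nat_lit 481) (nat_lit 380) (nat_lit 339)))) (XT.nd (nat_lit 156) (nat_lit 380) (nat_lit 0) (XT.nd (nat_lit 78) (nat_lit 304) (nat_lit 0) (XT.lf (nat_lit 0) (nat_lit 4882607995) (nat_lit 228) (nat_lit 742385026) (nat_lit 76) (nat_lit 9303141534) (nat_lit 45) (nat_lit 5) (nat_lit 48) (nat_lit 5) (nat_lit 46) (nat_lit 5) (nat_lit 482) (nat_lit 380) (nat_lit 338)) (XT.lf (nat_lit 0) (nat_lit 1401541403) (nat_lit 152) (nat_lit 12026952425) (nat_lit 228) (nat_lit 1758398181) (nat_lit 41) (nat_lit 5) (nat_lit 43) (nat_lit 5) (nat_lit 44) (nat_lit 4) (nat_lit 483) (nat_lit 380) (nat_lit 337))) (XT.nd (nat_lit 78) (nat_lit 152) (nat_lit 0) (XT.lf (nat_lit 0)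 (nat_lit 3534792233) (nat_lit 152) (nat_lit 3224087965) (nat_lit 228) (nat_lit 8692244168) (nat_lit 38) (nat_lit 5) (nat_lit 40) (nat_lit 5) (nat_lit 41) (nat_lit 5) (nat_lit 484) (nat_lit 380) (nat_lit 336)) (XT.lf (nat_lit 0) (nat_lit 5678936833) (nat_lit 152) (nat_lit 9896843379) (nat_lit 228) (nat_lit 145911828) (nat_lit 36) (nat_lit 5) (nat_lit 38) (nat_lit 5) (nat_lit 39) (nat_lit 4) (nat_lit 485) (nat_lit 380) (nat_lit 335))))) (XT.nd (nat_lit 58734) (nat_lit 0) (nat_lit 19760) (XT.nd (nat_lit 156) (nat_lit 304) (nat_lit 0) (XT.nd (nat_lit 78) (nat_lit 152) (nat_lit 0) (XT.lf (nat_lit 0) (nat_lit 7805135681) (nat_lit 152) (nat_lit 791765609) (nat_lit 228) (nat_lit 7401279444) (nat_lit 33) (nat_lit 5) (nat_lit 35) (nat_lit 5) (nat_lit 36) (nat_lit 5) (nat_lit 486) (nat_lit 380) (nat_lit 334)) (XT.lf (nat_lit 0) (nat_lit 1390438678) (nat_lit 152) (nat_lit 6356612470) (nat_lit 76) (nat_lit 8533910415)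 (nat_lit 31) (nat_lit 5) (nat_lit 33) (nat_lit 5) (nat_lit 32) (nat_lit 5) (nat_lit 487) (nat_lit 380) (nat_lit 333))) (XT.nd (nat_lit 78) (nat_lit 152) (nat_lit 0) (XT.lf (nat_lit 0) (nat_lit 10398443319) (nat_lit 228) (nat_lit 4534108114) (nat_lit 76) (nat_lit 1637634736) (nat_lit 29) (nat_lit 5) (nat_lit 32) (nat_lit 5) (nat_lit 30) (nat_lit 4) (nat_lit 488) (nat_lit 380) (nat_lit 332)) (XT.lf (nat_lit 0) (nat_lit 2862910124) (nat_lit 152) (nat_lit 2731745283) (nat_lit 76) (nat_lit 11271245059) (nat_lit 27) (nat_lit 5) (nat_lit 29) (nat_lit 5) (nat_lit 28) (nat_lit 5) (nat_lit 489) (nat_lit 380) (nat_lit 331)))) (XT.nd (nat_lit 156) (nat_lit 1292) (nat_lit 0) (XT.nd (nat_lit 78) (nat_lit 1368) (nat_lit 0) (XT.lf (nat_lit 0) (nat_lit 1879549265) (nat_lit 760) (nat_lit 230436101) (nat_lit 0) (nat_lit 1879549265) (nat_lit 322) (nat_lit 5) (nat_lit 332) (nat_lit 4) (nat_lit 322) (nat_lit 4) (nat_lit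 438) (nat_lit 381) (nat_lit 381)) (XT.lf (nat_lit 0) (nat_lit 1577472067) (nat_lit 608) (nat_lit 109830735) (nat_lit 684) (nat_lit 6374968669) (nat_lit 304) (nat_lit 5) (nat_lit 312) (nat_lit 5) (nat_lit 313) (nat_lit 4) (nat_lit 439) (nat_lit 381) (nat_lit 380))) (XT.nd (nat_lit 78) (nat_lit 684) (nat_lit 0) (XT.lf (nat_lit 0) (nat_lit 3660456661) (nat_lit 608) (nat_lit 4012731970) (nat_lit 608) (nat_lit 475052952) (nat_lit 296) (nat_lit 4) (nat_lit 304) (nat_lit 5) (nat_lit 304) (nat_lit 4) (nat_lit 440) (nat_lit 381) (nat_lit 379)) (XT.lf (nat_lit 0) (nat_lit 5462470745) (nat_lit 684) (nat_lit 2439522598) (nat_lit 0) (nat_lit 335392491) (nat_lit 287) (nat_lit 5) (nat_lit 296) (nat_lit 4) (nat_lit 287) (nat_lit 4) (nat_lit 441) (nat_lit 381) (nat_lit 378))))))) (XT.nd (nat_lit 1170) (nat_lit 5852) (nat_lit 0) (XT.nd (nat_lit 546) (nat_lit 4408) (nat_lit 0) (XT.nd (nat_lit 234) (nat_lit 2660) (nat_lit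 0) (XT.nd (nat_lit 78) (nat_lit 1748) (nat_lit 0) (XT.lf (nat_lit 0) (nat_lit 3161178211) (nat_lit 684) (nat_lit 351950199) (nat_lit 76) (nat_lit 4816372405) (nat_lit 278) (nat_lit 5) (nat_lit 287) (nat_lit 5) (nat_lit 279) (nat_lit 4) (nat_lit 442) (nat_lit 381) (nat_lit 377)) (XT.nd (nat_lit 78) (nat_lit 532) (nat_lit 0) (XT.lf (nat_lit 0) (nat_lit 758763479) (nat_lit 684) (nat_lit 6605607332) (nat_lit 76) (nat_lit 1060423751) (nat_lit 262) (nat_lit 5) (nat_lit 271) (nat_lit 5) (nat_lit 263) (nat_lit 4) (nat_lit 443) (nat_lit 381) (nat_lit 376)) (XT.lf (nat_lit 0) (nat_lit 4027847535) (nat_lit 532) (nat_lit 2731755279) (nat_lit 608) (nat_lit 1763341461) (nat_lit 255) (nat_lit 5) (nat_lit 262) (nat_lit 5) (nat_lit 263) (nat_lit 4) (nat_lit 444) (nat_lit 381) (nat_lit 375)))) (XT.nd (nat_lit 156) (nat_lit 1520) (nat_lit 0) (XT.nd (nat_lit 78) (nat_lit 532) (nat_lit 0) (XT.lf (nat_lit 0) (nat_lit 4215836973)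 (nat_lit 608) (nat_lit 2338366106) (nat_lit 76) (nat_lit 2070157915) (nat_lit 247) (nat_lit 5) (nat_lit 255) (nat_lit 5) (nat_lit 248) (nat_lit 4) (nat_lit 445) (nat_lit 381) (nat_lit 374)) (XT.lf (nat_lit 0) (nat_lit 1564224192) (nat_lit 532) (nat_lit 134328274) (nat_lit 76) (nat_lit 7030554299) (nat_lit 240) (nat_lit 5) (nat_lit 247) (nat_lit 5) (nat_lit 241) (nat_lit 5) (nat_lit 446) (nat_lit 381) (nat_lit 373))) (XT.nd (nat_lit 78) (nat_lit 532) (nat_lit 0) (XT.lf (nat_lit 0) (nat_lit 2134452358) (nat_lit 456) (nat_lit 5505834802) (nat_lit 532) (nat_lit 1196447539) (nat_lit 227) (nat_lit 5) (nat_lit 233) (nat_lit 5) (nat_lit 234) (nat_lit 4) (nat_lit 447) (nat_lit 381) (nat_lit 372)) (XT.lf (nat_lit 0) (nat_lit 4450221069) (nat_lit 456) (nat_lit 398550350) (nat_lit 532) (nat_lit 4098926836) (nat_lit 220) (nat_lit 5) (nat_lit 226) (nat_lit 5) (nat_lit 227) (nat_lit 5) (nat_lit 448) (nat_lit 381)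 (nat_lit 371))))) (XT.nd (nat_lit 312) (nat_lit 2052) (nat_lit 0) (XT.nd (nat_lit 156) (nat_lit 988) (nat_lit 0) (XT.nd (nat_lit 78) (nat_lit 836) (nat_lit 0) (XT.lf (nat_lit 0) (nat_lit 1955941136) (nat_lit 532) (nat_lit 2259886946) (nat_lit 76) (nat_lit 4846050431) (nat_lit 213) (nat_lit 5) (nat_lit 220) (nat_lit 5) (nat_lit 214) (nat_lit 5) (nat_lit 449) (nat_lit 381) (nat_lit 370)) (XT.lf (nat_lit 0) (nat_lit 26129796) (nat_lit 380) (nat_lit 8076688882) (nat_lit 456) (nat_lit 1076805343) (nat_lit 202) (nat_lit 5) (nat_lit 207) (nat_lit 5) (nat_lit 208) (nat_lit 4) (nat_lit 450) (nat_lit 381) (nat_lit 369))) (XT.nd (nat_lit 78) (nat_lit 456) (nat_lit 0) (XT.lf (nat_lit 0) (nat_lit 2366558386) (nat_lit 456) (nat_lit 2700995416) (nat_lit 532) (nat_lit 4232650636) (nat_lit 195) (nat_lit 5) (nat_lit 201) (nat_lit 5) (nat_lit 202) (nat_lit 5) (nat_lit 451) (nat_lit 381) (nat_lit 368)) (XT.lf (nat_lit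 0) (nat_lit 1910774479) (nat_lit 456) (nat_lit 4669565356) (nat_lit 76) (nat_lit 2844086583) (nat_lit 189) (nat_lit 5) (nat_lit 195) (nat_lit 5) (nat_lit 190) (nat_lit 5) (nat_lit 452) (nat_lit 381) (nat_lit 367)))) (XT.nd (nat_lit 156) (nat_lit 1216) (nat_lit 0) (XT.nd (nat_lit 78) (nat_lit 456) (nat_lit 0) (XT.lf (nat_lit 0) (nat_lit 7183416375) (nat_lit 380) (nat_lit 978951036) (nat_lit 456) (nat_lit 1389823112) (nat_lit 184) (nat_lit 5) (nat_lit 189) (nat_lit 5) (nat_lit 190) (nat_lit 5) (nat_lit 453) (nat_lit 381) (nat_lit 366)) (XT.lf (nat_lit 0) (nat_lit 4850042082) (nat_lit 456) (nat_lit 47987435) (nat_lit 76) (nat_lit 4785185395) (nat_lit 178) (nat_lit 5) (nat_lit 184) (nat_lit 5) (nat_lit 179) (nat_lit 5) (nat_lit 454) (nat_lit 381) (nat_lit 365))) (XT.nd (nat_lit 78) (nat_lit 380) (nat_lit 0) (XT.lf (nat_lit 0) (nat_lit 1417187143) (nat_lit 456) (nat_lit 7462347738) (nat_lit 76) (nat_lit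 938349769) (nat_lit 167) (nat_lit 5) (nat_lit 173) (nat_lit 5) (nat_lit 168) (nat_lit 5) (nat_lit 455) (nat_lit 381) (nat_lit 364)) (XT.lf (nat_lit 0) (nat_lit 4778603753) (nat_lit 380) (nat_lit 3014243719) (nat_lit 456) (nat_lit 2163041128) (nat_lit 162) (nat_lit 5) (nat_lit 167) (nat_lit 5) (nat_lit 168) (nat_lit 5) (nat_lit 456) (nat_lit 381) (nat_lit 363)))))) (XT.nd (nat_lit 546) (nat_lit 2584) (nat_lit 0) (XT.nd (nat_lit 234) (nat_lit 1748) (nat_lit 0) (XT.nd (nat_lit 78) (nat_lit 1140) (nat_lit 0) (XT.lf (nat_lit 0) (nat_lit 4198059498) (nat_lit 380) (nat_lit 2859367165) (nat_lit 76) (nat_lit 3040210474) (nat_lit 157) (nat_lit 5) (nat_lit 162) (nat_lit 5) (nat_lit 158) (nat_lit 5) (nat_lit 457) (nat_lit 381) (nat_lit 362)) (XT.nd (nat_lit 78) (nat_lit 684) (nat_lit 0) (XT.lf (nat_lit 0) (nat_lit 465972883) (nat_lit 456) (nat_lit 498475750) (nat_lit 76) (nat_lit 9278943934) (nat_lit 151) (nat_lit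 5) (nat_lit 157) (nat_lit 5) (nat_lit 152) (nat_lit 5) (nat_lit 458) (nat_lit 381) (nat_lit 361)) (XT.lf (nat_lit 0) (nat_lit 1894202640) (nat_lit 380) (nat_lit 5072766083) (nat_lit 456) (nat_lit 3425281271) (nat_lit 142) (nat_lit 5) (nat_lit 147) (nat_lit 5) (nat_lit 148) (nat_lit 5) (nat_lit 459) (nat_lit 381) (nat_lit 360)))) (XT.nd (nat_lit 156) (nat_lit 1064) (nat_lit 0) (XT.nd (nat_lit 78) (nat_lit 304) (nat_lit 0) (XT.lf (nat_lit 0) (nat_lit 3073624951) (nat_lit 380) (nat_lit 6205110252) (nat_lit 76) (nat_lit 1266493138) (nat_lit 137) (nat_lit 5) (nat_lit 142) (nat_lit 5) (nat_lit 138) (nat_lit 5) (nat_lit 460) (nat_lit 381) (nat_lit 359)) (XT.lf (nat_lit 0) (nat_lit 6811042143) (nat_lit 304) (nat_lit 2925423210) (nat_lit 380) (nat_lit 965569533) (nat_lit 133) (nat_lit 5) (nat_lit 137) (nat_lit 5) (nat_lit 138) (nat_lit 5) (nat_lit 461) (nat_lit 381) (nat_lit 358))) (XT.nd (nat_lit 78) (nat_lit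 684) (nat_lit 0) (XT.lf (nat_lit 0) (nat_lit 5667806719) (nat_lit 380) (nat_lit 1559865094) (nat_lit 76) (nat_lit 3634982966) (nat_lit 128) (nat_lit 5) (nat_lit 133) (nat_lit 5) (nat_lit 129) (nat_lit 5) (nat_lit 462) (nat_lit 381) (nat_lit 357)) (XT.lf (nat_lit 0) (nat_lit 824582913) (nat_lit 304) (nat_lit 626196217) (nat_lit 380) (nat_lit 9576782291) (nat_lit 119) (nat_lit 5) (nat_lit 123) (nat_lit 5) (nat_lit 124) (nat_lit 5) (nat_lit 463) (nat_lit 381) (nat_lit 356))))) (XT.nd (nat_lit 312) (nat_lit 1368) (nat_lit 0) (XT.nd (nat_lit 156) (nat_lit 608) (nat_lit 0) (XT.nd (nat_lit 78) (nat_lit 304) (nat_lit 0) (XT.lf (nat_lit 0) (nat_lit 3233394914) (nat_lit 304) (nat_lit 5030782969) (nat_lit 380) (nat_lit 2931772537) (nat_lit 115) (nat_lit 5) (nat_lit 119) (nat_lit 5) (nat_lit 120) (nat_lit 5) (nat_lit 464) (nat_lit 381) (nat_lit 355)) (XT.lf (nat_lit 0) (nat_lit 3867249683) (nat_lit 304) (nat_lit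 5689103593) (nat_lit 76) (nat_lit 1812411675) (nat_lit 111) (nat_lit 5) (nat_lit 115) (nat_lit 5) (nat_lit 112) (nat_lit 5) (nat_lit 465) (nat_lit 381) (nat_lit 354))) (XT.nd (nat_lit 78) (nat_lit 304) (nat_lit 0) (XT.lf (nat_lit 0) (nat_lit 8151896345) (nat_lit 304) (nat_lit 2704562245) (nat_lit 380) (nat_lit 689398212) (nat_lit 107) (nat_lit 5) (nat_lit 111) (nat_lit 5) (nat_lit 112) (nat_lit 5) (nat_lit 466) (nat_lit 381) (nat_lit 353)) (XT.lf (nat_lit 0) (nat_lit 6267150662) (nat_lit 304) (nat_lit 1093460000) (nat_lit 76) (nat_lit 4366369513) (nat_lit 103) (nat_lit 5) (nat_lit 107) (nat_lit 5) (nat_lit 104) (nat_lit 5) (nat_lit 467) (nat_lit 381) (nat_lit 352)))) (XT.nd (nat_lit 156) (nat_lit 532) (nat_lit 0) (XT.nd (nat_lit 78) (nat_lit 228) (nat_lit 0) (XT.lf (nat_lit 0) (nat_lit 1265897135) (nat_lit 228) (nat_lit 246859889) (nat_lit 304) (nat_lit 10400034904) (nat_lit 95) (nat_lit 5) (nat_lit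 98) (nat_lit 5) (nat_lit 99) (nat_lit 5) (nat_lit 468) (nat_lit 381) (nat_lit 351)) (XT.lf (nat_lit 0) (nat_lit 3632455726) (nat_lit 228) (nat_lit 5040284180) (nat_lit 304) (nat_lit 3429669650) (nat_lit 92) (nat_lit 5) (nat_lit 95) (nat_lit 5) (nat_lit 96) (nat_lit 5) (nat_lit 469) (nat_lit 381) (nat_lit 350))) (XT.nd (nat_lit 78) (nat_lit 228) (nat_lit 0) (XT.lf (nat_lit 0) (nat_lit 3718067197) (nat_lit 304) (nat_lit 6263588912) (nat_lit 76) (nat_lit 2315225060) (nat_lit 88) (nat_lit 5) (nat_lit 92) (nat_lit 5) (nat_lit 89) (nat_lit 5) (nat_lit 470) (nat_lit 381) (nat_lit 349)) (XT.lf (nat_lit 0) (nat_lit 8453180583) (nat_lit 228) (nat_lit 2617229369) (nat_lit 304) (nat_lit 1425589329) (nat_lit 85) (nat_lit 5) (nat_lit 88) (nat_lit 5) (nat_lit 89) (nat_lit 5) (nat_lit 471) (nat_lit 381) (nat_lit 348))))))))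
noncomputable def xc12 : XT := (XT.nd (nat_lit 60528) (nat_lit 0) (nat_lit 2812) (XT.nd (nat_lit 1092) (nat_lit 760) (nat_lit 0) (XT.nd (nat_lit 546) (nat_lit 1596) (nat_lit 0) (XT.nd (nat_lit 234) (nat_lit 912) (nat_lit 0) (XT.nd (nat_lit 78) (nat_lit 760) (nat_lit 0) (XT.lf (nat_lit 0) (nat_lit 5901990237) (nat_lit 304) (nat_lit 1822294944) (nat_lit 76) (nat_lit 4975281397) (nat_lit 81) (nat_lit 5) (nat_lit 85) (nat_lit 5) (nat_lit 82) (nat_lit 5) (nat_lit 472) (nat_lit 381) (nat_lit 347)) (XT.nd (nat_lit 78) (nat_lit 228) (nat_lit 0) (XT.lf (nat_lit 0) (nat_lit 444164153) (nat_lit 228) (nat_lit 97712765) (nat_lit 304) (nat_lit 12366554239) (nat_lit 74) (nat_lit 5) (nat_lit 77) (nat_lit 5) (nat_lit 78) (nat_lit 5) (nat_lit 473) (nat_lit 381) (nat_lit 346)) (XT.lf (nat_lit 0) (nat_lit 2709541488) (nat_lit 228) (nat_lit 5372105194) (nat_lit 304) (nat_lit 5039567655) (nat_lit 71) (nat_lit 5) (nat_lit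 74) (nat_lit 5) (nat_lit 75) (nat_lit 5) (nat_lit 474) (nat_lit 381) (nat_lit 345)))) (XT.nd (nat_lit 156) (nat_lit 456) (nat_lit 0) (XT.nd (nat_lit 78) (nat_lit 228) (nat_lit 0) (XT.lf (nat_lit 0) (nat_lit 2502660704) (nat_lit 228) (nat_lit 8327171463) (nat_lit 76) (nat_lit 2509657935) (nat_lit 68) (nat_lit 5) (nat_lit 71) (nat_lit 5) (nat_lit 69) (nat_lit 5) (nat_lit 475) (nat_lit 381) (nat_lit 344)) (XT.lf (nat_lit 0) (nat_lit 7316228349) (nat_lit 228) (nat_lit 2936131566) (nat_lit 304) (nat_lit 3310295485) (nat_lit 65) (nat_lit 5) (nat_lit 68) (nat_lit 5) (nat_lit 69) (nat_lit 5) (nat_lit 476) (nat_lit 381) (nat_lit 343))) (XT.nd (nat_lit 78) (nat_lit 228) (nat_lit 0) (XT.lf (nat_lit 0) (nat_lit 4433493836) (nat_lit 228) (nat_lit 4163365854) (nat_lit 76) (nat_lit 5194085693) (nat_lit 62) (nat_lit 5) (nat_lit 65) (nat_lit 5) (nat_lit 63) (nat_lit 5) (nat_lit 477) (nat_lit 381) (nat_lit 342)) (XT.lf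 (nat_lit 0) (nat_lit 11967888718) (nat_lit 228) (nat_lit 434255305) (nat_lit 304) (nat_lit 1622752858) (nat_lit 59) (nat_lit 5) (nat_lit 62) (nat_lit 5) (nat_lit 63) (nat_lit 5) (nat_lit 478) (nat_lit 381) (nat_lit 341))))) (XT.nd (nat_lit 234) (nat_lit 760) (nat_lit 0) (XT.nd (nat_lit 78) (nat_lit 380) (nat_lit 0) (XT.lf (nat_lit 0) (nat_lit 21320169) (nat_lit 228) (nat_lit 6311864189) (nat_lit 304) (nat_lit 7930411598) (nat_lit 53) (nat_lit 5) (nat_lit 56) (nat_lit 5) (nat_lit 57) (nat_lit 5) (nat_lit 479) (nat_lit 381) (nat_lit 340)) (XT.nd (nat_lit 78) (nat_lit 152) (nat_lit 0) (XT.lf (nat_lit 0) (nat_lit 49425070) (nat_lit 228) (nat_lit 12344496370) (nat_lit 76) (nat_lit 2114263909) (nat_lit 50) (nat_lit 5) (nat_lit 53) (nat_lit 5) (nat_lit 51) (nat_lit 5) (nat_lit 480) (nat_lit 381) (nat_lit 339)) (XT.lf (nat_lit 0) (nat_lit 4274609619) (nat_lit 152) (nat_lit 3953135566) (nat_lit 228) (nat_lit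 6529982964) (nat_lit 48) (nat_lit 5) (nat_lit 50) (nat_lit 5) (nat_lit 51) (nat_lit 5) (nat_lit 481) (nat_lit 381) (nat_lit 338)))) (XT.nd (nat_lit 156) (nat_lit 380) (nat_lit 0) (XT.nd (nat_lit 78) (nat_lit 152) (nat_lit 0) (XT.lf (nat_lit 0) (nat_lit 1672560718) (nat_lit 228) (nat_lit 8606233250) (nat_lit 76) (nat_lit 4734604100) (nat_lit 45) (nat_lit 5) (nat_lit 48) (nat_lit 5) (nat_lit 46) (nat_lit 5) (nat_lit 482) (nat_lit 381) (nat_lit 337)) (XT.lf (nat_lit 0) (nat_lit 8532685303) (nat_lit 152) (nat_lit 1555048846) (nat_lit 228) (nat_lit 5187035966) (nat_lit 43) (nat_lit 5) (nat_lit 45) (nat_lit 5) (nat_lit 46) (nat_lit 5) (nat_lit 483) (nat_lit 381) (nat_lit 336))) (XT.nd (nat_lit 78) (nat_lit 152) (nat_lit 0) (XT.lf (nat_lit 0) (nat_lit 3248634156) (nat_lit 228) (nat_lit 4891132587) (nat_lit 76) (nat_lit 7402212785) (nat_lit 40) (nat_lit 5) (nat_lit 43) (nat_lit 5) (nat_lit 41) (nat_lit 5) (nat_lit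 484) (nat_lit 381) (nat_lit 335)) (XT.lf (nat_lit 0) (nat_lit 11916058939) (nat_lit 228) (nat_lit 3035297653) (nat_lit 76) (nat_lit 864180434) (nat_lit 38) (nat_lit 5) (nat_lit 41) (nat_lit 5) (nat_lit 39) (nat_lit 4) (nat_lit 485) (nat_lit 381) (nat_lit 334)))))) (XT.nd (nat_lit 58812) (nat_lit 0) (nat_lit 16112) (XT.nd (nat_lit 234) (nat_lit 76) (nat_lit 0) (XT.nd (nat_lit 78) (nat_lit 456) (nat_lit 0) (XT.lf (nat_lit 0) (nat_lit 4774010617) (nat_lit 228) (nat_lit 1210186429) (nat_lit 76) (nat_lit 10110687453) (nat_lit 35) (nat_lit 5) (nat_lit 38) (nat_lit 5) (nat_lit 36) (nat_lit 5) (nat_lit 486) (nat_lit 381) (nat_lit 333)) (XT.nd (nat_lit 78) (nat_lit 228) (nat_lit 0) (XT.lf (nat_lit 0) (nat_lit 629265493) (nat_lit 76) (nat_lit 13088555901) (nat_lit 152) (nat_lit 2663014168) (nat_lit 32) (nat_lit 5) (nat_lit 33) (nat_lit 5) (nat_lit 34) (nat_lit 4) (nat_lit 487) (nat_lit 381) (nat_lit 332)) (XT.lf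 (nat_lit 0) (nat_lit 2456540542) (nat_lit 152) (nat_lit 3803628366) (nat_lit 228) (nat_lit 10412632289) (nat_lit 29) (nat_lit 5) (nat_lit 31) (nat_lit 5) (nat_lit 32) (nat_lit 5) (nat_lit 488) (nat_lit 381) (nat_lit 331)))) (XT.nd (nat_lit 58422) (nat_lit 0) (nat_lit 22344) (XT.nd (nat_lit 58344) (nat_lit 0) (nat_lit 23788) (XT.lf (nat_lit 0) (nat_lit 4280094952) (nat_lit 76) (nat_lit 11213905475) (nat_lit 152) (nat_lit 1477591220) (nat_lit 28) (nat_lit 5) (nat_lit 29) (nat_lit 5) (nat_lit 30) (nat_lit 4) (nat_lit 489) (nat_lit 381) (nat_lit 330)) (XT.lf (nat_lit 0) (nat_lit 898741150) (nat_lit 760) (nat_lit 2112680125) (nat_lit 0) (nat_lit 898741150) (nat_lit 341) (nat_lit 5) (nat_lit 351) (nat_lit 4) (nat_lit 341) (nat_lit 4) (nat_lit 436) (nat_lit 382) (nat_lit 382))) (XT.nd (nat_lit 78) (nat_lit 760) (nat_lit 0) (XT.lf (nat_lit 0) (nat_lit 5486120940) (nat_lit 684) (nat_lit 2168208302) (nat_lit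 684) (nat_lit 244686200) (nat_lit 332) (nat_lit 4) (nat_lit 341) (nat_lit 5) (nat_lit 341) (nat_lit 4) (nat_lit 437) (nat_lit 382) (nat_lit 381)) (XT.lf (nat_lit 0) (nat_lit 5569282436) (nat_lit 760) (nat_lit 558704614) (nat_lit 0) (nat_lit 1852596859) (nat_lit 322) (nat_lit 5) (nat_lit 332) (nat_lit 4) (nat_lit 322) (nat_lit 4) (nat_lit 438) (nat_lit 382) (nat_lit 380))))) (XT.nd (nat_lit 312) (nat_lit 2888) (nat_lit 0) (XT.nd (nat_lit 156) (nat_lit 1292) (nat_lit 0) (XT.nd (nat_lit 78) (nat_lit 684) (nat_lit 0) (XT.lf (nat_lit 0) (nat_lit 1365049366) (nat_lit 608) (nat_lit 2030637736) (nat_lit 684) (nat_lit 4669397528) (nat_lit 304) (nat_lit 5) (nat_lit 312) (nat_lit 5) (nat_lit 313) (nat_lit 4) (nat_lit 439) (nat_lit 382) (nat_lit 379)) (XT.lf (nat_lit 0) (nat_lit 1126220429) (nat_lit 684) (nat_lit 4803483944) (nat_lit 76) (nat_lit 2222955765) (nat_lit 295) (nat_lit 5) (nat_lit 304) (nat_lit 5) (nat_lit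 296) (nat_lit 4) (nat_lit 440) (nat_lit 382) (nat_lit 378))) (XT.nd (nat_lit 78) (nat_lit 684) (nat_lit 0) (XT.lf (nat_lit 0) (nat_lit 5379451806) (nat_lit 608) (nat_lit 1601024426) (nat_lit 684) (nat_lit 1262809159) (nat_lit 287) (nat_lit 5) (nat_lit 295) (nat_lit 5) (nat_lit 296) (nat_lit 4) (nat_lit 441) (nat_lit 382) (nat_lit 377)) (XT.lf (nat_lit 0) (nat_lit 4568368749) (nat_lit 684) (nat_lit 885548714) (nat_lit 76) (nat_lit 2882990078) (nat_lit 278) (nat_lit 5) (nat_lit 287) (nat_lit 5) (nat_lit 279) (nat_lit 4) (nat_lit 442) (nat_lit 382) (nat_lit 376)))) (XT.nd (nat_lit 156) (nat_lit 1140) (nat_lit 0) (XT.nd (nat_lit 78) (nat_lit 532) (nat_lit 0) (XT.lf (nat_lit 0) (nat_lit 1162730398) (nat_lit 608) (nat_lit 891758627) (nat_lit 684) (nat_lit 6379246249) (nat_lit 262) (nat_lit 5) (nat_lit 270) (nat_lit 5) (nat_lit 271) (nat_lit 5) (nat_lit 443) (nat_lit 382) (nat_lit 375)) (XT.lf (nat_lit 0)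 (nat_lit 3260909509) (nat_lit 532) (nat_lit 4714036299) (nat_lit 608) (nat_lit 558548537) (nat_lit 255) (nat_lit 5) (nat_lit 262) (nat_lit 5) (nat_lit 263) (nat_lit 4) (nat_lit 444) (nat_lit 382) (nat_lit 374))) (XT.nd (nat_lit 78) (nat_lit 532) (nat_lit 0) (XT.lf (nat_lit 0) (nat_lit 5317328102) (nat_lit 608) (nat_lit 3230850682) (nat_lit 76) (nat_lit 88327471) (nat_lit 247) (nat_lit 5) (nat_lit 255) (nat_lit 5) (nat_lit 248) (nat_lit 4) (nat_lit 445) (nat_lit 382) (nat_lit 373)) (XT.lf (nat_lit 0) (nat_lit 2564829394) (nat_lit 532) (nat_lit 1156368381) (nat_lit 76) (nat_lit 5021403413) (nat_lit 240) (nat_lit 5) (nat_lit 247) (nat_lit 5) (nat_lit 241) (nat_lit 5) (nat_lit 446) (nat_lit 382) (nat_lit 372))))))) (XT.nd (nat_lit 1170) (nat_lit 5168) (nat_lit 0) (XT.nd (nat_lit 546) (nat_lit 3876) (nat_lit 0) (XT.nd (nat_lit 234) (nat_lit 2204) (nat_lit 0) (XT.nd (nat_lit 78) (nat_lit 1064) (nat_lit 0)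 (XT.lf (nat_lit 0) (nat_lit 985352636) (nat_lit 456) (nat_lit 7560810518) (nat_lit 532) (nat_lit 305962053) (nat_lit 227) (nat_lit 5) (nat_lit 233) (nat_lit 5) (nat_lit 234) (nat_lit 4) (nat_lit 447) (nat_lit 382) (nat_lit 371)) (XT.nd (nat_lit 78) (nat_lit 532) (nat_lit 0) (XT.lf (nat_lit 0) (nat_lit 3165854363) (nat_lit 456) (nat_lit 2486914811) (nat_lit 532) (nat_lit 3311701560) (nat_lit 220) (nat_lit 5) (nat_lit 226) (nat_lit 5) (nat_lit 227) (nat_lit 5) (nat_lit 448) (nat_lit 382) (nat_lit 370)) (XT.lf (nat_lit 0) (nat_lit 2644237676) (nat_lit 532) (nat_lit 3685705747) (nat_lit 76) (nat_lit 2750378787) (nat_lit 213) (nat_lit 5) (nat_lit 220) (nat_lit 5) (nat_lit 214) (nat_lit 5) (nat_lit 449) (nat_lit 382) (nat_lit 369)))) (XT.nd (nat_lit 156) (nat_lit 836) (nat_lit 0) (XT.nd (nat_lit 78) (nat_lit 912) (nat_lit 0) (XT.lf (nat_lit 0) (nat_lit 7670703774) (nat_lit 456) (nat_lit 1038480882) (nat_lit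 532) (nat_lit 490522993) (nat_lit 207) (nat_lit 5) (nat_lit 213) (nat_lit 5) (nat_lit 214) (nat_lit 5) (nat_lit 450) (nat_lit 382) (nat_lit 368)) (XT.lf (nat_lit 0) (nat_lit 653658302) (nat_lit 456) (nat_lit 4900013025) (nat_lit 532) (nat_lit 3768391375) (nat_lit 195) (nat_lit 5) (nat_lit 201) (nat_lit 5) (nat_lit 202) (nat_lit 5) (nat_lit 451) (nat_lit 382) (nat_lit 367))) (XT.nd (nat_lit 78) (nat_lit 380) (nat_lit 0) (XT.lf (nat_lit 0) (nat_lit 2278668805) (nat_lit 456) (nat_lit 6537442104) (nat_lit 76) (nat_lit 631920205) (nat_lit 189) (nat_lit 5) (nat_lit 195) (nat_lit 5) (nat_lit 190) (nat_lit 5) (nat_lit 452) (nat_lit 382) (nat_lit 366)) (XT.lf (nat_lit 0) (nat_lit 5193011187) (nat_lit 380) (nat_lit 3261696312) (nat_lit 456) (nat_lit 1122599965) (nat_lit 184) (nat_lit 5) (nat_lit 189) (nat_lit 5) (nat_lit 190) (nat_lit 5) (nat_lit 453) (nat_lit 382) (nat_lit 365))))) (XT.nd (nat_lit 312) (nat_lit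 1824) (nat_lit 0) (XT.nd (nat_lit 156) (nat_lit 760) (nat_lit 0) (XT.nd (nat_lit 78) (nat_lit 836) (nat_lit 0) (XT.lf (nat_lit 0) (nat_lit 5022907405) (nat_lit 456) (nat_lit 2200483293) (nat_lit 76) (nat_lit 2486724624) (nat_lit 178) (nat_lit 5) (nat_lit 184) (nat_lit 5) (nat_lit 179) (nat_lit 5) (nat_lit 454) (nat_lit 382) (nat_lit 364)) (XT.lf (nat_lit 0) (nat_lit 24830332) (nat_lit 380) (nat_lit 1438913162) (nat_lit 456) (nat_lit 8382973547) (nat_lit 167) (nat_lit 5) (nat_lit 172) (nat_lit 5) (nat_lit 173) (nat_lit 5) (nat_lit 455) (nat_lit 382) (nat_lit 363))) (XT.nd (nat_lit 78) (nat_lit 380) (nat_lit 0) (XT.lf (nat_lit 0) (nat_lit 2299264660) (nat_lit 380) (nat_lit 5453761726) (nat_lit 456) (nat_lit 2233423175) (nat_lit 162) (nat_lit 5) (nat_lit 167) (nat_lit 5) (nat_lit 168) (nat_lit 5) (nat_lit 456) (nat_lit 382) (nat_lit 362)) (XT.lf (nat_lit 0) (nat_lit 4035096491) (nat_lit 380) (nat_lit 5515222147)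 (nat_lit 76) (nat_lit 579759651) (nat_lit 157) (nat_lit 5) (nat_lit 162) (nat_lit 5) (nat_lit 158) (nat_lit 5) (nat_lit 457) (nat_lit 382) (nat_lit 361)))) (XT.nd (nat_lit 156) (nat_lit 1064) (nat_lit 0) (XT.nd (nat_lit 78) (nat_lit 304) (nat_lit 0) (XT.lf (nat_lit 0) (nat_lit 195253537) (nat_lit 456) (nat_lit 3318355966) (nat_lit 76) (nat_lit 6763808073) (nat_lit 151) (nat_lit 5) (nat_lit 157) (nat_lit 5) (nat_lit 152) (nat_lit 5) (nat_lit 458) (nat_lit 382) (nat_lit 360)) (XT.lf (nat_lit 0) (nat_lit 6589332705) (nat_lit 380) (nat_lit 1102409035) (nat_lit 76) (nat_lit 2736672495) (nat_lit 147) (nat_lit 5) (nat_lit 152) (nat_lit 5) (nat_lit 148) (nat_lit 5) (nat_lit 459) (nat_lit 382) (nat_lit 359))) (XT.nd (nat_lit 78) (nat_lit 304) (nat_lit 0) (XT.lf (nat_lit 0) (nat_lit 1166138041) (nat_lit 304) (nat_lit 1404150791) (nat_lit 380) (nat_lit 8013057594) (nat_lit 137) (nat_lit 5) (nat_lit 141) (nat_lit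 5) (nat_lit 142) (nat_lit 5) (nat_lit 460) (nat_lit 382) (nat_lit 358)) (XT.lf (nat_lit 0) (nat_lit 3468967836) (nat_lit 304) (nat_lit 5675535925) (nat_lit 380) (nat_lit 1597422552) (nat_lit 133) (nat_lit 5) (nat_lit 137) (nat_lit 5) (nat_lit 138) (nat_lit 5) (nat_lit 461) (nat_lit 382) (nat_lit 357)))))) (XT.nd (nat_lit 546) (nat_lit 2508) (nat_lit 0) (XT.nd (nat_lit 234) (nat_lit 1596) (nat_lit 0) (XT.nd (nat_lit 78) (nat_lit 684) (nat_lit 0) (XT.lf (nat_lit 0) (nat_lit 4946008594) (nat_lit 380) (nat_lit 5101645952) (nat_lit 76) (nat_lit 856939136) (nat_lit 128) (nat_lit 5) (nat_lit 133) (nat_lit 5) (nat_lit 129) (nat_lit 5) (nat_lit 462) (nat_lit 382) (nat_lit 356)) (XT.nd (nat_lit 78) (nat_lit 304) (nat_lit 0) (XT.lf (nat_lit 0) (nat_lit 610963936) (nat_lit 380) (nat_lit 2908206486) (nat_lit 76) (nat_lit 7552151721) (nat_lit 123) (nat_lit 5) (nat_lit 128) (nat_lit 5) (nat_lit 124) (nat_lit 5) (nat_lit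 463) (nat_lit 382) (nat_lit 355)) (XT.lf (nat_lit 0) (nat_lit 7308850463) (nat_lit 380) (nat_lit 700840278) (nat_lit 76) (nat_lit 3232331377) (nat_lit 119) (nat_lit 5) (nat_lit 124) (nat_lit 5) (nat_lit 120) (nat_lit 5) (nat_lit 464) (nat_lit 382) (nat_lit 354)))) (XT.nd (nat_lit 156) (nat_lit 684) (nat_lit 0) (XT.nd (nat_lit 78) (nat_lit 304) (nat_lit 0) (XT.lf (nat_lit 0) (nat_lit 1560098997) (nat_lit 228) (nat_lit 1219687275) (nat_lit 304) (nat_lit 8637165063) (nat_lit 111) (nat_lit 5) (nat_lit 114) (nat_lit 5) (nat_lit 115) (nat_lit 5) (nat_lit 465) (nat_lit 382) (nat_lit 353)) (XT.lf (nat_lit 0) (nat_lit 3841865564) (nat_lit 304) (nat_lit 5836195955) (nat_lit 380) (nat_lit 1917801014) (nat_lit 107) (nat_lit 5) (nat_lit 111) (nat_lit 5) (nat_lit 112) (nat_lit 5) (nat_lit 466) (nat_lit 382) (nat_lit 352))) (XT.nd (nat_lit 78) (nat_lit 380) (nat_lit 0) (XT.lf (nat_lit 0) (nat_lit 4950401538) (nat_lit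 304) (nat_lit 5628479065) (nat_lit 76) (nat_lit 1200354598) (nat_lit 103) (nat_lit 5) (nat_lit 107) (nat_lit 5) (nat_lit 104) (nat_lit 5) (nat_lit 467) (nat_lit 382) (nat_lit 351)) (XT.lf (nat_lit 0) (nat_lit 68848161) (nat_lit 380) (nat_lit 3483902555) (nat_lit 76) (nat_lit 8414331807) (nat_lit 98) (nat_lit 5) (nat_lit 103) (nat_lit 5) (nat_lit 99) (nat_lit 5) (nat_lit 468) (nat_lit 382) (nat_lit 350))))) (XT.nd (nat_lit 312) (nat_lit 1216) (nat_lit 0) (XT.nd (nat_lit 156) (nat_lit 532) (nat_lit 0) (XT.nd (nat_lit 78) (nat_lit 532) (nat_lit 0) (XT.lf (nat_lit 0) (nat_lit 7106839286) (nat_lit 304) (nat_lit 1337853518) (nat_lit 76) (nat_lit 3714447775) (nat_lit 95) (nat_lit 5) (nat_lit 99) (nat_lit 5) (nat_lit 96) (nat_lit 5) (nat_lit 469) (nat_lit 382) (nat_lit 349)) (XT.lf (nat_lit 0) (nat_lit 853661744) (nat_lit 228) (nat_lit 1151982898) (nat_lit 304) (nat_lit 10350400259) (nat_lit 88) (nat_lit 5)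 (nat_lit 91) (nat_lit 5) (nat_lit 92) (nat_lit 5) (nat_lit 470) (nat_lit 382) (nat_lit 348))) (XT.nd (nat_lit 78) (nat_lit 304) (nat_lit 0) (XT.lf (nat_lit 0) (nat_lit 3059202204) (nat_lit 228) (nat_lit 6203741790) (nat_lit 304) (nat_lit 3294120436) (nat_lit 85) (nat_lit 5) (nat_lit 88) (nat_lit 5) (nat_lit 89) (nat_lit 5) (nat_lit 471) (nat_lit 382) (nat_lit 347)) (XT.lf (nat_lit 0) (nat_lit 3945753620) (nat_lit 304) (nat_lit 7469084626) (nat_lit 76) (nat_lit 1348280869) (nat_lit 81) (nat_lit 5) (nat_lit 85) (nat_lit 5) (nat_lit 82) (nat_lit 5) (nat_lit 472) (nat_lit 382) (nat_lit 346)))) (XT.nd (nat_lit 156) (nat_lit 684) (nat_lit 0) (XT.nd (nat_lit 78) (nat_lit 304) (nat_lit 0) (XT.lf (nat_lit 0) (nat_lit 7536998891) (nat_lit 228) (nat_lit 3872473898) (nat_lit 304) (nat_lit 1564420137) (nat_lit 78) (nat_lit 5) (nat_lit 81) (nat_lit 5) (nat_lit 82) (nat_lit 5) (nat_lit 473) (nat_lit 382) (nat_lit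 345)) (XT.lf (nat_lit 0) (nat_lit 5866234661) (nat_lit 304) (nat_lit 3402160019) (nat_lit 76) (nat_lit 3921077706) (nat_lit 74) (nat_lit 5) (nat_lit 78) (nat_lit 5) (nat_lit 75) (nat_lit 5) (nat_lit 474) (nat_lit 382) (nat_lit 344))) (XT.nd (nat_lit 78) (nat_lit 380) (nat_lit 0) (XT.lf (nat_lit 0) (nat_lit 126300857) (nat_lit 304) (nat_lit 1338214082) (nat_lit 76) (nat_lit 11945983022) (nat_lit 70) (nat_lit 5) (nat_lit 74) (nat_lit 5) (nat_lit 71) (nat_lit 5) (nat_lit 475) (nat_lit 382) (nat_lit 343)) (XT.lf (nat_lit 0) (nat_lit 709602869) (nat_lit 228) (nat_lit 7054834754) (nat_lit 304) (nat_lit 5871457331) (nat_lit 65) (nat_lit 5) (nat_lit 68) (nat_lit 5) (nat_lit 69) (nat_lit 5) (nat_lit 476) (nat_lit 382) (nat_lit 342))))))))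
noncomputable def xc13 : XT := (XT.nd (nat_lit 60372) (nat_lit 0) (nat_lit 2204) (XT.nd (nat_lit 59202) (nat_lit 0) (nat_lit 13984) (XT.nd (nat_lit 546) (nat_lit 1064) (nat_lit 0) (XT.nd (nat_lit 234) (nat_lit 988) (nat_lit 0) (XT.nd (nat_lit 78) (nat_lit 456) (nat_lit 0) (XT.lf (nat_lit 0) (nat_lit 1784360951) (nat_lit 228) (nat_lit 11053637564) (nat_lit 76) (nat_lit 1028950644) (nat_lit 62) (nat_lit 5) (nat_lit 65) (nat_lit 5) (nat_lit 63) (nat_lit 5) (nat_lit 477) (nat_lit 382) (nat_lit 341)) (XT.nd (nat_lit 78) (nat_lit 228) (nat_lit 0) (XT.lf (nat_lit 0) (nat_lit 4896350715) (nat_lit 228) (nat_lit 4761638311) (nat_lit 304) (nat_lit 4444812486) (nat_lit 59) (nat_lit 5) (nat_lit 62) (nat_lit 5) (nat_lit 63) (nat_lit 5) (nat_lit 478) (nat_lit 382) (nat_lit 340)) (XT.lf (nat_lit 0) (nat_lit 3423155331) (nat_lit 228) (nat_lit 7345151753) (nat_lit 76) (nat_lit 3576059973) (nat_lit 56) (nat_lit 5) (nat_lit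 59) (nat_lit 5) (nat_lit 57) (nat_lit 5) (nat_lit 479) (nat_lit 382) (nat_lit 339)))) (XT.nd (nat_lit 156) (nat_lit 532) (nat_lit 0) (XT.nd (nat_lit 78) (nat_lit 228) (nat_lit 0) (XT.lf (nat_lit 0) (nat_lit 9105949822) (nat_lit 228) (nat_lit 2417573341) (nat_lit 304) (nat_lit 3067934602) (nat_lit 53) (nat_lit 5) (nat_lit 56) (nat_lit 5) (nat_lit 57) (nat_lit 5) (nat_lit 480) (nat_lit 382) (nat_lit 338)) (XT.lf (nat_lit 0) (nat_lit 5022589371) (nat_lit 228) (nat_lit 3639770460) (nat_lit 76) (nat_lit 6181600131) (nat_lit 50) (nat_lit 5) (nat_lit 53) (nat_lit 5) (nat_lit 51) (nat_lit 5) (nat_lit 481) (nat_lit 382) (nat_lit 337))) (XT.nd (nat_lit 78) (nat_lit 380) (nat_lit 0) (XT.lf (nat_lit 0) (nat_lit 13330676629) (nat_lit 152) (nat_lit 28741588) (nat_lit 228) (nat_lit 1743308734) (nat_lit 48) (nat_lit 5) (nat_lit 50) (nat_lit 5) (nat_lit 51) (nat_lit 5) (nat_lit 482) (nat_lit 382) (nat_lit 336)) (XT.lf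 (nat_lit 0) (nat_lit 54187693) (nat_lit 152) (nat_lit 6526424058) (nat_lit 228) (nat_lit 8785996290) (nat_lit 43) (nat_lit 5) (nat_lit 45) (nat_lit 5) (nat_lit 46) (nat_lit 5) (nat_lit 483) (nat_lit 382) (nat_lit 335))))) (XT.nd (nat_lit 234) (nat_lit 456) (nat_lit 0) (XT.nd (nat_lit 78) (nat_lit 456) (nat_lit 0) (XT.lf (nat_lit 0) (nat_lit 1934155212) (nat_lit 152) (nat_lit 13257344196) (nat_lit 228) (nat_lit 445457664) (nat_lit 41) (nat_lit 5) (nat_lit 43) (nat_lit 5) (nat_lit 44) (nat_lit 4) (nat_lit 484) (nat_lit 382) (nat_lit 334)) (XT.nd (nat_lit 78) (nat_lit 228) (nat_lit 0) (XT.lf (nat_lit 0) (nat_lit 3774020197) (nat_lit 152) (nat_lit 4343518384) (nat_lit 228) (nat_lit 7795239558) (nat_lit 38) (nat_lit 5) (nat_lit 40) (nat_lit 5) (nat_lit 41) (nat_lit 5) (nat_lit 485) (nat_lit 382) (nat_lit 333)) (XT.lf (nat_lit 0) (nat_lit 794469780) (nat_lit 228) (nat_lit 10565235397) (nat_lit 76) (nat_lit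 4835624066) (nat_lit 35) (nat_lit 5) (nat_lit 38) (nat_lit 5) (nat_lit 36) (nat_lit 5) (nat_lit 486) (nat_lit 382) (nat_lit 332)))) (XT.nd (nat_lit 156) (nat_lit 152) (nat_lit 0) (XT.nd (nat_lit 78) (nat_lit 152) (nat_lit 0) (XT.lf (nat_lit 0) (nat_lit 7459957899) (nat_lit 152) (nat_lit 2145474955) (nat_lit 228) (nat_lit 6878504692) (nat_lit 33) (nat_lit 5) (nat_lit 35) (nat_lit 5) (nat_lit 36) (nat_lit 5) (nat_lit 487) (nat_lit 382) (nat_lit 331)) (XT.lf (nat_lit 0) (nat_lit 1964979364) (nat_lit 152) (nat_lit 7495984710) (nat_lit 76) (nat_lit 7318186493) (nat_lit 31) (nat_lit 5) (nat_lit 33) (nat_lit 5) (nat_lit 32) (nat_lit 5) (nat_lit 488) (nat_lit 382) (nat_lit 330))) (XT.nd (nat_lit 58188) (nat_lit 0) (nat_lit 25232) (XT.lf (nat_lit 0) (nat_lit 11039833148) (nat_lit 228) (nat_lit 5982271058) (nat_lit 76) (nat_lit 59016629) (nat_lit 29) (nat_lit 5) (nat_lit 32) (nat_lit 5) (nat_lit 30) (nat_lit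 4) (nat_lit 489) (nat_lit 382) (nat_lit 329)) (XT.lf (nat_lit 0) (nat_lit 20749327) (nat_lit 836) (nat_lit 3793898516) (nat_lit 0) (nat_lit 20749327) (nat_lit 361) (nat_lit 5) (nat_lit 372) (nat_lit 4) (nat_lit 361) (nat_lit 4) (nat_lit 434) (nat_lit 383) (nat_lit 383)))))) (XT.nd (nat_lit 546) (nat_lit 5548) (nat_lit 0) (XT.nd (nat_lit 234) (nat_lit 3420) (nat_lit 0) (XT.nd (nat_lit 78) (nat_lit 1520) (nat_lit 0) (XT.lf (nat_lit 0) (nat_lit 1757711245) (nat_lit 760) (nat_lit 4003902100) (nat_lit 760) (nat_lit 1983049780) (nat_lit 351) (nat_lit 4) (nat_lit 361) (nat_lit 5) (nat_lit 361) (nat_lit 4) (nat_lit 435) (nat_lit 383) (nat_lit 382)) (XT.nd (nat_lit 78) (nat_lit 760) (nat_lit 0) (XT.lf (nat_lit 0) (nat_lit 3499382723) (nat_lit 684) (nat_lit 204690339) (nat_lit 760) (nat_lit 4117746842) (nat_lit 341) (nat_lit 5) (nat_lit 350) (nat_lit 5) (nat_lit 351) (nat_lit 4) (nat_lit 436) (nat_lit 383) (nat_lit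 381)) (XT.lf (nat_lit 0) (nat_lit 1561801398) (nat_lit 760) (nat_lit 2617408228) (nat_lit 76) (nat_lit 3722624096) (nat_lit 331) (nat_lit 5) (nat_lit 341) (nat_lit 5) (nat_lit 332) (nat_lit 4) (nat_lit 437) (nat_lit 383) (nat_lit 380)))) (XT.nd (nat_lit 156) (nat_lit 1368) (nat_lit 0) (XT.nd (nat_lit 78) (nat_lit 1368) (nat_lit 0) (XT.lf (nat_lit 0) (nat_lit 7131822583) (nat_lit 684) (nat_lit 153906971) (nat_lit 760) (nat_lit 699379627) (nat_lit 322) (nat_lit 5) (nat_lit 331) (nat_lit 5) (nat_lit 332) (nat_lit 4) (nat_lit 438) (nat_lit 383) (nat_lit 379)) (XT.lf (nat_lit 0) (nat_lit 952063614) (nat_lit 608) (nat_lit 4055095778) (nat_lit 684) (nat_lit 3063790198) (nat_lit 304) (nat_lit 5) (nat_lit 312) (nat_lit 5) (nat_lit 313) (nat_lit 4) (nat_lit 439) (nat_lit 383) (nat_lit 378))) (XT.nd (nat_lit 78) (nat_lit 684) (nat_lit 0) (XT.lf (nat_lit 0) (nat_lit 2622752218) (nat_lit 684) (nat_lit 5327444978)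 (nat_lit 76) (nat_lit 209881701) (nat_lit 295) (nat_lit 5) (nat_lit 304) (nat_lit 5) (nat_lit 296) (nat_lit 4) (nat_lit 440) (nat_lit 383) (nat_lit 377)) (XT.lf (nat_lit 0) (nat_lit 148781162) (nat_lit 684) (nat_lit 3499436794) (nat_lit 76) (nat_lit 4603949745) (nat_lit 286) (nat_lit 5) (nat_lit 295) (nat_lit 5) (nat_lit 287) (nat_lit 5) (nat_lit 441) (nat_lit 383) (nat_lit 376))))) (XT.nd (nat_lit 312) (nat_lit 2584) (nat_lit 0) (XT.nd (nat_lit 156) (nat_lit 1140) (nat_lit 0) (XT.nd (nat_lit 78) (nat_lit 1216) (nat_lit 0) (XT.lf (nat_lit 0) (nat_lit 5876110699) (nat_lit 684) (nat_lit 1628870551) (nat_lit 76) (nat_lit 842392141) (nat_lit 278) (nat_lit 5) (nat_lit 287) (nat_lit 5) (nat_lit 279) (nat_lit 4) (nat_lit 442) (nat_lit 383) (nat_lit 375)) (XT.lf (nat_lit 0) (nat_lit 284260514) (nat_lit 608) (nat_lit 2971047577) (nat_lit 684) (nat_lit 5190315144) (nat_lit 262) (nat_lit 5) (nat_lit 270) (nat_lit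 5) (nat_lit 271) (nat_lit 5) (nat_lit 443) (nat_lit 383) (nat_lit 374))) (XT.nd (nat_lit 78) (nat_lit 532) (nat_lit 0) (XT.lf (nat_lit 0) (nat_lit 534058186) (nat_lit 608) (nat_lit 6273941929) (nat_lit 76) (nat_lit 1739063091) (nat_lit 254) (nat_lit 5) (nat_lit 262) (nat_lit 5) (nat_lit 255) (nat_lit 5) (nat_lit 444) (nat_lit 383) (nat_lit 373)) (XT.lf (nat_lit 0) (nat_lit 4292868580) (nat_lit 532) (nat_lit 2035270425) (nat_lit 608) (nat_lit 2323354565) (nat_lit 247) (nat_lit 5) (nat_lit 254) (nat_lit 5) (nat_lit 255) (nat_lit 5) (nat_lit 445) (nat_lit 383) (nat_lit 372)))) (XT.nd (nat_lit 156) (nat_lit 1444) (nat_lit 0) (XT.nd (nat_lit 78) (nat_lit 608) (nat_lit 0) (XT.lf (nat_lit 0) (nat_lit 3460362746) (nat_lit 532) (nat_lit 2403000357) (nat_lit 76) (nat_lit 2895842186) (nat_lit 240) (nat_lit 5) (nat_lit 247) (nat_lit 5) (nat_lit 241) (nat_lit 5) (nat_lit 446) (nat_lit 383) (nat_lit 371)) (XT.lf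 (nat_lit 0) (nat_lit 476595382) (nat_lit 608) (nat_lit 397508003) (nat_lit 76) (nat_lit 7996330093) (nat_lit 232) (nat_lit 5) (nat_lit 240) (nat_lit 5) (nat_lit 233) (nat_lit 5) (nat_lit 447) (nat_lit 383) (nat_lit 370))) (XT.nd (nat_lit 78) (nat_lit 532) (nat_lit 0) (XT.lf (nat_lit 0) (nat_lit 1648741716) (nat_lit 456) (nat_lit 4699880408) (nat_lit 532) (nat_lit 2635772372) (nat_lit 220) (nat_lit 5) (nat_lit 226) (nat_lit 5) (nat_lit 227) (nat_lit 5) (nat_lit 448) (nat_lit 383) (nat_lit 369)) (XT.lf (nat_lit 0) (nat_lit 3222261373) (nat_lit 532) (nat_lit 5349315154) (nat_lit 76) (nat_lit 530363804) (nat_lit 213) (nat_lit 5) (nat_lit 220) (nat_lit 5) (nat_lit 214) (nat_lit 5) (nat_lit 449) (nat_lit 383) (nat_lit 368))))))) (XT.nd (nat_lit 1170) (nat_lit 4636) (nat_lit 0) (XT.nd (nat_lit 546) (nat_lit 3648) (nat_lit 0) (XT.nd (nat_lit 234) (nat_lit 1672) (nat_lit 0) (XT.nd (nat_lit 78) (nat_lit 1368)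 (nat_lit 0) (XT.lf (nat_lit 0) (nat_lit 5890477430) (nat_lit 456) (nat_lit 3322557496) (nat_lit 532) (nat_lit 9775594) (nat_lit 207) (nat_lit 5) (nat_lit 213) (nat_lit 5) (nat_lit 214) (nat_lit 5) (nat_lit 450) (nat_lit 383) (nat_lit 367)) (XT.nd (nat_lit 78) (nat_lit 912) (nat_lit 0) (XT.lf (nat_lit 0) (nat_lit 5934489588) (nat_lit 456) (nat_lit 1288616145) (nat_lit 76) (nat_lit 2123871113) (nat_lit 201) (nat_lit 5) (nat_lit 207) (nat_lit 5) (nat_lit 202) (nat_lit 5) (nat_lit 451) (nat_lit 383) (nat_lit 366)) (XT.lf (nat_lit 0) (nat_lit 806300543) (nat_lit 380) (nat_lit 1735425602) (nat_lit 456) (nat_lit 6932937639) (nat_lit 189) (nat_lit 5) (nat_lit 194) (nat_lit 5) (nat_lit 195) (nat_lit 5) (nat_lit 452) (nat_lit 383) (nat_lit 365)))) (XT.nd (nat_lit 156) (nat_lit 836) (nat_lit 0) (XT.nd (nat_lit 78) (nat_lit 456) (nat_lit 0) (XT.lf (nat_lit 0) (nat_lit 2950328949) (nat_lit 380) (nat_lit 5680800377)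 (nat_lit 456) (nat_lit 974544644) (nat_lit 184) (nat_lit 5) (nat_lit 189) (nat_lit 5) (nat_lit 190) (nat_lit 5) (nat_lit 453) (nat_lit 383) (nat_lit 364)) (XT.lf (nat_lit 0) (nat_lit 5077416002) (nat_lit 456) (nat_lit 4610660790) (nat_lit 76) (nat_lit 52218982) (nat_lit 178) (nat_lit 5) (nat_lit 184) (nat_lit 5) (nat_lit 179) (nat_lit 5) (nat_lit 454) (nat_lit 383) (nat_lit 363))) (XT.nd (nat_lit 78) (nat_lit 380) (nat_lit 0) (XT.lf (nat_lit 0) (nat_lit 1411540074) (nat_lit 456) (nat_lit 2542636088) (nat_lit 76) (nat_lit 5924243442) (nat_lit 172) (nat_lit 5) (nat_lit 178) (nat_lit 5) (nat_lit 173) (nat_lit 5) (nat_lit 455) (nat_lit 383) (nat_lit 362)) (XT.lf (nat_lit 0) (nat_lit 7593562545) (nat_lit 456) (nat_lit 441554096) (nat_lit 76) (nat_lit 1985181683) (nat_lit 167) (nat_lit 5) (nat_lit 173) (nat_lit 5) (nat_lit 168) (nat_lit 5) (nat_lit 456) (nat_lit 383) (nat_lit 361))))) (XT.nd (nat_lit 312)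 (nat_lit 1672) (nat_lit 0) (XT.nd (nat_lit 156) (nat_lit 836) (nat_lit 0) (XT.nd (nat_lit 78) (nat_lit 380) (nat_lit 0) (XT.lf (nat_lit 0) (nat_lit 1708188270) (nat_lit 304) (nat_lit 2052071267) (nat_lit 380) (nat_lit 6405374753) (nat_lit 157) (nat_lit 5) (nat_lit 161) (nat_lit 5) (nat_lit 162) (nat_lit 5) (nat_lit 457) (nat_lit 383) (nat_lit 360)) (XT.lf (nat_lit 0) (nat_lit 3898837193) (nat_lit 380) (nat_lit 6210877474) (nat_lit 456) (nat_lit 205100318) (nat_lit 152) (nat_lit 5) (nat_lit 157) (nat_lit 5) (nat_lit 158) (nat_lit 5) (nat_lit 458) (nat_lit 383) (nat_lit 359))) (XT.nd (nat_lit 78) (nat_lit 456) (nat_lit 0) (XT.lf (nat_lit 0) (nat_lit 6095979451) (nat_lit 380) (nat_lit 4353897880) (nat_lit 76) (nat_lit 17875604) (nat_lit 147) (nat_lit 5) (nat_lit 152) (nat_lit 5) (nat_lit 148) (nat_lit 5) (nat_lit 459) (nat_lit 383) (nat_lit 358)) (XT.lf (nat_lit 0) (nat_lit 1958520358) (nat_lit 456) (nat_lit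 2273131849) (nat_lit 76) (nat_lit 6392824178) (nat_lit 141) (nat_lit 5) (nat_lit 147) (nat_lit 5) (nat_lit 142) (nat_lit 5) (nat_lit 460) (nat_lit 383) (nat_lit 357)))) (XT.nd (nat_lit 156) (nat_lit 684) (nat_lit 0) (XT.nd (nat_lit 78) (nat_lit 684) (nat_lit 0) (XT.lf (nat_lit 0) (nat_lit 8420674525) (nat_lit 380) (nat_lit 161465275) (nat_lit 76) (nat_lit 2203158491) (nat_lit 137) (nat_lit 5) (nat_lit 142) (nat_lit 5) (nat_lit 138) (nat_lit 5) (nat_lit 461) (nat_lit 383) (nat_lit 356)) (XT.lf (nat_lit 0) (nat_lit 1995986421) (nat_lit 304) (nat_lit 2105973614) (nat_lit 380) (nat_lit 6847844204) (nat_lit 128) (nat_lit 5) (nat_lit 132) (nat_lit 5) (nat_lit 133) (nat_lit 5) (nat_lit 462) (nat_lit 383) (nat_lit 355))) (XT.nd (nat_lit 78) (nat_lit 380) (nat_lit 0) (XT.lf (nat_lit 0) (nat_lit 4185402897) (nat_lit 304) (nat_lit 6566857414) (nat_lit 380) (nat_lit 366237063) (nat_lit 124) (nat_lit 5) (nat_lit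 128) (nat_lit 5) (nat_lit 129) (nat_lit 5) (nat_lit 463) (nat_lit 383) (nat_lit 354)) (XT.lf (nat_lit 0) (nat_lit 6235179041) (nat_lit 380) (nat_lit 4896966484) (nat_lit 76) (nat_lit 159125563) (nat_lit 119) (nat_lit 5) (nat_lit 124) (nat_lit 5) (nat_lit 120) (nat_lit 5) (nat_lit 464) (nat_lit 383) (nat_lit 353)))))) (XT.nd (nat_lit 546) (nat_lit 2280) (nat_lit 0) (XT.nd (nat_lit 234) (nat_lit 1140) (nat_lit 0) (XT.nd (nat_lit 78) (nat_lit 836) (nat_lit 0) (XT.lf (nat_lit 0) (nat_lit 1579493675) (nat_lit 380) (nat_lit 2846187462) (nat_lit 76) (nat_lit 7042507647) (nat_lit 114) (nat_lit 5) (nat_lit 119) (nat_lit 5) (nat_lit 115) (nat_lit 5) (nat_lit 465) (nat_lit 383) (nat_lit 352)) (XT.nd (nat_lit 78) (nat_lit 608) (nat_lit 0) (XT.lf (nat_lit 0) (nat_lit 8359732404) (nat_lit 304) (nat_lit 774250340) (nat_lit 76) (nat_lit 2515478624) (nat_lit 111) (nat_lit 5) (nat_lit 115) (nat_lit 5) (nat_lit 112) (nat_lit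 5) (nat_lit 466) (nat_lit 383) (nat_lit 351)) (XT.lf (nat_lit 0) (nat_lit 1334198002) (nat_lit 228) (nat_lit 2165118569) (nat_lit 304) (nat_lit 8335639238) (nat_lit 103) (nat_lit 5) (nat_lit 106) (nat_lit 5) (nat_lit 107) (nat_lit 5) (nat_lit 467) (nat_lit 383) (nat_lit 350)))) (XT.nd (nat_lit 156) (nat_lit 532) (nat_lit 0) (XT.nd (nat_lit 78) (nat_lit 304) (nat_lit 0) (XT.lf (nat_lit 0) (nat_lit 3470160169) (nat_lit 304) (nat_lit 7016922917) (nat_lit 380) (nat_lit 1537703443) (nat_lit 99) (nat_lit 5) (nat_lit 103) (nat_lit 5) (nat_lit 104) (nat_lit 5) (nat_lit 468) (nat_lit 383) (nat_lit 349)) (XT.lf (nat_lit 0) (nat_lit 5412080140) (nat_lit 304) (nat_lit 6592354734) (nat_lit 76) (nat_lit 214777459) (nat_lit 95) (nat_lit 5) (nat_lit 99) (nat_lit 5) (nat_lit 96) (nat_lit 5) (nat_lit 469) (nat_lit 383) (nat_lit 348))) (XT.nd (nat_lit 78) (nat_lit 228) (nat_lit 0) (XT.lf (nat_lit 0) (nat_lit 181789225)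 (nat_lit 304) (nat_lit 4620936853) (nat_lit 76) (nat_lit 7615459783) (nat_lit 91) (nat_lit 5) (nat_lit 95) (nat_lit 5) (nat_lit 92) (nat_lit 5) (nat_lit 470) (nat_lit 383) (nat_lit 347)) (XT.lf (nat_lit 0) (nat_lit 7313908620) (nat_lit 304) (nat_lit 2645016077) (nat_lit 76) (nat_lit 2662784825) (nat_lit 88) (nat_lit 5) (nat_lit 92) (nat_lit 5) (nat_lit 89) (nat_lit 5) (nat_lit 471) (nat_lit 383) (nat_lit 346))))) (XT.nd (nat_lit 312) (nat_lit 988) (nat_lit 0) (XT.nd (nat_lit 156) (nat_lit 532) (nat_lit 0) (XT.nd (nat_lit 78) (nat_lit 456) (nat_lit 0) (XT.lf (nat_lit 0) (nat_lit 1847236058) (nat_lit 304) (nat_lit 646107684) (nat_lit 76) (nat_lit 10336907392) (nat_lit 84) (nat_lit 5) (nat_lit 88) (nat_lit 5) (nat_lit 85) (nat_lit 5) (nat_lit 472) (nat_lit 383) (nat_lit 345)) (XT.lf (nat_lit 0) (nat_lit 1368591761) (nat_lit 228) (nat_lit 7832078185) (nat_lit 304) (nat_lit 3842561197) (nat_lit 78) (nat_lit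 5) (nat_lit 81) (nat_lit 5) (nat_lit 82) (nat_lit 5) (nat_lit 473) (nat_lit 383) (nat_lit 344))) (XT.nd (nat_lit 78) (nat_lit 228) (nat_lit 0) (XT.lf (nat_lit 0) (nat_lit 3419806059) (nat_lit 228) (nat_lit 81652428) (nat_lit 304) (nat_lit 9759978675) (nat_lit 74) (nat_lit 5) (nat_lit 77) (nat_lit 5) (nat_lit 78) (nat_lit 5) (nat_lit 474) (nat_lit 383) (nat_lit 343)) (XT.lf (nat_lit 0) (nat_lit 5461151208) (nat_lit 228) (nat_lit 5620538544) (nat_lit 304) (nat_lit 2402630618) (nat_lit 71) (nat_lit 5) (nat_lit 74) (nat_lit 5) (nat_lit 75) (nat_lit 5) (nat_lit 475) (nat_lit 383) (nat_lit 342)))) (XT.nd (nat_lit 156) (nat_lit 532) (nat_lit 0) (XT.nd (nat_lit 78) (nat_lit 228) (nat_lit 0) (XT.lf (nat_lit 0) (nat_lit 5142323036) (nat_lit 228) (nat_lit 6192747757) (nat_lit 76) (nat_lit 2377452873) (nat_lit 68) (nat_lit 5) (nat_lit 71) (nat_lit 5) (nat_lit 69) (nat_lit 5) (nat_lit 476) (nat_lit 383) (nat_lit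 341)) (XT.lf (nat_lit 0) (nat_lit 9591832717) (nat_lit 228) (nat_lit 3347685874) (nat_lit 304) (nat_lit 1006566983) (nat_lit 65) (nat_lit 5) (nat_lit 68) (nat_lit 5) (nat_lit 69) (nat_lit 5) (nat_lit 477) (nat_lit 383) (nat_lit 340))) (XT.nd (nat_lit 78) (nat_lit 304) (nat_lit 0) (XT.lf (nat_lit 0) (nat_lit 6750221895) (nat_lit 228) (nat_lit 2530488414) (nat_lit 76) (nat_lit 4903959534) (nat_lit 62) (nat_lit 5) (nat_lit 65) (nat_lit 5) (nat_lit 63) (nat_lit 5) (nat_lit 478) (nat_lit 383) (nat_lit 339)) (XT.lf (nat_lit 0) (nat_lit 339695745) (nat_lit 304) (nat_lit 677222614) (nat_lit 76) (nat_lit 13412366297) (nat_lit 58) (nat_lit 5) (nat_lit 62) (nat_lit 5) (nat_lit 59) (nat_lit 5) (nat_lit 479) (nat_lit 383) (nat_lit 338))))))))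
noncomputable def xc14 : XT := (XT.nd (nat_lit 60216) (nat_lit 0) (nat_lit 2052) (XT.nd (nat_lit 59046) (nat_lit 0) (nat_lit 13452) (XT.nd (nat_lit 546) (nat_lit 684) (nat_lit 0) (XT.nd (nat_lit 234) (nat_lit 760) (nat_lit 0) (XT.nd (nat_lit 78) (nat_lit 380) (nat_lit 0) (XT.lf (nat_lit 0) (nat_lit 1153359909) (nat_lit 228) (nat_lit 7177419221) (nat_lit 304) (nat_lit 6347782293) (nat_lit 53) (nat_lit 5) (nat_lit 56) (nat_lit 5) (nat_lit 57) (nat_lit 5) (nat_lit 480) (nat_lit 383) (nat_lit 337)) (XT.nd (nat_lit 78) (nat_lit 152) (nat_lit 0) (XT.lf (nat_lit 0) (nat_lit 1654761171) (nat_lit 228) (nat_lit 11907435777) (nat_lit 76) (nat_lit 1371912849) (nat_lit 50) (nat_lit 5) (nat_lit 53) (nat_lit 5) (nat_lit 51) (nat_lit 5) (nat_lit 481) (nat_lit 383) (nat_lit 336)) (XT.lf (nat_lit 0) (nat_lit 4869009548) (nat_lit 152) (nat_lit 5022157033) (nat_lit 228) (nat_lit 5303719015) (nat_lit 48) (nat_lit 5) (nat_lit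 50) (nat_lit 5) (nat_lit 51) (nat_lit 5) (nat_lit 482) (nat_lit 383) (nat_lit 335)))) (XT.nd (nat_lit 156) (nat_lit 380) (nat_lit 0) (XT.nd (nat_lit 78) (nat_lit 152) (nat_lit 0) (XT.lf (nat_lit 0) (nat_lit 2931703177) (nat_lit 228) (nat_lit 8735434169) (nat_lit 76) (nat_lit 3794795871) (nat_lit 45) (nat_lit 5) (nat_lit 48) (nat_lit 5) (nat_lit 46) (nat_lit 5) (nat_lit 483) (nat_lit 383) (nat_lit 334)) (XT.lf (nat_lit 0) (nat_lit 8573497762) (nat_lit 152) (nat_lit 2838515531) (nat_lit 228) (nat_lit 4322880819) (nat_lit 43) (nat_lit 5) (nat_lit 45) (nat_lit 5) (nat_lit 46) (nat_lit 5) (nat_lit 484) (nat_lit 383) (nat_lit 333))) (XT.nd (nat_lit 78) (nat_lit 152) (nat_lit 0) (XT.lf (nat_lit 0) (nat_lit 4155877642) (nat_lit 228) (nat_lit 5603732372) (nat_lit 76) (nat_lit 6254310779) (nat_lit 40) (nat_lit 5) (nat_lit 43) (nat_lit 5) (nat_lit 41) (nat_lit 5) (nat_lit 485) (nat_lit 383) (nat_lit 332)) (XT.lf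 (nat_lit 0) (nat_lit 12256396574) (nat_lit 152) (nat_lit 633454345) (nat_lit 228) (nat_lit 3409704801) (nat_lit 38) (nat_lit 5) (nat_lit 40) (nat_lit 5) (nat_lit 41) (nat_lit 5) (nat_lit 486) (nat_lit 383) (nat_lit 331))))) (XT.nd (nat_lit 58188) (nat_lit 0) (nat_lit 24472) (XT.nd (nat_lit 78) (nat_lit 456) (nat_lit 0) (XT.lf (nat_lit 0) (nat_lit 5322931956) (nat_lit 228) (nat_lit 2524317475) (nat_lit 76) (nat_lit 8743818535) (nat_lit 35) (nat_lit 5) (nat_lit 38) (nat_lit 5) (nat_lit 36) (nat_lit 5) (nat_lit 487) (nat_lit 383) (nat_lit 330)) (XT.nd (nat_lit 78) (nat_lit 304) (nat_lit 0) (XT.lf (nat_lit 0) (nat_lit 14330700606) (nat_lit 228) (nat_lit 994151648) (nat_lit 76) (nat_lit 1564833564) (nat_lit 33) (nat_lit 5) (nat_lit 36) (nat_lit 5) (nat_lit 34) (nat_lit 4) (nat_lit 488) (nat_lit 383) (nat_lit 329)) (XT.lf (nat_lit 0) (nat_lit 495955789) (nat_lit 152) (nat_lit 5934916539) (nat_lit 228) (nat_lit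 10763487462) (nat_lit 29) (nat_lit 5) (nat_lit 31) (nat_lit 5) (nat_lit 32) (nat_lit 5) (nat_lit 489) (nat_lit 383) (nat_lit 328)))) (XT.nd (nat_lit 156) (nat_lit 2356) (nat_lit 0) (XT.nd (nat_lit 78) (nat_lit 836) (nat_lit 0) (XT.lf (nat_lit 0) (nat_lit 2262768183) (nat_lit 836) (nat_lit 750997391) (nat_lit 836) (nat_lit 750997391) (nat_lit 393) (nat_lit 4) (nat_lit 404) (nat_lit 5) (nat_lit 404) (nat_lit 4) (nat_lit 432) (nat_lit 384) (nat_lit 384)) (XT.lf (nat_lit 0) (nat_lit 4090799225) (nat_lit 836) (nat_lit 1540773654) (nat_lit 0) (nat_lit 1967691777) (nat_lit 382) (nat_lit 5) (nat_lit 393) (nat_lit 4) (nat_lit 382) (nat_lit 4) (nat_lit 433) (nat_lit 384) (nat_lit 383))) (XT.nd (nat_lit 78) (nat_lit 1520) (nat_lit 0) (XT.lf (nat_lit 0) (nat_lit 2060287537) (nat_lit 836) (nat_lit 22595988) (nat_lit 76) (nat_lit 5589167031) (nat_lit 371) (nat_lit 5) (nat_lit 382) (nat_lit 5) (nat_lit 372) (nat_lit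 4) (nat_lit 434) (nat_lit 384) (nat_lit 382)) (XT.lf (nat_lit 0) (nat_lit 1570729325) (nat_lit 760) (nat_lit 6120647815) (nat_lit 760) (nat_lit 56325060) (nat_lit 351) (nat_lit 4) (nat_lit 361) (nat_lit 5) (nat_lit 361) (nat_lit 4) (nat_lit 435) (nat_lit 384) (nat_lit 381)))))) (XT.nd (nat_lit 546) (nat_lit 5472) (nat_lit 0) (XT.nd (nat_lit 234) (nat_lit 3268) (nat_lit 0) (XT.nd (nat_lit 78) (nat_lit 1520) (nat_lit 0) (XT.lf (nat_lit 0) (nat_lit 3202559805) (nat_lit 684) (nat_lit 2327999447) (nat_lit 760) (nat_lit 2295551168) (nat_lit 341) (nat_lit 5) (nat_lit 350) (nat_lit 5) (nat_lit 351) (nat_lit 4) (nat_lit 436) (nat_lit 384) (nat_lit 380)) (XT.nd (nat_lit 78) (nat_lit 760) (nat_lit 0) (XT.lf (nat_lit 0) (nat_lit 3271639306) (nat_lit 760) (nat_lit 3017304317) (nat_lit 76) (nat_lit 1618715323) (nat_lit 331) (nat_lit 5) (nat_lit 341) (nat_lit 5) (nat_lit 332) (nat_lit 4) (nat_lit 437) (nat_lit 384)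 (nat_lit 379)) (XT.lf (nat_lit 0) (nat_lit 917182813) (nat_lit 760) (nat_lit 1362753807) (nat_lit 76) (nat_lit 5712354854) (nat_lit 321) (nat_lit 5) (nat_lit 331) (nat_lit 5) (nat_lit 322) (nat_lit 5) (nat_lit 438) (nat_lit 384) (nat_lit 378)))) (XT.nd (nat_lit 156) (nat_lit 1292) (nat_lit 0) (XT.nd (nat_lit 78) (nat_lit 684) (nat_lit 0) (XT.lf (nat_lit 0) (nat_lit 338153949) (nat_lit 608) (nat_lit 6184973805) (nat_lit 684) (nat_lit 1556743719) (nat_lit 304) (nat_lit 5) (nat_lit 312) (nat_lit 5) (nat_lit 313) (nat_lit 4) (nat_lit 439) (nat_lit 384) (nat_lit 377)) (XT.lf (nat_lit 0) (nat_lit 2100717119) (nat_lit 608) (nat_lit 1933919637) (nat_lit 684) (nat_lit 4135678147) (nat_lit 295) (nat_lit 5) (nat_lit 303) (nat_lit 5) (nat_lit 304) (nat_lit 5) (nat_lit 440) (nat_lit 384) (nat_lit 376))) (XT.nd (nat_lit 78) (nat_lit 608) (nat_lit 0) (XT.lf (nat_lit 0) (nat_lit 1445561293) (nat_lit 684) (nat_lit 4351254024)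 (nat_lit 76) (nat_lit 2467137884) (nat_lit 286) (nat_lit 5) (nat_lit 295) (nat_lit 5) (nat_lit 287) (nat_lit 5) (nat_lit 441) (nat_lit 384) (nat_lit 375)) (XT.lf (nat_lit 0) (nat_lit 5769570269) (nat_lit 608) (nat_lit 1324576508) (nat_lit 684) (nat_lit 1266588733) (nat_lit 278) (nat_lit 5) (nat_lit 286) (nat_lit 5) (nat_lit 287) (nat_lit 5) (nat_lit 442) (nat_lit 384) (nat_lit 374))))) (XT.nd (nat_lit 312) (nat_lit 2584) (nat_lit 0) (XT.nd (nat_lit 156) (nat_lit 1064) (nat_lit 0) (XT.nd (nat_lit 78) (nat_lit 1216) (nat_lit 0) (XT.lf (nat_lit 0) (nat_lit 4360551704) (nat_lit 608) (nat_lit 799252370) (nat_lit 76) (nat_lit 3300699121) (nat_lit 270) (nat_lit 5) (nat_lit 278) (nat_lit 5) (nat_lit 271) (nat_lit 5) (nat_lit 443) (nat_lit 384) (nat_lit 373)) (XT.lf (nat_lit 0) (nat_lit 1061161557) (nat_lit 532) (nat_lit 458391788) (nat_lit 608) (nat_lit 7044061174) (nat_lit 254) (nat_lit 5) (nat_lit 261) (nat_lit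 5) (nat_lit 262) (nat_lit 5) (nat_lit 444) (nat_lit 384) (nat_lit 372))) (XT.nd (nat_lit 78) (nat_lit 532) (nat_lit 0) (XT.lf (nat_lit 0) (nat_lit 2958774731) (nat_lit 532) (nat_lit 4278502539) (nat_lit 608) (nat_lit 1432296280) (nat_lit 247) (nat_lit 5) (nat_lit 254) (nat_lit 5) (nat_lit 255) (nat_lit 5) (nat_lit 445) (nat_lit 384) (nat_lit 371)) (XT.lf (nat_lit 0) (nat_lit 4251606753) (nat_lit 532) (nat_lit 3875313491) (nat_lit 76) (nat_lit 652013332) (nat_lit 240) (nat_lit 5) (nat_lit 247) (nat_lit 5) (nat_lit 241) (nat_lit 5) (nat_lit 446) (nat_lit 384) (nat_lit 370)))) (XT.nd (nat_lit 156) (nat_lit 1520) (nat_lit 0) (XT.nd (nat_lit 78) (nat_lit 456) (nat_lit 0) (XT.lf (nat_lit 0) (nat_lit 1164502223) (nat_lit 608) (nat_lit 2006348011) (nat_lit 76) (nat_lit 5720682540) (nat_lit 232) (nat_lit 5) (nat_lit 240) (nat_lit 5) (nat_lit 233) (nat_lit 5) (nat_lit 447) (nat_lit 384) (nat_lit 369)) (XT.lf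 (nat_lit 0) (nat_lit 6937603419) (nat_lit 532) (nat_lit 101098953) (nat_lit 76) (nat_lit 1968771276) (nat_lit 226) (nat_lit 5) (nat_lit 233) (nat_lit 5) (nat_lit 227) (nat_lit 5) (nat_lit 448) (nat_lit 384) (nat_lit 368))) (XT.nd (nat_lit 78) (nat_lit 532) (nat_lit 0) (XT.lf (nat_lit 0) (nat_lit 1862397083) (nat_lit 456) (nat_lit 1840067149) (nat_lit 532) (nat_lit 5424048595) (nat_lit 213) (nat_lit 5) (nat_lit 219) (nat_lit 5) (nat_lit 220) (nat_lit 5) (nat_lit 449) (nat_lit 384) (nat_lit 367)) (XT.lf (nat_lit 0) (nat_lit 353584786) (nat_lit 532) (nat_lit 5380847446) (nat_lit 76) (nat_lit 3514622556) (nat_lit 206) (nat_lit 5) (nat_lit 213) (nat_lit 5) (nat_lit 207) (nat_lit 5) (nat_lit 450) (nat_lit 384) (nat_lit 366))))))) (XT.nd (nat_lit 1170) (nat_lit 4408) (nat_lit 0) (XT.nd (nat_lit 546) (nat_lit 3572) (nat_lit 0) (XT.nd (nat_lit 234) (nat_lit 1748) (nat_lit 0) (XT.nd (nat_lit 78) (nat_lit 1292)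 (nat_lit 0) (XT.lf (nat_lit 0) (nat_lit 5905734411) (nat_lit 380) (nat_lit 303950766) (nat_lit 456) (nat_lit 3165296585) (nat_lit 201) (nat_lit 5) (nat_lit 206) (nat_lit 5) (nat_lit 207) (nat_lit 5) (nat_lit 451) (nat_lit 384) (nat_lit 365)) (XT.nd (nat_lit 78) (nat_lit 760) (nat_lit 0) (XT.lf (nat_lit 0) (nat_lit 2704027240) (nat_lit 532) (nat_lit 1533108770) (nat_lit 76) (nat_lit 5267134669) (nat_lit 194) (nat_lit 5) (nat_lit 201) (nat_lit 5) (nat_lit 195) (nat_lit 5) (nat_lit 452) (nat_lit 384) (nat_lit 364)) (XT.lf (nat_lit 0) (nat_lit 453410035) (nat_lit 380) (nat_lit 8238377012) (nat_lit 456) (nat_lit 945527781) (nat_lit 184) (nat_lit 5) (nat_lit 189) (nat_lit 5) (nat_lit 190) (nat_lit 5) (nat_lit 453) (nat_lit 384) (nat_lit 363)))) (XT.nd (nat_lit 156) (nat_lit 836) (nat_lit 0) (XT.nd (nat_lit 78) (nat_lit 456) (nat_lit 0) (XT.lf (nat_lit 0) (nat_lit 2476243128) (nat_lit 380) (nat_lit 2553954339)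 (nat_lit 456) (nat_lit 4743253533) (nat_lit 178) (nat_lit 5) (nat_lit 183) (nat_lit 5) (nat_lit 184) (nat_lit 5) (nat_lit 454) (nat_lit 384) (nat_lit 362)) (XT.lf (nat_lit 0) (nat_lit 1239507110) (nat_lit 456) (nat_lit 5372807573) (nat_lit 76) (nat_lit 3301125843) (nat_lit 172) (nat_lit 5) (nat_lit 178) (nat_lit 5) (nat_lit 173) (nat_lit 5) (nat_lit 455) (nat_lit 384) (nat_lit 361))) (XT.nd (nat_lit 78) (nat_lit 456) (nat_lit 0) (XT.lf (nat_lit 0) (nat_lit 6634135775) (nat_lit 380) (nat_lit 698488116) (nat_lit 456) (nat_lit 2724474429) (nat_lit 167) (nat_lit 5) (nat_lit 172) (nat_lit 5) (nat_lit 173) (nat_lit 5) (nat_lit 456) (nat_lit 384) (nat_lit 360)) (XT.lf (nat_lit 0) (nat_lit 3374333293) (nat_lit 456) (nat_lit 1456194850) (nat_lit 76) (nat_lit 5373787572) (nat_lit 161) (nat_lit 5) (nat_lit 167) (nat_lit 5) (nat_lit 162) (nat_lit 5) (nat_lit 457) (nat_lit 384) (nat_lit 359))))) (XT.nd (nat_lit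 312) (nat_lit 1748) (nat_lit 0) (XT.nd (nat_lit 156) (nat_lit 760) (nat_lit 0) (XT.nd (nat_lit 78) (nat_lit 380) (nat_lit 0) (XT.lf (nat_lit 0) (nat_lit 560764600) (nat_lit 380) (nat_lit 9057804396) (nat_lit 456) (nat_lit 737032691) (nat_lit 152) (nat_lit 5) (nat_lit 157) (nat_lit 5) (nat_lit 158) (nat_lit 5) (nat_lit 458) (nat_lit 384) (nat_lit 358)) (XT.lf (nat_lit 0) (nat_lit 2603463020) (nat_lit 304) (nat_lit 2889476835) (nat_lit 380) (nat_lit 5017231374) (nat_lit 147) (nat_lit 5) (nat_lit 151) (nat_lit 5) (nat_lit 152) (nat_lit 5) (nat_lit 459) (nat_lit 384) (nat_lit 357))) (XT.nd (nat_lit 78) (nat_lit 304) (nat_lit 0) (XT.lf (nat_lit 0) (nat_lit 1223939314) (nat_lit 456) (nat_lit 5983335136) (nat_lit 76) (nat_lit 3461656618) (nat_lit 141) (nat_lit 5) (nat_lit 147) (nat_lit 5) (nat_lit 142) (nat_lit 5) (nat_lit 460) (nat_lit 384) (nat_lit 356)) (XT.lf (nat_lit 0) (nat_lit 6790175893) (nat_lit 304)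 (nat_lit 802747649) (nat_lit 380) (nat_lit 3238693614) (nat_lit 137) (nat_lit 5) (nat_lit 141) (nat_lit 5) (nat_lit 142) (nat_lit 5) (nat_lit 461) (nat_lit 384) (nat_lit 355)))) (XT.nd (nat_lit 156) (nat_lit 1064) (nat_lit 0) (XT.nd (nat_lit 78) (nat_lit 304) (nat_lit 0) (XT.lf (nat_lit 0) (nat_lit 3141654700) (nat_lit 380) (nat_lit 2086555405) (nat_lit 76) (nat_lit 5769981224) (nat_lit 132) (nat_lit 5) (nat_lit 137) (nat_lit 5) (nat_lit 133) (nat_lit 5) (nat_lit 462) (nat_lit 384) (nat_lit 354)) (XT.lf (nat_lit 0) (nat_lit 9677631420) (nat_lit 380) (nat_lit 96498370) (nat_lit 76) (nat_lit 1395041868) (nat_lit 128) (nat_lit 5) (nat_lit 133) (nat_lit 5) (nat_lit 129) (nat_lit 5) (nat_lit 463) (nat_lit 384) (nat_lit 353))) (XT.nd (nat_lit 78) (nat_lit 380) (nat_lit 0) (XT.lf (nat_lit 0) (nat_lit 1922447592) (nat_lit 304) (nat_lit 3119035369) (nat_lit 380) (nat_lit 6302272252) (nat_lit 119) (nat_lit 5)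 (nat_lit 123) (nat_lit 5) (nat_lit 124) (nat_lit 5) (nat_lit 464) (nat_lit 384) (nat_lit 352)) (XT.lf (nat_lit 0) (nat_lit 246840679) (nat_lit 380) (nat_lit 7544134413) (nat_lit 76) (nat_lit 3731916626) (nat_lit 114) (nat_lit 5) (nat_lit 119) (nat_lit 5) (nat_lit 115) (nat_lit 5) (nat_lit 465) (nat_lit 384) (nat_lit 351)))))) (XT.nd (nat_lit 546) (nat_lit 2204) (nat_lit 0) (XT.nd (nat_lit 234) (nat_lit 1368) (nat_lit 0) (XT.nd (nat_lit 78) (nat_lit 608) (nat_lit 0) (XT.lf (nat_lit 0) (nat_lit 6044214690) (nat_lit 228) (nat_lit 883768723) (nat_lit 304) (nat_lit 4778163443) (nat_lit 111) (nat_lit 5) (nat_lit 114) (nat_lit 5) (nat_lit 115) (nat_lit 5) (nat_lit 466) (nat_lit 384) (nat_lit 350)) (XT.nd (nat_lit 78) (nat_lit 228) (nat_lit 0) (XT.lf (nat_lit 0) (nat_lit 1932370852) (nat_lit 380) (nat_lit 3765196820) (nat_lit 76) (nat_lit 6196228157) (nat_lit 106) (nat_lit 5) (nat_lit 111) (nat_lit 5) (nat_lit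 107) (nat_lit 5) (nat_lit 467) (nat_lit 384) (nat_lit 349)) (XT.lf (nat_lit 0) (nat_lit 8799175137) (nat_lit 304) (nat_lit 1847921015) (nat_lit 76) (nat_lit 1438950228) (nat_lit 103) (nat_lit 5) (nat_lit 107) (nat_lit 5) (nat_lit 104) (nat_lit 5) (nat_lit 468) (nat_lit 384) (nat_lit 348)))) (XT.nd (nat_lit 156) (nat_lit 532) (nat_lit 0) (XT.nd (nat_lit 78) (nat_lit 228) (nat_lit 0) (XT.lf (nat_lit 0) (nat_lit 76627358) (nat_lit 228) (nat_lit 3509556307) (nat_lit 304) (nat_lit 8696509600) (nat_lit 95) (nat_lit 5) (nat_lit 98) (nat_lit 5) (nat_lit 99) (nat_lit 5) (nat_lit 469) (nat_lit 384) (nat_lit 347)) (XT.lf (nat_lit 0) (nat_lit 2046599358) (nat_lit 228) (nat_lit 8620487953) (nat_lit 304) (nat_lit 1816792567) (nat_lit 92) (nat_lit 5) (nat_lit 95) (nat_lit 5) (nat_lit 96) (nat_lit 5) (nat_lit 470) (nat_lit 384) (nat_lit 346))) (XT.nd (nat_lit 78) (nat_lit 228) (nat_lit 0) (XT.lf (nat_lit 0) (nat_lit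 4026979565) (nat_lit 228) (nat_lit 1207179844) (nat_lit 304) (nat_lit 7455580463) (nat_lit 88) (nat_lit 5) (nat_lit 91) (nat_lit 5) (nat_lit 92) (nat_lit 5) (nat_lit 471) (nat_lit 384) (nat_lit 345)) (XT.lf (nat_lit 0) (nat_lit 6021526204) (nat_lit 228) (nat_lit 6504989542) (nat_lit 304) (nat_lit 373929579) (nat_lit 85) (nat_lit 5) (nat_lit 88) (nat_lit 5) (nat_lit 89) (nat_lit 5) (nat_lit 472) (nat_lit 384) (nat_lit 344))))) (XT.nd (nat_lit 312) (nat_lit 912) (nat_lit 0) (XT.nd (nat_lit 156) (nat_lit 684) (nat_lit 0) (XT.nd (nat_lit 78) (nat_lit 304) (nat_lit 0) (XT.lf (nat_lit 0) (nat_lit 6859880474) (nat_lit 304) (nat_lit 5092490123) (nat_lit 76) (nat_lit 1163594330) (nat_lit 81) (nat_lit 5) (nat_lit 85) (nat_lit 5) (nat_lit 82) (nat_lit 5) (nat_lit 473) (nat_lit 384) (nat_lit 343)) (XT.lf (nat_lit 0) (nat_lit 1015889529) (nat_lit 304) (nat_lit 3295789835) (nat_lit 76) (nat_lit 9024879430) (nat_lit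 77) (nat_lit 5) (nat_lit 81) (nat_lit 5) (nat_lit 78) (nat_lit 5) (nat_lit 474) (nat_lit 384) (nat_lit 342))) (XT.nd (nat_lit 78) (nat_lit 456) (nat_lit 0) (XT.lf (nat_lit 0) (nat_lit 8464218949) (nat_lit 304) (nat_lit 1501623264) (nat_lit 76) (nat_lit 3596238267) (nat_lit 74) (nat_lit 5) (nat_lit 78) (nat_lit 5) (nat_lit 75) (nat_lit 5) (nat_lit 475) (nat_lit 384) (nat_lit 341)) (XT.lf (nat_lit 0) (nat_lit 314835175) (nat_lit 152) (nat_lit 2048513976) (nat_lit 228) (nat_lit 11429666857) (nat_lit 68) (nat_lit 5) (nat_lit 70) (nat_lit 5) (nat_lit 71) (nat_lit 5) (nat_lit 476) (nat_lit 384) (nat_lit 340)))) (XT.nd (nat_lit 156) (nat_lit 456) (nat_lit 0) (XT.nd (nat_lit 78) (nat_lit 228) (nat_lit 0) (XT.lf (nat_lit 0) (nat_lit 2139558580) (nat_lit 228) (nat_lit 7913271917) (nat_lit 304) (nat_lit 3975902111) (nat_lit 65) (nat_lit 5) (nat_lit 68) (nat_lit 5) (nat_lit 69) (nat_lit 5) (nat_lit 477) (nat_lit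 384) (nat_lit 339)) (XT.lf (nat_lit 0) (nat_lit 3693997238) (nat_lit 228) (nat_lit 10283373484) (nat_lit 76) (nat_lit 292848779) (nat_lit 62) (nat_lit 5) (nat_lit 65) (nat_lit 5) (nat_lit 63) (nat_lit 5) (nat_lit 478) (nat_lit 384) (nat_lit 338))) (XT.nd (nat_lit 78) (nat_lit 228) (nat_lit 0) (XT.lf (nat_lit 0) (nat_lit 5816338182) (nat_lit 228) (nat_lit 5804496166) (nat_lit 304) (nat_lit 2895974650) (nat_lit 59) (nat_lit 5) (nat_lit 62) (nat_lit 5) (nat_lit 63) (nat_lit 5) (nat_lit 479) (nat_lit 384) (nat_lit 337)) (XT.lf (nat_lit 0) (nat_lit 4996176046) (nat_lit 228) (nat_lit 7112000514) (nat_lit 76) (nat_lit 2661023893) (nat_lit 56) (nat_lit 5) (nat_lit 59) (nat_lit 5) (nat_lit 57) (nat_lit 5) (nat_lit 480) (nat_lit 384) (nat_lit 336))))))))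
noncomputable def xc15 : XT := (XT.nd (nat_lit 60060) (nat_lit 0) (nat_lit 2356) (XT.nd (nat_lit 58890) (nat_lit 0) (nat_lit 14288) (XT.nd (nat_lit 546) (nat_lit 304) (nat_lit 0) (XT.nd (nat_lit 234) (nat_lit 988) (nat_lit 0) (XT.nd (nat_lit 78) (nat_lit 380) (nat_lit 0) (XT.lf (nat_lit 0) (nat_lit 9501098432) (nat_lit 228) (nat_lit 3655626512) (nat_lit 304) (nat_lit 1870636994) (nat_lit 53) (nat_lit 5) (nat_lit 56) (nat_lit 5) (nat_lit 57) (nat_lit 5) (nat_lit 481) (nat_lit 384) (nat_lit 335)) (XT.nd (nat_lit 78) (nat_lit 152) (nat_lit 0) (XT.lf (nat_lit 0) (nat_lit 6254196909) (nat_lit 228) (nat_lit 3959692649) (nat_lit 76) (nat_lit 5077213524) (nat_lit 50) (nat_lit 5) (nat_lit 53) (nat_lit 5) (nat_lit 51) (nat_lit 5) (nat_lit 482) (nat_lit 384) (nat_lit 334)) (XT.lf (nat_lit 0) (nat_lit 13185307825) (nat_lit 152) (nat_lit 1472914956) (nat_lit 228) (nat_lit 903069804) (nat_lit 48) (nat_lit 5) (nat_lit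 50) (nat_lit 5) (nat_lit 51) (nat_lit 5) (nat_lit 483) (nat_lit 384) (nat_lit 333)))) (XT.nd (nat_lit 156) (nat_lit 380) (nat_lit 0) (XT.nd (nat_lit 78) (nat_lit 380) (nat_lit 0) (XT.lf (nat_lit 0) (nat_lit 7464975372) (nat_lit 228) (nat_lit 836357897) (nat_lit 76) (nat_lit 7535519963) (nat_lit 45) (nat_lit 5) (nat_lit 48) (nat_lit 5) (nat_lit 46) (nat_lit 5) (nat_lit 484) (nat_lit 384) (nat_lit 332)) (XT.lf (nat_lit 0) (nat_lit 12445375) (nat_lit 228) (nat_lit 15374570465) (nat_lit 76) (nat_lit 732340910) (nat_lit 40) (nat_lit 5) (nat_lit 43) (nat_lit 5) (nat_lit 41) (nat_lit 5) (nat_lit 485) (nat_lit 384) (nat_lit 331))) (XT.nd (nat_lit 78) (nat_lit 228) (nat_lit 0) (XT.lf (nat_lit 0) (nat_lit 2276844835) (nat_lit 152) (nat_lit 6362616263) (nat_lit 228) (nat_lit 7767670013) (nat_lit 38) (nat_lit 5) (nat_lit 40) (nat_lit 5) (nat_lit 41) (nat_lit 5) (nat_lit 486) (nat_lit 384) (nat_lit 330)) (XT.lf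 (nat_lit 0) (nat_lit 875674480) (nat_lit 228) (nat_lit 12867226100) (nat_lit 76) (nat_lit 2959237898) (nat_lit 35) (nat_lit 5) (nat_lit 38) (nat_lit 5) (nat_lit 36) (nat_lit 5) (nat_lit 487) (nat_lit 384) (nat_lit 329))))) (XT.nd (nat_lit 58032) (nat_lit 0) (nat_lit 25840) (XT.nd (nat_lit 78) (nat_lit 152) (nat_lit 0) (XT.lf (nat_lit 0) (nat_lit 5348194298) (nat_lit 152) (nat_lit 4415193644) (nat_lit 228) (nat_lit 7239769753) (nat_lit 33) (nat_lit 5) (nat_lit 35) (nat_lit 5) (nat_lit 36) (nat_lit 5) (nat_lit 488) (nat_lit 384) (nat_lit 328)) (XT.nd (nat_lit 57876) (nat_lit 0) (nat_lit 29260) (XT.lf (nat_lit 0) (nat_lit 1667492046) (nat_lit 152) (nat_lit 10445757658) (nat_lit 76) (nat_lit 5198069728) (nat_lit 31) (nat_lit 5) (nat_lit 33) (nat_lit 5) (nat_lit 32) (nat_lit 5) (nat_lit 489) (nat_lit 384) (nat_lit 327)) (XT.lf (nat_lit 0) (nat_lit 851881968) (nat_lit 912) (nat_lit 1423369705) (nat_lit 912)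 (nat_lit 1423369705) (nat_lit 416) (nat_lit 4) (nat_lit 428) (nat_lit 5) (nat_lit 428) (nat_lit 4) (nat_lit 430) (nat_lit 385) (nat_lit 385)))) (XT.nd (nat_lit 156) (nat_lit 1596) (nat_lit 0) (XT.nd (nat_lit 78) (nat_lit 912) (nat_lit 0) (XT.lf (nat_lit 0) (nat_lit 2637657931) (nat_lit 912) (nat_lit 4417911837) (nat_lit 0) (nat_lit 407121246) (nat_lit 404) (nat_lit 5) (nat_lit 416) (nat_lit 4) (nat_lit 404) (nat_lit 4) (nat_lit 431) (nat_lit 385) (nat_lit 384)) (XT.lf (nat_lit 0) (nat_lit 642844983) (nat_lit 912) (nat_lit 3097559414) (nat_lit 76) (nat_lit 3790552325) (nat_lit 392) (nat_lit 5) (nat_lit 404) (nat_lit 5) (nat_lit 393) (nat_lit 4) (nat_lit 432) (nat_lit 385) (nat_lit 383))) (XT.nd (nat_lit 78) (nat_lit 836) (nat_lit 0) (XT.lf (nat_lit 0) (nat_lit 5879602009) (nat_lit 760) (nat_lit 248221279) (nat_lit 836) (nat_lit 1474441936) (nat_lit 382) (nat_lit 5) (nat_lit 392) (nat_lit 5) (nat_lit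 393) (nat_lit 4) (nat_lit 433) (nat_lit 385) (nat_lit 382)) (XT.lf (nat_lit 0) (nat_lit 3991362022) (nat_lit 836) (nat_lit 309858595) (nat_lit 76) (nat_lit 3375094193) (nat_lit 371) (nat_lit 5) (nat_lit 382) (nat_lit 5) (nat_lit 372) (nat_lit 4) (nat_lit 434) (nat_lit 385) (nat_lit 381)))))) (XT.nd (nat_lit 546) (nat_lit 5092) (nat_lit 0) (XT.nd (nat_lit 234) (nat_lit 3420) (nat_lit 0) (XT.nd (nat_lit 78) (nat_lit 1444) (nat_lit 0) (XT.lf (nat_lit 0) (nat_lit 1181003840) (nat_lit 760) (nat_lit 577382304) (nat_lit 836) (nat_lit 5995091015) (nat_lit 350) (nat_lit 5) (nat_lit 360) (nat_lit 5) (nat_lit 361) (nat_lit 5) (nat_lit 435) (nat_lit 385) (nat_lit 380)) (XT.nd (nat_lit 78) (nat_lit 760) (nat_lit 0) (XT.lf (nat_lit 0) (nat_lit 2716298538) (nat_lit 684) (nat_lit 4550412746) (nat_lit 760) (nat_lit 566725372) (nat_lit 341) (nat_lit 5) (nat_lit 350) (nat_lit 5) (nat_lit 351) (nat_lit 4) (nat_lit 436)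 (nat_lit 385) (nat_lit 379)) (XT.lf (nat_lit 0) (nat_lit 4301263178) (nat_lit 684) (nat_lit 592111863) (nat_lit 760) (nat_lit 3023076049) (nat_lit 331) (nat_lit 5) (nat_lit 340) (nat_lit 5) (nat_lit 341) (nat_lit 5) (nat_lit 437) (nat_lit 385) (nat_lit 378)))) (XT.nd (nat_lit 156) (nat_lit 1976) (nat_lit 0) (XT.nd (nat_lit 78) (nat_lit 684) (nat_lit 0) (XT.lf (nat_lit 0) (nat_lit 2431628696) (nat_lit 760) (nat_lit 2073253258) (nat_lit 76) (nat_lit 3497541067) (nat_lit 321) (nat_lit 5) (nat_lit 331) (nat_lit 5) (nat_lit 322) (nat_lit 5) (nat_lit 438) (nat_lit 385) (nat_lit 377)) (XT.lf (nat_lit 0) (nat_lit 7618643303) (nat_lit 684) (nat_lit 331524397) (nat_lit 760) (nat_lit 141585359) (nat_lit 312) (nat_lit 5) (nat_lit 321) (nat_lit 5) (nat_lit 322) (nat_lit 5) (nat_lit 439) (nat_lit 385) (nat_lit 376))) (XT.nd (nat_lit 78) (nat_lit 684) (nat_lit 0) (XT.lf (nat_lit 0) (nat_lit 1163476977) (nat_lit 608)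 (nat_lit 4189149652) (nat_lit 684) (nat_lit 2830960092) (nat_lit 295) (nat_lit 5) (nat_lit 303) (nat_lit 5) (nat_lit 304) (nat_lit 5) (nat_lit 440) (nat_lit 385) (nat_lit 375)) (XT.lf (nat_lit 0) (nat_lit 2645226309) (nat_lit 684) (nat_lit 5411830584) (nat_lit 76) (nat_lit 221759272) (nat_lit 286) (nat_lit 5) (nat_lit 295) (nat_lit 5) (nat_lit 287) (nat_lit 5) (nat_lit 441) (nat_lit 385) (nat_lit 374))))) (XT.nd (nat_lit 312) (nat_lit 2128) (nat_lit 0) (XT.nd (nat_lit 156) (nat_lit 1748) (nat_lit 0) (XT.nd (nat_lit 78) (nat_lit 608) (nat_lit 0) (XT.lf (nat_lit 0) (nat_lit 4606114704) (nat_lit 608) (nat_lit 3615090547) (nat_lit 684) (nat_lit 155847043) (nat_lit 278) (nat_lit 5) (nat_lit 286) (nat_lit 5) (nat_lit 287) (nat_lit 5) (nat_lit 442) (nat_lit 385) (nat_lit 373)) (XT.lf (nat_lit 0) (nat_lit 5369174828) (nat_lit 608) (nat_lit 2092816793) (nat_lit 76) (nat_lit 1016436751) (nat_lit 270) (nat_lit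 5) (nat_lit 278) (nat_lit 5) (nat_lit 271) (nat_lit 5) (nat_lit 443) (nat_lit 385) (nat_lit 372))) (XT.nd (nat_lit 78) (nat_lit 1064) (nat_lit 0) (XT.lf (nat_lit 0) (nat_lit 2417831504) (nat_lit 684) (nat_lit 376737059) (nat_lit 76) (nat_lit 5788432550) (nat_lit 261) (nat_lit 5) (nat_lit 270) (nat_lit 5) (nat_lit 262) (nat_lit 5) (nat_lit 444) (nat_lit 385) (nat_lit 371)) (XT.lf (nat_lit 0) (nat_lit 1402801037) (nat_lit 532) (nat_lit 6642155151) (nat_lit 608) (nat_lit 645817426) (nat_lit 247) (nat_lit 5) (nat_lit 254) (nat_lit 5) (nat_lit 255) (nat_lit 5) (nat_lit 445) (nat_lit 385) (nat_lit 370)))) (XT.nd (nat_lit 156) (nat_lit 988) (nat_lit 0) (XT.nd (nat_lit 78) (nat_lit 608) (nat_lit 0) (XT.lf (nat_lit 0) (nat_lit 3215720302) (nat_lit 456) (nat_lit 1734795935) (nat_lit 532) (nat_lit 3851061780) (nat_lit 240) (nat_lit 5) (nat_lit 246) (nat_lit 5) (nat_lit 247) (nat_lit 5) (nat_lit 446) (nat_lit 385)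 (nat_lit 369)) (XT.lf (nat_lit 0) (nat_lit 1747422983) (nat_lit 608) (nat_lit 3844957986) (nat_lit 76) (nat_lit 3323399276) (nat_lit 232) (nat_lit 5) (nat_lit 240) (nat_lit 5) (nat_lit 233) (nat_lit 5) (nat_lit 447) (nat_lit 385) (nat_lit 368))) (XT.nd (nat_lit 78) (nat_lit 532) (nat_lit 0) (XT.lf (nat_lit 0) (nat_lit 6968581429) (nat_lit 456) (nat_lit 466242127) (nat_lit 532) (nat_lit 1598612882) (nat_lit 226) (nat_lit 5) (nat_lit 232) (nat_lit 5) (nat_lit 233) (nat_lit 5) (nat_lit 448) (nat_lit 385) (nat_lit 367)) (XT.lf (nat_lit 0) (nat_lit 4079394657) (nat_lit 532) (nat_lit 266402803) (nat_lit 76) (nat_lit 4808381132) (nat_lit 219) (nat_lit 5) (nat_lit 226) (nat_lit 5) (nat_lit 220) (nat_lit 5) (nat_lit 449) (nat_lit 385) (nat_lit 366))))))) (XT.nd (nat_lit 1170) (nat_lit 4636) (nat_lit 0) (XT.nd (nat_lit 546) (nat_lit 3344) (nat_lit 0) (XT.nd (nat_lit 234) (nat_lit 2052) (nat_lit 0) (XT.nd (nat_lit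 78) (nat_lit 912) (nat_lit 0) (XT.lf (nat_lit 0) (nat_lit 605924208) (nat_lit 532) (nat_lit 7673342572) (nat_lit 76) (nat_lit 999256495) (nat_lit 206) (nat_lit 5) (nat_lit 213) (nat_lit 5) (nat_lit 207) (nat_lit 5) (nat_lit 450) (nat_lit 385) (nat_lit 365)) (XT.nd (nat_lit 78) (nat_lit 532) (nat_lit 0) (XT.lf (nat_lit 0) (nat_lit 3494349700) (nat_lit 380) (nat_lit 2893771082) (nat_lit 456) (nat_lit 3017808693) (nat_lit 201) (nat_lit 5) (nat_lit 206) (nat_lit 5) (nat_lit 207) (nat_lit 5) (nat_lit 451) (nat_lit 385) (nat_lit 364)) (XT.lf (nat_lit 0) (nat_lit 2758341221) (nat_lit 532) (nat_lit 4111937499) (nat_lit 76) (nat_lit 2666746405) (nat_lit 194) (nat_lit 5) (nat_lit 201) (nat_lit 5) (nat_lit 195) (nat_lit 5) (nat_lit 452) (nat_lit 385) (nat_lit 363)))) (XT.nd (nat_lit 156) (nat_lit 1216) (nat_lit 0) (XT.nd (nat_lit 78) (nat_lit 456) (nat_lit 0) (XT.lf (nat_lit 0) (nat_lit 7393811058) (nat_lit 380)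 (nat_lit 1266075460) (nat_lit 456) (nat_lit 1011908107) (nat_lit 189) (nat_lit 5) (nat_lit 194) (nat_lit 5) (nat_lit 195) (nat_lit 5) (nat_lit 453) (nat_lit 385) (nat_lit 362)) (XT.lf (nat_lit 0) (nat_lit 4868720215) (nat_lit 456) (nat_lit 431492058) (nat_lit 76) (nat_lit 4509647506) (nat_lit 183) (nat_lit 5) (nat_lit 189) (nat_lit 5) (nat_lit 184) (nat_lit 5) (nat_lit 454) (nat_lit 385) (nat_lit 361))) (XT.nd (nat_lit 78) (nat_lit 380) (nat_lit 0) (XT.lf (nat_lit 0) (nat_lit 947333066) (nat_lit 456) (nat_lit 8468482740) (nat_lit 76) (nat_lit 535997822) (nat_lit 172) (nat_lit 5) (nat_lit 178) (nat_lit 5) (nat_lit 173) (nat_lit 5) (nat_lit 455) (nat_lit 385) (nat_lit 360)) (XT.lf (nat_lit 0) (nat_lit 3409799265) (nat_lit 380) (nat_lit 3554725333) (nat_lit 456) (nat_lit 3132466264) (nat_lit 167) (nat_lit 5) (nat_lit 172) (nat_lit 5) (nat_lit 173) (nat_lit 5) (nat_lit 456) (nat_lit 385) (nat_lit 359)))))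 (XT.nd (nat_lit 312) (nat_lit 1368) (nat_lit 0) (XT.nd (nat_lit 156) (nat_lit 1216) (nat_lit 0) (XT.nd (nat_lit 78) (nat_lit 304) (nat_lit 0) (XT.lf (nat_lit 0) (nat_lit 2876460128) (nat_lit 456) (nat_lit 4870514251) (nat_lit 76) (nat_lit 2499192390) (nat_lit 161) (nat_lit 5) (nat_lit 167) (nat_lit 5) (nat_lit 162) (nat_lit 5) (nat_lit 457) (nat_lit 385) (nat_lit 358)) (XT.lf (nat_lit 0) (nat_lit 7371774183) (nat_lit 304) (nat_lit 1660277423) (nat_lit 380) (nat_lit 1367174883) (nat_lit 157) (nat_lit 5) (nat_lit 161) (nat_lit 5) (nat_lit 162) (nat_lit 5) (nat_lit 458) (nat_lit 385) (nat_lit 357))) (XT.nd (nat_lit 78) (nat_lit 760) (nat_lit 0) (XT.lf (nat_lit 0) (nat_lit 4769763264) (nat_lit 456) (nat_lit 1174623565) (nat_lit 76) (nat_lit 4611517826) (nat_lit 151) (nat_lit 5) (nat_lit 157) (nat_lit 5) (nat_lit 152) (nat_lit 5) (nat_lit 459) (nat_lit 385) (nat_lit 356)) (XT.lf (nat_lit 0) (nat_lit 358332492)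 (nat_lit 456) (nat_lit 9983007853) (nat_lit 76) (nat_lit 375560401) (nat_lit 141) (nat_lit 5) (nat_lit 147) (nat_lit 5) (nat_lit 142) (nat_lit 5) (nat_lit 460) (nat_lit 385) (nat_lit 355)))) (XT.nd (nat_lit 156) (nat_lit 684) (nat_lit 0) (XT.nd (nat_lit 78) (nat_lit 380) (nat_lit 0) (XT.lf (nat_lit 0) (nat_lit 2651008328) (nat_lit 304) (nat_lit 3997309082) (nat_lit 380) (nat_lit 4232850168) (nat_lit 137) (nat_lit 5) (nat_lit 141) (nat_lit 5) (nat_lit 142) (nat_lit 5) (nat_lit 461) (nat_lit 385) (nat_lit 354)) (XT.lf (nat_lit 0) (nat_lit 2059790933) (nat_lit 380) (nat_lit 6440120592) (nat_lit 76) (nat_lit 2549974959) (nat_lit 132) (nat_lit 5) (nat_lit 137) (nat_lit 5) (nat_lit 133) (nat_lit 5) (nat_lit 462) (nat_lit 385) (nat_lit 353))) (XT.nd (nat_lit 78) (nat_lit 380) (nat_lit 0) (XT.lf (nat_lit 0) (nat_lit 6585557454) (nat_lit 304) (nat_lit 1921095764) (nat_lit 380) (nat_lit 2715996586) (nat_lit 128)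 (nat_lit 5) (nat_lit 132) (nat_lit 5) (nat_lit 133) (nat_lit 5) (nat_lit 463) (nat_lit 385) (nat_lit 352)) (XT.lf (nat_lit 0) (nat_lit 3727163186) (nat_lit 380) (nat_lit 2822303454) (nat_lit 76) (nat_lit 4850044834) (nat_lit 123) (nat_lit 5) (nat_lit 128) (nat_lit 5) (nat_lit 124) (nat_lit 5) (nat_lit 464) (nat_lit 385) (nat_lit 351)))))) (XT.nd (nat_lit 546) (nat_lit 2204) (nat_lit 0) (XT.nd (nat_lit 234) (nat_lit 1140) (nat_lit 0) (XT.nd (nat_lit 78) (nat_lit 988) (nat_lit 0) (XT.lf (nat_lit 0) (nat_lit 10341740303) (nat_lit 380) (nat_lit 972325980) (nat_lit 76) (nat_lit 266954527) (nat_lit 119) (nat_lit 5) (nat_lit 124) (nat_lit 5) (nat_lit 120) (nat_lit 5) (nat_lit 465) (nat_lit 385) (nat_lit 350)) (XT.nd (nat_lit 78) (nat_lit 380) (nat_lit 0) (XT.lf (nat_lit 0) (nat_lit 878457649) (nat_lit 228) (nat_lit 4490095544) (nat_lit 304) (nat_lit 6397675546) (nat_lit 111) (nat_lit 5) (nat_lit 114) (nat_lit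 5) (nat_lit 115) (nat_lit 5) (nat_lit 466) (nat_lit 385) (nat_lit 349)) (XT.lf (nat_lit 0) (nat_lit 226306108) (nat_lit 380) (nat_lit 9172092988) (nat_lit 76) (nat_lit 2557845358) (nat_lit 106) (nat_lit 5) (nat_lit 111) (nat_lit 5) (nat_lit 107) (nat_lit 5) (nat_lit 467) (nat_lit 385) (nat_lit 348)))) (XT.nd (nat_lit 156) (nat_lit 532) (nat_lit 0) (XT.nd (nat_lit 78) (nat_lit 380) (nat_lit 0) (XT.lf (nat_lit 0) (nat_lit 4685413071) (nat_lit 228) (nat_lit 2313795608) (nat_lit 304) (nat_lit 5151164932) (nat_lit 103) (nat_lit 5) (nat_lit 106) (nat_lit 5) (nat_lit 107) (nat_lit 5) (nat_lit 468) (nat_lit 385) (nat_lit 347)) (XT.lf (nat_lit 0) (nat_lit 1645103615) (nat_lit 380) (nat_lit 5737405450) (nat_lit 76) (nat_lit 4966778796) (nat_lit 98) (nat_lit 5) (nat_lit 103) (nat_lit 5) (nat_lit 99) (nat_lit 5) (nat_lit 469) (nat_lit 385) (nat_lit 346))) (XT.nd (nat_lit 78) (nat_lit 304) (nat_lit 0) (XT.lf (nat_lit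 0) (nat_lit 8557170708) (nat_lit 228) (nat_lit 44834054) (nat_lit 304) (nat_lit 3950950289) (nat_lit 95) (nat_lit 5) (nat_lit 98) (nat_lit 5) (nat_lit 99) (nat_lit 5) (nat_lit 470) (nat_lit 385) (nat_lit 345)) (XT.lf (nat_lit 0) (nat_lit 3027780688) (nat_lit 304) (nat_lit 2258899760) (nat_lit 76) (nat_lit 7474416442) (nat_lit 91) (nat_lit 5) (nat_lit 95) (nat_lit 5) (nat_lit 92) (nat_lit 5) (nat_lit 471) (nat_lit 385) (nat_lit 344))))) (XT.nd (nat_lit 312) (nat_lit 912) (nat_lit 0) (XT.nd (nat_lit 156) (nat_lit 532) (nat_lit 0) (XT.nd (nat_lit 78) (nat_lit 532) (nat_lit 0) (XT.lf (nat_lit 0) (nat_lit 10192911367) (nat_lit 304) (nat_lit 500085349) (nat_lit 76) (nat_lit 2281350628) (nat_lit 88) (nat_lit 5) (nat_lit 92) (nat_lit 5) (nat_lit 89) (nat_lit 5) (nat_lit 472) (nat_lit 385) (nat_lit 343)) (XT.lf (nat_lit 0) (nat_lit 1275143820) (nat_lit 228) (nat_lit 3107823235) (nat_lit 304) (nat_lit 8809232614)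 (nat_lit 81) (nat_lit 5) (nat_lit 84) (nat_lit 5) (nat_lit 85) (nat_lit 5) (nat_lit 473) (nat_lit 385) (nat_lit 342))) (XT.nd (nat_lit 78) (nat_lit 304) (nat_lit 0) (XT.lf (nat_lit 0) (nat_lit 3071374575) (nat_lit 228) (nat_lit 8706777084) (nat_lit 304) (nat_lit 1636996348) (nat_lit 78) (nat_lit 5) (nat_lit 81) (nat_lit 5) (nat_lit 82) (nat_lit 5) (nat_lit 474) (nat_lit 385) (nat_lit 341)) (XT.lf (nat_lit 0) (nat_lit 4873028641) (nat_lit 228) (nat_lit 844263721) (nat_lit 304) (nat_lit 7925900533) (nat_lit 74) (nat_lit 5) (nat_lit 77) (nat_lit 5) (nat_lit 78) (nat_lit 5) (nat_lit 475) (nat_lit 385) (nat_lit 340)))) (XT.nd (nat_lit 156) (nat_lit 456) (nat_lit 0) (XT.nd (nat_lit 78) (nat_lit 228) (nat_lit 0) (XT.lf (nat_lit 0) (nat_lit 6679980186) (nat_lit 228) (nat_lit 6660914789) (nat_lit 304) (nat_lit 535550077) (nat_lit 71) (nat_lit 5) (nat_lit 74) (nat_lit 5) (nat_lit 75) (nat_lit 5) (nat_lit 476)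 (nat_lit 385) (nat_lit 339)) (XT.lf (nat_lit 0) (nat_lit 7024770050) (nat_lit 228) (nat_lit 5626081235) (nat_lit 76) (nat_lit 1464104006) (nat_lit 68) (nat_lit 5) (nat_lit 71) (nat_lit 5) (nat_lit 69) (nat_lit 5) (nat_lit 477) (nat_lit 385) (nat_lit 338))) (XT.nd (nat_lit 78) (nat_lit 152) (nat_lit 0) (XT.lf (nat_lit 0) (nat_lit 511286380) (nat_lit 304) (nat_lit 4049701120) (nat_lit 76) (nat_lit 9798044903) (nat_lit 64) (nat_lit 5) (nat_lit 68) (nat_lit 5) (nat_lit 65) (nat_lit 5) (nat_lit 478) (nat_lit 385) (nat_lit 337)) (XT.lf (nat_lit 0) (nat_lit 8300295088) (nat_lit 228) (nat_lit 2488516506) (nat_lit 76) (nat_lit 3819567240) (nat_lit 62) (nat_lit 5) (nat_lit 65) (nat_lit 5) (nat_lit 63) (nat_lit 5) (nat_lit 479) (nat_lit 385) (nat_lit 336))))))))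
noncomputable def xc16 : XT := (XT.nd (nat_lit 59904) (nat_lit 0) (nat_lit 3344) (XT.nd (nat_lit 58734) (nat_lit 0) (nat_lit 15732) (XT.nd (nat_lit 546) (nat_lit 532) (nat_lit 0) (XT.nd (nat_lit 234) (nat_lit 760) (nat_lit 0) (XT.nd (nat_lit 78) (nat_lit 608) (nat_lit 0) (XT.lf (nat_lit 0) (nat_lit 1501850399) (nat_lit 304) (nat_lit 911112107) (nat_lit 76) (nat_lit 12450790545) (nat_lit 58) (nat_lit 5) (nat_lit 62) (nat_lit 5) (nat_lit 59) (nat_lit 5) (nat_lit 480) (nat_lit 385) (nat_lit 335)) (XT.nd (nat_lit 78) (nat_lit 228) (nat_lit 0) (XT.lf (nat_lit 0) (nat_lit 648296785) (nat_lit 228) (nat_lit 8892311615) (nat_lit 304) (nat_lit 5583742292) (nat_lit 53) (nat_lit 5) (nat_lit 56) (nat_lit 5) (nat_lit 57) (nat_lit 5) (nat_lit 481) (nat_lit 385) (nat_lit 334)) (XT.lf (nat_lit 0) (nat_lit 2243547744) (nat_lit 152) (nat_lit 211471077) (nat_lit 228) (nat_lit 12936250911) (nat_lit 50) (nat_lit 5) (nat_lit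 52) (nat_lit 5) (nat_lit 53) (nat_lit 5) (nat_lit 482) (nat_lit 385) (nat_lit 333)))) (XT.nd (nat_lit 156) (nat_lit 380) (nat_lit 0) (XT.nd (nat_lit 78) (nat_lit 228) (nat_lit 0) (XT.lf (nat_lit 0) (nat_lit 3799575857) (nat_lit 152) (nat_lit 6955532502) (nat_lit 228) (nat_lit 4908429915) (nat_lit 48) (nat_lit 5) (nat_lit 50) (nat_lit 5) (nat_lit 51) (nat_lit 5) (nat_lit 483) (nat_lit 385) (nat_lit 332)) (XT.lf (nat_lit 0) (nat_lit 3371825986) (nat_lit 228) (nat_lit 10568808430) (nat_lit 76) (nat_lit 2001791317) (nat_lit 45) (nat_lit 5) (nat_lit 48) (nat_lit 5) (nat_lit 46) (nat_lit 5) (nat_lit 484) (nat_lit 385) (nat_lit 331))) (XT.nd (nat_lit 78) (nat_lit 228) (nat_lit 0) (XT.lf (nat_lit 0) (nat_lit 6921991037) (nat_lit 152) (nat_lit 5002017236) (nat_lit 228) (nat_lit 4303219135) (nat_lit 43) (nat_lit 5) (nat_lit 45) (nat_lit 5) (nat_lit 46) (nat_lit 5) (nat_lit 485) (nat_lit 385) (nat_lit 330)) (XT.lf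 (nat_lit 0) (nat_lit 4230415183) (nat_lit 228) (nat_lit 8050537725) (nat_lit 76) (nat_lit 4237604302) (nat_lit 40) (nat_lit 5) (nat_lit 43) (nat_lit 5) (nat_lit 41) (nat_lit 5) (nat_lit 486) (nat_lit 385) (nat_lit 329))))) (XT.nd (nat_lit 57876) (nat_lit 0) (nat_lit 28196) (XT.nd (nat_lit 78) (nat_lit 380) (nat_lit 0) (XT.lf (nat_lit 0) (nat_lit 10004113280) (nat_lit 152) (nat_lit 3039012552) (nat_lit 228) (nat_lit 3773302105) (nat_lit 38) (nat_lit 5) (nat_lit 40) (nat_lit 5) (nat_lit 41) (nat_lit 5) (nat_lit 487) (nat_lit 385) (nat_lit 328)) (XT.nd (nat_lit 78) (nat_lit 152) (nat_lit 0) (XT.lf (nat_lit 0) (nat_lit 5024317532) (nat_lit 228) (nat_lit 5604603302) (nat_lit 76) (nat_lit 6491808176) (nat_lit 35) (nat_lit 5) (nat_lit 38) (nat_lit 5) (nat_lit 36) (nat_lit 5) (nat_lit 488) (nat_lit 385) (nat_lit 327)) (XT.lf (nat_lit 0) (nat_lit 13033189617) (nat_lit 152) (nat_lit 1074258036) (nat_lit 228)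 (nat_lit 3324756207) (nat_lit 33) (nat_lit 5) (nat_lit 35) (nat_lit 5) (nat_lit 36) (nat_lit 5) (nat_lit 489) (nat_lit 385) (nat_lit 326)))) (XT.nd (nat_lit 156) (nat_lit 1824) (nat_lit 0) (XT.nd (nat_lit 78) (nat_lit 1824) (nat_lit 0) (XT.lf (nat_lit 0) (nat_lit 1641541413) (nat_lit 988) (nat_lit 353787735) (nat_lit 0) (nat_lit 1641541413) (nat_lit 452) (nat_lit 5) (nat_lit 465) (nat_lit 4) (nat_lit 452) (nat_lit 4) (nat_lit 428) (nat_lit 386) (nat_lit 386)) (XT.lf (nat_lit 0) (nat_lit 426748794) (nat_lit 836) (nat_lit 967814904) (nat_lit 912) (nat_lit 5940340964) (nat_lit 428) (nat_lit 5) (nat_lit 439) (nat_lit 5) (nat_lit 440) (nat_lit 4) (nat_lit 429) (nat_lit 386) (nat_lit 385))) (XT.nd (nat_lit 78) (nat_lit 912) (nat_lit 0) (XT.lf (nat_lit 0) (nat_lit 1618142807) (nat_lit 912) (nat_lit 5199587721) (nat_lit 912) (nat_lit 581038461) (nat_lit 416) (nat_lit 4) (nat_lit 428) (nat_lit 5) (nat_lit 428)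 (nat_lit 4) (nat_lit 430) (nat_lit 386) (nat_lit 384)) (XT.lf (nat_lit 0) (nat_lit 2859062545) (nat_lit 836) (nat_lit 1936230916) (nat_lit 912) (nat_lit 2670199190) (nat_lit 404) (nat_lit 5) (nat_lit 415) (nat_lit 5) (nat_lit 416) (nat_lit 4) (nat_lit 431) (nat_lit 386) (nat_lit 383)))))) (XT.nd (nat_lit 546) (nat_lit 6156) (nat_lit 0) (XT.nd (nat_lit 234) (nat_lit 3800) (nat_lit 0) (XT.nd (nat_lit 78) (nat_lit 1596) (nat_lit 0) (XT.lf (nat_lit 0) (nat_lit 2681673850) (nat_lit 912) (nat_lit 3379072643) (nat_lit 76) (nat_lit 1474489414) (nat_lit 392) (nat_lit 5) (nat_lit 404) (nat_lit 5) (nat_lit 393) (nat_lit 4) (nat_lit 432) (nat_lit 386) (nat_lit 382)) (XT.nd (nat_lit 78) (nat_lit 760) (nat_lit 0) (XT.lf (nat_lit 0) (nat_lit 478094153) (nat_lit 836) (nat_lit 2101680810) (nat_lit 76) (nat_lit 5028192430) (nat_lit 381) (nat_lit 5) (nat_lit 392) (nat_lit 5) (nat_lit 382) (nat_lit 5) (nat_lit 433) (nat_lit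 386) (nat_lit 381)) (XT.lf (nat_lit 0) (nat_lit 5835595757) (nat_lit 836) (nat_lit 779855215) (nat_lit 76) (nat_lit 1068156134) (nat_lit 371) (nat_lit 5) (nat_lit 382) (nat_lit 5) (nat_lit 372) (nat_lit 4) (nat_lit 434) (nat_lit 386) (nat_lit 380)))) (XT.nd (nat_lit 156) (nat_lit 1444) (nat_lit 0) (XT.nd (nat_lit 78) (nat_lit 760) (nat_lit 0) (XT.lf (nat_lit 0) (nat_lit 592466390) (nat_lit 760) (nat_lit 2901583870) (nat_lit 836) (nat_lit 4268026554) (nat_lit 350) (nat_lit 5) (nat_lit 360) (nat_lit 5) (nat_lit 361) (nat_lit 5) (nat_lit 435) (nat_lit 386) (nat_lit 379)) (XT.lf (nat_lit 0) (nat_lit 1056204766) (nat_lit 760) (nat_lit 5810579696) (nat_lit 76) (nat_lit 976881578) (nat_lit 340) (nat_lit 5) (nat_lit 350) (nat_lit 5) (nat_lit 341) (nat_lit 5) (nat_lit 436) (nat_lit 386) (nat_lit 378))) (XT.nd (nat_lit 78) (nat_lit 760) (nat_lit 0) (XT.lf (nat_lit 0) (nat_lit 3509020381) (nat_lit 684) (nat_lit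 2926871960) (nat_lit 760) (nat_lit 1492176160) (nat_lit 331) (nat_lit 5) (nat_lit 340) (nat_lit 5) (nat_lit 341) (nat_lit 5) (nat_lit 437) (nat_lit 386) (nat_lit 377)) (XT.lf (nat_lit 0) (nat_lit 3854453813) (nat_lit 760) (nat_lit 2980864941) (nat_lit 76) (nat_lit 1180284741) (nat_lit 321) (nat_lit 5) (nat_lit 331) (nat_lit 5) (nat_lit 322) (nat_lit 5) (nat_lit 438) (nat_lit 386) (nat_lit 376))))) (XT.nd (nat_lit 312) (nat_lit 2812) (nat_lit 0) (XT.nd (nat_lit 156) (nat_lit 1368) (nat_lit 0) (XT.nd (nat_lit 78) (nat_lit 1216) (nat_lit 0) (XT.lf (nat_lit 0) (nat_lit 1178877130) (nat_lit 760) (nat_lit 1500357327) (nat_lit 76) (nat_lit 5426987268) (nat_lit 311) (nat_lit 5) (nat_lit 321) (nat_lit 5) (nat_lit 312) (nat_lit 5) (nat_lit 439) (nat_lit 386) (nat_lit 375)) (XT.lf (nat_lit 0) (nat_lit 21502963) (nat_lit 608) (nat_lit 6554989716) (nat_lit 684) (nat_lit 1623440888) (nat_lit 295) (nat_lit 5) (nat_lit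 303) (nat_lit 5) (nat_lit 304) (nat_lit 5) (nat_lit 440) (nat_lit 386) (nat_lit 374))) (XT.nd (nat_lit 78) (nat_lit 684) (nat_lit 0) (XT.lf (nat_lit 0) (nat_lit 1600355132) (nat_lit 608) (nat_lit 2162509778) (nat_lit 684) (nat_lit 4533623864) (nat_lit 286) (nat_lit 5) (nat_lit 294) (nat_lit 5) (nat_lit 295) (nat_lit 5) (nat_lit 441) (nat_lit 386) (nat_lit 373)) (XT.lf (nat_lit 0) (nat_lit 845049765) (nat_lit 684) (nat_lit 5169235951) (nat_lit 76) (nat_lit 2382051935) (nat_lit 277) (nat_lit 5) (nat_lit 286) (nat_lit 5) (nat_lit 278) (nat_lit 5) (nat_lit 442) (nat_lit 386) (nat_lit 372)))) (XT.nd (nat_lit 156) (nat_lit 1596) (nat_lit 0) (XT.nd (nat_lit 78) (nat_lit 684) (nat_lit 0) (XT.lf (nat_lit 0) (nat_lit 4888885859) (nat_lit 532) (nat_lit 1400419772) (nat_lit 608) (nat_lit 2209963862) (nat_lit 270) (nat_lit 5) (nat_lit 277) (nat_lit 5) (nat_lit 278) (nat_lit 5) (nat_lit 443) (nat_lit 386) (nat_lit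 371)) (XT.lf (nat_lit 0) (nat_lit 3224077295) (nat_lit 684) (nat_lit 2018362274) (nat_lit 76) (nat_lit 3362912365) (nat_lit 261) (nat_lit 5) (nat_lit 270) (nat_lit 5) (nat_lit 262) (nat_lit 5) (nat_lit 444) (nat_lit 386) (nat_lit 370))) (XT.nd (nat_lit 78) (nat_lit 988) (nat_lit 0) (XT.lf (nat_lit 0) (nat_lit 41467190) (nat_lit 608) (nat_lit 374450408) (nat_lit 76) (nat_lit 8299086309) (nat_lit 253) (nat_lit 5) (nat_lit 261) (nat_lit 5) (nat_lit 254) (nat_lit 5) (nat_lit 445) (nat_lit 386) (nat_lit 369)) (XT.lf (nat_lit 0) (nat_lit 1297333462) (nat_lit 456) (nat_lit 4254189275) (nat_lit 532) (nat_lit 3275759246) (nat_lit 240) (nat_lit 5) (nat_lit 246) (nat_lit 5) (nat_lit 247) (nat_lit 5) (nat_lit 446) (nat_lit 386) (nat_lit 368))))))) (XT.nd (nat_lit 1092) (nat_lit 5320) (nat_lit 0) (XT.nd (nat_lit 546) (nat_lit 3192) (nat_lit 0) (XT.nd (nat_lit 234) (nat_lit 2280) (nat_lit 0) (XT.nd (nat_lit 78) (nat_lit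 988) (nat_lit 0) (XT.lf (nat_lit 0) (nat_lit 2225867011) (nat_lit 608) (nat_lit 5914944479) (nat_lit 76) (nat_lit 802385589) (nat_lit 232) (nat_lit 5) (nat_lit 240) (nat_lit 5) (nat_lit 233) (nat_lit 5) (nat_lit 447) (nat_lit 386) (nat_lit 367)) (XT.nd (nat_lit 78) (nat_lit 532) (nat_lit 0) (XT.lf (nat_lit 0) (nat_lit 4785687241) (nat_lit 456) (nat_lit 3055076514) (nat_lit 532) (nat_lit 1221540861) (nat_lit 226) (nat_lit 5) (nat_lit 232) (nat_lit 5) (nat_lit 233) (nat_lit 5) (nat_lit 448) (nat_lit 386) (nat_lit 366)) (XT.lf (nat_lit 0) (nat_lit 4361791445) (nat_lit 532) (nat_lit 2608040247) (nat_lit 76) (nat_lit 2214961918) (nat_lit 219) (nat_lit 5) (nat_lit 226) (nat_lit 5) (nat_lit 220) (nat_lit 5) (nat_lit 449) (nat_lit 386) (nat_lit 365)))) (XT.nd (nat_lit 156) (nat_lit 912) (nat_lit 0) (XT.nd (nat_lit 78) (nat_lit 836) (nat_lit 0) (XT.lf (nat_lit 0) (nat_lit 764352724) (nat_lit 532) (nat_lit 899619344)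 (nat_lit 76) (nat_lit 7646935703) (nat_lit 212) (nat_lit 5) (nat_lit 219) (nat_lit 5) (nat_lit 213) (nat_lit 5) (nat_lit 450) (nat_lit 386) (nat_lit 364)) (XT.lf (nat_lit 0) (nat_lit 836351827) (nat_lit 380) (nat_lit 5619627652) (nat_lit 456) (nat_lit 2984147003) (nat_lit 201) (nat_lit 5) (nat_lit 206) (nat_lit 5) (nat_lit 207) (nat_lit 5) (nat_lit 451) (nat_lit 386) (nat_lit 363))) (XT.nd (nat_lit 78) (nat_lit 380) (nat_lit 0) (XT.lf (nat_lit 0) (nat_lit 2629580738) (nat_lit 456) (nat_lit 70356569) (nat_lit 532) (nat_lit 6873113998) (nat_lit 194) (nat_lit 5) (nat_lit 200) (nat_lit 5) (nat_lit 201) (nat_lit 5) (nat_lit 452) (nat_lit 386) (nat_lit 362)) (XT.lf (nat_lit 0) (nat_lit 4440359842) (nat_lit 380) (nat_lit 4086583643) (nat_lit 456) (nat_lit 1182369134) (nat_lit 189) (nat_lit 5) (nat_lit 194) (nat_lit 5) (nat_lit 195) (nat_lit 5) (nat_lit 453) (nat_lit 386) (nat_lit 361))))) (XT.nd (nat_lit 234)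 (nat_lit 1900) (nat_lit 0) (XT.nd (nat_lit 78) (nat_lit 836) (nat_lit 0) (XT.lf (nat_lit 0) (nat_lit 4607438620) (nat_lit 456) (nat_lit 3565584083) (nat_lit 76) (nat_lit 1676239311) (nat_lit 183) (nat_lit 5) (nat_lit 189) (nat_lit 5) (nat_lit 184) (nat_lit 5) (nat_lit 454) (nat_lit 386) (nat_lit 360)) (XT.nd (nat_lit 78) (nat_lit 380) (nat_lit 0) (XT.lf (nat_lit 0) (nat_lit 562420234) (nat_lit 456) (nat_lit 1830396907) (nat_lit 76) (nat_lit 7600202150) (nat_lit 177) (nat_lit 5) (nat_lit 183) (nat_lit 5) (nat_lit 178) (nat_lit 5) (nat_lit 455) (nat_lit 386) (nat_lit 359)) (XT.lf (nat_lit 0) (nat_lit 6476426453) (nat_lit 456) (nat_lit 82662528) (nat_lit 76) (nat_lit 3581172158) (nat_lit 172) (nat_lit 5) (nat_lit 178) (nat_lit 5) (nat_lit 173) (nat_lit 5) (nat_lit 456) (nat_lit 386) (nat_lit 358)))) (XT.nd (nat_lit 156) (nat_lit 760) (nat_lit 0) (XT.nd (nat_lit 78) (nat_lit 304) (nat_lit 0) (XT.lf (nat_lit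 0) (nat_lit 1727774181) (nat_lit 380) (nat_lit 530786353) (nat_lit 456) (nat_lit 8032816378) (nat_lit 161) (nat_lit 5) (nat_lit 166) (nat_lit 5) (nat_lit 167) (nat_lit 5) (nat_lit 457) (nat_lit 386) (nat_lit 357)) (XT.lf (nat_lit 0) (nat_lit 3549311180) (nat_lit 304) (nat_lit 4784667688) (nat_lit 380) (nat_lit 2112062066) (nat_lit 157) (nat_lit 5) (nat_lit 161) (nat_lit 5) (nat_lit 162) (nat_lit 5) (nat_lit 458) (nat_lit 386) (nat_lit 356))) (XT.nd (nat_lit 78) (nat_lit 304) (nat_lit 0) (XT.lf (nat_lit 0) (nat_lit 3936729187) (nat_lit 456) (nat_lit 5201307376) (nat_lit 76) (nat_lit 1466738384) (nat_lit 151) (nat_lit 5) (nat_lit 157) (nat_lit 5) (nat_lit 152) (nat_lit 5) (nat_lit 459) (nat_lit 386) (nat_lit 355)) (XT.lf (nat_lit 0) (nat_lit 7283369707) (nat_lit 304) (nat_lit 2878915208) (nat_lit 380) (nat_lit 605228516) (nat_lit 147) (nat_lit 5) (nat_lit 151) (nat_lit 5) (nat_lit 152) (nat_lit 5) (nat_lit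 460) (nat_lit 386) (nat_lit 354)))))) (XT.nd (nat_lit 546) (nat_lit 2584) (nat_lit 0) (XT.nd (nat_lit 234) (nat_lit 1292) (nat_lit 0) (XT.nd (nat_lit 78) (nat_lit 988) (nat_lit 0) (XT.lf (nat_lit 0) (nat_lit 5583109470) (nat_lit 456) (nat_lit 1759124236) (nat_lit 76) (nat_lit 3591817578) (nat_lit 141) (nat_lit 5) (nat_lit 147) (nat_lit 5) (nat_lit 142) (nat_lit 5) (nat_lit 461) (nat_lit 386) (nat_lit 353)) (XT.nd (nat_lit 78) (nat_lit 304) (nat_lit 0) (XT.lf (nat_lit 0) (nat_lit 4920220) (nat_lit 304) (nat_lit 843017358) (nat_lit 380) (nat_lit 10257147015) (nat_lit 132) (nat_lit 5) (nat_lit 136) (nat_lit 5) (nat_lit 137) (nat_lit 5) (nat_lit 462) (nat_lit 386) (nat_lit 352)) (XT.lf (nat_lit 0) (nat_lit 1786552132) (nat_lit 304) (nat_lit 5422351496) (nat_lit 380) (nat_lit 4070662890) (nat_lit 128) (nat_lit 5) (nat_lit 132) (nat_lit 5) (nat_lit 133) (nat_lit 5) (nat_lit 463) (nat_lit 386) (nat_lit 351))))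 (XT.nd (nat_lit 156) (nat_lit 608) (nat_lit 0) (XT.nd (nat_lit 78) (nat_lit 304) (nat_lit 0) (XT.lf (nat_lit 0) (nat_lit 2285957724) (nat_lit 380) (nat_lit 7851241309) (nat_lit 76) (nat_lit 1321491828) (nat_lit 123) (nat_lit 5) (nat_lit 128) (nat_lit 5) (nat_lit 124) (nat_lit 5) (nat_lit 464) (nat_lit 386) (nat_lit 350)) (XT.lf (nat_lit 0) (nat_lit 5433390661) (nat_lit 304) (nat_lit 3383799079) (nat_lit 380) (nat_lit 2824677988) (nat_lit 119) (nat_lit 5) (nat_lit 123) (nat_lit 5) (nat_lit 124) (nat_lit 5) (nat_lit 465) (nat_lit 386) (nat_lit 349))) (XT.nd (nat_lit 78) (nat_lit 228) (nat_lit 0) (XT.lf (nat_lit 0) (nat_lit 3693459122) (nat_lit 380) (nat_lit 4549236716) (nat_lit 76) (nat_lit 3586796075) (nat_lit 114) (nat_lit 5) (nat_lit 119) (nat_lit 5) (nat_lit 115) (nat_lit 5) (nat_lit 466) (nat_lit 386) (nat_lit 348)) (XT.lf (nat_lit 0) (nat_lit 9154581761) (nat_lit 228) (nat_lit 1243940019) (nat_lit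 304) (nat_lit 1623255646) (nat_lit 111) (nat_lit 5) (nat_lit 114) (nat_lit 5) (nat_lit 115) (nat_lit 5) (nat_lit 467) (nat_lit 386) (nat_lit 347))))) (XT.nd (nat_lit 312) (nat_lit 1064) (nat_lit 0) (XT.nd (nat_lit 156) (nat_lit 608) (nat_lit 0) (XT.nd (nat_lit 78) (nat_lit 532) (nat_lit 0) (XT.lf (nat_lit 0) (nat_lit 5066537906) (nat_lit 380) (nat_lit 1192774456) (nat_lit 76) (nat_lit 5958893526) (nat_lit 106) (nat_lit 5) (nat_lit 111) (nat_lit 5) (nat_lit 107) (nat_lit 5) (nat_lit 468) (nat_lit 386) (nat_lit 346)) (XT.lf (nat_lit 0) (nat_lit 527088291) (nat_lit 304) (nat_lit 11437346162) (nat_lit 380) (nat_lit 455289988) (nat_lit 99) (nat_lit 5) (nat_lit 103) (nat_lit 5) (nat_lit 104) (nat_lit 5) (nat_lit 469) (nat_lit 386) (nat_lit 345))) (XT.nd (nat_lit 78) (nat_lit 304) (nat_lit 0) (XT.lf (nat_lit 0) (nat_lit 2243243243) (nat_lit 228) (nat_lit 4177612278) (nat_lit 304) (nat_lit 6204330281) (nat_lit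 95) (nat_lit 5) (nat_lit 98) (nat_lit 5) (nat_lit 99) (nat_lit 5) (nat_lit 470) (nat_lit 386) (nat_lit 344)) (XT.lf (nat_lit 0) (nat_lit 688895218) (nat_lit 304) (nat_lit 8841159007) (nat_lit 76) (nat_lit 3305867692) (nat_lit 91) (nat_lit 5) (nat_lit 95) (nat_lit 5) (nat_lit 92) (nat_lit 5) (nat_lit 471) (nat_lit 386) (nat_lit 343)))) (XT.nd (nat_lit 156) (nat_lit 532) (nat_lit 0) (XT.nd (nat_lit 78) (nat_lit 304) (nat_lit 0) (XT.lf (nat_lit 0) (nat_lit 5741230650) (nat_lit 228) (nat_lit 2009375751) (nat_lit 304) (nat_lit 5300634832) (nat_lit 88) (nat_lit 5) (nat_lit 91) (nat_lit 5) (nat_lit 92) (nat_lit 5) (nat_lit 472) (nat_lit 386) (nat_lit 342)) (XT.lf (nat_lit 0) (nat_lit 1785578474) (nat_lit 304) (nat_lit 5768697169) (nat_lit 76) (nat_lit 5717370081) (nat_lit 84) (nat_lit 5) (nat_lit 88) (nat_lit 5) (nat_lit 85) (nat_lit 5) (nat_lit 473) (nat_lit 386) (nat_lit 341))) (XT.nd (nat_lit 78) (nat_lit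 304) (nat_lit 0) (XT.lf (nat_lit 0) (nat_lit 9049530317) (nat_lit 304) (nat_lit 4218485326) (nat_lit 76) (nat_lit 229203511) (nat_lit 81) (nat_lit 5) (nat_lit 85) (nat_lit 5) (nat_lit 82) (nat_lit 5) (nat_lit 474) (nat_lit 386) (nat_lit 340)) (XT.lf (nat_lit 0) (nat_lit 2840169690) (nat_lit 304) (nat_lit 2678302884) (nat_lit 76) (nat_lit 8209222720) (nat_lit 77) (nat_lit 5) (nat_lit 81) (nat_lit 5) (nat_lit 78) (nat_lit 5) (nat_lit 475) (nat_lit 386) (nat_lit 339))))))))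
noncomputable def xc17 : XT := (XT.nd (nat_lit 59748) (nat_lit 0) (nat_lit 4940) (XT.nd (nat_lit 58578) (nat_lit 0) (nat_lit 20520) (XT.nd (nat_lit 546) (nat_lit 1520) (nat_lit 0) (XT.nd (nat_lit 234) (nat_lit 912) (nat_lit 0) (XT.nd (nat_lit 78) (nat_lit 684) (nat_lit 0) (XT.lf (nat_lit 0) (nat_lit 10329163805) (nat_lit 304) (nat_lit 1125639715) (nat_lit 76) (nat_lit 2508836504) (nat_lit 74) (nat_lit 5) (nat_lit 78) (nat_lit 5) (nat_lit 75) (nat_lit 5) (nat_lit 476) (nat_lit 386) (nat_lit 338)) (XT.nd (nat_lit 78) (nat_lit 228) (nat_lit 0) (XT.lf (nat_lit 0) (nat_lit 429092764) (nat_lit 152) (nat_lit 3425247483) (nat_lit 228) (nat_lit 10350455739) (nat_lit 68) (nat_lit 5) (nat_lit 70) (nat_lit 5) (nat_lit 71) (nat_lit 5) (nat_lit 477) (nat_lit 386) (nat_lit 337)) (XT.lf (nat_lit 0) (nat_lit 2000957626) (nat_lit 228) (nat_lit 9587465765) (nat_lit 304) (nat_lit 2862883906) (nat_lit 65) (nat_lit 5) (nat_lit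 68) (nat_lit 5) (nat_lit 69) (nat_lit 5) (nat_lit 478) (nat_lit 386) (nat_lit 336)))) (XT.nd (nat_lit 156) (nat_lit 456) (nat_lit 0) (XT.nd (nat_lit 78) (nat_lit 228) (nat_lit 0) (XT.lf (nat_lit 0) (nat_lit 3576305103) (nat_lit 152) (nat_lit 1264949307) (nat_lit 228) (nat_lit 9862219781) (nat_lit 62) (nat_lit 5) (nat_lit 64) (nat_lit 5) (nat_lit 65) (nat_lit 5) (nat_lit 479) (nat_lit 386) (nat_lit 335)) (XT.lf (nat_lit 0) (nat_lit 5142464619) (nat_lit 228) (nat_lit 7677646721) (nat_lit 304) (nat_lit 2141067181) (nat_lit 59) (nat_lit 5) (nat_lit 62) (nat_lit 5) (nat_lit 63) (nat_lit 5) (nat_lit 480) (nat_lit 386) (nat_lit 334))) (XT.nd (nat_lit 78) (nat_lit 228) (nat_lit 0) (XT.lf (nat_lit 0) (nat_lit 5787018470) (nat_lit 228) (nat_lit 8511368616) (nat_lit 76) (nat_lit 926442485) (nat_lit 56) (nat_lit 5) (nat_lit 59) (nat_lit 5) (nat_lit 57) (nat_lit 5) (nat_lit 481) (nat_lit 386) (nat_lit 333)) (XT.lf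 (nat_lit 0) (nat_lit 8275444341) (nat_lit 228) (nat_lit 5739091081) (nat_lit 304) (nat_lit 1479758782) (nat_lit 53) (nat_lit 5) (nat_lit 56) (nat_lit 5) (nat_lit 57) (nat_lit 5) (nat_lit 482) (nat_lit 386) (nat_lit 332))))) (XT.nd (nat_lit 234) (nat_lit 912) (nat_lit 0) (XT.nd (nat_lit 78) (nat_lit 380) (nat_lit 0) (XT.lf (nat_lit 0) (nat_lit 6690960213) (nat_lit 228) (nat_lit 5940518898) (nat_lit 76) (nat_lit 3138251645) (nat_lit 50) (nat_lit 5) (nat_lit 53) (nat_lit 5) (nat_lit 51) (nat_lit 5) (nat_lit 483) (nat_lit 386) (nat_lit 331)) (XT.nd (nat_lit 78) (nat_lit 228) (nat_lit 0) (XT.lf (nat_lit 0) (nat_lit 11390479133) (nat_lit 152) (nat_lit 3778259639) (nat_lit 228) (nat_lit 882855764) (nat_lit 48) (nat_lit 5) (nat_lit 50) (nat_lit 5) (nat_lit 51) (nat_lit 5) (nat_lit 484) (nat_lit 386) (nat_lit 330)) (XT.lf (nat_lit 0) (nat_lit 7541079294) (nat_lit 228) (nat_lit 3417274125) (nat_lit 76) (nat_lit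 5380954236) (nat_lit 45) (nat_lit 5) (nat_lit 48) (nat_lit 5) (nat_lit 46) (nat_lit 5) (nat_lit 485) (nat_lit 386) (nat_lit 329)))) (XT.nd (nat_lit 156) (nat_lit 532) (nat_lit 0) (XT.nd (nat_lit 78) (nat_lit 228) (nat_lit 0) (XT.lf (nat_lit 0) (nat_lit 14477080188) (nat_lit 152) (nat_lit 1801962940) (nat_lit 228) (nat_lit 355026772) (nat_lit 43) (nat_lit 5) (nat_lit 45) (nat_lit 5) (nat_lit 46) (nat_lit 5) (nat_lit 486) (nat_lit 386) (nat_lit 328)) (XT.lf (nat_lit 0) (nat_lit 8332816796) (nat_lit 228) (nat_lit 953690341) (nat_lit 76) (nat_lit 7648070317) (nat_lit 40) (nat_lit 5) (nat_lit 43) (nat_lit 5) (nat_lit 41) (nat_lit 5) (nat_lit 487) (nat_lit 386) (nat_lit 327))) (XT.nd (nat_lit 78) (nat_lit 152) (nat_lit 0) (XT.lf (nat_lit 0) (nat_lit 99983369) (nat_lit 228) (nat_lit 16960049811) (nat_lit 76) (nat_lit 182656619) (nat_lit 35) (nat_lit 5) (nat_lit 38) (nat_lit 5) (nat_lit 36) (nat_lit 5) (nat_lit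 488) (nat_lit 386) (nat_lit 326)) (XT.lf (nat_lit 0) (nat_lit 1455929757) (nat_lit 152) (nat_lit 7614301916) (nat_lit 228) (nat_lit 8486190851) (nat_lit 33) (nat_lit 5) (nat_lit 35) (nat_lit 5) (nat_lit 36) (nat_lit 5) (nat_lit 489) (nat_lit 386) (nat_lit 325)))))) (XT.nd (nat_lit 546) (nat_lit 6764) (nat_lit 0) (XT.nd (nat_lit 234) (nat_lit 4560) (nat_lit 0) (XT.nd (nat_lit 78) (nat_lit 2128) (nat_lit 0) (XT.lf (nat_lit 0) (nat_lit 1113462725) (nat_lit 1900) (nat_lit 1352488819) (nat_lit 0) (nat_lit 1113462725) (nat_lit 480) (nat_lit 5) (nat_lit 505) (nat_lit 4) (nat_lit 480) (nat_lit 4) (nat_lit 426) (nat_lit 387) (nat_lit 387)) (XT.nd (nat_lit 78) (nat_lit 912) (nat_lit 0) (XT.lf (nat_lit 0) (nat_lit 366132336) (nat_lit 1216) (nat_lit 1771630213) (nat_lit 76) (nat_lit 5077884100) (nat_lit 464) (nat_lit 5) (nat_lit 480) (nat_lit 5) (nat_lit 465) (nat_lit 4) (nat_lit 427) (nat_lit 387) (nat_lit 386))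 (XT.lf (nat_lit 0) (nat_lit 5668831226) (nat_lit 988) (nat_lit 789853992) (nat_lit 0) (nat_lit 816583374) (nat_lit 452) (nat_lit 5) (nat_lit 465) (nat_lit 4) (nat_lit 452) (nat_lit 4) (nat_lit 428) (nat_lit 387) (nat_lit 385)))) (XT.nd (nat_lit 156) (nat_lit 1748) (nat_lit 0) (XT.nd (nat_lit 78) (nat_lit 988) (nat_lit 0) (XT.lf (nat_lit 0) (nat_lit 241995597) (nat_lit 836) (nat_lit 3428743915) (nat_lit 912) (nat_lit 3666921270) (nat_lit 428) (nat_lit 5) (nat_lit 439) (nat_lit 5) (nat_lit 440) (nat_lit 4) (nat_lit 429) (nat_lit 387) (nat_lit 384)) (XT.lf (nat_lit 0) (nat_lit 1349082556) (nat_lit 912) (nat_lit 230934021) (nat_lit 988) (nat_lit 5823094754) (nat_lit 415) (nat_lit 5) (nat_lit 427) (nat_lit 5) (nat_lit 428) (nat_lit 5) (nat_lit 430) (nat_lit 387) (nat_lit 383))) (XT.nd (nat_lit 78) (nat_lit 912) (nat_lit 0) (XT.lf (nat_lit 0) (nat_lit 2496968695) (nat_lit 836) (nat_lit 4375629071) (nat_lit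 912) (nat_lit 598686913) (nat_lit 404) (nat_lit 5) (nat_lit 415) (nat_lit 5) (nat_lit 416) (nat_lit 4) (nat_lit 431) (nat_lit 387) (nat_lit 382)) (XT.lf (nat_lit 0) (nat_lit 3697281858) (nat_lit 836) (nat_lit 944824820) (nat_lit 912) (nat_lit 2900332897) (nat_lit 392) (nat_lit 5) (nat_lit 403) (nat_lit 5) (nat_lit 404) (nat_lit 5) (nat_lit 432) (nat_lit 387) (nat_lit 381))))) (XT.nd (nat_lit 312) (nat_lit 2812) (nat_lit 0) (XT.nd (nat_lit 156) (nat_lit 2356) (nat_lit 0) (XT.nd (nat_lit 78) (nat_lit 760) (nat_lit 0) (XT.lf (nat_lit 0) (nat_lit 2325802411) (nat_lit 836) (nat_lit 2671074789) (nat_lit 76) (nat_lit 2619640600) (nat_lit 381) (nat_lit 5) (nat_lit 392) (nat_lit 5) (nat_lit 382) (nat_lit 5) (nat_lit 433) (nat_lit 387) (nat_lit 380)) (XT.lf (nat_lit 0) (nat_lit 6251987710) (nat_lit 760) (nat_lit 1351386595) (nat_lit 836) (nat_lit 90384027) (nat_lit 371) (nat_lit 5) (nat_lit 381) (nat_lit 5) (nat_lit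 382) (nat_lit 5) (nat_lit 434) (nat_lit 387) (nat_lit 379))) (XT.nd (nat_lit 78) (nat_lit 1520) (nat_lit 0) (XT.lf (nat_lit 0) (nat_lit 5143416054) (nat_lit 836) (nat_lit 181693714) (nat_lit 76) (nat_lit 2448596356) (nat_lit 360) (nat_lit 5) (nat_lit 371) (nat_lit 5) (nat_lit 361) (nat_lit 5) (nat_lit 435) (nat_lit 387) (nat_lit 378)) (XT.lf (nat_lit 0) (nat_lit 1146695335) (nat_lit 684) (nat_lit 1445146813) (nat_lit 760) (nat_lit 5264854951) (nat_lit 340) (nat_lit 5) (nat_lit 349) (nat_lit 5) (nat_lit 350) (nat_lit 5) (nat_lit 436) (nat_lit 387) (nat_lit 377)))) (XT.nd (nat_lit 156) (nat_lit 1368) (nat_lit 0) (XT.nd (nat_lit 78) (nat_lit 760) (nat_lit 0) (XT.lf (nat_lit 0) (nat_lit 2523796419) (nat_lit 684) (nat_lit 5366093175) (nat_lit 760) (nat_lit 52844727) (nat_lit 331) (nat_lit 5) (nat_lit 340) (nat_lit 5) (nat_lit 341) (nat_lit 5) (nat_lit 437) (nat_lit 387) (nat_lit 376)) (XT.lf (nat_lit 0)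 (nat_lit 3937131789) (nat_lit 684) (nat_lit 1257936980) (nat_lit 760) (nat_lit 2836612296) (nat_lit 321) (nat_lit 5) (nat_lit 330) (nat_lit 5) (nat_lit 331) (nat_lit 5) (nat_lit 438) (nat_lit 387) (nat_lit 375))) (XT.nd (nat_lit 78) (nat_lit 608) (nat_lit 0) (XT.lf (nat_lit 0) (nat_lit 2405897641) (nat_lit 760) (nat_lit 2729023503) (nat_lit 76) (nat_lit 2988810836) (nat_lit 311) (nat_lit 5) (nat_lit 321) (nat_lit 5) (nat_lit 312) (nat_lit 5) (nat_lit 439) (nat_lit 387) (nat_lit 374)) (XT.lf (nat_lit 0) (nat_lit 6904982625) (nat_lit 608) (nat_lit 816231783) (nat_lit 684) (nat_lit 497877111) (nat_lit 303) (nat_lit 5) (nat_lit 311) (nat_lit 5) (nat_lit 312) (nat_lit 5) (nat_lit 440) (nat_lit 387) (nat_lit 373))))))) (XT.nd (nat_lit 1170) (nat_lit 6004) (nat_lit 0) (XT.nd (nat_lit 546) (nat_lit 4180) (nat_lit 0) (XT.nd (nat_lit 234) (nat_lit 2888) (nat_lit 0) (XT.nd (nat_lit 78) (nat_lit 1216) (nat_lit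 0) (XT.lf (nat_lit 0) (nat_lit 123791194) (nat_lit 608) (nat_lit 4663809412) (nat_lit 684) (nat_lit 3529622923) (nat_lit 286) (nat_lit 5) (nat_lit 294) (nat_lit 5) (nat_lit 295) (nat_lit 5) (nat_lit 441) (nat_lit 387) (nat_lit 372)) (XT.nd (nat_lit 78) (nat_lit 532) (nat_lit 0) (XT.lf (nat_lit 0) (nat_lit 1635873325) (nat_lit 608) (nat_lit 112309998) (nat_lit 684) (nat_lit 6670514266) (nat_lit 277) (nat_lit 5) (nat_lit 285) (nat_lit 5) (nat_lit 286) (nat_lit 5) (nat_lit 442) (nat_lit 387) (nat_lit 371)) (XT.lf (nat_lit 0) (nat_lit 3171446835) (nat_lit 532) (nat_lit 3948653245) (nat_lit 608) (nat_lit 1402977648) (nat_lit 270) (nat_lit 5) (nat_lit 277) (nat_lit 5) (nat_lit 278) (nat_lit 5) (nat_lit 443) (nat_lit 387) (nat_lit 370)))) (XT.nd (nat_lit 156) (nat_lit 1596) (nat_lit 0) (XT.nd (nat_lit 78) (nat_lit 608) (nat_lit 0) (XT.lf (nat_lit 0) (nat_lit 3932105440) (nat_lit 684) (nat_lit 3879065841) (nat_lit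 76) (nat_lit 819653025) (nat_lit 261) (nat_lit 5) (nat_lit 270) (nat_lit 5) (nat_lit 262) (nat_lit 5) (nat_lit 444) (nat_lit 387) (nat_lit 369)) (XT.lf (nat_lit 0) (nat_lit 643279818) (nat_lit 608) (nat_lit 2373043782) (nat_lit 76) (nat_lit 5725501247) (nat_lit 253) (nat_lit 5) (nat_lit 261) (nat_lit 5) (nat_lit 254) (nat_lit 5) (nat_lit 445) (nat_lit 387) (nat_lit 368))) (XT.nd (nat_lit 78) (nat_lit 1064) (nat_lit 0) (XT.lf (nat_lit 0) (nat_lit 6056373085) (nat_lit 608) (nat_lit 837708633) (nat_lit 76) (nat_lit 1961961784) (nat_lit 246) (nat_lit 5) (nat_lit 254) (nat_lit 5) (nat_lit 247) (nat_lit 5) (nat_lit 446) (nat_lit 387) (nat_lit 367)) (XT.lf (nat_lit 0) (nat_lit 743313039) (nat_lit 532) (nat_lit 1869074598) (nat_lit 608) (nat_lit 6361176890) (nat_lit 232) (nat_lit 5) (nat_lit 239) (nat_lit 5) (nat_lit 240) (nat_lit 5) (nat_lit 447) (nat_lit 387) (nat_lit 366))))) (XT.nd (nat_lit 312) (nat_lit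 2204) (nat_lit 0) (XT.nd (nat_lit 156) (nat_lit 988) (nat_lit 0) (XT.nd (nat_lit 78) (nat_lit 532) (nat_lit 0) (XT.lf (nat_lit 0) (nat_lit 2368996239) (nat_lit 456) (nat_lit 5773830040) (nat_lit 532) (nat_lit 951536180) (nat_lit 226) (nat_lit 5) (nat_lit 232) (nat_lit 5) (nat_lit 233) (nat_lit 5) (nat_lit 448) (nat_lit 387) (nat_lit 365)) (XT.lf (nat_lit 0) (nat_lit 4026229373) (nat_lit 456) (nat_lit 514923286) (nat_lit 532) (nat_lit 4677406951) (nat_lit 219) (nat_lit 5) (nat_lit 225) (nat_lit 5) (nat_lit 226) (nat_lit 5) (nat_lit 449) (nat_lit 387) (nat_lit 364))) (XT.nd (nat_lit 78) (nat_lit 456) (nat_lit 0) (XT.lf (nat_lit 0) (nat_lit 831751514) (nat_lit 532) (nat_lit 3632521516) (nat_lit 76) (nat_lit 4881908688) (nat_lit 212) (nat_lit 5) (nat_lit 219) (nat_lit 5) (nat_lit 213) (nat_lit 5) (nat_lit 450) (nat_lit 387) (nat_lit 363)) (XT.lf (nat_lit 0) (nat_lit 6426764154) (nat_lit 532) (nat_lit 2043425678)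 (nat_lit 76) (nat_lit 1007143963) (nat_lit 206) (nat_lit 5) (nat_lit 213) (nat_lit 5) (nat_lit 207) (nat_lit 5) (nat_lit 451) (nat_lit 387) (nat_lit 362)))) (XT.nd (nat_lit 156) (nat_lit 912) (nat_lit 0) (XT.nd (nat_lit 78) (nat_lit 836) (nat_lit 0) (XT.lf (nat_lit 0) (nat_lit 2549592576) (nat_lit 456) (nat_lit 430437350) (nat_lit 76) (nat_lit 6631934214) (nat_lit 200) (nat_lit 5) (nat_lit 206) (nat_lit 5) (nat_lit 201) (nat_lit 5) (nat_lit 452) (nat_lit 387) (nat_lit 361)) (XT.lf (nat_lit 0) (nat_lit 1231270709) (nat_lit 380) (nat_lit 7049443067) (nat_lit 456) (nat_lit 1469430378) (nat_lit 189) (nat_lit 5) (nat_lit 194) (nat_lit 5) (nat_lit 195) (nat_lit 5) (nat_lit 453) (nat_lit 387) (nat_lit 360))) (XT.nd (nat_lit 78) (nat_lit 456) (nat_lit 0) (XT.lf (nat_lit 0) (nat_lit 2922046977) (nat_lit 380) (nat_lit 1316547889) (nat_lit 456) (nat_lit 5653247857) (nat_lit 183) (nat_lit 5) (nat_lit 188) (nat_lit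 5) (nat_lit 189) (nat_lit 5) (nat_lit 454) (nat_lit 387) (nat_lit 359)) (XT.lf (nat_lit 0) (nat_lit 72642507) (nat_lit 456) (nat_lit 5393407997) (nat_lit 76) (nat_lit 4571278813) (nat_lit 177) (nat_lit 5) (nat_lit 183) (nat_lit 5) (nat_lit 178) (nat_lit 5) (nat_lit 455) (nat_lit 387) (nat_lit 358)))))) (XT.nd (nat_lit 546) (nat_lit 2964) (nat_lit 0) (XT.nd (nat_lit 234) (nat_lit 1824) (nat_lit 0) (XT.nd (nat_lit 78) (nat_lit 836) (nat_lit 0) (XT.lf (nat_lit 0) (nat_lit 5891265131) (nat_lit 456) (nat_lit 3799109687) (nat_lit 76) (nat_lit 496104898) (nat_lit 172) (nat_lit 5) (nat_lit 178) (nat_lit 5) (nat_lit 173) (nat_lit 5) (nat_lit 456) (nat_lit 387) (nat_lit 357)) (XT.nd (nat_lit 78) (nat_lit 380) (nat_lit 0) (XT.lf (nat_lit 0) (nat_lit 1548449324) (nat_lit 456) (nat_lit 2183944539) (nat_lit 76) (nat_lit 6607024691) (nat_lit 166) (nat_lit 5) (nat_lit 172) (nat_lit 5) (nat_lit 167) (nat_lit 5) (nat_lit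 457) (nat_lit 387) (nat_lit 356)) (XT.lf (nat_lit 0) (nat_lit 7515175955) (nat_lit 456) (nat_lit 545707807) (nat_lit 76) (nat_lit 2435373460) (nat_lit 161) (nat_lit 5) (nat_lit 167) (nat_lit 5) (nat_lit 162) (nat_lit 5) (nat_lit 458) (nat_lit 387) (nat_lit 355)))) (XT.nd (nat_lit 156) (nat_lit 760) (nat_lit 0) (XT.nd (nat_lit 78) (nat_lit 304) (nat_lit 0) (XT.lf (nat_lit 0) (nat_lit 1130608740) (nat_lit 380) (nat_lit 1857658734) (nat_lit 456) (nat_lit 7668654177) (nat_lit 151) (nat_lit 5) (nat_lit 156) (nat_lit 5) (nat_lit 157) (nat_lit 5) (nat_lit 459) (nat_lit 387) (nat_lit 354)) (XT.lf (nat_lit 0) (nat_lit 2832923505) (nat_lit 304) (nat_lit 6290922413) (nat_lit 380) (nat_lit 1697614516) (nat_lit 147) (nat_lit 5) (nat_lit 151) (nat_lit 5) (nat_lit 152) (nat_lit 5) (nat_lit 460) (nat_lit 387) (nat_lit 353))) (XT.nd (nat_lit 78) (nat_lit 304) (nat_lit 0) (XT.lf (nat_lit 0) (nat_lit 4403933982) (nat_lit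 456) (nat_lit 6428793960) (nat_lit 76) (nat_lit 157435236) (nat_lit 141) (nat_lit 5) (nat_lit 147) (nat_lit 5) (nat_lit 142) (nat_lit 5) (nat_lit 461) (nat_lit 387) (nat_lit 352)) (XT.lf (nat_lit 0) (nat_lit 6304889117) (nat_lit 304) (nat_lit 4401369681) (nat_lit 380) (nat_lit 456629317) (nat_lit 137) (nat_lit 5) (nat_lit 141) (nat_lit 5) (nat_lit 142) (nat_lit 5) (nat_lit 462) (nat_lit 387) (nat_lit 351))))) (XT.nd (nat_lit 312) (nat_lit 1216) (nat_lit 0) (XT.nd (nat_lit 156) (nat_lit 988) (nat_lit 0) (XT.nd (nat_lit 78) (nat_lit 380) (nat_lit 0) (XT.lf (nat_lit 0) (nat_lit 5795621071) (nat_lit 380) (nat_lit 3275642945) (nat_lit 76) (nat_lit 2268460069) (nat_lit 132) (nat_lit 5) (nat_lit 137) (nat_lit 5) (nat_lit 133) (nat_lit 5) (nat_lit 463) (nat_lit 387) (nat_lit 350)) (XT.lf (nat_lit 0) (nat_lit 730722094) (nat_lit 380) (nat_lit 1666183604) (nat_lit 76) (nat_lit 9124157089) (nat_lit 127) (nat_lit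 5) (nat_lit 132) (nat_lit 5) (nat_lit 128) (nat_lit 5) (nat_lit 464) (nat_lit 387) (nat_lit 349))) (XT.nd (nat_lit 78) (nat_lit 684) (nat_lit 0) (XT.lf (nat_lit 0) (nat_lit 7153501974) (nat_lit 380) (nat_lit 58522893) (nat_lit 76) (nat_lit 4494384442) (nat_lit 123) (nat_lit 5) (nat_lit 128) (nat_lit 5) (nat_lit 124) (nat_lit 5) (nat_lit 465) (nat_lit 387) (nat_lit 348)) (XT.lf (nat_lit 0) (nat_lit 1606307202) (nat_lit 304) (nat_lit 274585637) (nat_lit 380) (nat_lit 10015505712) (nat_lit 114) (nat_lit 5) (nat_lit 118) (nat_lit 5) (nat_lit 119) (nat_lit 5) (nat_lit 466) (nat_lit 387) (nat_lit 347)))) (XT.nd (nat_lit 156) (nat_lit 608) (nat_lit 0) (XT.nd (nat_lit 78) (nat_lit 380) (nat_lit 0) (XT.lf (nat_lit 0) (nat_lit 3261501319) (nat_lit 228) (nat_lit 5239033532) (nat_lit 304) (nat_lit 3589858191) (nat_lit 111) (nat_lit 5) (nat_lit 114) (nat_lit 5) (nat_lit 115) (nat_lit 5) (nat_lit 467) (nat_lit 387)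 (nat_lit 346)) (XT.lf (nat_lit 0) (nat_lit 3014760913) (nat_lit 380) (nat_lit 7341915082) (nat_lit 76) (nat_lit 1932620751) (nat_lit 106) (nat_lit 5) (nat_lit 111) (nat_lit 5) (nat_lit 107) (nat_lit 5) (nat_lit 468) (nat_lit 387) (nat_lit 345))) (XT.nd (nat_lit 78) (nat_lit 380) (nat_lit 0) (XT.lf (nat_lit 0) (nat_lit 6639156364) (nat_lit 228) (nat_lit 3178466719) (nat_lit 304) (nat_lit 2675093426) (nat_lit 103) (nat_lit 5) (nat_lit 106) (nat_lit 5) (nat_lit 107) (nat_lit 5) (nat_lit 469) (nat_lit 387) (nat_lit 344)) (XT.lf (nat_lit 0) (nat_lit 4111797944) (nat_lit 380) (nat_lit 4359622628) (nat_lit 76) (nat_lit 4229413389) (nat_lit 98) (nat_lit 5) (nat_lit 103) (nat_lit 5) (nat_lit 99) (nat_lit 5) (nat_lit 470) (nat_lit 387) (nat_lit 343))))))))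
noncomputable def xc18 : XT := (XT.nd (nat_lit 59592) (nat_lit 0) (nat_lit 7372) (XT.nd (nat_lit 1092) (nat_lit 988) (nat_lit 0) (XT.nd (nat_lit 546) (nat_lit 1672) (nat_lit 0) (XT.nd (nat_lit 234) (nat_lit 1140) (nat_lit 0) (XT.nd (nat_lit 78) (nat_lit 760) (nat_lit 0) (XT.lf (nat_lit 0) (nat_lit 10069335307) (nat_lit 228) (nat_lit 1035876738) (nat_lit 304) (nat_lit 1808845020) (nat_lit 95) (nat_lit 5) (nat_lit 98) (nat_lit 5) (nat_lit 99) (nat_lit 5) (nat_lit 471) (nat_lit 387) (nat_lit 342)) (XT.nd (nat_lit 78) (nat_lit 456) (nat_lit 0) (XT.lf (nat_lit 0) (nat_lit 5170451798) (nat_lit 304) (nat_lit 1346587825) (nat_lit 76) (nat_lit 6614694857) (nat_lit 91) (nat_lit 5) (nat_lit 95) (nat_lit 5) (nat_lit 92) (nat_lit 5) (nat_lit 472) (nat_lit 387) (nat_lit 341)) (XT.lf (nat_lit 0) (nat_lit 187025154) (nat_lit 228) (nat_lit 12185524610) (nat_lit 304) (nat_lit 982394281) (nat_lit 85) (nat_lit 5) (nat_lit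 88) (nat_lit 5) (nat_lit 89) (nat_lit 5) (nat_lit 473) (nat_lit 387) (nat_lit 340)))) (XT.nd (nat_lit 156) (nat_lit 608) (nat_lit 0) (XT.nd (nat_lit 78) (nat_lit 228) (nat_lit 0) (XT.lf (nat_lit 0) (nat_lit 1714107980) (nat_lit 228) (nat_lit 4487468045) (nat_lit 304) (nat_lit 7380926757) (nat_lit 81) (nat_lit 5) (nat_lit 84) (nat_lit 5) (nat_lit 85) (nat_lit 5) (nat_lit 474) (nat_lit 387) (nat_lit 339)) (XT.lf (nat_lit 0) (nat_lit 3271911609) (nat_lit 228) (nat_lit 10364680813) (nat_lit 304) (nat_lit 179189346) (nat_lit 78) (nat_lit 5) (nat_lit 81) (nat_lit 5) (nat_lit 82) (nat_lit 5) (nat_lit 475) (nat_lit 387) (nat_lit 338))) (XT.nd (nat_lit 78) (nat_lit 304) (nat_lit 0) (XT.lf (nat_lit 0) (nat_lit 4812081581) (nat_lit 228) (nat_lit 2390141424) (nat_lit 304) (nat_lit 6851725791) (nat_lit 74) (nat_lit 5) (nat_lit 77) (nat_lit 5) (nat_lit 78) (nat_lit 5) (nat_lit 476) (nat_lit 387) (nat_lit 337)) (XT.lf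 (nat_lit 0) (nat_lit 565807444) (nat_lit 304) (nat_lit 7929043832) (nat_lit 76) (nat_lit 5802941186) (nat_lit 70) (nat_lit 5) (nat_lit 74) (nat_lit 5) (nat_lit 71) (nat_lit 5) (nat_lit 477) (nat_lit 387) (nat_lit 336))))) (XT.nd (nat_lit 234) (nat_lit 1064) (nat_lit 0) (XT.nd (nat_lit 78) (nat_lit 456) (nat_lit 0) (XT.lf (nat_lit 0) (nat_lit 7922716673) (nat_lit 152) (nat_lit 239415375) (nat_lit 228) (nat_lit 6384927259) (nat_lit 68) (nat_lit 5) (nat_lit 70) (nat_lit 5) (nat_lit 71) (nat_lit 5) (nat_lit 478) (nat_lit 387) (nat_lit 335)) (XT.nd (nat_lit 78) (nat_lit 152) (nat_lit 0) (XT.lf (nat_lit 0) (nat_lit 1256320408) (nat_lit 304) (nat_lit 5328410543) (nat_lit 76) (nat_lit 8217134600) (nat_lit 64) (nat_lit 5) (nat_lit 68) (nat_lit 5) (nat_lit 65) (nat_lit 5) (nat_lit 479) (nat_lit 387) (nat_lit 334)) (XT.lf (nat_lit 0) (nat_lit 9092031901) (nat_lit 228) (nat_lit 4036804231) (nat_lit 76) (nat_lit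 1933596993) (nat_lit 62) (nat_lit 5) (nat_lit 65) (nat_lit 5) (nat_lit 63) (nat_lit 5) (nat_lit 480) (nat_lit 387) (nat_lit 333)))) (XT.nd (nat_lit 156) (nat_lit 608) (nat_lit 0) (XT.nd (nat_lit 78) (nat_lit 152) (nat_lit 0) (XT.lf (nat_lit 0) (nat_lit 1891962473) (nat_lit 304) (nat_lit 2749448743) (nat_lit 76) (nat_lit 10687489417) (nat_lit 58) (nat_lit 5) (nat_lit 62) (nat_lit 5) (nat_lit 59) (nat_lit 5) (nat_lit 481) (nat_lit 387) (nat_lit 332)) (XT.lf (nat_lit 0) (nat_lit 9978410135) (nat_lit 228) (nat_lit 1477464707) (nat_lit 76) (nat_lit 4145312117) (nat_lit 56) (nat_lit 5) (nat_lit 59) (nat_lit 5) (nat_lit 57) (nat_lit 5) (nat_lit 482) (nat_lit 387) (nat_lit 331))) (XT.nd (nat_lit 78) (nat_lit 304) (nat_lit 0) (XT.lf (nat_lit 0) (nat_lit 2469326846) (nat_lit 304) (nat_lit 201698010) (nat_lit 76) (nat_lit 13208795969) (nat_lit 52) (nat_lit 5) (nat_lit 56) (nat_lit 5) (nat_lit 53) (nat_lit 5) (nat_lit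 483) (nat_lit 387) (nat_lit 330)) (XT.lf (nat_lit 0) (nat_lit 1059092521) (nat_lit 152) (nat_lit 9764164153) (nat_lit 228) (nat_lit 5340905193) (nat_lit 48) (nat_lit 5) (nat_lit 50) (nat_lit 5) (nat_lit 51) (nat_lit 5) (nat_lit 484) (nat_lit 387) (nat_lit 329)))))) (XT.nd (nat_lit 57876) (nat_lit 0) (nat_lit 26296) (XT.nd (nat_lit 234) (nat_lit 380) (nat_lit 0) (XT.nd (nat_lit 78) (nat_lit 380) (nat_lit 0) (XT.lf (nat_lit 0) (nat_lit 2334902118) (nat_lit 152) (nat_lit 664546256) (nat_lit 228) (nat_lit 13455846768) (nat_lit 45) (nat_lit 5) (nat_lit 47) (nat_lit 5) (nat_lit 48) (nat_lit 5) (nat_lit 485) (nat_lit 387) (nat_lit 328)) (XT.nd (nat_lit 78) (nat_lit 228) (nat_lit 0) (XT.lf (nat_lit 0) (nat_lit 3566858083) (nat_lit 152) (nat_lit 8058185028) (nat_lit 228) (nat_lit 5127261922) (nat_lit 43) (nat_lit 5) (nat_lit 45) (nat_lit 5) (nat_lit 46) (nat_lit 5) (nat_lit 486) (nat_lit 387) (nat_lit 327))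 (XT.lf (nat_lit 0) (nat_lit 3472052797) (nat_lit 228) (nat_lit 12245462630) (nat_lit 76) (nat_lit 1338939454) (nat_lit 40) (nat_lit 5) (nat_lit 43) (nat_lit 5) (nat_lit 41) (nat_lit 5) (nat_lit 487) (nat_lit 387) (nat_lit 326)))) (XT.nd (nat_lit 57486) (nat_lit 0) (nat_lit 35720) (XT.nd (nat_lit 78) (nat_lit 228) (nat_lit 0) (XT.lf (nat_lit 0) (nat_lit 6013680885) (nat_lit 152) (nat_lit 6355445036) (nat_lit 228) (nat_lit 4997737207) (nat_lit 38) (nat_lit 5) (nat_lit 40) (nat_lit 5) (nat_lit 41) (nat_lit 5) (nat_lit 488) (nat_lit 387) (nat_lit 325)) (XT.lf (nat_lit 0) (nat_lit 3875537971) (nat_lit 228) (nat_lit 10469262587) (nat_lit 76) (nat_lit 3339694887) (nat_lit 35) (nat_lit 5) (nat_lit 38) (nat_lit 5) (nat_lit 36) (nat_lit 5) (nat_lit 489) (nat_lit 387) (nat_lit 324))) (XT.nd (nat_lit 78) (nat_lit 1748) (nat_lit 0) (XT.lf (nat_lit 0) (nat_lit 684588060) (nat_lit 1748) (nat_lit 2157136943) (nat_lit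 0) (nat_lit 684588060) (nat_lit 528) (nat_lit 5) (nat_lit 551) (nat_lit 4) (nat_lit 528) (nat_lit 4) (nat_lit 424) (nat_lit 388) (nat_lit 388)) (XT.lf (nat_lit 0) (nat_lit 3527343980) (nat_lit 1748) (nat_lit 3107985965) (nat_lit 1748) (nat_lit 469700825) (nat_lit 505) (nat_lit 4) (nat_lit 528) (nat_lit 5) (nat_lit 528) (nat_lit 4) (nat_lit 425) (nat_lit 388) (nat_lit 387))))) (XT.nd (nat_lit 312) (nat_lit 4408) (nat_lit 0) (XT.nd (nat_lit 156) (nat_lit 1900) (nat_lit 0) (XT.nd (nat_lit 78) (nat_lit 1216) (nat_lit 0) (XT.lf (nat_lit 0) (nat_lit 4372956722) (nat_lit 1824) (nat_lit 365995627) (nat_lit 1900) (nat_lit 2421369757) (nat_lit 480) (nat_lit 5) (nat_lit 504) (nat_lit 5) (nat_lit 505) (nat_lit 4) (nat_lit 426) (nat_lit 388) (nat_lit 386)) (XT.lf (nat_lit 0) (nat_lit 2765142331) (nat_lit 1216) (nat_lit 1950259358) (nat_lit 76) (nat_lit 2502987347) (nat_lit 464) (nat_lit 5) (nat_lit 480) (nat_lit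 5) (nat_lit 465) (nat_lit 4) (nat_lit 427) (nat_lit 388) (nat_lit 385))) (XT.nd (nat_lit 78) (nat_lit 912) (nat_lit 0) (XT.lf (nat_lit 0) (nat_lit 698407556) (nat_lit 988) (nat_lit 1052756381) (nat_lit 76) (nat_lit 5528368497) (nat_lit 451) (nat_lit 5) (nat_lit 464) (nat_lit 5) (nat_lit 452) (nat_lit 5) (nat_lit 428) (nat_lit 388) (nat_lit 384)) (XT.lf (nat_lit 0) (nat_lit 5866987907) (nat_lit 988) (nat_lit 110478568) (nat_lit 76) (nat_lit 1366002763) (nat_lit 439) (nat_lit 5) (nat_lit 452) (nat_lit 5) (nat_lit 440) (nat_lit 4) (nat_lit 429) (nat_lit 388) (nat_lit 383)))) (XT.nd (nat_lit 156) (nat_lit 1672) (nat_lit 0) (XT.nd (nat_lit 78) (nat_lit 912) (nat_lit 0) (XT.lf (nat_lit 0) (nat_lit 889855813) (nat_lit 912) (nat_lit 2776452897) (nat_lit 988) (nat_lit 3743837567) (nat_lit 415) (nat_lit 5) (nat_lit 427) (nat_lit 5) (nat_lit 428) (nat_lit 5) (nat_lit 430) (nat_lit 388) (nat_lit 382)) (XT.lf (nat_lit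 0) (nat_lit 1370370306) (nat_lit 912) (nat_lit 5528228089) (nat_lit 76) (nat_lit 581347021) (nat_lit 403) (nat_lit 5) (nat_lit 415) (nat_lit 5) (nat_lit 404) (nat_lit 5) (nat_lit 431) (nat_lit 388) (nat_lit 381))) (XT.nd (nat_lit 78) (nat_lit 836) (nat_lit 0) (XT.lf (nat_lit 0) (nat_lit 3052096281) (nat_lit 836) (nat_lit 3477932584) (nat_lit 912) (nat_lit 1022461708) (nat_lit 392) (nat_lit 5) (nat_lit 403) (nat_lit 5) (nat_lit 404) (nat_lit 5) (nat_lit 432) (nat_lit 388) (nat_lit 380)) (XT.lf (nat_lit 0) (nat_lit 4089634909) (nat_lit 836) (nat_lit 3421769627) (nat_lit 76) (nat_lit 116710841) (nat_lit 381) (nat_lit 5) (nat_lit 392) (nat_lit 5) (nat_lit 382) (nat_lit 5) (nat_lit 433) (nat_lit 388) (nat_lit 379))))))) (XT.nd (nat_lit 1170) (nat_lit 7600) (nat_lit 0) (XT.nd (nat_lit 546) (nat_lit 5320) (nat_lit 0) (XT.nd (nat_lit 234) (nat_lit 2888) (nat_lit 0) (XT.nd (nat_lit 78) (nat_lit 2280) (nat_lit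 0) (XT.lf (nat_lit 0) (nat_lit 1567495059) (nat_lit 836) (nat_lit 2305379260) (nat_lit 76) (nat_lit 3833719120) (nat_lit 370) (nat_lit 5) (nat_lit 381) (nat_lit 5) (nat_lit 371) (nat_lit 5) (nat_lit 434) (nat_lit 388) (nat_lit 378)) (XT.nd (nat_lit 78) (nat_lit 1520) (nat_lit 0) (XT.lf (nat_lit 0) (nat_lit 6653585389) (nat_lit 760) (nat_lit 58595324) (nat_lit 836) (nat_lit 1076109420) (nat_lit 360) (nat_lit 5) (nat_lit 370) (nat_lit 5) (nat_lit 371) (nat_lit 5) (nat_lit 435) (nat_lit 388) (nat_lit 377)) (XT.lf (nat_lit 0) (nat_lit 62438371) (nat_lit 684) (nat_lit 3984234467) (nat_lit 760) (nat_lit 3825987743) (nat_lit 340) (nat_lit 5) (nat_lit 349) (nat_lit 5) (nat_lit 350) (nat_lit 5) (nat_lit 436) (nat_lit 388) (nat_lit 376)))) (XT.nd (nat_lit 156) (nat_lit 1444) (nat_lit 0) (XT.nd (nat_lit 78) (nat_lit 684) (nat_lit 0) (XT.lf (nat_lit 0) (nat_lit 1279176337) (nat_lit 760) (nat_lit 6624146582) (nat_lit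 76) (nat_lit 56970133) (nat_lit 330) (nat_lit 5) (nat_lit 340) (nat_lit 5) (nat_lit 331) (nat_lit 5) (nat_lit 437) (nat_lit 388) (nat_lit 375)) (XT.lf (nat_lit 0) (nat_lit 2635092819) (nat_lit 684) (nat_lit 3819843897) (nat_lit 760) (nat_lit 1595727228) (nat_lit 321) (nat_lit 5) (nat_lit 330) (nat_lit 5) (nat_lit 331) (nat_lit 5) (nat_lit 438) (nat_lit 388) (nat_lit 374))) (XT.nd (nat_lit 78) (nat_lit 684) (nat_lit 0) (XT.lf (nat_lit 0) (nat_lit 3542405243) (nat_lit 760) (nat_lit 4159262612) (nat_lit 76) (nat_lit 442649654) (nat_lit 311) (nat_lit 5) (nat_lit 321) (nat_lit 5) (nat_lit 312) (nat_lit 5) (nat_lit 439) (nat_lit 388) (nat_lit 373)) (XT.lf (nat_lit 0) (nat_lit 538646666) (nat_lit 684) (nat_lit 2868725486) (nat_lit 76) (nat_lit 4833652130) (nat_lit 302) (nat_lit 5) (nat_lit 311) (nat_lit 5) (nat_lit 303) (nat_lit 5) (nat_lit 440) (nat_lit 388) (nat_lit 372))))) (XT.nd (nat_lit 312) (nat_lit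 2204) (nat_lit 0) (XT.nd (nat_lit 156) (nat_lit 1824) (nat_lit 0) (XT.nd (nat_lit 78) (nat_lit 684) (nat_lit 0) (XT.lf (nat_lit 0) (nat_lit 5729014696) (nat_lit 684) (nat_lit 1542015734) (nat_lit 76) (nat_lit 1069834402) (nat_lit 294) (nat_lit 5) (nat_lit 303) (nat_lit 5) (nat_lit 295) (nat_lit 5) (nat_lit 441) (nat_lit 388) (nat_lit 371)) (XT.lf (nat_lit 0) (nat_lit 2573286891) (nat_lit 684) (nat_lit 181536151) (nat_lit 76) (nat_lit 5689010838) (nat_lit 285) (nat_lit 5) (nat_lit 294) (nat_lit 5) (nat_lit 286) (nat_lit 5) (nat_lit 442) (nat_lit 388) (nat_lit 370))) (XT.nd (nat_lit 78) (nat_lit 684) (nat_lit 0) (XT.lf (nat_lit 0) (nat_lit 1238614659) (nat_lit 532) (nat_lit 6616982370) (nat_lit 608) (nat_lit 694410593) (nat_lit 270) (nat_lit 5) (nat_lit 277) (nat_lit 5) (nat_lit 278) (nat_lit 5) (nat_lit 443) (nat_lit 388) (nat_lit 369)) (XT.lf (nat_lit 0) (nat_lit 2686595562) (nat_lit 608) (nat_lit 1868067778)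 (nat_lit 684) (nat_lit 4104534575) (nat_lit 261) (nat_lit 5) (nat_lit 269) (nat_lit 5) (nat_lit 270) (nat_lit 5) (nat_lit 444) (nat_lit 388) (nat_lit 368)))) (XT.nd (nat_lit 156) (nat_lit 1064) (nat_lit 0) (XT.nd (nat_lit 78) (nat_lit 532) (nat_lit 0) (XT.lf (nat_lit 0) (nat_lit 1145941398) (nat_lit 608) (nat_lit 4595363331) (nat_lit 76) (nat_lit 3030492499) (nat_lit 253) (nat_lit 5) (nat_lit 261) (nat_lit 5) (nat_lit 254) (nat_lit 5) (nat_lit 445) (nat_lit 388) (nat_lit 367)) (XT.lf (nat_lit 0) (nat_lit 5700282425) (nat_lit 532) (nat_lit 774653768) (nat_lit 608) (nat_lit 2412762953) (nat_lit 246) (nat_lit 5) (nat_lit 253) (nat_lit 5) (nat_lit 254) (nat_lit 5) (nat_lit 446) (nat_lit 388) (nat_lit 366))) (XT.nd (nat_lit 78) (nat_lit 532) (nat_lit 0) (XT.lf (nat_lit 0) (nat_lit 2912855261) (nat_lit 532) (nat_lit 1756506165) (nat_lit 76) (nat_lit 4337437044) (nat_lit 239) (nat_lit 5) (nat_lit 246) (nat_lit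 5) (nat_lit 240) (nat_lit 5) (nat_lit 447) (nat_lit 388) (nat_lit 365)) (XT.lf (nat_lit 0) (nat_lit 8343116405) (nat_lit 608) (nat_lit 279883740) (nat_lit 76) (nat_lit 506601002) (nat_lit 232) (nat_lit 5) (nat_lit 240) (nat_lit 5) (nat_lit 233) (nat_lit 5) (nat_lit 448) (nat_lit 388) (nat_lit 364)))))) (XT.nd (nat_lit 546) (nat_lit 3496) (nat_lit 0) (XT.nd (nat_lit 234) (nat_lit 2128) (nat_lit 0) (XT.nd (nat_lit 78) (nat_lit 988) (nat_lit 0) (XT.lf (nat_lit 0) (nat_lit 1221638302) (nat_lit 456) (nat_lit 3408091719) (nat_lit 532) (nat_lit 4625534172) (nat_lit 219) (nat_lit 5) (nat_lit 225) (nat_lit 5) (nat_lit 226) (nat_lit 5) (nat_lit 449) (nat_lit 388) (nat_lit 363)) (XT.nd (nat_lit 78) (nat_lit 456) (nat_lit 0) (XT.lf (nat_lit 0) (nat_lit 791139979) (nat_lit 532) (nat_lit 6610348425) (nat_lit 76) (nat_lit 1983228324) (nat_lit 212) (nat_lit 5) (nat_lit 219) (nat_lit 5) (nat_lit 213) (nat_lit 5) (nat_lit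 450) (nat_lit 388) (nat_lit 362)) (XT.lf (nat_lit 0) (nat_lit 4344303261) (nat_lit 456) (nat_lit 1962495399) (nat_lit 532) (nat_lit 3210658274) (nat_lit 206) (nat_lit 5) (nat_lit 212) (nat_lit 5) (nat_lit 213) (nat_lit 5) (nat_lit 451) (nat_lit 388) (nat_lit 361)))) (XT.nd (nat_lit 156) (nat_lit 1216) (nat_lit 0) (XT.nd (nat_lit 78) (nat_lit 456) (nat_lit 0) (XT.lf (nat_lit 0) (nat_lit 2305525680) (nat_lit 456) (nat_lit 3707638462) (nat_lit 76) (nat_lit 3640666484) (nat_lit 200) (nat_lit 5) (nat_lit 206) (nat_lit 5) (nat_lit 201) (nat_lit 5) (nat_lit 452) (nat_lit 388) (nat_lit 360)) (XT.lf (nat_lit 0) (nat_lit 7584765141) (nat_lit 456) (nat_lit 353028477) (nat_lit 532) (nat_lit 1856195059) (nat_lit 194) (nat_lit 5) (nat_lit 200) (nat_lit 5) (nat_lit 201) (nat_lit 5) (nat_lit 453) (nat_lit 388) (nat_lit 359))) (XT.nd (nat_lit 78) (nat_lit 760) (nat_lit 0) (XT.lf (nat_lit 0) (nat_lit 3769920219) (nat_lit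 456) (nat_lit 703605011) (nat_lit 76) (nat_lit 5463952812) (nat_lit 188) (nat_lit 5) (nat_lit 194) (nat_lit 5) (nat_lit 189) (nat_lit 5) (nat_lit 454) (nat_lit 388) (nat_lit 358)) (XT.lf (nat_lit 0) (nat_lit 856731627) (nat_lit 380) (nat_lit 8685517472) (nat_lit 456) (nat_lit 542726455) (nat_lit 178) (nat_lit 5) (nat_lit 183) (nat_lit 5) (nat_lit 184) (nat_lit 5) (nat_lit 455) (nat_lit 388) (nat_lit 357))))) (XT.nd (nat_lit 312) (nat_lit 1824) (nat_lit 0) (XT.nd (nat_lit 156) (nat_lit 760) (nat_lit 0) (XT.nd (nat_lit 78) (nat_lit 456) (nat_lit 0) (XT.lf (nat_lit 0) (nat_lit 2430248147) (nat_lit 380) (nat_lit 2774154149) (nat_lit 456) (nat_lit 5031367223) (nat_lit 172) (nat_lit 5) (nat_lit 177) (nat_lit 5) (nat_lit 178) (nat_lit 5) (nat_lit 456) (nat_lit 388) (nat_lit 356)) (XT.lf (nat_lit 0) (nat_lit 727716135) (nat_lit 456) (nat_lit 6348873350) (nat_lit 76) (nat_lit 3314099984) (nat_lit 166) (nat_lit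 5) (nat_lit 172) (nat_lit 5) (nat_lit 167) (nat_lit 5) (nat_lit 457) (nat_lit 388) (nat_lit 355))) (XT.nd (nat_lit 78) (nat_lit 380) (nat_lit 0) (XT.lf (nat_lit 0) (nat_lit 5669462992) (nat_lit 380) (nat_lit 932811986) (nat_lit 456) (nat_lit 3947097305) (nat_lit 161) (nat_lit 5) (nat_lit 166) (nat_lit 5) (nat_lit 167) (nat_lit 5) (nat_lit 458) (nat_lit 388) (nat_lit 354)) (XT.lf (nat_lit 0) (nat_lit 1944499950) (nat_lit 380) (nat_lit 3394508387) (nat_lit 76) (nat_lit 5372962988) (nat_lit 156) (nat_lit 5) (nat_lit 161) (nat_lit 5) (nat_lit 157) (nat_lit 5) (nat_lit 459) (nat_lit 388) (nat_lit 353)))) (XT.nd (nat_lit 156) (nat_lit 1064) (nat_lit 0) (XT.nd (nat_lit 78) (nat_lit 380) (nat_lit 0) (XT.lf (nat_lit 0) (nat_lit 7969008666) (nat_lit 456) (nat_lit 1884032903) (nat_lit 76) (nat_lit 1025690662) (nat_lit 151) (nat_lit 5) (nat_lit 157) (nat_lit 5) (nat_lit 152) (nat_lit 5) (nat_lit 460) (nat_lit 388)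 (nat_lit 352)) (XT.lf (nat_lit 0) (nat_lit 3117579300) (nat_lit 380) (nat_lit 365180856) (nat_lit 76) (nat_lit 7566635762) (nat_lit 146) (nat_lit 5) (nat_lit 151) (nat_lit 5) (nat_lit 147) (nat_lit 5) (nat_lit 461) (nat_lit 388) (nat_lit 351))) (XT.nd (nat_lit 78) (nat_lit 380) (nat_lit 0) (XT.lf (nat_lit 0) (nat_lit 1194097515) (nat_lit 304) (nat_lit 8121280682) (nat_lit 380) (nat_lit 1908833852) (nat_lit 137) (nat_lit 5) (nat_lit 141) (nat_lit 5) (nat_lit 142) (nat_lit 5) (nat_lit 462) (nat_lit 388) (nat_lit 350)) (XT.lf (nat_lit 0) (nat_lit 2771922193) (nat_lit 304) (nat_lit 1495408400) (nat_lit 380) (nat_lit 7135809278) (nat_lit 132) (nat_lit 5) (nat_lit 136) (nat_lit 5) (nat_lit 137) (nat_lit 5) (nat_lit 463) (nat_lit 388) (nat_lit 349))))))))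
noncomputable def xc19 : XT := (XT.nd (nat_lit 59436) (nat_lit 0) (nat_lit 11400) (XT.nd (nat_lit 1092) (nat_lit 2736) (nat_lit 0) (XT.nd (nat_lit 546) (nat_lit 1824) (nat_lit 0) (XT.nd (nat_lit 234) (nat_lit 1596) (nat_lit 0) (XT.nd (nat_lit 78) (nat_lit 684) (nat_lit 0) (XT.lf (nat_lit 0) (nat_lit 4367302693) (nat_lit 304) (nat_lit 6275544788) (nat_lit 380) (nat_lit 943536945) (nat_lit 128) (nat_lit 5) (nat_lit 132) (nat_lit 5) (nat_lit 133) (nat_lit 5) (nat_lit 464) (nat_lit 388) (nat_lit 348)) (XT.nd (nat_lit 78) (nat_lit 304) (nat_lit 0) (XT.lf (nat_lit 0) (nat_lit 5384439051) (nat_lit 380) (nat_lit 5795369672) (nat_lit 76) (nat_lit 594188909) (nat_lit 123) (nat_lit 5) (nat_lit 128) (nat_lit 5) (nat_lit 124) (nat_lit 5) (nat_lit 465) (nat_lit 388) (nat_lit 347)) (XT.lf (nat_lit 0) (nat_lit 7606888062) (nat_lit 304) (nat_lit 4334093199) (nat_lit 380) (nat_lit 25103491) (nat_lit 119) (nat_lit 5)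 (nat_lit 123) (nat_lit 5) (nat_lit 124) (nat_lit 5) (nat_lit 466) (nat_lit 388) (nat_lit 346)))) (XT.nd (nat_lit 156) (nat_lit 912) (nat_lit 0) (XT.nd (nat_lit 78) (nat_lit 304) (nat_lit 0) (XT.lf (nat_lit 0) (nat_lit 6474411627) (nat_lit 380) (nat_lit 2922744260) (nat_lit 76) (nat_lit 2765336287) (nat_lit 114) (nat_lit 5) (nat_lit 119) (nat_lit 5) (nat_lit 115) (nat_lit 5) (nat_lit 467) (nat_lit 388) (nat_lit 345)) (XT.lf (nat_lit 0) (nat_lit 836246715) (nat_lit 304) (nat_lit 1460381809) (nat_lit 76) (nat_lit 10067196545) (nat_lit 110) (nat_lit 5) (nat_lit 114) (nat_lit 5) (nat_lit 111) (nat_lit 5) (nat_lit 468) (nat_lit 388) (nat_lit 344))) (XT.nd (nat_lit 78) (nat_lit 608) (nat_lit 0) (XT.lf (nat_lit 0) (nat_lit 7528488434) (nat_lit 380) (nat_lit 8152801) (nat_lit 76) (nat_lit 5032816513) (nat_lit 106) (nat_lit 5) (nat_lit 111) (nat_lit 5) (nat_lit 107) (nat_lit 5) (nat_lit 469) (nat_lit 388) (nat_lit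 343)) (XT.lf (nat_lit 0) (nat_lit 1497978347) (nat_lit 304) (nat_lit 164048942) (nat_lit 380) (nat_lit 11118154082) (nat_lit 98) (nat_lit 5) (nat_lit 102) (nat_lit 5) (nat_lit 103) (nat_lit 5) (nat_lit 470) (nat_lit 388) (nat_lit 342))))) (XT.nd (nat_lit 234) (nat_lit 1064) (nat_lit 0) (XT.nd (nat_lit 78) (nat_lit 532) (nat_lit 0) (XT.lf (nat_lit 0) (nat_lit 2982723943) (nat_lit 228) (nat_lit 5583789506) (nat_lit 304) (nat_lit 4428670054) (nat_lit 95) (nat_lit 5) (nat_lit 98) (nat_lit 5) (nat_lit 99) (nat_lit 5) (nat_lit 471) (nat_lit 388) (nat_lit 341)) (XT.nd (nat_lit 78) (nat_lit 228) (nat_lit 0) (XT.lf (nat_lit 0) (nat_lit 2465953792) (nat_lit 304) (nat_lit 8717922964) (nat_lit 76) (nat_lit 2031705448) (nat_lit 91) (nat_lit 5) (nat_lit 95) (nat_lit 5) (nat_lit 92) (nat_lit 5) (nat_lit 472) (nat_lit 388) (nat_lit 340)) (XT.lf (nat_lit 0) (nat_lit 6006147592) (nat_lit 228) (nat_lit 3563230059) (nat_lit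 304) (nat_lit 3871388034) (nat_lit 88) (nat_lit 5) (nat_lit 91) (nat_lit 5) (nat_lit 92) (nat_lit 5) (nat_lit 473) (nat_lit 388) (nat_lit 339)))) (XT.nd (nat_lit 156) (nat_lit 532) (nat_lit 0) (XT.nd (nat_lit 78) (nat_lit 228) (nat_lit 0) (XT.lf (nat_lit 0) (nat_lit 3225968842) (nat_lit 304) (nat_lit 6145333131) (nat_lit 76) (nat_lit 4299888069) (nat_lit 84) (nat_lit 5) (nat_lit 88) (nat_lit 5) (nat_lit 85) (nat_lit 5) (nat_lit 474) (nat_lit 388) (nat_lit 338)) (XT.lf (nat_lit 0) (nat_lit 9056349301) (nat_lit 228) (nat_lit 1480129420) (nat_lit 304) (nat_lit 3370480835) (nat_lit 81) (nat_lit 5) (nat_lit 84) (nat_lit 5) (nat_lit 85) (nat_lit 5) (nat_lit 475) (nat_lit 388) (nat_lit 337))) (XT.nd (nat_lit 78) (nat_lit 228) (nat_lit 0) (XT.lf (nat_lit 0) (nat_lit 3939802177) (nat_lit 304) (nat_lit 3570034317) (nat_lit 76) (nat_lit 6637964544) (nat_lit 77) (nat_lit 5) (nat_lit 81) (nat_lit 5) (nat_lit 78)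 (nat_lit 5) (nat_lit 476) (nat_lit 388) (nat_lit 336)) (XT.lf (nat_lit 0) (nat_lit 11471024331) (nat_lit 304) (nat_lit 2271705002) (nat_lit 76) (nat_lit 651745160) (nat_lit 74) (nat_lit 5) (nat_lit 78) (nat_lit 5) (nat_lit 75) (nat_lit 5) (nat_lit 477) (nat_lit 388) (nat_lit 335)))))) (XT.nd (nat_lit 546) (nat_lit 912) (nat_lit 0) (XT.nd (nat_lit 234) (nat_lit 912) (nat_lit 0) (XT.nd (nat_lit 78) (nat_lit 608) (nat_lit 0) (XT.lf (nat_lit 0) (nat_lit 4605686128) (nat_lit 304) (nat_lit 999303760) (nat_lit 76) (nat_lit 9041242018) (nat_lit 70) (nat_lit 5) (nat_lit 74) (nat_lit 5) (nat_lit 71) (nat_lit 5) (nat_lit 478) (nat_lit 388) (nat_lit 334)) (XT.nd (nat_lit 78) (nat_lit 228) (nat_lit 0) (XT.lf (nat_lit 0) (nat_lit 292630921) (nat_lit 228) (nat_lit 12086304363) (nat_lit 304) (nat_lit 2525061832) (nat_lit 65) (nat_lit 5) (nat_lit 68) (nat_lit 5) (nat_lit 69) (nat_lit 5) (nat_lit 479) (nat_lit 388) (nat_lit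 333)) (XT.lf (nat_lit 0) (nat_lit 1579587512) (nat_lit 152) (nat_lit 3651926026) (nat_lit 228) (nat_lit 9935624419) (nat_lit 62) (nat_lit 5) (nat_lit 64) (nat_lit 5) (nat_lit 65) (nat_lit 5) (nat_lit 480) (nat_lit 388) (nat_lit 332)))) (XT.nd (nat_lit 156) (nat_lit 456) (nat_lit 0) (XT.nd (nat_lit 78) (nat_lit 228) (nat_lit 0) (XT.lf (nat_lit 0) (nat_lit 2869756971) (nat_lit 228) (nat_lit 10391507007) (nat_lit 304) (nat_lit 2175080203) (nat_lit 59) (nat_lit 5) (nat_lit 62) (nat_lit 5) (nat_lit 63) (nat_lit 5) (nat_lit 481) (nat_lit 388) (nat_lit 331)) (XT.lf (nat_lit 0) (nat_lit 4150113750) (nat_lit 152) (nat_lit 1660352374) (nat_lit 228) (nat_lit 9901035684) (nat_lit 56) (nat_lit 5) (nat_lit 58) (nat_lit 5) (nat_lit 59) (nat_lit 5) (nat_lit 482) (nat_lit 388) (nat_lit 330))) (XT.nd (nat_lit 78) (nat_lit 228) (nat_lit 0) (XT.lf (nat_lit 0) (nat_lit 5420109549) (nat_lit 228) (nat_lit 8679987875) (nat_lit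 304) (nat_lit 1892648397) (nat_lit 53) (nat_lit 5) (nat_lit 56) (nat_lit 5) (nat_lit 57) (nat_lit 5) (nat_lit 483) (nat_lit 388) (nat_lit 329)) (XT.lf (nat_lit 0) (nat_lit 6334548431) (nat_lit 228) (nat_lit 9593602789) (nat_lit 76) (nat_lit 352212795) (nat_lit 50) (nat_lit 5) (nat_lit 53) (nat_lit 5) (nat_lit 51) (nat_lit 5) (nat_lit 484) (nat_lit 388) (nat_lit 328))))) (XT.nd (nat_lit 312) (nat_lit 152) (nat_lit 0) (XT.nd (nat_lit 156) (nat_lit 380) (nat_lit 0) (XT.nd (nat_lit 78) (nat_lit 228) (nat_lit 0) (XT.lf (nat_lit 0) (nat_lit 7933302612) (nat_lit 152) (nat_lit 6958475391) (nat_lit 228) (nat_lit 1682404480) (nat_lit 48) (nat_lit 5) (nat_lit 50) (nat_lit 5) (nat_lit 51) (nat_lit 5) (nat_lit 485) (nat_lit 388) (nat_lit 327)) (XT.lf (nat_lit 0) (nat_lit 6807874148) (nat_lit 228) (nat_lit 7704735022) (nat_lit 76) (nat_lit 2361949550) (nat_lit 45) (nat_lit 5) (nat_lit 48) (nat_lit 5) (nat_lit 46)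 (nat_lit 5) (nat_lit 486) (nat_lit 388) (nat_lit 326))) (XT.nd (nat_lit 78) (nat_lit 228) (nat_lit 0) (XT.lf (nat_lit 0) (nat_lit 10397802577) (nat_lit 152) (nat_lit 5234100950) (nat_lit 228) (nat_lit 1549782815) (nat_lit 43) (nat_lit 5) (nat_lit 45) (nat_lit 5) (nat_lit 46) (nat_lit 5) (nat_lit 487) (nat_lit 388) (nat_lit 325)) (XT.lf (nat_lit 0) (nat_lit 7214350125) (nat_lit 228) (nat_lit 5897184344) (nat_lit 76) (nat_lit 4383826919) (nat_lit 40) (nat_lit 5) (nat_lit 43) (nat_lit 5) (nat_lit 41) (nat_lit 5) (nat_lit 488) (nat_lit 388) (nat_lit 324)))) (XT.nd (nat_lit 57330) (nat_lit 0) (nat_lit 37240) (XT.nd (nat_lit 57252) (nat_lit 0) (nat_lit 40584) (XT.lf (nat_lit 0) (nat_lit 12800780160) (nat_lit 152) (nat_lit 3514485170) (nat_lit 228) (nat_lit 1501078666) (nat_lit 38) (nat_lit 5) (nat_lit 40) (nat_lit 5) (nat_lit 41) (nat_lit 5) (nat_lit 489) (nat_lit 388) (nat_lit 323)) (XT.lf (nat_lit 0) (nat_lit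 354199529) (nat_lit 1596) (nat_lit 2769125931) (nat_lit 0) (nat_lit 354199529) (nat_lit 572) (nat_lit 5) (nat_lit 593) (nat_lit 4) (nat_lit 572) (nat_lit 4) (nat_lit 422) (nat_lit 389) (nat_lit 389))) (XT.nd (nat_lit 78) (nat_lit 1748) (nat_lit 0) (XT.lf (nat_lit 0) (nat_lit 2004823846) (nat_lit 1596) (nat_lit 3885008683) (nat_lit 1596) (nat_lit 1113226314) (nat_lit 551) (nat_lit 4) (nat_lit 572) (nat_lit 5) (nat_lit 572) (nat_lit 4) (nat_lit 423) (nat_lit 389) (nat_lit 388)) (XT.lf (nat_lit 0) (nat_lit 2653176903) (nat_lit 1672) (nat_lit 1364649886) (nat_lit 1748) (nat_lit 3036178176) (nat_lit 528) (nat_lit 5) (nat_lit 550) (nat_lit 5) (nat_lit 551) (nat_lit 4) (nat_lit 424) (nat_lit 389) (nat_lit 387))))))) (XT.nd (nat_lit 1170) (nat_lit 9348) (nat_lit 0) (XT.nd (nat_lit 546) (nat_lit 6992) (nat_lit 0) (XT.nd (nat_lit 234) (nat_lit 4636) (nat_lit 0) (XT.nd (nat_lit 78) (nat_lit 3040) (nat_lit 0) (XT.lf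 (nat_lit 0) (nat_lit 2063194764) (nat_lit 1824) (nat_lit 3749507295) (nat_lit 76) (nat_lit 1295144145) (nat_lit 504) (nat_lit 5) (nat_lit 528) (nat_lit 5) (nat_lit 505) (nat_lit 4) (nat_lit 425) (nat_lit 389) (nat_lit 386)) (XT.nd (nat_lit 78) (nat_lit 1140) (nat_lit 0) (XT.lf (nat_lit 0) (nat_lit 24956512) (nat_lit 1900) (nat_lit 3045192106) (nat_lit 76) (nat_lit 4094443661) (nat_lit 479) (nat_lit 5) (nat_lit 504) (nat_lit 5) (nat_lit 480) (nat_lit 5) (nat_lit 426) (nat_lit 389) (nat_lit 385)) (XT.lf (nat_lit 0) (nat_lit 4931798674) (nat_lit 1140) (nat_lit 156191504) (nat_lit 1216) (nat_lit 2136191835) (nat_lit 464) (nat_lit 5) (nat_lit 479) (nat_lit 5) (nat_lit 480) (nat_lit 5) (nat_lit 427) (nat_lit 389) (nat_lit 384)))) (XT.nd (nat_lit 156) (nat_lit 2660) (nat_lit 0) (XT.nd (nat_lit 78) (nat_lit 988) (nat_lit 0) (XT.lf (nat_lit 0) (nat_lit 2909490026) (nat_lit 988) (nat_lit 1496387607) (nat_lit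 76) (nat_lit 2880661235) (nat_lit 451) (nat_lit 5) (nat_lit 464) (nat_lit 5) (nat_lit 452) (nat_lit 5) (nat_lit 428) (nat_lit 389) (nat_lit 383)) (XT.lf (nat_lit 0) (nat_lit 634906580) (nat_lit 988) (nat_lit 639533547) (nat_lit 76) (nat_lit 6077606508) (nat_lit 438) (nat_lit 5) (nat_lit 451) (nat_lit 5) (nat_lit 439) (nat_lit 5) (nat_lit 429) (nat_lit 389) (nat_lit 382))) (XT.nd (nat_lit 78) (nat_lit 912) (nat_lit 0) (XT.lf (nat_lit 0) (nat_lit 258641597) (nat_lit 912) (nat_lit 5414196257) (nat_lit 988) (nat_lit 1747406438) (nat_lit 415) (nat_lit 5) (nat_lit 427) (nat_lit 5) (nat_lit 428) (nat_lit 5) (nat_lit 430) (nat_lit 389) (nat_lit 381)) (XT.lf (nat_lit 0) (nat_lit 1215051991) (nat_lit 836) (nat_lit 2048398196) (nat_lit 912) (nat_lit 4227879696) (nat_lit 403) (nat_lit 5) (nat_lit 414) (nat_lit 5) (nat_lit 415) (nat_lit 5) (nat_lit 431) (nat_lit 389) (nat_lit 380))))) (XT.nd (nat_lit 312) (nat_lit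 3648) (nat_lit 0) (XT.nd (nat_lit 156) (nat_lit 1672) (nat_lit 0) (XT.nd (nat_lit 78) (nat_lit 760) (nat_lit 0) (XT.lf (nat_lit 0) (nat_lit 761675500) (nat_lit 912) (nat_lit 5340665342) (nat_lit 76) (nat_lit 1463150633) (nat_lit 391) (nat_lit 5) (nat_lit 403) (nat_lit 5) (nat_lit 392) (nat_lit 5) (nat_lit 432) (nat_lit 389) (nat_lit 379)) (XT.lf (nat_lit 0) (nat_lit 3271688202) (nat_lit 760) (nat_lit 2515778764) (nat_lit 836) (nat_lit 1854976612) (nat_lit 381) (nat_lit 5) (nat_lit 391) (nat_lit 5) (nat_lit 392) (nat_lit 5) (nat_lit 433) (nat_lit 389) (nat_lit 378))) (XT.nd (nat_lit 78) (nat_lit 836) (nat_lit 0) (XT.lf (nat_lit 0) (nat_lit 3140680417) (nat_lit 836) (nat_lit 3354124352) (nat_lit 76) (nat_lit 1227665099) (nat_lit 370) (nat_lit 5) (nat_lit 381) (nat_lit 5) (nat_lit 371) (nat_lit 5) (nat_lit 434) (nat_lit 389) (nat_lit 377)) (XT.lf (nat_lit 0) (nat_lit 403307869) (nat_lit 836) (nat_lit 2294213086)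 (nat_lit 76) (nat_lit 5108016692) (nat_lit 359) (nat_lit 5) (nat_lit 370) (nat_lit 5) (nat_lit 360) (nat_lit 5) (nat_lit 435) (nat_lit 389) (nat_lit 376)))) (XT.nd (nat_lit 156) (nat_lit 2128) (nat_lit 0) (XT.nd (nat_lit 78) (nat_lit 760) (nat_lit 0) (XT.lf (nat_lit 0) (nat_lit 5423423787) (nat_lit 836) (nat_lit 1198153732) (nat_lit 76) (nat_lit 1269963801) (nat_lit 349) (nat_lit 5) (nat_lit 360) (nat_lit 5) (nat_lit 350) (nat_lit 5) (nat_lit 436) (nat_lit 389) (nat_lit 375)) (XT.lf (nat_lit 0) (nat_lit 2539851932) (nat_lit 760) (nat_lit 62541485) (nat_lit 76) (nat_lit 5378193578) (nat_lit 339) (nat_lit 5) (nat_lit 349) (nat_lit 5) (nat_lit 340) (nat_lit 5) (nat_lit 437) (nat_lit 389) (nat_lit 374))) (XT.nd (nat_lit 78) (nat_lit 760) (nat_lit 0) (XT.lf (nat_lit 0) (nat_lit 1135404271) (nat_lit 684) (nat_lit 6491989207) (nat_lit 760) (nat_lit 445330541) (nat_lit 321) (nat_lit 5) (nat_lit 330) (nat_lit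 5) (nat_lit 331) (nat_lit 5) (nat_lit 438) (nat_lit 389) (nat_lit 373)) (XT.lf (nat_lit 0) (nat_lit 2360816691) (nat_lit 684) (nat_lit 2243140265) (nat_lit 760) (nat_lit 3563748065) (nat_lit 311) (nat_lit 5) (nat_lit 320) (nat_lit 5) (nat_lit 321) (nat_lit 5) (nat_lit 439) (nat_lit 389) (nat_lit 372)))))) (XT.nd (nat_lit 546) (nat_lit 4408) (nat_lit 0) (XT.nd (nat_lit 234) (nat_lit 2964) (nat_lit 0) (XT.nd (nat_lit 78) (nat_lit 1292) (nat_lit 0) (XT.lf (nat_lit 0) (nat_lit 1477699636) (nat_lit 684) (nat_lit 4632253576) (nat_lit 76) (nat_lit 2156035274) (nat_lit 302) (nat_lit 5) (nat_lit 311) (nat_lit 5) (nat_lit 303) (nat_lit 5) (nat_lit 440) (nat_lit 389) (nat_lit 371)) (XT.nd (nat_lit 78) (nat_lit 684) (nat_lit 0) (XT.lf (nat_lit 0) (nat_lit 4942036803) (nat_lit 608) (nat_lit 1648618231) (nat_lit 684) (nat_lit 1776723801) (nat_lit 294) (nat_lit 5) (nat_lit 302) (nat_lit 5) (nat_lit 303) (nat_lit 5)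 (nat_lit 441) (nat_lit 389) (nat_lit 370)) (XT.lf (nat_lit 0) (nat_lit 3316226576) (nat_lit 684) (nat_lit 2188880531) (nat_lit 76) (nat_lit 2966758478) (nat_lit 285) (nat_lit 5) (nat_lit 294) (nat_lit 5) (nat_lit 286) (nat_lit 5) (nat_lit 442) (nat_lit 389) (nat_lit 369)))) (XT.nd (nat_lit 156) (nat_lit 1140) (nat_lit 0) (XT.nd (nat_lit 78) (nat_lit 1216) (nat_lit 0) (XT.lf (nat_lit 0) (nat_lit 7675102377) (nat_lit 608) (nat_lit 832659707) (nat_lit 684) (nat_lit 72094164) (nat_lit 277) (nat_lit 5) (nat_lit 285) (nat_lit 5) (nat_lit 286) (nat_lit 5) (nat_lit 443) (nat_lit 389) (nat_lit 368)) (XT.lf (nat_lit 0) (nat_lit 395757633) (nat_lit 608) (nat_lit 4690594995) (nat_lit 684) (nat_lit 3604263768) (nat_lit 261) (nat_lit 5) (nat_lit 269) (nat_lit 5) (nat_lit 270) (nat_lit 5) (nat_lit 444) (nat_lit 389) (nat_lit 367))) (XT.nd (nat_lit 78) (nat_lit 532) (nat_lit 0) (XT.lf (nat_lit 0) (nat_lit 1549891149)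 (nat_lit 608) (nat_lit 7043350887) (nat_lit 76) (nat_lit 211705204) (nat_lit 253) (nat_lit 5) (nat_lit 261) (nat_lit 5) (nat_lit 254) (nat_lit 5) (nat_lit 445) (nat_lit 389) (nat_lit 366)) (XT.lf (nat_lit 0) (nat_lit 3142708777) (nat_lit 532) (nat_lit 3665149361) (nat_lit 608) (nat_lit 2114412832) (nat_lit 246) (nat_lit 5) (nat_lit 253) (nat_lit 5) (nat_lit 254) (nat_lit 5) (nat_lit 446) (nat_lit 389) (nat_lit 365))))) (XT.nd (nat_lit 312) (nat_lit 2280) (nat_lit 0) (XT.nd (nat_lit 156) (nat_lit 1064) (nat_lit 0) (XT.nd (nat_lit 78) (nat_lit 532) (nat_lit 0) (XT.lf (nat_lit 0) (nat_lit 3117039651) (nat_lit 532) (nat_lit 4478537019) (nat_lit 76) (nat_lit 1447561135) (nat_lit 239) (nat_lit 5) (nat_lit 246) (nat_lit 5) (nat_lit 240) (nat_lit 5) (nat_lit 447) (nat_lit 389) (nat_lit 364)) (XT.lf (nat_lit 0) (nat_lit 6018701467) (nat_lit 532) (nat_lit 2454126361) (nat_lit 608) (nat_lit 694603273) (nat_lit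 232) (nat_lit 5) (nat_lit 239) (nat_lit 5) (nat_lit 240) (nat_lit 5) (nat_lit 448) (nat_lit 389) (nat_lit 363))) (XT.nd (nat_lit 78) (nat_lit 532) (nat_lit 0) (XT.lf (nat_lit 0) (nat_lit 4624875371) (nat_lit 532) (nat_lit 1800676854) (nat_lit 76) (nat_lit 2869441718) (nat_lit 225) (nat_lit 5) (nat_lit 232) (nat_lit 5) (nat_lit 226) (nat_lit 5) (nat_lit 449) (nat_lit 389) (nat_lit 362)) (XT.lf (nat_lit 0) (nat_lit 652103635) (nat_lit 532) (nat_lit 410753924) (nat_lit 76) (nat_lit 8363496492) (nat_lit 218) (nat_lit 5) (nat_lit 225) (nat_lit 5) (nat_lit 219) (nat_lit 5) (nat_lit 450) (nat_lit 389) (nat_lit 361)))) (XT.nd (nat_lit 156) (nat_lit 912) (nat_lit 0) (XT.nd (nat_lit 78) (nat_lit 456) (nat_lit 0) (XT.lf (nat_lit 0) (nat_lit 999423601) (nat_lit 456) (nat_lit 5085908919) (nat_lit 532) (nat_lit 3475411356) (nat_lit 206) (nat_lit 5) (nat_lit 212) (nat_lit 5) (nat_lit 213) (nat_lit 5) (nat_lit 451)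 (nat_lit 389) (nat_lit 360)) (XT.lf (nat_lit 0) (nat_lit 1950450376) (nat_lit 456) (nat_lit 7239373595) (nat_lit 76) (nat_lit 509204836) (nat_lit 200) (nat_lit 5) (nat_lit 206) (nat_lit 5) (nat_lit 201) (nat_lit 5) (nat_lit 452) (nat_lit 389) (nat_lit 359))) (XT.nd (nat_lit 78) (nat_lit 456) (nat_lit 0) (XT.lf (nat_lit 0) (nat_lit 3930388930) (nat_lit 456) (nat_lit 3579013385) (nat_lit 532) (nat_lit 2331251807) (nat_lit 194) (nat_lit 5) (nat_lit 200) (nat_lit 5) (nat_lit 201) (nat_lit 5) (nat_lit 453) (nat_lit 389) (nat_lit 358)) (XT.lf (nat_lit 0) (nat_lit 3206038607) (nat_lit 456) (nat_lit 4552753725) (nat_lit 76) (nat_lit 2227314849) (nat_lit 188) (nat_lit 5) (nat_lit 194) (nat_lit 5) (nat_lit 189) (nat_lit 5) (nat_lit 454) (nat_lit 389) (nat_lit 357))))))))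
noncomputable def xc20 : XT := (XT.nd (nat_lit 2262) (nat_lit 1064) (nat_lit 0) (XT.nd (nat_lit 1092) (nat_lit 4180) (nat_lit 0) (XT.nd (nat_lit 546) (nat_lit 2660) (nat_lit 0) (XT.nd (nat_lit 234) (nat_lit 1976) (nat_lit 0) (XT.nd (nat_lit 78) (nat_lit 836) (nat_lit 0) (XT.lf (nat_lit 0) (nat_lit 6964905905) (nat_lit 380) (nat_lit 1924764993) (nat_lit 456) (nat_lit 1245708596) (nat_lit 183) (nat_lit 5) (nat_lit 188) (nat_lit 5) (nat_lit 189) (nat_lit 5) (nat_lit 455) (nat_lit 389) (nat_lit 356)) (XT.nd (nat_lit 78) (nat_lit 380) (nat_lit 0) (XT.lf (nat_lit 0) (nat_lit 4413179295) (nat_lit 456) (nat_lit 1779534372) (nat_lit 76) (nat_lit 4095501120) (nat_lit 177) (nat_lit 5) (nat_lit 183) (nat_lit 5) (nat_lit 178) (nat_lit 5) (nat_lit 456) (nat_lit 389) (nat_lit 355)) (XT.lf (nat_lit 0) (nat_lit 10099803915) (nat_lit 380) (nat_lit 130301523) (nat_lit 456) (nat_lit 215262734) (nat_lit 172) (nat_lit 5)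 (nat_lit 177) (nat_lit 5) (nat_lit 178) (nat_lit 5) (nat_lit 457) (nat_lit 389) (nat_lit 354)))) (XT.nd (nat_lit 156) (nat_lit 760) (nat_lit 0) (XT.nd (nat_lit 78) (nat_lit 380) (nat_lit 0) (XT.lf (nat_lit 0) (nat_lit 1091057083) (nat_lit 380) (nat_lit 4491363004) (nat_lit 456) (nat_lit 5023253603) (nat_lit 161) (nat_lit 5) (nat_lit 166) (nat_lit 5) (nat_lit 167) (nat_lit 5) (nat_lit 458) (nat_lit 389) (nat_lit 353)) (XT.lf (nat_lit 0) (nat_lit 781746586) (nat_lit 380) (nat_lit 8192494379) (nat_lit 76) (nat_lit 1796186459) (nat_lit 156) (nat_lit 5) (nat_lit 161) (nat_lit 5) (nat_lit 157) (nat_lit 5) (nat_lit 459) (nat_lit 389) (nat_lit 352))) (XT.nd (nat_lit 78) (nat_lit 380) (nat_lit 0) (XT.lf (nat_lit 0) (nat_lit 4065983299) (nat_lit 380) (nat_lit 2655932108) (nat_lit 456) (nat_lit 4216960431) (nat_lit 151) (nat_lit 5) (nat_lit 156) (nat_lit 5) (nat_lit 157) (nat_lit 5) (nat_lit 460) (nat_lit 389)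 (nat_lit 351)) (XT.lf (nat_lit 0) (nat_lit 1731565787) (nat_lit 380) (nat_lit 5529178836) (nat_lit 76) (nat_lit 3850883752) (nat_lit 146) (nat_lit 5) (nat_lit 151) (nat_lit 5) (nat_lit 147) (nat_lit 5) (nat_lit 461) (nat_lit 389) (nat_lit 350))))) (XT.nd (nat_lit 234) (nat_lit 1596) (nat_lit 0) (XT.nd (nat_lit 78) (nat_lit 684) (nat_lit 0) (XT.lf (nat_lit 0) (nat_lit 7118161795) (nat_lit 380) (nat_lit 704331602) (nat_lit 456) (nat_lit 3466089189) (nat_lit 141) (nat_lit 5) (nat_lit 146) (nat_lit 5) (nat_lit 147) (nat_lit 5) (nat_lit 462) (nat_lit 389) (nat_lit 349)) (XT.nd (nat_lit 78) (nat_lit 304) (nat_lit 0) (XT.lf (nat_lit 0) (nat_lit 2635893857) (nat_lit 380) (nat_lit 2807327294) (nat_lit 76) (nat_lit 6026384197) (nat_lit 136) (nat_lit 5) (nat_lit 141) (nat_lit 5) (nat_lit 137) (nat_lit 5) (nat_lit 463) (nat_lit 389) (nat_lit 348)) (XT.lf (nat_lit 0) (nat_lit 8895061075) (nat_lit 380) (nat_lit 1420020773)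 (nat_lit 76) (nat_lit 1340095653) (nat_lit 132) (nat_lit 5) (nat_lit 137) (nat_lit 5) (nat_lit 133) (nat_lit 5) (nat_lit 464) (nat_lit 389) (nat_lit 347)))) (XT.nd (nat_lit 156) (nat_lit 608) (nat_lit 0) (XT.nd (nat_lit 78) (nat_lit 608) (nat_lit 0) (XT.lf (nat_lit 0) (nat_lit 3496284444) (nat_lit 380) (nat_lit 30974123) (nat_lit 76) (nat_lit 8317676603) (nat_lit 127) (nat_lit 5) (nat_lit 132) (nat_lit 5) (nat_lit 128) (nat_lit 5) (nat_lit 465) (nat_lit 389) (nat_lit 346)) (XT.lf (nat_lit 0) (nat_lit 1396070150) (nat_lit 304) (nat_lit 8550699554) (nat_lit 380) (nat_lit 2092374284) (nat_lit 119) (nat_lit 5) (nat_lit 123) (nat_lit 5) (nat_lit 124) (nat_lit 5) (nat_lit 466) (nat_lit 389) (nat_lit 345))) (XT.nd (nat_lit 78) (nat_lit 228) (nat_lit 0) (XT.lf (nat_lit 0) (nat_lit 2832866357) (nat_lit 304) (nat_lit 1499358554) (nat_lit 380) (nat_lit 7905636044) (nat_lit 114) (nat_lit 5) (nat_lit 118) (nat_lit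 5) (nat_lit 119) (nat_lit 5) (nat_lit 467) (nat_lit 389) (nat_lit 344)) (XT.lf (nat_lit 0) (nat_lit 4279380560) (nat_lit 228) (nat_lit 6695423219) (nat_lit 304) (nat_lit 1466386713) (nat_lit 111) (nat_lit 5) (nat_lit 114) (nat_lit 5) (nat_lit 115) (nat_lit 5) (nat_lit 468) (nat_lit 389) (nat_lit 343)))))) (XT.nd (nat_lit 546) (nat_lit 1900) (nat_lit 0) (XT.nd (nat_lit 234) (nat_lit 1292) (nat_lit 0) (XT.nd (nat_lit 78) (nat_lit 608) (nat_lit 0) (XT.lf (nat_lit 0) (nat_lit 5130465159) (nat_lit 380) (nat_lit 6909697091) (nat_lit 76) (nat_lit 609144264) (nat_lit 106) (nat_lit 5) (nat_lit 111) (nat_lit 5) (nat_lit 107) (nat_lit 5) (nat_lit 469) (nat_lit 389) (nat_lit 342)) (XT.nd (nat_lit 78) (nat_lit 380) (nat_lit 0) (XT.lf (nat_lit 0) (nat_lit 7206505326) (nat_lit 228) (nat_lit 4763997231) (nat_lit 304) (nat_lit 891666524) (nat_lit 103) (nat_lit 5) (nat_lit 106) (nat_lit 5) (nat_lit 107) (nat_lit 5) (nat_lit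 470) (nat_lit 389) (nat_lit 341)) (XT.lf (nat_lit 0) (nat_lit 5897194676) (nat_lit 380) (nat_lit 4402080503) (nat_lit 76) (nat_lit 2780558661) (nat_lit 98) (nat_lit 5) (nat_lit 103) (nat_lit 5) (nat_lit 99) (nat_lit 5) (nat_lit 471) (nat_lit 389) (nat_lit 340)))) (XT.nd (nat_lit 156) (nat_lit 760) (nat_lit 0) (XT.nd (nat_lit 78) (nat_lit 304) (nat_lit 0) (XT.lf (nat_lit 0) (nat_lit 10172601980) (nat_lit 228) (nat_lit 2761476905) (nat_lit 304) (nat_lit 368703247) (nat_lit 95) (nat_lit 5) (nat_lit 98) (nat_lit 5) (nat_lit 99) (nat_lit 5) (nat_lit 472) (nat_lit 389) (nat_lit 339)) (XT.lf (nat_lit 0) (nat_lit 6622278430) (nat_lit 304) (nat_lit 1878138958) (nat_lit 76) (nat_lit 5029942077) (nat_lit 91) (nat_lit 5) (nat_lit 95) (nat_lit 5) (nat_lit 92) (nat_lit 5) (nat_lit 473) (nat_lit 389) (nat_lit 338))) (XT.nd (nat_lit 78) (nat_lit 456) (nat_lit 0) (XT.lf (nat_lit 0) (nat_lit 100158528) (nat_lit 304)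 (nat_lit 591986337) (nat_lit 76) (nat_lit 13071612562) (nat_lit 87) (nat_lit 5) (nat_lit 91) (nat_lit 5) (nat_lit 88) (nat_lit 5) (nat_lit 474) (nat_lit 389) (nat_lit 337)) (XT.lf (nat_lit 0) (nat_lit 664652741) (nat_lit 228) (nat_lit 6644467414) (nat_lit 304) (nat_lit 6692438141) (nat_lit 81) (nat_lit 5) (nat_lit 84) (nat_lit 5) (nat_lit 85) (nat_lit 5) (nat_lit 475) (nat_lit 389) (nat_lit 336))))) (XT.nd (nat_lit 312) (nat_lit 912) (nat_lit 0) (XT.nd (nat_lit 156) (nat_lit 456) (nat_lit 0) (XT.nd (nat_lit 78) (nat_lit 228) (nat_lit 0) (XT.lf (nat_lit 0) (nat_lit 532840013) (nat_lit 304) (nat_lit 12278040347) (nat_lit 76) (nat_lit 1434522613) (nat_lit 77) (nat_lit 5) (nat_lit 81) (nat_lit 5) (nat_lit 78) (nat_lit 5) (nat_lit 476) (nat_lit 389) (nat_lit 335)) (XT.lf (nat_lit 0) (nat_lit 3235841163) (nat_lit 228) (nat_lit 4728494310) (nat_lit 304) (nat_lit 6529735847) (nat_lit 74) (nat_lit 5) (nat_lit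 77) (nat_lit 5) (nat_lit 78) (nat_lit 5) (nat_lit 477) (nat_lit 389) (nat_lit 334))) (XT.nd (nat_lit 78) (nat_lit 152) (nat_lit 0) (XT.lf (nat_lit 0) (nat_lit 918574904) (nat_lit 304) (nat_lit 10219069853) (nat_lit 76) (nat_lit 3611215058) (nat_lit 70) (nat_lit 5) (nat_lit 74) (nat_lit 5) (nat_lit 71) (nat_lit 5) (nat_lit 478) (nat_lit 389) (nat_lit 333)) (XT.lf (nat_lit 0) (nat_lit 5802985497) (nat_lit 152) (nat_lit 2770521333) (nat_lit 228) (nat_lit 6435484871) (nat_lit 68) (nat_lit 5) (nat_lit 70) (nat_lit 5) (nat_lit 71) (nat_lit 5) (nat_lit 479) (nat_lit 389) (nat_lit 332)))) (XT.nd (nat_lit 156) (nat_lit 456) (nat_lit 0) (XT.nd (nat_lit 78) (nat_lit 152) (nat_lit 0) (XT.lf (nat_lit 0) (nat_lit 1246158382) (nat_lit 304) (nat_lit 8190943500) (nat_lit 76) (nat_lit 5838063118) (nat_lit 64) (nat_lit 5) (nat_lit 68) (nat_lit 5) (nat_lit 65) (nat_lit 5) (nat_lit 480) (nat_lit 389) (nat_lit 331)) (XT.lf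 (nat_lit 0) (nat_lit 8357851277) (nat_lit 152) (nat_lit 776116679) (nat_lit 228) (nat_lit 6413242392) (nat_lit 62) (nat_lit 5) (nat_lit 64) (nat_lit 5) (nat_lit 65) (nat_lit 5) (nat_lit 481) (nat_lit 389) (nat_lit 330))) (XT.nd (nat_lit 78) (nat_lit 152) (nat_lit 0) (XT.lf (nat_lit 0) (nat_lit 1512156052) (nat_lit 304) (nat_lit 6203197870) (nat_lit 76) (nat_lit 8109879325) (nat_lit 58) (nat_lit 5) (nat_lit 62) (nat_lit 5) (nat_lit 59) (nat_lit 5) (nat_lit 482) (nat_lit 389) (nat_lit 329)) (XT.lf (nat_lit 0) (nat_lit 9650515468) (nat_lit 228) (nat_lit 5226434453) (nat_lit 76) (nat_lit 1232553061) (nat_lit 56) (nat_lit 5) (nat_lit 59) (nat_lit 5) (nat_lit 57) (nat_lit 5) (nat_lit 483) (nat_lit 389) (nat_lit 328))))))) (XT.nd (nat_lit 58188) (nat_lit 0) (nat_lit 17784) (XT.nd (nat_lit 57642) (nat_lit 0) (nat_lit 31084) (XT.nd (nat_lit 234) (nat_lit 380) (nat_lit 0) (XT.nd (nat_lit 78) (nat_lit 380) (nat_lit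 0) (XT.lf (nat_lit 0) (nat_lit 1712444445) (nat_lit 304) (nat_lit 4266338346) (nat_lit 76) (nat_lit 10421244673) (nat_lit 52) (nat_lit 5) (nat_lit 56) (nat_lit 5) (nat_lit 53) (nat_lit 5) (nat_lit 484) (nat_lit 389) (nat_lit 327)) (XT.nd (nat_lit 78) (nat_lit 228) (nat_lit 0) (XT.lf (nat_lit 0) (nat_lit 10116233415) (nat_lit 228) (nat_lit 3325393864) (nat_lit 76) (nat_lit 3255287728) (nat_lit 50) (nat_lit 5) (nat_lit 53) (nat_lit 5) (nat_lit 51) (nat_lit 5) (nat_lit 485) (nat_lit 389) (nat_lit 326)) (XT.lf (nat_lit 0) (nat_lit 1842159324) (nat_lit 228) (nat_lit 2391967885) (nat_lit 76) (nat_lit 12766433930) (nat_lit 47) (nat_lit 5) (nat_lit 50) (nat_lit 5) (nat_lit 48) (nat_lit 5) (nat_lit 486) (nat_lit 389) (nat_lit 325)))) (XT.nd (nat_lit 57252) (nat_lit 0) (nat_lit 41876) (XT.nd (nat_lit 78) (nat_lit 228) (nat_lit 0) (XT.lf (nat_lit 0) (nat_lit 10521287898) (nat_lit 228) (nat_lit 1493398350) (nat_lit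 76) (nat_lit 5295900771) (nat_lit 45) (nat_lit 5) (nat_lit 48) (nat_lit 5) (nat_lit 46) (nat_lit 5) (nat_lit 487) (nat_lit 389) (nat_lit 324)) (XT.lf (nat_lit 0) (nat_lit 1895636936) (nat_lit 228) (nat_lit 592927853) (nat_lit 76) (nat_lit 15139336155) (nat_lit 42) (nat_lit 5) (nat_lit 45) (nat_lit 5) (nat_lit 43) (nat_lit 5) (nat_lit 488) (nat_lit 389) (nat_lit 323))) (XT.nd (nat_lit 78) (nat_lit 1444) (nat_lit 0) (XT.lf (nat_lit 0) (nat_lit 121759749) (nat_lit 1444) (nat_lit 3189496669) (nat_lit 0) (nat_lit 121759749) (nat_lit 612) (nat_lit 5) (nat_lit 631) (nat_lit 4) (nat_lit 612) (nat_lit 4) (nat_lit 420) (nat_lit 390) (nat_lit 390)) (XT.lf (nat_lit 0) (nat_lit 876394041) (nat_lit 1444) (nat_lit 4472671795) (nat_lit 1444) (nat_lit 1560637238) (nat_lit 593) (nat_lit 4) (nat_lit 612) (nat_lit 5) (nat_lit 612) (nat_lit 4) (nat_lit 421) (nat_lit 390) (nat_lit 389))))) (XT.nd (nat_lit 234) (nat_lit 5852)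 (nat_lit 0) (XT.nd (nat_lit 78) (nat_lit 3344) (nat_lit 0) (XT.lf (nat_lit 0) (nat_lit 1328674810) (nat_lit 1520) (nat_lit 2170299141) (nat_lit 1596) (nat_lit 3457366582) (nat_lit 572) (nat_lit 5) (nat_lit 592) (nat_lit 5) (nat_lit 593) (nat_lit 4) (nat_lit 422) (nat_lit 390) (nat_lit 388)) (XT.nd (nat_lit 78) (nat_lit 1672) (nat_lit 0) (XT.lf (nat_lit 0) (nat_lit 1562234185) (nat_lit 1672) (nat_lit 5162055998) (nat_lit 76) (nat_lit 281681591) (nat_lit 550) (nat_lit 5) (nat_lit 572) (nat_lit 5) (nat_lit 551) (nat_lit 4) (nat_lit 423) (nat_lit 390) (nat_lit 387)) (XT.lf (nat_lit 0) (nat_lit 2405944444) (nat_lit 1672) (nat_lit 4196225961) (nat_lit 1748) (nat_lit 456136352) (nat_lit 528) (nat_lit 5) (nat_lit 550) (nat_lit 5) (nat_lit 551) (nat_lit 4) (nat_lit 424) (nat_lit 390) (nat_lit 386)))) (XT.nd (nat_lit 156) (nat_lit 2128) (nat_lit 0) (XT.nd (nat_lit 78) (nat_lit 1900) (nat_lit 0) (XT.lf (nat_lit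 0) (nat_lit 3021472446) (nat_lit 1748) (nat_lit 1503478928) (nat_lit 1824) (nat_lit 2588553478) (nat_lit 504) (nat_lit 5) (nat_lit 527) (nat_lit 5) (nat_lit 528) (nat_lit 5) (nat_lit 425) (nat_lit 390) (nat_lit 385)) (XT.lf (nat_lit 0) (nat_lit 2363850383) (nat_lit 1900) (nat_lit 3479091204) (nat_lit 76) (nat_lit 1328693040) (nat_lit 479) (nat_lit 5) (nat_lit 504) (nat_lit 5) (nat_lit 480) (nat_lit 5) (nat_lit 426) (nat_lit 390) (nat_lit 384))) (XT.nd (nat_lit 78) (nat_lit 912) (nat_lit 0) (XT.lf (nat_lit 0) (nat_lit 118429530) (nat_lit 1216) (nat_lit 2815088566) (nat_lit 76) (nat_lit 4299176798) (nat_lit 463) (nat_lit 5) (nat_lit 479) (nat_lit 5) (nat_lit 464) (nat_lit 5) (nat_lit 427) (nat_lit 390) (nat_lit 383)) (XT.lf (nat_lit 0) (nat_lit 5044402934) (nat_lit 988) (nat_lit 2105297418) (nat_lit 76) (nat_lit 146910425) (nat_lit 451) (nat_lit 5) (nat_lit 464) (nat_lit 5) (nat_lit 452) (nat_lit 5) (nat_lit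 428) (nat_lit 390) (nat_lit 382)))))) (XT.nd (nat_lit 546) (nat_lit 6308) (nat_lit 0) (XT.nd (nat_lit 234) (nat_lit 3344) (nat_lit 0) (XT.nd (nat_lit 78) (nat_lit 2660) (nat_lit 0) (XT.lf (nat_lit 0) (nat_lit 2658758794) (nat_lit 988) (nat_lit 1355024781) (nat_lit 76) (nat_lit 3349523930) (nat_lit 438) (nat_lit 5) (nat_lit 451) (nat_lit 5) (nat_lit 439) (nat_lit 5) (nat_lit 429) (nat_lit 390) (nat_lit 381)) (XT.nd (nat_lit 78) (nat_lit 1748) (nat_lit 0) (XT.lf (nat_lit 0) (nat_lit 174001924) (nat_lit 912) (nat_lit 543775014) (nat_lit 76) (nat_lit 6715450229) (nat_lit 426) (nat_lit 5) (nat_lit 438) (nat_lit 5) (nat_lit 427) (nat_lit 5) (nat_lit 430) (nat_lit 390) (nat_lit 380)) (XT.lf (nat_lit 0) (nat_lit 299334361) (nat_lit 836) (nat_lit 4781861115) (nat_lit 912) (nat_lit 2424507556) (nat_lit 403) (nat_lit 5) (nat_lit 414) (nat_lit 5) (nat_lit 415) (nat_lit 5) (nat_lit 431) (nat_lit 390) (nat_lit 379))))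 (XT.nd (nat_lit 156) (nat_lit 1672) (nat_lit 0) (XT.nd (nat_lit 78) (nat_lit 760) (nat_lit 0) (XT.lf (nat_lit 0) (nat_lit 1205330057) (nat_lit 836) (nat_lit 1254248403) (nat_lit 912) (nat_lit 5121690504) (nat_lit 391) (nat_lit 5) (nat_lit 402) (nat_lit 5) (nat_lit 403) (nat_lit 5) (nat_lit 432) (nat_lit 390) (nat_lit 378)) (XT.lf (nat_lit 0) (nat_lit 2155882583) (nat_lit 760) (nat_lit 5249969237) (nat_lit 836) (nat_lit 253961707) (nat_lit 381) (nat_lit 5) (nat_lit 391) (nat_lit 5) (nat_lit 392) (nat_lit 5) (nat_lit 433) (nat_lit 390) (nat_lit 377))) (XT.nd (nat_lit 78) (nat_lit 836) (nat_lit 0) (XT.lf (nat_lit 0) (nat_lit 3143155238) (nat_lit 760) (nat_lit 1498304828) (nat_lit 836) (nat_lit 3099758605) (nat_lit 370) (nat_lit 5) (nat_lit 380) (nat_lit 5) (nat_lit 381) (nat_lit 5) (nat_lit 434) (nat_lit 390) (nat_lit 376)) (XT.lf (nat_lit 0) (nat_lit 1785182912) (nat_lit 836) (nat_lit 3648904998) (nat_lit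 76) (nat_lit 2391622367) (nat_lit 359) (nat_lit 5) (nat_lit 370) (nat_lit 5) (nat_lit 360) (nat_lit 5) (nat_lit 435) (nat_lit 390) (nat_lit 375))))) (XT.nd (nat_lit 312) (nat_lit 2660) (nat_lit 0) (XT.nd (nat_lit 156) (nat_lit 2128) (nat_lit 0) (XT.nd (nat_lit 78) (nat_lit 760) (nat_lit 0) (XT.lf (nat_lit 0) (nat_lit 5254970137) (nat_lit 760) (nat_lit 1471654217) (nat_lit 836) (nat_lit 1186664932) (nat_lit 349) (nat_lit 5) (nat_lit 359) (nat_lit 5) (nat_lit 360) (nat_lit 5) (nat_lit 436) (nat_lit 390) (nat_lit 374)) (XT.lf (nat_lit 0) (nat_lit 3724691890) (nat_lit 760) (nat_lit 1637728168) (nat_lit 76) (nat_lit 2641346381) (nat_lit 339) (nat_lit 5) (nat_lit 349) (nat_lit 5) (nat_lit 340) (nat_lit 5) (nat_lit 437) (nat_lit 390) (nat_lit 373))) (XT.nd (nat_lit 78) (nat_lit 1368) (nat_lit 0) (XT.lf (nat_lit 0) (nat_lit 618973242) (nat_lit 760) (nat_lit 567660785) (nat_lit 76) (nat_lit 6910937329) (nat_lit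 329) (nat_lit 5) (nat_lit 339) (nat_lit 5) (nat_lit 330) (nat_lit 5) (nat_lit 438) (nat_lit 390) (nat_lit 372)) (XT.lf (nat_lit 0) (nat_lit 531717281) (nat_lit 684) (nat_lit 5048838890) (nat_lit 760) (nat_lit 2613577262) (nat_lit 311) (nat_lit 5) (nat_lit 320) (nat_lit 5) (nat_lit 321) (nat_lit 5) (nat_lit 439) (nat_lit 390) (nat_lit 371)))) (XT.nd (nat_lit 156) (nat_lit 1368) (nat_lit 0) (XT.nd (nat_lit 78) (nat_lit 608) (nat_lit 0) (XT.lf (nat_lit 0) (nat_lit 1686804072) (nat_lit 608) (nat_lit 644009342) (nat_lit 684) (nat_lit 5963173555) (nat_lit 302) (nat_lit 5) (nat_lit 310) (nat_lit 5) (nat_lit 311) (nat_lit 5) (nat_lit 440) (nat_lit 390) (nat_lit 370)) (XT.lf (nat_lit 0) (nat_lit 2870315120) (nat_lit 608) (nat_lit 4499246628) (nat_lit 684) (nat_lit 1027301210) (nat_lit 294) (nat_lit 5) (nat_lit 302) (nat_lit 5) (nat_lit 303) (nat_lit 5) (nat_lit 441) (nat_lit 390) (nat_lit 369))) (XT.nd (nat_lit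 78) (nat_lit 684) (nat_lit 0) (XT.lf (nat_lit 0) (nat_lit 3967030372) (nat_lit 684) (nat_lit 4409368578) (nat_lit 76) (nat_lit 126630671) (nat_lit 285) (nat_lit 5) (nat_lit 294) (nat_lit 5) (nat_lit 286) (nat_lit 5) (nat_lit 442) (nat_lit 390) (nat_lit 368)) (XT.lf (nat_lit 0) (nat_lit 470086281) (nat_lit 684) (nat_lit 3264514946) (nat_lit 76) (nat_lit 4877754879) (nat_lit 276) (nat_lit 5) (nat_lit 285) (nat_lit 5) (nat_lit 277) (nat_lit 5) (nat_lit 443) (nat_lit 390) (nat_lit 367))))))))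
noncomputable def xc21 : XT := (XT.nd (nat_lit 2262) (nat_lit 3952) (nat_lit 0) (XT.nd (nat_lit 1092) (nat_lit 5852) (nat_lit 0) (XT.nd (nat_lit 546) (nat_lit 3496) (nat_lit 0) (XT.nd (nat_lit 234) (nat_lit 2128) (nat_lit 0) (XT.nd (nat_lit 78) (nat_lit 1748) (nat_lit 0) (XT.lf (nat_lit 0) (nat_lit 5535992069) (nat_lit 608) (nat_lit 2089488517) (nat_lit 76) (nat_lit 1099459536) (nat_lit 269) (nat_lit 5) (nat_lit 277) (nat_lit 5) (nat_lit 270) (nat_lit 5) (nat_lit 444) (nat_lit 390) (nat_lit 366)) (XT.nd (nat_lit 78) (nat_lit 1064) (nat_lit 0) (XT.lf (nat_lit 0) (nat_lit 1879283049) (nat_lit 684) (nat_lit 884430048) (nat_lit 76) (nat_lit 6077114731) (nat_lit 260) (nat_lit 5) (nat_lit 269) (nat_lit 5) (nat_lit 261) (nat_lit 5) (nat_lit 445) (nat_lit 390) (nat_lit 365)) (XT.lf (nat_lit 0) (nat_lit 356544948) (nat_lit 532) (nat_lit 6685977229) (nat_lit 608) (nat_lit 1917525158) (nat_lit 246) (nat_lit 5)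 (nat_lit 253) (nat_lit 5) (nat_lit 254) (nat_lit 5) (nat_lit 446) (nat_lit 390) (nat_lit 364)))) (XT.nd (nat_lit 156) (nat_lit 1064) (nat_lit 0) (XT.nd (nat_lit 78) (nat_lit 532) (nat_lit 0) (XT.lf (nat_lit 0) (nat_lit 1637251899) (nat_lit 456) (nat_lit 1593386563) (nat_lit 532) (nat_lit 5851865436) (nat_lit 239) (nat_lit 5) (nat_lit 245) (nat_lit 5) (nat_lit 246) (nat_lit 5) (nat_lit 447) (nat_lit 390) (nat_lit 363)) (XT.lf (nat_lit 0) (nat_lit 2949052640) (nat_lit 532) (nat_lit 5555897356) (nat_lit 608) (nat_lit 703477859) (nat_lit 232) (nat_lit 5) (nat_lit 239) (nat_lit 5) (nat_lit 240) (nat_lit 5) (nat_lit 448) (nat_lit 390) (nat_lit 362))) (XT.nd (nat_lit 78) (nat_lit 532) (nat_lit 0) (XT.lf (nat_lit 0) (nat_lit 4288175099) (nat_lit 456) (nat_lit 237613145) (nat_lit 532) (nat_lit 4812011254) (nat_lit 225) (nat_lit 5) (nat_lit 231) (nat_lit 5) (nat_lit 232) (nat_lit 5) (nat_lit 449) (nat_lit 390)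 (nat_lit 361)) (XT.lf (nat_lit 0) (nat_lit 438561821) (nat_lit 532) (nat_lit 3817317311) (nat_lit 76) (nat_lit 5214770123) (nat_lit 218) (nat_lit 5) (nat_lit 225) (nat_lit 5) (nat_lit 219) (nat_lit 5) (nat_lit 450) (nat_lit 390) (nat_lit 360))))) (XT.nd (nat_lit 234) (nat_lit 1672) (nat_lit 0) (XT.nd (nat_lit 78) (nat_lit 1368) (nat_lit 0) (XT.lf (nat_lit 0) (nat_lit 5772407036) (nat_lit 532) (nat_lit 2562836361) (nat_lit 76) (nat_lit 1271784347) (nat_lit 212) (nat_lit 5) (nat_lit 219) (nat_lit 5) (nat_lit 213) (nat_lit 5) (nat_lit 451) (nat_lit 390) (nat_lit 359)) (XT.nd (nat_lit 78) (nat_lit 836) (nat_lit 0) (XT.lf (nat_lit 0) (nat_lit 1510686850) (nat_lit 532) (nat_lit 1282640792) (nat_lit 76) (nat_lit 6953737928) (nat_lit 205) (nat_lit 5) (nat_lit 212) (nat_lit 5) (nat_lit 206) (nat_lit 5) (nat_lit 452) (nat_lit 390) (nat_lit 358)) (XT.lf (nat_lit 0) (nat_lit 17174116) (nat_lit 456) (nat_lit 6952282028)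 (nat_lit 532) (nat_lit 2921239309) (nat_lit 194) (nat_lit 5) (nat_lit 200) (nat_lit 5) (nat_lit 201) (nat_lit 5) (nat_lit 453) (nat_lit 390) (nat_lit 357)))) (XT.nd (nat_lit 156) (nat_lit 836) (nat_lit 0) (XT.nd (nat_lit 78) (nat_lit 380) (nat_lit 0) (XT.lf (nat_lit 0) (nat_lit 1363306216) (nat_lit 380) (nat_lit 1171787253) (nat_lit 456) (nat_lit 7502906434) (nat_lit 188) (nat_lit 5) (nat_lit 193) (nat_lit 5) (nat_lit 194) (nat_lit 5) (nat_lit 454) (nat_lit 390) (nat_lit 356)) (XT.lf (nat_lit 0) (nat_lit 2723344971) (nat_lit 380) (nat_lit 5413481103) (nat_lit 456) (nat_lit 2052084983) (nat_lit 183) (nat_lit 5) (nat_lit 188) (nat_lit 5) (nat_lit 189) (nat_lit 5) (nat_lit 455) (nat_lit 390) (nat_lit 355))) (XT.nd (nat_lit 78) (nat_lit 380) (nat_lit 0) (XT.lf (nat_lit 0) (nat_lit 3519498395) (nat_lit 456) (nat_lit 6230494749) (nat_lit 76) (nat_lit 593816327) (nat_lit 177) (nat_lit 5) (nat_lit 183) (nat_lit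 5) (nat_lit 178) (nat_lit 5) (nat_lit 456) (nat_lit 390) (nat_lit 354)) (XT.lf (nat_lit 0) (nat_lit 5518107770) (nat_lit 380) (nat_lit 3743147121) (nat_lit 456) (nat_lit 1241212140) (nat_lit 172) (nat_lit 5) (nat_lit 177) (nat_lit 5) (nat_lit 178) (nat_lit 5) (nat_lit 457) (nat_lit 390) (nat_lit 353)))))) (XT.nd (nat_lit 546) (nat_lit 2812) (nat_lit 0) (XT.nd (nat_lit 234) (nat_lit 1824) (nat_lit 0) (XT.nd (nat_lit 78) (nat_lit 760) (nat_lit 0) (XT.lf (nat_lit 0) (nat_lit 4463190397) (nat_lit 456) (nat_lit 3722851484) (nat_lit 76) (nat_lit 2478999352) (nat_lit 166) (nat_lit 5) (nat_lit 172) (nat_lit 5) (nat_lit 167) (nat_lit 5) (nat_lit 458) (nat_lit 390) (nat_lit 352)) (XT.nd (nat_lit 78) (nat_lit 380) (nat_lit 0) (XT.lf (nat_lit 0) (nat_lit 8398085161) (nat_lit 380) (nat_lit 1947805679) (nat_lit 456) (nat_lit 485958619) (nat_lit 161) (nat_lit 5) (nat_lit 166) (nat_lit 5) (nat_lit 167) (nat_lit 5)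 (nat_lit 459) (nat_lit 390) (nat_lit 351)) (XT.lf (nat_lit 0) (nat_lit 5361200341) (nat_lit 380) (nat_lit 1147977137) (nat_lit 76) (nat_lit 4493171851) (nat_lit 156) (nat_lit 5) (nat_lit 161) (nat_lit 5) (nat_lit 157) (nat_lit 5) (nat_lit 460) (nat_lit 390) (nat_lit 350)))) (XT.nd (nat_lit 156) (nat_lit 684) (nat_lit 0) (XT.nd (nat_lit 78) (nat_lit 380) (nat_lit 0) (XT.lf (nat_lit 0) (nat_lit 183406483) (nat_lit 304) (nat_lit 30817918) (nat_lit 380) (nat_lit 10963299684) (nat_lit 146) (nat_lit 5) (nat_lit 150) (nat_lit 5) (nat_lit 151) (nat_lit 5) (nat_lit 461) (nat_lit 390) (nat_lit 349)) (XT.lf (nat_lit 0) (nat_lit 1510132137) (nat_lit 380) (nat_lit 4715390150) (nat_lit 456) (nat_lit 5130549237) (nat_lit 141) (nat_lit 5) (nat_lit 146) (nat_lit 5) (nat_lit 147) (nat_lit 5) (nat_lit 462) (nat_lit 390) (nat_lit 348))) (XT.nd (nat_lit 78) (nat_lit 304) (nat_lit 0) (XT.lf (nat_lit 0) (nat_lit 886512253)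 (nat_lit 380) (nat_lit 8660186816) (nat_lit 76) (nat_lit 1992746984) (nat_lit 136) (nat_lit 5) (nat_lit 141) (nat_lit 5) (nat_lit 137) (nat_lit 5) (nat_lit 463) (nat_lit 390) (nat_lit 347)) (XT.lf (nat_lit 0) (nat_lit 4243879743) (nat_lit 304) (nat_lit 2812158995) (nat_lit 380) (nat_lit 4670772870) (nat_lit 132) (nat_lit 5) (nat_lit 136) (nat_lit 5) (nat_lit 137) (nat_lit 5) (nat_lit 464) (nat_lit 390) (nat_lit 346))))) (XT.nd (nat_lit 312) (nat_lit 1444) (nat_lit 0) (XT.nd (nat_lit 156) (nat_lit 684) (nat_lit 0) (XT.nd (nat_lit 78) (nat_lit 304) (nat_lit 0) (XT.lf (nat_lit 0) (nat_lit 1510292457) (nat_lit 380) (nat_lit 6285678594) (nat_lit 76) (nat_lit 4122854774) (nat_lit 127) (nat_lit 5) (nat_lit 132) (nat_lit 5) (nat_lit 128) (nat_lit 5) (nat_lit 465) (nat_lit 390) (nat_lit 345)) (XT.lf (nat_lit 0) (nat_lit 7034022620) (nat_lit 304) (nat_lit 812444369) (nat_lit 380) (nat_lit 4268854410) (nat_lit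 123) (nat_lit 5) (nat_lit 127) (nat_lit 5) (nat_lit 128) (nat_lit 5) (nat_lit 466) (nat_lit 390) (nat_lit 344))) (XT.nd (nat_lit 78) (nat_lit 304) (nat_lit 0) (XT.lf (nat_lit 0) (nat_lit 2086080332) (nat_lit 380) (nat_lit 3875055440) (nat_lit 76) (nat_lit 6355149923) (nat_lit 118) (nat_lit 5) (nat_lit 123) (nat_lit 5) (nat_lit 119) (nat_lit 5) (nat_lit 467) (nat_lit 390) (nat_lit 343)) (XT.lf (nat_lit 0) (nat_lit 8605927139) (nat_lit 380) (nat_lit 2654125035) (nat_lit 76) (nat_lit 1262018200) (nat_lit 114) (nat_lit 5) (nat_lit 119) (nat_lit 5) (nat_lit 115) (nat_lit 5) (nat_lit 468) (nat_lit 390) (nat_lit 342)))) (XT.nd (nat_lit 156) (nat_lit 836) (nat_lit 0) (XT.nd (nat_lit 78) (nat_lit 304) (nat_lit 0) (XT.lf (nat_lit 0) (nat_lit 2614121463) (nat_lit 304) (nat_lit 1433206644) (nat_lit 76) (nat_lit 8685151199) (nat_lit 110) (nat_lit 5) (nat_lit 114) (nat_lit 5) (nat_lit 111) (nat_lit 5) (nat_lit 469)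 (nat_lit 390) (nat_lit 341)) (XT.lf (nat_lit 0) (nat_lit 9332311208) (nat_lit 380) (nat_lit 203989850) (nat_lit 76) (nat_lit 3411478232) (nat_lit 106) (nat_lit 5) (nat_lit 111) (nat_lit 5) (nat_lit 107) (nat_lit 5) (nat_lit 470) (nat_lit 390) (nat_lit 340))) (XT.nd (nat_lit 78) (nat_lit 228) (nat_lit 0) (XT.lf (nat_lit 0) (nat_lit 1048433365) (nat_lit 304) (nat_lit 2052554074) (nat_lit 380) (nat_lit 10066973323) (nat_lit 98) (nat_lit 5) (nat_lit 102) (nat_lit 5) (nat_lit 103) (nat_lit 5) (nat_lit 471) (nat_lit 390) (nat_lit 339)) (XT.lf (nat_lit 0) (nat_lit 2299189366) (nat_lit 228) (nat_lit 7735935954) (nat_lit 304) (nat_lit 3357839088) (nat_lit 95) (nat_lit 5) (nat_lit 98) (nat_lit 5) (nat_lit 99) (nat_lit 5) (nat_lit 472) (nat_lit 390) (nat_lit 338))))))) (XT.nd (nat_lit 1170) (nat_lit 152) (nat_lit 0) (XT.nd (nat_lit 546) (nat_lit 1900) (nat_lit 0) (XT.nd (nat_lit 234) (nat_lit 1064) (nat_lit 0)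 (XT.nd (nat_lit 78) (nat_lit 532) (nat_lit 0) (XT.lf (nat_lit 0) (nat_lit 3548840294) (nat_lit 304) (nat_lit 10053661321) (nat_lit 76) (nat_lit 20898791) (nat_lit 91) (nat_lit 5) (nat_lit 95) (nat_lit 5) (nat_lit 92) (nat_lit 5) (nat_lit 473) (nat_lit 390) (nat_lit 337)) (XT.nd (nat_lit 78) (nat_lit 304) (nat_lit 0) (XT.lf (nat_lit 0) (nat_lit 4822440831) (nat_lit 228) (nat_lit 5877819098) (nat_lit 304) (nat_lit 3158383257) (nat_lit 88) (nat_lit 5) (nat_lit 91) (nat_lit 5) (nat_lit 92) (nat_lit 5) (nat_lit 474) (nat_lit 390) (nat_lit 336)) (XT.lf (nat_lit 0) (nat_lit 3960571195) (nat_lit 304) (nat_lit 8007780356) (nat_lit 76) (nat_lit 2131131605) (nat_lit 84) (nat_lit 5) (nat_lit 88) (nat_lit 5) (nat_lit 85) (nat_lit 5) (nat_lit 475) (nat_lit 390) (nat_lit 335)))) (XT.nd (nat_lit 156) (nat_lit 532) (nat_lit 0) (XT.nd (nat_lit 78) (nat_lit 304) (nat_lit 0) (XT.lf (nat_lit 0) (nat_lit 7356723681) (nat_lit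 228) (nat_lit 3968460509) (nat_lit 304) (nat_lit 3020447343) (nat_lit 81) (nat_lit 5) (nat_lit 84) (nat_lit 5) (nat_lit 85) (nat_lit 5) (nat_lit 476) (nat_lit 390) (nat_lit 334)) (XT.lf (nat_lit 0) (nat_lit 4320990266) (nat_lit 304) (nat_lit 5975956439) (nat_lit 76) (nat_lit 4300339168) (nat_lit 77) (nat_lit 5) (nat_lit 81) (nat_lit 5) (nat_lit 78) (nat_lit 5) (nat_lit 477) (nat_lit 390) (nat_lit 333))) (XT.nd (nat_lit 78) (nat_lit 304) (nat_lit 0) (XT.lf (nat_lit 0) (nat_lit 9895121794) (nat_lit 228) (nat_lit 2013046101) (nat_lit 304) (nat_lit 2946592675) (nat_lit 74) (nat_lit 5) (nat_lit 77) (nat_lit 5) (nat_lit 78) (nat_lit 5) (nat_lit 478) (nat_lit 390) (nat_lit 332)) (XT.lf (nat_lit 0) (nat_lit 4627659615) (nat_lit 304) (nat_lit 3966262170) (nat_lit 76) (nat_lit 6523740111) (nat_lit 70) (nat_lit 5) (nat_lit 74) (nat_lit 5) (nat_lit 71) (nat_lit 5) (nat_lit 479) (nat_lit 390) (nat_lit 331))))) (XT.nd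 (nat_lit 312) (nat_lit 988) (nat_lit 0) (XT.nd (nat_lit 156) (nat_lit 456) (nat_lit 0) (XT.nd (nat_lit 78) (nat_lit 304) (nat_lit 0) (XT.lf (nat_lit 0) (nat_lit 12430036697) (nat_lit 152) (nat_lit 16870754) (nat_lit 228) (nat_lit 2939997894) (nat_lit 68) (nat_lit 5) (nat_lit 70) (nat_lit 5) (nat_lit 71) (nat_lit 5) (nat_lit 480) (nat_lit 390) (nat_lit 330)) (XT.lf (nat_lit 0) (nat_lit 4877531190) (nat_lit 304) (nat_lit 1987546088) (nat_lit 76) (nat_lit 8796432262) (nat_lit 64) (nat_lit 5) (nat_lit 68) (nat_lit 5) (nat_lit 65) (nat_lit 5) (nat_lit 481) (nat_lit 390) (nat_lit 329))) (XT.nd (nat_lit 78) (nat_lit 304) (nat_lit 0) (XT.lf (nat_lit 0) (nat_lit 12951568551) (nat_lit 228) (nat_lit 1002983829) (nat_lit 76) (nat_lit 1988172891) (nat_lit 62) (nat_lit 5) (nat_lit 65) (nat_lit 5) (nat_lit 63) (nat_lit 5) (nat_lit 482) (nat_lit 390) (nat_lit 328)) (XT.lf (nat_lit 0) (nat_lit 5066905498) (nat_lit 304)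 (nat_lit 49543377) (nat_lit 76) (nat_lit 11113325352) (nat_lit 58) (nat_lit 5) (nat_lit 62) (nat_lit 5) (nat_lit 59) (nat_lit 5) (nat_lit 483) (nat_lit 390) (nat_lit 327)))) (XT.nd (nat_lit 156) (nat_lit 380) (nat_lit 0) (XT.nd (nat_lit 78) (nat_lit 228) (nat_lit 0) (XT.lf (nat_lit 0) (nat_lit 916560104) (nat_lit 228) (nat_lit 12495195024) (nat_lit 304) (nat_lit 3111570962) (nat_lit 53) (nat_lit 5) (nat_lit 56) (nat_lit 5) (nat_lit 57) (nat_lit 5) (nat_lit 484) (nat_lit 390) (nat_lit 326)) (XT.lf (nat_lit 0) (nat_lit 1861416234) (nat_lit 152) (nat_lit 3342053498) (nat_lit 228) (nat_lit 11619739344) (nat_lit 50) (nat_lit 5) (nat_lit 52) (nat_lit 5) (nat_lit 53) (nat_lit 5) (nat_lit 485) (nat_lit 390) (nat_lit 325))) (XT.nd (nat_lit 78) (nat_lit 228) (nat_lit 0) (XT.lf (nat_lit 0) (nat_lit 2791125242) (nat_lit 152) (nat_lit 11032190224) (nat_lit 228) (nat_lit 3306409679) (nat_lit 48) (nat_lit 5) (nat_lit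 50) (nat_lit 5) (nat_lit 51) (nat_lit 5) (nat_lit 486) (nat_lit 390) (nat_lit 324)) (XT.lf (nat_lit 0) (nat_lit 3708854860) (nat_lit 152) (nat_lit 1561041474) (nat_lit 228) (nat_lit 12173208008) (nat_lit 45) (nat_lit 5) (nat_lit 47) (nat_lit 5) (nat_lit 48) (nat_lit 5) (nat_lit 487) (nat_lit 390) (nat_lit 323)))))) (XT.nd (nat_lit 57486) (nat_lit 0) (nat_lit 28196) (XT.nd (nat_lit 57174) (nat_lit 0) (nat_lit 38532) (XT.nd (nat_lit 57018) (nat_lit 0) (nat_lit 44688) (XT.lf (nat_lit 0) (nat_lit 4594714292) (nat_lit 152) (nat_lit 9579780555) (nat_lit 228) (nat_lit 3588634933) (nat_lit 43) (nat_lit 5) (nat_lit 45) (nat_lit 5) (nat_lit 46) (nat_lit 5) (nat_lit 488) (nat_lit 390) (nat_lit 322)) (XT.nd (nat_lit 78) (nat_lit 2584) (nat_lit 0) (XT.lf (nat_lit 0) (nat_lit 3366753972) (nat_lit 1140) (nat_lit 13000000) (nat_lit 1140) (nat_lit 13000000) (nat_lit 665) (nat_lit 4) (nat_lit 680) (nat_lit 5) (nat_lit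 680) (nat_lit 4) (nat_lit 418) (nat_lit 391) (nat_lit 391)) (XT.lf (nat_lit 0) (nat_lit 140264099) (nat_lit 1292) (nat_lit 4872011541) (nat_lit 1292) (nat_lit 1812628035) (nat_lit 631) (nat_lit 4) (nat_lit 648) (nat_lit 5) (nat_lit 648) (nat_lit 4) (nat_lit 419) (nat_lit 391) (nat_lit 390)))) (XT.nd (nat_lit 156) (nat_lit 3192) (nat_lit 0) (XT.nd (nat_lit 78) (nat_lit 1520) (nat_lit 0) (XT.lf (nat_lit 0) (nat_lit 397294917) (nat_lit 1368) (nat_lit 2784365315) (nat_lit 1444) (nat_lit 3685600706) (nat_lit 612) (nat_lit 5) (nat_lit 630) (nat_lit 5) (nat_lit 631) (nat_lit 4) (nat_lit 420) (nat_lit 391) (nat_lit 389)) (XT.lf (nat_lit 0) (nat_lit 718734638) (nat_lit 1444) (nat_lit 546352765) (nat_lit 1520) (nat_lit 5647531643) (nat_lit 592) (nat_lit 5) (nat_lit 611) (nat_lit 5) (nat_lit 612) (nat_lit 5) (nat_lit 421) (nat_lit 391) (nat_lit 388))) (XT.nd (nat_lit 78) (nat_lit 1672) (nat_lit 0) (XT.lf (nat_lit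 0) (nat_lit 1087720786) (nat_lit 1520) (nat_lit 5135665754) (nat_lit 1596) (nat_lit 737287431) (nat_lit 572) (nat_lit 5) (nat_lit 592) (nat_lit 5) (nat_lit 593) (nat_lit 4) (nat_lit 422) (nat_lit 391) (nat_lit 387)) (XT.lf (nat_lit 0) (nat_lit 1507947000) (nat_lit 1596) (nat_lit 2660174555) (nat_lit 1672) (nat_lit 2843403878) (nat_lit 550) (nat_lit 5) (nat_lit 571) (nat_lit 5) (nat_lit 572) (nat_lit 5) (nat_lit 423) (nat_lit 391) (nat_lit 386))))) (XT.nd (nat_lit 312) (nat_lit 3724) (nat_lit 0) (XT.nd (nat_lit 156) (nat_lit 3116) (nat_lit 0) (XT.nd (nat_lit 78) (nat_lit 1748) (nat_lit 0) (XT.lf (nat_lit 0) (nat_lit 1991845548) (nat_lit 1672) (nat_lit 31216371) (nat_lit 1748) (nat_lit 5042383277) (nat_lit 527) (nat_lit 5) (nat_lit 549) (nat_lit 5) (nat_lit 550) (nat_lit 5) (nat_lit 424) (nat_lit 391) (nat_lit 385)) (XT.lf (nat_lit 0) (nat_lit 2520281761) (nat_lit 1748) (nat_lit 4402891722) (nat_lit 1824)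 (nat_lit 198913306) (nat_lit 504) (nat_lit 5) (nat_lit 527) (nat_lit 5) (nat_lit 528) (nat_lit 5) (nat_lit 425) (nat_lit 391) (nat_lit 384))) (XT.nd (nat_lit 78) (nat_lit 1216) (nat_lit 0) (XT.lf (nat_lit 0) (nat_lit 3097841918) (nat_lit 1824) (nat_lit 1541277325) (nat_lit 1900) (nat_lit 2542450344) (nat_lit 479) (nat_lit 5) (nat_lit 503) (nat_lit 5) (nat_lit 504) (nat_lit 5) (nat_lit 426) (nat_lit 391) (nat_lit 383)) (XT.lf (nat_lit 0) (nat_lit 2270342404) (nat_lit 1216) (nat_lit 3514963106) (nat_lit 76) (nat_lit 1458706980) (nat_lit 463) (nat_lit 5) (nat_lit 479) (nat_lit 5) (nat_lit 464) (nat_lit 5) (nat_lit 427) (nat_lit 391) (nat_lit 382)))) (XT.nd (nat_lit 156) (nat_lit 1824) (nat_lit 0) (XT.nd (nat_lit 78) (nat_lit 988) (nat_lit 0) (XT.lf (nat_lit 0) (nat_lit 4411786604) (nat_lit 912) (nat_lit 2710825612) (nat_lit 988) (nat_lit 186792734) (nat_lit 451) (nat_lit 5) (nat_lit 463) (nat_lit 5) (nat_lit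 464) (nat_lit 5) (nat_lit 428) (nat_lit 391) (nat_lit 381)) (XT.lf (nat_lit 0) (nat_lit 4607161667) (nat_lit 988) (nat_lit 2238944785) (nat_lit 76) (nat_lit 531527889) (nat_lit 438) (nat_lit 5) (nat_lit 451) (nat_lit 5) (nat_lit 439) (nat_lit 5) (nat_lit 429) (nat_lit 391) (nat_lit 380))) (XT.nd (nat_lit 78) (nat_lit 912) (nat_lit 0) (XT.lf (nat_lit 0) (nat_lit 2010836759) (nat_lit 912) (nat_lit 1538504983) (nat_lit 76) (nat_lit 3899400894) (nat_lit 426) (nat_lit 5) (nat_lit 438) (nat_lit 5) (nat_lit 427) (nat_lit 5) (nat_lit 430) (nat_lit 391) (nat_lit 379)) (XT.lf (nat_lit 0) (nat_lit 6740534962) (nat_lit 912) (nat_lit 86541126) (nat_lit 988) (nat_lit 695963703) (nat_lit 414) (nat_lit 5) (nat_lit 426) (nat_lit 5) (nat_lit 427) (nat_lit 5) (nat_lit 431) (nat_lit 391) (nat_lit 378))))))))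
noncomputable def xc22 : XT := (XT.nd (nat_lit 2262) (nat_lit 8436) (nat_lit 0) (XT.nd (nat_lit 1092) (nat_lit 7904) (nat_lit 0) (XT.nd (nat_lit 546) (nat_lit 5244) (nat_lit 0) (XT.nd (nat_lit 234) (nat_lit 3116) (nat_lit 0) (XT.nd (nat_lit 78) (nat_lit 2432) (nat_lit 0) (XT.lf (nat_lit 0) (nat_lit 4088281686) (nat_lit 912) (nat_lit 2642614) (nat_lit 76) (nat_lit 3509002473) (nat_lit 402) (nat_lit 5) (nat_lit 414) (nat_lit 5) (nat_lit 403) (nat_lit 5) (nat_lit 432) (nat_lit 391) (nat_lit 377)) (XT.nd (nat_lit 78) (nat_lit 760) (nat_lit 0) (XT.lf (nat_lit 0) (nat_lit 847686111) (nat_lit 760) (nat_lit 403520750) (nat_lit 836) (nat_lit 6428832211) (nat_lit 380) (nat_lit 5) (nat_lit 390) (nat_lit 5) (nat_lit 391) (nat_lit 5) (nat_lit 433) (nat_lit 391) (nat_lit 376)) (XT.lf (nat_lit 0) (nat_lit 1725577025) (nat_lit 760) (nat_lit 4344583796) (nat_lit 836) (nat_lit 1692715098) (nat_lit 370) (nat_lit 5) (nat_lit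 380) (nat_lit 5) (nat_lit 381) (nat_lit 5) (nat_lit 434) (nat_lit 391) (nat_lit 375)))) (XT.nd (nat_lit 156) (nat_lit 1444) (nat_lit 0) (XT.nd (nat_lit 78) (nat_lit 836) (nat_lit 0) (XT.lf (nat_lit 0) (nat_lit 2653110211) (nat_lit 760) (nat_lit 434547700) (nat_lit 836) (nat_lit 4761251048) (nat_lit 359) (nat_lit 5) (nat_lit 369) (nat_lit 5) (nat_lit 370) (nat_lit 5) (nat_lit 435) (nat_lit 391) (nat_lit 374)) (XT.lf (nat_lit 0) (nat_lit 18316026) (nat_lit 836) (nat_lit 4319766436) (nat_lit 76) (nat_lit 3599856851) (nat_lit 348) (nat_lit 5) (nat_lit 359) (nat_lit 5) (nat_lit 349) (nat_lit 5) (nat_lit 436) (nat_lit 391) (nat_lit 373))) (XT.nd (nat_lit 78) (nat_lit 760) (nat_lit 0) (XT.lf (nat_lit 0) (nat_lit 4620730072) (nat_lit 684) (nat_lit 206288363) (nat_lit 760) (nat_lit 3202987467) (nat_lit 339) (nat_lit 5) (nat_lit 348) (nat_lit 5) (nat_lit 349) (nat_lit 5) (nat_lit 437) (nat_lit 391) (nat_lit 372))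 (XT.lf (nat_lit 0) (nat_lit 1609924334) (nat_lit 760) (nat_lit 2467176029) (nat_lit 76) (nat_lit 4047992804) (nat_lit 329) (nat_lit 5) (nat_lit 339) (nat_lit 5) (nat_lit 330) (nat_lit 5) (nat_lit 438) (nat_lit 391) (nat_lit 371))))) (XT.nd (nat_lit 234) (nat_lit 2584) (nat_lit 0) (XT.nd (nat_lit 78) (nat_lit 1976) (nat_lit 0) (XT.lf (nat_lit 0) (nat_lit 6479888710) (nat_lit 760) (nat_lit 1481186965) (nat_lit 76) (nat_lit 262413515) (nat_lit 320) (nat_lit 5) (nat_lit 330) (nat_lit 5) (nat_lit 321) (nat_lit 5) (nat_lit 439) (nat_lit 391) (nat_lit 370)) (XT.nd (nat_lit 78) (nat_lit 1216) (nat_lit 0) (XT.lf (nat_lit 0) (nat_lit 3112622930) (nat_lit 760) (nat_lit 474864904) (nat_lit 76) (nat_lit 4737278571) (nat_lit 310) (nat_lit 5) (nat_lit 320) (nat_lit 5) (nat_lit 311) (nat_lit 5) (nat_lit 440) (nat_lit 391) (nat_lit 369)) (XT.lf (nat_lit 0) (nat_lit 589052959) (nat_lit 608) (nat_lit 7470324092) (nat_lit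 684) (nat_lit 370106683) (nat_lit 294) (nat_lit 5) (nat_lit 302) (nat_lit 5) (nat_lit 303) (nat_lit 5) (nat_lit 441) (nat_lit 391) (nat_lit 368)))) (XT.nd (nat_lit 156) (nat_lit 1216) (nat_lit 0) (XT.nd (nat_lit 78) (nat_lit 684) (nat_lit 0) (XT.lf (nat_lit 0) (nat_lit 1673396042) (nat_lit 608) (nat_lit 2871514679) (nat_lit 684) (nat_lit 3992069623) (nat_lit 285) (nat_lit 5) (nat_lit 293) (nat_lit 5) (nat_lit 294) (nat_lit 5) (nat_lit 442) (nat_lit 391) (nat_lit 367)) (XT.lf (nat_lit 0) (nat_lit 918031004) (nat_lit 684) (nat_lit 5843069737) (nat_lit 76) (nat_lit 1886913800) (nat_lit 276) (nat_lit 5) (nat_lit 285) (nat_lit 5) (nat_lit 277) (nat_lit 5) (nat_lit 443) (nat_lit 391) (nat_lit 366))) (XT.nd (nat_lit 78) (nat_lit 684) (nat_lit 0) (XT.lf (nat_lit 0) (nat_lit 3958516765) (nat_lit 532) (nat_lit 1948375579) (nat_lit 608) (nat_lit 2855248383) (nat_lit 269) (nat_lit 5) (nat_lit 276) (nat_lit 5) (nat_lit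 277) (nat_lit 5) (nat_lit 444) (nat_lit 391) (nat_lit 365)) (XT.lf (nat_lit 0) (nat_lit 2125748889) (nat_lit 684) (nat_lit 3733538709) (nat_lit 76) (nat_lit 3020355869) (nat_lit 260) (nat_lit 5) (nat_lit 269) (nat_lit 5) (nat_lit 261) (nat_lit 5) (nat_lit 445) (nat_lit 391) (nat_lit 364)))))) (XT.nd (nat_lit 546) (nat_lit 3724) (nat_lit 0) (XT.nd (nat_lit 234) (nat_lit 2584) (nat_lit 0) (XT.nd (nat_lit 78) (nat_lit 1064) (nat_lit 0) (XT.lf (nat_lit 0) (nat_lit 6369454703) (nat_lit 532) (nat_lit 832357534) (nat_lit 608) (nat_lit 1798795436) (nat_lit 253) (nat_lit 5) (nat_lit 260) (nat_lit 5) (nat_lit 261) (nat_lit 5) (nat_lit 446) (nat_lit 391) (nat_lit 363)) (XT.nd (nat_lit 78) (nat_lit 456) (nat_lit 0) (XT.lf (nat_lit 0) (nat_lit 3263755849) (nat_lit 608) (nat_lit 1514232575) (nat_lit 76) (nat_lit 4346742625) (nat_lit 245) (nat_lit 5) (nat_lit 253) (nat_lit 5) (nat_lit 246) (nat_lit 5) (nat_lit 447)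 (nat_lit 391) (nat_lit 362)) (XT.lf (nat_lit 0) (nat_lit 8438505768) (nat_lit 532) (nat_lit 353809786) (nat_lit 76) (nat_lit 460331777) (nat_lit 239) (nat_lit 5) (nat_lit 246) (nat_lit 5) (nat_lit 240) (nat_lit 5) (nat_lit 448) (nat_lit 391) (nat_lit 361)))) (XT.nd (nat_lit 156) (nat_lit 988) (nat_lit 0) (XT.nd (nat_lit 78) (nat_lit 532) (nat_lit 0) (XT.lf (nat_lit 0) (nat_lit 821212832) (nat_lit 456) (nat_lit 3521471699) (nat_lit 532) (nat_lit 5040827684) (nat_lit 225) (nat_lit 5) (nat_lit 231) (nat_lit 5) (nat_lit 232) (nat_lit 5) (nat_lit 449) (nat_lit 391) (nat_lit 360)) (XT.lf (nat_lit 0) (nat_lit 119180946) (nat_lit 532) (nat_lit 7471550842) (nat_lit 76) (nat_lit 1927532196) (nat_lit 218) (nat_lit 5) (nat_lit 225) (nat_lit 5) (nat_lit 219) (nat_lit 5) (nat_lit 450) (nat_lit 391) (nat_lit 359))) (XT.nd (nat_lit 78) (nat_lit 532) (nat_lit 0) (XT.lf (nat_lit 0) (nat_lit 3279430285) (nat_lit 456)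 (nat_lit 2093175108) (nat_lit 532) (nat_lit 4283646456) (nat_lit 212) (nat_lit 5) (nat_lit 218) (nat_lit 5) (nat_lit 219) (nat_lit 5) (nat_lit 451) (nat_lit 391) (nat_lit 358)) (XT.lf (nat_lit 0) (nat_lit 981176536) (nat_lit 532) (nat_lit 5251155773) (nat_lit 76) (nat_lit 3565744061) (nat_lit 205) (nat_lit 5) (nat_lit 212) (nat_lit 5) (nat_lit 206) (nat_lit 5) (nat_lit 452) (nat_lit 391) (nat_lit 357))))) (XT.nd (nat_lit 312) (nat_lit 1976) (nat_lit 0) (XT.nd (nat_lit 156) (nat_lit 836) (nat_lit 0) (XT.nd (nat_lit 78) (nat_lit 532) (nat_lit 0) (XT.lf (nat_lit 0) (nat_lit 5836468333) (nat_lit 380) (nat_lit 511333320) (nat_lit 456) (nat_lit 3595748375) (nat_lit 200) (nat_lit 5) (nat_lit 205) (nat_lit 5) (nat_lit 206) (nat_lit 5) (nat_lit 453) (nat_lit 391) (nat_lit 356)) (XT.lf (nat_lit 0) (nat_lit 1783924606) (nat_lit 532) (nat_lit 2948823156) (nat_lit 76) (nat_lit 5359905272) (nat_lit 193) (nat_lit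 5) (nat_lit 200) (nat_lit 5) (nat_lit 194) (nat_lit 5) (nat_lit 454) (nat_lit 391) (nat_lit 355))) (XT.nd (nat_lit 78) (nat_lit 456) (nat_lit 0) (XT.lf (nat_lit 0) (nat_lit 7279935788) (nat_lit 456) (nat_lit 1764997121) (nat_lit 76) (nat_lit 1200746529) (nat_lit 188) (nat_lit 5) (nat_lit 194) (nat_lit 5) (nat_lit 189) (nat_lit 5) (nat_lit 455) (nat_lit 391) (nat_lit 354)) (XT.lf (nat_lit 0) (nat_lit 2530686441) (nat_lit 456) (nat_lit 568472381) (nat_lit 76) (nat_lit 7303281176) (nat_lit 182) (nat_lit 5) (nat_lit 188) (nat_lit 5) (nat_lit 183) (nat_lit 5) (nat_lit 456) (nat_lit 391) (nat_lit 353)))) (XT.nd (nat_lit 156) (nat_lit 760) (nat_lit 0) (XT.nd (nat_lit 78) (nat_lit 456) (nat_lit 0) (XT.lf (nat_lit 0) (nat_lit 657876044) (nat_lit 380) (nat_lit 7515025275) (nat_lit 456) (nat_lit 2390187831) (nat_lit 172) (nat_lit 5) (nat_lit 177) (nat_lit 5) (nat_lit 178) (nat_lit 5) (nat_lit 457) (nat_lit 391)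 (nat_lit 352)) (XT.lf (nat_lit 0) (nat_lit 1911175443) (nat_lit 380) (nat_lit 1325486308) (nat_lit 456) (nat_lit 7491003960) (nat_lit 166) (nat_lit 5) (nat_lit 171) (nat_lit 5) (nat_lit 172) (nat_lit 5) (nat_lit 458) (nat_lit 391) (nat_lit 351))) (XT.nd (nat_lit 78) (nat_lit 380) (nat_lit 0) (XT.lf (nat_lit 0) (nat_lit 3176927648) (nat_lit 380) (nat_lit 5857065372) (nat_lit 456) (nat_lit 1862189004) (nat_lit 161) (nat_lit 5) (nat_lit 166) (nat_lit 5) (nat_lit 167) (nat_lit 5) (nat_lit 459) (nat_lit 391) (nat_lit 350)) (XT.lf (nat_lit 0) (nat_lit 3899702535) (nat_lit 380) (nat_lit 6602887413) (nat_lit 76) (nat_lit 566337660) (nat_lit 156) (nat_lit 5) (nat_lit 161) (nat_lit 5) (nat_lit 157) (nat_lit 5) (nat_lit 460) (nat_lit 391) (nat_lit 349))))))) (XT.nd (nat_lit 1170) (nat_lit 3192) (nat_lit 0) (XT.nd (nat_lit 546) (nat_lit 2432) (nat_lit 0) (XT.nd (nat_lit 234) (nat_lit 1672) (nat_lit 0) (XT.nd (nat_lit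 78) (nat_lit 760) (nat_lit 0) (XT.lf (nat_lit 0) (nat_lit 5764991938) (nat_lit 380) (nat_lit 4088942806) (nat_lit 456) (nat_lit 1391780276) (nat_lit 151) (nat_lit 5) (nat_lit 156) (nat_lit 5) (nat_lit 157) (nat_lit 5) (nat_lit 461) (nat_lit 391) (nat_lit 348)) (XT.nd (nat_lit 78) (nat_lit 380) (nat_lit 0) (XT.lf (nat_lit 0) (nat_lit 4523556445) (nat_lit 380) (nat_lit 4347637284) (nat_lit 76) (nat_lit 2555534368) (nat_lit 146) (nat_lit 5) (nat_lit 151) (nat_lit 5) (nat_lit 147) (nat_lit 5) (nat_lit 462) (nat_lit 391) (nat_lit 347)) (XT.lf (nat_lit 0) (nat_lit 8418354956) (nat_lit 380) (nat_lit 2216269685) (nat_lit 456) (nat_lit 977620545) (nat_lit 141) (nat_lit 5) (nat_lit 146) (nat_lit 5) (nat_lit 147) (nat_lit 5) (nat_lit 463) (nat_lit 391) (nat_lit 346)))) (XT.nd (nat_lit 156) (nat_lit 988) (nat_lit 0) (XT.nd (nat_lit 78) (nat_lit 304) (nat_lit 0) (XT.lf (nat_lit 0) (nat_lit 5100985275) (nat_lit 380)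 (nat_lit 2046431633) (nat_lit 76) (nat_lit 4654396197) (nat_lit 136) (nat_lit 5) (nat_lit 141) (nat_lit 5) (nat_lit 137) (nat_lit 5) (nat_lit 464) (nat_lit 391) (nat_lit 345)) (XT.lf (nat_lit 0) (nat_lit 11133241565) (nat_lit 304) (nat_lit 244282654) (nat_lit 380) (nat_lit 618838586) (nat_lit 132) (nat_lit 5) (nat_lit 136) (nat_lit 5) (nat_lit 137) (nat_lit 5) (nat_lit 465) (nat_lit 391) (nat_lit 344))) (XT.nd (nat_lit 78) (nat_lit 304) (nat_lit 0) (XT.lf (nat_lit 0) (nat_lit 300245615) (nat_lit 304) (nat_lit 5334610321) (nat_lit 380) (nat_lit 6559895253) (nat_lit 123) (nat_lit 5) (nat_lit 127) (nat_lit 5) (nat_lit 128) (nat_lit 5) (nat_lit 466) (nat_lit 391) (nat_lit 343)) (XT.lf (nat_lit 0) (nat_lit 1515104013) (nat_lit 304) (nat_lit 10590218940) (nat_lit 380) (nat_lit 292936115) (nat_lit 119) (nat_lit 5) (nat_lit 123) (nat_lit 5) (nat_lit 124) (nat_lit 5) (nat_lit 467) (nat_lit 391) (nat_lit 342)))))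 (XT.nd (nat_lit 312) (nat_lit 1140) (nat_lit 0) (XT.nd (nat_lit 156) (nat_lit 684) (nat_lit 0) (XT.nd (nat_lit 78) (nat_lit 228) (nat_lit 0) (XT.lf (nat_lit 0) (nat_lit 2711535766) (nat_lit 304) (nat_lit 3425851608) (nat_lit 380) (nat_lit 6468562204) (nat_lit 114) (nat_lit 5) (nat_lit 118) (nat_lit 5) (nat_lit 119) (nat_lit 5) (nat_lit 468) (nat_lit 391) (nat_lit 341)) (XT.lf (nat_lit 0) (nat_lit 3937739399) (nat_lit 228) (nat_lit 8867251374) (nat_lit 304) (nat_lit 13875263) (nat_lit 111) (nat_lit 5) (nat_lit 114) (nat_lit 5) (nat_lit 115) (nat_lit 5) (nat_lit 469) (nat_lit 391) (nat_lit 340))) (XT.nd (nat_lit 78) (nat_lit 304) (nat_lit 0) (XT.lf (nat_lit 0) (nat_lit 5155319236) (nat_lit 304) (nat_lit 1439762469) (nat_lit 380) (nat_lit 6441274863) (nat_lit 106) (nat_lit 5) (nat_lit 110) (nat_lit 5) (nat_lit 111) (nat_lit 5) (nat_lit 470) (nat_lit 391) (nat_lit 339)) (XT.lf (nat_lit 0) (nat_lit 207547176)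 (nat_lit 304) (nat_lit 6870533674) (nat_lit 76) (nat_lit 6180918448) (nat_lit 102) (nat_lit 5) (nat_lit 106) (nat_lit 5) (nat_lit 103) (nat_lit 5) (nat_lit 471) (nat_lit 391) (nat_lit 338)))) (XT.nd (nat_lit 156) (nat_lit 532) (nat_lit 0) (XT.nd (nat_lit 78) (nat_lit 304) (nat_lit 0) (XT.lf (nat_lit 0) (nat_lit 7011443094) (nat_lit 380) (nat_lit 5864359693) (nat_lit 76) (nat_lit 610805412) (nat_lit 98) (nat_lit 5) (nat_lit 103) (nat_lit 5) (nat_lit 99) (nat_lit 5) (nat_lit 472) (nat_lit 391) (nat_lit 337)) (XT.lf (nat_lit 0) (nat_lit 373492790) (nat_lit 304) (nat_lit 4855900321) (nat_lit 76) (nat_lit 8490034392) (nat_lit 94) (nat_lit 5) (nat_lit 98) (nat_lit 5) (nat_lit 95) (nat_lit 5) (nat_lit 473) (nat_lit 391) (nat_lit 336))) (XT.nd (nat_lit 78) (nat_lit 304) (nat_lit 0) (XT.lf (nat_lit 0) (nat_lit 7391230417) (nat_lit 304) (nat_lit 3856555840) (nat_lit 76) (nat_lit 2709558050) (nat_lit 91) (nat_lit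 5) (nat_lit 95) (nat_lit 5) (nat_lit 92) (nat_lit 5) (nat_lit 474) (nat_lit 391) (nat_lit 335)) (XT.lf (nat_lit 0) (nat_lit 482485140) (nat_lit 304) (nat_lit 2843770407) (nat_lit 76) (nat_lit 10874672571) (nat_lit 87) (nat_lit 5) (nat_lit 91) (nat_lit 5) (nat_lit 88) (nat_lit 5) (nat_lit 475) (nat_lit 391) (nat_lit 334)))))) (XT.nd (nat_lit 546) (nat_lit 1292) (nat_lit 0) (XT.nd (nat_lit 234) (nat_lit 912) (nat_lit 0) (XT.nd (nat_lit 78) (nat_lit 760) (nat_lit 0) (XT.lf (nat_lit 0) (nat_lit 7723534474) (nat_lit 304) (nat_lit 1855173811) (nat_lit 76) (nat_lit 4870839837) (nat_lit 84) (nat_lit 5) (nat_lit 88) (nat_lit 5) (nat_lit 85) (nat_lit 5) (nat_lit 476) (nat_lit 391) (nat_lit 333)) (XT.nd (nat_lit 78) (nat_lit 456) (nat_lit 0) (XT.lf (nat_lit 0) (nat_lit 532316480) (nat_lit 304) (nat_lit 841341124) (nat_lit 76) (nat_lit 13330660510) (nat_lit 80) (nat_lit 5) (nat_lit 84) (nat_lit 5) (nat_lit 81)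 (nat_lit 5) (nat_lit 477) (nat_lit 391) (nat_lit 332)) (XT.lf (nat_lit 0) (nat_lit 134038232) (nat_lit 228) (nat_lit 7873079354) (nat_lit 304) (nat_lit 6956923083) (nat_lit 74) (nat_lit 5) (nat_lit 77) (nat_lit 5) (nat_lit 78) (nat_lit 5) (nat_lit 478) (nat_lit 391) (nat_lit 331)))) (XT.nd (nat_lit 156) (nat_lit 456) (nat_lit 0) (XT.nd (nat_lit 78) (nat_lit 152) (nat_lit 0) (XT.lf (nat_lit 0) (nat_lit 531819718) (nat_lit 304) (nat_lit 14075672053) (nat_lit 76) (nat_lit 622733405) (nat_lit 70) (nat_lit 5) (nat_lit 74) (nat_lit 5) (nat_lit 71) (nat_lit 5) (nat_lit 479) (nat_lit 391) (nat_lit 330)) (XT.lf (nat_lit 0) (nat_lit 2125470436) (nat_lit 152) (nat_lit 6125011657) (nat_lit 228) (nat_lit 7250998544) (nat_lit 68) (nat_lit 5) (nat_lit 70) (nat_lit 5) (nat_lit 71) (nat_lit 5) (nat_lit 480) (nat_lit 391) (nat_lit 329))) (XT.nd (nat_lit 78) (nat_lit 152) (nat_lit 0) (XT.lf (nat_lit 0) (nat_lit 480544129)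 (nat_lit 304) (nat_lit 12653768344) (nat_lit 76) (nat_lit 2645182965) (nat_lit 64) (nat_lit 5) (nat_lit 68) (nat_lit 5) (nat_lit 65) (nat_lit 5) (nat_lit 481) (nat_lit 391) (nat_lit 328)) (XT.lf (nat_lit 0) (nat_lit 4085326843) (nat_lit 152) (nat_lit 4352733374) (nat_lit 228) (nat_lit 7624981658) (nat_lit 62) (nat_lit 5) (nat_lit 64) (nat_lit 5) (nat_lit 65) (nat_lit 5) (nat_lit 482) (nat_lit 391) (nat_lit 327))))) (XT.nd (nat_lit 312) (nat_lit 380) (nat_lit 0) (XT.nd (nat_lit 156) (nat_lit 456) (nat_lit 0) (XT.nd (nat_lit 78) (nat_lit 152) (nat_lit 0) (XT.lf (nat_lit 0) (nat_lit 359843151) (nat_lit 304) (nat_lit 11292799601) (nat_lit 76) (nat_lit 4700730281) (nat_lit 58) (nat_lit 5) (nat_lit 62) (nat_lit 5) (nat_lit 59) (nat_lit 5) (nat_lit 483) (nat_lit 391) (nat_lit 326)) (XT.lf (nat_lit 0) (nat_lit 6003530523) (nat_lit 152) (nat_lit 2562292764) (nat_lit 228) (nat_lit 8083879257) (nat_lit 56) (nat_lit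 5) (nat_lit 58) (nat_lit 5) (nat_lit 59) (nat_lit 5) (nat_lit 484) (nat_lit 391) (nat_lit 325))) (XT.nd (nat_lit 78) (nat_lit 152) (nat_lit 0) (XT.lf (nat_lit 0) (nat_lit 164849358) (nat_lit 304) (nat_lit 10004323695) (nat_lit 76) (nat_lit 6783688890) (nat_lit 52) (nat_lit 5) (nat_lit 56) (nat_lit 5) (nat_lit 53) (nat_lit 5) (nat_lit 485) (nat_lit 391) (nat_lit 324)) (XT.lf (nat_lit 0) (nat_lit 7868944123) (nat_lit 152) (nat_lit 760082062) (nat_lit 228) (nat_lit 8633465445) (nat_lit 50) (nat_lit 5) (nat_lit 52) (nat_lit 5) (nat_lit 53) (nat_lit 5) (nat_lit 486) (nat_lit 391) (nat_lit 323)))) (XT.nd (nat_lit 56940) (nat_lit 0) (nat_lit 48260) (XT.nd (nat_lit 78) (nat_lit 228) (nat_lit 0) (XT.lf (nat_lit 0) (nat_lit 8777205535) (nat_lit 152) (nat_lit 8690264545) (nat_lit 228) (nat_lit 111533764) (nat_lit 48) (nat_lit 5) (nat_lit 50) (nat_lit 5) (nat_lit 51) (nat_lit 5) (nat_lit 487) (nat_lit 391) (nat_lit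 322)) (XT.lf (nat_lit 0) (nat_lit 8628948392) (nat_lit 228) (nat_lit 8240056922) (nat_lit 76) (nat_lit 1033350256) (nat_lit 45) (nat_lit 5) (nat_lit 48) (nat_lit 5) (nat_lit 46) (nat_lit 5) (nat_lit 488) (nat_lit 391) (nat_lit 321))) (XT.nd (nat_lit 78) (nat_lit 1140) (nat_lit 0) (XT.lf (nat_lit 0) (nat_lit 3256363499) (nat_lit 988) (nat_lit 50175652) (nat_lit 988) (nat_lit 50175652) (nat_lit 695) (nat_lit 4) (nat_lit 708) (nat_lit 5) (nat_lit 708) (nat_lit 4) (nat_lit 416) (nat_lit 392) (nat_lit 392)) (XT.lf (nat_lit 0) (nat_lit 4880421590) (nat_lit 1140) (nat_lit 201935611) (nat_lit 0) (nat_lit 1666233279) (nat_lit 680) (nat_lit 5) (nat_lit 695) (nat_lit 4) (nat_lit 680) (nat_lit 4) (nat_lit 417) (nat_lit 392) (nat_lit 391))))))))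
noncomputable def xc23 : XT := (XT.nd (nat_lit 2262) (nat_lit 12844) (nat_lit 0) (XT.nd (nat_lit 1092) (nat_lit 12160) (nat_lit 0) (XT.nd (nat_lit 546) (nat_lit 8664) (nat_lit 0) (XT.nd (nat_lit 234) (nat_lit 6460) (nat_lit 0) (XT.nd (nat_lit 78) (nat_lit 3952) (nat_lit 0) (XT.lf (nat_lit 0) (nat_lit 3066456120) (nat_lit 1216) (nat_lit 140518121) (nat_lit 76) (nat_lit 3579721758) (nat_lit 664) (nat_lit 5) (nat_lit 680) (nat_lit 5) (nat_lit 665) (nat_lit 4) (nat_lit 418) (nat_lit 392) (nat_lit 390)) (XT.nd (nat_lit 78) (nat_lit 2660) (nat_lit 0) (XT.lf (nat_lit 0) (nat_lit 1168561942) (nat_lit 1292) (nat_lit 15765367) (nat_lit 76) (nat_lit 5643458065) (nat_lit 647) (nat_lit 5) (nat_lit 664) (nat_lit 5) (nat_lit 648) (nat_lit 5) (nat_lit 419) (nat_lit 392) (nat_lit 389)) (XT.lf (nat_lit 0) (nat_lit 162749205) (nat_lit 1368) (nat_lit 5890387104) (nat_lit 1444) (nat_lit 818493175) (nat_lit 612) (nat_lit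 5) (nat_lit 630) (nat_lit 5) (nat_lit 631) (nat_lit 4) (nat_lit 420) (nat_lit 392) (nat_lit 388)))) (XT.nd (nat_lit 156) (nat_lit 3344) (nat_lit 0) (XT.nd (nat_lit 78) (nat_lit 1596) (nat_lit 0) (XT.lf (nat_lit 0) (nat_lit 388711990) (nat_lit 1444) (nat_lit 3628410210) (nat_lit 1520) (nat_lit 2901045729) (nat_lit 592) (nat_lit 5) (nat_lit 611) (nat_lit 5) (nat_lit 612) (nat_lit 5) (nat_lit 421) (nat_lit 392) (nat_lit 387)) (XT.lf (nat_lit 0) (nat_lit 677767427) (nat_lit 1520) (nat_lit 1216273137) (nat_lit 1596) (nat_lit 5073700611) (nat_lit 571) (nat_lit 5) (nat_lit 591) (nat_lit 5) (nat_lit 592) (nat_lit 5) (nat_lit 422) (nat_lit 392) (nat_lit 386))) (XT.nd (nat_lit 78) (nat_lit 1748) (nat_lit 0) (XT.lf (nat_lit 0) (nat_lit 1019199220) (nat_lit 1596) (nat_lit 5687208914) (nat_lit 1672) (nat_lit 313759191) (nat_lit 550) (nat_lit 5) (nat_lit 571) (nat_lit 5) (nat_lit 572) (nat_lit 5) (nat_lit 423) (nat_lit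 392) (nat_lit 385)) (XT.lf (nat_lit 0) (nat_lit 1402031506) (nat_lit 1672) (nat_lit 3042565431) (nat_lit 1748) (nat_lit 2630663177) (nat_lit 527) (nat_lit 5) (nat_lit 549) (nat_lit 5) (nat_lit 550) (nat_lit 5) (nat_lit 424) (nat_lit 392) (nat_lit 384))))) (XT.nd (nat_lit 234) (nat_lit 3800) (nat_lit 0) (XT.nd (nat_lit 78) (nat_lit 3040) (nat_lit 0) (XT.lf (nat_lit 0) (nat_lit 1847379198) (nat_lit 1748) (nat_lit 244098091) (nat_lit 1824) (nat_lit 5041985952) (nat_lit 503) (nat_lit 5) (nat_lit 526) (nat_lit 5) (nat_lit 527) (nat_lit 5) (nat_lit 425) (nat_lit 392) (nat_lit 383)) (XT.nd (nat_lit 78) (nat_lit 1216) (nat_lit 0) (XT.lf (nat_lit 0) (nat_lit 2335495406) (nat_lit 1824) (nat_lit 4516550498) (nat_lit 1900) (nat_lit 342374041) (nat_lit 479) (nat_lit 5) (nat_lit 503) (nat_lit 5) (nat_lit 504) (nat_lit 5) (nat_lit 426) (nat_lit 392) (nat_lit 382)) (XT.lf (nat_lit 0) (nat_lit 2869810223) (nat_lit 1140)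 (nat_lit 1489302959) (nat_lit 1216) (nat_lit 2899115508) (nat_lit 463) (nat_lit 5) (nat_lit 478) (nat_lit 5) (nat_lit 479) (nat_lit 5) (nat_lit 427) (nat_lit 392) (nat_lit 381)))) (XT.nd (nat_lit 156) (nat_lit 1900) (nat_lit 0) (XT.nd (nat_lit 78) (nat_lit 912) (nat_lit 0) (XT.lf (nat_lit 0) (nat_lit 1780960830) (nat_lit 988) (nat_lit 3869708234) (nat_lit 76) (nat_lit 1674350193) (nat_lit 450) (nat_lit 5) (nat_lit 463) (nat_lit 5) (nat_lit 451) (nat_lit 5) (nat_lit 428) (nat_lit 392) (nat_lit 380)) (XT.lf (nat_lit 0) (nat_lit 4087010452) (nat_lit 912) (nat_lit 2410457523) (nat_lit 988) (nat_lit 897258682) (nat_lit 438) (nat_lit 5) (nat_lit 450) (nat_lit 5) (nat_lit 451) (nat_lit 5) (nat_lit 429) (nat_lit 392) (nat_lit 379))) (XT.nd (nat_lit 78) (nat_lit 988) (nat_lit 0) (XT.lf (nat_lit 0) (nat_lit 3772656259) (nat_lit 912) (nat_lit 2705179214) (nat_lit 76) (nat_lit 989494981) (nat_lit 426) (nat_lit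 5) (nat_lit 438) (nat_lit 5) (nat_lit 427) (nat_lit 5) (nat_lit 430) (nat_lit 392) (nat_lit 378)) (XT.lf (nat_lit 0) (nat_lit 962710470) (nat_lit 988) (nat_lit 2059879689) (nat_lit 76) (nat_lit 4520320002) (nat_lit 413) (nat_lit 5) (nat_lit 426) (nat_lit 5) (nat_lit 414) (nat_lit 5) (nat_lit 431) (nat_lit 392) (nat_lit 377)))))) (XT.nd (nat_lit 546) (nat_lit 5776) (nat_lit 0) (XT.nd (nat_lit 234) (nat_lit 3116) (nat_lit 0) (XT.nd (nat_lit 78) (nat_lit 2432) (nat_lit 0) (XT.lf (nat_lit 0) (nat_lit 5648557775) (nat_lit 912) (nat_lit 1372198471) (nat_lit 76) (nat_lit 600737970) (nat_lit 402) (nat_lit 5) (nat_lit 414) (nat_lit 5) (nat_lit 403) (nat_lit 5) (nat_lit 432) (nat_lit 392) (nat_lit 376)) (XT.nd (nat_lit 78) (nat_lit 1520) (nat_lit 0) (XT.lf (nat_lit 0) (nat_lit 2694364185) (nat_lit 912) (nat_lit 652310977) (nat_lit 76) (nat_lit 4356240903) (nat_lit 390) (nat_lit 5) (nat_lit 402) (nat_lit 5) (nat_lit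 391) (nat_lit 5) (nat_lit 433) (nat_lit 392) (nat_lit 375)) (XT.lf (nat_lit 0) (nat_lit 122610497) (nat_lit 760) (nat_lit 7297343820) (nat_lit 836) (nat_lit 367667755) (nat_lit 370) (nat_lit 5) (nat_lit 380) (nat_lit 5) (nat_lit 381) (nat_lit 5) (nat_lit 434) (nat_lit 392) (nat_lit 374)))) (XT.nd (nat_lit 156) (nat_lit 1444) (nat_lit 0) (XT.nd (nat_lit 78) (nat_lit 836) (nat_lit 0) (XT.lf (nat_lit 0) (nat_lit 925024295) (nat_lit 760) (nat_lit 3400458107) (nat_lit 836) (nat_lit 3549399332) (nat_lit 359) (nat_lit 5) (nat_lit 369) (nat_lit 5) (nat_lit 370) (nat_lit 5) (nat_lit 435) (nat_lit 392) (nat_lit 373)) (XT.lf (nat_lit 0) (nat_lit 1125134117) (nat_lit 836) (nat_lit 6182632907) (nat_lit 76) (nat_lit 657772206) (nat_lit 348) (nat_lit 5) (nat_lit 359) (nat_lit 5) (nat_lit 349) (nat_lit 5) (nat_lit 436) (nat_lit 392) (nat_lit 372))) (XT.nd (nat_lit 78) (nat_lit 760) (nat_lit 0) (XT.lf (nat_lit 0) (nat_lit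 2663496433) (nat_lit 684) (nat_lit 3201062500) (nat_lit 760) (nat_lit 2194434093) (nat_lit 339) (nat_lit 5) (nat_lit 348) (nat_lit 5) (nat_lit 349) (nat_lit 5) (nat_lit 437) (nat_lit 392) (nat_lit 371)) (XT.lf (nat_lit 0) (nat_lit 2516388965) (nat_lit 760) (nat_lit 4566332437) (nat_lit 76) (nat_lit 1073006730) (nat_lit 329) (nat_lit 5) (nat_lit 339) (nat_lit 5) (nat_lit 330) (nat_lit 5) (nat_lit 438) (nat_lit 392) (nat_lit 370))))) (XT.nd (nat_lit 312) (nat_lit 3040) (nat_lit 0) (XT.nd (nat_lit 156) (nat_lit 1292) (nat_lit 0) (XT.nd (nat_lit 78) (nat_lit 760) (nat_lit 0) (XT.lf (nat_lit 0) (nat_lit 4547876428) (nat_lit 684) (nat_lit 2767866607) (nat_lit 760) (nat_lit 939794856) (nat_lit 320) (nat_lit 5) (nat_lit 329) (nat_lit 5) (nat_lit 330) (nat_lit 5) (nat_lit 439) (nat_lit 392) (nat_lit 369)) (XT.lf (nat_lit 0) (nat_lit 3818805442) (nat_lit 760) (nat_lit 2820152016) (nat_lit 76) (nat_lit 1719496348)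 (nat_lit 310) (nat_lit 5) (nat_lit 320) (nat_lit 5) (nat_lit 311) (nat_lit 5) (nat_lit 440) (nat_lit 392) (nat_lit 368))) (XT.nd (nat_lit 78) (nat_lit 608) (nat_lit 0) (XT.lf (nat_lit 0) (nat_lit 219133072) (nat_lit 684) (nat_lit 1893945803) (nat_lit 76) (nat_lit 6351640170) (nat_lit 301) (nat_lit 5) (nat_lit 310) (nat_lit 5) (nat_lit 302) (nat_lit 5) (nat_lit 441) (nat_lit 392) (nat_lit 367)) (XT.lf (nat_lit 0) (nat_lit 5039604058) (nat_lit 684) (nat_lit 949942021) (nat_lit 76) (nat_lit 2584416711) (nat_lit 293) (nat_lit 5) (nat_lit 302) (nat_lit 5) (nat_lit 294) (nat_lit 5) (nat_lit 442) (nat_lit 392) (nat_lit 366)))) (XT.nd (nat_lit 156) (nat_lit 1216) (nat_lit 0) (XT.nd (nat_lit 78) (nat_lit 532) (nat_lit 0) (XT.lf (nat_lit 0) (nat_lit 36425540) (nat_lit 608) (nat_lit 1244733032) (nat_lit 684) (nat_lit 7405551868) (nat_lit 276) (nat_lit 5) (nat_lit 284) (nat_lit 5) (nat_lit 285) (nat_lit 5) (nat_lit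 443) (nat_lit 392) (nat_lit 365)) (XT.lf (nat_lit 0) (nat_lit 1052776101) (nat_lit 532) (nat_lit 5139439074) (nat_lit 608) (nat_lit 2610178789) (nat_lit 269) (nat_lit 5) (nat_lit 276) (nat_lit 5) (nat_lit 277) (nat_lit 5) (nat_lit 444) (nat_lit 392) (nat_lit 364))) (XT.nd (nat_lit 78) (nat_lit 532) (nat_lit 0) (XT.lf (nat_lit 0) (nat_lit 2110657521) (nat_lit 608) (nat_lit 167091903) (nat_lit 684) (nat_lit 6643913739) (nat_lit 260) (nat_lit 5) (nat_lit 268) (nat_lit 5) (nat_lit 269) (nat_lit 5) (nat_lit 445) (nat_lit 392) (nat_lit 363)) (XT.lf (nat_lit 0) (nat_lit 3183470126) (nat_lit 532) (nat_lit 4099337878) (nat_lit 608) (nat_lit 1761240611) (nat_lit 253) (nat_lit 5) (nat_lit 260) (nat_lit 5) (nat_lit 261) (nat_lit 5) (nat_lit 446) (nat_lit 392) (nat_lit 362))))))) (XT.nd (nat_lit 1170) (nat_lit 5472) (nat_lit 0) (XT.nd (nat_lit 546) (nat_lit 3344) (nat_lit 0) (XT.nd (nat_lit 234) (nat_lit 2356) (nat_lit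 0) (XT.nd (nat_lit 78) (nat_lit 1064) (nat_lit 0) (XT.lf (nat_lit 0) (nat_lit 3209097499) (nat_lit 608) (nat_lit 4878448101) (nat_lit 76) (nat_lit 1082457020) (nat_lit 245) (nat_lit 5) (nat_lit 253) (nat_lit 5) (nat_lit 246) (nat_lit 5) (nat_lit 447) (nat_lit 392) (nat_lit 361)) (XT.nd (nat_lit 78) (nat_lit 608) (nat_lit 0) (XT.lf (nat_lit 0) (nat_lit 5425008692) (nat_lit 456) (nat_lit 2885544208) (nat_lit 532) (nat_lit 988832955) (nat_lit 239) (nat_lit 5) (nat_lit 245) (nat_lit 5) (nat_lit 246) (nat_lit 5) (nat_lit 448) (nat_lit 392) (nat_lit 360)) (XT.lf (nat_lit 0) (nat_lit 4075292359) (nat_lit 608) (nat_lit 2852436256) (nat_lit 76) (nat_lit 2504445657) (nat_lit 231) (nat_lit 5) (nat_lit 239) (nat_lit 5) (nat_lit 232) (nat_lit 5) (nat_lit 449) (nat_lit 392) (nat_lit 359)))) (XT.nd (nat_lit 156) (nat_lit 1368) (nat_lit 0) (XT.nd (nat_lit 78) (nat_lit 532) (nat_lit 0) (XT.lf (nat_lit 0) (nat_lit 7773252019)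 (nat_lit 456) (nat_lit 1507091928) (nat_lit 532) (nat_lit 288424925) (nat_lit 225) (nat_lit 5) (nat_lit 231) (nat_lit 5) (nat_lit 232) (nat_lit 5) (nat_lit 450) (nat_lit 392) (nat_lit 358)) (XT.lf (nat_lit 0) (nat_lit 4879644220) (nat_lit 532) (nat_lit 736224747) (nat_lit 76) (nat_lit 4092708918) (nat_lit 218) (nat_lit 5) (nat_lit 225) (nat_lit 5) (nat_lit 219) (nat_lit 5) (nat_lit 451) (nat_lit 392) (nat_lit 357))) (XT.nd (nat_lit 78) (nat_lit 380) (nat_lit 0) (XT.lf (nat_lit 0) (nat_lit 342114827) (nat_lit 532) (nat_lit 9478243969) (nat_lit 76) (nat_lit 32133828) (nat_lit 205) (nat_lit 5) (nat_lit 212) (nat_lit 5) (nat_lit 206) (nat_lit 5) (nat_lit 452) (nat_lit 392) (nat_lit 356)) (XT.lf (nat_lit 0) (nat_lit 1485591426) (nat_lit 380) (nat_lit 4150102719) (nat_lit 456) (nat_lit 4363733915) (nat_lit 200) (nat_lit 5) (nat_lit 205) (nat_lit 5) (nat_lit 206) (nat_lit 5) (nat_lit 453) (nat_lit 392) (nat_lit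 355))))) (XT.nd (nat_lit 312) (nat_lit 1596) (nat_lit 0) (XT.nd (nat_lit 156) (nat_lit 836) (nat_lit 0) (XT.nd (nat_lit 78) (nat_lit 380) (nat_lit 0) (XT.lf (nat_lit 0) (nat_lit 928410489) (nat_lit 532) (nat_lit 7509655879) (nat_lit 76) (nat_lit 1712517262) (nat_lit 193) (nat_lit 5) (nat_lit 200) (nat_lit 5) (nat_lit 194) (nat_lit 5) (nat_lit 454) (nat_lit 392) (nat_lit 354)) (XT.lf (nat_lit 0) (nat_lit 3800537081) (nat_lit 380) (nat_lit 2542058898) (nat_lit 456) (nat_lit 3962651368) (nat_lit 188) (nat_lit 5) (nat_lit 193) (nat_lit 5) (nat_lit 194) (nat_lit 5) (nat_lit 455) (nat_lit 392) (nat_lit 353))) (XT.nd (nat_lit 78) (nat_lit 380) (nat_lit 0) (XT.lf (nat_lit 0) (nat_lit 1455456452) (nat_lit 456) (nat_lit 5475155515) (nat_lit 76) (nat_lit 3533354088) (nat_lit 182) (nat_lit 5) (nat_lit 188) (nat_lit 5) (nat_lit 183) (nat_lit 5) (nat_lit 456) (nat_lit 392) (nat_lit 352)) (XT.lf (nat_lit 0) (nat_lit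 6195070146) (nat_lit 380) (nat_lit 803360022) (nat_lit 456) (nat_lit 3628170599) (nat_lit 177) (nat_lit 5) (nat_lit 182) (nat_lit 5) (nat_lit 183) (nat_lit 5) (nat_lit 457) (nat_lit 392) (nat_lit 351)))) (XT.nd (nat_lit 156) (nat_lit 760) (nat_lit 0) (XT.nd (nat_lit 78) (nat_lit 380) (nat_lit 0) (XT.lf (nat_lit 0) (nat_lit 1925670977) (nat_lit 456) (nat_lit 3378909974) (nat_lit 76) (nat_lit 5488542724) (nat_lit 171) (nat_lit 5) (nat_lit 177) (nat_lit 5) (nat_lit 172) (nat_lit 5) (nat_lit 458) (nat_lit 392) (nat_lit 350)) (XT.lf (nat_lit 0) (nat_lit 7612548159) (nat_lit 456) (nat_lit 2305326008) (nat_lit 76) (nat_lit 1045975582) (nat_lit 166) (nat_lit 5) (nat_lit 172) (nat_lit 5) (nat_lit 167) (nat_lit 5) (nat_lit 459) (nat_lit 392) (nat_lit 349))) (XT.nd (nat_lit 78) (nat_lit 304) (nat_lit 0) (XT.lf (nat_lit 0) (nat_lit 2341011830) (nat_lit 456) (nat_lit 1225033808) (nat_lit 76) (nat_lit 7572525872)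 (nat_lit 160) (nat_lit 5) (nat_lit 166) (nat_lit 5) (nat_lit 161) (nat_lit 5) (nat_lit 460) (nat_lit 392) (nat_lit 348)) (XT.lf (nat_lit 0) (nat_lit 8186080253) (nat_lit 380) (nat_lit 129324050) (nat_lit 76) (nat_lit 3002138525) (nat_lit 156) (nat_lit 5) (nat_lit 161) (nat_lit 5) (nat_lit 157) (nat_lit 5) (nat_lit 461) (nat_lit 392) (nat_lit 347)))))) (XT.nd (nat_lit 546) (nat_lit 2584) (nat_lit 0) (XT.nd (nat_lit 234) (nat_lit 1368) (nat_lit 0) (XT.nd (nat_lit 78) (nat_lit 760) (nat_lit 0) (XT.lf (nat_lit 0) (nat_lit 995412080) (nat_lit 304) (nat_lit 1714032348) (nat_lit 380) (nat_lit 8791282900) (nat_lit 146) (nat_lit 5) (nat_lit 150) (nat_lit 5) (nat_lit 151) (nat_lit 5) (nat_lit 462) (nat_lit 392) (nat_lit 346)) (XT.nd (nat_lit 78) (nat_lit 380) (nat_lit 0) (XT.lf (nat_lit 0) (nat_lit 2125450465) (nat_lit 380) (nat_lit 6603707715) (nat_lit 456) (nat_lit 2958913908) (nat_lit 141) (nat_lit 5) (nat_lit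 146) (nat_lit 5) (nat_lit 147) (nat_lit 5) (nat_lit 463) (nat_lit 392) (nat_lit 345)) (XT.lf (nat_lit 0) (nat_lit 3035550475) (nat_lit 380) (nat_lit 8599608534) (nat_lit 76) (nat_lit 244941357) (nat_lit 136) (nat_lit 5) (nat_lit 141) (nat_lit 5) (nat_lit 137) (nat_lit 5) (nat_lit 464) (nat_lit 392) (nat_lit 344)))) (XT.nd (nat_lit 156) (nat_lit 684) (nat_lit 0) (XT.nd (nat_lit 78) (nat_lit 380) (nat_lit 0) (XT.lf (nat_lit 0) (nat_lit 4429256188) (nat_lit 304) (nat_lit 4800992659) (nat_lit 380) (nat_lit 2846038569) (nat_lit 132) (nat_lit 5) (nat_lit 136) (nat_lit 5) (nat_lit 137) (nat_lit 5) (nat_lit 465) (nat_lit 392) (nat_lit 343)) (XT.lf (nat_lit 0) (nat_lit 3321983625) (nat_lit 380) (nat_lit 6678033167) (nat_lit 76) (nat_lit 2277246378) (nat_lit 127) (nat_lit 5) (nat_lit 132) (nat_lit 5) (nat_lit 128) (nat_lit 5) (nat_lit 466) (nat_lit 392) (nat_lit 342))) (XT.nd (nat_lit 78) (nat_lit 380) (nat_lit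 0) (XT.lf (nat_lit 0) (nat_lit 6775964200) (nat_lit 304) (nat_lit 2913174901) (nat_lit 380) (nat_lit 2793698676) (nat_lit 123) (nat_lit 5) (nat_lit 127) (nat_lit 5) (nat_lit 128) (nat_lit 5) (nat_lit 467) (nat_lit 392) (nat_lit 341)) (XT.lf (nat_lit 0) (nat_lit 3557688836) (nat_lit 380) (nat_lit 4734602761) (nat_lit 76) (nat_lit 4400796573) (nat_lit 118) (nat_lit 5) (nat_lit 123) (nat_lit 5) (nat_lit 119) (nat_lit 5) (nat_lit 468) (nat_lit 392) (nat_lit 340))))) (XT.nd (nat_lit 312) (nat_lit 1368) (nat_lit 0) (XT.nd (nat_lit 156) (nat_lit 608) (nat_lit 0) (XT.nd (nat_lit 78) (nat_lit 304) (nat_lit 0) (XT.lf (nat_lit 0) (nat_lit 9160951630) (nat_lit 304) (nat_lit 945064136) (nat_lit 380) (nat_lit 2802374852) (nat_lit 114) (nat_lit 5) (nat_lit 118) (nat_lit 5) (nat_lit 119) (nat_lit 5) (nat_lit 469) (nat_lit 392) (nat_lit 339)) (XT.lf (nat_lit 0) (nat_lit 3742269551) (nat_lit 304) (nat_lit 2774740325)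 (nat_lit 76) (nat_lit 6611251491) (nat_lit 110) (nat_lit 5) (nat_lit 114) (nat_lit 5) (nat_lit 111) (nat_lit 5) (nat_lit 470) (nat_lit 392) (nat_lit 338))) (XT.nd (nat_lit 78) (nat_lit 304) (nat_lit 0) (XT.lf (nat_lit 0) (nat_lit 10487737121) (nat_lit 380) (nat_lit 1781467521) (nat_lit 76) (nat_lit 1084302841) (nat_lit 106) (nat_lit 5) (nat_lit 111) (nat_lit 5) (nat_lit 107) (nat_lit 5) (nat_lit 471) (nat_lit 392) (nat_lit 337)) (XT.lf (nat_lit 0) (nat_lit 3874845055) (nat_lit 304) (nat_lit 804219632) (nat_lit 76) (nat_lit 8904441543) (nat_lit 102) (nat_lit 5) (nat_lit 106) (nat_lit 5) (nat_lit 103) (nat_lit 5) (nat_lit 472) (nat_lit 392) (nat_lit 336)))) (XT.nd (nat_lit 156) (nat_lit 532) (nat_lit 0) (XT.nd (nat_lit 78) (nat_lit 304) (nat_lit 0) (XT.lf (nat_lit 0) (nat_lit 188047397) (nat_lit 228) (nat_lit 10646188469) (nat_lit 304) (nat_lit 2984681184) (nat_lit 95) (nat_lit 5) (nat_lit 98) (nat_lit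 5) (nat_lit 99) (nat_lit 5) (nat_lit 473) (nat_lit 392) (nat_lit 335)) (XT.lf (nat_lit 0) (nat_lit 1186318728) (nat_lit 228) (nat_lit 2775415956) (nat_lit 304) (nat_lit 10097696443) (nat_lit 91) (nat_lit 5) (nat_lit 94) (nat_lit 5) (nat_lit 95) (nat_lit 5) (nat_lit 474) (nat_lit 392) (nat_lit 334))) (XT.nd (nat_lit 78) (nat_lit 304) (nat_lit 0) (XT.lf (nat_lit 0) (nat_lit 2182027644) (nat_lit 228) (nat_lit 8966574397) (nat_lit 304) (nat_lit 3156712562) (nat_lit 88) (nat_lit 5) (nat_lit 91) (nat_lit 5) (nat_lit 92) (nat_lit 5) (nat_lit 475) (nat_lit 392) (nat_lit 333)) (XT.lf (nat_lit 0) (nat_lit 3185268444) (nat_lit 228) (nat_lit 813335881) (nat_lit 304) (nat_lit 10558283203) (nat_lit 84) (nat_lit 5) (nat_lit 87) (nat_lit 5) (nat_lit 88) (nat_lit 5) (nat_lit 476) (nat_lit 392) (nat_lit 332))))))))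
noncomputable def xc24 : XT := (XT.nd (nat_lit 58890) (nat_lit 0) (nat_lit 9044) (XT.nd (nat_lit 57720) (nat_lit 0) (nat_lit 28804) (XT.nd (nat_lit 546) (nat_lit 1140) (nat_lit 0) (XT.nd (nat_lit 234) (nat_lit 912) (nat_lit 0) (XT.nd (nat_lit 78) (nat_lit 532) (nat_lit 0) (XT.lf (nat_lit 0) (nat_lit 4169722424) (nat_lit 228) (nat_lit 7247547934) (nat_lit 304) (nat_lit 3396489105) (nat_lit 81) (nat_lit 5) (nat_lit 84) (nat_lit 5) (nat_lit 85) (nat_lit 5) (nat_lit 477) (nat_lit 392) (nat_lit 331)) (XT.nd (nat_lit 78) (nat_lit 228) (nat_lit 0) (XT.lf (nat_lit 0) (nat_lit 3985426153) (nat_lit 304) (nat_lit 9910051525) (nat_lit 76) (nat_lit 1181194332) (nat_lit 77) (nat_lit 5) (nat_lit 81) (nat_lit 5) (nat_lit 78) (nat_lit 5) (nat_lit 478) (nat_lit 392) (nat_lit 330)) (XT.lf (nat_lit 0) (nat_lit 6143406913) (nat_lit 228) (nat_lit 5494434691) (nat_lit 304) (nat_lit 3707278188) (nat_lit 74) (nat_lit 5) (nat_lit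 77) (nat_lit 5) (nat_lit 78) (nat_lit 5) (nat_lit 479) (nat_lit 392) (nat_lit 329)))) (XT.nd (nat_lit 156) (nat_lit 456) (nat_lit 0) (XT.nd (nat_lit 78) (nat_lit 152) (nat_lit 0) (XT.lf (nat_lit 0) (nat_lit 3916893462) (nat_lit 304) (nat_lit 8495180519) (nat_lit 76) (nat_lit 3207645217) (nat_lit 70) (nat_lit 5) (nat_lit 74) (nat_lit 5) (nat_lit 71) (nat_lit 5) (nat_lit 480) (nat_lit 392) (nat_lit 328)) (XT.lf (nat_lit 0) (nat_lit 8094608568) (nat_lit 152) (nat_lit 3712719061) (nat_lit 228) (nat_lit 4092981339) (nat_lit 68) (nat_lit 5) (nat_lit 70) (nat_lit 5) (nat_lit 71) (nat_lit 5) (nat_lit 481) (nat_lit 392) (nat_lit 327))) (XT.nd (nat_lit 78) (nat_lit 152) (nat_lit 0) (XT.lf (nat_lit 0) (nat_lit 3783968648) (nat_lit 304) (nat_lit 7131517785) (nat_lit 76) (nat_lit 5271585658) (nat_lit 64) (nat_lit 5) (nat_lit 68) (nat_lit 5) (nat_lit 65) (nat_lit 5) (nat_lit 482) (nat_lit 392) (nat_lit 326)) (XT.lf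 (nat_lit 0) (nat_lit 10013999533) (nat_lit 152) (nat_lit 1908111466) (nat_lit 228) (nat_lit 4558176722) (nat_lit 62) (nat_lit 5) (nat_lit 64) (nat_lit 5) (nat_lit 65) (nat_lit 5) (nat_lit 483) (nat_lit 392) (nat_lit 325))))) (XT.nd (nat_lit 234) (nat_lit 380) (nat_lit 0) (XT.nd (nat_lit 78) (nat_lit 456) (nat_lit 0) (XT.lf (nat_lit 0) (nat_lit 3582222643) (nat_lit 304) (nat_lit 5829813861) (nat_lit 76) (nat_lit 7367680118) (nat_lit 58) (nat_lit 5) (nat_lit 62) (nat_lit 5) (nat_lit 59) (nat_lit 5) (nat_lit 484) (nat_lit 392) (nat_lit 324)) (XT.nd (nat_lit 78) (nat_lit 304) (nat_lit 0) (XT.lf (nat_lit 0) (nat_lit 11891279346) (nat_lit 152) (nat_lit 86619353) (nat_lit 228) (nat_lit 5108167743) (nat_lit 56) (nat_lit 5) (nat_lit 58) (nat_lit 5) (nat_lit 59) (nat_lit 5) (nat_lit 485) (nat_lit 392) (nat_lit 323)) (XT.lf (nat_lit 0) (nat_lit 3306503647) (nat_lit 304) (nat_lit 4601901971) (nat_lit 76) (nat_lit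 9490284057) (nat_lit 52) (nat_lit 5) (nat_lit 56) (nat_lit 5) (nat_lit 53) (nat_lit 5) (nat_lit 486) (nat_lit 392) (nat_lit 322)))) (XT.nd (nat_lit 56784) (nat_lit 0) (nat_lit 50236) (XT.nd (nat_lit 78) (nat_lit 228) (nat_lit 0) (XT.lf (nat_lit 0) (nat_lit 11981001539) (nat_lit 228) (nat_lit 4014993064) (nat_lit 76) (nat_lit 1722486430) (nat_lit 50) (nat_lit 5) (nat_lit 53) (nat_lit 5) (nat_lit 51) (nat_lit 5) (nat_lit 487) (nat_lit 392) (nat_lit 321)) (XT.lf (nat_lit 0) (nat_lit 2950879797) (nat_lit 228) (nat_lit 3460834242) (nat_lit 76) (nat_lit 11633367645) (nat_lit 47) (nat_lit 5) (nat_lit 50) (nat_lit 5) (nat_lit 48) (nat_lit 5) (nat_lit 488) (nat_lit 392) (nat_lit 320))) (XT.nd (nat_lit 78) (nat_lit 0) (nat_lit 0) (XT.lf (nat_lit 0) (nat_lit 9511704) (nat_lit 988) (nat_lit 3305924129) (nat_lit 0) (nat_lit 9511704) (nat_lit 708) (nat_lit 5) (nat_lit 721) (nat_lit 4) (nat_lit 708) (nat_lit 4) (nat_lit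 414) (nat_lit 393) (nat_lit 393)) (XT.lf (nat_lit 0) (nat_lit 4950569422) (nat_lit 988) (nat_lit 156482628) (nat_lit 0) (nat_lit 1573743183) (nat_lit 708) (nat_lit 5) (nat_lit 721) (nat_lit 4) (nat_lit 708) (nat_lit 4) (nat_lit 415) (nat_lit 393) (nat_lit 392)))))) (XT.nd (nat_lit 546) (nat_lit 11020) (nat_lit 0) (XT.nd (nat_lit 234) (nat_lit 7068) (nat_lit 0) (XT.nd (nat_lit 78) (nat_lit 2280) (nat_lit 0) (XT.lf (nat_lit 0) (nat_lit 3152508998) (nat_lit 1064) (nat_lit 287230138) (nat_lit 76) (nat_lit 3274888765) (nat_lit 694) (nat_lit 5) (nat_lit 708) (nat_lit 5) (nat_lit 695) (nat_lit 4) (nat_lit 416) (nat_lit 393) (nat_lit 391)) (XT.nd (nat_lit 78) (nat_lit 1140) (nat_lit 0) (XT.lf (nat_lit 0) (nat_lit 1272870999) (nat_lit 1140) (nat_lit 354662679) (nat_lit 76) (nat_lit 5123890095) (nat_lit 679) (nat_lit 5) (nat_lit 694) (nat_lit 5) (nat_lit 680) (nat_lit 5) (nat_lit 417) (nat_lit 393) (nat_lit 390))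 (XT.lf (nat_lit 0) (nat_lit 6093825372) (nat_lit 1216) (nat_lit 365526946) (nat_lit 76) (nat_lit 331721346) (nat_lit 664) (nat_lit 5) (nat_lit 680) (nat_lit 5) (nat_lit 665) (nat_lit 4) (nat_lit 418) (nat_lit 393) (nat_lit 389)))) (XT.nd (nat_lit 156) (nat_lit 4408) (nat_lit 0) (XT.nd (nat_lit 78) (nat_lit 1368) (nat_lit 0) (XT.lf (nat_lit 0) (nat_lit 4074159799) (nat_lit 1292) (nat_lit 333580760) (nat_lit 76) (nat_lit 2425588271) (nat_lit 647) (nat_lit 5) (nat_lit 664) (nat_lit 5) (nat_lit 648) (nat_lit 5) (nat_lit 419) (nat_lit 393) (nat_lit 388)) (XT.lf (nat_lit 0) (nat_lit 1969649429) (nat_lit 1368) (nat_lit 239735786) (nat_lit 76) (nat_lit 4669212900) (nat_lit 629) (nat_lit 5) (nat_lit 647) (nat_lit 5) (nat_lit 630) (nat_lit 5) (nat_lit 420) (nat_lit 393) (nat_lit 387))) (XT.nd (nat_lit 78) (nat_lit 3040) (nat_lit 0) (XT.lf (nat_lit 0) (nat_lit 6702940519) (nat_lit 1444) (nat_lit 86195662) (nat_lit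 76) (nat_lit 137729032) (nat_lit 611) (nat_lit 5) (nat_lit 630) (nat_lit 5) (nat_lit 612) (nat_lit 5) (nat_lit 421) (nat_lit 393) (nat_lit 386)) (XT.lf (nat_lit 0) (nat_lit 102012247) (nat_lit 1520) (nat_lit 4357827389) (nat_lit 1596) (nat_lit 2517778403) (nat_lit 571) (nat_lit 5) (nat_lit 591) (nat_lit 5) (nat_lit 592) (nat_lit 5) (nat_lit 422) (nat_lit 393) (nat_lit 385))))) (XT.nd (nat_lit 312) (nat_lit 3952) (nat_lit 0) (XT.nd (nat_lit 156) (nat_lit 3724) (nat_lit 0) (XT.nd (nat_lit 78) (nat_lit 1672) (nat_lit 0) (XT.lf (nat_lit 0) (nat_lit 353167022) (nat_lit 1596) (nat_lit 1775740032) (nat_lit 1672) (nat_lit 4902525824) (nat_lit 549) (nat_lit 5) (nat_lit 570) (nat_lit 5) (nat_lit 571) (nat_lit 5) (nat_lit 423) (nat_lit 393) (nat_lit 384)) (XT.lf (nat_lit 0) (nat_lit 658193910) (nat_lit 1672) (nat_lit 6139563010) (nat_lit 1748) (nat_lit 290438595) (nat_lit 527) (nat_lit 5) (nat_lit 549) (nat_lit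 5) (nat_lit 550) (nat_lit 5) (nat_lit 424) (nat_lit 393) (nat_lit 383))) (XT.nd (nat_lit 78) (nat_lit 1900) (nat_lit 0) (XT.lf (nat_lit 0) (nat_lit 998168269) (nat_lit 1748) (nat_lit 3329433028) (nat_lit 1824) (nat_lit 2819964255) (nat_lit 503) (nat_lit 5) (nat_lit 526) (nat_lit 5) (nat_lit 527) (nat_lit 5) (nat_lit 425) (nat_lit 393) (nat_lit 382)) (XT.lf (nat_lit 0) (nat_lit 1399513322) (nat_lit 1824) (nat_lit 364890109) (nat_lit 1900) (nat_lit 5445689099) (nat_lit 478) (nat_lit 5) (nat_lit 502) (nat_lit 5) (nat_lit 503) (nat_lit 5) (nat_lit 426) (nat_lit 393) (nat_lit 381)))) (XT.nd (nat_lit 156) (nat_lit 1824) (nat_lit 0) (XT.nd (nat_lit 78) (nat_lit 988) (nat_lit 0) (XT.lf (nat_lit 0) (nat_lit 1838613164) (nat_lit 1140) (nat_lit 4548468436) (nat_lit 1216) (nat_lit 888264025) (nat_lit 463) (nat_lit 5) (nat_lit 478) (nat_lit 5) (nat_lit 479) (nat_lit 5) (nat_lit 427) (nat_lit 393) (nat_lit 380))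 (XT.lf (nat_lit 0) (nat_lit 2324249258) (nat_lit 912) (nat_lit 1358557237) (nat_lit 988) (nat_lit 3660723560) (nat_lit 450) (nat_lit 5) (nat_lit 462) (nat_lit 5) (nat_lit 463) (nat_lit 5) (nat_lit 428) (nat_lit 393) (nat_lit 379))) (XT.nd (nat_lit 78) (nat_lit 836) (nat_lit 0) (XT.lf (nat_lit 0) (nat_lit 893087931) (nat_lit 988) (nat_lit 4556605894) (nat_lit 76) (nat_lit 1965018902) (nat_lit 437) (nat_lit 5) (nat_lit 450) (nat_lit 5) (nat_lit 438) (nat_lit 5) (nat_lit 429) (nat_lit 393) (nat_lit 378)) (XT.lf (nat_lit 0) (nat_lit 3430655871) (nat_lit 836) (nat_lit 2043612492) (nat_lit 912) (nat_lit 2014473125) (nat_lit 426) (nat_lit 5) (nat_lit 437) (nat_lit 5) (nat_lit 438) (nat_lit 5) (nat_lit 430) (nat_lit 393) (nat_lit 377))))))) (XT.nd (nat_lit 1092) (nat_lit 8360) (nat_lit 0) (XT.nd (nat_lit 546) (nat_lit 4788) (nat_lit 0) (XT.nd (nat_lit 234) (nat_lit 3876) (nat_lit 0) (XT.nd (nat_lit 78) (nat_lit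 1748) (nat_lit 0) (XT.lf (nat_lit 0) (nat_lit 2537388937) (nat_lit 988) (nat_lit 3517611918) (nat_lit 76) (nat_lit 1510773928) (nat_lit 413) (nat_lit 5) (nat_lit 426) (nat_lit 5) (nat_lit 414) (nat_lit 5) (nat_lit 431) (nat_lit 393) (nat_lit 376)) (XT.nd (nat_lit 78) (nat_lit 912) (nat_lit 0) (XT.lf (nat_lit 0) (nat_lit 4709644434) (nat_lit 836) (nat_lit 2440142864) (nat_lit 912) (nat_lit 496042496) (nat_lit 402) (nat_lit 5) (nat_lit 413) (nat_lit 5) (nat_lit 414) (nat_lit 5) (nat_lit 432) (nat_lit 393) (nat_lit 375)) (XT.lf (nat_lit 0) (nat_lit 4066661404) (nat_lit 912) (nat_lit 2322723646) (nat_lit 76) (nat_lit 1339381237) (nat_lit 390) (nat_lit 5) (nat_lit 402) (nat_lit 5) (nat_lit 391) (nat_lit 5) (nat_lit 433) (nat_lit 393) (nat_lit 374)))) (XT.nd (nat_lit 156) (nat_lit 2280) (nat_lit 0) (XT.nd (nat_lit 78) (nat_lit 760) (nat_lit 0) (XT.lf (nat_lit 0) (nat_lit 892715051) (nat_lit 836) (nat_lit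 1667816781) (nat_lit 76) (nat_lit 5254279700) (nat_lit 379) (nat_lit 5) (nat_lit 390) (nat_lit 5) (nat_lit 380) (nat_lit 5) (nat_lit 434) (nat_lit 393) (nat_lit 373)) (XT.lf (nat_lit 0) (nat_lit 5490450272) (nat_lit 836) (nat_lit 979891164) (nat_lit 76) (nat_lit 1433495615) (nat_lit 369) (nat_lit 5) (nat_lit 380) (nat_lit 5) (nat_lit 370) (nat_lit 5) (nat_lit 435) (nat_lit 393) (nat_lit 372))) (XT.nd (nat_lit 78) (nat_lit 1444) (nat_lit 0) (XT.lf (nat_lit 0) (nat_lit 2167767952) (nat_lit 836) (nat_lit 257227039) (nat_lit 76) (nat_lit 5570923291) (nat_lit 358) (nat_lit 5) (nat_lit 369) (nat_lit 5) (nat_lit 359) (nat_lit 5) (nat_lit 436) (nat_lit 393) (nat_lit 371)) (XT.lf (nat_lit 0) (nat_lit 510351975) (nat_lit 684) (nat_lit 6310490719) (nat_lit 760) (nat_lit 1270257993) (nat_lit 339) (nat_lit 5) (nat_lit 348) (nat_lit 5) (nat_lit 349) (nat_lit 5) (nat_lit 437) (nat_lit 393) (nat_lit 370))))) (XT.nd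 (nat_lit 234) (nat_lit 2584) (nat_lit 0) (XT.nd (nat_lit 78) (nat_lit 1444) (nat_lit 0) (XT.lf (nat_lit 0) (nat_lit 1309006212) (nat_lit 684) (nat_lit 2043420218) (nat_lit 760) (nat_lit 4836811243) (nat_lit 329) (nat_lit 5) (nat_lit 338) (nat_lit 5) (nat_lit 339) (nat_lit 5) (nat_lit 438) (nat_lit 393) (nat_lit 369)) (XT.nd (nat_lit 78) (nat_lit 760) (nat_lit 0) (XT.lf (nat_lit 0) (nat_lit 2149550418) (nat_lit 684) (nat_lit 5920357532) (nat_lit 760) (nat_lit 220778418) (nat_lit 320) (nat_lit 5) (nat_lit 329) (nat_lit 5) (nat_lit 330) (nat_lit 5) (nat_lit 439) (nat_lit 393) (nat_lit 368)) (XT.lf (nat_lit 0) (nat_lit 3012559832) (nat_lit 684) (nat_lit 1435788412) (nat_lit 760) (nat_lit 3946762960) (nat_lit 310) (nat_lit 5) (nat_lit 319) (nat_lit 5) (nat_lit 320) (nat_lit 5) (nat_lit 440) (nat_lit 393) (nat_lit 367)))) (XT.nd (nat_lit 156) (nat_lit 1292) (nat_lit 0) (XT.nd (nat_lit 78) (nat_lit 608) (nat_lit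 0) (XT.lf (nat_lit 0) (nat_lit 725930473) (nat_lit 684) (nat_lit 4589102909) (nat_lit 76) (nat_lit 3187833663) (nat_lit 301) (nat_lit 5) (nat_lit 310) (nat_lit 5) (nat_lit 302) (nat_lit 5) (nat_lit 441) (nat_lit 393) (nat_lit 366)) (XT.lf (nat_lit 0) (nat_lit 4844186434) (nat_lit 608) (nat_lit 616545733) (nat_lit 684) (nat_lit 3153093315) (nat_lit 293) (nat_lit 5) (nat_lit 301) (nat_lit 5) (nat_lit 302) (nat_lit 5) (nat_lit 442) (nat_lit 393) (nat_lit 365))) (XT.nd (nat_lit 78) (nat_lit 608) (nat_lit 0) (XT.lf (nat_lit 0) (nat_lit 1584201707) (nat_lit 684) (nat_lit 2926509273) (nat_lit 76) (nat_lit 4217278325) (nat_lit 284) (nat_lit 5) (nat_lit 293) (nat_lit 5) (nat_lit 285) (nat_lit 5) (nat_lit 443) (nat_lit 393) (nat_lit 364)) (XT.lf (nat_lit 0) (nat_lit 6398461404) (nat_lit 684) (nat_lit 2049692100) (nat_lit 76) (nat_lit 397456471) (nat_lit 276) (nat_lit 5) (nat_lit 285) (nat_lit 5) (nat_lit 277)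 (nat_lit 5) (nat_lit 444) (nat_lit 393) (nat_lit 363)))))) (XT.nd (nat_lit 546) (nat_lit 3952) (nat_lit 0) (XT.nd (nat_lit 234) (nat_lit 2052) (nat_lit 0) (XT.nd (nat_lit 78) (nat_lit 1748) (nat_lit 0) (XT.lf (nat_lit 0) (nat_lit 2362679647) (nat_lit 608) (nat_lit 1157258511) (nat_lit 76) (nat_lit 5446440233) (nat_lit 268) (nat_lit 5) (nat_lit 276) (nat_lit 5) (nat_lit 269) (nat_lit 5) (nat_lit 445) (nat_lit 393) (nat_lit 362)) (XT.nd (nat_lit 78) (nat_lit 1140) (nat_lit 0) (XT.lf (nat_lit 0) (nat_lit 7269835799) (nat_lit 684) (nat_lit 230467702) (nat_lit 76) (nat_lit 1590419505) (nat_lit 260) (nat_lit 5) (nat_lit 269) (nat_lit 5) (nat_lit 261) (nat_lit 5) (nat_lit 446) (nat_lit 393) (nat_lit 361)) (XT.lf (nat_lit 0) (nat_lit 723213857) (nat_lit 532) (nat_lit 2348016552) (nat_lit 608) (nat_lit 6147035465) (nat_lit 245) (nat_lit 5) (nat_lit 252) (nat_lit 5) (nat_lit 253) (nat_lit 5) (nat_lit 447) (nat_lit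 393) (nat_lit 360)))) (XT.nd (nat_lit 156) (nat_lit 988) (nat_lit 0) (XT.nd (nat_lit 78) (nat_lit 608) (nat_lit 0) (XT.lf (nat_lit 0) (nat_lit 1709776147) (nat_lit 456) (nat_lit 6377240541) (nat_lit 532) (nat_lit 1262346835) (nat_lit 239) (nat_lit 5) (nat_lit 245) (nat_lit 5) (nat_lit 246) (nat_lit 5) (nat_lit 448) (nat_lit 393) (nat_lit 359)) (XT.lf (nat_lit 0) (nat_lit 2717537358) (nat_lit 532) (nat_lit 1000495161) (nat_lit 608) (nat_lit 5765902582) (nat_lit 231) (nat_lit 5) (nat_lit 238) (nat_lit 5) (nat_lit 239) (nat_lit 5) (nat_lit 449) (nat_lit 393) (nat_lit 358))) (XT.nd (nat_lit 78) (nat_lit 532) (nat_lit 0) (XT.lf (nat_lit 0) (nat_lit 3748579846) (nat_lit 456) (nat_lit 5097000410) (nat_lit 532) (nat_lit 776500475) (nat_lit 225) (nat_lit 5) (nat_lit 231) (nat_lit 5) (nat_lit 232) (nat_lit 5) (nat_lit 450) (nat_lit 393) (nat_lit 357)) (XT.lf (nat_lit 0) (nat_lit 4302830111) (nat_lit 532) (nat_lit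 4961177428) (nat_lit 76) (nat_lit 499849286) (nat_lit 218) (nat_lit 5) (nat_lit 225) (nat_lit 5) (nat_lit 219) (nat_lit 5) (nat_lit 451) (nat_lit 393) (nat_lit 356))))) (XT.nd (nat_lit 312) (nat_lit 2052) (nat_lit 0) (XT.nd (nat_lit 156) (nat_lit 912) (nat_lit 0) (XT.nd (nat_lit 78) (nat_lit 532) (nat_lit 0) (XT.lf (nat_lit 0) (nat_lit 5878759925) (nat_lit 456) (nat_lit 3669265454) (nat_lit 532) (nat_lit 361279270) (nat_lit 212) (nat_lit 5) (nat_lit 218) (nat_lit 5) (nat_lit 219) (nat_lit 5) (nat_lit 452) (nat_lit 393) (nat_lit 355)) (XT.lf (nat_lit 0) (nat_lit 4833384940) (nat_lit 532) (nat_lit 3088030051) (nat_lit 76) (nat_lit 2136945913) (nat_lit 205) (nat_lit 5) (nat_lit 212) (nat_lit 5) (nat_lit 206) (nat_lit 5) (nat_lit 453) (nat_lit 393) (nat_lit 354))) (XT.nd (nat_lit 78) (nat_lit 532) (nat_lit 0) (XT.lf (nat_lit 0) (nat_lit 8096433580) (nat_lit 380) (nat_lit 2101455909) (nat_lit 456) (nat_lit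 13575072) (nat_lit 200) (nat_lit 5) (nat_lit 205) (nat_lit 5) (nat_lit 206) (nat_lit 5) (nat_lit 454) (nat_lit 393) (nat_lit 353)) (XT.lf (nat_lit 0) (nat_lit 5306241471) (nat_lit 532) (nat_lit 1144673512) (nat_lit 76) (nat_lit 3917106772) (nat_lit 193) (nat_lit 5) (nat_lit 200) (nat_lit 5) (nat_lit 194) (nat_lit 5) (nat_lit 455) (nat_lit 393) (nat_lit 352)))) (XT.nd (nat_lit 156) (nat_lit 836) (nat_lit 0) (XT.nd (nat_lit 78) (nat_lit 760) (nat_lit 0) (XT.lf (nat_lit 0) (nat_lit 265697572) (nat_lit 456) (nat_lit 132861898) (nat_lit 76) (nat_lit 10130425360) (nat_lit 187) (nat_lit 5) (nat_lit 193) (nat_lit 5) (nat_lit 188) (nat_lit 5) (nat_lit 456) (nat_lit 393) (nat_lit 351)) (XT.lf (nat_lit 0) (nat_lit 876303316) (nat_lit 380) (nat_lit 4853361351) (nat_lit 456) (nat_lit 4963535724) (nat_lit 177) (nat_lit 5) (nat_lit 182) (nat_lit 5) (nat_lit 183) (nat_lit 5) (nat_lit 457) (nat_lit 393) (nat_lit 350)))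 (XT.nd (nat_lit 78) (nat_lit 380) (nat_lit 0) (XT.lf (nat_lit 0) (nat_lit 504818731) (nat_lit 456) (nat_lit 8932101631) (nat_lit 76) (nat_lit 1425037034) (nat_lit 171) (nat_lit 5) (nat_lit 177) (nat_lit 5) (nat_lit 172) (nat_lit 5) (nat_lit 458) (nat_lit 393) (nat_lit 349)) (XT.lf (nat_lit 0) (nat_lit 2975444568) (nat_lit 380) (nat_lit 3132580692) (nat_lit 456) (nat_lit 4926332284) (nat_lit 166) (nat_lit 5) (nat_lit 171) (nat_lit 5) (nat_lit 172) (nat_lit 5) (nat_lit 459) (nat_lit 393) (nat_lit 348))))))))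
noncomputable def xc25 : XT := (XT.nd (nat_lit 58734) (nat_lit 0) (nat_lit 19228) (XT.nd (nat_lit 1092) (nat_lit 3800) (nat_lit 0) (XT.nd (nat_lit 546) (nat_lit 2508) (nat_lit 0) (XT.nd (nat_lit 234) (nat_lit 1444) (nat_lit 0) (XT.nd (nat_lit 78) (nat_lit 760) (nat_lit 0) (XT.lf (nat_lit 0) (nat_lit 688298881) (nat_lit 456) (nat_lit 7158793440) (nat_lit 76) (nat_lit 3364158919) (nat_lit 160) (nat_lit 5) (nat_lit 166) (nat_lit 5) (nat_lit 161) (nat_lit 5) (nat_lit 460) (nat_lit 393) (nat_lit 347)) (XT.nd (nat_lit 78) (nat_lit 456) (nat_lit 0) (XT.lf (nat_lit 0) (nat_lit 5133513584) (nat_lit 304) (nat_lit 1301925844) (nat_lit 380) (nat_lit 4956742297) (nat_lit 156) (nat_lit 5) (nat_lit 160) (nat_lit 5) (nat_lit 161) (nat_lit 5) (nat_lit 461) (nat_lit 393) (nat_lit 346)) (XT.lf (nat_lit 0) (nat_lit 813793950) (nat_lit 456) (nat_lit 5345681888) (nat_lit 76) (nat_lit 5418014180) (nat_lit 150) (nat_lit 5)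 (nat_lit 156) (nat_lit 5) (nat_lit 151) (nat_lit 5) (nat_lit 462) (nat_lit 393) (nat_lit 345)))) (XT.nd (nat_lit 156) (nat_lit 684) (nat_lit 0) (XT.nd (nat_lit 78) (nat_lit 456) (nat_lit 0) (XT.lf (nat_lit 0) (nat_lit 6717221779) (nat_lit 380) (nat_lit 4424894539) (nat_lit 76) (nat_lit 625044744) (nat_lit 146) (nat_lit 5) (nat_lit 151) (nat_lit 5) (nat_lit 147) (nat_lit 5) (nat_lit 463) (nat_lit 393) (nat_lit 344)) (XT.lf (nat_lit 0) (nat_lit 881971176) (nat_lit 456) (nat_lit 3497422531) (nat_lit 76) (nat_lit 7581867260) (nat_lit 140) (nat_lit 5) (nat_lit 146) (nat_lit 5) (nat_lit 141) (nat_lit 5) (nat_lit 464) (nat_lit 393) (nat_lit 343))) (XT.nd (nat_lit 78) (nat_lit 380) (nat_lit 0) (XT.lf (nat_lit 0) (nat_lit 6959118295) (nat_lit 380) (nat_lit 2567314966) (nat_lit 76) (nat_lit 2633366302) (nat_lit 136) (nat_lit 5) (nat_lit 141) (nat_lit 5) (nat_lit 137) (nat_lit 5) (nat_lit 465) (nat_lit 393) (nat_lit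 342)) (XT.lf (nat_lit 0) (nat_lit 893038688) (nat_lit 380) (nat_lit 1618814660) (nat_lit 76) (nat_lit 9851331900) (nat_lit 131) (nat_lit 5) (nat_lit 136) (nat_lit 5) (nat_lit 132) (nat_lit 5) (nat_lit 466) (nat_lit 393) (nat_lit 341))))) (XT.nd (nat_lit 234) (nat_lit 1216) (nat_lit 0) (XT.nd (nat_lit 78) (nat_lit 988) (nat_lit 0) (XT.lf (nat_lit 0) (nat_lit 7152955083) (nat_lit 380) (nat_lit 682355584) (nat_lit 76) (nat_lit 4735594452) (nat_lit 127) (nat_lit 5) (nat_lit 132) (nat_lit 5) (nat_lit 128) (nat_lit 5) (nat_lit 467) (nat_lit 393) (nat_lit 340)) (XT.nd (nat_lit 78) (nat_lit 304) (nat_lit 0) (XT.lf (nat_lit 0) (nat_lit 288926866) (nat_lit 304) (nat_lit 559688083) (nat_lit 380) (nat_lit 11935266591) (nat_lit 118) (nat_lit 5) (nat_lit 122) (nat_lit 5) (nat_lit 123) (nat_lit 5) (nat_lit 468) (nat_lit 393) (nat_lit 339)) (XT.lf (nat_lit 0) (nat_lit 1241143195) (nat_lit 304) (nat_lit 6065471560)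 (nat_lit 380) (nat_lit 5694376221) (nat_lit 114) (nat_lit 5) (nat_lit 118) (nat_lit 5) (nat_lit 119) (nat_lit 5) (nat_lit 469) (nat_lit 393) (nat_lit 338)))) (XT.nd (nat_lit 156) (nat_lit 608) (nat_lit 0) (XT.nd (nat_lit 78) (nat_lit 304) (nat_lit 0) (XT.lf (nat_lit 0) (nat_lit 766492794) (nat_lit 304) (nat_lit 10994965047) (nat_lit 76) (nat_lit 1462213934) (nat_lit 110) (nat_lit 5) (nat_lit 114) (nat_lit 5) (nat_lit 111) (nat_lit 5) (nat_lit 470) (nat_lit 393) (nat_lit 337)) (XT.lf (nat_lit 0) (nat_lit 3190771713) (nat_lit 304) (nat_lit 4225224954) (nat_lit 380) (nat_lit 6034840911) (nat_lit 106) (nat_lit 5) (nat_lit 110) (nat_lit 5) (nat_lit 111) (nat_lit 5) (nat_lit 471) (nat_lit 393) (nat_lit 336))) (XT.nd (nat_lit 78) (nat_lit 304) (nat_lit 0) (XT.lf (nat_lit 0) (nat_lit 629255754) (nat_lit 304) (nat_lit 9504668163) (nat_lit 76) (nat_lit 3549685947) (nat_lit 102) (nat_lit 5) (nat_lit 106) (nat_lit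 5) (nat_lit 103) (nat_lit 5) (nat_lit 472) (nat_lit 393) (nat_lit 335)) (XT.lf (nat_lit 0) (nat_lit 5151584644) (nat_lit 304) (nat_lit 2323864252) (nat_lit 380) (nat_lit 6445836124) (nat_lit 98) (nat_lit 5) (nat_lit 102) (nat_lit 5) (nat_lit 103) (nat_lit 5) (nat_lit 473) (nat_lit 393) (nat_lit 334)))))) (XT.nd (nat_lit 546) (nat_lit 1976) (nat_lit 0) (XT.nd (nat_lit 234) (nat_lit 988) (nat_lit 0) (XT.nd (nat_lit 78) (nat_lit 532) (nat_lit 0) (XT.lf (nat_lit 0) (nat_lit 431470885) (nat_lit 304) (nat_lit 8027275396) (nat_lit 76) (nat_lit 5705792669) (nat_lit 94) (nat_lit 5) (nat_lit 98) (nat_lit 5) (nat_lit 95) (nat_lit 5) (nat_lit 474) (nat_lit 393) (nat_lit 333)) (XT.nd (nat_lit 78) (nat_lit 304) (nat_lit 0) (XT.lf (nat_lit 0) (nat_lit 7117246577) (nat_lit 228) (nat_lit 366056921) (nat_lit 304) (nat_lit 6929819977) (nat_lit 91) (nat_lit 5) (nat_lit 94) (nat_lit 5) (nat_lit 95) (nat_lit 5) (nat_lit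 475) (nat_lit 393) (nat_lit 332)) (XT.lf (nat_lit 0) (nat_lit 170805400) (nat_lit 304) (nat_lit 6570169801) (nat_lit 76) (nat_lit 7926295014) (nat_lit 87) (nat_lit 5) (nat_lit 91) (nat_lit 5) (nat_lit 88) (nat_lit 5) (nat_lit 476) (nat_lit 393) (nat_lit 331)))) (XT.nd (nat_lit 156) (nat_lit 532) (nat_lit 0) (XT.nd (nat_lit 78) (nat_lit 228) (nat_lit 0) (XT.lf (nat_lit 0) (nat_lit 7448033266) (nat_lit 304) (nat_lit 5856974354) (nat_lit 76) (nat_lit 1621963618) (nat_lit 84) (nat_lit 5) (nat_lit 88) (nat_lit 5) (nat_lit 85) (nat_lit 5) (nat_lit 477) (nat_lit 393) (nat_lit 330)) (XT.lf (nat_lit 0) (nat_lit 10050253216) (nat_lit 228) (nat_lit 4984680030) (nat_lit 304) (nat_lit 157703582) (nat_lit 81) (nat_lit 5) (nat_lit 84) (nat_lit 5) (nat_lit 85) (nat_lit 5) (nat_lit 478) (nat_lit 393) (nat_lit 329))) (XT.nd (nat_lit 78) (nat_lit 228) (nat_lit 0) (XT.lf (nat_lit 0) (nat_lit 7358891648) (nat_lit 304) (nat_lit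 4453385768) (nat_lit 76) (nat_lit 3651585743) (nat_lit 77) (nat_lit 5) (nat_lit 81) (nat_lit 5) (nat_lit 78) (nat_lit 5) (nat_lit 479) (nat_lit 393) (nat_lit 328)) (XT.lf (nat_lit 0) (nat_lit 11988325140) (nat_lit 228) (nat_lit 3194533031) (nat_lit 304) (nat_lit 558667533) (nat_lit 74) (nat_lit 5) (nat_lit 77) (nat_lit 5) (nat_lit 78) (nat_lit 5) (nat_lit 480) (nat_lit 393) (nat_lit 327))))) (XT.nd (nat_lit 312) (nat_lit 1064) (nat_lit 0) (XT.nd (nat_lit 156) (nat_lit 456) (nat_lit 0) (XT.nd (nat_lit 78) (nat_lit 152) (nat_lit 0) (XT.lf (nat_lit 0) (nat_lit 7210118196) (nat_lit 304) (nat_lit 3091857317) (nat_lit 76) (nat_lit 5722792293) (nat_lit 70) (nat_lit 5) (nat_lit 74) (nat_lit 5) (nat_lit 71) (nat_lit 5) (nat_lit 481) (nat_lit 393) (nat_lit 326)) (XT.lf (nat_lit 0) (nat_lit 13903828216) (nat_lit 152) (nat_lit 1377081173) (nat_lit 228) (nat_lit 1033993834) (nat_lit 68) (nat_lit 5) (nat_lit 70)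 (nat_lit 5) (nat_lit 71) (nat_lit 5) (nat_lit 482) (nat_lit 393) (nat_lit 325))) (XT.nd (nat_lit 78) (nat_lit 152) (nat_lit 0) (XT.lf (nat_lit 0) (nat_lit 6997693376) (nat_lit 304) (nat_lit 1782390823) (nat_lit 76) (nat_lit 7830569503) (nat_lit 64) (nat_lit 5) (nat_lit 68) (nat_lit 5) (nat_lit 65) (nat_lit 5) (nat_lit 483) (nat_lit 393) (nat_lit 324)) (XT.lf (nat_lit 0) (nat_lit 15328215665) (nat_lit 228) (nat_lit 1129523835) (nat_lit 76) (nat_lit 455962360) (nat_lit 62) (nat_lit 5) (nat_lit 65) (nat_lit 5) (nat_lit 63) (nat_lit 5) (nat_lit 484) (nat_lit 393) (nat_lit 323)))) (XT.nd (nat_lit 156) (nat_lit 380) (nat_lit 0) (XT.nd (nat_lit 78) (nat_lit 380) (nat_lit 0) (XT.lf (nat_lit 0) (nat_lit 6716915448) (nat_lit 304) (nat_lit 535983865) (nat_lit 76) (nat_lit 9969639853) (nat_lit 58) (nat_lit 5) (nat_lit 62) (nat_lit 5) (nat_lit 59) (nat_lit 5) (nat_lit 485) (nat_lit 393) (nat_lit 322)) (XT.lf (nat_lit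 0) (nat_lit 74812556) (nat_lit 228) (nat_lit 15251936051) (nat_lit 304) (nat_lit 2212085850) (nat_lit 53) (nat_lit 5) (nat_lit 56) (nat_lit 5) (nat_lit 57) (nat_lit 5) (nat_lit 486) (nat_lit 393) (nat_lit 321))) (XT.nd (nat_lit 78) (nat_lit 152) (nat_lit 0) (XT.lf (nat_lit 0) (nat_lit 643684664) (nat_lit 152) (nat_lit 5722842209) (nat_lit 228) (nat_lit 11494884351) (nat_lit 50) (nat_lit 5) (nat_lit 52) (nat_lit 5) (nat_lit 53) (nat_lit 5) (nat_lit 487) (nat_lit 393) (nat_lit 320)) (XT.lf (nat_lit 0) (nat_lit 1211082486) (nat_lit 152) (nat_lit 14057551182) (nat_lit 228) (nat_lit 2922815835) (nat_lit 48) (nat_lit 5) (nat_lit 50) (nat_lit 5) (nat_lit 51) (nat_lit 5) (nat_lit 488) (nat_lit 393) (nat_lit 319))))))) (XT.nd (nat_lit 1170) (nat_lit 13452) (nat_lit 0) (XT.nd (nat_lit 546) (nat_lit 14060) (nat_lit 0) (XT.nd (nat_lit 234) (nat_lit 4332) (nat_lit 0) (XT.nd (nat_lit 78) (nat_lit 912) (nat_lit 0)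 (XT.lf (nat_lit 0) (nat_lit 167180646) (nat_lit 836) (nat_lit 2963017248) (nat_lit 0) (nat_lit 167180646) (nat_lit 732) (nat_lit 5) (nat_lit 743) (nat_lit 4) (nat_lit 732) (nat_lit 4) (nat_lit 412) (nat_lit 394) (nat_lit 394)) (XT.nd (nat_lit 78) (nat_lit 76) (nat_lit 0) (XT.lf (nat_lit 0) (nat_lit 278886820) (nat_lit 836) (nat_lit 4945147868) (nat_lit 836) (nat_lit 1397454221) (nat_lit 721) (nat_lit 4) (nat_lit 732) (nat_lit 5) (nat_lit 732) (nat_lit 4) (nat_lit 413) (nat_lit 394) (nat_lit 393)) (XT.lf (nat_lit 0) (nat_lit 3437661071) (nat_lit 912) (nat_lit 47981046) (nat_lit 76) (nat_lit 3165446890) (nat_lit 720) (nat_lit 5) (nat_lit 732) (nat_lit 5) (nat_lit 721) (nat_lit 4) (nat_lit 414) (nat_lit 394) (nat_lit 392)))) (XT.nd (nat_lit 156) (nat_lit 2356) (nat_lit 0) (XT.nd (nat_lit 78) (nat_lit 988) (nat_lit 0) (XT.lf (nat_lit 0) (nat_lit 1573779604) (nat_lit 988) (nat_lit 307685873) (nat_lit 76)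 (nat_lit 4802134669) (nat_lit 707) (nat_lit 5) (nat_lit 720) (nat_lit 5) (nat_lit 708) (nat_lit 5) (nat_lit 415) (nat_lit 394) (nat_lit 391)) (XT.lf (nat_lit 0) (nat_lit 6212553349) (nat_lit 988) (nat_lit 130262206) (nat_lit 1064) (nat_lit 376216472) (nat_lit 694) (nat_lit 5) (nat_lit 707) (nat_lit 5) (nat_lit 708) (nat_lit 5) (nat_lit 416) (nat_lit 394) (nat_lit 390))) (XT.nd (nat_lit 78) (nat_lit 1216) (nat_lit 0) (XT.lf (nat_lit 0) (nat_lit 4337430516) (nat_lit 1140) (nat_lit 664443945) (nat_lit 76) (nat_lit 1755134497) (nat_lit 679) (nat_lit 5) (nat_lit 694) (nat_lit 5) (nat_lit 680) (nat_lit 5) (nat_lit 417) (nat_lit 394) (nat_lit 389)) (XT.lf (nat_lit 0) (nat_lit 2250584499) (nat_lit 1216) (nat_lit 761515357) (nat_lit 76) (nat_lit 3785859060) (nat_lit 663) (nat_lit 5) (nat_lit 679) (nat_lit 5) (nat_lit 664) (nat_lit 5) (nat_lit 418) (nat_lit 394) (nat_lit 388))))) (XT.nd (nat_lit 312) (nat_lit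 8588) (nat_lit 0) (XT.nd (nat_lit 156) (nat_lit 2888) (nat_lit 0) (XT.nd (nat_lit 78) (nat_lit 1292) (nat_lit 0) (XT.lf (nat_lit 0) (nat_lit 79333972) (nat_lit 1292) (nat_lit 796811433) (nat_lit 76) (nat_lit 5965781452) (nat_lit 646) (nat_lit 5) (nat_lit 663) (nat_lit 5) (nat_lit 647) (nat_lit 5) (nat_lit 419) (nat_lit 394) (nat_lit 387)) (XT.lf (nat_lit 0) (nat_lit 4690440193) (nat_lit 1368) (nat_lit 793796416) (nat_lit 76) (nat_lit 1404234895) (nat_lit 629) (nat_lit 5) (nat_lit 647) (nat_lit 5) (nat_lit 630) (nat_lit 5) (nat_lit 420) (nat_lit 394) (nat_lit 386))) (XT.nd (nat_lit 78) (nat_lit 1444) (nat_lit 0) (XT.lf (nat_lit 0) (nat_lit 2378263287) (nat_lit 1444) (nat_lit 736504311) (nat_lit 76) (nat_lit 3823173294) (nat_lit 610) (nat_lit 5) (nat_lit 629) (nat_lit 5) (nat_lit 611) (nat_lit 5) (nat_lit 421) (nat_lit 394) (nat_lit 385)) (XT.lf (nat_lit 0) (nat_lit 6371839329) (nat_lit 1444) (nat_lit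 596121961) (nat_lit 1520) (nat_lit 22528847) (nat_lit 591) (nat_lit 5) (nat_lit 610) (nat_lit 5) (nat_lit 611) (nat_lit 5) (nat_lit 422) (nat_lit 394) (nat_lit 384)))) (XT.nd (nat_lit 156) (nat_lit 5320) (nat_lit 0) (XT.nd (nat_lit 78) (nat_lit 1672) (nat_lit 0) (XT.lf (nat_lit 0) (nat_lit 4512531954) (nat_lit 1596) (nat_lit 469620884) (nat_lit 76) (nat_lit 2063408868) (nat_lit 570) (nat_lit 5) (nat_lit 591) (nat_lit 5) (nat_lit 571) (nat_lit 5) (nat_lit 423) (nat_lit 394) (nat_lit 383)) (XT.lf (nat_lit 0) (nat_lit 1970629475) (nat_lit 1672) (nat_lit 264729348) (nat_lit 76) (nat_lit 4868321397) (nat_lit 548) (nat_lit 5) (nat_lit 570) (nat_lit 5) (nat_lit 549) (nat_lit 5) (nat_lit 424) (nat_lit 394) (nat_lit 382))) (XT.nd (nat_lit 78) (nat_lit 3648) (nat_lit 0) (XT.lf (nat_lit 0) (nat_lit 6496195879) (nat_lit 1748) (nat_lit 8425218) (nat_lit 76) (nat_lit 660167288) (nat_lit 526) (nat_lit 5) (nat_lit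 549) (nat_lit 5) (nat_lit 527) (nat_lit 5) (nat_lit 425) (nat_lit 394) (nat_lit 381)) (XT.lf (nat_lit 0) (nat_lit 282969001) (nat_lit 1824) (nat_lit 3532449434) (nat_lit 1900) (nat_lit 3413062820) (nat_lit 478) (nat_lit 5) (nat_lit 502) (nat_lit 5) (nat_lit 503) (nat_lit 5) (nat_lit 426) (nat_lit 394) (nat_lit 380)))))) (XT.nd (nat_lit 546) (nat_lit 6764) (nat_lit 0) (XT.nd (nat_lit 234) (nat_lit 3572) (nat_lit 0) (XT.nd (nat_lit 78) (nat_lit 1900) (nat_lit 0) (XT.lf (nat_lit 0) (nat_lit 634704473) (nat_lit 1140) (nat_lit 404995631) (nat_lit 1216) (nat_lit 6255681035) (nat_lit 462) (nat_lit 5) (nat_lit 477) (nat_lit 5) (nat_lit 478) (nat_lit 5) (nat_lit 427) (nat_lit 394) (nat_lit 379)) (XT.nd (nat_lit 78) (nat_lit 988) (nat_lit 0) (XT.lf (nat_lit 0) (nat_lit 1015983659) (nat_lit 912) (nat_lit 4509682407) (nat_lit 988) (nat_lit 1839255504) (nat_lit 450) (nat_lit 5) (nat_lit 462) (nat_lit 5) (nat_lit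 463) (nat_lit 5) (nat_lit 428) (nat_lit 394) (nat_lit 378)) (XT.lf (nat_lit 0) (nat_lit 1447330318) (nat_lit 912) (nat_lit 1159833422) (nat_lit 988) (nat_lit 4830376187) (nat_lit 437) (nat_lit 5) (nat_lit 449) (nat_lit 5) (nat_lit 450) (nat_lit 5) (nat_lit 429) (nat_lit 394) (nat_lit 377)))) (XT.nd (nat_lit 156) (nat_lit 1748) (nat_lit 0) (XT.nd (nat_lit 78) (nat_lit 988) (nat_lit 0) (XT.lf (nat_lit 0) (nat_lit 1920829238) (nat_lit 836) (nat_lit 5190211922) (nat_lit 912) (nat_lit 402075664) (nat_lit 426) (nat_lit 5) (nat_lit 437) (nat_lit 5) (nat_lit 438) (nat_lit 5) (nat_lit 430) (nat_lit 394) (nat_lit 376)) (XT.lf (nat_lit 0) (nat_lit 2428555339) (nat_lit 912) (nat_lit 1620541609) (nat_lit 988) (nat_lit 3542436626) (nat_lit 413) (nat_lit 5) (nat_lit 425) (nat_lit 5) (nat_lit 426) (nat_lit 5) (nat_lit 431) (nat_lit 394) (nat_lit 375))) (XT.nd (nat_lit 78) (nat_lit 836) (nat_lit 0) (XT.lf (nat_lit 0)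 (nat_lit 896957222) (nat_lit 912) (nat_lit 4690645487) (nat_lit 76) (nat_lit 2085458550) (nat_lit 401) (nat_lit 5) (nat_lit 413) (nat_lit 5) (nat_lit 402) (nat_lit 5) (nat_lit 432) (nat_lit 394) (nat_lit 374)) (XT.lf (nat_lit 0) (nat_lit 3569633861) (nat_lit 836) (nat_lit 1805885015) (nat_lit 912) (nat_lit 2381969022) (nat_lit 390) (nat_lit 5) (nat_lit 401) (nat_lit 5) (nat_lit 402) (nat_lit 5) (nat_lit 433) (nat_lit 394) (nat_lit 373))))) (XT.nd (nat_lit 312) (nat_lit 3572) (nat_lit 0) (XT.nd (nat_lit 156) (nat_lit 1596) (nat_lit 0) (XT.nd (nat_lit 78) (nat_lit 760) (nat_lit 0) (XT.lf (nat_lit 0) (nat_lit 2075555670) (nat_lit 836) (nat_lit 3648353987) (nat_lit 76) (nat_lit 2121069116) (nat_lit 379) (nat_lit 5) (nat_lit 390) (nat_lit 5) (nat_lit 380) (nat_lit 5) (nat_lit 434) (nat_lit 394) (nat_lit 372)) (XT.lf (nat_lit 0) (nat_lit 4862616877) (nat_lit 760) (nat_lit 1733011548) (nat_lit 836) (nat_lit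 1339930806) (nat_lit 369) (nat_lit 5) (nat_lit 379) (nat_lit 5) (nat_lit 380) (nat_lit 5) (nat_lit 435) (nat_lit 394) (nat_lit 371))) (XT.nd (nat_lit 78) (nat_lit 760) (nat_lit 0) (XT.lf (nat_lit 0) (nat_lit 3147606554) (nat_lit 836) (nat_lit 2470525012) (nat_lit 76) (nat_lit 2410961887) (nat_lit 358) (nat_lit 5) (nat_lit 369) (nat_lit 5) (nat_lit 359) (nat_lit 5) (nat_lit 436) (nat_lit 394) (nat_lit 370)) (XT.lf (nat_lit 0) (nat_lit 6300284933) (nat_lit 760) (nat_lit 1417574503) (nat_lit 836) (nat_lit 408074420) (nat_lit 348) (nat_lit 5) (nat_lit 358) (nat_lit 5) (nat_lit 359) (nat_lit 5) (nat_lit 437) (nat_lit 394) (nat_lit 369)))) (XT.nd (nat_lit 156) (nat_lit 2052) (nat_lit 0) (XT.nd (nat_lit 78) (nat_lit 760) (nat_lit 0) (XT.lf (nat_lit 0) (nat_lit 4120978962) (nat_lit 760) (nat_lit 1164215523) (nat_lit 76) (nat_lit 2940412353) (nat_lit 338) (nat_lit 5) (nat_lit 348) (nat_lit 5) (nat_lit 339) (nat_lit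 5) (nat_lit 438) (nat_lit 394) (nat_lit 368)) (XT.lf (nat_lit 0) (nat_lit 415580451) (nat_lit 760) (nat_lit 455476850) (nat_lit 76) (nat_lit 7457715586) (nat_lit 328) (nat_lit 5) (nat_lit 338) (nat_lit 5) (nat_lit 329) (nat_lit 5) (nat_lit 439) (nat_lit 394) (nat_lit 367))) (XT.nd (nat_lit 78) (nat_lit 684) (nat_lit 0) (XT.lf (nat_lit 0) (nat_lit 267632039) (nat_lit 684) (nat_lit 4736950390) (nat_lit 760) (nat_lit 3430132579) (nat_lit 310) (nat_lit 5) (nat_lit 319) (nat_lit 5) (nat_lit 320) (nat_lit 5) (nat_lit 440) (nat_lit 394) (nat_lit 366)) (XT.lf (nat_lit 0) (nat_lit 1045804883) (nat_lit 608) (nat_lit 100251811) (nat_lit 684) (nat_lit 7398142945) (nat_lit 301) (nat_lit 5) (nat_lit 309) (nat_lit 5) (nat_lit 310) (nat_lit 5) (nat_lit 441) (nat_lit 394) (nat_lit 365))))))))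
noncomputable def xc26 : XT := (XT.nd (nat_lit 2262) (nat_lit 4864) (nat_lit 0) (XT.nd (nat_lit 1092) (nat_lit 6004) (nat_lit 0) (XT.nd (nat_lit 546) (nat_lit 3952) (nat_lit 0) (XT.nd (nat_lit 234) (nat_lit 2356) (nat_lit 0) (XT.nd (nat_lit 78) (nat_lit 1292) (nat_lit 0) (XT.lf (nat_lit 0) (nat_lit 1832616610) (nat_lit 608) (nat_lit 3979003380) (nat_lit 684) (nat_lit 2844924123) (nat_lit 293) (nat_lit 5) (nat_lit 301) (nat_lit 5) (nat_lit 302) (nat_lit 5) (nat_lit 442) (nat_lit 394) (nat_lit 364)) (XT.nd (nat_lit 78) (nat_lit 608) (nat_lit 0) (XT.lf (nat_lit 0) (nat_lit 1797427225) (nat_lit 684) (nat_lit 6109306248) (nat_lit 76) (nat_lit 865753693) (nat_lit 284) (nat_lit 5) (nat_lit 293) (nat_lit 5) (nat_lit 285) (nat_lit 5) (nat_lit 443) (nat_lit 394) (nat_lit 363)) (XT.lf (nat_lit 0) (nat_lit 3509779365) (nat_lit 608) (nat_lit 3030518635) (nat_lit 684) (nat_lit 2351238787) (nat_lit 276) (nat_lit 5)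 (nat_lit 284) (nat_lit 5) (nat_lit 285) (nat_lit 5) (nat_lit 444) (nat_lit 394) (nat_lit 362)))) (XT.nd (nat_lit 156) (nat_lit 1140) (nat_lit 0) (XT.nd (nat_lit 78) (nat_lit 608) (nat_lit 0) (XT.lf (nat_lit 0) (nat_lit 2368322825) (nat_lit 608) (nat_lit 4624919387) (nat_lit 76) (nat_lit 2020831827) (nat_lit 268) (nat_lit 5) (nat_lit 276) (nat_lit 5) (nat_lit 269) (nat_lit 5) (nat_lit 445) (nat_lit 394) (nat_lit 361)) (XT.lf (nat_lit 0) (nat_lit 5294076791) (nat_lit 608) (nat_lit 1901826350) (nat_lit 684) (nat_lit 1944108114) (nat_lit 260) (nat_lit 5) (nat_lit 268) (nat_lit 5) (nat_lit 269) (nat_lit 5) (nat_lit 446) (nat_lit 394) (nat_lit 360))) (XT.nd (nat_lit 78) (nat_lit 532) (nat_lit 0) (XT.lf (nat_lit 0) (nat_lit 2862871714) (nat_lit 608) (nat_lit 3049741013) (nat_lit 76) (nat_lit 3356693505) (nat_lit 252) (nat_lit 5) (nat_lit 260) (nat_lit 5) (nat_lit 253) (nat_lit 5) (nat_lit 447) (nat_lit 394)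 (nat_lit 359)) (XT.lf (nat_lit 0) (nat_lit 7180856641) (nat_lit 532) (nat_lit 602316435) (nat_lit 608) (nat_lit 1619141505) (nat_lit 245) (nat_lit 5) (nat_lit 252) (nat_lit 5) (nat_lit 253) (nat_lit 5) (nat_lit 448) (nat_lit 394) (nat_lit 358))))) (XT.nd (nat_lit 234) (nat_lit 1900) (nat_lit 0) (XT.nd (nat_lit 78) (nat_lit 1520) (nat_lit 0) (XT.lf (nat_lit 0) (nat_lit 3285309735) (nat_lit 532) (nat_lit 1388593240) (nat_lit 76) (nat_lit 4864642618) (nat_lit 238) (nat_lit 5) (nat_lit 245) (nat_lit 5) (nat_lit 239) (nat_lit 5) (nat_lit 449) (nat_lit 394) (nat_lit 357)) (XT.nd (nat_lit 78) (nat_lit 988) (nat_lit 0) (XT.lf (nat_lit 0) (nat_lit 8311902993) (nat_lit 608) (nat_lit 518596113) (nat_lit 76) (nat_lit 848212131) (nat_lit 231) (nat_lit 5) (nat_lit 239) (nat_lit 5) (nat_lit 232) (nat_lit 5) (nat_lit 450) (nat_lit 394) (nat_lit 356)) (XT.lf (nat_lit 0) (nat_lit 358691375) (nat_lit 456) (nat_lit 3282990796)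 (nat_lit 532) (nat_lit 6180454338) (nat_lit 218) (nat_lit 5) (nat_lit 224) (nat_lit 5) (nat_lit 225) (nat_lit 5) (nat_lit 451) (nat_lit 394) (nat_lit 355)))) (XT.nd (nat_lit 156) (nat_lit 912) (nat_lit 0) (XT.nd (nat_lit 78) (nat_lit 532) (nat_lit 0) (XT.lf (nat_lit 0) (nat_lit 1275620563) (nat_lit 456) (nat_lit 7517802863) (nat_lit 532) (nat_lit 1176030843) (nat_lit 212) (nat_lit 5) (nat_lit 218) (nat_lit 5) (nat_lit 219) (nat_lit 5) (nat_lit 452) (nat_lit 394) (nat_lit 354)) (XT.lf (nat_lit 0) (nat_lit 2202585921) (nat_lit 456) (nat_lit 1739934414) (nat_lit 532) (nat_lit 6177832773) (nat_lit 205) (nat_lit 5) (nat_lit 211) (nat_lit 5) (nat_lit 212) (nat_lit 5) (nat_lit 453) (nat_lit 394) (nat_lit 353))) (XT.nd (nat_lit 78) (nat_lit 532) (nat_lit 0) (XT.lf (nat_lit 0) (nat_lit 3152083304) (nat_lit 380) (nat_lit 6070547153) (nat_lit 456) (nat_lit 1052514987) (nat_lit 200) (nat_lit 5) (nat_lit 205) (nat_lit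 5) (nat_lit 206) (nat_lit 5) (nat_lit 454) (nat_lit 394) (nat_lit 352)) (XT.lf (nat_lit 0) (nat_lit 4120466828) (nat_lit 456) (nat_lit 60929683) (nat_lit 532) (nat_lit 6252432407) (nat_lit 193) (nat_lit 5) (nat_lit 199) (nat_lit 5) (nat_lit 200) (nat_lit 5) (nat_lit 455) (nat_lit 394) (nat_lit 351)))))) (XT.nd (nat_lit 546) (nat_lit 3192) (nat_lit 0) (XT.nd (nat_lit 234) (nat_lit 1596) (nat_lit 0) (XT.nd (nat_lit 78) (nat_lit 836) (nat_lit 0) (XT.lf (nat_lit 0) (nat_lit 5099835004) (nat_lit 380) (nat_lit 4498977319) (nat_lit 456) (nat_lit 997507182) (nat_lit 188) (nat_lit 5) (nat_lit 193) (nat_lit 5) (nat_lit 194) (nat_lit 5) (nat_lit 456) (nat_lit 394) (nat_lit 350)) (XT.nd (nat_lit 78) (nat_lit 380) (nat_lit 0) (XT.lf (nat_lit 0) (nat_lit 4371897830) (nat_lit 456) (nat_lit 4666090164) (nat_lit 76) (nat_lit 1724830188) (nat_lit 182) (nat_lit 5) (nat_lit 188) (nat_lit 5) (nat_lit 183) (nat_lit 5) (nat_lit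 457) (nat_lit 394) (nat_lit 349)) (XT.lf (nat_lit 0) (nat_lit 7114919958) (nat_lit 380) (nat_lit 2809300220) (nat_lit 456) (nat_lit 1009253391) (nat_lit 177) (nat_lit 5) (nat_lit 182) (nat_lit 5) (nat_lit 183) (nat_lit 5) (nat_lit 458) (nat_lit 394) (nat_lit 348)))) (XT.nd (nat_lit 156) (nat_lit 760) (nat_lit 0) (XT.nd (nat_lit 78) (nat_lit 380) (nat_lit 0) (XT.lf (nat_lit 0) (nat_lit 4505658044) (nat_lit 456) (nat_lit 2970260455) (nat_lit 76) (nat_lit 3632117550) (nat_lit 171) (nat_lit 5) (nat_lit 177) (nat_lit 5) (nat_lit 172) (nat_lit 5) (nat_lit 459) (nat_lit 394) (nat_lit 347)) (XT.lf (nat_lit 0) (nat_lit 9193440957) (nat_lit 380) (nat_lit 1007223416) (nat_lit 456) (nat_lit 1086471685) (nat_lit 166) (nat_lit 5) (nat_lit 171) (nat_lit 5) (nat_lit 172) (nat_lit 5) (nat_lit 460) (nat_lit 394) (nat_lit 346))) (XT.nd (nat_lit 78) (nat_lit 304) (nat_lit 0) (XT.lf (nat_lit 0) (nat_lit 4583576069) (nat_lit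 456) (nat_lit 1229895637) (nat_lit 76) (nat_lit 5656563355) (nat_lit 160) (nat_lit 5) (nat_lit 166) (nat_lit 5) (nat_lit 161) (nat_lit 5) (nat_lit 461) (nat_lit 394) (nat_lit 345)) (XT.lf (nat_lit 0) (nat_lit 10435375467) (nat_lit 380) (nat_lit 332216793) (nat_lit 76) (nat_lit 890158091) (nat_lit 156) (nat_lit 5) (nat_lit 161) (nat_lit 5) (nat_lit 157) (nat_lit 5) (nat_lit 462) (nat_lit 394) (nat_lit 344))))) (XT.nd (nat_lit 312) (nat_lit 1368) (nat_lit 0) (XT.nd (nat_lit 156) (nat_lit 684) (nat_lit 0) (XT.nd (nat_lit 78) (nat_lit 380) (nat_lit 0) (XT.lf (nat_lit 0) (nat_lit 557849350) (nat_lit 304) (nat_lit 4052272139) (nat_lit 380) (nat_lit 7239198445) (nat_lit 146) (nat_lit 5) (nat_lit 150) (nat_lit 5) (nat_lit 151) (nat_lit 5) (nat_lit 463) (nat_lit 394) (nat_lit 343)) (XT.lf (nat_lit 0) (nat_lit 1479404482) (nat_lit 380) (nat_lit 9160840923) (nat_lit 456) (nat_lit 1405445484) (nat_lit 141) (nat_lit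 5) (nat_lit 146) (nat_lit 5) (nat_lit 147) (nat_lit 5) (nat_lit 464) (nat_lit 394) (nat_lit 342))) (XT.nd (nat_lit 78) (nat_lit 304) (nat_lit 0) (XT.lf (nat_lit 0) (nat_lit 2397894421) (nat_lit 304) (nat_lit 2192502587) (nat_lit 380) (nat_lit 7656010231) (nat_lit 136) (nat_lit 5) (nat_lit 140) (nat_lit 5) (nat_lit 141) (nat_lit 5) (nat_lit 465) (nat_lit 394) (nat_lit 341)) (XT.lf (nat_lit 0) (nat_lit 3328513553) (nat_lit 304) (nat_lit 7473489260) (nat_lit 380) (nat_lit 1649857816) (nat_lit 132) (nat_lit 5) (nat_lit 136) (nat_lit 5) (nat_lit 137) (nat_lit 5) (nat_lit 466) (nat_lit 394) (nat_lit 340)))) (XT.nd (nat_lit 156) (nat_lit 684) (nat_lit 0) (XT.nd (nat_lit 78) (nat_lit 304) (nat_lit 0) (XT.lf (nat_lit 0) (nat_lit 4269084635) (nat_lit 304) (nat_lit 247142665) (nat_lit 380) (nat_lit 8145877297) (nat_lit 127) (nat_lit 5) (nat_lit 131) (nat_lit 5) (nat_lit 132) (nat_lit 5) (nat_lit 467) (nat_lit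 394) (nat_lit 339)) (XT.lf (nat_lit 0) (nat_lit 5205790389) (nat_lit 304) (nat_lit 5712672169) (nat_lit 380) (nat_lit 1958504484) (nat_lit 123) (nat_lit 5) (nat_lit 127) (nat_lit 5) (nat_lit 128) (nat_lit 5) (nat_lit 468) (nat_lit 394) (nat_lit 338))) (XT.nd (nat_lit 78) (nat_lit 304) (nat_lit 0) (XT.lf (nat_lit 0) (nat_lit 4398618797) (nat_lit 380) (nat_lit 6942267983) (nat_lit 76) (nat_lit 1755975702) (nat_lit 118) (nat_lit 5) (nat_lit 123) (nat_lit 5) (nat_lit 119) (nat_lit 5) (nat_lit 469) (nat_lit 394) (nat_lit 337)) (XT.lf (nat_lit 0) (nat_lit 7106063446) (nat_lit 304) (nat_lit 3883109557) (nat_lit 380) (nat_lit 2332537208) (nat_lit 114) (nat_lit 5) (nat_lit 118) (nat_lit 5) (nat_lit 119) (nat_lit 5) (nat_lit 470) (nat_lit 394) (nat_lit 336))))))) (XT.nd (nat_lit 1170) (nat_lit 608) (nat_lit 0) (XT.nd (nat_lit 546) (nat_lit 2204) (nat_lit 0) (XT.nd (nat_lit 234) (nat_lit 1140) (nat_lit 0) (XT.nd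 (nat_lit 78) (nat_lit 608) (nat_lit 0) (XT.lf (nat_lit 0) (nat_lit 4227101581) (nat_lit 304) (nat_lit 5492865742) (nat_lit 76) (nat_lit 3831621112) (nat_lit 110) (nat_lit 5) (nat_lit 114) (nat_lit 5) (nat_lit 111) (nat_lit 5) (nat_lit 471) (nat_lit 394) (nat_lit 335)) (XT.nd (nat_lit 78) (nat_lit 304) (nat_lit 0) (XT.lf (nat_lit 0) (nat_lit 9023826688) (nat_lit 304) (nat_lit 1989389766) (nat_lit 380) (nat_lit 2773611441) (nat_lit 106) (nat_lit 5) (nat_lit 110) (nat_lit 5) (nat_lit 111) (nat_lit 5) (nat_lit 472) (nat_lit 394) (nat_lit 334)) (XT.lf (nat_lit 0) (nat_lit 3998532442) (nat_lit 304) (nat_lit 4049646163) (nat_lit 76) (nat_lit 5978893491) (nat_lit 102) (nat_lit 5) (nat_lit 106) (nat_lit 5) (nat_lit 103) (nat_lit 5) (nat_lit 473) (nat_lit 394) (nat_lit 333)))) (XT.nd (nat_lit 156) (nat_lit 532) (nat_lit 0) (XT.nd (nat_lit 78) (nat_lit 304) (nat_lit 0) (XT.lf (nat_lit 0) (nat_lit 10953166919)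 (nat_lit 304) (nat_lit 36024316) (nat_lit 380) (nat_lit 3283905781) (nat_lit 98) (nat_lit 5) (nat_lit 102) (nat_lit 5) (nat_lit 103) (nat_lit 5) (nat_lit 474) (nat_lit 394) (nat_lit 332)) (XT.lf (nat_lit 0) (nat_lit 3710861931) (nat_lit 304) (nat_lit 2619530682) (nat_lit 76) (nat_lit 8193718373) (nat_lit 94) (nat_lit 5) (nat_lit 98) (nat_lit 5) (nat_lit 95) (nat_lit 5) (nat_lit 475) (nat_lit 394) (nat_lit 331))) (XT.nd (nat_lit 78) (nat_lit 304) (nat_lit 0) (XT.lf (nat_lit 0) (nat_lit 10927996267) (nat_lit 304) (nat_lit 1906456298) (nat_lit 76) (nat_lit 1946626570) (nat_lit 91) (nat_lit 5) (nat_lit 95) (nat_lit 5) (nat_lit 92) (nat_lit 5) (nat_lit 476) (nat_lit 394) (nat_lit 330)) (XT.lf (nat_lit 0) (nat_lit 3361504509) (nat_lit 304) (nat_lit 1210007072) (nat_lit 76) (nat_lit 10472032716) (nat_lit 87) (nat_lit 5) (nat_lit 91) (nat_lit 5) (nat_lit 88) (nat_lit 5) (nat_lit 477) (nat_lit 394) (nat_lit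 329))))) (XT.nd (nat_lit 312) (nat_lit 912) (nat_lit 0) (XT.nd (nat_lit 156) (nat_lit 532) (nat_lit 0) (XT.nd (nat_lit 78) (nat_lit 532) (nat_lit 0) (XT.lf (nat_lit 0) (nat_lit 10814946739) (nat_lit 304) (nat_lit 518163682) (nat_lit 76) (nat_lit 3978768929) (nat_lit 84) (nat_lit 5) (nat_lit 88) (nat_lit 5) (nat_lit 85) (nat_lit 5) (nat_lit 478) (nat_lit 394) (nat_lit 328)) (XT.lf (nat_lit 0) (nat_lit 173051074) (nat_lit 228) (nat_lit 2775381104) (nat_lit 304) (nat_lit 12637800060) (nat_lit 77) (nat_lit 5) (nat_lit 80) (nat_lit 5) (nat_lit 81) (nat_lit 5) (nat_lit 479) (nat_lit 394) (nat_lit 327))) (XT.nd (nat_lit 78) (nat_lit 304) (nat_lit 0) (XT.lf (nat_lit 0) (nat_lit 847797718) (nat_lit 228) (nat_lit 9804480527) (nat_lit 304) (nat_lit 5214019231) (nat_lit 74) (nat_lit 5) (nat_lit 77) (nat_lit 5) (nat_lit 78) (nat_lit 5) (nat_lit 480) (nat_lit 394) (nat_lit 326)) (XT.lf (nat_lit 0) (nat_lit 1534059249)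 (nat_lit 228) (nat_lit 940422605) (nat_lit 304) (nat_lit 13678489315) (nat_lit 70) (nat_lit 5) (nat_lit 73) (nat_lit 5) (nat_lit 74) (nat_lit 5) (nat_lit 481) (nat_lit 394) (nat_lit 325)))) (XT.nd (nat_lit 156) (nat_lit 456) (nat_lit 0) (XT.nd (nat_lit 78) (nat_lit 304) (nat_lit 0) (XT.lf (nat_lit 0) (nat_lit 2177318909) (nat_lit 152) (nat_lit 8256658160) (nat_lit 228) (nat_lit 6011355699) (nat_lit 68) (nat_lit 5) (nat_lit 70) (nat_lit 5) (nat_lit 71) (nat_lit 5) (nat_lit 482) (nat_lit 394) (nat_lit 324)) (XT.lf (nat_lit 0) (nat_lit 1933207054) (nat_lit 304) (nat_lit 13903814135) (nat_lit 76) (nat_lit 907756702) (nat_lit 64) (nat_lit 5) (nat_lit 68) (nat_lit 5) (nat_lit 65) (nat_lit 5) (nat_lit 483) (nat_lit 394) (nat_lit 323))) (XT.nd (nat_lit 78) (nat_lit 304) (nat_lit 0) (XT.lf (nat_lit 0) (nat_lit 3453155584) (nat_lit 152) (nat_lit 6699129951) (nat_lit 228) (nat_lit 6897769631) (nat_lit 62) (nat_lit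 5) (nat_lit 64) (nat_lit 5) (nat_lit 65) (nat_lit 5) (nat_lit 484) (nat_lit 394) (nat_lit 322)) (XT.lf (nat_lit 0) (nat_lit 1319716765) (nat_lit 304) (nat_lit 13280041933) (nat_lit 76) (nat_lit 2762915558) (nat_lit 58) (nat_lit 5) (nat_lit 62) (nat_lit 5) (nat_lit 59) (nat_lit 5) (nat_lit 485) (nat_lit 394) (nat_lit 321)))))) (XT.nd (nat_lit 56862) (nat_lit 0) (nat_lit 42560) (XT.nd (nat_lit 56550) (nat_lit 0) (nat_lit 50920) (XT.nd (nat_lit 78) (nat_lit 456) (nat_lit 0) (XT.lf (nat_lit 0) (nat_lit 4663901787) (nat_lit 152) (nat_lit 5138253230) (nat_lit 228) (nat_lit 7879362653) (nat_lit 56) (nat_lit 5) (nat_lit 58) (nat_lit 5) (nat_lit 59) (nat_lit 5) (nat_lit 486) (nat_lit 394) (nat_lit 320)) (XT.nd (nat_lit 78) (nat_lit 152) (nat_lit 0) (XT.lf (nat_lit 0) (nat_lit 621966737) (nat_lit 304) (nat_lit 12754506978) (nat_lit 76) (nat_lit 4631389063) (nat_lit 52) (nat_lit 5) (nat_lit 56) (nat_lit 5) (nat_lit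 53) (nat_lit 5) (nat_lit 487) (nat_lit 394) (nat_lit 319)) (XT.lf (nat_lit 0) (nat_lit 5796971314) (nat_lit 152) (nat_lit 3580809692) (nat_lit 228) (nat_lit 8963046107) (nat_lit 50) (nat_lit 5) (nat_lit 52) (nat_lit 5) (nat_lit 53) (nat_lit 5) (nat_lit 488) (nat_lit 394) (nat_lit 318)))) (XT.nd (nat_lit 156) (nat_lit 1748) (nat_lit 0) (XT.nd (nat_lit 78) (nat_lit 684) (nat_lit 0) (XT.lf (nat_lit 0) (nat_lit 422900150) (nat_lit 684) (nat_lit 2428240555) (nat_lit 0) (nat_lit 422900150) (nat_lit 752) (nat_lit 5) (nat_lit 761) (nat_lit 4) (nat_lit 752) (nat_lit 4) (nat_lit 410) (nat_lit 395) (nat_lit 395)) (XT.lf (nat_lit 0) (nat_lit 1108949421) (nat_lit 684) (nat_lit 4594449574) (nat_lit 684) (nat_lit 867242629) (nat_lit 743) (nat_lit 4) (nat_lit 752) (nat_lit 5) (nat_lit 752) (nat_lit 4) (nat_lit 411) (nat_lit 395) (nat_lit 394))) (XT.nd (nat_lit 78) (nat_lit 912) (nat_lit 0) (XT.lf (nat_lit 0) (nat_lit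 585735670) (nat_lit 760) (nat_lit 3340794099) (nat_lit 836) (nat_lit 2669470701) (nat_lit 732) (nat_lit 5) (nat_lit 742) (nat_lit 5) (nat_lit 743) (nat_lit 4) (nat_lit 412) (nat_lit 395) (nat_lit 393)) (XT.lf (nat_lit 0) (nat_lit 127280209) (nat_lit 836) (nat_lit 1945652555) (nat_lit 912) (nat_lit 4551354176) (nat_lit 720) (nat_lit 5) (nat_lit 731) (nat_lit 5) (nat_lit 732) (nat_lit 5) (nat_lit 413) (nat_lit 395) (nat_lit 392))))) (XT.nd (nat_lit 312) (nat_lit 5168) (nat_lit 0) (XT.nd (nat_lit 156) (nat_lit 2204) (nat_lit 0) (XT.nd (nat_lit 78) (nat_lit 912) (nat_lit 0) (XT.lf (nat_lit 0) (nat_lit 142567739) (nat_lit 912) (nat_lit 263202070) (nat_lit 76) (nat_lit 6249716017) (nat_lit 719) (nat_lit 5) (nat_lit 731) (nat_lit 5) (nat_lit 720) (nat_lit 5) (nat_lit 414) (nat_lit 395) (nat_lit 391)) (XT.lf (nat_lit 0) (nat_lit 4805224903) (nat_lit 988) (nat_lit 609267549) (nat_lit 76) (nat_lit 1274739108)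 (nat_lit 707) (nat_lit 5) (nat_lit 720) (nat_lit 5) (nat_lit 708) (nat_lit 5) (nat_lit 415) (nat_lit 395) (nat_lit 390))) (XT.nd (nat_lit 78) (nat_lit 1140) (nat_lit 0) (XT.lf (nat_lit 0) (nat_lit 2733264645) (nat_lit 1064) (nat_lit 897122247) (nat_lit 76) (nat_lit 3095489291) (nat_lit 693) (nat_lit 5) (nat_lit 707) (nat_lit 5) (nat_lit 694) (nat_lit 5) (nat_lit 416) (nat_lit 395) (nat_lit 389)) (XT.lf (nat_lit 0) (nat_lit 579441514) (nat_lit 1140) (nat_lit 1123278593) (nat_lit 76) (nat_lit 5062796240) (nat_lit 678) (nat_lit 5) (nat_lit 693) (nat_lit 5) (nat_lit 679) (nat_lit 5) (nat_lit 417) (nat_lit 395) (nat_lit 388)))) (XT.nd (nat_lit 156) (nat_lit 2736) (nat_lit 0) (XT.nd (nat_lit 78) (nat_lit 1292) (nat_lit 0) (XT.lf (nat_lit 0) (nat_lit 5130069930) (nat_lit 1216) (nat_lit 1301145694) (nat_lit 76) (nat_lit 376695822) (nat_lit 663) (nat_lit 5) (nat_lit 679) (nat_lit 5) (nat_lit 664) (nat_lit 5)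 (nat_lit 418) (nat_lit 395) (nat_lit 387)) (XT.lf (nat_lit 0) (nat_lit 2835225578) (nat_lit 1292) (nat_lit 1433708077) (nat_lit 76) (nat_lit 2584096395) (nat_lit 646) (nat_lit 5) (nat_lit 663) (nat_lit 5) (nat_lit 647) (nat_lit 5) (nat_lit 419) (nat_lit 395) (nat_lit 386))) (XT.nd (nat_lit 78) (nat_lit 1368) (nat_lit 0) (XT.lf (nat_lit 0) (nat_lit 454881492) (nat_lit 1368) (nat_lit 1505982494) (nat_lit 76) (nat_lit 4940336801) (nat_lit 628) (nat_lit 5) (nat_lit 646) (nat_lit 5) (nat_lit 629) (nat_lit 5) (nat_lit 420) (nat_lit 395) (nat_lit 385)) (XT.lf (nat_lit 0) (nat_lit 4915453593) (nat_lit 1444) (nat_lit 1534358234) (nat_lit 76) (nat_lit 502313732) (nat_lit 610) (nat_lit 5) (nat_lit 629) (nat_lit 5) (nat_lit 611) (nat_lit 5) (nat_lit 421) (nat_lit 395) (nat_lit 384))))))))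
noncomputable def xc27 : XT := (XT.nd (nat_lit 2262) (nat_lit 11704) (nat_lit 0) (XT.nd (nat_lit 1092) (nat_lit 10488) (nat_lit 0) (XT.nd (nat_lit 546) (nat_lit 7068) (nat_lit 0) (XT.nd (nat_lit 234) (nat_lit 6536) (nat_lit 0) (XT.nd (nat_lit 78) (nat_lit 3192) (nat_lit 0) (XT.lf (nat_lit 0) (nat_lit 2394127178) (nat_lit 1520) (nat_lit 1519375155) (nat_lit 76) (nat_lit 3092321651) (nat_lit 590) (nat_lit 5) (nat_lit 610) (nat_lit 5) (nat_lit 591) (nat_lit 5) (nat_lit 422) (nat_lit 395) (nat_lit 383)) (XT.nd (nat_lit 78) (nat_lit 1672) (nat_lit 0) (XT.lf (nat_lit 0) (nat_lit 5616169213) (nat_lit 1520) (nat_lit 1226543747) (nat_lit 1596) (nat_lit 219905943) (nat_lit 570) (nat_lit 5) (nat_lit 590) (nat_lit 5) (nat_lit 591) (nat_lit 5) (nat_lit 423) (nat_lit 395) (nat_lit 382)) (XT.lf (nat_lit 0) (nat_lit 4173454572) (nat_lit 1672) (nat_lit 1340752770) (nat_lit 76) (nat_lit 1607831498) (nat_lit 548) (nat_lit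 5) (nat_lit 570) (nat_lit 5) (nat_lit 549) (nat_lit 5) (nat_lit 424) (nat_lit 395) (nat_lit 381)))) (XT.nd (nat_lit 156) (nat_lit 3040) (nat_lit 0) (XT.nd (nat_lit 78) (nat_lit 1748) (nat_lit 0) (XT.lf (nat_lit 0) (nat_lit 1420052085) (nat_lit 1748) (nat_lit 1184539669) (nat_lit 76) (nat_lit 4579879661) (nat_lit 525) (nat_lit 5) (nat_lit 548) (nat_lit 5) (nat_lit 526) (nat_lit 5) (nat_lit 425) (nat_lit 395) (nat_lit 380)) (XT.lf (nat_lit 0) (nat_lit 5805809971) (nat_lit 1824) (nat_lit 981842631) (nat_lit 76) (nat_lit 462216914) (nat_lit 502) (nat_lit 5) (nat_lit 526) (nat_lit 5) (nat_lit 503) (nat_lit 5) (nat_lit 426) (nat_lit 395) (nat_lit 379))) (XT.nd (nat_lit 78) (nat_lit 1140) (nat_lit 0) (XT.lf (nat_lit 0) (nat_lit 2910335704) (nat_lit 1900) (nat_lit 747694649) (nat_lit 76) (nat_lit 3659936489) (nat_lit 477) (nat_lit 5) (nat_lit 502) (nat_lit 5) (nat_lit 478) (nat_lit 5) (nat_lit 427) (nat_lit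 395) (nat_lit 378)) (XT.lf (nat_lit 0) (nat_lit 6933541512) (nat_lit 1140) (nat_lit 371990729) (nat_lit 1216) (nat_lit 83792605) (nat_lit 462) (nat_lit 5) (nat_lit 477) (nat_lit 5) (nat_lit 478) (nat_lit 5) (nat_lit 428) (nat_lit 395) (nat_lit 377))))) (XT.nd (nat_lit 234) (nat_lit 3344) (nat_lit 0) (XT.nd (nat_lit 78) (nat_lit 2736) (nat_lit 0) (XT.lf (nat_lit 0) (nat_lit 4265228777) (nat_lit 988) (nat_lit 144847238) (nat_lit 76) (nat_lit 3053128805) (nat_lit 449) (nat_lit 5) (nat_lit 462) (nat_lit 5) (nat_lit 450) (nat_lit 5) (nat_lit 429) (nat_lit 395) (nat_lit 376)) (XT.nd (nat_lit 78) (nat_lit 912) (nat_lit 0) (XT.lf (nat_lit 0) (nat_lit 224475215) (nat_lit 836) (nat_lit 903763939) (nat_lit 912) (nat_lit 6412103769) (nat_lit 425) (nat_lit 5) (nat_lit 436) (nat_lit 5) (nat_lit 437) (nat_lit 5) (nat_lit 430) (nat_lit 395) (nat_lit 375)) (XT.lf (nat_lit 0) (nat_lit 622703306) (nat_lit 912) (nat_lit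 4876539753) (nat_lit 988) (nat_lit 2120964230) (nat_lit 413) (nat_lit 5) (nat_lit 425) (nat_lit 5) (nat_lit 426) (nat_lit 5) (nat_lit 431) (nat_lit 395) (nat_lit 374)))) (XT.nd (nat_lit 156) (nat_lit 1596) (nat_lit 0) (XT.nd (nat_lit 78) (nat_lit 836) (nat_lit 0) (XT.lf (nat_lit 0) (nat_lit 1065741191) (nat_lit 836) (nat_lit 1151388560) (nat_lit 912) (nat_lit 5486075608) (nat_lit 401) (nat_lit 5) (nat_lit 412) (nat_lit 5) (nat_lit 413) (nat_lit 5) (nat_lit 432) (nat_lit 395) (nat_lit 373)) (XT.lf (nat_lit 0) (nat_lit 1542035076) (nat_lit 836) (nat_lit 5077828563) (nat_lit 912) (nat_lit 1169286688) (nat_lit 390) (nat_lit 5) (nat_lit 401) (nat_lit 5) (nat_lit 402) (nat_lit 5) (nat_lit 433) (nat_lit 395) (nat_lit 372))) (XT.nd (nat_lit 78) (nat_lit 760) (nat_lit 0) (XT.lf (nat_lit 0) (nat_lit 2054049901) (nat_lit 760) (nat_lit 1135992450) (nat_lit 836) (nat_lit 4688088893) (nat_lit 379) (nat_lit 5) (nat_lit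 389) (nat_lit 5) (nat_lit 390) (nat_lit 5) (nat_lit 434) (nat_lit 395) (nat_lit 371)) (XT.lf (nat_lit 0) (nat_lit 2603224595) (nat_lit 760) (nat_lit 5031655516) (nat_lit 836) (nat_lit 335337929) (nat_lit 369) (nat_lit 5) (nat_lit 379) (nat_lit 5) (nat_lit 380) (nat_lit 5) (nat_lit 435) (nat_lit 395) (nat_lit 370)))))) (XT.nd (nat_lit 546) (nat_lit 5320) (nat_lit 0) (XT.nd (nat_lit 234) (nat_lit 2812) (nat_lit 0) (XT.nd (nat_lit 78) (nat_lit 1520) (nat_lit 0) (XT.lf (nat_lit 0) (nat_lit 3181678582) (nat_lit 760) (nat_lit 873567373) (nat_lit 836) (nat_lit 4010052980) (nat_lit 358) (nat_lit 5) (nat_lit 368) (nat_lit 5) (nat_lit 369) (nat_lit 5) (nat_lit 436) (nat_lit 395) (nat_lit 369)) (XT.nd (nat_lit 78) (nat_lit 684) (nat_lit 0) (XT.lf (nat_lit 0) (nat_lit 383582704) (nat_lit 836) (nat_lit 4367159452) (nat_lit 76) (nat_lit 3412812494) (nat_lit 347) (nat_lit 5) (nat_lit 358) (nat_lit 5) (nat_lit 348)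 (nat_lit 5) (nat_lit 437) (nat_lit 395) (nat_lit 368)) (XT.lf (nat_lit 0) (nat_lit 4441576040) (nat_lit 684) (nat_lit 378694298) (nat_lit 760) (nat_lit 3444646021) (nat_lit 338) (nat_lit 5) (nat_lit 347) (nat_lit 5) (nat_lit 348) (nat_lit 5) (nat_lit 438) (nat_lit 395) (nat_lit 367)))) (XT.nd (nat_lit 156) (nat_lit 1368) (nat_lit 0) (XT.nd (nat_lit 78) (nat_lit 684) (nat_lit 0) (XT.lf (nat_lit 0) (nat_lit 996591630) (nat_lit 760) (nat_lit 3253491927) (nat_lit 76) (nat_lit 4119320821) (nat_lit 328) (nat_lit 5) (nat_lit 338) (nat_lit 5) (nat_lit 329) (nat_lit 5) (nat_lit 439) (nat_lit 395) (nat_lit 366)) (XT.lf (nat_lit 0) (nat_lit 5494129552) (nat_lit 760) (nat_lit 2652096377) (nat_lit 76) (nat_lit 330951185) (nat_lit 319) (nat_lit 5) (nat_lit 329) (nat_lit 5) (nat_lit 320) (nat_lit 5) (nat_lit 440) (nat_lit 395) (nat_lit 365))) (XT.nd (nat_lit 78) (nat_lit 608) (nat_lit 0) (XT.lf (nat_lit 0) (nat_lit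 1514384418) (nat_lit 760) (nat_lit 2030202151) (nat_lit 76) (nat_lit 5043476263) (nat_lit 309) (nat_lit 5) (nat_lit 319) (nat_lit 5) (nat_lit 310) (nat_lit 5) (nat_lit 441) (nat_lit 395) (nat_lit 364)) (XT.lf (nat_lit 0) (nat_lit 6084634996) (nat_lit 684) (nat_lit 1377668879) (nat_lit 76) (nat_lit 1240010917) (nat_lit 301) (nat_lit 5) (nat_lit 310) (nat_lit 5) (nat_lit 302) (nat_lit 5) (nat_lit 442) (nat_lit 395) (nat_lit 363))))) (XT.nd (nat_lit 312) (nat_lit 2204) (nat_lit 0) (XT.nd (nat_lit 156) (nat_lit 1824) (nat_lit 0) (XT.nd (nat_lit 78) (nat_lit 608) (nat_lit 0) (XT.lf (nat_lit 0) (nat_lit 1942620115) (nat_lit 684) (nat_lit 703184741) (nat_lit 76) (nat_lit 6174006075) (nat_lit 292) (nat_lit 5) (nat_lit 301) (nat_lit 5) (nat_lit 293) (nat_lit 5) (nat_lit 443) (nat_lit 395) (nat_lit 362)) (XT.lf (nat_lit 0) (nat_lit 6594828126) (nat_lit 684) (nat_lit 3214048) (nat_lit 76) (nat_lit 2342632772)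 (nat_lit 284) (nat_lit 5) (nat_lit 293) (nat_lit 5) (nat_lit 285) (nat_lit 5) (nat_lit 444) (nat_lit 395) (nat_lit 361))) (XT.nd (nat_lit 78) (nat_lit 608) (nat_lit 0) (XT.lf (nat_lit 0) (nat_lit 731701937) (nat_lit 532) (nat_lit 1559402841) (nat_lit 608) (nat_lit 6773758589) (nat_lit 268) (nat_lit 5) (nat_lit 275) (nat_lit 5) (nat_lit 276) (nat_lit 5) (nat_lit 445) (nat_lit 395) (nat_lit 360)) (XT.lf (nat_lit 0) (nat_lit 1485544652) (nat_lit 608) (nat_lit 5553735568) (nat_lit 684) (nat_lit 2153109511) (nat_lit 260) (nat_lit 5) (nat_lit 268) (nat_lit 5) (nat_lit 269) (nat_lit 5) (nat_lit 446) (nat_lit 395) (nat_lit 359)))) (XT.nd (nat_lit 156) (nat_lit 1064) (nat_lit 0) (XT.nd (nat_lit 78) (nat_lit 532) (nat_lit 0) (XT.lf (nat_lit 0) (nat_lit 2270377999) (nat_lit 532) (nat_lit 294431644) (nat_lit 608) (nat_lit 6758739242) (nat_lit 252) (nat_lit 5) (nat_lit 259) (nat_lit 5) (nat_lit 260) (nat_lit 5)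 (nat_lit 447) (nat_lit 395) (nat_lit 358)) (XT.lf (nat_lit 0) (nat_lit 3065513039) (nat_lit 532) (nat_lit 4347827123) (nat_lit 608) (nat_lit 2044653461) (nat_lit 245) (nat_lit 5) (nat_lit 252) (nat_lit 5) (nat_lit 253) (nat_lit 5) (nat_lit 448) (nat_lit 395) (nat_lit 357))) (XT.nd (nat_lit 78) (nat_lit 532) (nat_lit 0) (XT.lf (nat_lit 0) (nat_lit 2770387725) (nat_lit 532) (nat_lit 5704996259) (nat_lit 76) (nat_lit 1120796644) (nat_lit 238) (nat_lit 5) (nat_lit 245) (nat_lit 5) (nat_lit 239) (nat_lit 5) (nat_lit 449) (nat_lit 395) (nat_lit 356)) (XT.lf (nat_lit 0) (nat_lit 4732046140) (nat_lit 532) (nat_lit 2988771744) (nat_lit 608) (nat_lit 2017052549) (nat_lit 231) (nat_lit 5) (nat_lit 238) (nat_lit 5) (nat_lit 239) (nat_lit 5) (nat_lit 450) (nat_lit 395) (nat_lit 355))))))) (XT.nd (nat_lit 1170) (nat_lit 4788) (nat_lit 0) (XT.nd (nat_lit 546) (nat_lit 3192) (nat_lit 0) (XT.nd (nat_lit 234) (nat_lit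 2204) (nat_lit 0) (XT.nd (nat_lit 78) (nat_lit 988) (nat_lit 0) (XT.lf (nat_lit 0) (nat_lit 2906783037) (nat_lit 532) (nat_lit 4289095657) (nat_lit 76) (nat_lit 2687365961) (nat_lit 224) (nat_lit 5) (nat_lit 231) (nat_lit 5) (nat_lit 225) (nat_lit 5) (nat_lit 451) (nat_lit 395) (nat_lit 354)) (XT.nd (nat_lit 78) (nat_lit 532) (nat_lit 0) (XT.lf (nat_lit 0) (nat_lit 6480803687) (nat_lit 456) (nat_lit 1484244071) (nat_lit 532) (nat_lit 2067385016) (nat_lit 218) (nat_lit 5) (nat_lit 224) (nat_lit 5) (nat_lit 225) (nat_lit 5) (nat_lit 452) (nat_lit 395) (nat_lit 353)) (XT.lf (nat_lit 0) (nat_lit 2974921352) (nat_lit 532) (nat_lit 2808198016) (nat_lit 76) (nat_lit 4402087483) (nat_lit 211) (nat_lit 5) (nat_lit 218) (nat_lit 5) (nat_lit 212) (nat_lit 5) (nat_lit 453) (nat_lit 395) (nat_lit 352)))) (XT.nd (nat_lit 156) (nat_lit 1292) (nat_lit 0) (XT.nd (nat_lit 78) (nat_lit 456) (nat_lit 0) (XT.lf (nat_lit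 0) (nat_lit 8149916111) (nat_lit 532) (nat_lit 2035495444) (nat_lit 76) (nat_lit 156690706) (nat_lit 205) (nat_lit 5) (nat_lit 212) (nat_lit 5) (nat_lit 206) (nat_lit 5) (nat_lit 454) (nat_lit 395) (nat_lit 351)) (XT.lf (nat_lit 0) (nat_lit 2977159305) (nat_lit 456) (nat_lit 1266785959) (nat_lit 76) (nat_lit 6258579452) (nat_lit 199) (nat_lit 5) (nat_lit 205) (nat_lit 5) (nat_lit 200) (nat_lit 5) (nat_lit 455) (nat_lit 395) (nat_lit 350))) (XT.nd (nat_lit 78) (nat_lit 836) (nat_lit 0) (XT.lf (nat_lit 0) (nat_lit 8287277639) (nat_lit 532) (nat_lit 471322995) (nat_lit 76) (nat_lit 1908561328) (nat_lit 193) (nat_lit 5) (nat_lit 200) (nat_lit 5) (nat_lit 194) (nat_lit 5) (nat_lit 456) (nat_lit 395) (nat_lit 349)) (XT.lf (nat_lit 0) (nat_lit 335162014) (nat_lit 380) (nat_lit 2582398983) (nat_lit 456) (nat_lit 7918081618) (nat_lit 182) (nat_lit 5) (nat_lit 187) (nat_lit 5) (nat_lit 188) (nat_lit 5) (nat_lit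 457) (nat_lit 395) (nat_lit 348))))) (XT.nd (nat_lit 312) (nat_lit 1520) (nat_lit 0) (XT.nd (nat_lit 156) (nat_lit 836) (nat_lit 0) (XT.nd (nat_lit 78) (nat_lit 456) (nat_lit 0) (XT.lf (nat_lit 0) (nat_lit 1161442915) (nat_lit 380) (nat_lit 7215493504) (nat_lit 456) (nat_lit 2631221179) (nat_lit 177) (nat_lit 5) (nat_lit 182) (nat_lit 5) (nat_lit 183) (nat_lit 5) (nat_lit 458) (nat_lit 395) (nat_lit 347)) (XT.lf (nat_lit 0) (nat_lit 2006457839) (nat_lit 380) (nat_lit 797595755) (nat_lit 456) (nat_lit 8380895906) (nat_lit 171) (nat_lit 5) (nat_lit 176) (nat_lit 5) (nat_lit 177) (nat_lit 5) (nat_lit 459) (nat_lit 395) (nat_lit 346))) (XT.nd (nat_lit 78) (nat_lit 456) (nat_lit 0) (XT.lf (nat_lit 0) (nat_lit 2850200600) (nat_lit 380) (nat_lit 5566032146) (nat_lit 456) (nat_lit 2949473912) (nat_lit 166) (nat_lit 5) (nat_lit 171) (nat_lit 5) (nat_lit 172) (nat_lit 5) (nat_lit 460) (nat_lit 395) (nat_lit 345))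 (XT.lf (nat_lit 0) (nat_lit 2636368640) (nat_lit 456) (nat_lit 7832383246) (nat_lit 76) (nat_lit 1082269044) (nat_lit 160) (nat_lit 5) (nat_lit 166) (nat_lit 5) (nat_lit 161) (nat_lit 5) (nat_lit 461) (nat_lit 395) (nat_lit 344)))) (XT.nd (nat_lit 156) (nat_lit 760) (nat_lit 0) (XT.nd (nat_lit 78) (nat_lit 456) (nat_lit 0) (XT.lf (nat_lit 0) (nat_lit 4584321997) (nat_lit 304) (nat_lit 3818734524) (nat_lit 380) (nat_lit 3337382487) (nat_lit 156) (nat_lit 5) (nat_lit 160) (nat_lit 5) (nat_lit 161) (nat_lit 5) (nat_lit 462) (nat_lit 395) (nat_lit 343)) (XT.lf (nat_lit 0) (nat_lit 2413736091) (nat_lit 456) (nat_lit 6465889147) (nat_lit 76) (nat_lit 3054840857) (nat_lit 150) (nat_lit 5) (nat_lit 156) (nat_lit 5) (nat_lit 151) (nat_lit 5) (nat_lit 463) (nat_lit 395) (nat_lit 342))) (XT.nd (nat_lit 78) (nat_lit 456) (nat_lit 0) (XT.lf (nat_lit 0) (nat_lit 6359365896) (nat_lit 304) (nat_lit 1978594301) (nat_lit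 380) (nat_lit 3794995367) (nat_lit 146) (nat_lit 5) (nat_lit 150) (nat_lit 5) (nat_lit 151) (nat_lit 5) (nat_lit 464) (nat_lit 395) (nat_lit 341)) (XT.lf (nat_lit 0) (nat_lit 2130986487) (nat_lit 456) (nat_lit 5078933627) (nat_lit 76) (nat_lit 5126086584) (nat_lit 140) (nat_lit 5) (nat_lit 146) (nat_lit 5) (nat_lit 141) (nat_lit 5) (nat_lit 465) (nat_lit 395) (nat_lit 340)))))) (XT.nd (nat_lit 546) (nat_lit 2508) (nat_lit 0) (XT.nd (nat_lit 234) (nat_lit 1292) (nat_lit 0) (XT.nd (nat_lit 78) (nat_lit 684) (nat_lit 0) (XT.lf (nat_lit 0) (nat_lit 8170757732) (nat_lit 304) (nat_lit 50297117) (nat_lit 380) (nat_lit 4322836465) (nat_lit 136) (nat_lit 5) (nat_lit 140) (nat_lit 5) (nat_lit 141) (nat_lit 5) (nat_lit 466) (nat_lit 395) (nat_lit 339)) (XT.nd (nat_lit 78) (nat_lit 304) (nat_lit 0) (XT.lf (nat_lit 0) (nat_lit 1787671371) (nat_lit 380) (nat_lit 3676816175) (nat_lit 76) (nat_lit 7291807962) (nat_lit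 131) (nat_lit 5) (nat_lit 136) (nat_lit 5) (nat_lit 132) (nat_lit 5) (nat_lit 467) (nat_lit 395) (nat_lit 338)) (XT.lf (nat_lit 0) (nat_lit 8064740376) (nat_lit 380) (nat_lit 2972923087) (nat_lit 76) (nat_lit 1935998259) (nat_lit 127) (nat_lit 5) (nat_lit 132) (nat_lit 5) (nat_lit 128) (nat_lit 5) (nat_lit 468) (nat_lit 395) (nat_lit 337)))) (XT.nd (nat_lit 156) (nat_lit 608) (nat_lit 0) (XT.nd (nat_lit 78) (nat_lit 304) (nat_lit 0) (XT.lf (nat_lit 0) (nat_lit 1382875639) (nat_lit 380) (nat_lit 2265094955) (nat_lit 76) (nat_lit 9548050539) (nat_lit 122) (nat_lit 5) (nat_lit 127) (nat_lit 5) (nat_lit 123) (nat_lit 5) (nat_lit 469) (nat_lit 395) (nat_lit 336)) (XT.lf (nat_lit 0) (nat_lit 7856327461) (nat_lit 380) (nat_lit 1566793493) (nat_lit 76) (nat_lit 4000090364) (nat_lit 118) (nat_lit 5) (nat_lit 123) (nat_lit 5) (nat_lit 119) (nat_lit 5) (nat_lit 470) (nat_lit 395) (nat_lit 335))) (XT.nd (nat_lit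 78) (nat_lit 228) (nat_lit 0) (XT.lf (nat_lit 0) (nat_lit 915204659) (nat_lit 380) (nat_lit 849652522) (nat_lit 76) (nat_lit 11891052126) (nat_lit 113) (nat_lit 5) (nat_lit 118) (nat_lit 5) (nat_lit 114) (nat_lit 5) (nat_lit 471) (nat_lit 395) (nat_lit 334)) (XT.lf (nat_lit 0) (nat_lit 7594195525) (nat_lit 304) (nat_lit 160481146) (nat_lit 76) (nat_lit 6138614952) (nat_lit 110) (nat_lit 5) (nat_lit 114) (nat_lit 5) (nat_lit 111) (nat_lit 5) (nat_lit 472) (nat_lit 395) (nat_lit 333))))) (XT.nd (nat_lit 312) (nat_lit 1064) (nat_lit 0) (XT.nd (nat_lit 156) (nat_lit 532) (nat_lit 0) (XT.nd (nat_lit 78) (nat_lit 304) (nat_lit 0) (XT.lf (nat_lit 0) (nat_lit 387669221) (nat_lit 304) (nat_lit 13567127296) (nat_lit 76) (nat_lit 181829781) (nat_lit 102) (nat_lit 5) (nat_lit 106) (nat_lit 5) (nat_lit 103) (nat_lit 5) (nat_lit 473) (nat_lit 395) (nat_lit 332)) (XT.lf (nat_lit 0) (nat_lit 1255990252) (nat_lit 304)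 (nat_lit 6028725290) (nat_lit 380) (nat_lit 7099808275) (nat_lit 98) (nat_lit 5) (nat_lit 102) (nat_lit 5) (nat_lit 103) (nat_lit 5) (nat_lit 474) (nat_lit 395) (nat_lit 331))) (XT.nd (nat_lit 78) (nat_lit 304) (nat_lit 0) (XT.lf (nat_lit 0) (nat_lit 1977134927) (nat_lit 228) (nat_lit 12469405477) (nat_lit 304) (nat_lit 192161201) (nat_lit 95) (nat_lit 5) (nat_lit 98) (nat_lit 5) (nat_lit 99) (nat_lit 5) (nat_lit 475) (nat_lit 395) (nat_lit 330)) (XT.lf (nat_lit 0) (nat_lit 2661096510) (nat_lit 228) (nat_lit 4257308385) (nat_lit 304) (nat_lit 7979471903) (nat_lit 91) (nat_lit 5) (nat_lit 94) (nat_lit 5) (nat_lit 95) (nat_lit 5) (nat_lit 476) (nat_lit 395) (nat_lit 329)))) (XT.nd (nat_lit 156) (nat_lit 532) (nat_lit 0) (XT.nd (nat_lit 78) (nat_lit 304) (nat_lit 0) (XT.lf (nat_lit 0) (nat_lit 3364526646) (nat_lit 228) (nat_lit 10950803083) (nat_lit 304) (nat_lit 847959701) (nat_lit 88) (nat_lit 5) (nat_lit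 91) (nat_lit 5) (nat_lit 92) (nat_lit 5) (nat_lit 477) (nat_lit 395) (nat_lit 328)) (XT.lf (nat_lit 0) (nat_lit 4045001552) (nat_lit 228) (nat_lit 2446320839) (nat_lit 304) (nat_lit 8942918123) (nat_lit 84) (nat_lit 5) (nat_lit 87) (nat_lit 5) (nat_lit 88) (nat_lit 5) (nat_lit 478) (nat_lit 395) (nat_lit 327))) (XT.nd (nat_lit 78) (nat_lit 304) (nat_lit 0) (XT.lf (nat_lit 0) (nat_lit 4726240807) (nat_lit 228) (nat_lit 9406864519) (nat_lit 304) (nat_lit 1578226436) (nat_lit 81) (nat_lit 5) (nat_lit 84) (nat_lit 5) (nat_lit 85) (nat_lit 5) (nat_lit 479) (nat_lit 395) (nat_lit 326)) (XT.lf (nat_lit 0) (nat_lit 5399307085) (nat_lit 228) (nat_lit 600699924) (nat_lit 304) (nat_lit 9994521430) (nat_lit 77) (nat_lit 5) (nat_lit 80) (nat_lit 5) (nat_lit 81) (nat_lit 5) (nat_lit 480) (nat_lit 395) (nat_lit 325))))))))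
noncomputable def xc28 : XT := (XT.nd (nat_lit 58422) (nat_lit 0) (nat_lit 9880) (XT.nd (nat_lit 57252) (nat_lit 0) (nat_lit 31084) (XT.nd (nat_lit 546) (nat_lit 304) (nat_lit 0) (XT.nd (nat_lit 234) (nat_lit 912) (nat_lit 0) (XT.nd (nat_lit 78) (nat_lit 456) (nat_lit 0) (XT.lf (nat_lit 0) (nat_lit 6053497186) (nat_lit 228) (nat_lit 7843033539) (nat_lit 304) (nat_lit 2387234487) (nat_lit 74) (nat_lit 5) (nat_lit 77) (nat_lit 5) (nat_lit 78) (nat_lit 5) (nat_lit 481) (nat_lit 395) (nat_lit 324)) (XT.nd (nat_lit 78) (nat_lit 152) (nat_lit 0) (XT.lf (nat_lit 0) (nat_lit 5448659064) (nat_lit 304) (nat_lit 9873155287) (nat_lit 76) (nat_lit 1257720918) (nat_lit 70) (nat_lit 5) (nat_lit 74) (nat_lit 5) (nat_lit 71) (nat_lit 5) (nat_lit 482) (nat_lit 395) (nat_lit 323)) (XT.lf (nat_lit 0) (nat_lit 7336665979) (nat_lit 152) (nat_lit 6264988456) (nat_lit 228) (nat_lit 3279919736) (nat_lit 68) (nat_lit 5) (nat_lit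 70) (nat_lit 5) (nat_lit 71) (nat_lit 5) (nat_lit 483) (nat_lit 395) (nat_lit 322)))) (XT.nd (nat_lit 156) (nat_lit 456) (nat_lit 0) (XT.nd (nat_lit 78) (nat_lit 152) (nat_lit 0) (XT.lf (nat_lit 0) (nat_lit 4828330626) (nat_lit 304) (nat_lit 9229929165) (nat_lit 76) (nat_lit 3132094696) (nat_lit 64) (nat_lit 5) (nat_lit 68) (nat_lit 5) (nat_lit 65) (nat_lit 5) (nat_lit 484) (nat_lit 395) (nat_lit 321)) (XT.lf (nat_lit 0) (nat_lit 8565154229) (nat_lit 152) (nat_lit 4678710336) (nat_lit 228) (nat_lit 4261928558) (nat_lit 62) (nat_lit 5) (nat_lit 64) (nat_lit 5) (nat_lit 65) (nat_lit 5) (nat_lit 485) (nat_lit 395) (nat_lit 320))) (XT.nd (nat_lit 78) (nat_lit 152) (nat_lit 0) (XT.lf (nat_lit 0) (nat_lit 4129649008) (nat_lit 304) (nat_lit 8673785658) (nat_lit 76) (nat_lit 5024690644) (nat_lit 58) (nat_lit 5) (nat_lit 62) (nat_lit 5) (nat_lit 59) (nat_lit 5) (nat_lit 486) (nat_lit 395) (nat_lit 319)) (XT.lf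 (nat_lit 0) (nat_lit 9727281751) (nat_lit 152) (nat_lit 3090555508) (nat_lit 228) (nat_lit 5339671883) (nat_lit 56) (nat_lit 5) (nat_lit 58) (nat_lit 5) (nat_lit 59) (nat_lit 5) (nat_lit 487) (nat_lit 395) (nat_lit 318))))) (XT.nd (nat_lit 56394) (nat_lit 0) (nat_lit 51604) (XT.nd (nat_lit 56238) (nat_lit 0) (nat_lit 53884) (XT.lf (nat_lit 0) (nat_lit 3346378310) (nat_lit 304) (nat_lit 8218071226) (nat_lit 76) (nat_lit 6929513412) (nat_lit 52) (nat_lit 5) (nat_lit 56) (nat_lit 5) (nat_lit 53) (nat_lit 5) (nat_lit 488) (nat_lit 395) (nat_lit 317)) (XT.nd (nat_lit 78) (nat_lit 532) (nat_lit 0) (XT.lf (nat_lit 0) (nat_lit 777268430) (nat_lit 532) (nat_lit 1700412635) (nat_lit 0) (nat_lit 777268430) (nat_lit 768) (nat_lit 5) (nat_lit 775) (nat_lit 4) (nat_lit 768) (nat_lit 4) (nat_lit 408) (nat_lit 396) (nat_lit 396)) (XT.lf (nat_lit 0) (nat_lit 2333630480) (nat_lit 532) (nat_lit 4055234483) (nat_lit 532)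 (nat_lit 139430866) (nat_lit 761) (nat_lit 4) (nat_lit 768) (nat_lit 5) (nat_lit 768) (nat_lit 4) (nat_lit 409) (nat_lit 396) (nat_lit 395)))) (XT.nd (nat_lit 156) (nat_lit 836) (nat_lit 0) (XT.nd (nat_lit 78) (nat_lit 760) (nat_lit 0) (XT.lf (nat_lit 0) (nat_lit 1613627762) (nat_lit 608) (nat_lit 3005769496) (nat_lit 684) (nat_lit 1929997464) (nat_lit 752) (nat_lit 5) (nat_lit 760) (nat_lit 5) (nat_lit 761) (nat_lit 4) (nat_lit 410) (nat_lit 396) (nat_lit 394)) (XT.lf (nat_lit 0) (nat_lit 959011136) (nat_lit 684) (nat_lit 1816279655) (nat_lit 760) (nat_lit 3798123892) (nat_lit 742) (nat_lit 5) (nat_lit 751) (nat_lit 5) (nat_lit 752) (nat_lit 5) (nat_lit 411) (nat_lit 396) (nat_lit 393))) (XT.nd (nat_lit 78) (nat_lit 0) (nat_lit 0) (XT.lf (nat_lit 0) (nat_lit 369366587) (nat_lit 760) (nat_lit 485496141) (nat_lit 836) (nat_lit 5745509472) (nat_lit 731) (nat_lit 5) (nat_lit 741) (nat_lit 5) (nat_lit 742)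 (nat_lit 5) (nat_lit 412) (nat_lit 396) (nat_lit 392)) (XT.lf (nat_lit 0) (nat_lit 5478763733) (nat_lit 836) (nat_lit 167594934) (nat_lit 76) (nat_lit 983627147) (nat_lit 731) (nat_lit 5) (nat_lit 742) (nat_lit 5) (nat_lit 732) (nat_lit 5) (nat_lit 413) (nat_lit 396) (nat_lit 391)))))) (XT.nd (nat_lit 546) (nat_lit 12692) (nat_lit 0) (XT.nd (nat_lit 234) (nat_lit 4940) (nat_lit 0) (XT.nd (nat_lit 78) (nat_lit 1976) (nat_lit 0) (XT.lf (nat_lit 0) (nat_lit 3418909415) (nat_lit 912) (nat_lit 646475100) (nat_lit 76) (nat_lit 2596946363) (nat_lit 719) (nat_lit 5) (nat_lit 731) (nat_lit 5) (nat_lit 720) (nat_lit 5) (nat_lit 414) (nat_lit 396) (nat_lit 390)) (XT.nd (nat_lit 78) (nat_lit 988) (nat_lit 0) (XT.lf (nat_lit 0) (nat_lit 1279644972) (nat_lit 988) (nat_lit 1063523133) (nat_lit 76) (nat_lit 4354485654) (nat_lit 706) (nat_lit 5) (nat_lit 719) (nat_lit 5) (nat_lit 707) (nat_lit 5) (nat_lit 415) (nat_lit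 396) (nat_lit 389)) (XT.lf (nat_lit 0) (nat_lit 5310776605) (nat_lit 988) (nat_lit 471549555) (nat_lit 1064) (nat_lit 953528669) (nat_lit 693) (nat_lit 5) (nat_lit 706) (nat_lit 5) (nat_lit 707) (nat_lit 5) (nat_lit 416) (nat_lit 396) (nat_lit 388)))) (XT.nd (nat_lit 156) (nat_lit 2584) (nat_lit 0) (XT.nd (nat_lit 78) (nat_lit 1216) (nat_lit 0) (XT.lf (nat_lit 0) (nat_lit 3498699787) (nat_lit 1140) (nat_lit 1744086731) (nat_lit 76) (nat_lit 1533916472) (nat_lit 678) (nat_lit 5) (nat_lit 693) (nat_lit 5) (nat_lit 679) (nat_lit 5) (nat_lit 417) (nat_lit 396) (nat_lit 387)) (XT.lf (nat_lit 0) (nat_lit 1135363673) (nat_lit 1216) (nat_lit 2006080956) (nat_lit 76) (nat_lit 3679071490) (nat_lit 662) (nat_lit 5) (nat_lit 678) (nat_lit 5) (nat_lit 663) (nat_lit 5) (nat_lit 418) (nat_lit 396) (nat_lit 386))) (XT.nd (nat_lit 78) (nat_lit 1368) (nat_lit 0) (XT.lf (nat_lit 0) (nat_lit 4650609569) (nat_lit 1216)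 (nat_lit 886181455) (nat_lit 1292) (nat_lit 1330421570) (nat_lit 646) (nat_lit 5) (nat_lit 662) (nat_lit 5) (nat_lit 663) (nat_lit 5) (nat_lit 419) (nat_lit 396) (nat_lit 385)) (XT.lf (nat_lit 0) (nat_lit 3026966527) (nat_lit 1368) (nat_lit 2384854763) (nat_lit 76) (nat_lit 1504817030) (nat_lit 628) (nat_lit 5) (nat_lit 646) (nat_lit 5) (nat_lit 629) (nat_lit 5) (nat_lit 420) (nat_lit 396) (nat_lit 384))))) (XT.nd (nat_lit 312) (nat_lit 6612) (nat_lit 0) (XT.nd (nat_lit 156) (nat_lit 3192) (nat_lit 0) (XT.nd (nat_lit 78) (nat_lit 1444) (nat_lit 0) (XT.lf (nat_lit 0) (nat_lit 436077578) (nat_lit 1444) (nat_lit 2500039758) (nat_lit 76) (nat_lit 4032922569) (nat_lit 609) (nat_lit 5) (nat_lit 628) (nat_lit 5) (nat_lit 610) (nat_lit 5) (nat_lit 421) (nat_lit 396) (nat_lit 383)) (XT.lf (nat_lit 0) (nat_lit 4453316262) (nat_lit 1444) (nat_lit 297036118) (nat_lit 1520) (nat_lit 2273920427) (nat_lit 590) (nat_lit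 5) (nat_lit 609) (nat_lit 5) (nat_lit 610) (nat_lit 5) (nat_lit 422) (nat_lit 396) (nat_lit 382))) (XT.nd (nat_lit 78) (nat_lit 1596) (nat_lit 0) (XT.lf (nat_lit 0) (nat_lit 2016034586) (nat_lit 1596) (nat_lit 2602243367) (nat_lit 76) (nat_lit 2463998509) (nat_lit 569) (nat_lit 5) (nat_lit 590) (nat_lit 5) (nat_lit 570) (nat_lit 5) (nat_lit 423) (nat_lit 396) (nat_lit 381)) (XT.lf (nat_lit 0) (nat_lit 4560572647) (nat_lit 1596) (nat_lit 1764095915) (nat_lit 1672) (nat_lit 818638611) (nat_lit 548) (nat_lit 5) (nat_lit 569) (nat_lit 5) (nat_lit 570) (nat_lit 5) (nat_lit 424) (nat_lit 396) (nat_lit 380)))) (XT.nd (nat_lit 156) (nat_lit 3040) (nat_lit 0) (XT.nd (nat_lit 78) (nat_lit 1824) (nat_lit 0) (XT.lf (nat_lit 0) (nat_lit 3439818401) (nat_lit 1748) (nat_lit 2526845547) (nat_lit 76) (nat_lit 1240446477) (nat_lit 525) (nat_lit 5) (nat_lit 548) (nat_lit 5) (nat_lit 526) (nat_lit 5) (nat_lit 425) (nat_lit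 396) (nat_lit 379)) (XT.lf (nat_lit 0) (nat_lit 472329270) (nat_lit 1824) (nat_lit 2425185406) (nat_lit 76) (nat_lit 4376393979) (nat_lit 501) (nat_lit 5) (nat_lit 525) (nat_lit 5) (nat_lit 502) (nat_lit 5) (nat_lit 426) (nat_lit 396) (nat_lit 378))) (XT.nd (nat_lit 78) (nat_lit 1216) (nat_lit 0) (XT.lf (nat_lit 0) (nat_lit 4719297136) (nat_lit 1900) (nat_lit 2285099816) (nat_lit 76) (nat_lit 339193462) (nat_lit 477) (nat_lit 5) (nat_lit 502) (nat_lit 5) (nat_lit 478) (nat_lit 5) (nat_lit 427) (nat_lit 396) (nat_lit 377)) (XT.lf (nat_lit 0) (nat_lit 1607932394) (nat_lit 1216) (nat_lit 2110377161) (nat_lit 76) (nat_lit 3697806708) (nat_lit 461) (nat_lit 5) (nat_lit 477) (nat_lit 5) (nat_lit 462) (nat_lit 5) (nat_lit 428) (nat_lit 396) (nat_lit 376))))))) (XT.nd (nat_lit 1170) (nat_lit 8360) (nat_lit 0) (XT.nd (nat_lit 546) (nat_lit 5776) (nat_lit 0) (XT.nd (nat_lit 234) (nat_lit 4332) (nat_lit 0) (XT.nd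 (nat_lit 78) (nat_lit 1824) (nat_lit 0) (XT.lf (nat_lit 0) (nat_lit 5602720851) (nat_lit 912) (nat_lit 264356565) (nat_lit 988) (nat_lit 1624685507) (nat_lit 449) (nat_lit 5) (nat_lit 461) (nat_lit 5) (nat_lit 462) (nat_lit 5) (nat_lit 429) (nat_lit 396) (nat_lit 375)) (XT.nd (nat_lit 78) (nat_lit 836) (nat_lit 0) (XT.lf (nat_lit 0) (nat_lit 2609284698) (nat_lit 988) (nat_lit 1642976739) (nat_lit 76) (nat_lit 3317869431) (nat_lit 436) (nat_lit 5) (nat_lit 449) (nat_lit 5) (nat_lit 437) (nat_lit 5) (nat_lit 430) (nat_lit 396) (nat_lit 374)) (XT.lf (nat_lit 0) (nat_lit 6304971271) (nat_lit 836) (nat_lit 586829329) (nat_lit 912) (nat_lit 759966259) (nat_lit 425) (nat_lit 5) (nat_lit 436) (nat_lit 5) (nat_lit 437) (nat_lit 5) (nat_lit 431) (nat_lit 396) (nat_lit 373)))) (XT.nd (nat_lit 156) (nat_lit 2508) (nat_lit 0) (XT.nd (nat_lit 78) (nat_lit 836) (nat_lit 0) (XT.lf (nat_lit 0) (nat_lit 3485870303) (nat_lit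 988) (nat_lit 1032136981) (nat_lit 76) (nat_lit 3218070842) (nat_lit 412) (nat_lit 5) (nat_lit 425) (nat_lit 5) (nat_lit 413) (nat_lit 5) (nat_lit 432) (nat_lit 396) (nat_lit 372)) (XT.lf (nat_lit 0) (nat_lit 7158865058) (nat_lit 836) (nat_lit 641619106) (nat_lit 912) (nat_lit 23303055) (nat_lit 401) (nat_lit 5) (nat_lit 412) (nat_lit 5) (nat_lit 413) (nat_lit 5) (nat_lit 433) (nat_lit 396) (nat_lit 371))) (XT.nd (nat_lit 78) (nat_lit 1596) (nat_lit 0) (XT.lf (nat_lit 0) (nat_lit 4246339925) (nat_lit 912) (nat_lit 286251847) (nat_lit 76) (nat_lit 3381522319) (nat_lit 389) (nat_lit 5) (nat_lit 401) (nat_lit 5) (nat_lit 390) (nat_lit 5) (nat_lit 434) (nat_lit 396) (nat_lit 370)) (XT.lf (nat_lit 0) (nat_lit 146581097) (nat_lit 760) (nat_lit 440167303) (nat_lit 836) (nat_lit 7421149997) (nat_lit 368) (nat_lit 5) (nat_lit 378) (nat_lit 5) (nat_lit 379) (nat_lit 5) (nat_lit 435) (nat_lit 396) (nat_lit 369)))))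 (XT.nd (nat_lit 312) (nat_lit 2736) (nat_lit 0) (XT.nd (nat_lit 156) (nat_lit 1444) (nat_lit 0) (XT.nd (nat_lit 78) (nat_lit 836) (nat_lit 0) (XT.lf (nat_lit 0) (nat_lit 594777991) (nat_lit 760) (nat_lit 4307649070) (nat_lit 836) (nat_lit 3201920346) (nat_lit 358) (nat_lit 5) (nat_lit 368) (nat_lit 5) (nat_lit 369) (nat_lit 5) (nat_lit 436) (nat_lit 396) (nat_lit 368)) (XT.lf (nat_lit 0) (nat_lit 1090898535) (nat_lit 836) (nat_lit 7111005012) (nat_lit 76) (nat_lit 2400439) (nat_lit 347) (nat_lit 5) (nat_lit 358) (nat_lit 5) (nat_lit 348) (nat_lit 5) (nat_lit 437) (nat_lit 396) (nat_lit 367))) (XT.nd (nat_lit 78) (nat_lit 760) (nat_lit 0) (XT.lf (nat_lit 0) (nat_lit 1601483281) (nat_lit 684) (nat_lit 3858603637) (nat_lit 760) (nat_lit 2846930163) (nat_lit 338) (nat_lit 5) (nat_lit 347) (nat_lit 5) (nat_lit 348) (nat_lit 5) (nat_lit 438) (nat_lit 396) (nat_lit 366)) (XT.lf (nat_lit 0) (nat_lit 1496004499)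 (nat_lit 760) (nat_lit 6258000440) (nat_lit 76) (nat_lit 659233155) (nat_lit 328) (nat_lit 5) (nat_lit 338) (nat_lit 5) (nat_lit 329) (nat_lit 5) (nat_lit 439) (nat_lit 396) (nat_lit 365)))) (XT.nd (nat_lit 156) (nat_lit 1292) (nat_lit 0) (XT.nd (nat_lit 78) (nat_lit 760) (nat_lit 0) (XT.lf (nat_lit 0) (nat_lit 2723473264) (nat_lit 684) (nat_lit 3200378001) (nat_lit 760) (nat_lit 2598554682) (nat_lit 319) (nat_lit 5) (nat_lit 328) (nat_lit 5) (nat_lit 329) (nat_lit 5) (nat_lit 440) (nat_lit 396) (nat_lit 364)) (XT.lf (nat_lit 0) (nat_lit 1805089361) (nat_lit 760) (nat_lit 5306003238) (nat_lit 76) (nat_lit 1523925274) (nat_lit 309) (nat_lit 5) (nat_lit 319) (nat_lit 5) (nat_lit 310) (nat_lit 5) (nat_lit 441) (nat_lit 396) (nat_lit 363))) (XT.nd (nat_lit 78) (nat_lit 684) (nat_lit 0) (XT.lf (nat_lit 0) (nat_lit 3954682647) (nat_lit 608) (nat_lit 2344811580) (nat_lit 684) (nat_lit 2451293717) (nat_lit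 301) (nat_lit 5) (nat_lit 309) (nat_lit 5) (nat_lit 310) (nat_lit 5) (nat_lit 442) (nat_lit 396) (nat_lit 362)) (XT.lf (nat_lit 0) (nat_lit 2023405125) (nat_lit 684) (nat_lit 4261107496) (nat_lit 76) (nat_lit 2585419372) (nat_lit 292) (nat_lit 5) (nat_lit 301) (nat_lit 5) (nat_lit 293) (nat_lit 5) (nat_lit 443) (nat_lit 396) (nat_lit 361)))))) (XT.nd (nat_lit 546) (nat_lit 3724) (nat_lit 0) (XT.nd (nat_lit 234) (nat_lit 2812) (nat_lit 0) (XT.nd (nat_lit 78) (nat_lit 1216) (nat_lit 0) (XT.lf (nat_lit 0) (nat_lit 5289512760) (nat_lit 608) (nat_lit 1302672069) (nat_lit 684) (nat_lit 2400280849) (nat_lit 284) (nat_lit 5) (nat_lit 292) (nat_lit 5) (nat_lit 293) (nat_lit 5) (nat_lit 444) (nat_lit 396) (nat_lit 360)) (XT.nd (nat_lit 78) (nat_lit 532) (nat_lit 0) (XT.lf (nat_lit 0) (nat_lit 2155608155) (nat_lit 684) (nat_lit 3128997277) (nat_lit 76) (nat_lit 3833692319) (nat_lit 275) (nat_lit 5) (nat_lit 284)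 (nat_lit 5) (nat_lit 276) (nat_lit 5) (nat_lit 445) (nat_lit 396) (nat_lit 359)) (XT.lf (nat_lit 0) (nat_lit 6722778918) (nat_lit 532) (nat_lit 83739882) (nat_lit 608) (nat_lit 2441251633) (nat_lit 268) (nat_lit 5) (nat_lit 275) (nat_lit 5) (nat_lit 276) (nat_lit 5) (nat_lit 446) (nat_lit 396) (nat_lit 358)))) (XT.nd (nat_lit 156) (nat_lit 1596) (nat_lit 0) (XT.nd (nat_lit 78) (nat_lit 532) (nat_lit 0) (XT.lf (nat_lit 0) (nat_lit 2205788554) (nat_lit 684) (nat_lit 1914998267) (nat_lit 76) (nat_lit 5259674313) (nat_lit 259) (nat_lit 5) (nat_lit 268) (nat_lit 5) (nat_lit 260) (nat_lit 5) (nat_lit 447) (nat_lit 396) (nat_lit 357)) (XT.lf (nat_lit 0) (nat_lit 6955007222) (nat_lit 608) (nat_lit 1275863496) (nat_lit 76) (nat_lit 1286022335) (nat_lit 252) (nat_lit 5) (nat_lit 260) (nat_lit 5) (nat_lit 253) (nat_lit 5) (nat_lit 448) (nat_lit 396) (nat_lit 356))) (XT.nd (nat_lit 78) (nat_lit 988) (nat_lit 0)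 (XT.lf (nat_lit 0) (nat_lit 2177495800) (nat_lit 608) (nat_lit 624128057) (nat_lit 76) (nat_lit 6855173126) (nat_lit 244) (nat_lit 5) (nat_lit 252) (nat_lit 5) (nat_lit 245) (nat_lit 5) (nat_lit 449) (nat_lit 396) (nat_lit 355)) (XT.lf (nat_lit 0) (nat_lit 47029430) (nat_lit 532) (nat_lit 6987576510) (nat_lit 608) (nat_lit 2765748121) (nat_lit 231) (nat_lit 5) (nat_lit 238) (nat_lit 5) (nat_lit 239) (nat_lit 5) (nat_lit 450) (nat_lit 396) (nat_lit 354))))) (XT.nd (nat_lit 312) (nat_lit 1748) (nat_lit 0) (XT.nd (nat_lit 156) (nat_lit 988) (nat_lit 0) (XT.nd (nat_lit 78) (nat_lit 456) (nat_lit 0) (XT.lf (nat_lit 0) (nat_lit 748673530) (nat_lit 456) (nat_lit 1329948119) (nat_lit 532) (nat_lit 7868990385) (nat_lit 224) (nat_lit 5) (nat_lit 230) (nat_lit 5) (nat_lit 231) (nat_lit 5) (nat_lit 451) (nat_lit 396) (nat_lit 353)) (XT.lf (nat_lit 0) (nat_lit 1456872694) (nat_lit 456) (nat_lit 5599423472) (nat_lit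 532) (nat_lit 3042116599) (nat_lit 218) (nat_lit 5) (nat_lit 224) (nat_lit 5) (nat_lit 225) (nat_lit 5) (nat_lit 452) (nat_lit 396) (nat_lit 352))) (XT.nd (nat_lit 78) (nat_lit 456) (nat_lit 0) (XT.lf (nat_lit 0) (nat_lit 1913248986) (nat_lit 532) (nat_lit 8056977324) (nat_lit 76) (nat_lit 283082362) (nat_lit 211) (nat_lit 5) (nat_lit 218) (nat_lit 5) (nat_lit 212) (nat_lit 5) (nat_lit 453) (nat_lit 396) (nat_lit 351)) (XT.lf (nat_lit 0) (nat_lit 2932218729) (nat_lit 456) (nat_lit 4081939770) (nat_lit 532) (nat_lit 3397528033) (nat_lit 205) (nat_lit 5) (nat_lit 211) (nat_lit 5) (nat_lit 212) (nat_lit 5) (nat_lit 454) (nat_lit 396) (nat_lit 350)))) (XT.nd (nat_lit 156) (nat_lit 836) (nat_lit 0) (XT.nd (nat_lit 78) (nat_lit 456) (nat_lit 0) (XT.lf (nat_lit 0) (nat_lit 1686934193) (nat_lit 456) (nat_lit 6875972984) (nat_lit 76) (nat_lit 2011372867) (nat_lit 199) (nat_lit 5) (nat_lit 205) (nat_lit 5) (nat_lit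 200) (nat_lit 5) (nat_lit 455) (nat_lit 396) (nat_lit 349)) (XT.lf (nat_lit 0) (nat_lit 4468710869) (nat_lit 456) (nat_lit 2441492575) (nat_lit 532) (nat_lit 3830451515) (nat_lit 193) (nat_lit 5) (nat_lit 199) (nat_lit 5) (nat_lit 200) (nat_lit 5) (nat_lit 456) (nat_lit 396) (nat_lit 348))) (XT.nd (nat_lit 78) (nat_lit 380) (nat_lit 0) (XT.lf (nat_lit 0) (nat_lit 1392548628) (nat_lit 456) (nat_lit 5652078076) (nat_lit 76) (nat_lit 3866567317) (nat_lit 187) (nat_lit 5) (nat_lit 193) (nat_lit 5) (nat_lit 188) (nat_lit 5) (nat_lit 457) (nat_lit 396) (nat_lit 347)) (XT.lf (nat_lit 0) (nat_lit 6062078385) (nat_lit 380) (nat_lit 683909117) (nat_lit 456) (nat_lit 4339840869) (nat_lit 182) (nat_lit 5) (nat_lit 187) (nat_lit 5) (nat_lit 188) (nat_lit 5) (nat_lit 458) (nat_lit 396) (nat_lit 346))))))))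
noncomputable def xc29 : XT := (XT.nd (nat_lit 2262) (nat_lit 152) (nat_lit 0) (XT.nd (nat_lit 1092) (nat_lit 3952) (nat_lit 0) (XT.nd (nat_lit 546) (nat_lit 2736) (nat_lit 0) (XT.nd (nat_lit 234) (nat_lit 1444) (nat_lit 0) (XT.nd (nat_lit 78) (nat_lit 836) (nat_lit 0) (XT.lf (nat_lit 0) (nat_lit 1031137554) (nat_lit 456) (nat_lit 4390050389) (nat_lit 76) (nat_lit 5843388908) (nat_lit 176) (nat_lit 5) (nat_lit 182) (nat_lit 5) (nat_lit 177) (nat_lit 5) (nat_lit 459) (nat_lit 396) (nat_lit 345)) (XT.nd (nat_lit 78) (nat_lit 456) (nat_lit 0) (XT.lf (nat_lit 0) (nat_lit 6530316634) (nat_lit 456) (nat_lit 3747359159) (nat_lit 76) (nat_lit 1169918805) (nat_lit 171) (nat_lit 5) (nat_lit 177) (nat_lit 5) (nat_lit 172) (nat_lit 5) (nat_lit 460) (nat_lit 396) (nat_lit 344)) (XT.lf (nat_lit 0) (nat_lit 603289626) (nat_lit 456) (nat_lit 3094669456) (nat_lit 76) (nat_lit 7937027536) (nat_lit 165) (nat_lit 5) (nat_lit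 171) (nat_lit 5) (nat_lit 166) (nat_lit 5) (nat_lit 461) (nat_lit 396) (nat_lit 343)))) (XT.nd (nat_lit 156) (nat_lit 684) (nat_lit 0) (XT.nd (nat_lit 78) (nat_lit 380) (nat_lit 0) (XT.lf (nat_lit 0) (nat_lit 6261293400) (nat_lit 456) (nat_lit 2445034067) (nat_lit 76) (nat_lit 3120251455) (nat_lit 160) (nat_lit 5) (nat_lit 166) (nat_lit 5) (nat_lit 161) (nat_lit 5) (nat_lit 462) (nat_lit 396) (nat_lit 342)) (XT.lf (nat_lit 0) (nat_lit 109137949) (nat_lit 380) (nat_lit 1770789628) (nat_lit 76) (nat_lit 10143086538) (nat_lit 155) (nat_lit 5) (nat_lit 160) (nat_lit 5) (nat_lit 156) (nat_lit 5) (nat_lit 463) (nat_lit 396) (nat_lit 341))) (XT.nd (nat_lit 78) (nat_lit 304) (nat_lit 0) (XT.lf (nat_lit 0) (nat_lit 5934668978) (nat_lit 456) (nat_lit 1117232208) (nat_lit 76) (nat_lit 5171576761) (nat_lit 150) (nat_lit 5) (nat_lit 156) (nat_lit 5) (nat_lit 151) (nat_lit 5) (nat_lit 464) (nat_lit 396) (nat_lit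 340)) (XT.lf (nat_lit 0) (nat_lit 11971783146) (nat_lit 380) (nat_lit 426569636) (nat_lit 76) (nat_lit 30867557) (nat_lit 146) (nat_lit 5) (nat_lit 151) (nat_lit 5) (nat_lit 147) (nat_lit 5) (nat_lit 465) (nat_lit 396) (nat_lit 339))))) (XT.nd (nat_lit 234) (nat_lit 1292) (nat_lit 0) (XT.nd (nat_lit 78) (nat_lit 684) (nat_lit 0) (XT.lf (nat_lit 0) (nat_lit 234057193) (nat_lit 304) (nat_lit 5317652070) (nat_lit 380) (nat_lit 7087193981) (nat_lit 136) (nat_lit 5) (nat_lit 140) (nat_lit 5) (nat_lit 141) (nat_lit 5) (nat_lit 466) (nat_lit 396) (nat_lit 338)) (XT.nd (nat_lit 78) (nat_lit 380) (nat_lit 0) (XT.lf (nat_lit 0) (nat_lit 934314833) (nat_lit 304) (nat_lit 10845050786) (nat_lit 380) (nat_lit 1074562453) (nat_lit 132) (nat_lit 5) (nat_lit 136) (nat_lit 5) (nat_lit 137) (nat_lit 5) (nat_lit 467) (nat_lit 396) (nat_lit 337)) (XT.lf (nat_lit 0) (nat_lit 1615534021) (nat_lit 304) (nat_lit 3502104093)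 (nat_lit 380) (nat_lit 7955775364) (nat_lit 127) (nat_lit 5) (nat_lit 131) (nat_lit 5) (nat_lit 132) (nat_lit 5) (nat_lit 468) (nat_lit 396) (nat_lit 336)))) (XT.nd (nat_lit 156) (nat_lit 608) (nat_lit 0) (XT.nd (nat_lit 78) (nat_lit 380) (nat_lit 0) (XT.lf (nat_lit 0) (nat_lit 2312964215) (nat_lit 304) (nat_lit 9227398134) (nat_lit 380) (nat_lit 1757792751) (nat_lit 123) (nat_lit 5) (nat_lit 127) (nat_lit 5) (nat_lit 128) (nat_lit 5) (nat_lit 469) (nat_lit 396) (nat_lit 335)) (XT.lf (nat_lit 0) (nat_lit 3006715350) (nat_lit 304) (nat_lit 1617183736) (nat_lit 380) (nat_lit 8903971125) (nat_lit 118) (nat_lit 5) (nat_lit 122) (nat_lit 5) (nat_lit 123) (nat_lit 5) (nat_lit 470) (nat_lit 396) (nat_lit 334))) (XT.nd (nat_lit 78) (nat_lit 304) (nat_lit 0) (XT.lf (nat_lit 0) (nat_lit 3697914380) (nat_lit 304) (nat_lit 7552950655) (nat_lit 380) (nat_lit 2511826042) (nat_lit 114) (nat_lit 5) (nat_lit 118) (nat_lit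 5) (nat_lit 119) (nat_lit 5) (nat_lit 471) (nat_lit 396) (nat_lit 333)) (XT.lf (nat_lit 0) (nat_lit 4070966557) (nat_lit 304) (nat_lit 9603574699) (nat_lit 76) (nat_lit 328441500) (nat_lit 110) (nat_lit 5) (nat_lit 114) (nat_lit 5) (nat_lit 111) (nat_lit 5) (nat_lit 472) (nat_lit 396) (nat_lit 332)))))) (XT.nd (nat_lit 546) (nat_lit 1976) (nat_lit 0) (XT.nd (nat_lit 234) (nat_lit 1064) (nat_lit 0) (XT.nd (nat_lit 78) (nat_lit 608) (nat_lit 0) (XT.lf (nat_lit 0) (nat_lit 5082979093) (nat_lit 304) (nat_lit 5826319887) (nat_lit 380) (nat_lit 3339009224) (nat_lit 106) (nat_lit 5) (nat_lit 110) (nat_lit 5) (nat_lit 111) (nat_lit 5) (nat_lit 473) (nat_lit 396) (nat_lit 331)) (XT.nd (nat_lit 78) (nat_lit 304) (nat_lit 0) (XT.lf (nat_lit 0) (nat_lit 3465389011) (nat_lit 304) (nat_lit 8721079695) (nat_lit 76) (nat_lit 2312899733) (nat_lit 102) (nat_lit 5) (nat_lit 106) (nat_lit 5) (nat_lit 103) (nat_lit 5) (nat_lit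 474) (nat_lit 396) (nat_lit 330)) (XT.lf (nat_lit 0) (nat_lit 6461506698) (nat_lit 304) (nat_lit 4052089464) (nat_lit 380) (nat_lit 4242222748) (nat_lit 98) (nat_lit 5) (nat_lit 102) (nat_lit 5) (nat_lit 103) (nat_lit 5) (nat_lit 475) (nat_lit 396) (nat_lit 329)))) (XT.nd (nat_lit 156) (nat_lit 532) (nat_lit 0) (XT.nd (nat_lit 78) (nat_lit 228) (nat_lit 0) (XT.lf (nat_lit 0) (nat_lit 2793931451) (nat_lit 304) (nat_lit 7870893317) (nat_lit 76) (nat_lit 4353246145) (nat_lit 94) (nat_lit 5) (nat_lit 98) (nat_lit 5) (nat_lit 95) (nat_lit 5) (nat_lit 476) (nat_lit 396) (nat_lit 328)) (XT.lf (nat_lit 0) (nat_lit 7826299999) (nat_lit 228) (nat_lit 2234870423) (nat_lit 304) (nat_lit 5224907143) (nat_lit 91) (nat_lit 5) (nat_lit 94) (nat_lit 5) (nat_lit 95) (nat_lit 5) (nat_lit 477) (nat_lit 396) (nat_lit 327))) (XT.nd (nat_lit 78) (nat_lit 228) (nat_lit 0) (XT.lf (nat_lit 0) (nat_lit 2053308628) (nat_lit 304)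 (nat_lit 7061367689) (nat_lit 76) (nat_lit 6445290397) (nat_lit 87) (nat_lit 5) (nat_lit 91) (nat_lit 5) (nat_lit 88) (nat_lit 5) (nat_lit 478) (nat_lit 396) (nat_lit 326)) (XT.lf (nat_lit 0) (nat_lit 9169529661) (nat_lit 228) (nat_lit 379358433) (nat_lit 304) (nat_lit 6291094218) (nat_lit 84) (nat_lit 5) (nat_lit 87) (nat_lit 5) (nat_lit 88) (nat_lit 5) (nat_lit 479) (nat_lit 396) (nat_lit 325))))) (XT.nd (nat_lit 312) (nat_lit 912) (nat_lit 0) (XT.nd (nat_lit 156) (nat_lit 532) (nat_lit 0) (XT.nd (nat_lit 78) (nat_lit 228) (nat_lit 0) (XT.lf (nat_lit 0) (nat_lit 1239652524) (nat_lit 304) (nat_lit 6301575521) (nat_lit 76) (nat_lit 8584749128) (nat_lit 80) (nat_lit 5) (nat_lit 84) (nat_lit 5) (nat_lit 81) (nat_lit 5) (nat_lit 480) (nat_lit 396) (nat_lit 324)) (XT.lf (nat_lit 0) (nat_lit 8982835134) (nat_lit 304) (nat_lit 5945638107) (nat_lit 76) (nat_lit 1489807787) (nat_lit 77) (nat_lit 5) (nat_lit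 81) (nat_lit 5) (nat_lit 78) (nat_lit 5) (nat_lit 481) (nat_lit 396) (nat_lit 323))) (XT.nd (nat_lit 78) (nat_lit 228) (nat_lit 0) (XT.lf (nat_lit 0) (nat_lit 348474566) (nat_lit 304) (nat_lit 5601409727) (nat_lit 76) (nat_lit 10767186191) (nat_lit 73) (nat_lit 5) (nat_lit 77) (nat_lit 5) (nat_lit 74) (nat_lit 5) (nat_lit 482) (nat_lit 396) (nat_lit 322)) (XT.lf (nat_lit 0) (nat_lit 8351521019) (nat_lit 304) (nat_lit 5288555367) (nat_lit 76) (nat_lit 3382032219) (nat_lit 70) (nat_lit 5) (nat_lit 74) (nat_lit 5) (nat_lit 71) (nat_lit 5) (nat_lit 483) (nat_lit 396) (nat_lit 321)))) (XT.nd (nat_lit 156) (nat_lit 456) (nat_lit 0) (XT.nd (nat_lit 78) (nat_lit 304) (nat_lit 0) (XT.lf (nat_lit 0) (nat_lit 12358375444) (nat_lit 152) (nat_lit 4342117628) (nat_lit 228) (nat_lit 633688585) (nat_lit 68) (nat_lit 5) (nat_lit 70) (nat_lit 5) (nat_lit 71) (nat_lit 5) (nat_lit 484) (nat_lit 396) (nat_lit 320)) (XT.lf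 (nat_lit 0) (nat_lit 7647445189) (nat_lit 304) (nat_lit 4708071837) (nat_lit 76) (nat_lit 5297039997) (nat_lit 64) (nat_lit 5) (nat_lit 68) (nat_lit 5) (nat_lit 65) (nat_lit 5) (nat_lit 485) (nat_lit 396) (nat_lit 319))) (XT.nd (nat_lit 78) (nat_lit 304) (nat_lit 0) (XT.lf (nat_lit 0) (nat_lit 13543009956) (nat_lit 152) (nat_lit 2725195207) (nat_lit 228) (nat_lit 1710199119) (nat_lit 62) (nat_lit 5) (nat_lit 64) (nat_lit 5) (nat_lit 65) (nat_lit 5) (nat_lit 486) (nat_lit 396) (nat_lit 318)) (XT.lf (nat_lit 0) (nat_lit 6864850327) (nat_lit 304) (nat_lit 4216629511) (nat_lit 76) (nat_lit 7229241920) (nat_lit 58) (nat_lit 5) (nat_lit 62) (nat_lit 5) (nat_lit 59) (nat_lit 5) (nat_lit 487) (nat_lit 396) (nat_lit 317))))))) (XT.nd (nat_lit 57174) (nat_lit 0) (nat_lit 25308) (XT.nd (nat_lit 56550) (nat_lit 0) (nat_lit 44764) (XT.nd (nat_lit 56238) (nat_lit 0) (nat_lit 52136) (XT.nd (nat_lit 56082) (nat_lit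 0) (nat_lit 54568) (XT.lf (nat_lit 0) (nat_lit 14659936201) (nat_lit 152) (nat_lit 1107821783) (nat_lit 228) (nat_lit 2883148259) (nat_lit 56) (nat_lit 5) (nat_lit 58) (nat_lit 5) (nat_lit 59) (nat_lit 5) (nat_lit 488) (nat_lit 396) (nat_lit 316)) (XT.nd (nat_lit 78) (nat_lit 456) (nat_lit 0) (XT.lf (nat_lit 0) (nat_lit 1231084470) (nat_lit 380) (nat_lit 777958918) (nat_lit 0) (nat_lit 1231084470) (nat_lit 780) (nat_lit 5) (nat_lit 785) (nat_lit 4) (nat_lit 780) (nat_lit 4) (nat_lit 406) (nat_lit 397) (nat_lit 397)) (XT.lf (nat_lit 0) (nat_lit 777263569) (nat_lit 456) (nat_lit 2543870869) (nat_lit 76) (nat_lit 3173253405) (nat_lit 774) (nat_lit 5) (nat_lit 780) (nat_lit 5) (nat_lit 775) (nat_lit 4) (nat_lit 407) (nat_lit 397) (nat_lit 396)))) (XT.nd (nat_lit 156) (nat_lit 1368) (nat_lit 0) (XT.nd (nat_lit 78) (nat_lit 608) (nat_lit 0) (XT.lf (nat_lit 0) (nat_lit 3037460053) (nat_lit 456) (nat_lit 2480125601)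 (nat_lit 532) (nat_lit 993722629) (nat_lit 768) (nat_lit 5) (nat_lit 774) (nat_lit 5) (nat_lit 775) (nat_lit 4) (nat_lit 408) (nat_lit 397) (nat_lit 395)) (XT.lf (nat_lit 0) (nat_lit 2185423266) (nat_lit 532) (nat_lit 1495034341) (nat_lit 608) (nat_lit 2850588115) (nat_lit 760) (nat_lit 5) (nat_lit 767) (nat_lit 5) (nat_lit 768) (nat_lit 5) (nat_lit 409) (nat_lit 397) (nat_lit 394))) (XT.nd (nat_lit 78) (nat_lit 684) (nat_lit 0) (XT.lf (nat_lit 0) (nat_lit 1399076239) (nat_lit 608) (nat_lit 370027017) (nat_lit 684) (nat_lit 4784612724) (nat_lit 751) (nat_lit 5) (nat_lit 759) (nat_lit 5) (nat_lit 760) (nat_lit 5) (nat_lit 410) (nat_lit 397) (nat_lit 393)) (XT.lf (nat_lit 0) (nat_lit 670585932) (nat_lit 684) (nat_lit 5693450390) (nat_lit 760) (nat_lit 215154007) (nat_lit 742) (nat_lit 5) (nat_lit 751) (nat_lit 5) (nat_lit 752) (nat_lit 5) (nat_lit 411) (nat_lit 397) (nat_lit 392))))) (XT.nd (nat_lit 312)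 (nat_lit 4636) (nat_lit 0) (XT.nd (nat_lit 156) (nat_lit 1824) (nat_lit 0) (XT.nd (nat_lit 78) (nat_lit 836) (nat_lit 0) (XT.lf (nat_lit 0) (nat_lit 4309146757) (nat_lit 760) (nat_lit 8737939) (nat_lit 76) (nat_lit 2289435726) (nat_lit 741) (nat_lit 5) (nat_lit 751) (nat_lit 5) (nat_lit 742) (nat_lit 5) (nat_lit 412) (nat_lit 397) (nat_lit 391)) (XT.lf (nat_lit 0) (nat_lit 2181568664) (nat_lit 836) (nat_lit 617087965) (nat_lit 76) (nat_lit 3839671627) (nat_lit 730) (nat_lit 5) (nat_lit 741) (nat_lit 5) (nat_lit 731) (nat_lit 5) (nat_lit 413) (nat_lit 397) (nat_lit 390))) (XT.nd (nat_lit 78) (nat_lit 988) (nat_lit 0) (XT.lf (nat_lit 0) (nat_lit 5508619420) (nat_lit 836) (nat_lit 1138413289) (nat_lit 912) (nat_lit 25286149) (nat_lit 719) (nat_lit 5) (nat_lit 730) (nat_lit 5) (nat_lit 731) (nat_lit 5) (nat_lit 414) (nat_lit 397) (nat_lit 389)) (XT.lf (nat_lit 0) (nat_lit 4370297173) (nat_lit 988) (nat_lit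 1667911655) (nat_lit 76) (nat_lit 670724029) (nat_lit 706) (nat_lit 5) (nat_lit 719) (nat_lit 5) (nat_lit 707) (nat_lit 5) (nat_lit 415) (nat_lit 397) (nat_lit 388)))) (XT.nd (nat_lit 156) (nat_lit 2508) (nat_lit 0) (XT.nd (nat_lit 78) (nat_lit 1064) (nat_lit 0) (XT.lf (nat_lit 0) (nat_lit 2020822754) (nat_lit 1064) (nat_lit 2119442049) (nat_lit 76) (nat_lit 2608139197) (nat_lit 692) (nat_lit 5) (nat_lit 706) (nat_lit 5) (nat_lit 693) (nat_lit 5) (nat_lit 416) (nat_lit 397) (nat_lit 387)) (XT.lf (nat_lit 0) (nat_lit 4277157914) (nat_lit 1064) (nat_lit 2097316239) (nat_lit 1140) (nat_lit 416378825) (nat_lit 678) (nat_lit 5) (nat_lit 692) (nat_lit 5) (nat_lit 693) (nat_lit 5) (nat_lit 417) (nat_lit 397) (nat_lit 386))) (XT.nd (nat_lit 78) (nat_lit 1292) (nat_lit 0) (XT.lf (nat_lit 0) (nat_lit 3870718409) (nat_lit 1216) (nat_lit 2862517322) (nat_lit 76) (nat_lit 102836616) (nat_lit 662) (nat_lit 5) (nat_lit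 678) (nat_lit 5) (nat_lit 663) (nat_lit 5) (nat_lit 418) (nat_lit 397) (nat_lit 385)) (XT.lf (nat_lit 0) (nat_lit 1296675444) (nat_lit 1292) (nat_lit 3166479319) (nat_lit 76) (nat_lit 2420926142) (nat_lit 645) (nat_lit 5) (nat_lit 662) (nat_lit 5) (nat_lit 646) (nat_lit 5) (nat_lit 419) (nat_lit 397) (nat_lit 384)))))) (XT.nd (nat_lit 546) (nat_lit 8512) (nat_lit 0) (XT.nd (nat_lit 234) (nat_lit 6688) (nat_lit 0) (XT.nd (nat_lit 78) (nat_lit 2964) (nat_lit 0) (XT.lf (nat_lit 0) (nat_lit 3514154616) (nat_lit 1292) (nat_lit 2039083721) (nat_lit 1368) (nat_lit 1381765886) (nat_lit 628) (nat_lit 5) (nat_lit 645) (nat_lit 5) (nat_lit 646) (nat_lit 5) (nat_lit 420) (nat_lit 397) (nat_lit 383)) (XT.nd (nat_lit 78) (nat_lit 1520) (nat_lit 0) (XT.lf (nat_lit 0) (nat_lit 2825039000) (nat_lit 1444) (nat_lit 3629133681) (nat_lit 76) (nat_lit 534631208) (nat_lit 609) (nat_lit 5) (nat_lit 628) (nat_lit 5) (nat_lit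 610) (nat_lit 5) (nat_lit 421) (nat_lit 397) (nat_lit 382)) (XT.lf (nat_lit 0) (nat_lit 21719625) (nat_lit 1520) (nat_lit 3793293650) (nat_lit 76) (nat_lit 3230459856) (nat_lit 589) (nat_lit 5) (nat_lit 609) (nat_lit 5) (nat_lit 590) (nat_lit 5) (nat_lit 422) (nat_lit 397) (nat_lit 381)))) (XT.nd (nat_lit 156) (nat_lit 3496) (nat_lit 0) (XT.nd (nat_lit 78) (nat_lit 1672) (nat_lit 0) (XT.lf (nat_lit 0) (nat_lit 3186207364) (nat_lit 1520) (nat_lit 1007984050) (nat_lit 1596) (nat_lit 2910745785) (nat_lit 569) (nat_lit 5) (nat_lit 589) (nat_lit 5) (nat_lit 590) (nat_lit 5) (nat_lit 423) (nat_lit 397) (nat_lit 380)) (XT.lf (nat_lit 0) (nat_lit 1241852393) (nat_lit 1672) (nat_lit 3999644256) (nat_lit 76) (nat_lit 1925849468) (nat_lit 547) (nat_lit 5) (nat_lit 569) (nat_lit 5) (nat_lit 548) (nat_lit 5) (nat_lit 424) (nat_lit 397) (nat_lit 379))) (XT.nd (nat_lit 78) (nat_lit 1824) (nat_lit 0) (XT.lf (nat_lit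 0) (nat_lit 3190388690) (nat_lit 1672) (nat_lit 2220898888) (nat_lit 1748) (nat_lit 1821323485) (nat_lit 525) (nat_lit 5) (nat_lit 547) (nat_lit 5) (nat_lit 548) (nat_lit 5) (nat_lit 425) (nat_lit 397) (nat_lit 378)) (XT.lf (nat_lit 0) (nat_lit 2308578766) (nat_lit 1824) (nat_lit 4042716146) (nat_lit 76) (nat_lit 949547820) (nat_lit 501) (nat_lit 5) (nat_lit 525) (nat_lit 5) (nat_lit 502) (nat_lit 5) (nat_lit 426) (nat_lit 397) (nat_lit 377))))) (XT.nd (nat_lit 312) (nat_lit 3572) (nat_lit 0) (XT.nd (nat_lit 156) (nat_lit 1900) (nat_lit 0) (XT.nd (nat_lit 78) (nat_lit 1216) (nat_lit 0) (XT.lf (nat_lit 0) (nat_lit 3364517195) (nat_lit 1824) (nat_lit 3119782626) (nat_lit 1900) (nat_lit 887651726) (nat_lit 477) (nat_lit 5) (nat_lit 501) (nat_lit 5) (nat_lit 502) (nat_lit 5) (nat_lit 427) (nat_lit 397) (nat_lit 376)) (XT.lf (nat_lit 0) (nat_lit 3232716735) (nat_lit 1216) (nat_lit 3933350442) (nat_lit 76)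 (nat_lit 279968344) (nat_lit 461) (nat_lit 5) (nat_lit 477) (nat_lit 5) (nat_lit 462) (nat_lit 5) (nat_lit 428) (nat_lit 397) (nat_lit 375))) (XT.nd (nat_lit 78) (nat_lit 988) (nat_lit 0) (XT.lf (nat_lit 0) (nat_lit 3698248343) (nat_lit 912) (nat_lit 3725501754) (nat_lit 988) (nat_lit 99296276) (nat_lit 449) (nat_lit 5) (nat_lit 461) (nat_lit 5) (nat_lit 462) (nat_lit 5) (nat_lit 429) (nat_lit 397) (nat_lit 374)) (XT.lf (nat_lit 0) (nat_lit 3920818043) (nat_lit 912) (nat_lit 104004426) (nat_lit 988) (nat_lit 3578192551) (nat_lit 436) (nat_lit 5) (nat_lit 448) (nat_lit 5) (nat_lit 449) (nat_lit 5) (nat_lit 430) (nat_lit 397) (nat_lit 373)))) (XT.nd (nat_lit 156) (nat_lit 1748) (nat_lit 0) (XT.nd (nat_lit 78) (nat_lit 912) (nat_lit 0) (XT.lf (nat_lit 0) (nat_lit 545988990) (nat_lit 912) (nat_lit 3507505686) (nat_lit 76) (nat_lit 3632447885) (nat_lit 424) (nat_lit 5) (nat_lit 436) (nat_lit 5) (nat_lit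 425) (nat_lit 5) (nat_lit 431) (nat_lit 397) (nat_lit 372)) (XT.lf (nat_lit 0) (nat_lit 4474093387) (nat_lit 912) (nat_lit 219207075) (nat_lit 988) (nat_lit 3078627566) (nat_lit 412) (nat_lit 5) (nat_lit 424) (nat_lit 5) (nat_lit 425) (nat_lit 5) (nat_lit 432) (nat_lit 397) (nat_lit 371))) (XT.nd (nat_lit 78) (nat_lit 836) (nat_lit 0) (XT.lf (nat_lit 0) (nat_lit 1064457180) (nat_lit 912) (nat_lit 3060623834) (nat_lit 76) (nat_lit 3735783841) (nat_lit 400) (nat_lit 5) (nat_lit 412) (nat_lit 5) (nat_lit 401) (nat_lit 5) (nat_lit 433) (nat_lit 397) (nat_lit 370)) (XT.lf (nat_lit 0) (nat_lit 5165986743) (nat_lit 836) (nat_lit 78621417) (nat_lit 912) (nat_lit 2708365861) (nat_lit 389) (nat_lit 5) (nat_lit 400) (nat_lit 5) (nat_lit 401) (nat_lit 5) (nat_lit 434) (nat_lit 397) (nat_lit 369))))))))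
noncomputable def xc30 : XT := (XT.nd (nat_lit 2262) (nat_lit 7600) (nat_lit 0) (XT.nd (nat_lit 1092) (nat_lit 7296) (nat_lit 0) (XT.nd (nat_lit 546) (nat_lit 5016) (nat_lit 0) (XT.nd (nat_lit 234) (nat_lit 2964) (nat_lit 0) (XT.nd (nat_lit 78) (nat_lit 1596) (nat_lit 0) (XT.lf (nat_lit 0) (nat_lit 1465125075) (nat_lit 836) (nat_lit 2491704633) (nat_lit 76) (nat_lit 4091174527) (nat_lit 378) (nat_lit 5) (nat_lit 389) (nat_lit 5) (nat_lit 379) (nat_lit 5) (nat_lit 435) (nat_lit 397) (nat_lit 368)) (XT.nd (nat_lit 78) (nat_lit 836) (nat_lit 0) (XT.lf (nat_lit 0) (nat_lit 5688235878) (nat_lit 836) (nat_lit 2159516073) (nat_lit 76) (nat_lit 298554124) (nat_lit 368) (nat_lit 5) (nat_lit 379) (nat_lit 5) (nat_lit 369) (nat_lit 5) (nat_lit 436) (nat_lit 397) (nat_lit 367)) (XT.lf (nat_lit 0) (nat_lit 1754953716) (nat_lit 836) (nat_lit 1808309837) (nat_lit 76) (nat_lit 4684304694) (nat_lit 357) (nat_lit 5)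 (nat_lit 368) (nat_lit 5) (nat_lit 358) (nat_lit 5) (nat_lit 437) (nat_lit 397) (nat_lit 366)))) (XT.nd (nat_lit 156) (nat_lit 1444) (nat_lit 0) (XT.nd (nat_lit 78) (nat_lit 760) (nat_lit 0) (XT.lf (nat_lit 0) (nat_lit 6031003007) (nat_lit 836) (nat_lit 1422729555) (nat_lit 76) (nat_lit 898412922) (nat_lit 347) (nat_lit 5) (nat_lit 358) (nat_lit 5) (nat_lit 348) (nat_lit 5) (nat_lit 438) (nat_lit 397) (nat_lit 365)) (XT.lf (nat_lit 0) (nat_lit 1940196208) (nat_lit 760) (nat_lit 1017426409) (nat_lit 76) (nat_lit 5502170902) (nat_lit 337) (nat_lit 5) (nat_lit 347) (nat_lit 5) (nat_lit 338) (nat_lit 5) (nat_lit 439) (nat_lit 397) (nat_lit 364))) (XT.nd (nat_lit 78) (nat_lit 760) (nat_lit 0) (XT.lf (nat_lit 0) (nat_lit 6278437344) (nat_lit 760) (nat_lit 582778212) (nat_lit 76) (nat_lit 1709539184) (nat_lit 328) (nat_lit 5) (nat_lit 338) (nat_lit 5) (nat_lit 329) (nat_lit 5) (nat_lit 440) (nat_lit 397) (nat_lit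 363)) (XT.lf (nat_lit 0) (nat_lit 2026438731) (nat_lit 760) (nat_lit 125523892) (nat_lit 76) (nat_lit 6532982905) (nat_lit 318) (nat_lit 5) (nat_lit 328) (nat_lit 5) (nat_lit 319) (nat_lit 5) (nat_lit 441) (nat_lit 397) (nat_lit 362))))) (XT.nd (nat_lit 234) (nat_lit 2432) (nat_lit 0) (XT.nd (nat_lit 78) (nat_lit 1292) (nat_lit 0) (XT.lf (nat_lit 0) (nat_lit 358867439) (nat_lit 608) (nat_lit 6079405437) (nat_lit 684) (nat_lit 2364095298) (nat_lit 301) (nat_lit 5) (nat_lit 309) (nat_lit 5) (nat_lit 310) (nat_lit 5) (nat_lit 442) (nat_lit 397) (nat_lit 361)) (XT.nd (nat_lit 78) (nat_lit 608) (nat_lit 0) (XT.lf (nat_lit 0) (nat_lit 872838198) (nat_lit 608) (nat_lit 1151466124) (nat_lit 684) (nat_lit 6898900795) (nat_lit 292) (nat_lit 5) (nat_lit 300) (nat_lit 5) (nat_lit 301) (nat_lit 5) (nat_lit 443) (nat_lit 397) (nat_lit 360)) (XT.lf (nat_lit 0) (nat_lit 1400711545) (nat_lit 608) (nat_lit 5116706671)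 (nat_lit 684) (nat_lit 2529834976) (nat_lit 284) (nat_lit 5) (nat_lit 292) (nat_lit 5) (nat_lit 293) (nat_lit 5) (nat_lit 444) (nat_lit 397) (nat_lit 359)))) (XT.nd (nat_lit 156) (nat_lit 1216) (nat_lit 0) (XT.nd (nat_lit 78) (nat_lit 532) (nat_lit 0) (XT.lf (nat_lit 0) (nat_lit 1934090498) (nat_lit 684) (nat_lit 7211700384) (nat_lit 76) (nat_lit 29185479) (nat_lit 275) (nat_lit 5) (nat_lit 284) (nat_lit 5) (nat_lit 276) (nat_lit 5) (nat_lit 445) (nat_lit 397) (nat_lit 358)) (XT.lf (nat_lit 0) (nat_lit 2529570482) (nat_lit 532) (nat_lit 3986668745) (nat_lit 608) (nat_lit 2789586046) (nat_lit 268) (nat_lit 5) (nat_lit 275) (nat_lit 5) (nat_lit 276) (nat_lit 5) (nat_lit 446) (nat_lit 397) (nat_lit 357))) (XT.nd (nat_lit 78) (nat_lit 532) (nat_lit 0) (XT.lf (nat_lit 0) (nat_lit 1767118717) (nat_lit 684) (nat_lit 6310206397) (nat_lit 76) (nat_lit 1363135115) (nat_lit 259) (nat_lit 5) (nat_lit 268) (nat_lit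 5) (nat_lit 260) (nat_lit 5) (nat_lit 447) (nat_lit 397) (nat_lit 356)) (XT.lf (nat_lit 0) (nat_lit 3740339088) (nat_lit 532) (nat_lit 2698056796) (nat_lit 608) (nat_lit 3140056009) (nat_lit 252) (nat_lit 5) (nat_lit 259) (nat_lit 5) (nat_lit 260) (nat_lit 5) (nat_lit 448) (nat_lit 397) (nat_lit 355)))))) (XT.nd (nat_lit 546) (nat_lit 3648) (nat_lit 0) (XT.nd (nat_lit 234) (nat_lit 1976) (nat_lit 0) (XT.nd (nat_lit 78) (nat_lit 1064) (nat_lit 0) (XT.lf (nat_lit 0) (nat_lit 1519073321) (nat_lit 608) (nat_lit 5343730890) (nat_lit 76) (nat_lit 2857384264) (nat_lit 244) (nat_lit 5) (nat_lit 252) (nat_lit 5) (nat_lit 245) (nat_lit 5) (nat_lit 449) (nat_lit 397) (nat_lit 354)) (XT.nd (nat_lit 78) (nat_lit 608) (nat_lit 0) (XT.lf (nat_lit 0) (nat_lit 5028196488) (nat_lit 456) (nat_lit 1258834705) (nat_lit 532) (nat_lit 3578498252) (nat_lit 238) (nat_lit 5) (nat_lit 244) (nat_lit 5) (nat_lit 245) (nat_lit 5)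 (nat_lit 450) (nat_lit 397) (nat_lit 353)) (XT.lf (nat_lit 0) (nat_lit 1192599426) (nat_lit 608) (nat_lit 4317365828) (nat_lit 76) (nat_lit 4504607138) (nat_lit 230) (nat_lit 5) (nat_lit 238) (nat_lit 5) (nat_lit 231) (nat_lit 5) (nat_lit 451) (nat_lit 397) (nat_lit 352)))) (XT.nd (nat_lit 156) (nat_lit 988) (nat_lit 0) (XT.nd (nat_lit 78) (nat_lit 532) (nat_lit 0) (XT.lf (nat_lit 0) (nat_lit 6066892808) (nat_lit 532) (nat_lit 3781028169) (nat_lit 76) (nat_lit 319520552) (nat_lit 224) (nat_lit 5) (nat_lit 231) (nat_lit 5) (nat_lit 225) (nat_lit 5) (nat_lit 452) (nat_lit 397) (nat_lit 351)) (XT.lf (nat_lit 0) (nat_lit 789844110) (nat_lit 532) (nat_lit 3236021683) (nat_lit 76) (nat_lit 6298186913) (nat_lit 217) (nat_lit 5) (nat_lit 224) (nat_lit 5) (nat_lit 218) (nat_lit 5) (nat_lit 453) (nat_lit 397) (nat_lit 350))) (XT.nd (nat_lit 78) (nat_lit 532) (nat_lit 0) (XT.lf (nat_lit 0) (nat_lit 5787104317)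 (nat_lit 532) (nat_lit 2681010809) (nat_lit 76) (nat_lit 2016389149) (nat_lit 211) (nat_lit 5) (nat_lit 218) (nat_lit 5) (nat_lit 212) (nat_lit 5) (nat_lit 454) (nat_lit 397) (nat_lit 349)) (XT.lf (nat_lit 0) (nat_lit 312470336) (nat_lit 532) (nat_lit 2104475898) (nat_lit 76) (nat_lit 8232153833) (nat_lit 204) (nat_lit 5) (nat_lit 211) (nat_lit 5) (nat_lit 205) (nat_lit 5) (nat_lit 455) (nat_lit 397) (nat_lit 348))))) (XT.nd (nat_lit 312) (nat_lit 1596) (nat_lit 0) (XT.nd (nat_lit 156) (nat_lit 1216) (nat_lit 0) (XT.nd (nat_lit 78) (nat_lit 456) (nat_lit 0) (XT.lf (nat_lit 0) (nat_lit 5441149525) (nat_lit 456) (nat_lit 1533812891) (nat_lit 76) (nat_lit 3842405036) (nat_lit 199) (nat_lit 5) (nat_lit 205) (nat_lit 5) (nat_lit 200) (nat_lit 5) (nat_lit 456) (nat_lit 397) (nat_lit 347)) (XT.lf (nat_lit 0) (nat_lit 10061194642) (nat_lit 456) (nat_lit 687489853) (nat_lit 532) (nat_lit 241499772) (nat_lit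 193) (nat_lit 5) (nat_lit 199) (nat_lit 5) (nat_lit 200) (nat_lit 5) (nat_lit 457) (nat_lit 397) (nat_lit 346))) (XT.nd (nat_lit 78) (nat_lit 760) (nat_lit 0) (XT.lf (nat_lit 0) (nat_lit 5030229958) (nat_lit 456) (nat_lit 344083289) (nat_lit 76) (nat_lit 5792234875) (nat_lit 187) (nat_lit 5) (nat_lit 193) (nat_lit 5) (nat_lit 188) (nat_lit 5) (nat_lit 458) (nat_lit 397) (nat_lit 345)) (XT.lf (nat_lit 0) (nat_lit 280978574) (nat_lit 380) (nat_lit 10202888782) (nat_lit 456) (nat_lit 863764094) (nat_lit 177) (nat_lit 5) (nat_lit 182) (nat_lit 5) (nat_lit 183) (nat_lit 5) (nat_lit 459) (nat_lit 397) (nat_lit 344)))) (XT.nd (nat_lit 156) (nat_lit 760) (nat_lit 0) (XT.nd (nat_lit 78) (nat_lit 380) (nat_lit 0) (XT.lf (nat_lit 0) (nat_lit 895277401) (nat_lit 380) (nat_lit 3665632899) (nat_lit 456) (nat_lit 6971568290) (nat_lit 171) (nat_lit 5) (nat_lit 176) (nat_lit 5) (nat_lit 177) (nat_lit 5) (nat_lit 460)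 (nat_lit 397) (nat_lit 343)) (XT.lf (nat_lit 0) (nat_lit 1534225558) (nat_lit 380) (nat_lit 8640057090) (nat_lit 456) (nat_lit 1547721578) (nat_lit 166) (nat_lit 5) (nat_lit 171) (nat_lit 5) (nat_lit 172) (nat_lit 5) (nat_lit 461) (nat_lit 397) (nat_lit 342))) (XT.nd (nat_lit 78) (nat_lit 304) (nat_lit 0) (XT.lf (nat_lit 0) (nat_lit 2172854502) (nat_lit 380) (nat_lit 1857310468) (nat_lit 456) (nat_lit 7885641381) (nat_lit 160) (nat_lit 5) (nat_lit 165) (nat_lit 5) (nat_lit 166) (nat_lit 5) (nat_lit 462) (nat_lit 397) (nat_lit 341)) (XT.lf (nat_lit 0) (nat_lit 2818151949) (nat_lit 304) (nat_lit 6991565904) (nat_lit 380) (nat_lit 2304393974) (nat_lit 156) (nat_lit 5) (nat_lit 160) (nat_lit 5) (nat_lit 161) (nat_lit 5) (nat_lit 463) (nat_lit 397) (nat_lit 340))))))) (XT.nd (nat_lit 1170) (nat_lit 2660) (nat_lit 0) (XT.nd (nat_lit 546) (nat_lit 2356) (nat_lit 0) (XT.nd (nat_lit 234) (nat_lit 1368) (nat_lit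 0) (XT.nd (nat_lit 78) (nat_lit 760) (nat_lit 0) (XT.lf (nat_lit 0) (nat_lit 3435839733) (nat_lit 456) (nat_lit 8838247635) (nat_lit 76) (nat_lit 43098408) (nat_lit 150) (nat_lit 5) (nat_lit 156) (nat_lit 5) (nat_lit 151) (nat_lit 5) (nat_lit 464) (nat_lit 397) (nat_lit 339)) (XT.nd (nat_lit 78) (nat_lit 456) (nat_lit 0) (XT.lf (nat_lit 0) (nat_lit 4127852118) (nat_lit 304) (nat_lit 5262219285) (nat_lit 380) (nat_lit 3134514889) (nat_lit 146) (nat_lit 5) (nat_lit 150) (nat_lit 5) (nat_lit 151) (nat_lit 5) (nat_lit 465) (nat_lit 397) (nat_lit 338)) (XT.lf (nat_lit 0) (nat_lit 2789656443) (nat_lit 456) (nat_lit 7941088883) (nat_lit 76) (nat_lit 2006273658) (nat_lit 140) (nat_lit 5) (nat_lit 146) (nat_lit 5) (nat_lit 141) (nat_lit 5) (nat_lit 466) (nat_lit 397) (nat_lit 337)))) (XT.nd (nat_lit 156) (nat_lit 684) (nat_lit 0) (XT.nd (nat_lit 78) (nat_lit 380) (nat_lit 0) (XT.lf (nat_lit 0) (nat_lit 5458234226)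 (nat_lit 304) (nat_lit 3456566650) (nat_lit 380) (nat_lit 4039293612) (nat_lit 136) (nat_lit 5) (nat_lit 140) (nat_lit 5) (nat_lit 141) (nat_lit 5) (nat_lit 467) (nat_lit 397) (nat_lit 336)) (XT.lf (nat_lit 0) (nat_lit 2078442257) (nat_lit 380) (nat_lit 7045290646) (nat_lit 76) (nat_lit 4052499342) (nat_lit 131) (nat_lit 5) (nat_lit 136) (nat_lit 5) (nat_lit 132) (nat_lit 5) (nat_lit 468) (nat_lit 397) (nat_lit 335))) (XT.nd (nat_lit 78) (nat_lit 380) (nat_lit 0) (XT.lf (nat_lit 0) (nat_lit 6803960003) (nat_lit 304) (nat_lit 1578953762) (nat_lit 380) (nat_lit 5020425559) (nat_lit 127) (nat_lit 5) (nat_lit 131) (nat_lit 5) (nat_lit 132) (nat_lit 5) (nat_lit 469) (nat_lit 397) (nat_lit 334)) (XT.lf (nat_lit 0) (nat_lit 1300612621) (nat_lit 380) (nat_lit 6157040461) (nat_lit 76) (nat_lit 6177894274) (nat_lit 122) (nat_lit 5) (nat_lit 127) (nat_lit 5) (nat_lit 123) (nat_lit 5) (nat_lit 470) (nat_lit 397)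 (nat_lit 333))))) (XT.nd (nat_lit 312) (nat_lit 1140) (nat_lit 0) (XT.nd (nat_lit 156) (nat_lit 532) (nat_lit 0) (XT.nd (nat_lit 78) (nat_lit 380) (nat_lit 0) (XT.lf (nat_lit 0) (nat_lit 7795333700) (nat_lit 380) (nat_lit 5716059278) (nat_lit 76) (nat_lit 361620517) (nat_lit 118) (nat_lit 5) (nat_lit 123) (nat_lit 5) (nat_lit 119) (nat_lit 5) (nat_lit 471) (nat_lit 397) (nat_lit 332)) (XT.lf (nat_lit 0) (nat_lit 454096899) (nat_lit 380) (nat_lit 5282906540) (nat_lit 76) (nat_lit 8378720780) (nat_lit 113) (nat_lit 5) (nat_lit 118) (nat_lit 5) (nat_lit 114) (nat_lit 5) (nat_lit 472) (nat_lit 397) (nat_lit 331))) (XT.nd (nat_lit 78) (nat_lit 304) (nat_lit 0) (XT.lf (nat_lit 0) (nat_lit 7158411590) (nat_lit 304) (nat_lit 4860992144) (nat_lit 76) (nat_lit 2344326633) (nat_lit 110) (nat_lit 5) (nat_lit 114) (nat_lit 5) (nat_lit 111) (nat_lit 5) (nat_lit 473) (nat_lit 397) (nat_lit 330)) (XT.lf (nat_lit 0)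 (nat_lit 10184541296) (nat_lit 304) (nat_lit 3963116925) (nat_lit 380) (nat_lit 469843108) (nat_lit 106) (nat_lit 5) (nat_lit 110) (nat_lit 5) (nat_lit 111) (nat_lit 5) (nat_lit 474) (nat_lit 397) (nat_lit 329)))) (XT.nd (nat_lit 156) (nat_lit 532) (nat_lit 0) (XT.nd (nat_lit 78) (nat_lit 304) (nat_lit 0) (XT.lf (nat_lit 0) (nat_lit 6459434303) (nat_lit 304) (nat_lit 4031197882) (nat_lit 76) (nat_lit 4385882783) (nat_lit 102) (nat_lit 5) (nat_lit 106) (nat_lit 5) (nat_lit 103) (nat_lit 5) (nat_lit 475) (nat_lit 397) (nat_lit 328)) (XT.lf (nat_lit 0) (nat_lit 11526533668) (nat_lit 304) (nat_lit 2140003750) (nat_lit 380) (nat_lit 1475173496) (nat_lit 98) (nat_lit 5) (nat_lit 102) (nat_lit 5) (nat_lit 103) (nat_lit 5) (nat_lit 476) (nat_lit 397) (nat_lit 327))) (XT.nd (nat_lit 78) (nat_lit 228) (nat_lit 0) (XT.lf (nat_lit 0) (nat_lit 5695415201) (nat_lit 304) (nat_lit 3234520074) (nat_lit 76) (nat_lit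 6482294090) (nat_lit 94) (nat_lit 5) (nat_lit 98) (nat_lit 5) (nat_lit 95) (nat_lit 5) (nat_lit 477) (nat_lit 397) (nat_lit 326)) (XT.lf (nat_lit 0) (nat_lit 12854538517) (nat_lit 228) (nat_lit 275187141) (nat_lit 304) (nat_lit 2559570356) (nat_lit 91) (nat_lit 5) (nat_lit 94) (nat_lit 5) (nat_lit 95) (nat_lit 5) (nat_lit 478) (nat_lit 397) (nat_lit 325)))))) (XT.nd (nat_lit 546) (nat_lit 836) (nat_lit 0) (XT.nd (nat_lit 234) (nat_lit 988) (nat_lit 0) (XT.nd (nat_lit 78) (nat_lit 532) (nat_lit 0) (XT.lf (nat_lit 0) (nat_lit 4862812820) (nat_lit 304) (nat_lit 2479460680) (nat_lit 76) (nat_lit 8629506062) (nat_lit 87) (nat_lit 5) (nat_lit 91) (nat_lit 5) (nat_lit 88) (nat_lit 5) (nat_lit 479) (nat_lit 397) (nat_lit 324)) (XT.nd (nat_lit 78) (nat_lit 304) (nat_lit 0) (XT.lf (nat_lit 0) (nat_lit 12544404769) (nat_lit 304) (nat_lit 2111155983) (nat_lit 76) (nat_lit 1605412790) (nat_lit 84) (nat_lit 5) (nat_lit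 88) (nat_lit 5) (nat_lit 85) (nat_lit 5) (nat_lit 480) (nat_lit 397) (nat_lit 323)) (XT.lf (nat_lit 0) (nat_lit 3957496326) (nat_lit 304) (nat_lit 1775273684) (nat_lit 76) (nat_lit 10823347467) (nat_lit 80) (nat_lit 5) (nat_lit 84) (nat_lit 5) (nat_lit 81) (nat_lit 5) (nat_lit 481) (nat_lit 397) (nat_lit 322)))) (XT.nd (nat_lit 156) (nat_lit 456) (nat_lit 0) (XT.nd (nat_lit 78) (nat_lit 304) (nat_lit 0) (XT.lf (nat_lit 0) (nat_lit 11898040860) (nat_lit 304) (nat_lit 1445505280) (nat_lit 76) (nat_lit 3514343734) (nat_lit 77) (nat_lit 5) (nat_lit 81) (nat_lit 5) (nat_lit 78) (nat_lit 5) (nat_lit 482) (nat_lit 397) (nat_lit 321)) (XT.lf (nat_lit 0) (nat_lit 2974705793) (nat_lit 304) (nat_lit 1132066926) (nat_lit 76) (nat_lit 13059470381) (nat_lit 73) (nat_lit 5) (nat_lit 77) (nat_lit 5) (nat_lit 74) (nat_lit 5) (nat_lit 483) (nat_lit 397) (nat_lit 320))) (XT.nd (nat_lit 78) (nat_lit 228) (nat_lit 0) (XT.lf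 (nat_lit 0) (nat_lit 11184215941) (nat_lit 304) (nat_lit 846595025) (nat_lit 76) (nat_lit 5450294651) (nat_lit 70) (nat_lit 5) (nat_lit 74) (nat_lit 5) (nat_lit 71) (nat_lit 5) (nat_lit 484) (nat_lit 397) (nat_lit 319)) (XT.lf (nat_lit 0) (nat_lit 1909006885) (nat_lit 228) (nat_lit 560913080) (nat_lit 76) (nat_lit 15333286840) (nat_lit 67) (nat_lit 5) (nat_lit 70) (nat_lit 5) (nat_lit 68) (nat_lit 5) (nat_lit 485) (nat_lit 397) (nat_lit 318))))) (XT.nd (nat_lit 56160) (nat_lit 0) (nat_lit 54036) (XT.nd (nat_lit 156) (nat_lit 380) (nat_lit 0) (XT.nd (nat_lit 78) (nat_lit 228) (nat_lit 0) (XT.lf (nat_lit 0) (nat_lit 10397619457) (nat_lit 304) (nat_lit 326026970) (nat_lit 76) (nat_lit 7408050793) (nat_lit 64) (nat_lit 5) (nat_lit 68) (nat_lit 5) (nat_lit 65) (nat_lit 5) (nat_lit 486) (nat_lit 397) (nat_lit 317)) (XT.lf (nat_lit 0) (nat_lit 754239484) (nat_lit 228) (nat_lit 73970869) (nat_lit 76) (nat_lit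 17639901491) (nat_lit 61) (nat_lit 5) (nat_lit 64) (nat_lit 5) (nat_lit 62) (nat_lit 5) (nat_lit 487) (nat_lit 397) (nat_lit 316))) (XT.nd (nat_lit 55926) (nat_lit 0) (nat_lit 55404) (XT.lf (nat_lit 0) (nat_lit 104819729) (nat_lit 152) (nat_lit 9428068533) (nat_lit 228) (nat_lit 9277893437) (nat_lit 56) (nat_lit 5) (nat_lit 58) (nat_lit 5) (nat_lit 59) (nat_lit 5) (nat_lit 488) (nat_lit 397) (nat_lit 315)) (XT.lf (nat_lit 0) (nat_lit 345629568) (nat_lit 228) (nat_lit 1441966703) (nat_lit 228) (nat_lit 1441966703) (nat_lit 785) (nat_lit 4) (nat_lit 788) (nat_lit 5) (nat_lit 788) (nat_lit 4) (nat_lit 404) (nat_lit 398) (nat_lit 398)))) (XT.nd (nat_lit 156) (nat_lit 912) (nat_lit 0) (XT.nd (nat_lit 78) (nat_lit 380) (nat_lit 0) (XT.lf (nat_lit 0) (nat_lit 1890724309) (nat_lit 304) (nat_lit 502845703) (nat_lit 76) (nat_lit 4075461220) (nat_lit 784) (nat_lit 5) (nat_lit 788) (nat_lit 5) (nat_lit 785) (nat_lit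 4) (nat_lit 405) (nat_lit 398) (nat_lit 397)) (XT.lf (nat_lit 0) (nat_lit 139512130) (nat_lit 380) (nat_lit 1622265169) (nat_lit 76) (nat_lit 4719992536) (nat_lit 779) (nat_lit 5) (nat_lit 784) (nat_lit 5) (nat_lit 780) (nat_lit 5) (nat_lit 406) (nat_lit 398) (nat_lit 396))) (XT.nd (nat_lit 78) (nat_lit 532) (nat_lit 0) (XT.lf (nat_lit 0) (nat_lit 3809320055) (nat_lit 380) (nat_lit 981157333) (nat_lit 456) (nat_lit 1706741267) (nat_lit 774) (nat_lit 5) (nat_lit 779) (nat_lit 5) (nat_lit 780) (nat_lit 5) (nat_lit 407) (nat_lit 398) (nat_lit 395)) (XT.lf (nat_lit 0) (nat_lit 2824831044) (nat_lit 456) (nat_lit 60758755) (nat_lit 532) (nat_lit 3629992190) (nat_lit 767) (nat_lit 5) (nat_lit 773) (nat_lit 5) (nat_lit 774) (nat_lit 5) (nat_lit 408) (nat_lit 398) (nat_lit 394))))))))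
noncomputable def xc31 : XT := (XT.nd (nat_lit 2262) (nat_lit 16492) (nat_lit 0) (XT.nd (nat_lit 1092) (nat_lit 17632) (nat_lit 0) (XT.nd (nat_lit 546) (nat_lit 8816) (nat_lit 0) (XT.nd (nat_lit 234) (nat_lit 2736) (nat_lit 0) (XT.nd (nat_lit 78) (nat_lit 1368) (nat_lit 0) (XT.lf (nat_lit 0) (nat_lit 913394496) (nat_lit 608) (nat_lit 4637013078) (nat_lit 76) (nat_lit 986353447) (nat_lit 759) (nat_lit 5) (nat_lit 767) (nat_lit 5) (nat_lit 760) (nat_lit 5) (nat_lit 409) (nat_lit 398) (nat_lit 393)) (XT.nd (nat_lit 78) (nat_lit 760) (nat_lit 0) (XT.lf (nat_lit 0) (nat_lit 1031216991) (nat_lit 608) (nat_lit 4381500318) (nat_lit 684) (nat_lit 1148007609) (nat_lit 751) (nat_lit 5) (nat_lit 759) (nat_lit 5) (nat_lit 760) (nat_lit 5) (nat_lit 410) (nat_lit 398) (nat_lit 392)) (XT.lf (nat_lit 0) (nat_lit 220132069) (nat_lit 684) (nat_lit 3068545016) (nat_lit 760) (nat_lit 3298839862) (nat_lit 741) (nat_lit 5)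 (nat_lit 750) (nat_lit 5) (nat_lit 751) (nat_lit 5) (nat_lit 411) (nat_lit 398) (nat_lit 391)))) (XT.nd (nat_lit 156) (nat_lit 1900) (nat_lit 0) (XT.nd (nat_lit 78) (nat_lit 760) (nat_lit 0) (XT.lf (nat_lit 0) (nat_lit 1091903415) (nat_lit 760) (nat_lit 520865843) (nat_lit 76) (nat_lit 5004437826) (nat_lit 740) (nat_lit 5) (nat_lit 750) (nat_lit 5) (nat_lit 741) (nat_lit 5) (nat_lit 412) (nat_lit 398) (nat_lit 390)) (XT.lf (nat_lit 0) (nat_lit 5444957763) (nat_lit 760) (nat_lit 7139212) (nat_lit 836) (nat_lit 1197611321) (nat_lit 730) (nat_lit 5) (nat_lit 740) (nat_lit 5) (nat_lit 741) (nat_lit 5) (nat_lit 413) (nat_lit 398) (nat_lit 389))) (XT.nd (nat_lit 78) (nat_lit 988) (nat_lit 0) (XT.lf (nat_lit 0) (nat_lit 3113282903) (nat_lit 912) (nat_lit 1845963049) (nat_lit 76) (nat_lit 1725599819) (nat_lit 718) (nat_lit 5) (nat_lit 730) (nat_lit 5) (nat_lit 719) (nat_lit 5) (nat_lit 414) (nat_lit 398) (nat_lit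 388)) (XT.lf (nat_lit 0) (nat_lit 694897358) (nat_lit 988) (nat_lit 2427159454) (nat_lit 76) (nat_lit 3600937935) (nat_lit 705) (nat_lit 5) (nat_lit 718) (nat_lit 5) (nat_lit 706) (nat_lit 5) (nat_lit 415) (nat_lit 398) (nat_lit 387))))) (XT.nd (nat_lit 234) (nat_lit 5548) (nat_lit 0) (XT.nd (nat_lit 78) (nat_lit 2280) (nat_lit 0) (XT.lf (nat_lit 0) (nat_lit 3803624776) (nat_lit 988) (nat_lit 1131096594) (nat_lit 1064) (nat_lit 1829223304) (nat_lit 692) (nat_lit 5) (nat_lit 705) (nat_lit 5) (nat_lit 706) (nat_lit 5) (nat_lit 416) (nat_lit 398) (nat_lit 386)) (XT.nd (nat_lit 78) (nat_lit 1140) (nat_lit 0) (XT.lf (nat_lit 0) (nat_lit 2366760872) (nat_lit 1140) (nat_lit 3445322477) (nat_lit 76) (nat_lit 995644396) (nat_lit 677) (nat_lit 5) (nat_lit 692) (nat_lit 5) (nat_lit 678) (nat_lit 5) (nat_lit 417) (nat_lit 398) (nat_lit 385)) (XT.lf (nat_lit 0) (nat_lit 2973203672) (nat_lit 1140) (nat_lit 3600295155)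 (nat_lit 1216) (nat_lit 280895151) (nat_lit 662) (nat_lit 5) (nat_lit 677) (nat_lit 5) (nat_lit 678) (nat_lit 5) (nat_lit 418) (nat_lit 398) (nat_lit 384)))) (XT.nd (nat_lit 156) (nat_lit 2888) (nat_lit 0) (XT.nd (nat_lit 78) (nat_lit 1368) (nat_lit 0) (XT.lf (nat_lit 0) (nat_lit 2628973866) (nat_lit 1216) (nat_lit 1228000828) (nat_lit 1292) (nat_lit 3046861123) (nat_lit 645) (nat_lit 5) (nat_lit 661) (nat_lit 5) (nat_lit 662) (nat_lit 5) (nat_lit 419) (nat_lit 398) (nat_lit 383)) (XT.lf (nat_lit 0) (nat_lit 1062619059) (nat_lit 1368) (nat_lit 4619069949) (nat_lit 76) (nat_lit 1274541578) (nat_lit 627) (nat_lit 5) (nat_lit 645) (nat_lit 5) (nat_lit 628) (nat_lit 5) (nat_lit 420) (nat_lit 398) (nat_lit 382))) (XT.nd (nat_lit 78) (nat_lit 1520) (nat_lit 0) (XT.lf (nat_lit 0) (nat_lit 2085222123) (nat_lit 1368) (nat_lit 3090528114) (nat_lit 1444) (nat_lit 1835614228) (nat_lit 609) (nat_lit 5) (nat_lit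 627) (nat_lit 5) (nat_lit 628) (nat_lit 5) (nat_lit 421) (nat_lit 398) (nat_lit 381)) (XT.lf (nat_lit 0) (nat_lit 1885949841) (nat_lit 1444) (nat_lit 344022630) (nat_lit 1520) (nat_lit 4839548674) (nat_lit 589) (nat_lit 5) (nat_lit 608) (nat_lit 5) (nat_lit 609) (nat_lit 5) (nat_lit 422) (nat_lit 398) (nat_lit 380)))))) (XT.nd (nat_lit 546) (nat_lit 6916) (nat_lit 0) (XT.nd (nat_lit 234) (nat_lit 5776) (nat_lit 0) (XT.nd (nat_lit 78) (nat_lit 3420) (nat_lit 0) (XT.lf (nat_lit 0) (nat_lit 1724552749) (nat_lit 1520) (nat_lit 4605059019) (nat_lit 1596) (nat_lit 800832505) (nat_lit 569) (nat_lit 5) (nat_lit 589) (nat_lit 5) (nat_lit 590) (nat_lit 5) (nat_lit 423) (nat_lit 398) (nat_lit 379)) (XT.nd (nat_lit 78) (nat_lit 1748) (nat_lit 0) (XT.lf (nat_lit 0) (nat_lit 1604738508) (nat_lit 1596) (nat_lit 1636379289) (nat_lit 1672) (nat_lit 3953123228) (nat_lit 547) (nat_lit 5) (nat_lit 568) (nat_lit 5) (nat_lit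 569) (nat_lit 5) (nat_lit 424) (nat_lit 398) (nat_lit 378)) (XT.lf (nat_lit 0) (nat_lit 68522040) (nat_lit 1748) (nat_lit 5726803908) (nat_lit 76) (nat_lit 1465773471) (nat_lit 524) (nat_lit 5) (nat_lit 547) (nat_lit 5) (nat_lit 525) (nat_lit 5) (nat_lit 425) (nat_lit 398) (nat_lit 377)))) (XT.nd (nat_lit 156) (nat_lit 2128) (nat_lit 0) (XT.nd (nat_lit 78) (nat_lit 1900) (nat_lit 0) (XT.lf (nat_lit 0) (nat_lit 1490255439) (nat_lit 1748) (nat_lit 2608854464) (nat_lit 1824) (nat_lit 3231495347) (nat_lit 501) (nat_lit 5) (nat_lit 524) (nat_lit 5) (nat_lit 525) (nat_lit 5) (nat_lit 426) (nat_lit 398) (nat_lit 376)) (XT.lf (nat_lit 0) (nat_lit 775771763) (nat_lit 1900) (nat_lit 5903925000) (nat_lit 76) (nat_lit 723623824) (nat_lit 476) (nat_lit 5) (nat_lit 501) (nat_lit 5) (nat_lit 477) (nat_lit 5) (nat_lit 427) (nat_lit 398) (nat_lit 375))) (XT.nd (nat_lit 78) (nat_lit 988) (nat_lit 0) (XT.lf (nat_lit 0)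 (nat_lit 1531627446) (nat_lit 1140) (nat_lit 3282765531) (nat_lit 1216) (nat_lit 2664300389) (nat_lit 461) (nat_lit 5) (nat_lit 476) (nat_lit 5) (nat_lit 477) (nat_lit 5) (nat_lit 428) (nat_lit 398) (nat_lit 374)) (XT.lf (nat_lit 0) (nat_lit 1341212404) (nat_lit 988) (nat_lit 5942543942) (nat_lit 76) (nat_lit 273551412) (nat_lit 448) (nat_lit 5) (nat_lit 461) (nat_lit 5) (nat_lit 449) (nat_lit 5) (nat_lit 429) (nat_lit 398) (nat_lit 373))))) (XT.nd (nat_lit 312) (nat_lit 3268) (nat_lit 0) (XT.nd (nat_lit 156) (nat_lit 1824) (nat_lit 0) (XT.nd (nat_lit 78) (nat_lit 912) (nat_lit 0) (XT.lf (nat_lit 0) (nat_lit 1718853638) (nat_lit 912) (nat_lit 3677629489) (nat_lit 988) (nat_lit 2242133108) (nat_lit 436) (nat_lit 5) (nat_lit 448) (nat_lit 5) (nat_lit 449) (nat_lit 5) (nat_lit 430) (nat_lit 398) (nat_lit 372)) (XT.lf (nat_lit 0) (nat_lit 1773736494) (nat_lit 912) (nat_lit 5852348088) (nat_lit 76) (nat_lit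 97103211) (nat_lit 424) (nat_lit 5) (nat_lit 436) (nat_lit 5) (nat_lit 425) (nat_lit 5) (nat_lit 431) (nat_lit 398) (nat_lit 371))) (XT.nd (nat_lit 78) (nat_lit 912) (nat_lit 0) (XT.lf (nat_lit 0) (nat_lit 2042731853) (nat_lit 912) (nat_lit 3811298432) (nat_lit 988) (nat_lit 1956485000) (nat_lit 412) (nat_lit 5) (nat_lit 424) (nat_lit 5) (nat_lit 425) (nat_lit 5) (nat_lit 432) (nat_lit 398) (nat_lit 370)) (XT.lf (nat_lit 0) (nat_lit 2081395067) (nat_lit 912) (nat_lit 5642293813) (nat_lit 76) (nat_lit 177428862) (nat_lit 400) (nat_lit 5) (nat_lit 412) (nat_lit 5) (nat_lit 401) (nat_lit 5) (nat_lit 433) (nat_lit 398) (nat_lit 369)))) (XT.nd (nat_lit 156) (nat_lit 1596) (nat_lit 0) (XT.nd (nat_lit 78) (nat_lit 836) (nat_lit 0) (XT.lf (nat_lit 0) (nat_lit 2494789575) (nat_lit 836) (nat_lit 3700085073) (nat_lit 912) (nat_lit 1799687233) (nat_lit 389) (nat_lit 5) (nat_lit 400) (nat_lit 5) (nat_lit 401) (nat_lit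 5) (nat_lit 434) (nat_lit 398) (nat_lit 368)) (XT.lf (nat_lit 0) (nat_lit 2271451024) (nat_lit 836) (nat_lit 5320672748) (nat_lit 76) (nat_lit 499160505) (nat_lit 378) (nat_lit 5) (nat_lit 389) (nat_lit 5) (nat_lit 379) (nat_lit 5) (nat_lit 435) (nat_lit 398) (nat_lit 367))) (XT.nd (nat_lit 78) (nat_lit 836) (nat_lit 0) (XT.lf (nat_lit 0) (nat_lit 3067218863) (nat_lit 760) (nat_lit 3358879128) (nat_lit 836) (nat_lit 1764858829) (nat_lit 368) (nat_lit 5) (nat_lit 378) (nat_lit 5) (nat_lit 379) (nat_lit 5) (nat_lit 436) (nat_lit 398) (nat_lit 366)) (XT.lf (nat_lit 0) (nat_lit 2350427541) (nat_lit 836) (nat_lit 4895174358) (nat_lit 76) (nat_lit 1048301356) (nat_lit 357) (nat_lit 5) (nat_lit 368) (nat_lit 5) (nat_lit 358) (nat_lit 5) (nat_lit 437) (nat_lit 398) (nat_lit 365))))))) (XT.nd (nat_lit 1170) (nat_lit 6384) (nat_lit 0) (XT.nd (nat_lit 546) (nat_lit 5168) (nat_lit 0) (XT.nd (nat_lit 234) (nat_lit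 2736) (nat_lit 0) (XT.nd (nat_lit 78) (nat_lit 1444) (nat_lit 0) (XT.lf (nat_lit 0) (nat_lit 3752814862) (nat_lit 760) (nat_lit 2801255312) (nat_lit 836) (nat_lit 1845859772) (nat_lit 347) (nat_lit 5) (nat_lit 357) (nat_lit 5) (nat_lit 358) (nat_lit 5) (nat_lit 438) (nat_lit 398) (nat_lit 364)) (XT.nd (nat_lit 78) (nat_lit 684) (nat_lit 0) (XT.lf (nat_lit 0) (nat_lit 2324151805) (nat_lit 760) (nat_lit 4372945288) (nat_lit 76) (nat_lit 1812122301) (nat_lit 337) (nat_lit 5) (nat_lit 347) (nat_lit 5) (nat_lit 338) (nat_lit 5) (nat_lit 439) (nat_lit 398) (nat_lit 363)) (XT.lf (nat_lit 0) (nat_lit 4544917442) (nat_lit 684) (nat_lit 2039573661) (nat_lit 760) (nat_lit 2037248769) (nat_lit 328) (nat_lit 5) (nat_lit 337) (nat_lit 5) (nat_lit 338) (nat_lit 5) (nat_lit 440) (nat_lit 398) (nat_lit 362)))) (XT.nd (nat_lit 156) (nat_lit 1292) (nat_lit 0) (XT.nd (nat_lit 78) (nat_lit 684) (nat_lit 0) (XT.lf (nat_lit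 0) (nat_lit 2197794332) (nat_lit 760) (nat_lit 3760645903) (nat_lit 76) (nat_lit 2779065819) (nat_lit 318) (nat_lit 5) (nat_lit 328) (nat_lit 5) (nat_lit 319) (nat_lit 5) (nat_lit 441) (nat_lit 398) (nat_lit 361)) (XT.lf (nat_lit 0) (nat_lit 5437355573) (nat_lit 684) (nat_lit 1085072844) (nat_lit 760) (nat_lit 2334245411) (nat_lit 309) (nat_lit 5) (nat_lit 318) (nat_lit 5) (nat_lit 319) (nat_lit 5) (nat_lit 442) (nat_lit 398) (nat_lit 360))) (XT.nd (nat_lit 78) (nat_lit 608) (nat_lit 0) (XT.lf (nat_lit 0) (nat_lit 1975904120) (nat_lit 684) (nat_lit 3064504415) (nat_lit 76) (nat_lit 3938656606) (nat_lit 300) (nat_lit 5) (nat_lit 309) (nat_lit 5) (nat_lit 301) (nat_lit 5) (nat_lit 443) (nat_lit 398) (nat_lit 359)) (XT.lf (nat_lit 0) (nat_lit 6372688999) (nat_lit 684) (nat_lit 2680991463) (nat_lit 76) (nat_lit 51360375) (nat_lit 292) (nat_lit 5) (nat_lit 301) (nat_lit 5) (nat_lit 293) (nat_lit 5) (nat_lit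 444) (nat_lit 398) (nat_lit 358))))) (XT.nd (nat_lit 312) (nat_lit 2660) (nat_lit 0) (XT.nd (nat_lit 156) (nat_lit 1216) (nat_lit 0) (XT.nd (nat_lit 78) (nat_lit 608) (nat_lit 0) (XT.lf (nat_lit 0) (nat_lit 1662439819) (nat_lit 684) (nat_lit 2290368986) (nat_lit 76) (nat_lit 5281418288) (nat_lit 283) (nat_lit 5) (nat_lit 292) (nat_lit 5) (nat_lit 284) (nat_lit 5) (nat_lit 445) (nat_lit 398) (nat_lit 357)) (XT.lf (nat_lit 0) (nat_lit 6147005620) (nat_lit 684) (nat_lit 1875369933) (nat_lit 76) (nat_lit 1344653072) (nat_lit 275) (nat_lit 5) (nat_lit 284) (nat_lit 5) (nat_lit 276) (nat_lit 5) (nat_lit 446) (nat_lit 398) (nat_lit 356))) (XT.nd (nat_lit 78) (nat_lit 608) (nat_lit 0) (XT.lf (nat_lit 0) (nat_lit 1260797107) (nat_lit 608) (nat_lit 1443758204) (nat_lit 76) (nat_lit 6798795678) (nat_lit 267) (nat_lit 5) (nat_lit 275) (nat_lit 5) (nat_lit 268) (nat_lit 5) (nat_lit 447) (nat_lit 398) (nat_lit 355))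 (XT.lf (nat_lit 0) (nat_lit 5841636076) (nat_lit 684) (nat_lit 1000743575) (nat_lit 76) (nat_lit 2800772656) (nat_lit 259) (nat_lit 5) (nat_lit 268) (nat_lit 5) (nat_lit 260) (nat_lit 5) (nat_lit 448) (nat_lit 398) (nat_lit 354)))) (XT.nd (nat_lit 156) (nat_lit 1520) (nat_lit 0) (XT.nd (nat_lit 78) (nat_lit 532) (nat_lit 0) (XT.lf (nat_lit 0) (nat_lit 773832426) (nat_lit 608) (nat_lit 529910290) (nat_lit 76) (nat_lit 8483082031) (nat_lit 251) (nat_lit 5) (nat_lit 259) (nat_lit 5) (nat_lit 252) (nat_lit 5) (nat_lit 449) (nat_lit 398) (nat_lit 353)) (XT.lf (nat_lit 0) (nat_lit 5459367980) (nat_lit 608) (nat_lit 62195548) (nat_lit 76) (nat_lit 4412251456) (nat_lit 244) (nat_lit 5) (nat_lit 252) (nat_lit 5) (nat_lit 245) (nat_lit 5) (nat_lit 450) (nat_lit 398) (nat_lit 352))) (XT.nd (nat_lit 78) (nat_lit 456) (nat_lit 0) (XT.lf (nat_lit 0) (nat_lit 208411023) (nat_lit 608) (nat_lit 9634501318) (nat_lit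 76) (nat_lit 242062519) (nat_lit 230) (nat_lit 5) (nat_lit 238) (nat_lit 5) (nat_lit 231) (nat_lit 5) (nat_lit 451) (nat_lit 398) (nat_lit 351)) (XT.lf (nat_lit 0) (nat_lit 947825900) (nat_lit 456) (nat_lit 4060820333) (nat_lit 532) (nat_lit 5230679685) (nat_lit 224) (nat_lit 5) (nat_lit 230) (nat_lit 5) (nat_lit 231) (nat_lit 5) (nat_lit 452) (nat_lit 398) (nat_lit 350)))))) (XT.nd (nat_lit 546) (nat_lit 3192) (nat_lit 0) (XT.nd (nat_lit 234) (nat_lit 1748) (nat_lit 0) (XT.nd (nat_lit 78) (nat_lit 988) (nat_lit 0) (XT.lf (nat_lit 0) (nat_lit 1483642391) (nat_lit 456) (nat_lit 8483822464) (nat_lit 532) (nat_lit 430552624) (nat_lit 218) (nat_lit 5) (nat_lit 224) (nat_lit 5) (nat_lit 225) (nat_lit 5) (nat_lit 453) (nat_lit 398) (nat_lit 349)) (XT.nd (nat_lit 78) (nat_lit 456) (nat_lit 0) (XT.lf (nat_lit 0) (nat_lit 2013715684) (nat_lit 456) (nat_lit 2472177385) (nat_lit 532) (nat_lit 6074361815) (nat_lit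 211) (nat_lit 5) (nat_lit 217) (nat_lit 5) (nat_lit 218) (nat_lit 5) (nat_lit 454) (nat_lit 398) (nat_lit 348)) (XT.lf (nat_lit 0) (nat_lit 2567429426) (nat_lit 456) (nat_lit 7007335043) (nat_lit 532) (nat_lit 1151923771) (nat_lit 205) (nat_lit 5) (nat_lit 211) (nat_lit 5) (nat_lit 212) (nat_lit 5) (nat_lit 455) (nat_lit 398) (nat_lit 347)))) (XT.nd (nat_lit 156) (nat_lit 836) (nat_lit 0) (XT.nd (nat_lit 78) (nat_lit 456) (nat_lit 0) (XT.lf (nat_lit 0) (nat_lit 3129972317) (nat_lit 380) (nat_lit 762036801) (nat_lit 456) (nat_lit 7005093817) (nat_lit 199) (nat_lit 5) (nat_lit 204) (nat_lit 5) (nat_lit 205) (nat_lit 5) (nat_lit 456) (nat_lit 398) (nat_lit 346)) (XT.lf (nat_lit 0) (nat_lit 3698616917) (nat_lit 456) (nat_lit 5420786064) (nat_lit 532) (nat_lit 1952120221) (nat_lit 193) (nat_lit 5) (nat_lit 199) (nat_lit 5) (nat_lit 200) (nat_lit 5) (nat_lit 457) (nat_lit 398) (nat_lit 345))) (XT.nd (nat_lit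 78) (nat_lit 380) (nat_lit 0) (XT.lf (nat_lit 0) (nat_lit 3234752978) (nat_lit 456) (nat_lit 6965320286) (nat_lit 76) (nat_lit 1050182356) (nat_lit 187) (nat_lit 5) (nat_lit 193) (nat_lit 5) (nat_lit 188) (nat_lit 5) (nat_lit 458) (nat_lit 398) (nat_lit 344)) (XT.lf (nat_lit 0) (nat_lit 4872622473) (nat_lit 380) (nat_lit 3729635901) (nat_lit 456) (nat_lit 2830803792) (nat_lit 182) (nat_lit 5) (nat_lit 187) (nat_lit 5) (nat_lit 188) (nat_lit 5) (nat_lit 459) (nat_lit 398) (nat_lit 343))))) (XT.nd (nat_lit 312) (nat_lit 1520) (nat_lit 0) (XT.nd (nat_lit 156) (nat_lit 836) (nat_lit 0) (XT.nd (nat_lit 78) (nat_lit 380) (nat_lit 0) (XT.lf (nat_lit 0) (nat_lit 2513278525) (nat_lit 456) (nat_lit 6145024070) (nat_lit 76) (nat_lit 2961990499) (nat_lit 176) (nat_lit 5) (nat_lit 182) (nat_lit 5) (nat_lit 177) (nat_lit 5) (nat_lit 460) (nat_lit 398) (nat_lit 342)) (XT.lf (nat_lit 0) (nat_lit 6084847578) (nat_lit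 380) (nat_lit 1938921692) (nat_lit 456) (nat_lit 3788107627) (nat_lit 171) (nat_lit 5) (nat_lit 176) (nat_lit 5) (nat_lit 177) (nat_lit 5) (nat_lit 461) (nat_lit 398) (nat_lit 341))) (XT.nd (nat_lit 78) (nat_lit 380) (nat_lit 0) (XT.lf (nat_lit 0) (nat_lit 1722549568) (nat_lit 456) (nat_lit 5306492150) (nat_lit 76) (nat_lit 4978860986) (nat_lit 165) (nat_lit 5) (nat_lit 171) (nat_lit 5) (nat_lit 166) (nat_lit 5) (nat_lit 462) (nat_lit 398) (nat_lit 340)) (XT.lf (nat_lit 0) (nat_lit 7330626023) (nat_lit 380) (nat_lit 53309495) (nat_lit 456) (nat_lit 4824636498) (nat_lit 160) (nat_lit 5) (nat_lit 165) (nat_lit 5) (nat_lit 166) (nat_lit 5) (nat_lit 463) (nat_lit 398) (nat_lit 339)))) (XT.nd (nat_lit 156) (nat_lit 760) (nat_lit 0) (XT.nd (nat_lit 78) (nat_lit 380) (nat_lit 0) (XT.lf (nat_lit 0) (nat_lit 862025416) (nat_lit 380) (nat_lit 4455049549) (nat_lit 76) (nat_lit 7096631241) (nat_lit 155) (nat_lit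 5) (nat_lit 160) (nat_lit 5) (nat_lit 156) (nat_lit 5) (nat_lit 464) (nat_lit 398) (nat_lit 338)) (XT.lf (nat_lit 0) (nat_lit 6694799976) (nat_lit 456) (nat_lit 4031100142) (nat_lit 76) (nat_lit 1897636205) (nat_lit 150) (nat_lit 5) (nat_lit 156) (nat_lit 5) (nat_lit 151) (nat_lit 5) (nat_lit 465) (nat_lit 398) (nat_lit 337))) (XT.nd (nat_lit 78) (nat_lit 456) (nat_lit 0) (XT.lf (nat_lit 0) (nat_lit 9241690645) (nat_lit 304) (nat_lit 3526447378) (nat_lit 380) (nat_lit 70212620) (nat_lit 146) (nat_lit 5) (nat_lit 150) (nat_lit 5) (nat_lit 151) (nat_lit 5) (nat_lit 466) (nat_lit 398) (nat_lit 336)) (XT.lf (nat_lit 0) (nat_lit 5943896720) (nat_lit 456) (nat_lit 3180553213) (nat_lit 76) (nat_lit 3933224873) (nat_lit 140) (nat_lit 5) (nat_lit 146) (nat_lit 5) (nat_lit 141) (nat_lit 5) (nat_lit 467) (nat_lit 398) (nat_lit 335))))))))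
noncomputable def xc32 : XT := (XT.nd (nat_lit 58032) (nat_lit 0) (nat_lit 20900) (XT.nd (nat_lit 1092) (nat_lit 1444) (nat_lit 0) (XT.nd (nat_lit 546) (nat_lit 2204) (nat_lit 0) (XT.nd (nat_lit 234) (nat_lit 1292) (nat_lit 0) (XT.nd (nat_lit 78) (nat_lit 684) (nat_lit 0) (XT.lf (nat_lit 0) (nat_lit 10539650512) (nat_lit 304) (nat_lit 1655640233) (nat_lit 380) (nat_lit 1087123199) (nat_lit 136) (nat_lit 5) (nat_lit 140) (nat_lit 5) (nat_lit 141) (nat_lit 5) (nat_lit 468) (nat_lit 398) (nat_lit 334)) (XT.nd (nat_lit 78) (nat_lit 304) (nat_lit 0) (XT.lf (nat_lit 0) (nat_lit 5129508609) (nat_lit 380) (nat_lit 2331845033) (nat_lit 76) (nat_lit 6050350891) (nat_lit 131) (nat_lit 5) (nat_lit 136) (nat_lit 5) (nat_lit 132) (nat_lit 5) (nat_lit 469) (nat_lit 398) (nat_lit 333)) (XT.lf (nat_lit 0) (nat_lit 11569374123) (nat_lit 380) (nat_lit 1895607256) (nat_lit 76) (nat_lit 281719426) (nat_lit 127) (nat_lit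 5) (nat_lit 132) (nat_lit 5) (nat_lit 128) (nat_lit 5) (nat_lit 470) (nat_lit 398) (nat_lit 332)))) (XT.nd (nat_lit 156) (nat_lit 608) (nat_lit 0) (XT.nd (nat_lit 78) (nat_lit 304) (nat_lit 0) (XT.lf (nat_lit 0) (nat_lit 4249795741) (nat_lit 380) (nat_lit 1491199303) (nat_lit 76) (nat_lit 8245378089) (nat_lit 122) (nat_lit 5) (nat_lit 127) (nat_lit 5) (nat_lit 123) (nat_lit 5) (nat_lit 471) (nat_lit 398) (nat_lit 331)) (XT.lf (nat_lit 0) (nat_lit 10898014961) (nat_lit 380) (nat_lit 1070955701) (nat_lit 76) (nat_lit 2262820551) (nat_lit 118) (nat_lit 5) (nat_lit 123) (nat_lit 5) (nat_lit 119) (nat_lit 5) (nat_lit 472) (nat_lit 398) (nat_lit 330))) (XT.nd (nat_lit 78) (nat_lit 228) (nat_lit 0) (XT.lf (nat_lit 0) (nat_lit 3302432204) (nat_lit 380) (nat_lit 665245404) (nat_lit 76) (nat_lit 10514789576) (nat_lit 113) (nat_lit 5) (nat_lit 118) (nat_lit 5) (nat_lit 114) (nat_lit 5) (nat_lit 473) (nat_lit 398)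 (nat_lit 329)) (XT.lf (nat_lit 0) (nat_lit 10168258704) (nat_lit 304) (nat_lit 264914287) (nat_lit 76) (nat_lit 4305533883) (nat_lit 110) (nat_lit 5) (nat_lit 114) (nat_lit 5) (nat_lit 111) (nat_lit 5) (nat_lit 474) (nat_lit 398) (nat_lit 328))))) (XT.nd (nat_lit 234) (nat_lit 988) (nat_lit 0) (XT.nd (nat_lit 78) (nat_lit 608) (nat_lit 0) (XT.lf (nat_lit 0) (nat_lit 140754809) (nat_lit 228) (nat_lit 2144744066) (nat_lit 304) (nat_lit 12715296633) (nat_lit 102) (nat_lit 5) (nat_lit 105) (nat_lit 5) (nat_lit 106) (nat_lit 5) (nat_lit 475) (nat_lit 398) (nat_lit 327)) (XT.nd (nat_lit 78) (nat_lit 304) (nat_lit 0) (XT.lf (nat_lit 0) (nat_lit 521989196) (nat_lit 304) (nat_lit 8858798233) (nat_lit 380) (nat_lit 5887440617) (nat_lit 98) (nat_lit 5) (nat_lit 102) (nat_lit 5) (nat_lit 103) (nat_lit 5) (nat_lit 476) (nat_lit 398) (nat_lit 326)) (XT.lf (nat_lit 0) (nat_lit 925739746) (nat_lit 228) (nat_lit 273159564)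 (nat_lit 304) (nat_lit 14343262751) (nat_lit 94) (nat_lit 5) (nat_lit 97) (nat_lit 5) (nat_lit 98) (nat_lit 5) (nat_lit 477) (nat_lit 398) (nat_lit 325)))) (XT.nd (nat_lit 156) (nat_lit 456) (nat_lit 0) (XT.nd (nat_lit 78) (nat_lit 304) (nat_lit 0) (XT.lf (nat_lit 0) (nat_lit 1278004185) (nat_lit 228) (nat_lit 7252491384) (nat_lit 304) (nat_lit 7290787702) (nat_lit 91) (nat_lit 5) (nat_lit 94) (nat_lit 5) (nat_lit 95) (nat_lit 5) (nat_lit 478) (nat_lit 398) (nat_lit 324)) (XT.lf (nat_lit 0) (nat_lit 44910978) (nat_lit 304) (nat_lit 14445753107) (nat_lit 76) (nat_lit 1616692068) (nat_lit 87) (nat_lit 5) (nat_lit 91) (nat_lit 5) (nat_lit 88) (nat_lit 5) (nat_lit 479) (nat_lit 398) (nat_lit 323))) (XT.nd (nat_lit 78) (nat_lit 228) (nat_lit 0) (XT.lf (nat_lit 0) (nat_lit 1990832923) (nat_lit 228) (nat_lit 5620954037) (nat_lit 304) (nat_lit 8787057748) (nat_lit 84) (nat_lit 5) (nat_lit 87) (nat_lit 5) (nat_lit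 88) (nat_lit 5) (nat_lit 480) (nat_lit 398) (nat_lit 322)) (XT.lf (nat_lit 0) (nat_lit 2340008289) (nat_lit 228) (nat_lit 13151852294) (nat_lit 304) (nat_lit 1205494017) (nat_lit 81) (nat_lit 5) (nat_lit 84) (nat_lit 5) (nat_lit 85) (nat_lit 5) (nat_lit 481) (nat_lit 398) (nat_lit 321)))))) (XT.nd (nat_lit 56316) (nat_lit 0) (nat_lit 52288) (XT.nd (nat_lit 234) (nat_lit 608) (nat_lit 0) (XT.nd (nat_lit 78) (nat_lit 532) (nat_lit 0) (XT.lf (nat_lit 0) (nat_lit 2650903961) (nat_lit 228) (nat_lit 3969302389) (nat_lit 304) (nat_lit 10381690510) (nat_lit 77) (nat_lit 5) (nat_lit 80) (nat_lit 5) (nat_lit 81) (nat_lit 5) (nat_lit 482) (nat_lit 398) (nat_lit 320)) (XT.nd (nat_lit 78) (nat_lit 304) (nat_lit 0) (XT.lf (nat_lit 0) (nat_lit 2959885813) (nat_lit 228) (nat_lit 11808159297) (nat_lit 304) (nat_lit 2545296473) (nat_lit 74) (nat_lit 5) (nat_lit 77) (nat_lit 5) (nat_lit 78) (nat_lit 5) (nat_lit 483) (nat_lit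 398) (nat_lit 319)) (XT.lf (nat_lit 0) (nat_lit 3247746057) (nat_lit 228) (nat_lit 2302908121) (nat_lit 304) (nat_lit 12080819487) (nat_lit 70) (nat_lit 5) (nat_lit 73) (nat_lit 5) (nat_lit 74) (nat_lit 5) (nat_lit 484) (nat_lit 398) (nat_lit 318)))) (XT.nd (nat_lit 156) (nat_lit 152) (nat_lit 0) (XT.nd (nat_lit 78) (nat_lit 304) (nat_lit 0) (XT.lf (nat_lit 0) (nat_lit 3510571669) (nat_lit 152) (nat_lit 10465887068) (nat_lit 228) (nat_lit 3979923795) (nat_lit 68) (nat_lit 5) (nat_lit 70) (nat_lit 5) (nat_lit 71) (nat_lit 5) (nat_lit 485) (nat_lit 398) (nat_lit 317)) (XT.lf (nat_lit 0) (nat_lit 3769873042) (nat_lit 228) (nat_lit 627465408) (nat_lit 304) (nat_lit 13891322461) (nat_lit 64) (nat_lit 5) (nat_lit 67) (nat_lit 5) (nat_lit 68) (nat_lit 5) (nat_lit 486) (nat_lit 398) (nat_lit 316))) (XT.nd (nat_lit 55848) (nat_lit 0) (nat_lit 55404) (XT.lf (nat_lit 0) (nat_lit 3980022778) (nat_lit 152) (nat_lit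 9131415709) (nat_lit 228) (nat_lit 5516151578) (nat_lit 62) (nat_lit 5) (nat_lit 64) (nat_lit 5) (nat_lit 65) (nat_lit 5) (nat_lit 487) (nat_lit 398) (nat_lit 315)) (XT.lf (nat_lit 0) (nat_lit 1681189313) (nat_lit 76) (nat_lit 771011207) (nat_lit 76) (nat_lit 771011207) (nat_lit 791) (nat_lit 4) (nat_lit 792) (nat_lit 5) (nat_lit 792) (nat_lit 4) (nat_lit 402) (nat_lit 399) (nat_lit 399))))) (XT.nd (nat_lit 312) (nat_lit 2204) (nat_lit 0) (XT.nd (nat_lit 156) (nat_lit 380) (nat_lit 0) (XT.nd (nat_lit 78) (nat_lit 304) (nat_lit 0) (XT.lf (nat_lit 0) (nat_lit 1959372758) (nat_lit 152) (nat_lit 1258538268) (nat_lit 228) (nat_lit 3234151068) (nat_lit 788) (nat_lit 5) (nat_lit 790) (nat_lit 5) (nat_lit 791) (nat_lit 4) (nat_lit 403) (nat_lit 399) (nat_lit 398)) (XT.lf (nat_lit 0) (nat_lit 624296198) (nat_lit 228) (nat_lit 838072244) (nat_lit 304) (nat_lit 4998257171) (nat_lit 784) (nat_lit 5) (nat_lit 787)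 (nat_lit 5) (nat_lit 788) (nat_lit 5) (nat_lit 404) (nat_lit 399) (nat_lit 397))) (XT.nd (nat_lit 78) (nat_lit 380) (nat_lit 0) (XT.lf (nat_lit 0) (nat_lit 5834319131) (nat_lit 228) (nat_lit 273500617) (nat_lit 304) (nat_lit 364169277) (nat_lit 784) (nat_lit 5) (nat_lit 787) (nat_lit 5) (nat_lit 788) (nat_lit 5) (nat_lit 405) (nat_lit 399) (nat_lit 396)) (XT.lf (nat_lit 0) (nat_lit 4209650735) (nat_lit 380) (nat_lit 1839054837) (nat_lit 76) (nat_lit 437254146) (nat_lit 779) (nat_lit 5) (nat_lit 784) (nat_lit 5) (nat_lit 780) (nat_lit 5) (nat_lit 406) (nat_lit 399) (nat_lit 395)))) (XT.nd (nat_lit 156) (nat_lit 1216) (nat_lit 0) (XT.nd (nat_lit 78) (nat_lit 532) (nat_lit 0) (XT.lf (nat_lit 0) (nat_lit 2242385975) (nat_lit 456) (nat_lit 2979003891) (nat_lit 76) (nat_lit 1281434408) (nat_lit 773) (nat_lit 5) (nat_lit 779) (nat_lit 5) (nat_lit 774) (nat_lit 5) (nat_lit 407) (nat_lit 399) (nat_lit 394))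 (XT.lf (nat_lit 0) (nat_lit 202678472) (nat_lit 532) (nat_lit 4056427233) (nat_lit 76) (nat_lit 2263524052) (nat_lit 766) (nat_lit 5) (nat_lit 773) (nat_lit 5) (nat_lit 767) (nat_lit 5) (nat_lit 408) (nat_lit 399) (nat_lit 393))) (XT.nd (nat_lit 78) (nat_lit 684) (nat_lit 0) (XT.lf (nat_lit 0) (nat_lit 1460624388) (nat_lit 532) (nat_lit 3147997309) (nat_lit 608) (nat_lit 1936516581) (nat_lit 759) (nat_lit 5) (nat_lit 766) (nat_lit 5) (nat_lit 767) (nat_lit 5) (nat_lit 409) (nat_lit 399) (nat_lit 392)) (XT.lf (nat_lit 0) (nat_lit 517511428) (nat_lit 608) (nat_lit 1897842514) (nat_lit 684) (nat_lit 4155226324) (nat_lit 750) (nat_lit 5) (nat_lit 758) (nat_lit 5) (nat_lit 759) (nat_lit 5) (nat_lit 410) (nat_lit 399) (nat_lit 391))))))) (XT.nd (nat_lit 1092) (nat_lit 17556) (nat_lit 0) (XT.nd (nat_lit 546) (nat_lit 8284) (nat_lit 0) (XT.nd (nat_lit 234) (nat_lit 3952) (nat_lit 0) (XT.nd (nat_lit 78) (nat_lit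 1520) (nat_lit 0) (XT.lf (nat_lit 0) (nat_lit 148768696) (nat_lit 684) (nat_lit 357495821) (nat_lit 76) (nat_lit 6092688244) (nat_lit 749) (nat_lit 5) (nat_lit 758) (nat_lit 5) (nat_lit 750) (nat_lit 5) (nat_lit 411) (nat_lit 399) (nat_lit 390)) (XT.nd (nat_lit 78) (nat_lit 836) (nat_lit 0) (XT.lf (nat_lit 0) (nat_lit 4415192831) (nat_lit 760) (nat_lit 1184784967) (nat_lit 76) (nat_lit 1029861468) (nat_lit 740) (nat_lit 5) (nat_lit 750) (nat_lit 5) (nat_lit 741) (nat_lit 5) (nat_lit 412) (nat_lit 399) (nat_lit 389)) (XT.lf (nat_lit 0) (nat_lit 2006910238) (nat_lit 836) (nat_lit 1955989014) (nat_lit 76) (nat_lit 2700738764) (nat_lit 729) (nat_lit 5) (nat_lit 740) (nat_lit 5) (nat_lit 730) (nat_lit 5) (nat_lit 413) (nat_lit 399) (nat_lit 388)))) (XT.nd (nat_lit 156) (nat_lit 2128) (nat_lit 0) (XT.nd (nat_lit 78) (nat_lit 988) (nat_lit 0) (XT.lf (nat_lit 0) (nat_lit 4030120064) (nat_lit 836) (nat_lit 2183428885)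 (nat_lit 912) (nat_lit 486845371) (nat_lit 718) (nat_lit 5) (nat_lit 729) (nat_lit 5) (nat_lit 730) (nat_lit 5) (nat_lit 414) (nat_lit 399) (nat_lit 387)) (XT.lf (nat_lit 0) (nat_lit 3401496279) (nat_lit 912) (nat_lit 248868891) (nat_lit 988) (nat_lit 3089556634) (nat_lit 705) (nat_lit 5) (nat_lit 717) (nat_lit 5) (nat_lit 718) (nat_lit 5) (nat_lit 415) (nat_lit 399) (nat_lit 386))) (XT.nd (nat_lit 78) (nat_lit 1064) (nat_lit 0) (XT.lf (nat_lit 0) (nat_lit 1017607303) (nat_lit 1064) (nat_lit 3959269982) (nat_lit 76) (nat_lit 1805396676) (nat_lit 691) (nat_lit 5) (nat_lit 705) (nat_lit 5) (nat_lit 692) (nat_lit 5) (nat_lit 416) (nat_lit 399) (nat_lit 385)) (XT.lf (nat_lit 0) (nat_lit 2292706229) (nat_lit 1064) (nat_lit 2815869816) (nat_lit 1140) (nat_lit 1718866918) (nat_lit 677) (nat_lit 5) (nat_lit 691) (nat_lit 5) (nat_lit 692) (nat_lit 5) (nat_lit 417) (nat_lit 399) (nat_lit 384))))) (XT.nd (nat_lit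 234) (nat_lit 4484) (nat_lit 0) (XT.nd (nat_lit 78) (nat_lit 2584) (nat_lit 0) (XT.lf (nat_lit 0) (nat_lit 1816236259) (nat_lit 1140) (nat_lit 504195420) (nat_lit 1216) (nat_lit 4555138465) (nat_lit 661) (nat_lit 5) (nat_lit 676) (nat_lit 5) (nat_lit 677) (nat_lit 5) (nat_lit 418) (nat_lit 399) (nat_lit 383)) (XT.nd (nat_lit 78) (nat_lit 1368) (nat_lit 0) (XT.lf (nat_lit 0) (nat_lit 1383912561) (nat_lit 1216) (nat_lit 4994752788) (nat_lit 1292) (nat_lit 547831943) (nat_lit 645) (nat_lit 5) (nat_lit 661) (nat_lit 5) (nat_lit 662) (nat_lit 5) (nat_lit 419) (nat_lit 399) (nat_lit 382)) (XT.lf (nat_lit 0) (nat_lit 991970654) (nat_lit 1292) (nat_lit 2456261848) (nat_lit 1368) (nat_lit 3531950467) (nat_lit 627) (nat_lit 5) (nat_lit 644) (nat_lit 5) (nat_lit 645) (nat_lit 5) (nat_lit 420) (nat_lit 399) (nat_lit 381)))) (XT.nd (nat_lit 156) (nat_lit 1596) (nat_lit 0) (XT.nd (nat_lit 78) (nat_lit 1444) (nat_lit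 0) (XT.lf (nat_lit 0) (nat_lit 431492723) (nat_lit 1444) (nat_lit 6379060440) (nat_lit 76) (nat_lit 226450958) (nat_lit 608) (nat_lit 5) (nat_lit 627) (nat_lit 5) (nat_lit 609) (nat_lit 5) (nat_lit 421) (nat_lit 399) (nat_lit 380)) (XT.lf (nat_lit 0) (nat_lit 348483648) (nat_lit 1444) (nat_lit 4053723520) (nat_lit 1520) (nat_lit 2694133638) (nat_lit 589) (nat_lit 5) (nat_lit 608) (nat_lit 5) (nat_lit 609) (nat_lit 5) (nat_lit 422) (nat_lit 399) (nat_lit 379))) (XT.nd (nat_lit 78) (nat_lit 0) (nat_lit 0) (XT.lf (nat_lit 0) (nat_lit 94471167) (nat_lit 1520) (nat_lit 1145394012) (nat_lit 1596) (nat_lit 5918968108) (nat_lit 568) (nat_lit 5) (nat_lit 588) (nat_lit 5) (nat_lit 589) (nat_lit 5) (nat_lit 423) (nat_lit 399) (nat_lit 378)) (XT.lf (nat_lit 0) (nat_lit 5195132252) (nat_lit 1596) (nat_lit 125316285) (nat_lit 76) (nat_lit 1903603340) (nat_lit 568) (nat_lit 5) (nat_lit 589) (nat_lit 5) (nat_lit 569)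 (nat_lit 5) (nat_lit 424) (nat_lit 399) (nat_lit 377)))))) (XT.nd (nat_lit 546) (nat_lit 7448) (nat_lit 0) (XT.nd (nat_lit 234) (nat_lit 4940) (nat_lit 0) (XT.nd (nat_lit 78) (nat_lit 3496) (nat_lit 0) (XT.lf (nat_lit 0) (nat_lit 1889648510) (nat_lit 1672) (nat_lit 302838051) (nat_lit 76) (nat_lit 5099732782) (nat_lit 546) (nat_lit 5) (nat_lit 568) (nat_lit 5) (nat_lit 547) (nat_lit 5) (nat_lit 425) (nat_lit 399) (nat_lit 376)) (XT.nd (nat_lit 78) (nat_lit 1824) (nat_lit 0) (XT.lf (nat_lit 0) (nat_lit 5838338646) (nat_lit 1748) (nat_lit 440336647) (nat_lit 76) (nat_lit 1084689895) (nat_lit 524) (nat_lit 5) (nat_lit 547) (nat_lit 5) (nat_lit 525) (nat_lit 5) (nat_lit 426) (nat_lit 399) (nat_lit 375)) (XT.lf (nat_lit 0) (nat_lit 2387363119) (nat_lit 1824) (nat_lit 548650779) (nat_lit 76) (nat_lit 4501296930) (nat_lit 500) (nat_lit 5) (nat_lit 524) (nat_lit 5) (nat_lit 501) (nat_lit 5) (nat_lit 427) (nat_lit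 399) (nat_lit 374)))) (XT.nd (nat_lit 156) (nat_lit 1900) (nat_lit 0) (XT.nd (nat_lit 78) (nat_lit 1216) (nat_lit 0) (XT.lf (nat_lit 0) (nat_lit 6339568170) (nat_lit 1900) (nat_lit 611857176) (nat_lit 76) (nat_lit 562988487) (nat_lit 476) (nat_lit 5) (nat_lit 501) (nat_lit 5) (nat_lit 477) (nat_lit 5) (nat_lit 428) (nat_lit 399) (nat_lit 373)) (XT.lf (nat_lit 0) (nat_lit 2741886486) (nat_lit 1216) (nat_lit 654590244) (nat_lit 76) (nat_lit 4197744817) (nat_lit 460) (nat_lit 5) (nat_lit 476) (nat_lit 5) (nat_lit 461) (nat_lit 5) (nat_lit 429) (nat_lit 399) (nat_lit 372))) (XT.nd (nat_lit 78) (nat_lit 988) (nat_lit 0) (XT.lf (nat_lit 0) (nat_lit 6707911881) (nat_lit 988) (nat_lit 649763465) (nat_lit 76) (nat_lit 319641342) (nat_lit 448) (nat_lit 5) (nat_lit 461) (nat_lit 5) (nat_lit 449) (nat_lit 5) (nat_lit 430) (nat_lit 399) (nat_lit 371)) (XT.lf (nat_lit 0) (nat_lit 2961811954) (nat_lit 988) (nat_lit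 630244538) (nat_lit 76) (nat_lit 4171027374) (nat_lit 435) (nat_lit 5) (nat_lit 448) (nat_lit 5) (nat_lit 436) (nat_lit 5) (nat_lit 431) (nat_lit 399) (nat_lit 370))))) (XT.nd (nat_lit 312) (nat_lit 3876) (nat_lit 0) (XT.nd (nat_lit 156) (nat_lit 1748) (nat_lit 0) (XT.nd (nat_lit 78) (nat_lit 988) (nat_lit 0) (XT.lf (nat_lit 0) (nat_lit 6951607672) (nat_lit 912) (nat_lit 563188515) (nat_lit 76) (nat_lit 337426757) (nat_lit 424) (nat_lit 5) (nat_lit 436) (nat_lit 5) (nat_lit 425) (nat_lit 5) (nat_lit 432) (nat_lit 399) (nat_lit 369)) (XT.lf (nat_lit 0) (nat_lit 3054893187) (nat_lit 988) (nat_lit 484475181) (nat_lit 76) (nat_lit 4404691943) (nat_lit 411) (nat_lit 5) (nat_lit 424) (nat_lit 5) (nat_lit 412) (nat_lit 5) (nat_lit 433) (nat_lit 399) (nat_lit 368))) (XT.nd (nat_lit 78) (nat_lit 912) (nat_lit 0) (XT.lf (nat_lit 0) (nat_lit 7078095098) (nat_lit 912) (nat_lit 360579607) (nat_lit 76) (nat_lit 600636800)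 (nat_lit 400) (nat_lit 5) (nat_lit 412) (nat_lit 5) (nat_lit 401) (nat_lit 5) (nat_lit 434) (nat_lit 399) (nat_lit 367)) (XT.lf (nat_lit 0) (nat_lit 3028096757) (nat_lit 912) (nat_lit 225482583) (nat_lit 76) (nat_lit 4883763678) (nat_lit 388) (nat_lit 5) (nat_lit 400) (nat_lit 5) (nat_lit 389) (nat_lit 5) (nat_lit 435) (nat_lit 399) (nat_lit 366)))) (XT.nd (nat_lit 156) (nat_lit 1520) (nat_lit 0) (XT.nd (nat_lit 78) (nat_lit 1596) (nat_lit 0) (XT.lf (nat_lit 0) (nat_lit 7094065180) (nat_lit 836) (nat_lit 49761368) (nat_lit 76) (nat_lit 1094963971) (nat_lit 378) (nat_lit 5) (nat_lit 389) (nat_lit 5) (nat_lit 379) (nat_lit 5) (nat_lit 436) (nat_lit 399) (nat_lit 365)) (XT.lf (nat_lit 0) (nat_lit 140981100) (nat_lit 760) (nat_lit 2747584046) (nat_lit 836) (nat_lit 5454569857) (nat_lit 357) (nat_lit 5) (nat_lit 367) (nat_lit 5) (nat_lit 368) (nat_lit 5) (nat_lit 437) (nat_lit 399) (nat_lit 364))) (XT.nd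 (nat_lit 78) (nat_lit 760) (nat_lit 0) (XT.lf (nat_lit 0) (nat_lit 366815389) (nat_lit 760) (nat_lit 6641071716) (nat_lit 836) (nat_lit 1442962282) (nat_lit 347) (nat_lit 5) (nat_lit 357) (nat_lit 5) (nat_lit 358) (nat_lit 5) (nat_lit 438) (nat_lit 399) (nat_lit 363)) (XT.lf (nat_lit 0) (nat_lit 610312746) (nat_lit 684) (nat_lit 2032732875) (nat_lit 760) (nat_lit 5918616510) (nat_lit 337) (nat_lit 5) (nat_lit 346) (nat_lit 5) (nat_lit 347) (nat_lit 5) (nat_lit 439) (nat_lit 399) (nat_lit 362))))))))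
noncomputable def xc33 : XT := (XT.nd (nat_lit 2262) (nat_lit 5472) (nat_lit 0) (XT.nd (nat_lit 1092) (nat_lit 6688) (nat_lit 0) (XT.nd (nat_lit 546) (nat_lit 3876) (nat_lit 0) (XT.nd (nat_lit 234) (nat_lit 2584) (nat_lit 0) (XT.nd (nat_lit 78) (nat_lit 1444) (nat_lit 0) (XT.lf (nat_lit 0) (nat_lit 879497464) (nat_lit 684) (nat_lit 5943953632) (nat_lit 760) (nat_lit 1852331373) (nat_lit 328) (nat_lit 5) (nat_lit 337) (nat_lit 5) (nat_lit 338) (nat_lit 5) (nat_lit 440) (nat_lit 399) (nat_lit 361)) (XT.nd (nat_lit 78) (nat_lit 684) (nat_lit 0) (XT.lf (nat_lit 0) (nat_lit 1172852712) (nat_lit 684) (nat_lit 1122031763) (nat_lit 760) (nat_lit 6498349332) (nat_lit 318) (nat_lit 5) (nat_lit 327) (nat_lit 5) (nat_lit 328) (nat_lit 5) (nat_lit 441) (nat_lit 399) (nat_lit 360)) (XT.lf (nat_lit 0) (nat_lit 1481236437) (nat_lit 684) (nat_lit 5063850259) (nat_lit 760) (nat_lit 2368804616) (nat_lit 309) (nat_lit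 5) (nat_lit 318) (nat_lit 5) (nat_lit 319) (nat_lit 5) (nat_lit 442) (nat_lit 399) (nat_lit 359)))) (XT.nd (nat_lit 156) (nat_lit 1292) (nat_lit 0) (XT.nd (nat_lit 78) (nat_lit 608) (nat_lit 0) (XT.lf (nat_lit 0) (nat_lit 1822375008) (nat_lit 608) (nat_lit 25916041) (nat_lit 684) (nat_lit 7189867248) (nat_lit 300) (nat_lit 5) (nat_lit 308) (nat_lit 5) (nat_lit 309) (nat_lit 5) (nat_lit 443) (nat_lit 399) (nat_lit 358)) (XT.lf (nat_lit 0) (nat_lit 2166050591) (nat_lit 608) (nat_lit 4010808923) (nat_lit 684) (nat_lit 2988639819) (nat_lit 292) (nat_lit 5) (nat_lit 300) (nat_lit 5) (nat_lit 301) (nat_lit 5) (nat_lit 444) (nat_lit 399) (nat_lit 357))) (XT.nd (nat_lit 78) (nat_lit 608) (nat_lit 0) (XT.lf (nat_lit 0) (nat_lit 1314975370) (nat_lit 684) (nat_lit 6751824619) (nat_lit 76) (nat_lit 1229810597) (nat_lit 283) (nat_lit 5) (nat_lit 292) (nat_lit 5) (nat_lit 284) (nat_lit 5) (nat_lit 445) (nat_lit 399)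 (nat_lit 356)) (XT.lf (nat_lit 0) (nat_lit 2928312740) (nat_lit 608) (nat_lit 2793959403) (nat_lit 684) (nat_lit 3708686291) (nat_lit 275) (nat_lit 5) (nat_lit 283) (nat_lit 5) (nat_lit 284) (nat_lit 5) (nat_lit 446) (nat_lit 399) (nat_lit 355))))) (XT.nd (nat_lit 234) (nat_lit 2128) (nat_lit 0) (XT.nd (nat_lit 78) (nat_lit 1140) (nat_lit 0) (XT.lf (nat_lit 0) (nat_lit 691157146) (nat_lit 608) (nat_lit 6227541203) (nat_lit 76) (nat_lit 2650394503) (nat_lit 267) (nat_lit 5) (nat_lit 275) (nat_lit 5) (nat_lit 268) (nat_lit 5) (nat_lit 447) (nat_lit 399) (nat_lit 354)) (XT.nd (nat_lit 78) (nat_lit 532) (nat_lit 0) (XT.lf (nat_lit 0) (nat_lit 3762700805) (nat_lit 608) (nat_lit 1421588015) (nat_lit 684) (nat_lit 4526360361) (nat_lit 259) (nat_lit 5) (nat_lit 267) (nat_lit 5) (nat_lit 268) (nat_lit 5) (nat_lit 448) (nat_lit 399) (nat_lit 353)) (XT.lf (nat_lit 0) (nat_lit 4207533857) (nat_lit 532) (nat_lit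 5627322430) (nat_lit 608) (nat_lit 21144777) (nat_lit 252) (nat_lit 5) (nat_lit 259) (nat_lit 5) (nat_lit 260) (nat_lit 5) (nat_lit 449) (nat_lit 399) (nat_lit 352)))) (XT.nd (nat_lit 156) (nat_lit 1064) (nat_lit 0) (XT.nd (nat_lit 78) (nat_lit 456) (nat_lit 0) (XT.lf (nat_lit 0) (nat_lit 4565998014) (nat_lit 608) (nat_lit 5341473053) (nat_lit 76) (nat_lit 97497180) (nat_lit 244) (nat_lit 5) (nat_lit 252) (nat_lit 5) (nat_lit 245) (nat_lit 5) (nat_lit 450) (nat_lit 399) (nat_lit 351)) (XT.lf (nat_lit 0) (nat_lit 5132718079) (nat_lit 456) (nat_lit 4194905408) (nat_lit 532) (nat_lit 830036624) (nat_lit 238) (nat_lit 5) (nat_lit 244) (nat_lit 5) (nat_lit 245) (nat_lit 5) (nat_lit 451) (nat_lit 399) (nat_lit 350))) (XT.nd (nat_lit 78) (nat_lit 456) (nat_lit 0) (XT.lf (nat_lit 0) (nat_lit 3878852587) (nat_lit 608) (nat_lit 4698020049) (nat_lit 76) (nat_lit 1737291694) (nat_lit 230) (nat_lit 5) (nat_lit 238)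 (nat_lit 5) (nat_lit 231) (nat_lit 5) (nat_lit 452) (nat_lit 399) (nat_lit 349)) (XT.lf (nat_lit 0) (nat_lit 6116999191) (nat_lit 456) (nat_lit 2632748789) (nat_lit 532) (nat_lit 1724867092) (nat_lit 224) (nat_lit 5) (nat_lit 230) (nat_lit 5) (nat_lit 231) (nat_lit 5) (nat_lit 453) (nat_lit 399) (nat_lit 348)))))) (XT.nd (nat_lit 546) (nat_lit 3420) (nat_lit 0) (XT.nd (nat_lit 234) (nat_lit 1748) (nat_lit 0) (XT.nd (nat_lit 78) (nat_lit 988) (nat_lit 0) (XT.lf (nat_lit 0) (nat_lit 3115045283) (nat_lit 532) (nat_lit 4013482603) (nat_lit 76) (nat_lit 3510363513) (nat_lit 217) (nat_lit 5) (nat_lit 224) (nat_lit 5) (nat_lit 218) (nat_lit 5) (nat_lit 454) (nat_lit 399) (nat_lit 347)) (XT.nd (nat_lit 78) (nat_lit 532) (nat_lit 0) (XT.lf (nat_lit 0) (nat_lit 7155768397) (nat_lit 456) (nat_lit 946916509) (nat_lit 532) (nat_lit 2704665146) (nat_lit 211) (nat_lit 5) (nat_lit 217) (nat_lit 5) (nat_lit 218) (nat_lit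 5) (nat_lit 455) (nat_lit 399) (nat_lit 346)) (XT.lf (nat_lit 0) (nat_lit 2275528769) (nat_lit 532) (nat_lit 3292903695) (nat_lit 76) (nat_lit 5411216611) (nat_lit 204) (nat_lit 5) (nat_lit 211) (nat_lit 5) (nat_lit 205) (nat_lit 5) (nat_lit 456) (nat_lit 399) (nat_lit 345)))) (XT.nd (nat_lit 156) (nat_lit 836) (nat_lit 0) (XT.nd (nat_lit 78) (nat_lit 532) (nat_lit 0) (XT.lf (nat_lit 0) (nat_lit 7392998650) (nat_lit 456) (nat_lit 2917440527) (nat_lit 76) (nat_lit 845829257) (nat_lit 199) (nat_lit 5) (nat_lit 205) (nat_lit 5) (nat_lit 200) (nat_lit 5) (nat_lit 457) (nat_lit 399) (nat_lit 344)) (XT.lf (nat_lit 0) (nat_lit 1360793369) (nat_lit 532) (nat_lit 2541294328) (nat_lit 76) (nat_lit 7434880191) (nat_lit 192) (nat_lit 5) (nat_lit 199) (nat_lit 5) (nat_lit 193) (nat_lit 5) (nat_lit 458) (nat_lit 399) (nat_lit 343))) (XT.nd (nat_lit 78) (nat_lit 456) (nat_lit 0) (XT.lf (nat_lit 0) (nat_lit 6622557918)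 (nat_lit 456) (nat_lit 2161539174) (nat_lit 76) (nat_lit 2737792726) (nat_lit 187) (nat_lit 5) (nat_lit 193) (nat_lit 5) (nat_lit 188) (nat_lit 5) (nat_lit 459) (nat_lit 399) (nat_lit 342)) (XT.lf (nat_lit 0) (nat_lit 370871512) (nat_lit 456) (nat_lit 1763682686) (nat_lit 76) (nat_lit 9576855850) (nat_lit 181) (nat_lit 5) (nat_lit 187) (nat_lit 5) (nat_lit 182) (nat_lit 5) (nat_lit 460) (nat_lit 399) (nat_lit 341))))) (XT.nd (nat_lit 312) (nat_lit 1824) (nat_lit 0) (XT.nd (nat_lit 156) (nat_lit 836) (nat_lit 0) (XT.nd (nat_lit 78) (nat_lit 380) (nat_lit 0) (XT.lf (nat_lit 0) (nat_lit 5785290386) (nat_lit 456) (nat_lit 1382770947) (nat_lit 76) (nat_lit 4736854478) (nat_lit 176) (nat_lit 5) (nat_lit 182) (nat_lit 5) (nat_lit 177) (nat_lit 5) (nat_lit 461) (nat_lit 399) (nat_lit 340)) (XT.lf (nat_lit 0) (nat_lit 11133744079) (nat_lit 380) (nat_lit 265842106) (nat_lit 456) (nat_lit 703892705) (nat_lit 171)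 (nat_lit 5) (nat_lit 176) (nat_lit 5) (nat_lit 177) (nat_lit 5) (nat_lit 462) (nat_lit 399) (nat_lit 339))) (XT.nd (nat_lit 78) (nat_lit 380) (nat_lit 0) (XT.lf (nat_lit 0) (nat_lit 4880829117) (nat_lit 456) (nat_lit 586273608) (nat_lit 76) (nat_lit 6838855279) (nat_lit 165) (nat_lit 5) (nat_lit 171) (nat_lit 5) (nat_lit 166) (nat_lit 5) (nat_lit 463) (nat_lit 399) (nat_lit 338)) (XT.lf (nat_lit 0) (nat_lit 10663764378) (nat_lit 456) (nat_lit 174064665) (nat_lit 76) (nat_lit 1675785644) (nat_lit 160) (nat_lit 5) (nat_lit 166) (nat_lit 5) (nat_lit 161) (nat_lit 5) (nat_lit 464) (nat_lit 399) (nat_lit 337)))) (XT.nd (nat_lit 156) (nat_lit 760) (nat_lit 0) (XT.nd (nat_lit 78) (nat_lit 304) (nat_lit 0) (XT.lf (nat_lit 0) (nat_lit 225624477) (nat_lit 380) (nat_lit 3684201665) (nat_lit 456) (nat_lit 8815806502) (nat_lit 150) (nat_lit 5) (nat_lit 155) (nat_lit 5) (nat_lit 156) (nat_lit 5) (nat_lit 465) (nat_lit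 399) (nat_lit 336)) (XT.lf (nat_lit 0) (nat_lit 637451589) (nat_lit 304) (nat_lit 9237055483) (nat_lit 380) (nat_lit 3068113468) (nat_lit 146) (nat_lit 5) (nat_lit 150) (nat_lit 5) (nat_lit 151) (nat_lit 5) (nat_lit 466) (nat_lit 399) (nat_lit 335))) (XT.nd (nat_lit 78) (nat_lit 304) (nat_lit 0) (XT.lf (nat_lit 0) (nat_lit 1052354772) (nat_lit 380) (nat_lit 1821099134) (nat_lit 456) (nat_lit 10291117696) (nat_lit 140) (nat_lit 5) (nat_lit 145) (nat_lit 5) (nat_lit 146) (nat_lit 5) (nat_lit 467) (nat_lit 399) (nat_lit 334)) (XT.lf (nat_lit 0) (nat_lit 1454930449) (nat_lit 304) (nat_lit 7571017966) (nat_lit 380) (nat_lit 4365340716) (nat_lit 136) (nat_lit 5) (nat_lit 140) (nat_lit 5) (nat_lit 141) (nat_lit 5) (nat_lit 468) (nat_lit 399) (nat_lit 333))))))) (XT.nd (nat_lit 1170) (nat_lit 988) (nat_lit 0) (XT.nd (nat_lit 546) (nat_lit 2204) (nat_lit 0) (XT.nd (nat_lit 234) (nat_lit 1216) (nat_lit 0) (XT.nd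 (nat_lit 78) (nat_lit 684) (nat_lit 0) (XT.lf (nat_lit 0) (nat_lit 1766830928) (nat_lit 380) (nat_lit 11744019207) (nat_lit 76) (nat_lit 112704745) (nat_lit 131) (nat_lit 5) (nat_lit 136) (nat_lit 5) (nat_lit 132) (nat_lit 5) (nat_lit 469) (nat_lit 399) (nat_lit 332)) (XT.nd (nat_lit 78) (nat_lit 380) (nat_lit 0) (XT.lf (nat_lit 0) (nat_lit 2270072440) (nat_lit 304) (nat_lit 5845208971) (nat_lit 380) (nat_lit 5745098411) (nat_lit 127) (nat_lit 5) (nat_lit 131) (nat_lit 5) (nat_lit 132) (nat_lit 5) (nat_lit 470) (nat_lit 399) (nat_lit 331)) (XT.lf (nat_lit 0) (nat_lit 599238588) (nat_lit 380) (nat_lit 11413861617) (nat_lit 76) (nat_lit 2090007131) (nat_lit 122) (nat_lit 5) (nat_lit 127) (nat_lit 5) (nat_lit 123) (nat_lit 5) (nat_lit 471) (nat_lit 399) (nat_lit 330)))) (XT.nd (nat_lit 156) (nat_lit 608) (nat_lit 0) (XT.nd (nat_lit 78) (nat_lit 304) (nat_lit 0) (XT.lf (nat_lit 0) (nat_lit 3076524715) (nat_lit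 304) (nat_lit 4063849117) (nat_lit 380) (nat_lit 7210293606) (nat_lit 118) (nat_lit 5) (nat_lit 122) (nat_lit 5) (nat_lit 123) (nat_lit 5) (nat_lit 472) (nat_lit 399) (nat_lit 329)) (XT.lf (nat_lit 0) (nat_lit 3482685324) (nat_lit 304) (nat_lit 10469021163) (nat_lit 380) (nat_lit 652469260) (nat_lit 114) (nat_lit 5) (nat_lit 118) (nat_lit 5) (nat_lit 119) (nat_lit 5) (nat_lit 473) (nat_lit 399) (nat_lit 328))) (XT.nd (nat_lit 78) (nat_lit 304) (nat_lit 0) (XT.lf (nat_lit 0) (nat_lit 3867498044) (nat_lit 228) (nat_lit 2231105797) (nat_lit 304) (nat_lit 8764362851) (nat_lit 110) (nat_lit 5) (nat_lit 113) (nat_lit 5) (nat_lit 114) (nat_lit 5) (nat_lit 474) (nat_lit 399) (nat_lit 327)) (XT.lf (nat_lit 0) (nat_lit 4252614817) (nat_lit 304) (nat_lit 8882947334) (nat_lit 380) (nat_lit 1992029228) (nat_lit 106) (nat_lit 5) (nat_lit 110) (nat_lit 5) (nat_lit 111) (nat_lit 5) (nat_lit 475) (nat_lit 399) (nat_lit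 326))))) (XT.nd (nat_lit 312) (nat_lit 1064) (nat_lit 0) (XT.nd (nat_lit 156) (nat_lit 532) (nat_lit 0) (XT.nd (nat_lit 78) (nat_lit 304) (nat_lit 0) (XT.lf (nat_lit 0) (nat_lit 4635691843) (nat_lit 228) (nat_lit 351144930) (nat_lit 304) (nat_lit 10411297076) (nat_lit 102) (nat_lit 5) (nat_lit 105) (nat_lit 5) (nat_lit 106) (nat_lit 5) (nat_lit 476) (nat_lit 399) (nat_lit 325)) (XT.lf (nat_lit 0) (nat_lit 4995470239) (nat_lit 304) (nat_lit 7263485811) (nat_lit 380) (nat_lit 3415354749) (nat_lit 98) (nat_lit 5) (nat_lit 102) (nat_lit 5) (nat_lit 103) (nat_lit 5) (nat_lit 477) (nat_lit 399) (nat_lit 324))) (XT.nd (nat_lit 78) (nat_lit 228) (nat_lit 0) (XT.lf (nat_lit 0) (nat_lit 3811602912) (nat_lit 304) (nat_lit 10594060471) (nat_lit 76) (nat_lit 1551201023) (nat_lit 94) (nat_lit 5) (nat_lit 98) (nat_lit 5) (nat_lit 95) (nat_lit 5) (nat_lit 478) (nat_lit 399) (nat_lit 323)) (XT.lf (nat_lit 0) (nat_lit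 5703029656) (nat_lit 228) (nat_lit 5615321625) (nat_lit 304) (nat_lit 4926904697) (nat_lit 91) (nat_lit 5) (nat_lit 94) (nat_lit 5) (nat_lit 95) (nat_lit 5) (nat_lit 479) (nat_lit 399) (nat_lit 322)))) (XT.nd (nat_lit 156) (nat_lit 532) (nat_lit 0) (XT.nd (nat_lit 78) (nat_lit 228) (nat_lit 0) (XT.lf (nat_lit 0) (nat_lit 2560980587) (nat_lit 304) (nat_lit 10492167164) (nat_lit 76) (nat_lit 3487108966) (nat_lit 87) (nat_lit 5) (nat_lit 91) (nat_lit 5) (nat_lit 88) (nat_lit 5) (nat_lit 480) (nat_lit 399) (nat_lit 321)) (XT.lf (nat_lit 0) (nat_lit 6366343257) (nat_lit 228) (nat_lit 3943296195) (nat_lit 304) (nat_lit 6531755693) (nat_lit 84) (nat_lit 5) (nat_lit 87) (nat_lit 5) (nat_lit 88) (nat_lit 5) (nat_lit 481) (nat_lit 399) (nat_lit 320))) (XT.nd (nat_lit 78) (nat_lit 228) (nat_lit 0) (XT.lf (nat_lit 0) (nat_lit 1227804098) (nat_lit 304) (nat_lit 10464792626) (nat_lit 76) (nat_lit 5456752454) (nat_lit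 80) (nat_lit 5) (nat_lit 84) (nat_lit 5) (nat_lit 81) (nat_lit 5) (nat_lit 482) (nat_lit 399) (nat_lit 319)) (XT.lf (nat_lit 0) (nat_lit 6975634287) (nat_lit 228) (nat_lit 2252467488) (nat_lit 304) (nat_lit 8235643170) (nat_lit 77) (nat_lit 5) (nat_lit 80) (nat_lit 5) (nat_lit 81) (nat_lit 5) (nat_lit 483) (nat_lit 399) (nat_lit 318)))))) (XT.nd (nat_lit 56160) (nat_lit 0) (nat_lit 52744) (XT.nd (nat_lit 234) (nat_lit 304) (nat_lit 0) (XT.nd (nat_lit 78) (nat_lit 456) (nat_lit 0) (XT.lf (nat_lit 0) (nat_lit 7260712322) (nat_lit 228) (nat_lit 10328409983) (nat_lit 304) (nat_lit 196036444) (nat_lit 74) (nat_lit 5) (nat_lit 77) (nat_lit 5) (nat_lit 78) (nat_lit 5) (nat_lit 484) (nat_lit 399) (nat_lit 317)) (XT.nd (nat_lit 78) (nat_lit 152) (nat_lit 0) (XT.lf (nat_lit 0) (nat_lit 7520191071) (nat_lit 228) (nat_lit 548173659) (nat_lit 304) (nat_lit 10045008038) (nat_lit 70) (nat_lit 5) (nat_lit 73) (nat_lit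 5) (nat_lit 74) (nat_lit 5) (nat_lit 485) (nat_lit 399) (nat_lit 316)) (XT.lf (nat_lit 0) (nat_lit 7757799341) (nat_lit 152) (nat_lit 8959051390) (nat_lit 228) (nat_lit 1731780645) (nat_lit 68) (nat_lit 5) (nat_lit 70) (nat_lit 5) (nat_lit 71) (nat_lit 5) (nat_lit 486) (nat_lit 399) (nat_lit 315)))) (XT.nd (nat_lit 55770) (nat_lit 0) (nat_lit 55176) (XT.nd (nat_lit 55692) (nat_lit 0) (nat_lit 55404) (XT.lf (nat_lit 0) (nat_lit 6831906639) (nat_lit 304) (nat_lit 10810706974) (nat_lit 76) (nat_lit 1148634493) (nat_lit 64) (nat_lit 5) (nat_lit 68) (nat_lit 5) (nat_lit 65) (nat_lit 5) (nat_lit 487) (nat_lit 399) (nat_lit 314)) (XT.lf (nat_lit 0) (nat_lit 1073741823) (nat_lit 0) (nat_lit 0) (nat_lit 0) (nat_lit 0) (nat_lit 793) (nat_lit 0) (nat_lit 1) (nat_lit 0) (nat_lit 1) (nat_lit 0) (nat_lit 400) (nat_lit 400) (nat_lit 400))) (XT.nd (nat_lit 78) (nat_lit 152) (nat_lit 0) (XT.lf (nat_lit 0) (nat_lit 4755395253)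 (nat_lit 76) (nat_lit 1609936757) (nat_lit 0) (nat_lit 78363511) (nat_lit 792) (nat_lit 5) (nat_lit 793) (nat_lit 0) (nat_lit 792) (nat_lit 4) (nat_lit 401) (nat_lit 400) (nat_lit 399)) (XT.lf (nat_lit 0) (nat_lit 3001850628) (nat_lit 152) (nat_lit 3154100987) (nat_lit 76) (nat_lit 291910959) (nat_lit 790) (nat_lit 5) (nat_lit 792) (nat_lit 5) (nat_lit 791) (nat_lit 4) (nat_lit 402) (nat_lit 400) (nat_lit 398))))) (XT.nd (nat_lit 312) (nat_lit 1520) (nat_lit 0) (XT.nd (nat_lit 156) (nat_lit 456) (nat_lit 0) (XT.nd (nat_lit 78) (nat_lit 228) (nat_lit 0) (XT.lf (nat_lit 0) (nat_lit 1180555059) (nat_lit 228) (nat_lit 4633531642) (nat_lit 76) (nat_lit 640868256) (nat_lit 787) (nat_lit 5) (nat_lit 790) (nat_lit 5) (nat_lit 788) (nat_lit 5) (nat_lit 403) (nat_lit 400) (nat_lit 397)) (XT.lf (nat_lit 0) (nat_lit 411017581) (nat_lit 228) (nat_lit 5334607098) (nat_lit 304) (nat_lit 719259453) (nat_lit 784) (nat_lit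 5) (nat_lit 787) (nat_lit 5) (nat_lit 788) (nat_lit 5) (nat_lit 404) (nat_lit 400) (nat_lit 396))) (XT.nd (nat_lit 78) (nat_lit 380) (nat_lit 0) (XT.lf (nat_lit 0) (nat_lit 3777507927) (nat_lit 304) (nat_lit 929623722) (nat_lit 76) (nat_lit 1770331789) (nat_lit 783) (nat_lit 5) (nat_lit 787) (nat_lit 5) (nat_lit 784) (nat_lit 5) (nat_lit 405) (nat_lit 400) (nat_lit 395)) (XT.lf (nat_lit 0) (nat_lit 1741644262) (nat_lit 380) (nat_lit 2201216161) (nat_lit 76) (nat_lit 2550073805) (nat_lit 778) (nat_lit 5) (nat_lit 783) (nat_lit 5) (nat_lit 779) (nat_lit 5) (nat_lit 406) (nat_lit 400) (nat_lit 394)))) (XT.nd (nat_lit 156) (nat_lit 608) (nat_lit 0) (XT.nd (nat_lit 78) (nat_lit 532) (nat_lit 0) (XT.lf (nat_lit 0) (nat_lit 3099006149) (nat_lit 380) (nat_lit 3041241733) (nat_lit 456) (nat_lit 371064414) (nat_lit 773) (nat_lit 5) (nat_lit 778) (nat_lit 5) (nat_lit 779) (nat_lit 5) (nat_lit 407) (nat_lit 400)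 (nat_lit 393)) (XT.lf (nat_lit 0) (nat_lit 1959316345) (nat_lit 456) (nat_lit 1991589346) (nat_lit 532) (nat_lit 2581513923) (nat_lit 766) (nat_lit 5) (nat_lit 772) (nat_lit 5) (nat_lit 773) (nat_lit 5) (nat_lit 408) (nat_lit 400) (nat_lit 392))) (XT.nd (nat_lit 78) (nat_lit 0) (nat_lit 0) (XT.lf (nat_lit 0) (nat_lit 883733122) (nat_lit 532) (nat_lit 804469989) (nat_lit 608) (nat_lit 4868296688) (nat_lit 758) (nat_lit 5) (nat_lit 765) (nat_lit 5) (nat_lit 766) (nat_lit 5) (nat_lit 409) (nat_lit 400) (nat_lit 391)) (XT.lf (nat_lit 0) (nat_lit 5929436486) (nat_lit 608) (nat_lit 134279941) (nat_lit 76) (nat_lit 519682514) (nat_lit 758) (nat_lit 5) (nat_lit 766) (nat_lit 5) (nat_lit 759) (nat_lit 5) (nat_lit 410) (nat_lit 400) (nat_lit 390))))))))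
noncomputable def xc34 : XT := (XT.nd (nat_lit 2262) (nat_lit 15960) (nat_lit 0) (XT.nd (nat_lit 1092) (nat_lit 16872) (nat_lit 0) (XT.nd (nat_lit 546) (nat_lit 8208) (nat_lit 0) (XT.nd (nat_lit 234) (nat_lit 4028) (nat_lit 0) (XT.nd (nat_lit 78) (nat_lit 1520) (nat_lit 0) (XT.lf (nat_lit 0) (nat_lit 3527985913) (nat_lit 684) (nat_lit 1096238090) (nat_lit 76) (nat_lit 1988618970) (nat_lit 749) (nat_lit 5) (nat_lit 758) (nat_lit 5) (nat_lit 750) (nat_lit 5) (nat_lit 411) (nat_lit 400) (nat_lit 389)) (XT.nd (nat_lit 78) (nat_lit 760) (nat_lit 0) (XT.lf (nat_lit 0) (nat_lit 1050024118) (nat_lit 760) (nat_lit 1997734209) (nat_lit 76) (nat_lit 3597536502) (nat_lit 739) (nat_lit 5) (nat_lit 749) (nat_lit 5) (nat_lit 740) (nat_lit 5) (nat_lit 412) (nat_lit 400) (nat_lit 388)) (XT.lf (nat_lit 0) (nat_lit 3831562652) (nat_lit 760) (nat_lit 1322517689) (nat_lit 836) (nat_lit 1526498129) (nat_lit 729) (nat_lit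 5) (nat_lit 739) (nat_lit 5) (nat_lit 740) (nat_lit 5) (nat_lit 413) (nat_lit 400) (nat_lit 387)))) (XT.nd (nat_lit 156) (nat_lit 2204) (nat_lit 0) (XT.nd (nat_lit 78) (nat_lit 912) (nat_lit 0) (XT.lf (nat_lit 0) (nat_lit 2523648111) (nat_lit 912) (nat_lit 3651453723) (nat_lit 76) (nat_lit 543594249) (nat_lit 717) (nat_lit 5) (nat_lit 729) (nat_lit 5) (nat_lit 718) (nat_lit 5) (nat_lit 414) (nat_lit 400) (nat_lit 386)) (XT.lf (nat_lit 0) (nat_lit 2354207090) (nat_lit 912) (nat_lit 4224955191) (nat_lit 988) (nat_lit 180507408) (nat_lit 705) (nat_lit 5) (nat_lit 717) (nat_lit 5) (nat_lit 718) (nat_lit 5) (nat_lit 415) (nat_lit 400) (nat_lit 385))) (XT.nd (nat_lit 78) (nat_lit 1140) (nat_lit 0) (XT.lf (nat_lit 0) (nat_lit 1684795882) (nat_lit 988) (nat_lit 2117085632) (nat_lit 1064) (nat_lit 3001497993) (nat_lit 691) (nat_lit 5) (nat_lit 704) (nat_lit 5) (nat_lit 705) (nat_lit 5) (nat_lit 416) (nat_lit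 400) (nat_lit 384)) (XT.lf (nat_lit 0) (nat_lit 942894610) (nat_lit 1140) (nat_lit 5775185451) (nat_lit 76) (nat_lit 132089882) (nat_lit 676) (nat_lit 5) (nat_lit 691) (nat_lit 5) (nat_lit 677) (nat_lit 5) (nat_lit 417) (nat_lit 400) (nat_lit 383))))) (XT.nd (nat_lit 234) (nat_lit 5776) (nat_lit 0) (XT.nd (nat_lit 78) (nat_lit 1292) (nat_lit 0) (XT.lf (nat_lit 0) (nat_lit 497343545) (nat_lit 1140) (nat_lit 4389386169) (nat_lit 1216) (nat_lit 2012805354) (nat_lit 661) (nat_lit 5) (nat_lit 676) (nat_lit 5) (nat_lit 677) (nat_lit 5) (nat_lit 418) (nat_lit 400) (nat_lit 382)) (XT.nd (nat_lit 78) (nat_lit 1216) (nat_lit 0) (XT.lf (nat_lit 0) (nat_lit 1883344186) (nat_lit 1216) (nat_lit 27270214) (nat_lit 76) (nat_lit 5041291404) (nat_lit 660) (nat_lit 5) (nat_lit 676) (nat_lit 5) (nat_lit 661) (nat_lit 5) (nat_lit 419) (nat_lit 400) (nat_lit 381)) (XT.lf (nat_lit 0) (nat_lit 5791580157) (nat_lit 1292) (nat_lit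 499671608) (nat_lit 76) (nat_lit 715883983) (nat_lit 644) (nat_lit 5) (nat_lit 661) (nat_lit 5) (nat_lit 645) (nat_lit 5) (nat_lit 420) (nat_lit 400) (nat_lit 380)))) (XT.nd (nat_lit 156) (nat_lit 3040) (nat_lit 0) (XT.nd (nat_lit 78) (nat_lit 1368) (nat_lit 0) (XT.lf (nat_lit 0) (nat_lit 2647880868) (nat_lit 1368) (nat_lit 940016375) (nat_lit 76) (nat_lit 3477153810) (nat_lit 626) (nat_lit 5) (nat_lit 644) (nat_lit 5) (nat_lit 627) (nat_lit 5) (nat_lit 421) (nat_lit 400) (nat_lit 379)) (XT.lf (nat_lit 0) (nat_lit 5799037449) (nat_lit 1368) (nat_lit 733493053) (nat_lit 1444) (nat_lit 593580872) (nat_lit 608) (nat_lit 5) (nat_lit 626) (nat_lit 5) (nat_lit 627) (nat_lit 5) (nat_lit 422) (nat_lit 400) (nat_lit 378))) (XT.nd (nat_lit 78) (nat_lit 1520) (nat_lit 0) (XT.lf (nat_lit 0) (nat_lit 3240670642) (nat_lit 1520) (nat_lit 1689609601) (nat_lit 76) (nat_lit 2259497038) (nat_lit 588) (nat_lit 5) (nat_lit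 608) (nat_lit 5) (nat_lit 589) (nat_lit 5) (nat_lit 423) (nat_lit 400) (nat_lit 377)) (XT.lf (nat_lit 0) (nat_lit 5254915675) (nat_lit 1520) (nat_lit 1860713855) (nat_lit 1596) (nat_lit 140974666) (nat_lit 568) (nat_lit 5) (nat_lit 588) (nat_lit 5) (nat_lit 589) (nat_lit 5) (nat_lit 424) (nat_lit 400) (nat_lit 376)))))) (XT.nd (nat_lit 546) (nat_lit 6764) (nat_lit 0) (XT.nd (nat_lit 234) (nat_lit 4940) (nat_lit 0) (XT.nd (nat_lit 78) (nat_lit 3496) (nat_lit 0) (XT.lf (nat_lit 0) (nat_lit 3672653424) (nat_lit 1672) (nat_lit 2288188939) (nat_lit 76) (nat_lit 1365289788) (nat_lit 546) (nat_lit 5) (nat_lit 568) (nat_lit 5) (nat_lit 547) (nat_lit 5) (nat_lit 425) (nat_lit 400) (nat_lit 375)) (XT.nd (nat_lit 78) (nat_lit 1748) (nat_lit 0) (XT.lf (nat_lit 0) (nat_lit 146056222) (nat_lit 1748) (nat_lit 2531478729) (nat_lit 76) (nat_lit 4721217320) (nat_lit 523) (nat_lit 5) (nat_lit 546) (nat_lit 5) (nat_lit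 524) (nat_lit 5) (nat_lit 426) (nat_lit 400) (nat_lit 374)) (XT.lf (nat_lit 0) (nat_lit 3953762044) (nat_lit 1824) (nat_lit 2746983536) (nat_lit 76) (nat_lit 773449861) (nat_lit 500) (nat_lit 5) (nat_lit 524) (nat_lit 5) (nat_lit 501) (nat_lit 5) (nat_lit 427) (nat_lit 400) (nat_lit 373)))) (XT.nd (nat_lit 156) (nat_lit 1900) (nat_lit 0) (XT.nd (nat_lit 78) (nat_lit 1140) (nat_lit 0) (XT.lf (nat_lit 0) (nat_lit 279161710) (nat_lit 1900) (nat_lit 2926237208) (nat_lit 76) (nat_lit 4347272389) (nat_lit 475) (nat_lit 5) (nat_lit 500) (nat_lit 5) (nat_lit 476) (nat_lit 5) (nat_lit 428) (nat_lit 400) (nat_lit 372)) (XT.lf (nat_lit 0) (nat_lit 4092989258) (nat_lit 1216) (nat_lit 3076390083) (nat_lit 76) (nat_lit 464698806) (nat_lit 460) (nat_lit 5) (nat_lit 476) (nat_lit 5) (nat_lit 461) (nat_lit 5) (nat_lit 429) (nat_lit 400) (nat_lit 371))) (XT.nd (nat_lit 78) (nat_lit 912) (nat_lit 0) (XT.lf (nat_lit 0)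 (nat_lit 268678688) (nat_lit 988) (nat_lit 3195145018) (nat_lit 76) (nat_lit 4254680453) (nat_lit 447) (nat_lit 5) (nat_lit 460) (nat_lit 5) (nat_lit 448) (nat_lit 5) (nat_lit 430) (nat_lit 400) (nat_lit 370)) (XT.lf (nat_lit 0) (nat_lit 4098448938) (nat_lit 988) (nat_lit 3286045405) (nat_lit 76) (nat_lit 421427389) (nat_lit 435) (nat_lit 5) (nat_lit 448) (nat_lit 5) (nat_lit 436) (nat_lit 5) (nat_lit 431) (nat_lit 400) (nat_lit 369))))) (XT.nd (nat_lit 312) (nat_lit 3192) (nat_lit 0) (XT.nd (nat_lit 156) (nat_lit 1748) (nat_lit 0) (XT.nd (nat_lit 78) (nat_lit 912) (nat_lit 0) (XT.lf (nat_lit 0) (nat_lit 122230196) (nat_lit 912) (nat_lit 3347565166) (nat_lit 76) (nat_lit 4426610308) (nat_lit 423) (nat_lit 5) (nat_lit 435) (nat_lit 5) (nat_lit 424) (nat_lit 5) (nat_lit 432) (nat_lit 400) (nat_lit 368)) (XT.lf (nat_lit 0) (nat_lit 3977431799) (nat_lit 988) (nat_lit 3384894676) (nat_lit 76) (nat_lit 627571018)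 (nat_lit 411) (nat_lit 5) (nat_lit 424) (nat_lit 5) (nat_lit 412) (nat_lit 5) (nat_lit 433) (nat_lit 400) (nat_lit 367))) (XT.nd (nat_lit 78) (nat_lit 912) (nat_lit 0) (XT.lf (nat_lit 0) (nat_lit 4693337126) (nat_lit 836) (nat_lit 3237792652) (nat_lit 912) (nat_lit 155410444) (nat_lit 400) (nat_lit 5) (nat_lit 411) (nat_lit 5) (nat_lit 412) (nat_lit 5) (nat_lit 434) (nat_lit 400) (nat_lit 366)) (XT.lf (nat_lit 0) (nat_lit 3736456015) (nat_lit 912) (nat_lit 3381255709) (nat_lit 76) (nat_lit 1068494330) (nat_lit 388) (nat_lit 5) (nat_lit 400) (nat_lit 5) (nat_lit 389) (nat_lit 5) (nat_lit 435) (nat_lit 400) (nat_lit 365)))) (XT.nd (nat_lit 156) (nat_lit 1596) (nat_lit 0) (XT.nd (nat_lit 78) (nat_lit 836) (nat_lit 0) (XT.lf (nat_lit 0) (nat_lit 4948352849) (nat_lit 760) (nat_lit 2781339825) (nat_lit 836) (nat_lit 559416863) (nat_lit 378) (nat_lit 5) (nat_lit 388) (nat_lit 5) (nat_lit 389) (nat_lit 5) (nat_lit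 436) (nat_lit 400) (nat_lit 364)) (XT.lf (nat_lit 0) (nat_lit 3381313032) (nat_lit 836) (nat_lit 3282879772) (nat_lit 76) (nat_lit 1730884177) (nat_lit 367) (nat_lit 5) (nat_lit 378) (nat_lit 5) (nat_lit 368) (nat_lit 5) (nat_lit 437) (nat_lit 400) (nat_lit 363))) (XT.nd (nat_lit 78) (nat_lit 836) (nat_lit 0) (XT.lf (nat_lit 0) (nat_lit 5307437408) (nat_lit 760) (nat_lit 2114171087) (nat_lit 836) (nat_lit 1082764645) (nat_lit 357) (nat_lit 5) (nat_lit 367) (nat_lit 5) (nat_lit 368) (nat_lit 5) (nat_lit 438) (nat_lit 400) (nat_lit 362)) (XT.lf (nat_lit 0) (nat_lit 2917108858) (nat_lit 836) (nat_lit 3097009330) (nat_lit 76) (nat_lit 2602650313) (nat_lit 346) (nat_lit 5) (nat_lit 357) (nat_lit 5) (nat_lit 347) (nat_lit 5) (nat_lit 439) (nat_lit 400) (nat_lit 361))))))) (XT.nd (nat_lit 1170) (nat_lit 6156) (nat_lit 0) (XT.nd (nat_lit 546) (nat_lit 5016) (nat_lit 0) (XT.nd (nat_lit 234) (nat_lit 2660) (nat_lit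 0) (XT.nd (nat_lit 78) (nat_lit 1444) (nat_lit 0) (XT.lf (nat_lit 0) (nat_lit 5763831478) (nat_lit 684) (nat_lit 1248028792) (nat_lit 760) (nat_lit 1720742801) (nat_lit 337) (nat_lit 5) (nat_lit 346) (nat_lit 5) (nat_lit 347) (nat_lit 5) (nat_lit 440) (nat_lit 400) (nat_lit 360)) (XT.nd (nat_lit 78) (nat_lit 684) (nat_lit 0) (XT.lf (nat_lit 0) (nat_lit 2348301077) (nat_lit 760) (nat_lit 2830433130) (nat_lit 76) (nat_lit 3672833132) (nat_lit 327) (nat_lit 5) (nat_lit 337) (nat_lit 5) (nat_lit 328) (nat_lit 5) (nat_lit 441) (nat_lit 400) (nat_lit 359)) (XT.lf (nat_lit 0) (nat_lit 6311232718) (nat_lit 684) (nat_lit 193573288) (nat_lit 760) (nat_lit 2469293847) (nat_lit 318) (nat_lit 5) (nat_lit 327) (nat_lit 5) (nat_lit 328) (nat_lit 5) (nat_lit 442) (nat_lit 400) (nat_lit 358)))) (XT.nd (nat_lit 156) (nat_lit 1292) (nat_lit 0) (XT.nd (nat_lit 78) (nat_lit 608) (nat_lit 0) (XT.lf (nat_lit 0) (nat_lit 1678731810)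 (nat_lit 760) (nat_lit 2489539002) (nat_lit 76) (nat_lit 4931517844) (nat_lit 308) (nat_lit 5) (nat_lit 318) (nat_lit 5) (nat_lit 309) (nat_lit 5) (nat_lit 443) (nat_lit 400) (nat_lit 357)) (XT.lf (nat_lit 0) (nat_lit 5910959511) (nat_lit 684) (nat_lit 2292198043) (nat_lit 76) (nat_lit 1025899936) (nat_lit 300) (nat_lit 5) (nat_lit 309) (nat_lit 5) (nat_lit 301) (nat_lit 5) (nat_lit 444) (nat_lit 400) (nat_lit 356))) (XT.nd (nat_lit 78) (nat_lit 608) (nat_lit 0) (XT.lf (nat_lit 0) (nat_lit 911656809) (nat_lit 684) (nat_lit 2080364774) (nat_lit 76) (nat_lit 6369754500) (nat_lit 291) (nat_lit 5) (nat_lit 300) (nat_lit 5) (nat_lit 292) (nat_lit 5) (nat_lit 445) (nat_lit 400) (nat_lit 355)) (XT.lf (nat_lit 0) (nat_lit 5229130049) (nat_lit 684) (nat_lit 1858275039) (nat_lit 76) (nat_lit 2410516222) (nat_lit 283) (nat_lit 5) (nat_lit 292) (nat_lit 5) (nat_lit 284) (nat_lit 5) (nat_lit 446) (nat_lit 400) (nat_lit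 354))))) (XT.nd (nat_lit 312) (nat_lit 2584) (nat_lit 0) (XT.nd (nat_lit 156) (nat_lit 1216) (nat_lit 0) (XT.nd (nat_lit 78) (nat_lit 532) (nat_lit 0) (XT.lf (nat_lit 0) (nat_lit 49770869) (nat_lit 684) (nat_lit 1608647655) (nat_lit 76) (nat_lit 7979483344) (nat_lit 274) (nat_lit 5) (nat_lit 283) (nat_lit 5) (nat_lit 275) (nat_lit 5) (nat_lit 447) (nat_lit 400) (nat_lit 353)) (XT.lf (nat_lit 0) (nat_lit 4460666473) (nat_lit 608) (nat_lit 1365412821) (nat_lit 76) (nat_lit 3955024462) (nat_lit 267) (nat_lit 5) (nat_lit 275) (nat_lit 5) (nat_lit 268) (nat_lit 5) (nat_lit 448) (nat_lit 400) (nat_lit 352))) (XT.nd (nat_lit 78) (nat_lit 608) (nat_lit 0) (XT.lf (nat_lit 0) (nat_lit 8842623157) (nat_lit 608) (nat_lit 169030656) (nat_lit 684) (nat_lit 916794242) (nat_lit 259) (nat_lit 5) (nat_lit 267) (nat_lit 5) (nat_lit 268) (nat_lit 5) (nat_lit 449) (nat_lit 400) (nat_lit 351)) (XT.lf (nat_lit 0) (nat_lit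 3607658395) (nat_lit 608) (nat_lit 818958563) (nat_lit 76) (nat_lit 5652404093) (nat_lit 251) (nat_lit 5) (nat_lit 259) (nat_lit 5) (nat_lit 252) (nat_lit 5) (nat_lit 450) (nat_lit 400) (nat_lit 350)))) (XT.nd (nat_lit 156) (nat_lit 1520) (nat_lit 0) (XT.nd (nat_lit 78) (nat_lit 532) (nat_lit 0) (XT.lf (nat_lit 0) (nat_lit 8267200728) (nat_lit 608) (nat_lit 521656105) (nat_lit 76) (nat_lit 1444898496) (nat_lit 244) (nat_lit 5) (nat_lit 252) (nat_lit 5) (nat_lit 245) (nat_lit 5) (nat_lit 451) (nat_lit 400) (nat_lit 349)) (XT.lf (nat_lit 0) (nat_lit 2671696228) (nat_lit 532) (nat_lit 224082031) (nat_lit 76) (nat_lit 7496340469) (nat_lit 237) (nat_lit 5) (nat_lit 244) (nat_lit 5) (nat_lit 238) (nat_lit 5) (nat_lit 452) (nat_lit 400) (nat_lit 348))) (XT.nd (nat_lit 78) (nat_lit 532) (nat_lit 0) (XT.lf (nat_lit 0) (nat_lit 87740374) (nat_lit 456) (nat_lit 7361897241) (nat_lit 532) (nat_lit 3104791629) (nat_lit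 224) (nat_lit 5) (nat_lit 230) (nat_lit 5) (nat_lit 231) (nat_lit 5) (nat_lit 453) (nat_lit 400) (nat_lit 347)) (XT.lf (nat_lit 0) (nat_lit 419681925) (nat_lit 456) (nat_lit 1236927691) (nat_lit 532) (nat_lit 9064207988) (nat_lit 217) (nat_lit 5) (nat_lit 223) (nat_lit 5) (nat_lit 224) (nat_lit 5) (nat_lit 454) (nat_lit 400) (nat_lit 346)))))) (XT.nd (nat_lit 546) (nat_lit 3040) (nat_lit 0) (XT.nd (nat_lit 234) (nat_lit 1748) (nat_lit 0) (XT.nd (nat_lit 78) (nat_lit 912) (nat_lit 0) (XT.lf (nat_lit 0) (nat_lit 744808008) (nat_lit 456) (nat_lit 5817283313) (nat_lit 532) (nat_lit 4328828735) (nat_lit 211) (nat_lit 5) (nat_lit 217) (nat_lit 5) (nat_lit 218) (nat_lit 5) (nat_lit 455) (nat_lit 400) (nat_lit 345)) (XT.nd (nat_lit 78) (nat_lit 380) (nat_lit 0) (XT.lf (nat_lit 0) (nat_lit 565557959) (nat_lit 532) (nat_lit 9963808476) (nat_lit 76) (nat_lit 536206327) (nat_lit 204) (nat_lit 5) (nat_lit 211) (nat_lit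 5) (nat_lit 205) (nat_lit 5) (nat_lit 456) (nat_lit 400) (nat_lit 344)) (XT.lf (nat_lit 0) (nat_lit 1437635776) (nat_lit 380) (nat_lit 4164101985) (nat_lit 456) (nat_lit 5642080754) (nat_lit 199) (nat_lit 5) (nat_lit 204) (nat_lit 5) (nat_lit 205) (nat_lit 5) (nat_lit 457) (nat_lit 400) (nat_lit 343)))) (XT.nd (nat_lit 156) (nat_lit 836) (nat_lit 0) (XT.nd (nat_lit 78) (nat_lit 456) (nat_lit 0) (XT.lf (nat_lit 0) (nat_lit 1804839516) (nat_lit 456) (nat_lit 9016431505) (nat_lit 532) (nat_lit 605496431) (nat_lit 193) (nat_lit 5) (nat_lit 199) (nat_lit 5) (nat_lit 200) (nat_lit 5) (nat_lit 458) (nat_lit 400) (nat_lit 342)) (XT.lf (nat_lit 0) (nat_lit 2161254588) (nat_lit 380) (nat_lit 2407478788) (nat_lit 456) (nat_lit 7044944698) (nat_lit 187) (nat_lit 5) (nat_lit 192) (nat_lit 5) (nat_lit 193) (nat_lit 5) (nat_lit 459) (nat_lit 400) (nat_lit 341))) (XT.nd (nat_lit 78) (nat_lit 456) (nat_lit 0) (XT.lf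 (nat_lit 0) (nat_lit 2531808673) (nat_lit 380) (nat_lit 7407723293) (nat_lit 456) (nat_lit 1865593720) (nat_lit 182) (nat_lit 5) (nat_lit 187) (nat_lit 5) (nat_lit 188) (nat_lit 5) (nat_lit 460) (nat_lit 400) (nat_lit 340)) (XT.lf (nat_lit 0) (nat_lit 2910655310) (nat_lit 380) (nat_lit 552130272) (nat_lit 456) (nat_lit 8538298772) (nat_lit 176) (nat_lit 5) (nat_lit 181) (nat_lit 5) (nat_lit 182) (nat_lit 5) (nat_lit 461) (nat_lit 400) (nat_lit 339))))) (XT.nd (nat_lit 312) (nat_lit 1444) (nat_lit 0) (XT.nd (nat_lit 156) (nat_lit 760) (nat_lit 0) (XT.nd (nat_lit 78) (nat_lit 456) (nat_lit 0) (XT.lf (nat_lit 0) (nat_lit 3281431029) (nat_lit 380) (nat_lit 5711838108) (nat_lit 456) (nat_lit 3208055032) (nat_lit 171) (nat_lit 5) (nat_lit 176) (nat_lit 5) (nat_lit 177) (nat_lit 5) (nat_lit 462) (nat_lit 400) (nat_lit 338)) (XT.lf (nat_lit 0) (nat_lit 2292226069) (nat_lit 456) (nat_lit 8734992384) (nat_lit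 76) (nat_lit 1379256137) (nat_lit 165) (nat_lit 5) (nat_lit 171) (nat_lit 5) (nat_lit 166) (nat_lit 5) (nat_lit 463) (nat_lit 400) (nat_lit 337))) (XT.nd (nat_lit 78) (nat_lit 380) (nat_lit 0) (XT.lf (nat_lit 0) (nat_lit 4048550675) (nat_lit 380) (nat_lit 3933260528) (nat_lit 456) (nat_lit 4634187529) (nat_lit 160) (nat_lit 5) (nat_lit 165) (nat_lit 5) (nat_lit 166) (nat_lit 5) (nat_lit 464) (nat_lit 400) (nat_lit 336)) (XT.lf (nat_lit 0) (nat_lit 1050955863) (nat_lit 380) (nat_lit 8387107848) (nat_lit 76) (nat_lit 3392535969) (nat_lit 155) (nat_lit 5) (nat_lit 160) (nat_lit 5) (nat_lit 156) (nat_lit 5) (nat_lit 465) (nat_lit 400) (nat_lit 335)))) (XT.nd (nat_lit 156) (nat_lit 760) (nat_lit 0) (XT.nd (nat_lit 78) (nat_lit 304) (nat_lit 0) (XT.lf (nat_lit 0) (nat_lit 4827837584) (nat_lit 380) (nat_lit 2076207451) (nat_lit 456) (nat_lit 6145774796) (nat_lit 150) (nat_lit 5) (nat_lit 155) (nat_lit 5) (nat_lit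 156) (nat_lit 5) (nat_lit 466) (nat_lit 400) (nat_lit 334)) (XT.lf (nat_lit 0) (nat_lit 5223134729) (nat_lit 304) (nat_lit 7781219681) (nat_lit 380) (nat_lit 269830454) (nat_lit 146) (nat_lit 5) (nat_lit 150) (nat_lit 5) (nat_lit 151) (nat_lit 5) (nat_lit 467) (nat_lit 400) (nat_lit 333))) (XT.nd (nat_lit 78) (nat_lit 304) (nat_lit 0) (XT.lf (nat_lit 0) (nat_lit 5613730712) (nat_lit 380) (nat_lit 144676407) (nat_lit 456) (nat_lit 7745086616) (nat_lit 140) (nat_lit 5) (nat_lit 145) (nat_lit 5) (nat_lit 146) (nat_lit 5) (nat_lit 468) (nat_lit 400) (nat_lit 332)) (XT.lf (nat_lit 0) (nat_lit 5998942368) (nat_lit 304) (nat_lit 6055148271) (nat_lit 380) (nat_lit 1683751032) (nat_lit 136) (nat_lit 5) (nat_lit 140) (nat_lit 5) (nat_lit 141) (nat_lit 5) (nat_lit 469) (nat_lit 400) (nat_lit 331))))))))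
noncomputable def xc35 : XT := (XT.nd (nat_lit 57954) (nat_lit 0) (nat_lit 19760) (XT.nd (nat_lit 1092) (nat_lit 988) (nat_lit 0) (XT.nd (nat_lit 546) (nat_lit 1900) (nat_lit 0) (XT.nd (nat_lit 234) (nat_lit 1292) (nat_lit 0) (XT.nd (nat_lit 78) (nat_lit 684) (nat_lit 0) (XT.lf (nat_lit 0) (nat_lit 4554931708) (nat_lit 380) (nat_lit 7589446175) (nat_lit 76) (nat_lit 1833144740) (nat_lit 131) (nat_lit 5) (nat_lit 136) (nat_lit 5) (nat_lit 132) (nat_lit 5) (nat_lit 470) (nat_lit 400) (nat_lit 330)) (XT.nd (nat_lit 78) (nat_lit 380) (nat_lit 0) (XT.lf (nat_lit 0) (nat_lit 6771949227) (nat_lit 304) (nat_lit 4271010498) (nat_lit 380) (nat_lit 3179511185) (nat_lit 127) (nat_lit 5) (nat_lit 131) (nat_lit 5) (nat_lit 132) (nat_lit 5) (nat_lit 471) (nat_lit 400) (nat_lit 329)) (XT.lf (nat_lit 0) (nat_lit 3280428736) (nat_lit 380) (nat_lit 7317334919) (nat_lit 76) (nat_lit 3875138461) (nat_lit 122) (nat_lit 5)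 (nat_lit 127) (nat_lit 5) (nat_lit 123) (nat_lit 5) (nat_lit 472) (nat_lit 400) (nat_lit 328)))) (XT.nd (nat_lit 156) (nat_lit 608) (nat_lit 0) (XT.nd (nat_lit 78) (nat_lit 380) (nat_lit 0) (XT.lf (nat_lit 0) (nat_lit 7535746434) (nat_lit 304) (nat_lit 2432835273) (nat_lit 380) (nat_lit 4760292636) (nat_lit 118) (nat_lit 5) (nat_lit 122) (nat_lit 5) (nat_lit 123) (nat_lit 5) (nat_lit 473) (nat_lit 400) (nat_lit 327)) (XT.lf (nat_lit 0) (nat_lit 1930934037) (nat_lit 380) (nat_lit 7079919476) (nat_lit 76) (nat_lit 5979619920) (nat_lit 113) (nat_lit 5) (nat_lit 118) (nat_lit 5) (nat_lit 114) (nat_lit 5) (nat_lit 474) (nat_lit 400) (nat_lit 326))) (XT.nd (nat_lit 78) (nat_lit 380) (nat_lit 0) (XT.lf (nat_lit 0) (nat_lit 8283463409) (nat_lit 228) (nat_lit 544621862) (nat_lit 304) (nat_lit 6429809289) (nat_lit 110) (nat_lit 5) (nat_lit 113) (nat_lit 5) (nat_lit 114) (nat_lit 5) (nat_lit 475) (nat_lit 400)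 (nat_lit 325)) (XT.lf (nat_lit 0) (nat_lit 502902244) (nat_lit 380) (nat_lit 6885168488) (nat_lit 76) (nat_lit 8143029977) (nat_lit 105) (nat_lit 5) (nat_lit 110) (nat_lit 5) (nat_lit 106) (nat_lit 5) (nat_lit 476) (nat_lit 400) (nat_lit 324))))) (XT.nd (nat_lit 234) (nat_lit 1064) (nat_lit 0) (XT.nd (nat_lit 78) (nat_lit 608) (nat_lit 0) (XT.lf (nat_lit 0) (nat_lit 7627105135) (nat_lit 304) (nat_lit 6811747357) (nat_lit 76) (nat_lit 1371383770) (nat_lit 102) (nat_lit 5) (nat_lit 106) (nat_lit 5) (nat_lit 103) (nat_lit 5) (nat_lit 477) (nat_lit 400) (nat_lit 323)) (XT.nd (nat_lit 78) (nat_lit 304) (nat_lit 0) (XT.lf (nat_lit 0) (nat_lit 9347258531) (nat_lit 304) (nat_lit 5727147413) (nat_lit 380) (nat_lit 1021153041) (nat_lit 98) (nat_lit 5) (nat_lit 102) (nat_lit 5) (nat_lit 103) (nat_lit 5) (nat_lit 478) (nat_lit 400) (nat_lit 322)) (XT.lf (nat_lit 0) (nat_lit 6356494275) (nat_lit 304) (nat_lit 6708820947)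 (nat_lit 76) (nat_lit 3321618063) (nat_lit 94) (nat_lit 5) (nat_lit 98) (nat_lit 5) (nat_lit 95) (nat_lit 5) (nat_lit 479) (nat_lit 400) (nat_lit 321)))) (XT.nd (nat_lit 156) (nat_lit 532) (nat_lit 0) (XT.nd (nat_lit 78) (nat_lit 304) (nat_lit 0) (XT.lf (nat_lit 0) (nat_lit 10008992208) (nat_lit 228) (nat_lit 4035506695) (nat_lit 304) (nat_lit 2640357387) (nat_lit 91) (nat_lit 5) (nat_lit 94) (nat_lit 5) (nat_lit 95) (nat_lit 5) (nat_lit 480) (nat_lit 400) (nat_lit 320)) (XT.lf (nat_lit 0) (nat_lit 5008176939) (nat_lit 304) (nat_lit 6671803009) (nat_lit 76) (nat_lit 5309052931) (nat_lit 87) (nat_lit 5) (nat_lit 91) (nat_lit 5) (nat_lit 88) (nat_lit 5) (nat_lit 481) (nat_lit 400) (nat_lit 319))) (XT.nd (nat_lit 78) (nat_lit 304) (nat_lit 0) (XT.lf (nat_lit 0) (nat_lit 10625375167) (nat_lit 228) (nat_lit 2321293014) (nat_lit 304) (nat_lit 4353390532) (nat_lit 84) (nat_lit 5) (nat_lit 87) (nat_lit 5) (nat_lit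 88) (nat_lit 5) (nat_lit 482) (nat_lit 400) (nat_lit 318)) (XT.lf (nat_lit 0) (nat_lit 3576994104) (nat_lit 304) (nat_lit 6711234847) (nat_lit 76) (nat_lit 7329331219) (nat_lit 80) (nat_lit 5) (nat_lit 84) (nat_lit 5) (nat_lit 81) (nat_lit 5) (nat_lit 483) (nat_lit 400) (nat_lit 317)))))) (XT.nd (nat_lit 56238) (nat_lit 0) (nat_lit 51756) (XT.nd (nat_lit 234) (nat_lit 228) (nat_lit 0) (XT.nd (nat_lit 78) (nat_lit 532) (nat_lit 0) (XT.lf (nat_lit 0) (nat_lit 11186414493) (nat_lit 228) (nat_lit 589516513) (nat_lit 304) (nat_lit 6166284852) (nat_lit 77) (nat_lit 5) (nat_lit 80) (nat_lit 5) (nat_lit 81) (nat_lit 5) (nat_lit 484) (nat_lit 400) (nat_lit 316)) (XT.nd (nat_lit 78) (nat_lit 228) (nat_lit 0) (XT.lf (nat_lit 0) (nat_lit 2057122856) (nat_lit 304) (nat_lit 6838619721) (nat_lit 76) (nat_lit 9377848644) (nat_lit 73) (nat_lit 5) (nat_lit 77) (nat_lit 5) (nat_lit 74) (nat_lit 5) (nat_lit 485) (nat_lit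 400) (nat_lit 315)) (XT.lf (nat_lit 0) (nat_lit 10534134454) (nat_lit 304) (nat_lit 6938778628) (nat_lit 76) (nat_lit 1139366429) (nat_lit 70) (nat_lit 5) (nat_lit 74) (nat_lit 5) (nat_lit 71) (nat_lit 5) (nat_lit 486) (nat_lit 400) (nat_lit 314)))) (XT.nd (nat_lit 55848) (nat_lit 0) (nat_lit 54644) (XT.nd (nat_lit 55770) (nat_lit 0) (nat_lit 54872) (XT.lf (nat_lit 0) (nat_lit 442025975) (nat_lit 228) (nat_lit 7066540514) (nat_lit 76) (nat_lit 11449689032) (nat_lit 67) (nat_lit 5) (nat_lit 70) (nat_lit 5) (nat_lit 68) (nat_lit 5) (nat_lit 487) (nat_lit 400) (nat_lit 313)) (XT.lf (nat_lit 0) (nat_lit 1466289446) (nat_lit 228) (nat_lit 878457425) (nat_lit 228) (nat_lit 878457425) (nat_lit 789) (nat_lit 3) (nat_lit 792) (nat_lit 3) (nat_lit 792) (nat_lit 5) (nat_lit 401) (nat_lit 401) (nat_lit 398))) (XT.nd (nat_lit 78) (nat_lit 0) (nat_lit 0) (XT.lf (nat_lit 0) (nat_lit 1042442669) (nat_lit 228) (nat_lit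 3370079201) (nat_lit 304) (nat_lit 2039544341) (nat_lit 786) (nat_lit 5) (nat_lit 789) (nat_lit 3) (nat_lit 790) (nat_lit 5) (nat_lit 402) (nat_lit 401) (nat_lit 397)) (XT.lf (nat_lit 76) (nat_lit 1535636034) (nat_lit 0) (nat_lit 3996397829) (nat_lit 304) (nat_lit 928517821) (nat_lit 787) (nat_lit 5) (nat_lit 786) (nat_lit 5) (nat_lit 790) (nat_lit 5) (nat_lit 403) (nat_lit 401) (nat_lit 396))))) (XT.nd (nat_lit 312) (nat_lit 1748) (nat_lit 0) (XT.nd (nat_lit 156) (nat_lit 456) (nat_lit 0) (XT.nd (nat_lit 78) (nat_lit 380) (nat_lit 0) (XT.lf (nat_lit 76) (nat_lit 48170995) (nat_lit 0) (nat_lit 3439364661) (nat_lit 380) (nat_lit 2984309450) (nat_lit 783) (nat_lit 5) (nat_lit 782) (nat_lit 5) (nat_lit 787) (nat_lit 5) (nat_lit 404) (nat_lit 401) (nat_lit 395)) (XT.lf (nat_lit 0) (nat_lit 1382441611) (nat_lit 380) (nat_lit 1356279264) (nat_lit 456) (nat_lit 3747192045) (nat_lit 777) (nat_lit 5) (nat_lit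 782) (nat_lit 5) (nat_lit 783) (nat_lit 5) (nat_lit 405) (nat_lit 401) (nat_lit 394))) (XT.nd (nat_lit 78) (nat_lit 456) (nat_lit 0) (XT.lf (nat_lit 76) (nat_lit 3800850698) (nat_lit 0) (nat_lit 1897605308) (nat_lit 456) (nat_lit 804384961) (nat_lit 778) (nat_lit 5) (nat_lit 777) (nat_lit 5) (nat_lit 783) (nat_lit 5) (nat_lit 406) (nat_lit 401) (nat_lit 393)) (XT.lf (nat_lit 76) (nat_lit 2527875449) (nat_lit 0) (nat_lit 911003409) (nat_lit 532) (nat_lit 3083681268) (nat_lit 772) (nat_lit 5) (nat_lit 771) (nat_lit 5) (nat_lit 778) (nat_lit 5) (nat_lit 407) (nat_lit 401) (nat_lit 392)))) (XT.nd (nat_lit 156) (nat_lit 760) (nat_lit 0) (XT.nd (nat_lit 78) (nat_lit 532) (nat_lit 0) (XT.lf (nat_lit 0) (nat_lit 1107842965) (nat_lit 532) (nat_lit 5227327584) (nat_lit 76) (nat_lit 210067622) (nat_lit 765) (nat_lit 5) (nat_lit 772) (nat_lit 5) (nat_lit 766) (nat_lit 5) (nat_lit 408) (nat_lit 401) (nat_lit 391))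 (XT.lf (nat_lit 0) (nat_lit 156159700) (nat_lit 532) (nat_lit 5106283279) (nat_lit 608) (nat_lit 1308169191) (nat_lit 758) (nat_lit 5) (nat_lit 765) (nat_lit 5) (nat_lit 766) (nat_lit 5) (nat_lit 409) (nat_lit 401) (nat_lit 390))) (XT.nd (nat_lit 78) (nat_lit 684) (nat_lit 0) (XT.lf (nat_lit 0) (nat_lit 2789503395) (nat_lit 608) (nat_lit 938677319) (nat_lit 76) (nat_lit 2870527805) (nat_lit 757) (nat_lit 5) (nat_lit 765) (nat_lit 5) (nat_lit 758) (nat_lit 5) (nat_lit 410) (nat_lit 401) (nat_lit 389)) (XT.lf (nat_lit 0) (nat_lit 241624882) (nat_lit 684) (nat_lit 1970869751) (nat_lit 76) (nat_lit 4417308821) (nat_lit 748) (nat_lit 5) (nat_lit 757) (nat_lit 5) (nat_lit 749) (nat_lit 5) (nat_lit 411) (nat_lit 401) (nat_lit 388))))))) (XT.nd (nat_lit 1170) (nat_lit 14896) (nat_lit 0) (XT.nd (nat_lit 546) (nat_lit 11552) (nat_lit 0) (XT.nd (nat_lit 234) (nat_lit 3192) (nat_lit 0) (XT.nd (nat_lit 78) (nat_lit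 1672) (nat_lit 0) (XT.lf (nat_lit 0) (nat_lit 3705077454) (nat_lit 684) (nat_lit 542634631) (nat_lit 760) (nat_lit 2415912726) (nat_lit 739) (nat_lit 5) (nat_lit 748) (nat_lit 5) (nat_lit 749) (nat_lit 5) (nat_lit 412) (nat_lit 401) (nat_lit 387)) (XT.nd (nat_lit 78) (nat_lit 836) (nat_lit 0) (XT.lf (nat_lit 0) (nat_lit 1550908120) (nat_lit 836) (nat_lit 3896708540) (nat_lit 76) (nat_lit 1252685854) (nat_lit 728) (nat_lit 5) (nat_lit 739) (nat_lit 5) (nat_lit 729) (nat_lit 5) (nat_lit 413) (nat_lit 401) (nat_lit 386)) (XT.lf (nat_lit 0) (nat_lit 1951530056) (nat_lit 836) (nat_lit 3550322201) (nat_lit 912) (nat_lit 1237956399) (nat_lit 717) (nat_lit 5) (nat_lit 728) (nat_lit 5) (nat_lit 729) (nat_lit 5) (nat_lit 414) (nat_lit 401) (nat_lit 385)))) (XT.nd (nat_lit 156) (nat_lit 1216) (nat_lit 0) (XT.nd (nat_lit 78) (nat_lit 988) (nat_lit 0) (XT.lf (nat_lit 0) (nat_lit 1149534942) (nat_lit 912) (nat_lit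 1502533537) (nat_lit 988) (nat_lit 4130118205) (nat_lit 704) (nat_lit 5) (nat_lit 716) (nat_lit 5) (nat_lit 717) (nat_lit 5) (nat_lit 415) (nat_lit 401) (nat_lit 384)) (XT.lf (nat_lit 0) (nat_lit 401483599) (nat_lit 988) (nat_lit 6147202314) (nat_lit 1064) (nat_lit 278858108) (nat_lit 691) (nat_lit 5) (nat_lit 704) (nat_lit 5) (nat_lit 705) (nat_lit 5) (nat_lit 416) (nat_lit 401) (nat_lit 383))) (XT.nd (nat_lit 78) (nat_lit 1140) (nat_lit 0) (XT.lf (nat_lit 0) (nat_lit 3557827642) (nat_lit 1064) (nat_lit 311347536) (nat_lit 76) (nat_lit 3006248454) (nat_lit 690) (nat_lit 5) (nat_lit 704) (nat_lit 5) (nat_lit 691) (nat_lit 5) (nat_lit 417) (nat_lit 401) (nat_lit 382)) (XT.lf (nat_lit 0) (nat_lit 485268710) (nat_lit 1140) (nat_lit 960942724) (nat_lit 76) (nat_lit 5480185811) (nat_lit 675) (nat_lit 5) (nat_lit 690) (nat_lit 5) (nat_lit 676) (nat_lit 5) (nat_lit 418) (nat_lit 401) (nat_lit 381))))) (XT.nd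 (nat_lit 312) (nat_lit 6384) (nat_lit 0) (XT.nd (nat_lit 156) (nat_lit 2736) (nat_lit 0) (XT.nd (nat_lit 78) (nat_lit 1292) (nat_lit 0) (XT.lf (nat_lit 0) (nat_lit 4277887244) (nat_lit 1216) (nat_lit 1577513778) (nat_lit 76) (nat_lit 1124650775) (nat_lit 660) (nat_lit 5) (nat_lit 676) (nat_lit 5) (nat_lit 661) (nat_lit 5) (nat_lit 419) (nat_lit 401) (nat_lit 380)) (XT.lf (nat_lit 0) (nat_lit 1060439871) (nat_lit 1292) (nat_lit 2150107936) (nat_lit 76) (nat_lit 3826093065) (nat_lit 643) (nat_lit 5) (nat_lit 660) (nat_lit 5) (nat_lit 644) (nat_lit 5) (nat_lit 420) (nat_lit 401) (nat_lit 379))) (XT.nd (nat_lit 78) (nat_lit 1444) (nat_lit 0) (XT.lf (nat_lit 0) (nat_lit 4415408186) (nat_lit 1292) (nat_lit 404595020) (nat_lit 1368) (nat_lit 2276156084) (nat_lit 626) (nat_lit 5) (nat_lit 643) (nat_lit 5) (nat_lit 644) (nat_lit 5) (nat_lit 421) (nat_lit 401) (nat_lit 378)) (XT.lf (nat_lit 0) (nat_lit 1455217286)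 (nat_lit 1444) (nat_lit 3178638396) (nat_lit 76) (nat_lit 2524603638) (nat_lit 607) (nat_lit 5) (nat_lit 626) (nat_lit 5) (nat_lit 608) (nat_lit 5) (nat_lit 422) (nat_lit 401) (nat_lit 377)))) (XT.nd (nat_lit 156) (nat_lit 3344) (nat_lit 0) (XT.nd (nat_lit 78) (nat_lit 1596) (nat_lit 0) (XT.lf (nat_lit 0) (nat_lit 3587034587) (nat_lit 1444) (nat_lit 1611180784) (nat_lit 1520) (nat_lit 2025504309) (nat_lit 588) (nat_lit 5) (nat_lit 607) (nat_lit 5) (nat_lit 608) (nat_lit 5) (nat_lit 423) (nat_lit 401) (nat_lit 376)) (XT.lf (nat_lit 0) (nat_lit 1680508275) (nat_lit 1596) (nat_lit 4059205889) (nat_lit 76) (nat_lit 1552177808) (nat_lit 567) (nat_lit 5) (nat_lit 588) (nat_lit 5) (nat_lit 568) (nat_lit 5) (nat_lit 424) (nat_lit 401) (nat_lit 375))) (XT.nd (nat_lit 78) (nat_lit 1748) (nat_lit 0) (XT.lf (nat_lit 0) (nat_lit 2912777986) (nat_lit 1596) (nat_lit 2502898465) (nat_lit 1672) (nat_lit 1947259387)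 (nat_lit 546) (nat_lit 5) (nat_lit 567) (nat_lit 5) (nat_lit 568) (nat_lit 5) (nat_lit 425) (nat_lit 401) (nat_lit 374)) (XT.lf (nat_lit 0) (nat_lit 1746185100) (nat_lit 1748) (nat_lit 4803561613) (nat_lit 76) (nat_lit 887263851) (nat_lit 523) (nat_lit 5) (nat_lit 546) (nat_lit 5) (nat_lit 524) (nat_lit 5) (nat_lit 426) (nat_lit 401) (nat_lit 373)))))) (XT.nd (nat_lit 546) (nat_lit 6384) (nat_lit 0) (XT.nd (nat_lit 234) (nat_lit 3724) (nat_lit 0) (XT.nd (nat_lit 78) (nat_lit 3040) (nat_lit 0) (XT.lf (nat_lit 0) (nat_lit 2381367412) (nat_lit 1748) (nat_lit 3100573519) (nat_lit 1824) (nat_lit 2031953647) (nat_lit 500) (nat_lit 5) (nat_lit 523) (nat_lit 5) (nat_lit 524) (nat_lit 5) (nat_lit 427) (nat_lit 401) (nat_lit 372)) (XT.nd (nat_lit 78) (nat_lit 1140) (nat_lit 0) (XT.lf (nat_lit 0) (nat_lit 1661153122) (nat_lit 1900) (nat_lit 5422615240) (nat_lit 76) (nat_lit 510149891) (nat_lit 475) (nat_lit 5)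 (nat_lit 500) (nat_lit 5) (nat_lit 476) (nat_lit 5) (nat_lit 428) (nat_lit 401) (nat_lit 371)) (XT.lf (nat_lit 0) (nat_lit 1982369534) (nat_lit 1140) (nat_lit 3423262131) (nat_lit 1216) (nat_lit 2271082112) (nat_lit 460) (nat_lit 5) (nat_lit 475) (nat_lit 5) (nat_lit 476) (nat_lit 5) (nat_lit 429) (nat_lit 401) (nat_lit 370)))) (XT.nd (nat_lit 156) (nat_lit 1824) (nat_lit 0) (XT.nd (nat_lit 78) (nat_lit 912) (nat_lit 0) (XT.lf (nat_lit 0) (nat_lit 1433413018) (nat_lit 988) (nat_lit 5926508993) (nat_lit 76) (nat_lit 402826809) (nat_lit 447) (nat_lit 5) (nat_lit 460) (nat_lit 5) (nat_lit 448) (nat_lit 5) (nat_lit 430) (nat_lit 401) (nat_lit 369)) (XT.lf (nat_lit 0) (nat_lit 1706115912) (nat_lit 912) (nat_lit 3488383814) (nat_lit 988) (nat_lit 2657041915) (nat_lit 435) (nat_lit 5) (nat_lit 447) (nat_lit 5) (nat_lit 448) (nat_lit 5) (nat_lit 431) (nat_lit 401) (nat_lit 368))) (XT.nd (nat_lit 78) (nat_lit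 912) (nat_lit 0) (XT.lf (nat_lit 0) (nat_lit 1070117439) (nat_lit 912) (nat_lit 6324687246) (nat_lit 76) (nat_lit 548861334) (nat_lit 423) (nat_lit 5) (nat_lit 435) (nat_lit 5) (nat_lit 424) (nat_lit 5) (nat_lit 432) (nat_lit 401) (nat_lit 367)) (XT.lf (nat_lit 0) (nat_lit 1543634655) (nat_lit 912) (nat_lit 3311844230) (nat_lit 988) (nat_lit 3183077217) (nat_lit 411) (nat_lit 5) (nat_lit 423) (nat_lit 5) (nat_lit 424) (nat_lit 5) (nat_lit 433) (nat_lit 401) (nat_lit 366))))) (XT.nd (nat_lit 312) (nat_lit 3040) (nat_lit 0) (XT.nd (nat_lit 156) (nat_lit 1596) (nat_lit 0) (XT.nd (nat_lit 78) (nat_lit 836) (nat_lit 0) (XT.lf (nat_lit 0) (nat_lit 577622459) (nat_lit 912) (nat_lit 6625962077) (nat_lit 76) (nat_lit 933278487) (nat_lit 399) (nat_lit 5) (nat_lit 411) (nat_lit 5) (nat_lit 400) (nat_lit 5) (nat_lit 434) (nat_lit 401) (nat_lit 365)) (XT.lf (nat_lit 0) (nat_lit 1486586015) (nat_lit 836) (nat_lit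 2908149023) (nat_lit 912) (nat_lit 3843229297) (nat_lit 388) (nat_lit 5) (nat_lit 399) (nat_lit 5) (nat_lit 400) (nat_lit 5) (nat_lit 435) (nat_lit 401) (nat_lit 364))) (XT.nd (nat_lit 78) (nat_lit 836) (nat_lit 0) (XT.lf (nat_lit 0) (nat_lit 1503728653) (nat_lit 760) (nat_lit 6799851262) (nat_lit 836) (nat_lit 38977046) (nat_lit 378) (nat_lit 5) (nat_lit 388) (nat_lit 5) (nat_lit 389) (nat_lit 5) (nat_lit 436) (nat_lit 401) (nat_lit 363)) (XT.lf (nat_lit 0) (nat_lit 1527201489) (nat_lit 760) (nat_lit 2290509404) (nat_lit 836) (nat_lit 4632291500) (nat_lit 367) (nat_lit 5) (nat_lit 377) (nat_lit 5) (nat_lit 378) (nat_lit 5) (nat_lit 437) (nat_lit 401) (nat_lit 362)))) (XT.nd (nat_lit 156) (nat_lit 1444) (nat_lit 0) (XT.nd (nat_lit 78) (nat_lit 836) (nat_lit 0) (XT.lf (nat_lit 0) (nat_lit 1585568009) (nat_lit 760) (nat_lit 6191818578) (nat_lit 836) (nat_lit 783525568) (nat_lit 357) (nat_lit 5) (nat_lit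 367) (nat_lit 5) (nat_lit 368) (nat_lit 5) (nat_lit 438) (nat_lit 401) (nat_lit 361)) (XT.lf (nat_lit 0) (nat_lit 1658226012) (nat_lit 760) (nat_lit 1470940178) (nat_lit 836) (nat_lit 5545768762) (nat_lit 346) (nat_lit 5) (nat_lit 356) (nat_lit 5) (nat_lit 357) (nat_lit 5) (nat_lit 439) (nat_lit 401) (nat_lit 360))) (XT.nd (nat_lit 78) (nat_lit 760) (nat_lit 0) (XT.lf (nat_lit 0) (nat_lit 1753328181) (nat_lit 684) (nat_lit 5394893338) (nat_lit 760) (nat_lit 1644063041) (nat_lit 337) (nat_lit 5) (nat_lit 346) (nat_lit 5) (nat_lit 347) (nat_lit 5) (nat_lit 440) (nat_lit 401) (nat_lit 359)) (XT.lf (nat_lit 0) (nat_lit 1872862825) (nat_lit 684) (nat_lit 460350869) (nat_lit 760) (nat_lit 6579841469) (nat_lit 327) (nat_lit 5) (nat_lit 336) (nat_lit 5) (nat_lit 337) (nat_lit 5) (nat_lit 441) (nat_lit 401) (nat_lit 358))))))))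
noncomputable def xc36 : XT := (XT.nd (nat_lit 2262) (nat_lit 4940) (nat_lit 0) (XT.nd (nat_lit 1092) (nat_lit 6232) (nat_lit 0) (XT.nd (nat_lit 546) (nat_lit 3800) (nat_lit 0) (XT.nd (nat_lit 234) (nat_lit 2508) (nat_lit 0) (XT.nd (nat_lit 78) (nat_lit 1368) (nat_lit 0) (XT.lf (nat_lit 0) (nat_lit 2000468154) (nat_lit 684) (nat_lit 4419563208) (nat_lit 760) (nat_lit 2616951092) (nat_lit 318) (nat_lit 5) (nat_lit 327) (nat_lit 5) (nat_lit 328) (nat_lit 5) (nat_lit 442) (nat_lit 401) (nat_lit 357)) (XT.nd (nat_lit 78) (nat_lit 608) (nat_lit 0) (XT.lf (nat_lit 0) (nat_lit 1438099716) (nat_lit 760) (nat_lit 7004712493) (nat_lit 76) (nat_lit 721777431) (nat_lit 308) (nat_lit 5) (nat_lit 318) (nat_lit 5) (nat_lit 309) (nat_lit 5) (nat_lit 443) (nat_lit 401) (nat_lit 356)) (XT.lf (nat_lit 0) (nat_lit 2320821427) (nat_lit 608) (nat_lit 3275354268) (nat_lit 684) (nat_lit 3699166767) (nat_lit 300) (nat_lit 5)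 (nat_lit 308) (nat_lit 5) (nat_lit 309) (nat_lit 5) (nat_lit 444) (nat_lit 401) (nat_lit 355)))) (XT.nd (nat_lit 156) (nat_lit 1216) (nat_lit 0) (XT.nd (nat_lit 78) (nat_lit 608) (nat_lit 0) (XT.lf (nat_lit 0) (nat_lit 446093502) (nat_lit 684) (nat_lit 6916014480) (nat_lit 76) (nat_lit 2067793310) (nat_lit 291) (nat_lit 5) (nat_lit 300) (nat_lit 5) (nat_lit 292) (nat_lit 5) (nat_lit 445) (nat_lit 401) (nat_lit 354)) (XT.lf (nat_lit 0) (nat_lit 2708546271) (nat_lit 608) (nat_lit 1970907057) (nat_lit 684) (nat_lit 4888276340) (nat_lit 283) (nat_lit 5) (nat_lit 291) (nat_lit 5) (nat_lit 292) (nat_lit 5) (nat_lit 446) (nat_lit 401) (nat_lit 353))) (XT.nd (nat_lit 78) (nat_lit 608) (nat_lit 0) (XT.lf (nat_lit 0) (nat_lit 2927944308) (nat_lit 608) (nat_lit 6129351275) (nat_lit 684) (nat_lit 652049415) (nat_lit 275) (nat_lit 5) (nat_lit 283) (nat_lit 5) (nat_lit 284) (nat_lit 5) (nat_lit 447) (nat_lit 401)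 (nat_lit 352)) (XT.lf (nat_lit 0) (nat_lit 3158077301) (nat_lit 532) (nat_lit 514047760) (nat_lit 608) (nat_lit 6182412767) (nat_lit 267) (nat_lit 5) (nat_lit 274) (nat_lit 5) (nat_lit 275) (nat_lit 5) (nat_lit 448) (nat_lit 401) (nat_lit 351))))) (XT.nd (nat_lit 234) (nat_lit 2052) (nat_lit 0) (XT.nd (nat_lit 78) (nat_lit 1140) (nat_lit 0) (XT.lf (nat_lit 0) (nat_lit 3397305029) (nat_lit 608) (nat_lit 4752818608) (nat_lit 684) (nat_lit 1853219056) (nat_lit 259) (nat_lit 5) (nat_lit 267) (nat_lit 5) (nat_lit 268) (nat_lit 5) (nat_lit 449) (nat_lit 401) (nat_lit 350)) (XT.nd (nat_lit 78) (nat_lit 532) (nat_lit 0) (XT.lf (nat_lit 0) (nat_lit 2582997991) (nat_lit 608) (nat_lit 6499176605) (nat_lit 76) (nat_lit 1073873783) (nat_lit 251) (nat_lit 5) (nat_lit 259) (nat_lit 5) (nat_lit 252) (nat_lit 5) (nat_lit 450) (nat_lit 401) (nat_lit 349)) (XT.lf (nat_lit 0) (nat_lit 3919749362) (nat_lit 532) (nat_lit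 3242412111) (nat_lit 608) (nat_lit 3150229492) (nat_lit 244) (nat_lit 5) (nat_lit 251) (nat_lit 5) (nat_lit 252) (nat_lit 5) (nat_lit 451) (nat_lit 401) (nat_lit 348)))) (XT.nd (nat_lit 156) (nat_lit 988) (nat_lit 0) (XT.nd (nat_lit 78) (nat_lit 532) (nat_lit 0) (XT.lf (nat_lit 0) (nat_lit 1410486290) (nat_lit 532) (nat_lit 6270112843) (nat_lit 76) (nat_lit 2792170813) (nat_lit 237) (nat_lit 5) (nat_lit 244) (nat_lit 5) (nat_lit 238) (nat_lit 5) (nat_lit 452) (nat_lit 401) (nat_lit 347)) (XT.lf (nat_lit 0) (nat_lit 4490219046) (nat_lit 532) (nat_lit 1604403275) (nat_lit 608) (nat_lit 4542334923) (nat_lit 230) (nat_lit 5) (nat_lit 237) (nat_lit 5) (nat_lit 238) (nat_lit 5) (nat_lit 453) (nat_lit 401) (nat_lit 346))) (XT.nd (nat_lit 78) (nat_lit 456) (nat_lit 0) (XT.lf (nat_lit 0) (nat_lit 151964631) (nat_lit 532) (nat_lit 6011395226) (nat_lit 76) (nat_lit 4641892165) (nat_lit 223) (nat_lit 5) (nat_lit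 230) (nat_lit 5) (nat_lit 224) (nat_lit 5) (nat_lit 454) (nat_lit 401) (nat_lit 345)) (XT.lf (nat_lit 0) (nat_lit 4949258247) (nat_lit 532) (nat_lit 5874784468) (nat_lit 76) (nat_lit 153476146) (nat_lit 217) (nat_lit 5) (nat_lit 224) (nat_lit 5) (nat_lit 218) (nat_lit 5) (nat_lit 455) (nat_lit 401) (nat_lit 344)))))) (XT.nd (nat_lit 546) (nat_lit 3116) (nat_lit 0) (XT.nd (nat_lit 234) (nat_lit 1748) (nat_lit 0) (XT.nd (nat_lit 78) (nat_lit 912) (nat_lit 0) (XT.lf (nat_lit 0) (nat_lit 5417573848) (nat_lit 456) (nat_lit 4528100268) (nat_lit 532) (nat_lit 1208176750) (nat_lit 211) (nat_lit 5) (nat_lit 217) (nat_lit 5) (nat_lit 218) (nat_lit 5) (nat_lit 456) (nat_lit 401) (nat_lit 343)) (XT.nd (nat_lit 78) (nat_lit 380) (nat_lit 0) (XT.lf (nat_lit 0) (nat_lit 3736514062) (nat_lit 532) (nat_lit 5592361826) (nat_lit 76) (nat_lit 2005524882) (nat_lit 204) (nat_lit 5) (nat_lit 211) (nat_lit 5) (nat_lit 205)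 (nat_lit 5) (nat_lit 457) (nat_lit 401) (nat_lit 342)) (XT.lf (nat_lit 0) (nat_lit 6075354697) (nat_lit 380) (nat_lit 2786391919) (nat_lit 456) (nat_lit 2657489664) (nat_lit 199) (nat_lit 5) (nat_lit 204) (nat_lit 5) (nat_lit 205) (nat_lit 5) (nat_lit 458) (nat_lit 401) (nat_lit 341)))) (XT.nd (nat_lit 156) (nat_lit 836) (nat_lit 0) (XT.nd (nat_lit 78) (nat_lit 380) (nat_lit 0) (XT.lf (nat_lit 0) (nat_lit 2445764619) (nat_lit 532) (nat_lit 5294456450) (nat_lit 76) (nat_lit 3968150580) (nat_lit 192) (nat_lit 5) (nat_lit 199) (nat_lit 5) (nat_lit 193) (nat_lit 5) (nat_lit 459) (nat_lit 401) (nat_lit 340)) (XT.lf (nat_lit 0) (nat_lit 6763346806) (nat_lit 380) (nat_lit 943991430) (nat_lit 456) (nat_lit 4194666041) (nat_lit 187) (nat_lit 5) (nat_lit 192) (nat_lit 5) (nat_lit 193) (nat_lit 5) (nat_lit 460) (nat_lit 401) (nat_lit 339))) (XT.nd (nat_lit 78) (nat_lit 380) (nat_lit 0) (XT.lf (nat_lit 0) (nat_lit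 1076348850) (nat_lit 456) (nat_lit 4986540754) (nat_lit 76) (nat_lit 6037134482) (nat_lit 181) (nat_lit 5) (nat_lit 187) (nat_lit 5) (nat_lit 182) (nat_lit 5) (nat_lit 461) (nat_lit 401) (nat_lit 338)) (XT.lf (nat_lit 0) (nat_lit 6488330998) (nat_lit 456) (nat_lit 4832606325) (nat_lit 76) (nat_lit 981697086) (nat_lit 176) (nat_lit 5) (nat_lit 182) (nat_lit 5) (nat_lit 177) (nat_lit 5) (nat_lit 462) (nat_lit 401) (nat_lit 337))))) (XT.nd (nat_lit 312) (nat_lit 1520) (nat_lit 0) (XT.nd (nat_lit 156) (nat_lit 760) (nat_lit 0) (XT.nd (nat_lit 78) (nat_lit 456) (nat_lit 0) (XT.lf (nat_lit 0) (nat_lit 7833274557) (nat_lit 380) (nat_lit 4298856782) (nat_lit 456) (nat_lit 377803469) (nat_lit 171) (nat_lit 5) (nat_lit 176) (nat_lit 5) (nat_lit 177) (nat_lit 5) (nat_lit 463) (nat_lit 401) (nat_lit 336)) (XT.lf (nat_lit 0) (nat_lit 5203974731) (nat_lit 456) (nat_lit 4531687766) (nat_lit 76) (nat_lit 2986101191)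 (nat_lit 165) (nat_lit 5) (nat_lit 171) (nat_lit 5) (nat_lit 166) (nat_lit 5) (nat_lit 464) (nat_lit 401) (nat_lit 335))) (XT.nd (nat_lit 78) (nat_lit 380) (nat_lit 0) (XT.lf (nat_lit 0) (nat_lit 8562916516) (nat_lit 380) (nat_lit 2447047288) (nat_lit 456) (nat_lit 1928696748) (nat_lit 160) (nat_lit 5) (nat_lit 165) (nat_lit 5) (nat_lit 166) (nat_lit 5) (nat_lit 465) (nat_lit 401) (nat_lit 334)) (XT.lf (nat_lit 0) (nat_lit 3846647097) (nat_lit 380) (nat_lit 4235639245) (nat_lit 76) (nat_lit 5077906027) (nat_lit 155) (nat_lit 5) (nat_lit 160) (nat_lit 5) (nat_lit 156) (nat_lit 5) (nat_lit 466) (nat_lit 401) (nat_lit 333)))) (XT.nd (nat_lit 156) (nat_lit 760) (nat_lit 0) (XT.nd (nat_lit 78) (nat_lit 380) (nat_lit 0) (XT.lf (nat_lit 0) (nat_lit 9304319778) (nat_lit 380) (nat_lit 518623504) (nat_lit 456) (nat_lit 3564094782) (nat_lit 150) (nat_lit 5) (nat_lit 155) (nat_lit 5) (nat_lit 156) (nat_lit 5) (nat_lit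 467) (nat_lit 401) (nat_lit 332)) (XT.lf (nat_lit 0) (nat_lit 2414398404) (nat_lit 380) (nat_lit 3950586791) (nat_lit 76) (nat_lit 7253648872) (nat_lit 145) (nat_lit 5) (nat_lit 150) (nat_lit 5) (nat_lit 146) (nat_lit 5) (nat_lit 468) (nat_lit 401) (nat_lit 331))) (XT.nd (nat_lit 78) (nat_lit 380) (nat_lit 0) (XT.lf (nat_lit 0) (nat_lit 8578875724) (nat_lit 456) (nat_lit 3813506921) (nat_lit 76) (nat_lit 1463223847) (nat_lit 140) (nat_lit 5) (nat_lit 146) (nat_lit 5) (nat_lit 141) (nat_lit 5) (nat_lit 469) (nat_lit 401) (nat_lit 330)) (XT.lf (nat_lit 0) (nat_lit 904810022) (nat_lit 380) (nat_lit 3682976055) (nat_lit 76) (nat_lit 9510053566) (nat_lit 135) (nat_lit 5) (nat_lit 140) (nat_lit 5) (nat_lit 136) (nat_lit 5) (nat_lit 470) (nat_lit 401) (nat_lit 329))))))) (XT.nd (nat_lit 1092) (nat_lit 760) (nat_lit 0) (XT.nd (nat_lit 546) (nat_lit 1900) (nat_lit 0) (XT.nd (nat_lit 234) (nat_lit 1292) (nat_lit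 0) (XT.nd (nat_lit 78) (nat_lit 684) (nat_lit 0) (XT.lf (nat_lit 0) (nat_lit 7269669820) (nat_lit 380) (nat_lit 3568950082) (nat_lit 76) (nat_lit 3506631732) (nat_lit 131) (nat_lit 5) (nat_lit 136) (nat_lit 5) (nat_lit 132) (nat_lit 5) (nat_lit 471) (nat_lit 401) (nat_lit 328)) (XT.nd (nat_lit 78) (nat_lit 380) (nat_lit 0) (XT.lf (nat_lit 0) (nat_lit 11154365517) (nat_lit 304) (nat_lit 2750017671) (nat_lit 380) (nat_lit 694125308) (nat_lit 127) (nat_lit 5) (nat_lit 131) (nat_lit 5) (nat_lit 132) (nat_lit 5) (nat_lit 472) (nat_lit 401) (nat_lit 327)) (XT.lf (nat_lit 0) (nat_lit 5889175268) (nat_lit 380) (nat_lit 3352725882) (nat_lit 76) (nat_lit 5614949139) (nat_lit 122) (nat_lit 5) (nat_lit 127) (nat_lit 5) (nat_lit 123) (nat_lit 5) (nat_lit 473) (nat_lit 401) (nat_lit 326)))) (XT.nd (nat_lit 156) (nat_lit 608) (nat_lit 0) (XT.nd (nat_lit 78) (nat_lit 380) (nat_lit 0) (XT.lf (nat_lit 0) (nat_lit 11878065389)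 (nat_lit 304) (nat_lit 853516327) (nat_lit 380) (nat_lit 2389848727) (nat_lit 118) (nat_lit 5) (nat_lit 122) (nat_lit 5) (nat_lit 123) (nat_lit 5) (nat_lit 474) (nat_lit 401) (nat_lit 325)) (XT.lf (nat_lit 0) (nat_lit 4434109873) (nat_lit 380) (nat_lit 3172369554) (nat_lit 76) (nat_lit 7784773480) (nat_lit 113) (nat_lit 5) (nat_lit 118) (nat_lit 5) (nat_lit 114) (nat_lit 5) (nat_lit 475) (nat_lit 401) (nat_lit 324))) (XT.nd (nat_lit 78) (nat_lit 380) (nat_lit 0) (XT.lf (nat_lit 0) (nat_lit 11500359000) (nat_lit 304) (nat_lit 3089610790) (nat_lit 76) (nat_lit 1077484079) (nat_lit 110) (nat_lit 5) (nat_lit 114) (nat_lit 5) (nat_lit 111) (nat_lit 5) (nat_lit 476) (nat_lit 401) (nat_lit 323)) (XT.lf (nat_lit 0) (nat_lit 2900666994) (nat_lit 380) (nat_lit 3035982389) (nat_lit 76) (nat_lit 10012703280) (nat_lit 105) (nat_lit 5) (nat_lit 110) (nat_lit 5) (nat_lit 106) (nat_lit 5) (nat_lit 477) (nat_lit 401)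 (nat_lit 322))))) (XT.nd (nat_lit 234) (nat_lit 1064) (nat_lit 0) (XT.nd (nat_lit 78) (nat_lit 608) (nat_lit 0) (XT.lf (nat_lit 0) (nat_lit 10205820748) (nat_lit 304) (nat_lit 2990065609) (nat_lit 76) (nat_lit 3041632230) (nat_lit 102) (nat_lit 5) (nat_lit 106) (nat_lit 5) (nat_lit 103) (nat_lit 5) (nat_lit 478) (nat_lit 401) (nat_lit 321)) (XT.nd (nat_lit 78) (nat_lit 228) (nat_lit 0) (XT.lf (nat_lit 0) (nat_lit 1284485942) (nat_lit 380) (nat_lit 2952314067) (nat_lit 76) (nat_lit 12295287314) (nat_lit 97) (nat_lit 5) (nat_lit 102) (nat_lit 5) (nat_lit 98) (nat_lit 5) (nat_lit 479) (nat_lit 401) (nat_lit 320)) (XT.lf (nat_lit 0) (nat_lit 8838209252) (nat_lit 304) (nat_lit 2948297152) (nat_lit 76) (nat_lit 5046189791) (nat_lit 94) (nat_lit 5) (nat_lit 98) (nat_lit 5) (nat_lit 95) (nat_lit 5) (nat_lit 480) (nat_lit 401) (nat_lit 319)))) (XT.nd (nat_lit 156) (nat_lit 532) (nat_lit 0) (XT.nd (nat_lit 78)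 (nat_lit 304) (nat_lit 0) (XT.lf (nat_lit 0) (nat_lit 14206775087) (nat_lit 228) (nat_lit 2508655430) (nat_lit 304) (nat_lit 424955563) (nat_lit 91) (nat_lit 5) (nat_lit 94) (nat_lit 5) (nat_lit 95) (nat_lit 5) (nat_lit 481) (nat_lit 401) (nat_lit 318)) (XT.lf (nat_lit 0) (nat_lit 7392720422) (nat_lit 304) (nat_lit 2974201260) (nat_lit 76) (nat_lit 7087073408) (nat_lit 87) (nat_lit 5) (nat_lit 91) (nat_lit 5) (nat_lit 88) (nat_lit 5) (nat_lit 482) (nat_lit 401) (nat_lit 317))) (XT.nd (nat_lit 78) (nat_lit 304) (nat_lit 0) (XT.lf (nat_lit 0) (nat_lit 14778655803) (nat_lit 228) (nat_lit 750530195) (nat_lit 304) (nat_lit 2245969973) (nat_lit 84) (nat_lit 5) (nat_lit 87) (nat_lit 5) (nat_lit 88) (nat_lit 5) (nat_lit 483) (nat_lit 401) (nat_lit 316)) (XT.lf (nat_lit 0) (nat_lit 5863921124) (nat_lit 304) (nat_lit 3078561565) (nat_lit 76) (nat_lit 9159990863) (nat_lit 80) (nat_lit 5) (nat_lit 84) (nat_lit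 5) (nat_lit 81) (nat_lit 5) (nat_lit 484) (nat_lit 401) (nat_lit 315)))))) (XT.nd (nat_lit 56316) (nat_lit 0) (nat_lit 50008) (XT.nd (nat_lit 56004) (nat_lit 0) (nat_lit 53656) (XT.nd (nat_lit 78) (nat_lit 532) (nat_lit 0) (XT.lf (nat_lit 0) (nat_lit 14276479598) (nat_lit 304) (nat_lit 3150482810) (nat_lit 76) (nat_lit 1010554045) (nat_lit 77) (nat_lit 5) (nat_lit 81) (nat_lit 5) (nat_lit 78) (nat_lit 5) (nat_lit 485) (nat_lit 401) (nat_lit 314)) (XT.nd (nat_lit 78) (nat_lit 228) (nat_lit 0) (XT.lf (nat_lit 0) (nat_lit 4245702607) (nat_lit 304) (nat_lit 3273159858) (nat_lit 76) (nat_lit 11260379689) (nat_lit 73) (nat_lit 5) (nat_lit 77) (nat_lit 5) (nat_lit 74) (nat_lit 5) (nat_lit 486) (nat_lit 401) (nat_lit 313)) (XT.lf (nat_lit 0) (nat_lit 12949682157) (nat_lit 304) (nat_lit 3406219355) (nat_lit 76) (nat_lit 2772736997) (nat_lit 70) (nat_lit 5) (nat_lit 74) (nat_lit 5) (nat_lit 71) (nat_lit 5) (nat_lit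 487) (nat_lit 401) (nat_lit 312)))) (XT.nd (nat_lit 156) (nat_lit 380) (nat_lit 0) (XT.nd (nat_lit 78) (nat_lit 380) (nat_lit 0) (XT.lf (nat_lit 0) (nat_lit 1365215507) (nat_lit 0) (nat_lit 1365215507) (nat_lit 228) (nat_lit 499122919) (nat_lit 786) (nat_lit 5) (nat_lit 786) (nat_lit 3) (nat_lit 789) (nat_lit 3) (nat_lit 402) (nat_lit 402) (nat_lit 396)) (XT.lf (nat_lit 76) (nat_lit 1107810205) (nat_lit 0) (nat_lit 2237872306) (nat_lit 380) (nat_lit 3123293263) (nat_lit 782) (nat_lit 5) (nat_lit 781) (nat_lit 3) (nat_lit 786) (nat_lit 5) (nat_lit 403) (nat_lit 402) (nat_lit 395))) (XT.nd (nat_lit 78) (nat_lit 0) (nat_lit 0) (XT.lf (nat_lit 0) (nat_lit 1164399002) (nat_lit 380) (nat_lit 443406736) (nat_lit 456) (nat_lit 4873949780) (nat_lit 776) (nat_lit 5) (nat_lit 781) (nat_lit 3) (nat_lit 782) (nat_lit 5) (nat_lit 404) (nat_lit 402) (nat_lit 394)) (XT.lf (nat_lit 76) (nat_lit 4573814012) (nat_lit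 0) (nat_lit 828375162) (nat_lit 456) (nat_lit 1095047414) (nat_lit 777) (nat_lit 5) (nat_lit 776) (nat_lit 5) (nat_lit 782) (nat_lit 5) (nat_lit 405) (nat_lit 402) (nat_lit 393))))) (XT.nd (nat_lit 312) (nat_lit 2128) (nat_lit 0) (XT.nd (nat_lit 156) (nat_lit 608) (nat_lit 0) (XT.nd (nat_lit 78) (nat_lit 532) (nat_lit 0) (XT.lf (nat_lit 0) (nat_lit 3072620022) (nat_lit 456) (nat_lit 3349210659) (nat_lit 532) (nat_lit 93709992) (nat_lit 771) (nat_lit 5) (nat_lit 777) (nat_lit 5) (nat_lit 778) (nat_lit 5) (nat_lit 406) (nat_lit 402) (nat_lit 392)) (XT.lf (nat_lit 0) (nat_lit 677017494) (nat_lit 532) (nat_lit 4719501794) (nat_lit 608) (nat_lit 1140201232) (nat_lit 764) (nat_lit 5) (nat_lit 771) (nat_lit 5) (nat_lit 772) (nat_lit 5) (nat_lit 407) (nat_lit 402) (nat_lit 391))) (XT.nd (nat_lit 78) (nat_lit 608) (nat_lit 0) (XT.lf (nat_lit 76) (nat_lit 519280115) (nat_lit 0) (nat_lit 4225796079) (nat_lit 608)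 (nat_lit 1815586227) (nat_lit 765) (nat_lit 5) (nat_lit 764) (nat_lit 5) (nat_lit 772) (nat_lit 5) (nat_lit 408) (nat_lit 402) (nat_lit 390)) (XT.lf (nat_lit 0) (nat_lit 2198973575) (nat_lit 608) (nat_lit 711642482) (nat_lit 684) (nat_lit 3676810023) (nat_lit 756) (nat_lit 5) (nat_lit 764) (nat_lit 5) (nat_lit 765) (nat_lit 5) (nat_lit 409) (nat_lit 402) (nat_lit 389)))) (XT.nd (nat_lit 156) (nat_lit 1520) (nat_lit 0) (XT.nd (nat_lit 78) (nat_lit 608) (nat_lit 0) (XT.lf (nat_lit 76) (nat_lit 4739347355) (nat_lit 0) (nat_lit 1453047934) (nat_lit 684) (nat_lit 424702690) (nat_lit 757) (nat_lit 5) (nat_lit 756) (nat_lit 5) (nat_lit 765) (nat_lit 5) (nat_lit 410) (nat_lit 402) (nat_lit 388)) (XT.lf (nat_lit 0) (nat_lit 3494524567) (nat_lit 684) (nat_lit 2999552053) (nat_lit 76) (nat_lit 155424463) (nat_lit 748) (nat_lit 5) (nat_lit 757) (nat_lit 5) (nat_lit 749) (nat_lit 5) (nat_lit 411) (nat_lit 402) (nat_lit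 387))) (XT.nd (nat_lit 78) (nat_lit 760) (nat_lit 0) (XT.lf (nat_lit 0) (nat_lit 729521208) (nat_lit 760) (nat_lit 4072300095) (nat_lit 76) (nat_lit 1882939203) (nat_lit 738) (nat_lit 5) (nat_lit 748) (nat_lit 5) (nat_lit 739) (nat_lit 5) (nat_lit 412) (nat_lit 402) (nat_lit 386)) (XT.lf (nat_lit 0) (nat_lit 1621998075) (nat_lit 760) (nat_lit 2958500185) (nat_lit 836) (nat_lit 2142312522) (nat_lit 728) (nat_lit 5) (nat_lit 738) (nat_lit 5) (nat_lit 739) (nat_lit 5) (nat_lit 413) (nat_lit 402) (nat_lit 385))))))))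
noncomputable def xc37 : XT := (XT.nd (nat_lit 2262) (nat_lit 15200) (nat_lit 0) (XT.nd (nat_lit 1092) (nat_lit 14896) (nat_lit 0) (XT.nd (nat_lit 546) (nat_lit 9120) (nat_lit 0) (XT.nd (nat_lit 234) (nat_lit 4560) (nat_lit 0) (XT.nd (nat_lit 78) (nat_lit 988) (nat_lit 0) (XT.lf (nat_lit 0) (nat_lit 687062652) (nat_lit 836) (nat_lit 970888804) (nat_lit 912) (nat_lit 5105898137) (nat_lit 716) (nat_lit 5) (nat_lit 727) (nat_lit 5) (nat_lit 728) (nat_lit 5) (nat_lit 414) (nat_lit 402) (nat_lit 384)) (XT.nd (nat_lit 78) (nat_lit 988) (nat_lit 0) (XT.lf (nat_lit 0) (nat_lit 5452834744) (nat_lit 912) (nat_lit 201615365) (nat_lit 76) (nat_lit 1153197749) (nat_lit 716) (nat_lit 5) (nat_lit 728) (nat_lit 5) (nat_lit 717) (nat_lit 5) (nat_lit 415) (nat_lit 402) (nat_lit 383)) (XT.lf (nat_lit 0) (nat_lit 2391300763) (nat_lit 988) (nat_lit 1040734299) (nat_lit 76) (nat_lit 3422096798) (nat_lit 703) (nat_lit 5)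 (nat_lit 716) (nat_lit 5) (nat_lit 704) (nat_lit 5) (nat_lit 416) (nat_lit 402) (nat_lit 382)))) (XT.nd (nat_lit 156) (nat_lit 2432) (nat_lit 0) (XT.nd (nat_lit 78) (nat_lit 1140) (nat_lit 0) (XT.lf (nat_lit 0) (nat_lit 5076605420) (nat_lit 988) (nat_lit 1063174958) (nat_lit 1064) (nat_lit 763888517) (nat_lit 690) (nat_lit 5) (nat_lit 703) (nat_lit 5) (nat_lit 704) (nat_lit 5) (nat_lit 417) (nat_lit 402) (nat_lit 381)) (XT.lf (nat_lit 0) (nat_lit 2927378354) (nat_lit 1140) (nat_lit 2581475435) (nat_lit 76) (nat_lit 1447021754) (nat_lit 675) (nat_lit 5) (nat_lit 690) (nat_lit 5) (nat_lit 676) (nat_lit 5) (nat_lit 418) (nat_lit 402) (nat_lit 380))) (XT.nd (nat_lit 78) (nat_lit 1292) (nat_lit 0) (XT.lf (nat_lit 0) (nat_lit 3722155079) (nat_lit 1140) (nat_lit 2920100325) (nat_lit 1216) (nat_lit 368831979) (nat_lit 660) (nat_lit 5) (nat_lit 675) (nat_lit 5) (nat_lit 676) (nat_lit 5) (nat_lit 419) (nat_lit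 402) (nat_lit 379)) (XT.lf (nat_lit 0) (nat_lit 3109242796) (nat_lit 1216) (nat_lit 166169016) (nat_lit 1292) (nat_lit 3793719166) (nat_lit 643) (nat_lit 5) (nat_lit 659) (nat_lit 5) (nat_lit 660) (nat_lit 5) (nat_lit 420) (nat_lit 402) (nat_lit 378))))) (XT.nd (nat_lit 234) (nat_lit 4940) (nat_lit 0) (XT.nd (nat_lit 78) (nat_lit 2888) (nat_lit 0) (XT.lf (nat_lit 0) (nat_lit 2536272819) (nat_lit 1292) (nat_lit 4428583718) (nat_lit 1368) (nat_lit 165197501) (nat_lit 626) (nat_lit 5) (nat_lit 643) (nat_lit 5) (nat_lit 644) (nat_lit 5) (nat_lit 421) (nat_lit 402) (nat_lit 377)) (XT.nd (nat_lit 78) (nat_lit 1444) (nat_lit 0) (XT.lf (nat_lit 0) (nat_lit 1998022397) (nat_lit 1368) (nat_lit 1455035826) (nat_lit 1444) (nat_lit 3740732533) (nat_lit 607) (nat_lit 5) (nat_lit 625) (nat_lit 5) (nat_lit 626) (nat_lit 5) (nat_lit 422) (nat_lit 402) (nat_lit 376)) (XT.lf (nat_lit 0) (nat_lit 1505855502) (nat_lit 1444)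 (nat_lit 5612791233) (nat_lit 1520) (nat_lit 141954672) (nat_lit 588) (nat_lit 5) (nat_lit 607) (nat_lit 5) (nat_lit 608) (nat_lit 5) (nat_lit 423) (nat_lit 402) (nat_lit 375)))) (XT.nd (nat_lit 156) (nat_lit 1748) (nat_lit 0) (XT.nd (nat_lit 78) (nat_lit 1596) (nat_lit 0) (XT.lf (nat_lit 0) (nat_lit 1037723266) (nat_lit 1520) (nat_lit 2423587720) (nat_lit 1596) (nat_lit 3868781001) (nat_lit 567) (nat_lit 5) (nat_lit 587) (nat_lit 5) (nat_lit 588) (nat_lit 5) (nat_lit 424) (nat_lit 402) (nat_lit 374)) (XT.lf (nat_lit 0) (nat_lit 618757119) (nat_lit 1596) (nat_lit 6494886986) (nat_lit 1672) (nat_lit 289150390) (nat_lit 546) (nat_lit 5) (nat_lit 567) (nat_lit 5) (nat_lit 568) (nat_lit 5) (nat_lit 425) (nat_lit 402) (nat_lit 373))) (XT.nd (nat_lit 78) (nat_lit 0) (nat_lit 0) (XT.lf (nat_lit 0) (nat_lit 216545245) (nat_lit 1672) (nat_lit 3093113177) (nat_lit 1748) (nat_lit 4168455119) (nat_lit 523) (nat_lit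 5) (nat_lit 545) (nat_lit 5) (nat_lit 546) (nat_lit 5) (nat_lit 426) (nat_lit 402) (nat_lit 372)) (XT.lf (nat_lit 0) (nat_lit 6959776096) (nat_lit 1748) (nat_lit 134504926) (nat_lit 76) (nat_lit 462431090) (nat_lit 523) (nat_lit 5) (nat_lit 546) (nat_lit 5) (nat_lit 524) (nat_lit 5) (nat_lit 427) (nat_lit 402) (nat_lit 371)))))) (XT.nd (nat_lit 546) (nat_lit 6308) (nat_lit 0) (XT.nd (nat_lit 234) (nat_lit 3724) (nat_lit 0) (XT.nd (nat_lit 78) (nat_lit 3040) (nat_lit 0) (XT.lf (nat_lit 0) (nat_lit 3009724144) (nat_lit 1824) (nat_lit 470216394) (nat_lit 76) (nat_lit 4157963133) (nat_lit 499) (nat_lit 5) (nat_lit 523) (nat_lit 5) (nat_lit 500) (nat_lit 5) (nat_lit 428) (nat_lit 402) (nat_lit 370)) (XT.nd (nat_lit 78) (nat_lit 1216) (nat_lit 0) (XT.lf (nat_lit 0) (nat_lit 6667516110) (nat_lit 1900) (nat_lit 759667749) (nat_lit 76) (nat_lit 295250725) (nat_lit 475) (nat_lit 5) (nat_lit 500) (nat_lit 5) (nat_lit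 476) (nat_lit 5) (nat_lit 429) (nat_lit 402) (nat_lit 369)) (XT.lf (nat_lit 0) (nat_lit 2566687248) (nat_lit 1216) (nat_lit 1037699368) (nat_lit 76) (nat_lit 4205265449) (nat_lit 459) (nat_lit 5) (nat_lit 475) (nat_lit 5) (nat_lit 460) (nat_lit 5) (nat_lit 430) (nat_lit 402) (nat_lit 368)))) (XT.nd (nat_lit 156) (nat_lit 1824) (nat_lit 0) (XT.nd (nat_lit 78) (nat_lit 988) (nat_lit 0) (XT.lf (nat_lit 0) (nat_lit 6240185740) (nat_lit 988) (nat_lit 1274460317) (nat_lit 76) (nat_lit 385552123) (nat_lit 447) (nat_lit 5) (nat_lit 460) (nat_lit 5) (nat_lit 448) (nat_lit 5) (nat_lit 431) (nat_lit 402) (nat_lit 367)) (XT.lf (nat_lit 0) (nat_lit 1985994041) (nat_lit 988) (nat_lit 1498098290) (nat_lit 76) (nat_lit 4509463749) (nat_lit 434) (nat_lit 5) (nat_lit 447) (nat_lit 5) (nat_lit 435) (nat_lit 5) (nat_lit 432) (nat_lit 402) (nat_lit 366))) (XT.nd (nat_lit 78) (nat_lit 988) (nat_lit 0) (XT.lf (nat_lit 0)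 (nat_lit 5684317548) (nat_lit 912) (nat_lit 1687843659) (nat_lit 76) (nat_lit 718027130) (nat_lit 423) (nat_lit 5) (nat_lit 435) (nat_lit 5) (nat_lit 424) (nat_lit 5) (nat_lit 433) (nat_lit 402) (nat_lit 365)) (XT.lf (nat_lit 0) (nat_lit 1273700902) (nat_lit 988) (nat_lit 1860139278) (nat_lit 76) (nat_lit 5055974198) (nat_lit 410) (nat_lit 5) (nat_lit 423) (nat_lit 5) (nat_lit 411) (nat_lit 5) (nat_lit 434) (nat_lit 402) (nat_lit 364))))) (XT.nd (nat_lit 312) (nat_lit 3040) (nat_lit 0) (XT.nd (nat_lit 156) (nat_lit 1520) (nat_lit 0) (XT.nd (nat_lit 78) (nat_lit 912) (nat_lit 0) (XT.lf (nat_lit 0) (nat_lit 5005685610) (nat_lit 912) (nat_lit 2008188450) (nat_lit 76) (nat_lit 1278745493) (nat_lit 399) (nat_lit 5) (nat_lit 411) (nat_lit 5) (nat_lit 400) (nat_lit 5) (nat_lit 435) (nat_lit 402) (nat_lit 363)) (XT.lf (nat_lit 0) (nat_lit 435114143) (nat_lit 912) (nat_lit 2131981239) (nat_lit 76) (nat_lit 5831559254)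 (nat_lit 387) (nat_lit 5) (nat_lit 399) (nat_lit 5) (nat_lit 388) (nat_lit 5) (nat_lit 436) (nat_lit 402) (nat_lit 362))) (XT.nd (nat_lit 78) (nat_lit 760) (nat_lit 0) (XT.lf (nat_lit 0) (nat_lit 4209348809) (nat_lit 836) (nat_lit 2243334162) (nat_lit 76) (nat_lit 2055052086) (nat_lit 377) (nat_lit 5) (nat_lit 388) (nat_lit 5) (nat_lit 378) (nat_lit 5) (nat_lit 437) (nat_lit 402) (nat_lit 361)) (XT.lf (nat_lit 0) (nat_lit 6295535113) (nat_lit 760) (nat_lit 1792581096) (nat_lit 836) (nat_lit 532147949) (nat_lit 367) (nat_lit 5) (nat_lit 377) (nat_lit 5) (nat_lit 378) (nat_lit 5) (nat_lit 438) (nat_lit 402) (nat_lit 360)))) (XT.nd (nat_lit 156) (nat_lit 1444) (nat_lit 0) (XT.nd (nat_lit 78) (nat_lit 760) (nat_lit 0) (XT.lf (nat_lit 0) (nat_lit 3299689724) (nat_lit 836) (nat_lit 2400645312) (nat_lit 76) (nat_lit 3035471538) (nat_lit 356) (nat_lit 5) (nat_lit 367) (nat_lit 5) (nat_lit 357) (nat_lit 5) (nat_lit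 439) (nat_lit 402) (nat_lit 359)) (XT.lf (nat_lit 0) (nat_lit 6409163124) (nat_lit 760) (nat_lit 821233044) (nat_lit 836) (nat_lit 1624528074) (nat_lit 346) (nat_lit 5) (nat_lit 356) (nat_lit 5) (nat_lit 357) (nat_lit 5) (nat_lit 440) (nat_lit 402) (nat_lit 358))) (XT.nd (nat_lit 78) (nat_lit 684) (nat_lit 0) (XT.lf (nat_lit 0) (nat_lit 2280449383) (nat_lit 760) (nat_lit 2487065187) (nat_lit 76) (nat_lit 4209619633) (nat_lit 336) (nat_lit 5) (nat_lit 346) (nat_lit 5) (nat_lit 337) (nat_lit 5) (nat_lit 441) (nat_lit 402) (nat_lit 357)) (XT.lf (nat_lit 0) (nat_lit 6272260551) (nat_lit 760) (nat_lit 2501156647) (nat_lit 76) (nat_lit 329545427) (nat_lit 327) (nat_lit 5) (nat_lit 337) (nat_lit 5) (nat_lit 328) (nat_lit 5) (nat_lit 442) (nat_lit 402) (nat_lit 356))))))) (XT.nd (nat_lit 1170) (nat_lit 6308) (nat_lit 0) (XT.nd (nat_lit 546) (nat_lit 4332) (nat_lit 0) (XT.nd (nat_lit 234) (nat_lit 2508) (nat_lit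 0) (XT.nd (nat_lit 78) (nat_lit 1292) (nat_lit 0) (XT.lf (nat_lit 0) (nat_lit 1154758075) (nat_lit 760) (nat_lit 2509167425) (nat_lit 76) (nat_lit 5568120902) (nat_lit 317) (nat_lit 5) (nat_lit 327) (nat_lit 5) (nat_lit 318) (nat_lit 5) (nat_lit 443) (nat_lit 402) (nat_lit 355)) (XT.nd (nat_lit 78) (nat_lit 608) (nat_lit 0) (XT.lf (nat_lit 0) (nat_lit 5221061755) (nat_lit 760) (nat_lit 2501641626) (nat_lit 76) (nat_lit 1641932214) (nat_lit 308) (nat_lit 5) (nat_lit 318) (nat_lit 5) (nat_lit 309) (nat_lit 5) (nat_lit 444) (nat_lit 402) (nat_lit 354)) (XT.lf (nat_lit 0) (nat_lit 7027192044) (nat_lit 608) (nat_lit 2397866032) (nat_lit 684) (nat_lit 75832141) (nat_lit 300) (nat_lit 5) (nat_lit 308) (nat_lit 5) (nat_lit 309) (nat_lit 5) (nat_lit 445) (nat_lit 402) (nat_lit 353)))) (XT.nd (nat_lit 156) (nat_lit 1216) (nat_lit 0) (XT.nd (nat_lit 78) (nat_lit 608) (nat_lit 0) (XT.lf (nat_lit 0) (nat_lit 4073904594)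 (nat_lit 684) (nat_lit 2447961984) (nat_lit 76) (nat_lit 3118555069) (nat_lit 291) (nat_lit 5) (nat_lit 300) (nat_lit 5) (nat_lit 292) (nat_lit 5) (nat_lit 446) (nat_lit 402) (nat_lit 352)) (XT.lf (nat_lit 0) (nat_lit 7389480622) (nat_lit 608) (nat_lit 969374143) (nat_lit 684) (nat_lit 1425040885) (nat_lit 283) (nat_lit 5) (nat_lit 291) (nat_lit 5) (nat_lit 292) (nat_lit 5) (nat_lit 447) (nat_lit 402) (nat_lit 351))) (XT.nd (nat_lit 78) (nat_lit 532) (nat_lit 0) (XT.lf (nat_lit 0) (nat_lit 2832689374) (nat_lit 684) (nat_lit 2345952425) (nat_lit 76) (nat_lit 4752079488) (nat_lit 274) (nat_lit 5) (nat_lit 283) (nat_lit 5) (nat_lit 275) (nat_lit 5) (nat_lit 448) (nat_lit 402) (nat_lit 350)) (XT.lf (nat_lit 0) (nat_lit 7209510967) (nat_lit 608) (nat_lit 2273407970) (nat_lit 76) (nat_lit 598631523) (nat_lit 267) (nat_lit 5) (nat_lit 275) (nat_lit 5) (nat_lit 268) (nat_lit 5) (nat_lit 449) (nat_lit 402) (nat_lit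 349))))) (XT.nd (nat_lit 312) (nat_lit 2052) (nat_lit 0) (XT.nd (nat_lit 156) (nat_lit 1064) (nat_lit 0) (XT.nd (nat_lit 78) (nat_lit 532) (nat_lit 0) (XT.lf (nat_lit 0) (nat_lit 1498798286) (nat_lit 684) (nat_lit 2201251101) (nat_lit 76) (nat_lit 6535914612) (nat_lit 258) (nat_lit 5) (nat_lit 267) (nat_lit 5) (nat_lit 259) (nat_lit 5) (nat_lit 450) (nat_lit 402) (nat_lit 348)) (XT.lf (nat_lit 0) (nat_lit 5981676003) (nat_lit 608) (nat_lit 2119522325) (nat_lit 76) (nat_lit 2293034681) (nat_lit 251) (nat_lit 5) (nat_lit 259) (nat_lit 5) (nat_lit 252) (nat_lit 5) (nat_lit 451) (nat_lit 402) (nat_lit 347))) (XT.nd (nat_lit 78) (nat_lit 456) (nat_lit 0) (XT.lf (nat_lit 0) (nat_lit 73110532) (nat_lit 608) (nat_lit 2019345780) (nat_lit 76) (nat_lit 8464152348) (nat_lit 243) (nat_lit 5) (nat_lit 251) (nat_lit 5) (nat_lit 244) (nat_lit 5) (nat_lit 452) (nat_lit 402) (nat_lit 346)) (XT.lf (nat_lit 0) (nat_lit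 4669909351) (nat_lit 532) (nat_lit 1931873016) (nat_lit 76) (nat_lit 4120760992) (nat_lit 237) (nat_lit 5) (nat_lit 244) (nat_lit 5) (nat_lit 238) (nat_lit 5) (nat_lit 453) (nat_lit 402) (nat_lit 345)))) (XT.nd (nat_lit 156) (nat_lit 988) (nat_lit 0) (XT.nd (nat_lit 78) (nat_lit 532) (nat_lit 0) (XT.lf (nat_lit 0) (nat_lit 9077834288) (nat_lit 532) (nat_lit 351944223) (nat_lit 608) (nat_lit 1463175550) (nat_lit 230) (nat_lit 5) (nat_lit 237) (nat_lit 5) (nat_lit 238) (nat_lit 5) (nat_lit 454) (nat_lit 402) (nat_lit 344)) (XT.lf (nat_lit 0) (nat_lit 3274591732) (nat_lit 532) (nat_lit 1715791005) (nat_lit 76) (nat_lit 6076603090) (nat_lit 223) (nat_lit 5) (nat_lit 230) (nat_lit 5) (nat_lit 224) (nat_lit 5) (nat_lit 455) (nat_lit 402) (nat_lit 343))) (XT.nd (nat_lit 78) (nat_lit 532) (nat_lit 0) (XT.lf (nat_lit 0) (nat_lit 8162324764) (nat_lit 532) (nat_lit 1595270251) (nat_lit 76) (nat_lit 1487897061)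 (nat_lit 217) (nat_lit 5) (nat_lit 224) (nat_lit 5) (nat_lit 218) (nat_lit 5) (nat_lit 456) (nat_lit 402) (nat_lit 342)) (XT.lf (nat_lit 0) (nat_lit 1795638736) (nat_lit 532) (nat_lit 1476575770) (nat_lit 76) (nat_lit 8155881020) (nat_lit 210) (nat_lit 5) (nat_lit 217) (nat_lit 5) (nat_lit 211) (nat_lit 5) (nat_lit 457) (nat_lit 402) (nat_lit 341)))))) (XT.nd (nat_lit 546) (nat_lit 3268) (nat_lit 0) (XT.nd (nat_lit 234) (nat_lit 1672) (nat_lit 0) (XT.nd (nat_lit 78) (nat_lit 912) (nat_lit 0) (XT.lf (nat_lit 0) (nat_lit 6821546957) (nat_lit 532) (nat_lit 1357869598) (nat_lit 76) (nat_lit 3435501511) (nat_lit 204) (nat_lit 5) (nat_lit 211) (nat_lit 5) (nat_lit 205) (nat_lit 5) (nat_lit 458) (nat_lit 402) (nat_lit 340)) (XT.nd (nat_lit 78) (nat_lit 456) (nat_lit 0) (XT.lf (nat_lit 0) (nat_lit 232505193) (nat_lit 456) (nat_lit 1219542413) (nat_lit 76) (nat_lit 10354391506) (nat_lit 198) (nat_lit 5) (nat_lit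 204) (nat_lit 5) (nat_lit 199) (nat_lit 5) (nat_lit 459) (nat_lit 402) (nat_lit 339)) (XT.lf (nat_lit 0) (nat_lit 5404655997) (nat_lit 532) (nat_lit 1105962308) (nat_lit 76) (nat_lit 5491242395) (nat_lit 192) (nat_lit 5) (nat_lit 199) (nat_lit 5) (nat_lit 193) (nat_lit 5) (nat_lit 460) (nat_lit 402) (nat_lit 338)))) (XT.nd (nat_lit 156) (nat_lit 836) (nat_lit 0) (XT.nd (nat_lit 78) (nat_lit 456) (nat_lit 0) (XT.lf (nat_lit 0) (nat_lit 10770886006) (nat_lit 456) (nat_lit 962470127) (nat_lit 76) (nat_lit 469011497) (nat_lit 187) (nat_lit 5) (nat_lit 193) (nat_lit 5) (nat_lit 188) (nat_lit 5) (nat_lit 461) (nat_lit 402) (nat_lit 337)) (XT.lf (nat_lit 0) (nat_lit 3910702430) (nat_lit 456) (nat_lit 844969366) (nat_lit 76) (nat_lit 7651263947) (nat_lit 181) (nat_lit 5) (nat_lit 187) (nat_lit 5) (nat_lit 182) (nat_lit 5) (nat_lit 462) (nat_lit 402) (nat_lit 336))) (XT.nd (nat_lit 78) (nat_lit 456) (nat_lit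 0) (XT.lf (nat_lit 0) (nat_lit 9440407818) (nat_lit 456) (nat_lit 710600586) (nat_lit 76) (nat_lit 2465510087) (nat_lit 176) (nat_lit 5) (nat_lit 182) (nat_lit 5) (nat_lit 177) (nat_lit 5) (nat_lit 463) (nat_lit 402) (nat_lit 335)) (XT.lf (nat_lit 0) (nat_lit 2338288337) (nat_lit 456) (nat_lit 580453927) (nat_lit 76) (nat_lit 9912050495) (nat_lit 170) (nat_lit 5) (nat_lit 176) (nat_lit 5) (nat_lit 171) (nat_lit 5) (nat_lit 464) (nat_lit 402) (nat_lit 334))))) (XT.nd (nat_lit 312) (nat_lit 1748) (nat_lit 0) (XT.nd (nat_lit 156) (nat_lit 684) (nat_lit 0) (XT.nd (nat_lit 78) (nat_lit 456) (nat_lit 0) (XT.lf (nat_lit 0) (nat_lit 8039877064) (nat_lit 456) (nat_lit 458613617) (nat_lit 76) (nat_lit 4551287365) (nat_lit 165) (nat_lit 5) (nat_lit 171) (nat_lit 5) (nat_lit 166) (nat_lit 5) (nat_lit 465) (nat_lit 402) (nat_lit 333)) (XT.lf (nat_lit 0) (nat_lit 685561130) (nat_lit 456) (nat_lit 318174321) (nat_lit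 76) (nat_lit 12270380760) (nat_lit 159) (nat_lit 5) (nat_lit 165) (nat_lit 5) (nat_lit 160) (nat_lit 5) (nat_lit 466) (nat_lit 402) (nat_lit 332))) (XT.nd (nat_lit 78) (nat_lit 380) (nat_lit 0) (XT.lf (nat_lit 0) (nat_lit 6567534831) (nat_lit 380) (nat_lit 212381495) (nat_lit 76) (nat_lit 6722932414) (nat_lit 155) (nat_lit 5) (nat_lit 160) (nat_lit 5) (nat_lit 156) (nat_lit 5) (nat_lit 467) (nat_lit 402) (nat_lit 331)) (XT.lf (nat_lit 0) (nat_lit 12680186661) (nat_lit 456) (nat_lit 77491625) (nat_lit 76) (nat_lit 979681337) (nat_lit 150) (nat_lit 5) (nat_lit 156) (nat_lit 5) (nat_lit 151) (nat_lit 5) (nat_lit 468) (nat_lit 402) (nat_lit 330)))) (XT.nd (nat_lit 156) (nat_lit 684) (nat_lit 0) (XT.nd (nat_lit 78) (nat_lit 304) (nat_lit 0) (XT.lf (nat_lit 0) (nat_lit 22232884) (nat_lit 380) (nat_lit 4999079396) (nat_lit 456) (nat_lit 8955154543) (nat_lit 140) (nat_lit 5) (nat_lit 145) (nat_lit 5) (nat_lit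 146) (nat_lit 5) (nat_lit 469) (nat_lit 402) (nat_lit 329)) (XT.lf (nat_lit 0) (nat_lit 138358569) (nat_lit 304) (nat_lit 11195420357) (nat_lit 380) (nat_lit 2887509462) (nat_lit 136) (nat_lit 5) (nat_lit 140) (nat_lit 5) (nat_lit 141) (nat_lit 5) (nat_lit 470) (nat_lit 402) (nat_lit 328))) (XT.nd (nat_lit 78) (nat_lit 304) (nat_lit 0) (XT.lf (nat_lit 0) (nat_lit 241018348) (nat_lit 304) (nat_lit 3158641279) (nat_lit 380) (nat_lit 11071727251) (nat_lit 131) (nat_lit 5) (nat_lit 135) (nat_lit 5) (nat_lit 136) (nat_lit 5) (nat_lit 471) (nat_lit 402) (nat_lit 327)) (XT.lf (nat_lit 0) (nat_lit 332660920) (nat_lit 304) (nat_lit 9587356089) (nat_lit 380) (nat_lit 4806914170) (nat_lit 127) (nat_lit 5) (nat_lit 131) (nat_lit 5) (nat_lit 132) (nat_lit 5) (nat_lit 472) (nat_lit 402) (nat_lit 326))))))))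
noncomputable def xc38 : XT := (XT.nd (nat_lit 58110) (nat_lit 0) (nat_lit 16796) (XT.nd (nat_lit 1092) (nat_lit 304) (nat_lit 0) (XT.nd (nat_lit 546) (nat_lit 1824) (nat_lit 0) (XT.nd (nat_lit 234) (nat_lit 1216) (nat_lit 0) (XT.nd (nat_lit 78) (nat_lit 608) (nat_lit 0) (XT.lf (nat_lit 0) (nat_lit 434155586) (nat_lit 304) (nat_lit 1263810937) (nat_lit 380) (nat_lit 13290488009) (nat_lit 122) (nat_lit 5) (nat_lit 126) (nat_lit 5) (nat_lit 127) (nat_lit 5) (nat_lit 473) (nat_lit 402) (nat_lit 325)) (XT.nd (nat_lit 78) (nat_lit 304) (nat_lit 0) (XT.lf (nat_lit 0) (nat_lit 497155585) (nat_lit 304) (nat_lit 7938153052) (nat_lit 380) (nat_lit 6819827630) (nat_lit 118) (nat_lit 5) (nat_lit 122) (nat_lit 5) (nat_lit 123) (nat_lit 5) (nat_lit 474) (nat_lit 402) (nat_lit 324)) (XT.lf (nat_lit 0) (nat_lit 589092557) (nat_lit 304) (nat_lit 14855167755) (nat_lit 380) (nat_lit 84168937) (nat_lit 114) (nat_lit 5)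 (nat_lit 118) (nat_lit 5) (nat_lit 119) (nat_lit 5) (nat_lit 475) (nat_lit 402) (nat_lit 323)))) (XT.nd (nat_lit 156) (nat_lit 608) (nat_lit 0) (XT.nd (nat_lit 78) (nat_lit 304) (nat_lit 0) (XT.lf (nat_lit 0) (nat_lit 624090078) (nat_lit 228) (nat_lit 6251975685) (nat_lit 304) (nat_lit 8930718015) (nat_lit 110) (nat_lit 5) (nat_lit 113) (nat_lit 5) (nat_lit 114) (nat_lit 5) (nat_lit 476) (nat_lit 402) (nat_lit 322)) (XT.lf (nat_lit 0) (nat_lit 682253599) (nat_lit 304) (nat_lit 13440213640) (nat_lit 380) (nat_lit 1969441049) (nat_lit 106) (nat_lit 5) (nat_lit 110) (nat_lit 5) (nat_lit 111) (nat_lit 5) (nat_lit 477) (nat_lit 402) (nat_lit 321))) (XT.nd (nat_lit 78) (nat_lit 304) (nat_lit 0) (XT.lf (nat_lit 0) (nat_lit 705110813) (nat_lit 228) (nat_lit 4533056474) (nat_lit 304) (nat_lit 11144630416) (nat_lit 102) (nat_lit 5) (nat_lit 105) (nat_lit 5) (nat_lit 106) (nat_lit 5) (nat_lit 478) (nat_lit 402)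 (nat_lit 320)) (XT.lf (nat_lit 0) (nat_lit 724659802) (nat_lit 304) (nat_lit 12007048986) (nat_lit 380) (nat_lit 3948515910) (nat_lit 98) (nat_lit 5) (nat_lit 102) (nat_lit 5) (nat_lit 103) (nat_lit 5) (nat_lit 479) (nat_lit 402) (nat_lit 319))))) (XT.nd (nat_lit 234) (nat_lit 988) (nat_lit 0) (XT.nd (nat_lit 78) (nat_lit 532) (nat_lit 0) (XT.lf (nat_lit 0) (nat_lit 731177997) (nat_lit 228) (nat_lit 2785749201) (nat_lit 304) (nat_lit 13467220646) (nat_lit 94) (nat_lit 5) (nat_lit 97) (nat_lit 5) (nat_lit 98) (nat_lit 5) (nat_lit 480) (nat_lit 402) (nat_lit 318)) (XT.nd (nat_lit 78) (nat_lit 304) (nat_lit 0) (XT.lf (nat_lit 0) (nat_lit 706890489) (nat_lit 228) (nat_lit 10560560862) (nat_lit 304) (nat_lit 6026920546) (nat_lit 91) (nat_lit 5) (nat_lit 94) (nat_lit 5) (nat_lit 95) (nat_lit 5) (nat_lit 481) (nat_lit 402) (nat_lit 317)) (XT.lf (nat_lit 0) (nat_lit 692473240) (nat_lit 228) (nat_lit 1014584770)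 (nat_lit 304) (nat_lit 15904793909) (nat_lit 87) (nat_lit 5) (nat_lit 90) (nat_lit 5) (nat_lit 91) (nat_lit 5) (nat_lit 482) (nat_lit 402) (nat_lit 316)))) (XT.nd (nat_lit 156) (nat_lit 532) (nat_lit 0) (XT.nd (nat_lit 78) (nat_lit 228) (nat_lit 0) (XT.lf (nat_lit 0) (nat_lit 618695716) (nat_lit 228) (nat_lit 9105863620) (nat_lit 304) (nat_lit 8210832957) (nat_lit 84) (nat_lit 5) (nat_lit 87) (nat_lit 5) (nat_lit 88) (nat_lit 5) (nat_lit 483) (nat_lit 402) (nat_lit 315)) (XT.lf (nat_lit 0) (nat_lit 571871449) (nat_lit 228) (nat_lit 17500089594) (nat_lit 304) (nat_lit 194890741) (nat_lit 81) (nat_lit 5) (nat_lit 84) (nat_lit 5) (nat_lit 85) (nat_lit 5) (nat_lit 484) (nat_lit 402) (nat_lit 314))) (XT.nd (nat_lit 78) (nat_lit 228) (nat_lit 0) (XT.lf (nat_lit 0) (nat_lit 448891329) (nat_lit 228) (nat_lit 7648360181) (nat_lit 304) (nat_lit 10507128122) (nat_lit 77) (nat_lit 5) (nat_lit 80) (nat_lit 5) (nat_lit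 81) (nat_lit 5) (nat_lit 485) (nat_lit 402) (nat_lit 313)) (XT.lf (nat_lit 0) (nat_lit 345212420) (nat_lit 228) (nat_lit 16389527507) (nat_lit 304) (nat_lit 2215283410) (nat_lit 74) (nat_lit 5) (nat_lit 77) (nat_lit 5) (nat_lit 78) (nat_lit 5) (nat_lit 486) (nat_lit 402) (nat_lit 312)))))) (XT.nd (nat_lit 56394) (nat_lit 0) (nat_lit 48108) (XT.nd (nat_lit 56082) (nat_lit 0) (nat_lit 52060) (XT.nd (nat_lit 55926) (nat_lit 0) (nat_lit 53656) (XT.lf (nat_lit 0) (nat_lit 185244388) (nat_lit 228) (nat_lit 6193807280) (nat_lit 304) (nat_lit 12923429829) (nat_lit 70) (nat_lit 5) (nat_lit 73) (nat_lit 5) (nat_lit 74) (nat_lit 5) (nat_lit 487) (nat_lit 402) (nat_lit 311)) (XT.nd (nat_lit 78) (nat_lit 0) (nat_lit 0) (XT.lf (nat_lit 0) (nat_lit 272706949) (nat_lit 0) (nat_lit 272706949) (nat_lit 380) (nat_lit 2694780277) (nat_lit 776) (nat_lit 5) (nat_lit 776) (nat_lit 3) (nat_lit 781) (nat_lit 3) (nat_lit 403)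 (nat_lit 403) (nat_lit 394)) (XT.lf (nat_lit 0) (nat_lit 5252224366) (nat_lit 380) (nat_lit 1076894005) (nat_lit 456) (nat_lit 165355172) (nat_lit 776) (nat_lit 5) (nat_lit 781) (nat_lit 3) (nat_lit 782) (nat_lit 5) (nat_lit 404) (nat_lit 403) (nat_lit 393)))) (XT.nd (nat_lit 156) (nat_lit 608) (nat_lit 0) (XT.nd (nat_lit 78) (nat_lit 532) (nat_lit 0) (XT.lf (nat_lit 0) (nat_lit 2856564799) (nat_lit 456) (nat_lit 2640765446) (nat_lit 532) (nat_lit 1013929765) (nat_lit 770) (nat_lit 5) (nat_lit 776) (nat_lit 5) (nat_lit 777) (nat_lit 5) (nat_lit 405) (nat_lit 403) (nat_lit 392)) (XT.lf (nat_lit 0) (nat_lit 390051459) (nat_lit 532) (nat_lit 4143396067) (nat_lit 608) (nat_lit 1997597851) (nat_lit 763) (nat_lit 5) (nat_lit 770) (nat_lit 5) (nat_lit 771) (nat_lit 5) (nat_lit 406) (nat_lit 403) (nat_lit 391))) (XT.nd (nat_lit 78) (nat_lit 608) (nat_lit 0) (XT.lf (nat_lit 76) (nat_lit 953897690) (nat_lit 0)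 (nat_lit 3422015647) (nat_lit 608) (nat_lit 2177647078) (nat_lit 764) (nat_lit 5) (nat_lit 763) (nat_lit 5) (nat_lit 771) (nat_lit 5) (nat_lit 407) (nat_lit 403) (nat_lit 390)) (XT.lf (nat_lit 0) (nat_lit 1755778831) (nat_lit 608) (nat_lit 414599322) (nat_lit 684) (nat_lit 4408609679) (nat_lit 755) (nat_lit 5) (nat_lit 763) (nat_lit 5) (nat_lit 764) (nat_lit 5) (nat_lit 408) (nat_lit 403) (nat_lit 389))))) (XT.nd (nat_lit 312) (nat_lit 2584) (nat_lit 0) (XT.nd (nat_lit 156) (nat_lit 760) (nat_lit 0) (XT.nd (nat_lit 78) (nat_lit 608) (nat_lit 0) (XT.lf (nat_lit 76) (nat_lit 4891446252) (nat_lit 0) (nat_lit 770427922) (nat_lit 684) (nat_lit 945338152) (nat_lit 756) (nat_lit 5) (nat_lit 755) (nat_lit 5) (nat_lit 764) (nat_lit 5) (nat_lit 409) (nat_lit 403) (nat_lit 388)) (XT.lf (nat_lit 0) (nat_lit 2895723586) (nat_lit 684) (nat_lit 2973606710) (nat_lit 760) (nat_lit 768827371) (nat_lit 747) (nat_lit 5)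 (nat_lit 756) (nat_lit 5) (nat_lit 757) (nat_lit 5) (nat_lit 410) (nat_lit 403) (nat_lit 387))) (XT.nd (nat_lit 78) (nat_lit 0) (nat_lit 0) (XT.lf (nat_lit 0) (nat_lit 58635842) (nat_lit 760) (nat_lit 4177879831) (nat_lit 836) (nat_lit 2435543481) (nat_lit 737) (nat_lit 5) (nat_lit 747) (nat_lit 5) (nat_lit 748) (nat_lit 5) (nat_lit 411) (nat_lit 403) (nat_lit 386)) (XT.lf (nat_lit 76) (nat_lit 1365884864) (nat_lit 0) (nat_lit 2448265590) (nat_lit 836) (nat_lit 2894513653) (nat_lit 738) (nat_lit 5) (nat_lit 737) (nat_lit 5) (nat_lit 748) (nat_lit 5) (nat_lit 412) (nat_lit 403) (nat_lit 385)))) (XT.nd (nat_lit 156) (nat_lit 1748) (nat_lit 0) (XT.nd (nat_lit 78) (nat_lit 0) (nat_lit 76) (XT.lf (nat_lit 76) (nat_lit 297595119) (nat_lit 0) (nat_lit 520910047) (nat_lit 912) (nat_lit 5929850177) (nat_lit 727) (nat_lit 5) (nat_lit 726) (nat_lit 5) (nat_lit 738) (nat_lit 5) (nat_lit 413) (nat_lit 403) (nat_lit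 384)) (XT.lf (nat_lit 0) (nat_lit 4517843585) (nat_lit 836) (nat_lit 726228548) (nat_lit 76) (nat_lit 1546503290) (nat_lit 727) (nat_lit 5) (nat_lit 738) (nat_lit 5) (nat_lit 728) (nat_lit 5) (nat_lit 414) (nat_lit 403) (nat_lit 383))) (XT.nd (nat_lit 78) (nat_lit 912) (nat_lit 0) (XT.lf (nat_lit 0) (nat_lit 1382722540) (nat_lit 912) (nat_lit 1697254248) (nat_lit 76) (nat_lit 3755732504) (nat_lit 715) (nat_lit 5) (nat_lit 727) (nat_lit 5) (nat_lit 716) (nat_lit 5) (nat_lit 415) (nat_lit 403) (nat_lit 382)) (XT.lf (nat_lit 0) (nat_lit 4260962284) (nat_lit 912) (nat_lit 763063127) (nat_lit 988) (nat_lit 1859735464) (nat_lit 703) (nat_lit 5) (nat_lit 715) (nat_lit 5) (nat_lit 716) (nat_lit 5) (nat_lit 416) (nat_lit 403) (nat_lit 381))))))) (XT.nd (nat_lit 1170) (nat_lit 11856) (nat_lit 0) (XT.nd (nat_lit 546) (nat_lit 12084) (nat_lit 0) (XT.nd (nat_lit 234) (nat_lit 4028) (nat_lit 0) (XT.nd (nat_lit 78)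 (nat_lit 2280) (nat_lit 0) (XT.lf (nat_lit 0) (nat_lit 1738679474) (nat_lit 1064) (nat_lit 3511599773) (nat_lit 76) (nat_lit 1684310490) (nat_lit 689) (nat_lit 5) (nat_lit 703) (nat_lit 5) (nat_lit 690) (nat_lit 5) (nat_lit 417) (nat_lit 403) (nat_lit 380)) (XT.nd (nat_lit 78) (nat_lit 1216) (nat_lit 0) (XT.lf (nat_lit 0) (nat_lit 2628195069) (nat_lit 1064) (nat_lit 2711613704) (nat_lit 1140) (nat_lit 1648493256) (nat_lit 675) (nat_lit 5) (nat_lit 689) (nat_lit 5) (nat_lit 690) (nat_lit 5) (nat_lit 418) (nat_lit 403) (nat_lit 379)) (XT.lf (nat_lit 0) (nat_lit 1880358714) (nat_lit 1140) (nat_lit 16832166) (nat_lit 1216) (nat_lit 5147816256) (nat_lit 659) (nat_lit 5) (nat_lit 674) (nat_lit 5) (nat_lit 675) (nat_lit 5) (nat_lit 419) (nat_lit 403) (nat_lit 378)))) (XT.nd (nat_lit 156) (nat_lit 1444) (nat_lit 0) (XT.nd (nat_lit 78) (nat_lit 1368) (nat_lit 0) (XT.lf (nat_lit 0) (nat_lit 1161715659) (nat_lit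 1216) (nat_lit 4305497826) (nat_lit 1292) (nat_lit 1637179300) (nat_lit 643) (nat_lit 5) (nat_lit 659) (nat_lit 5) (nat_lit 660) (nat_lit 5) (nat_lit 420) (nat_lit 403) (nat_lit 377)) (XT.lf (nat_lit 0) (nat_lit 487564811) (nat_lit 1292) (nat_lit 1390839003) (nat_lit 1368) (nat_lit 5288392045) (nat_lit 625) (nat_lit 5) (nat_lit 642) (nat_lit 5) (nat_lit 643) (nat_lit 5) (nat_lit 421) (nat_lit 403) (nat_lit 376))) (XT.nd (nat_lit 78) (nat_lit 1444) (nat_lit 0) (XT.lf (nat_lit 0) (nat_lit 5418271119) (nat_lit 1368) (nat_lit 150130735) (nat_lit 76) (nat_lit 1663635807) (nat_lit 625) (nat_lit 5) (nat_lit 643) (nat_lit 5) (nat_lit 626) (nat_lit 5) (nat_lit 422) (nat_lit 403) (nat_lit 375)) (XT.lf (nat_lit 0) (nat_lit 1686640314) (nat_lit 1444) (nat_lit 747424615) (nat_lit 76) (nat_lit 4866052796) (nat_lit 606) (nat_lit 5) (nat_lit 625) (nat_lit 5) (nat_lit 607) (nat_lit 5) (nat_lit 423) (nat_lit 403) (nat_lit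 374))))) (XT.nd (nat_lit 312) (nat_lit 5700) (nat_lit 0) (XT.nd (nat_lit 156) (nat_lit 3344) (nat_lit 0) (XT.nd (nat_lit 78) (nat_lit 1596) (nat_lit 0) (XT.lf (nat_lit 0) (nat_lit 5208598515) (nat_lit 1520) (nat_lit 1308619996) (nat_lit 76) (nat_lit 853962215) (nat_lit 587) (nat_lit 5) (nat_lit 607) (nat_lit 5) (nat_lit 588) (nat_lit 5) (nat_lit 424) (nat_lit 403) (nat_lit 373)) (XT.lf (nat_lit 0) (nat_lit 1328701627) (nat_lit 1596) (nat_lit 1842257287) (nat_lit 76) (nat_lit 4274137395) (nat_lit 566) (nat_lit 5) (nat_lit 587) (nat_lit 5) (nat_lit 567) (nat_lit 5) (nat_lit 425) (nat_lit 403) (nat_lit 372))) (XT.nd (nat_lit 78) (nat_lit 1748) (nat_lit 0) (XT.lf (nat_lit 0) (nat_lit 4839697455) (nat_lit 1672) (nat_lit 2340629074) (nat_lit 76) (nat_lit 341733486) (nat_lit 545) (nat_lit 5) (nat_lit 567) (nat_lit 5) (nat_lit 546) (nat_lit 5) (nat_lit 426) (nat_lit 403) (nat_lit 371)) (XT.lf (nat_lit 0) (nat_lit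 809944658) (nat_lit 1748) (nat_lit 2814653185) (nat_lit 76) (nat_lit 3977297998) (nat_lit 522) (nat_lit 5) (nat_lit 545) (nat_lit 5) (nat_lit 523) (nat_lit 5) (nat_lit 427) (nat_lit 403) (nat_lit 370)))) (XT.nd (nat_lit 156) (nat_lit 2052) (nat_lit 0) (XT.nd (nat_lit 78) (nat_lit 1900) (nat_lit 0) (XT.lf (nat_lit 0) (nat_lit 4319668696) (nat_lit 1824) (nat_lit 3257001286) (nat_lit 76) (nat_lit 108123704) (nat_lit 499) (nat_lit 5) (nat_lit 523) (nat_lit 5) (nat_lit 500) (nat_lit 5) (nat_lit 428) (nat_lit 403) (nat_lit 369)) (XT.lf (nat_lit 0) (nat_lit 137963789) (nat_lit 1900) (nat_lit 3675168098) (nat_lit 76) (nat_lit 3957516112) (nat_lit 474) (nat_lit 5) (nat_lit 499) (nat_lit 5) (nat_lit 475) (nat_lit 5) (nat_lit 429) (nat_lit 403) (nat_lit 368))) (XT.nd (nat_lit 78) (nat_lit 912) (nat_lit 0) (XT.lf (nat_lit 0) (nat_lit 3655728469) (nat_lit 1216) (nat_lit 4067854255) (nat_lit 76) (nat_lit 135947414)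 (nat_lit 459) (nat_lit 5) (nat_lit 475) (nat_lit 5) (nat_lit 460) (nat_lit 5) (nat_lit 430) (nat_lit 403) (nat_lit 367)) (XT.lf (nat_lit 0) (nat_lit 3513289558) (nat_lit 912) (nat_lit 3748573796) (nat_lit 988) (nat_lit 689561658) (nat_lit 447) (nat_lit 5) (nat_lit 459) (nat_lit 5) (nat_lit 460) (nat_lit 5) (nat_lit 431) (nat_lit 403) (nat_lit 366)))))) (XT.nd (nat_lit 546) (nat_lit 5776) (nat_lit 0) (XT.nd (nat_lit 234) (nat_lit 3268) (nat_lit 0) (XT.nd (nat_lit 78) (nat_lit 1824) (nat_lit 0) (XT.lf (nat_lit 0) (nat_lit 2854262237) (nat_lit 988) (nat_lit 4782647468) (nat_lit 76) (nat_lit 409537705) (nat_lit 434) (nat_lit 5) (nat_lit 447) (nat_lit 5) (nat_lit 435) (nat_lit 5) (nat_lit 432) (nat_lit 403) (nat_lit 365)) (XT.nd (nat_lit 78) (nat_lit 988) (nat_lit 0) (XT.lf (nat_lit 0) (nat_lit 3034337252) (nat_lit 836) (nat_lit 3448747140) (nat_lit 912) (nat_lit 1661386674) (nat_lit 423) (nat_lit 5) (nat_lit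 434) (nat_lit 5) (nat_lit 435) (nat_lit 5) (nat_lit 433) (nat_lit 403) (nat_lit 364)) (XT.lf (nat_lit 0) (nat_lit 1920873416) (nat_lit 988) (nat_lit 5410245972) (nat_lit 76) (nat_lit 914633304) (nat_lit 410) (nat_lit 5) (nat_lit 423) (nat_lit 5) (nat_lit 411) (nat_lit 5) (nat_lit 434) (nat_lit 403) (nat_lit 363)))) (XT.nd (nat_lit 156) (nat_lit 1520) (nat_lit 0) (XT.nd (nat_lit 78) (nat_lit 912) (nat_lit 0) (XT.lf (nat_lit 0) (nat_lit 2651151469) (nat_lit 836) (nat_lit 2928394275) (nat_lit 912) (nat_lit 2770479640) (nat_lit 399) (nat_lit 5) (nat_lit 410) (nat_lit 5) (nat_lit 411) (nat_lit 5) (nat_lit 435) (nat_lit 403) (nat_lit 362)) (XT.lf (nat_lit 0) (nat_lit 860427360) (nat_lit 912) (nat_lit 5958980675) (nat_lit 76) (nat_lit 1638273930) (nat_lit 387) (nat_lit 5) (nat_lit 399) (nat_lit 5) (nat_lit 388) (nat_lit 5) (nat_lit 436) (nat_lit 403) (nat_lit 361))) (XT.nd (nat_lit 78) (nat_lit 760) (nat_lit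 0) (XT.lf (nat_lit 0) (nat_lit 2355870414) (nat_lit 760) (nat_lit 2200083872) (nat_lit 836) (nat_lit 4012383428) (nat_lit 377) (nat_lit 5) (nat_lit 387) (nat_lit 5) (nat_lit 388) (nat_lit 5) (nat_lit 437) (nat_lit 403) (nat_lit 360)) (XT.lf (nat_lit 0) (nat_lit 2243627223) (nat_lit 760) (nat_lit 6111629625) (nat_lit 836) (nat_lit 327200402) (nat_lit 367) (nat_lit 5) (nat_lit 377) (nat_lit 5) (nat_lit 378) (nat_lit 5) (nat_lit 438) (nat_lit 403) (nat_lit 359))))) (XT.nd (nat_lit 312) (nat_lit 2736) (nat_lit 0) (XT.nd (nat_lit 156) (nat_lit 1444) (nat_lit 0) (XT.nd (nat_lit 78) (nat_lit 760) (nat_lit 0) (XT.lf (nat_lit 0) (nat_lit 2141111503) (nat_lit 760) (nat_lit 1275230884) (nat_lit 836) (nat_lit 5383343888) (nat_lit 356) (nat_lit 5) (nat_lit 366) (nat_lit 5) (nat_lit 367) (nat_lit 5) (nat_lit 439) (nat_lit 403) (nat_lit 358)) (XT.lf (nat_lit 0) (nat_lit 2058737374) (nat_lit 760) (nat_lit 5214311425)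 (nat_lit 836) (nat_lit 1647236198) (nat_lit 346) (nat_lit 5) (nat_lit 356) (nat_lit 5) (nat_lit 357) (nat_lit 5) (nat_lit 440) (nat_lit 403) (nat_lit 357))) (XT.nd (nat_lit 78) (nat_lit 684) (nat_lit 0) (XT.lf (nat_lit 0) (nat_lit 1999917592) (nat_lit 684) (nat_lit 164184069) (nat_lit 760) (nat_lit 6880275994) (nat_lit 336) (nat_lit 5) (nat_lit 345) (nat_lit 5) (nat_lit 346) (nat_lit 5) (nat_lit 441) (nat_lit 403) (nat_lit 356)) (XT.lf (nat_lit 0) (nat_lit 1943084071) (nat_lit 684) (nat_lit 4143180395) (nat_lit 760) (nat_lit 3085335551) (nat_lit 327) (nat_lit 5) (nat_lit 336) (nat_lit 5) (nat_lit 337) (nat_lit 5) (nat_lit 442) (nat_lit 403) (nat_lit 355)))) (XT.nd (nat_lit 156) (nat_lit 1292) (nat_lit 0) (XT.nd (nat_lit 78) (nat_lit 684) (nat_lit 0) (XT.lf (nat_lit 0) (nat_lit 809308568) (nat_lit 760) (nat_lit 7384337209) (nat_lit 76) (nat_lit 1108955120) (nat_lit 317) (nat_lit 5) (nat_lit 327) (nat_lit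 5) (nat_lit 318) (nat_lit 5) (nat_lit 443) (nat_lit 403) (nat_lit 354)) (XT.lf (nat_lit 0) (nat_lit 1890289269) (nat_lit 684) (nat_lit 2907261893) (nat_lit 760) (nat_lit 4639201048) (nat_lit 308) (nat_lit 5) (nat_lit 317) (nat_lit 5) (nat_lit 318) (nat_lit 5) (nat_lit 444) (nat_lit 403) (nat_lit 353))) (XT.nd (nat_lit 78) (nat_lit 684) (nat_lit 0) (XT.lf (nat_lit 0) (nat_lit 1890761379) (nat_lit 608) (nat_lit 7024346440) (nat_lit 684) (nat_lit 659628678) (nat_lit 300) (nat_lit 5) (nat_lit 308) (nat_lit 5) (nat_lit 309) (nat_lit 5) (nat_lit 445) (nat_lit 403) (nat_lit 352)) (XT.lf (nat_lit 0) (nat_lit 1894269742) (nat_lit 608) (nat_lit 1514726664) (nat_lit 684) (nat_lit 6307123526) (nat_lit 291) (nat_lit 5) (nat_lit 299) (nat_lit 5) (nat_lit 300) (nat_lit 5) (nat_lit 446) (nat_lit 403) (nat_lit 351))))))))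
noncomputable def xc39 : XT := (XT.nd (nat_lit 2262) (nat_lit 3344) (nat_lit 0) (XT.nd (nat_lit 1092) (nat_lit 5624) (nat_lit 0) (XT.nd (nat_lit 546) (nat_lit 3420) (nat_lit 0) (XT.nd (nat_lit 234) (nat_lit 2280) (nat_lit 0) (XT.nd (nat_lit 78) (nat_lit 1216) (nat_lit 0) (XT.lf (nat_lit 0) (nat_lit 1910797825) (nat_lit 608) (nat_lit 5704675391) (nat_lit 684) (nat_lit 2245690991) (nat_lit 283) (nat_lit 5) (nat_lit 291) (nat_lit 5) (nat_lit 292) (nat_lit 5) (nat_lit 447) (nat_lit 403) (nat_lit 350)) (XT.nd (nat_lit 78) (nat_lit 532) (nat_lit 0) (XT.lf (nat_lit 0) (nat_lit 1922324375) (nat_lit 684) (nat_lit 8061096231) (nat_lit 76) (nat_lit 26686129) (nat_lit 274) (nat_lit 5) (nat_lit 283) (nat_lit 5) (nat_lit 275) (nat_lit 5) (nat_lit 448) (nat_lit 403) (nat_lit 349)) (XT.lf (nat_lit 0) (nat_lit 1978100926) (nat_lit 532) (nat_lit 4247248708) (nat_lit 608) (nat_lit 3937062944) (nat_lit 267) (nat_lit 5)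 (nat_lit 274) (nat_lit 5) (nat_lit 275) (nat_lit 5) (nat_lit 449) (nat_lit 403) (nat_lit 348)))) (XT.nd (nat_lit 156) (nat_lit 1064) (nat_lit 0) (XT.nd (nat_lit 78) (nat_lit 532) (nat_lit 0) (XT.lf (nat_lit 0) (nat_lit 349147025) (nat_lit 684) (nat_lit 8280857091) (nat_lit 76) (nat_lit 1688932923) (nat_lit 258) (nat_lit 5) (nat_lit 267) (nat_lit 5) (nat_lit 259) (nat_lit 5) (nat_lit 450) (nat_lit 403) (nat_lit 347)) (XT.lf (nat_lit 0) (nat_lit 2087141244) (nat_lit 532) (nat_lit 2658577653) (nat_lit 608) (nat_lit 5733213958) (nat_lit 251) (nat_lit 5) (nat_lit 258) (nat_lit 5) (nat_lit 259) (nat_lit 5) (nat_lit 451) (nat_lit 403) (nat_lit 346))) (XT.nd (nat_lit 78) (nat_lit 532) (nat_lit 0) (XT.lf (nat_lit 0) (nat_lit 2157211345) (nat_lit 532) (nat_lit 7148459275) (nat_lit 608) (nat_lit 1337429627) (nat_lit 244) (nat_lit 5) (nat_lit 251) (nat_lit 5) (nat_lit 252) (nat_lit 5) (nat_lit 452) (nat_lit 403)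 (nat_lit 345)) (XT.lf (nat_lit 0) (nat_lit 2232517148) (nat_lit 456) (nat_lit 944558154) (nat_lit 532) (nat_lit 7634130640) (nat_lit 237) (nat_lit 5) (nat_lit 243) (nat_lit 5) (nat_lit 244) (nat_lit 5) (nat_lit 453) (nat_lit 403) (nat_lit 344))))) (XT.nd (nat_lit 234) (nat_lit 1900) (nat_lit 0) (XT.nd (nat_lit 78) (nat_lit 988) (nat_lit 0) (XT.lf (nat_lit 0) (nat_lit 2306939312) (nat_lit 532) (nat_lit 5550478785) (nat_lit 608) (nat_lit 3125789694) (nat_lit 230) (nat_lit 5) (nat_lit 237) (nat_lit 5) (nat_lit 238) (nat_lit 5) (nat_lit 454) (nat_lit 403) (nat_lit 343)) (XT.nd (nat_lit 78) (nat_lit 456) (nat_lit 0) (XT.lf (nat_lit 0) (nat_lit 1525210442) (nat_lit 532) (nat_lit 8756609013) (nat_lit 76) (nat_lit 877808037) (nat_lit 223) (nat_lit 5) (nat_lit 230) (nat_lit 5) (nat_lit 224) (nat_lit 5) (nat_lit 455) (nat_lit 403) (nat_lit 342)) (XT.lf (nat_lit 0) (nat_lit 2484326110) (nat_lit 456) (nat_lit 3843711560)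 (nat_lit 532) (nat_lit 5011794758) (nat_lit 217) (nat_lit 5) (nat_lit 223) (nat_lit 5) (nat_lit 224) (nat_lit 5) (nat_lit 456) (nat_lit 403) (nat_lit 341)))) (XT.nd (nat_lit 156) (nat_lit 912) (nat_lit 0) (XT.nd (nat_lit 78) (nat_lit 532) (nat_lit 0) (XT.lf (nat_lit 0) (nat_lit 2590829868) (nat_lit 456) (nat_lit 8721854862) (nat_lit 532) (nat_lit 212005207) (nat_lit 211) (nat_lit 5) (nat_lit 217) (nat_lit 5) (nat_lit 218) (nat_lit 5) (nat_lit 457) (nat_lit 403) (nat_lit 340)) (XT.lf (nat_lit 0) (nat_lit 2684100312) (nat_lit 456) (nat_lit 2032999472) (nat_lit 532) (nat_lit 6996432423) (nat_lit 204) (nat_lit 5) (nat_lit 210) (nat_lit 5) (nat_lit 211) (nat_lit 5) (nat_lit 458) (nat_lit 403) (nat_lit 339))) (XT.nd (nat_lit 78) (nat_lit 532) (nat_lit 0) (XT.lf (nat_lit 0) (nat_lit 2787508156) (nat_lit 380) (nat_lit 7059062260) (nat_lit 456) (nat_lit 2060334886) (nat_lit 199) (nat_lit 5) (nat_lit 204) (nat_lit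 5) (nat_lit 205) (nat_lit 5) (nat_lit 459) (nat_lit 403) (nat_lit 338)) (XT.lf (nat_lit 0) (nat_lit 2900952426) (nat_lit 456) (nat_lit 122770021) (nat_lit 532) (nat_lit 9081174773) (nat_lit 192) (nat_lit 5) (nat_lit 198) (nat_lit 5) (nat_lit 199) (nat_lit 5) (nat_lit 460) (nat_lit 403) (nat_lit 337)))))) (XT.nd (nat_lit 546) (nat_lit 2812) (nat_lit 0) (XT.nd (nat_lit 234) (nat_lit 1596) (nat_lit 0) (XT.nd (nat_lit 78) (nat_lit 836) (nat_lit 0) (XT.lf (nat_lit 0) (nat_lit 2997950921) (nat_lit 380) (nat_lit 5308187318) (nat_lit 456) (nat_lit 4000942669) (nat_lit 187) (nat_lit 5) (nat_lit 192) (nat_lit 5) (nat_lit 193) (nat_lit 5) (nat_lit 461) (nat_lit 403) (nat_lit 336)) (XT.nd (nat_lit 78) (nat_lit 380) (nat_lit 0) (XT.lf (nat_lit 0) (nat_lit 1258795721) (nat_lit 456) (nat_lit 9397289484) (nat_lit 76) (nat_lit 1858220812) (nat_lit 181) (nat_lit 5) (nat_lit 187) (nat_lit 5) (nat_lit 182) (nat_lit 5)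 (nat_lit 462) (nat_lit 403) (nat_lit 335)) (XT.lf (nat_lit 0) (nat_lit 3216706268) (nat_lit 380) (nat_lit 3473415453) (nat_lit 456) (nat_lit 6035735069) (nat_lit 176) (nat_lit 5) (nat_lit 181) (nat_lit 5) (nat_lit 182) (nat_lit 5) (nat_lit 463) (nat_lit 403) (nat_lit 334)))) (XT.nd (nat_lit 156) (nat_lit 760) (nat_lit 0) (XT.nd (nat_lit 78) (nat_lit 456) (nat_lit 0) (XT.lf (nat_lit 0) (nat_lit 3333846995) (nat_lit 380) (nat_lit 9010557909) (nat_lit 456) (nat_lit 598149696) (nat_lit 171) (nat_lit 5) (nat_lit 176) (nat_lit 5) (nat_lit 177) (nat_lit 5) (nat_lit 464) (nat_lit 403) (nat_lit 333)) (XT.lf (nat_lit 0) (nat_lit 3438156335) (nat_lit 380) (nat_lit 1558653308) (nat_lit 456) (nat_lit 8167097805) (nat_lit 165) (nat_lit 5) (nat_lit 170) (nat_lit 5) (nat_lit 171) (nat_lit 5) (nat_lit 465) (nat_lit 403) (nat_lit 332))) (XT.nd (nat_lit 78) (nat_lit 380) (nat_lit 0) (XT.lf (nat_lit 0) (nat_lit 3541484723)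 (nat_lit 380) (nat_lit 7288534899) (nat_lit 456) (nat_lit 2560232413) (nat_lit 160) (nat_lit 5) (nat_lit 165) (nat_lit 5) (nat_lit 166) (nat_lit 5) (nat_lit 466) (nat_lit 403) (nat_lit 331)) (XT.lf (nat_lit 0) (nat_lit 3226845523) (nat_lit 380) (nat_lit 9968287268) (nat_lit 76) (nat_lit 426754074) (nat_lit 155) (nat_lit 5) (nat_lit 160) (nat_lit 5) (nat_lit 156) (nat_lit 5) (nat_lit 467) (nat_lit 403) (nat_lit 330))))) (XT.nd (nat_lit 312) (nat_lit 1368) (nat_lit 0) (XT.nd (nat_lit 156) (nat_lit 684) (nat_lit 0) (XT.nd (nat_lit 78) (nat_lit 380) (nat_lit 0) (XT.lf (nat_lit 0) (nat_lit 3742410632) (nat_lit 380) (nat_lit 5502371087) (nat_lit 456) (nat_lit 4613510705) (nat_lit 150) (nat_lit 5) (nat_lit 155) (nat_lit 5) (nat_lit 156) (nat_lit 5) (nat_lit 468) (nat_lit 403) (nat_lit 329)) (XT.lf (nat_lit 0) (nat_lit 1385386143) (nat_lit 380) (nat_lit 10251405724) (nat_lit 76) (nat_lit 2463594513) (nat_lit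 145) (nat_lit 5) (nat_lit 150) (nat_lit 5) (nat_lit 146) (nat_lit 5) (nat_lit 469) (nat_lit 403) (nat_lit 328))) (XT.nd (nat_lit 78) (nat_lit 304) (nat_lit 0) (XT.lf (nat_lit 0) (nat_lit 3930349711) (nat_lit 380) (nat_lit 3655827924) (nat_lit 456) (nat_lit 6761264148) (nat_lit 140) (nat_lit 5) (nat_lit 145) (nat_lit 5) (nat_lit 146) (nat_lit 5) (nat_lit 470) (nat_lit 403) (nat_lit 327)) (XT.lf (nat_lit 0) (nat_lit 4024562851) (nat_lit 304) (nat_lit 10027755655) (nat_lit 380) (nat_lit 548004491) (nat_lit 136) (nat_lit 5) (nat_lit 140) (nat_lit 5) (nat_lit 141) (nat_lit 5) (nat_lit 471) (nat_lit 403) (nat_lit 326)))) (XT.nd (nat_lit 156) (nat_lit 684) (nat_lit 0) (XT.nd (nat_lit 78) (nat_lit 304) (nat_lit 0) (XT.lf (nat_lit 0) (nat_lit 4098655953) (nat_lit 304) (nat_lit 1752566764) (nat_lit 380) (nat_lit 9007282398) (nat_lit 131) (nat_lit 5) (nat_lit 135) (nat_lit 5) (nat_lit 136) (nat_lit 5) (nat_lit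 472) (nat_lit 403) (nat_lit 325)) (XT.lf (nat_lit 0) (nat_lit 4167253677) (nat_lit 304) (nat_lit 8365795483) (nat_lit 380) (nat_lit 2589350346) (nat_lit 127) (nat_lit 5) (nat_lit 131) (nat_lit 5) (nat_lit 132) (nat_lit 5) (nat_lit 473) (nat_lit 403) (nat_lit 324))) (XT.nd (nat_lit 78) (nat_lit 304) (nat_lit 0) (XT.lf (nat_lit 0) (nat_lit 4037764775) (nat_lit 380) (nat_lit 11153405417) (nat_lit 76) (nat_lit 201131306) (nat_lit 122) (nat_lit 5) (nat_lit 127) (nat_lit 5) (nat_lit 123) (nat_lit 5) (nat_lit 474) (nat_lit 403) (nat_lit 323)) (XT.lf (nat_lit 0) (nat_lit 4279018962) (nat_lit 304) (nat_lit 6664205416) (nat_lit 380) (nat_lit 4724440223) (nat_lit 118) (nat_lit 5) (nat_lit 122) (nat_lit 5) (nat_lit 123) (nat_lit 5) (nat_lit 475) (nat_lit 403) (nat_lit 322))))))) (XT.nd (nat_lit 57096) (nat_lit 0) (nat_lit 43168) (XT.nd (nat_lit 546) (nat_lit 1292) (nat_lit 0) (XT.nd (nat_lit 234) (nat_lit 1064)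 (nat_lit 0) (XT.nd (nat_lit 78) (nat_lit 608) (nat_lit 0) (XT.lf (nat_lit 0) (nat_lit 2152191144) (nat_lit 380) (nat_lit 11616618321) (nat_lit 76) (nat_lit 2180701710) (nat_lit 113) (nat_lit 5) (nat_lit 118) (nat_lit 5) (nat_lit 114) (nat_lit 5) (nat_lit 476) (nat_lit 403) (nat_lit 321)) (XT.nd (nat_lit 78) (nat_lit 380) (nat_lit 0) (XT.lf (nat_lit 0) (nat_lit 4351979162) (nat_lit 228) (nat_lit 4927021955) (nat_lit 304) (nat_lit 6958026654) (nat_lit 110) (nat_lit 5) (nat_lit 113) (nat_lit 5) (nat_lit 114) (nat_lit 5) (nat_lit 477) (nat_lit 403) (nat_lit 320)) (XT.lf (nat_lit 0) (nat_lit 178567788) (nat_lit 380) (nat_lit 12147196116) (nat_lit 76) (nat_lit 4205530113) (nat_lit 105) (nat_lit 5) (nat_lit 110) (nat_lit 5) (nat_lit 106) (nat_lit 5) (nat_lit 478) (nat_lit 403) (nat_lit 319)))) (XT.nd (nat_lit 156) (nat_lit 532) (nat_lit 0) (XT.nd (nat_lit 78) (nat_lit 304) (nat_lit 0) (XT.lf (nat_lit 0) (nat_lit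 4377625888) (nat_lit 228) (nat_lit 3158371740) (nat_lit 304) (nat_lit 9295445854) (nat_lit 102) (nat_lit 5) (nat_lit 105) (nat_lit 5) (nat_lit 106) (nat_lit 5) (nat_lit 479) (nat_lit 403) (nat_lit 318)) (XT.lf (nat_lit 0) (nat_lit 4371016309) (nat_lit 304) (nat_lit 10854035058) (nat_lit 380) (nat_lit 1913328513) (nat_lit 98) (nat_lit 5) (nat_lit 102) (nat_lit 5) (nat_lit 103) (nat_lit 5) (nat_lit 480) (nat_lit 403) (nat_lit 317))) (XT.nd (nat_lit 78) (nat_lit 228) (nat_lit 0) (XT.lf (nat_lit 0) (nat_lit 4346735006) (nat_lit 228) (nat_lit 1362524864) (nat_lit 304) (nat_lit 11742653322) (nat_lit 94) (nat_lit 5) (nat_lit 97) (nat_lit 5) (nat_lit 98) (nat_lit 5) (nat_lit 481) (nat_lit 403) (nat_lit 316)) (XT.lf (nat_lit 0) (nat_lit 4294873822) (nat_lit 228) (nat_lit 9369300678) (nat_lit 304) (nat_lit 4107832629) (nat_lit 91) (nat_lit 5) (nat_lit 94) (nat_lit 5) (nat_lit 95) (nat_lit 5) (nat_lit 482) (nat_lit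 403) (nat_lit 315))))) (XT.nd (nat_lit 312) (nat_lit 228) (nat_lit 0) (XT.nd (nat_lit 156) (nat_lit 532) (nat_lit 0) (XT.nd (nat_lit 78) (nat_lit 228) (nat_lit 0) (XT.lf (nat_lit 0) (nat_lit 3796184112) (nat_lit 304) (nat_lit 13853176315) (nat_lit 76) (nat_lit 450067886) (nat_lit 87) (nat_lit 5) (nat_lit 91) (nat_lit 5) (nat_lit 88) (nat_lit 5) (nat_lit 483) (nat_lit 403) (nat_lit 314)) (XT.lf (nat_lit 0) (nat_lit 4146385017) (nat_lit 228) (nat_lit 7877839678) (nat_lit 304) (nat_lit 6409050528) (nat_lit 84) (nat_lit 5) (nat_lit 87) (nat_lit 5) (nat_lit 88) (nat_lit 5) (nat_lit 484) (nat_lit 403) (nat_lit 313))) (XT.nd (nat_lit 78) (nat_lit 228) (nat_lit 0) (XT.lf (nat_lit 0) (nat_lit 1796553742) (nat_lit 304) (nat_lit 14715863851) (nat_lit 76) (nat_lit 2262553350) (nat_lit 80) (nat_lit 5) (nat_lit 84) (nat_lit 5) (nat_lit 81) (nat_lit 5) (nat_lit 485) (nat_lit 403) (nat_lit 312)) (XT.lf (nat_lit 0)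 (nat_lit 3914096761) (nat_lit 228) (nat_lit 6385044920) (nat_lit 304) (nat_lit 8824171158) (nat_lit 77) (nat_lit 5) (nat_lit 80) (nat_lit 5) (nat_lit 81) (nat_lit 5) (nat_lit 486) (nat_lit 403) (nat_lit 311)))) (XT.nd (nat_lit 56082) (nat_lit 0) (nat_lit 52288) (XT.nd (nat_lit 56004) (nat_lit 0) (nat_lit 52820) (XT.lf (nat_lit 0) (nat_lit 3780334578) (nat_lit 228) (nat_lit 15390008303) (nat_lit 304) (nat_lit 309491756) (nat_lit 74) (nat_lit 5) (nat_lit 77) (nat_lit 5) (nat_lit 78) (nat_lit 5) (nat_lit 487) (nat_lit 403) (nat_lit 310)) (XT.lf (nat_lit 0) (nat_lit 1392285790) (nat_lit 532) (nat_lit 931315468) (nat_lit 532) (nat_lit 931315468) (nat_lit 769) (nat_lit 3) (nat_lit 776) (nat_lit 3) (nat_lit 776) (nat_lit 5) (nat_lit 404) (nat_lit 404) (nat_lit 392))) (XT.nd (nat_lit 78) (nat_lit 0) (nat_lit 0) (XT.lf (nat_lit 0) (nat_lit 246643697) (nat_lit 532) (nat_lit 3498267099) (nat_lit 608) (nat_lit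 2783297996) (nat_lit 762) (nat_lit 5) (nat_lit 769) (nat_lit 3) (nat_lit 770) (nat_lit 5) (nat_lit 405) (nat_lit 404) (nat_lit 391)) (XT.lf (nat_lit 76) (nat_lit 1460689061) (nat_lit 0) (nat_lit 2693880432) (nat_lit 608) (nat_lit 2394731701) (nat_lit 763) (nat_lit 5) (nat_lit 762) (nat_lit 5) (nat_lit 770) (nat_lit 5) (nat_lit 406) (nat_lit 404) (nat_lit 390)))))) (XT.nd (nat_lit 546) (nat_lit 6308) (nat_lit 0) (XT.nd (nat_lit 234) (nat_lit 1596) (nat_lit 0) (XT.nd (nat_lit 78) (nat_lit 608) (nat_lit 0) (XT.lf (nat_lit 0) (nat_lit 1459455067) (nat_lit 608) (nat_lit 46939279) (nat_lit 684) (nat_lit 5066993591) (nat_lit 754) (nat_lit 5) (nat_lit 762) (nat_lit 5) (nat_lit 763) (nat_lit 5) (nat_lit 407) (nat_lit 404) (nat_lit 389)) (XT.nd (nat_lit 78) (nat_lit 608) (nat_lit 0) (XT.lf (nat_lit 76) (nat_lit 5117391454) (nat_lit 0) (nat_lit 165164060) (nat_lit 684) (nat_lit 1317615909) (nat_lit 755) (nat_lit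 5) (nat_lit 754) (nat_lit 5) (nat_lit 763) (nat_lit 5) (nat_lit 408) (nat_lit 404) (nat_lit 388)) (XT.lf (nat_lit 0) (nat_lit 2447165261) (nat_lit 684) (nat_lit 2876707230) (nat_lit 760) (nat_lit 1305784569) (nat_lit 746) (nat_lit 5) (nat_lit 755) (nat_lit 5) (nat_lit 756) (nat_lit 5) (nat_lit 409) (nat_lit 404) (nat_lit 387)))) (XT.nd (nat_lit 156) (nat_lit 836) (nat_lit 0) (XT.nd (nat_lit 78) (nat_lit 760) (nat_lit 0) (XT.lf (nat_lit 76) (nat_lit 2446061714) (nat_lit 0) (nat_lit 3747477713) (nat_lit 760) (nat_lit 468589275) (nat_lit 747) (nat_lit 5) (nat_lit 746) (nat_lit 5) (nat_lit 756) (nat_lit 5) (nat_lit 410) (nat_lit 404) (nat_lit 386)) (XT.lf (nat_lit 76) (nat_lit 1183541391) (nat_lit 0) (nat_lit 2018477222) (nat_lit 836) (nat_lit 3495340071) (nat_lit 737) (nat_lit 5) (nat_lit 736) (nat_lit 5) (nat_lit 747) (nat_lit 5) (nat_lit 411) (nat_lit 404) (nat_lit 385))) (XT.nd (nat_lit 78) (nat_lit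 0) (nat_lit 76) (XT.lf (nat_lit 0) (nat_lit 132984222) (nat_lit 836) (nat_lit 18331057) (nat_lit 912) (nat_lit 6584375356) (nat_lit 725) (nat_lit 5) (nat_lit 736) (nat_lit 5) (nat_lit 737) (nat_lit 5) (nat_lit 412) (nat_lit 404) (nat_lit 384)) (XT.lf (nat_lit 0) (nat_lit 3740146230) (nat_lit 836) (nat_lit 1177402822) (nat_lit 912) (nat_lit 1858817731) (nat_lit 726) (nat_lit 5) (nat_lit 737) (nat_lit 5) (nat_lit 738) (nat_lit 5) (nat_lit 413) (nat_lit 404) (nat_lit 383))))) (XT.nd (nat_lit 312) (nat_lit 3572) (nat_lit 0) (XT.nd (nat_lit 156) (nat_lit 1900) (nat_lit 0) (XT.nd (nat_lit 78) (nat_lit 0) (nat_lit 0) (XT.lf (nat_lit 0) (nat_lit 531057339) (nat_lit 912) (nat_lit 2280745367) (nat_lit 988) (nat_lit 4008340215) (nat_lit 714) (nat_lit 5) (nat_lit 726) (nat_lit 5) (nat_lit 727) (nat_lit 5) (nat_lit 414) (nat_lit 404) (nat_lit 382)) (XT.lf (nat_lit 76) (nat_lit 3521866077) (nat_lit 0) (nat_lit 547907703)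 (nat_lit 988) (nat_lit 2796949160) (nat_lit 715) (nat_lit 5) (nat_lit 714) (nat_lit 5) (nat_lit 727) (nat_lit 5) (nat_lit 415) (nat_lit 404) (nat_lit 381))) (XT.nd (nat_lit 78) (nat_lit 988) (nat_lit 0) (XT.lf (nat_lit 0) (nat_lit 710581587) (nat_lit 988) (nat_lit 4367852221) (nat_lit 76) (nat_lit 1837745382) (nat_lit 702) (nat_lit 5) (nat_lit 715) (nat_lit 5) (nat_lit 703) (nat_lit 5) (nat_lit 416) (nat_lit 404) (nat_lit 380)) (XT.lf (nat_lit 0) (nat_lit 1611723268) (nat_lit 988) (nat_lit 2590931049) (nat_lit 1064) (nat_lit 2765753728) (nat_lit 689) (nat_lit 5) (nat_lit 702) (nat_lit 5) (nat_lit 703) (nat_lit 5) (nat_lit 417) (nat_lit 404) (nat_lit 379)))) (XT.nd (nat_lit 156) (nat_lit 2432) (nat_lit 0) (XT.nd (nat_lit 78) (nat_lit 0) (nat_lit 0) (XT.lf (nat_lit 0) (nat_lit 684234152) (nat_lit 1140) (nat_lit 6295407092) (nat_lit 76) (nat_lit 44123481) (nat_lit 674) (nat_lit 5) (nat_lit 689) (nat_lit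 5) (nat_lit 675) (nat_lit 5) (nat_lit 418) (nat_lit 404) (nat_lit 378)) (XT.lf (nat_lit 0) (nat_lit 4139646435) (nat_lit 1140) (nat_lit 132501101) (nat_lit 76) (nat_lit 2809483535) (nat_lit 674) (nat_lit 5) (nat_lit 689) (nat_lit 5) (nat_lit 675) (nat_lit 5) (nat_lit 419) (nat_lit 404) (nat_lit 377))) (XT.nd (nat_lit 78) (nat_lit 1216) (nat_lit 0) (XT.lf (nat_lit 0) (nat_lit 478803049) (nat_lit 1216) (nat_lit 932182703) (nat_lit 76) (nat_lit 5731607115) (nat_lit 658) (nat_lit 5) (nat_lit 674) (nat_lit 5) (nat_lit 659) (nat_lit 5) (nat_lit 420) (nat_lit 404) (nat_lit 376)) (XT.lf (nat_lit 0) (nat_lit 3900404867) (nat_lit 1292) (nat_lit 1707596413) (nat_lit 76) (nat_lit 1598234354) (nat_lit 642) (nat_lit 5) (nat_lit 659) (nat_lit 5) (nat_lit 643) (nat_lit 5) (nat_lit 421) (nat_lit 404) (nat_lit 375))))))))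
noncomputable def xc40 : XT := (XT.nd (nat_lit 2262) (nat_lit 12312) (nat_lit 0) (XT.nd (nat_lit 1092) (nat_lit 10868) (nat_lit 0) (XT.nd (nat_lit 546) (nat_lit 6764) (nat_lit 0) (XT.nd (nat_lit 234) (nat_lit 6688) (nat_lit 0) (XT.nd (nat_lit 78) (nat_lit 2812) (nat_lit 0) (XT.lf (nat_lit 0) (nat_lit 91194650) (nat_lit 1368) (nat_lit 2440396880) (nat_lit 76) (nat_lit 4741373712) (nat_lit 624) (nat_lit 5) (nat_lit 642) (nat_lit 5) (nat_lit 625) (nat_lit 5) (nat_lit 422) (nat_lit 404) (nat_lit 374)) (XT.nd (nat_lit 78) (nat_lit 1444) (nat_lit 0) (XT.lf (nat_lit 0) (nat_lit 3484484922) (nat_lit 1444) (nat_lit 3147746534) (nat_lit 76) (nat_lit 710246840) (nat_lit 606) (nat_lit 5) (nat_lit 625) (nat_lit 5) (nat_lit 607) (nat_lit 5) (nat_lit 423) (nat_lit 404) (nat_lit 373)) (XT.lf (nat_lit 0) (nat_lit 3593619611) (nat_lit 1444) (nat_lit 3340920057) (nat_lit 1520) (nat_lit 480441582) (nat_lit 587) (nat_lit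 5) (nat_lit 606) (nat_lit 5) (nat_lit 607) (nat_lit 5) (nat_lit 424) (nat_lit 404) (nat_lit 372)))) (XT.nd (nat_lit 156) (nat_lit 3496) (nat_lit 0) (XT.nd (nat_lit 78) (nat_lit 1596) (nat_lit 0) (XT.lf (nat_lit 0) (nat_lit 2900870330) (nat_lit 1596) (nat_lit 4465113102) (nat_lit 76) (nat_lit 124454969) (nat_lit 566) (nat_lit 5) (nat_lit 587) (nat_lit 5) (nat_lit 567) (nat_lit 5) (nat_lit 425) (nat_lit 404) (nat_lit 371)) (XT.lf (nat_lit 0) (nat_lit 2483247819) (nat_lit 1596) (nat_lit 3860702625) (nat_lit 1672) (nat_lit 1224811717) (nat_lit 545) (nat_lit 5) (nat_lit 566) (nat_lit 5) (nat_lit 567) (nat_lit 5) (nat_lit 426) (nat_lit 404) (nat_lit 370))) (XT.nd (nat_lit 78) (nat_lit 1748) (nat_lit 0) (XT.lf (nat_lit 0) (nat_lit 1977977539) (nat_lit 1672) (nat_lit 180771003) (nat_lit 1748) (nat_lit 5491454452) (nat_lit 522) (nat_lit 5) (nat_lit 544) (nat_lit 5) (nat_lit 545) (nat_lit 5) (nat_lit 427) (nat_lit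 404) (nat_lit 369)) (XT.lf (nat_lit 0) (nat_lit 1491173869) (nat_lit 1748) (nat_lit 4110167437) (nat_lit 1824) (nat_lit 2133103766) (nat_lit 499) (nat_lit 5) (nat_lit 522) (nat_lit 5) (nat_lit 523) (nat_lit 5) (nat_lit 428) (nat_lit 404) (nat_lit 368))))) (XT.nd (nat_lit 234) (nat_lit 2736) (nat_lit 0) (XT.nd (nat_lit 78) (nat_lit 2128) (nat_lit 0) (XT.lf (nat_lit 0) (nat_lit 1044349053) (nat_lit 1824) (nat_lit 218773808) (nat_lit 1900) (nat_lit 6558832152) (nat_lit 474) (nat_lit 5) (nat_lit 498) (nat_lit 5) (nat_lit 499) (nat_lit 5) (nat_lit 429) (nat_lit 404) (nat_lit 367)) (XT.nd (nat_lit 78) (nat_lit 988) (nat_lit 0) (XT.lf (nat_lit 0) (nat_lit 607236800) (nat_lit 1140) (nat_lit 4106322626) (nat_lit 1216) (nat_lit 3198625774) (nat_lit 459) (nat_lit 5) (nat_lit 474) (nat_lit 5) (nat_lit 475) (nat_lit 5) (nat_lit 430) (nat_lit 404) (nat_lit 366)) (XT.lf (nat_lit 0) (nat_lit 215378812) (nat_lit 912)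 (nat_lit 4149970) (nat_lit 988) (nat_lit 7786350646) (nat_lit 446) (nat_lit 5) (nat_lit 458) (nat_lit 5) (nat_lit 459) (nat_lit 5) (nat_lit 431) (nat_lit 404) (nat_lit 365)))) (XT.nd (nat_lit 156) (nat_lit 1824) (nat_lit 0) (XT.nd (nat_lit 78) (nat_lit 912) (nat_lit 0) (XT.lf (nat_lit 0) (nat_lit 3687782597) (nat_lit 988) (nat_lit 175726606) (nat_lit 76) (nat_lit 4238634980) (nat_lit 446) (nat_lit 5) (nat_lit 459) (nat_lit 5) (nat_lit 447) (nat_lit 5) (nat_lit 432) (nat_lit 404) (nat_lit 364)) (XT.lf (nat_lit 0) (nat_lit 7229025638) (nat_lit 988) (nat_lit 520706879) (nat_lit 76) (nat_lit 452188239) (nat_lit 434) (nat_lit 5) (nat_lit 447) (nat_lit 5) (nat_lit 435) (nat_lit 5) (nat_lit 433) (nat_lit 404) (nat_lit 363))) (XT.nd (nat_lit 78) (nat_lit 912) (nat_lit 0) (XT.lf (nat_lit 0) (nat_lit 2531458418) (nat_lit 912) (nat_lit 862164527) (nat_lit 76) (nat_lit 4910868840) (nat_lit 422) (nat_lit 5) (nat_lit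 434) (nat_lit 5) (nat_lit 423) (nat_lit 5) (nat_lit 434) (nat_lit 404) (nat_lit 362)) (XT.lf (nat_lit 0) (nat_lit 6105121736) (nat_lit 988) (nat_lit 1172238208) (nat_lit 76) (nat_lit 1133105945) (nat_lit 410) (nat_lit 5) (nat_lit 423) (nat_lit 5) (nat_lit 411) (nat_lit 5) (nat_lit 435) (nat_lit 404) (nat_lit 361)))))) (XT.nd (nat_lit 546) (nat_lit 5244) (nat_lit 0) (XT.nd (nat_lit 234) (nat_lit 3116) (nat_lit 0) (XT.nd (nat_lit 78) (nat_lit 1596) (nat_lit 0) (XT.lf (nat_lit 0) (nat_lit 1245207269) (nat_lit 912) (nat_lit 1468293075) (nat_lit 76) (nat_lit 5806048005) (nat_lit 398) (nat_lit 5) (nat_lit 410) (nat_lit 5) (nat_lit 399) (nat_lit 5) (nat_lit 436) (nat_lit 404) (nat_lit 360)) (XT.nd (nat_lit 78) (nat_lit 760) (nat_lit 0) (XT.lf (nat_lit 0) (nat_lit 4859532263) (nat_lit 912) (nat_lit 1748513759) (nat_lit 76) (nat_lit 2023783252) (nat_lit 387) (nat_lit 5) (nat_lit 399) (nat_lit 5) (nat_lit 388)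 (nat_lit 5) (nat_lit 437) (nat_lit 404) (nat_lit 359)) (XT.lf (nat_lit 0) (nat_lit 6744572717) (nat_lit 760) (nat_lit 1833660815) (nat_lit 836) (nat_lit 169328409) (nat_lit 377) (nat_lit 5) (nat_lit 387) (nat_lit 5) (nat_lit 388) (nat_lit 5) (nat_lit 438) (nat_lit 404) (nat_lit 358)))) (XT.nd (nat_lit 156) (nat_lit 1520) (nat_lit 0) (XT.nd (nat_lit 78) (nat_lit 760) (nat_lit 0) (XT.lf (nat_lit 0) (nat_lit 3495913002) (nat_lit 836) (nat_lit 2257046939) (nat_lit 76) (nat_lit 3113336194) (nat_lit 366) (nat_lit 5) (nat_lit 377) (nat_lit 5) (nat_lit 367) (nat_lit 5) (nat_lit 439) (nat_lit 404) (nat_lit 357)) (XT.lf (nat_lit 0) (nat_lit 6507161869) (nat_lit 760) (nat_lit 756600444) (nat_lit 836) (nat_lit 1724910709) (nat_lit 356) (nat_lit 5) (nat_lit 366) (nat_lit 5) (nat_lit 367) (nat_lit 5) (nat_lit 440) (nat_lit 404) (nat_lit 356))) (XT.nd (nat_lit 78) (nat_lit 684) (nat_lit 0) (XT.lf (nat_lit 0) (nat_lit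 2017283707) (nat_lit 836) (nat_lit 2704962401) (nat_lit 76) (nat_lit 4391933874) (nat_lit 345) (nat_lit 5) (nat_lit 356) (nat_lit 5) (nat_lit 346) (nat_lit 5) (nat_lit 441) (nat_lit 404) (nat_lit 355)) (XT.lf (nat_lit 0) (nat_lit 5844223645) (nat_lit 760) (nat_lit 2905882965) (nat_lit 76) (nat_lit 493201135) (nat_lit 336) (nat_lit 5) (nat_lit 346) (nat_lit 5) (nat_lit 337) (nat_lit 5) (nat_lit 442) (nat_lit 404) (nat_lit 354))))) (XT.nd (nat_lit 312) (nat_lit 2432) (nat_lit 0) (XT.nd (nat_lit 156) (nat_lit 1368) (nat_lit 0) (XT.nd (nat_lit 78) (nat_lit 684) (nat_lit 0) (XT.lf (nat_lit 0) (nat_lit 426056804) (nat_lit 760) (nat_lit 3099046493) (nat_lit 76) (nat_lit 5850719329) (nat_lit 326) (nat_lit 5) (nat_lit 336) (nat_lit 5) (nat_lit 327) (nat_lit 5) (nat_lit 443) (nat_lit 404) (nat_lit 353)) (XT.lf (nat_lit 0) (nat_lit 4324730867) (nat_lit 760) (nat_lit 3285537001) (nat_lit 76) (nat_lit 1901498313)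 (nat_lit 317) (nat_lit 5) (nat_lit 327) (nat_lit 5) (nat_lit 318) (nat_lit 5) (nat_lit 444) (nat_lit 404) (nat_lit 352))) (XT.nd (nat_lit 78) (nat_lit 684) (nat_lit 0) (XT.lf (nat_lit 0) (nat_lit 6197236044) (nat_lit 684) (nat_lit 2161296282) (nat_lit 760) (nat_lit 1292894095) (nat_lit 308) (nat_lit 5) (nat_lit 317) (nat_lit 5) (nat_lit 318) (nat_lit 5) (nat_lit 445) (nat_lit 404) (nat_lit 351)) (XT.lf (nat_lit 0) (nat_lit 2702095346) (nat_lit 684) (nat_lit 3621900571) (nat_lit 76) (nat_lit 3470535797) (nat_lit 299) (nat_lit 5) (nat_lit 308) (nat_lit 5) (nat_lit 300) (nat_lit 5) (nat_lit 446) (nat_lit 404) (nat_lit 350)))) (XT.nd (nat_lit 156) (nat_lit 1140) (nat_lit 0) (XT.nd (nat_lit 78) (nat_lit 684) (nat_lit 0) (XT.lf (nat_lit 0) (nat_lit 6169709738) (nat_lit 608) (nat_lit 643317656) (nat_lit 684) (nat_lit 3128460272) (nat_lit 291) (nat_lit 5) (nat_lit 299) (nat_lit 5) (nat_lit 300) (nat_lit 5)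 (nat_lit 447) (nat_lit 404) (nat_lit 349)) (XT.lf (nat_lit 0) (nat_lit 977502782) (nat_lit 684) (nat_lit 3921099045) (nat_lit 76) (nat_lit 5193416343) (nat_lit 282) (nat_lit 5) (nat_lit 291) (nat_lit 5) (nat_lit 283) (nat_lit 5) (nat_lit 448) (nat_lit 404) (nat_lit 348))) (XT.nd (nat_lit 78) (nat_lit 532) (nat_lit 0) (XT.lf (nat_lit 0) (nat_lit 5178864432) (nat_lit 684) (nat_lit 4061677879) (nat_lit 76) (nat_lit 1005815697) (nat_lit 274) (nat_lit 5) (nat_lit 283) (nat_lit 5) (nat_lit 275) (nat_lit 5) (nat_lit 449) (nat_lit 404) (nat_lit 347)) (XT.lf (nat_lit 0) (nat_lit 6209885930) (nat_lit 532) (nat_lit 3335013800) (nat_lit 608) (nat_lit 859657083) (nat_lit 267) (nat_lit 5) (nat_lit 274) (nat_lit 5) (nat_lit 275) (nat_lit 5) (nat_lit 450) (nat_lit 404) (nat_lit 346))))))) (XT.nd (nat_lit 1092) (nat_lit 5396) (nat_lit 0) (XT.nd (nat_lit 546) (nat_lit 3116) (nat_lit 0) (XT.nd (nat_lit 234) (nat_lit 1976)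 (nat_lit 0) (XT.nd (nat_lit 78) (nat_lit 1140) (nat_lit 0) (XT.lf (nat_lit 0) (nat_lit 3455160811) (nat_lit 684) (nat_lit 4328256933) (nat_lit 76) (nat_lit 2783107752) (nat_lit 258) (nat_lit 5) (nat_lit 267) (nat_lit 5) (nat_lit 259) (nat_lit 5) (nat_lit 451) (nat_lit 404) (nat_lit 345)) (XT.nd (nat_lit 78) (nat_lit 608) (nat_lit 0) (XT.lf (nat_lit 0) (nat_lit 6282624697) (nat_lit 532) (nat_lit 1637677128) (nat_lit 608) (nat_lit 2812287927) (nat_lit 251) (nat_lit 5) (nat_lit 258) (nat_lit 5) (nat_lit 259) (nat_lit 5) (nat_lit 452) (nat_lit 404) (nat_lit 344)) (XT.lf (nat_lit 0) (nat_lit 1637870130) (nat_lit 608) (nat_lit 4573110480) (nat_lit 76) (nat_lit 4691580768) (nat_lit 243) (nat_lit 5) (nat_lit 251) (nat_lit 5) (nat_lit 244) (nat_lit 5) (nat_lit 453) (nat_lit 404) (nat_lit 343)))) (XT.nd (nat_lit 156) (nat_lit 988) (nat_lit 0) (XT.nd (nat_lit 78) (nat_lit 532) (nat_lit 0) (XT.lf (nat_lit 0) (nat_lit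 6210180868) (nat_lit 532) (nat_lit 4687487541) (nat_lit 76) (nat_lit 179056058) (nat_lit 237) (nat_lit 5) (nat_lit 244) (nat_lit 5) (nat_lit 238) (nat_lit 5) (nat_lit 454) (nat_lit 404) (nat_lit 342)) (XT.lf (nat_lit 0) (nat_lit 6451189721) (nat_lit 532) (nat_lit 4526768005) (nat_lit 608) (nat_lit 276989969) (nat_lit 230) (nat_lit 5) (nat_lit 237) (nat_lit 5) (nat_lit 238) (nat_lit 5) (nat_lit 455) (nat_lit 404) (nat_lit 341))) (XT.nd (nat_lit 78) (nat_lit 456) (nat_lit 0) (XT.lf (nat_lit 0) (nat_lit 4424440826) (nat_lit 532) (nat_lit 4923182563) (nat_lit 76) (nat_lit 2089666348) (nat_lit 223) (nat_lit 5) (nat_lit 230) (nat_lit 5) (nat_lit 224) (nat_lit 5) (nat_lit 456) (nat_lit 404) (nat_lit 340)) (XT.lf (nat_lit 0) (nat_lit 6588525856) (nat_lit 456) (nat_lit 2725879410) (nat_lit 532) (nat_lit 2309636170) (nat_lit 217) (nat_lit 5) (nat_lit 223) (nat_lit 5) (nat_lit 224) (nat_lit 5) (nat_lit 457) (nat_lit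 404) (nat_lit 339))))) (XT.nd (nat_lit 234) (nat_lit 1672) (nat_lit 0) (XT.nd (nat_lit 78) (nat_lit 912) (nat_lit 0) (XT.lf (nat_lit 0) (nat_lit 2551648951) (nat_lit 532) (nat_lit 5152136838) (nat_lit 76) (nat_lit 4111277428) (nat_lit 210) (nat_lit 5) (nat_lit 217) (nat_lit 5) (nat_lit 211) (nat_lit 5) (nat_lit 458) (nat_lit 404) (nat_lit 338)) (XT.nd (nat_lit 78) (nat_lit 456) (nat_lit 0) (XT.lf (nat_lit 0) (nat_lit 6747265378) (nat_lit 456) (nat_lit 823759153) (nat_lit 532) (nat_lit 4439614179) (nat_lit 204) (nat_lit 5) (nat_lit 210) (nat_lit 5) (nat_lit 211) (nat_lit 5) (nat_lit 459) (nat_lit 404) (nat_lit 337)) (XT.lf (nat_lit 0) (nat_lit 590548730) (nat_lit 456) (nat_lit 5380137970) (nat_lit 76) (nat_lit 6239955341) (nat_lit 198) (nat_lit 5) (nat_lit 204) (nat_lit 5) (nat_lit 199) (nat_lit 5) (nat_lit 460) (nat_lit 404) (nat_lit 336)))) (XT.nd (nat_lit 156) (nat_lit 836) (nat_lit 0) (XT.nd (nat_lit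 78) (nat_lit 380) (nat_lit 0) (XT.lf (nat_lit 0) (nat_lit 5754271236) (nat_lit 532) (nat_lit 5500821312) (nat_lit 76) (nat_lit 1160107506) (nat_lit 192) (nat_lit 5) (nat_lit 199) (nat_lit 5) (nat_lit 193) (nat_lit 5) (nat_lit 461) (nat_lit 404) (nat_lit 335)) (XT.lf (nat_lit 0) (nat_lit 7001765107) (nat_lit 380) (nat_lit 4142714516) (nat_lit 456) (nat_lit 1479984606) (nat_lit 187) (nat_lit 5) (nat_lit 192) (nat_lit 5) (nat_lit 193) (nat_lit 5) (nat_lit 462) (nat_lit 404) (nat_lit 334))) (XT.nd (nat_lit 78) (nat_lit 380) (nat_lit 0) (XT.lf (nat_lit 0) (nat_lit 3860844280) (nat_lit 456) (nat_lit 5752181921) (nat_lit 76) (nat_lit 3225379555) (nat_lit 181) (nat_lit 5) (nat_lit 187) (nat_lit 5) (nat_lit 182) (nat_lit 5) (nat_lit 463) (nat_lit 404) (nat_lit 333)) (XT.lf (nat_lit 0) (nat_lit 7176522369) (nat_lit 380) (nat_lit 2228982992) (nat_lit 456) (nat_lit 3651791060) (nat_lit 176) (nat_lit 5) (nat_lit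 181) (nat_lit 5) (nat_lit 182) (nat_lit 5) (nat_lit 464) (nat_lit 404) (nat_lit 332)))))) (XT.nd (nat_lit 546) (nat_lit 2660) (nat_lit 0) (XT.nd (nat_lit 234) (nat_lit 1520) (nat_lit 0) (XT.nd (nat_lit 78) (nat_lit 760) (nat_lit 0) (XT.lf (nat_lit 0) (nat_lit 1883296546) (nat_lit 456) (nat_lit 6018277633) (nat_lit 76) (nat_lit 5379470422) (nat_lit 170) (nat_lit 5) (nat_lit 176) (nat_lit 5) (nat_lit 171) (nat_lit 5) (nat_lit 465) (nat_lit 404) (nat_lit 331)) (XT.nd (nat_lit 78) (nat_lit 380) (nat_lit 0) (XT.lf (nat_lit 0) (nat_lit 7353129874) (nat_lit 380) (nat_lit 237081084) (nat_lit 456) (nat_lit 5919704522) (nat_lit 165) (nat_lit 5) (nat_lit 170) (nat_lit 5) (nat_lit 171) (nat_lit 5) (nat_lit 466) (nat_lit 404) (nat_lit 330)) (XT.lf (nat_lit 0) (nat_lit 7437091433) (nat_lit 380) (nat_lit 6123384397) (nat_lit 456) (nat_lit 183334546) (nat_lit 160) (nat_lit 5) (nat_lit 165) (nat_lit 5) (nat_lit 166)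 (nat_lit 5) (nat_lit 467) (nat_lit 404) (nat_lit 329)))) (XT.nd (nat_lit 156) (nat_lit 760) (nat_lit 0) (XT.nd (nat_lit 78) (nat_lit 380) (nat_lit 0) (XT.lf (nat_lit 0) (nat_lit 5708041793) (nat_lit 380) (nat_lit 6469198814) (nat_lit 76) (nat_lit 1805578773) (nat_lit 155) (nat_lit 5) (nat_lit 160) (nat_lit 5) (nat_lit 156) (nat_lit 5) (nat_lit 468) (nat_lit 404) (nat_lit 328)) (XT.lf (nat_lit 0) (nat_lit 7591199761) (nat_lit 380) (nat_lit 4270127981) (nat_lit 456) (nat_lit 2365894187) (nat_lit 150) (nat_lit 5) (nat_lit 155) (nat_lit 5) (nat_lit 156) (nat_lit 5) (nat_lit 469) (nat_lit 404) (nat_lit 327))) (XT.nd (nat_lit 78) (nat_lit 380) (nat_lit 0) (XT.lf (nat_lit 0) (nat_lit 3746225620) (nat_lit 380) (nat_lit 6815061554) (nat_lit 76) (nat_lit 3915691720) (nat_lit 145) (nat_lit 5) (nat_lit 150) (nat_lit 5) (nat_lit 146) (nat_lit 5) (nat_lit 470) (nat_lit 404) (nat_lit 326)) (XT.lf (nat_lit 0) (nat_lit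 7731406437) (nat_lit 380) (nat_lit 2357996065) (nat_lit 456) (nat_lit 4642917201) (nat_lit 140) (nat_lit 5) (nat_lit 145) (nat_lit 5) (nat_lit 146) (nat_lit 5) (nat_lit 471) (nat_lit 404) (nat_lit 325))))) (XT.nd (nat_lit 312) (nat_lit 1292) (nat_lit 0) (XT.nd (nat_lit 156) (nat_lit 684) (nat_lit 0) (XT.nd (nat_lit 78) (nat_lit 304) (nat_lit 0) (XT.lf (nat_lit 0) (nat_lit 1699826033) (nat_lit 380) (nat_lit 7200136869) (nat_lit 76) (nat_lit 6093274746) (nat_lit 135) (nat_lit 5) (nat_lit 140) (nat_lit 5) (nat_lit 136) (nat_lit 5) (nat_lit 472) (nat_lit 404) (nat_lit 324)) (XT.lf (nat_lit 0) (nat_lit 7850993569) (nat_lit 304) (nat_lit 390464010) (nat_lit 380) (nat_lit 7018478652) (nat_lit 131) (nat_lit 5) (nat_lit 135) (nat_lit 5) (nat_lit 136) (nat_lit 5) (nat_lit 473) (nat_lit 404) (nat_lit 323))) (XT.nd (nat_lit 78) (nat_lit 380) (nat_lit 0) (XT.lf (nat_lit 0) (nat_lit 7897335790) (nat_lit 304) (nat_lit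 7194221238) (nat_lit 380) (nat_lit 440834938) (nat_lit 127) (nat_lit 5) (nat_lit 131) (nat_lit 5) (nat_lit 132) (nat_lit 5) (nat_lit 474) (nat_lit 404) (nat_lit 322)) (XT.lf (nat_lit 0) (nat_lit 6324333594) (nat_lit 380) (nat_lit 7878741075) (nat_lit 76) (nat_lit 1607659365) (nat_lit 122) (nat_lit 5) (nat_lit 127) (nat_lit 5) (nat_lit 123) (nat_lit 5) (nat_lit 475) (nat_lit 404) (nat_lit 321)))) (XT.nd (nat_lit 156) (nat_lit 608) (nat_lit 0) (XT.nd (nat_lit 78) (nat_lit 380) (nat_lit 0) (XT.lf (nat_lit 0) (nat_lit 7958099973) (nat_lit 304) (nat_lit 5438839630) (nat_lit 380) (nat_lit 2698219583) (nat_lit 118) (nat_lit 5) (nat_lit 122) (nat_lit 5) (nat_lit 123) (nat_lit 5) (nat_lit 476) (nat_lit 404) (nat_lit 320)) (XT.lf (nat_lit 0) (nat_lit 4326049123) (nat_lit 380) (nat_lit 8411213961) (nat_lit 76) (nat_lit 3648521899) (nat_lit 113) (nat_lit 5) (nat_lit 118) (nat_lit 5) (nat_lit 114) (nat_lit 5) (nat_lit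 477) (nat_lit 404) (nat_lit 319))) (XT.nd (nat_lit 78) (nat_lit 380) (nat_lit 0) (XT.lf (nat_lit 0) (nat_lit 7978783595) (nat_lit 228) (nat_lit 3649144046) (nat_lit 304) (nat_lit 5054774899) (nat_lit 110) (nat_lit 5) (nat_lit 113) (nat_lit 5) (nat_lit 114) (nat_lit 5) (nat_lit 478) (nat_lit 404) (nat_lit 318)) (XT.lf (nat_lit 0) (nat_lit 2239243521) (nat_lit 380) (nat_lit 9013094054) (nat_lit 76) (nat_lit 5733765155) (nat_lit 105) (nat_lit 5) (nat_lit 110) (nat_lit 5) (nat_lit 106) (nat_lit 5) (nat_lit 479) (nat_lit 404) (nat_lit 317))))))))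
noncomputable def xc41 : XT := (XT.nd (nat_lit 58266) (nat_lit 0) (nat_lit 12160) (XT.nd (nat_lit 57096) (nat_lit 0) (nat_lit 37164) (XT.nd (nat_lit 546) (nat_lit 228) (nat_lit 0) (XT.nd (nat_lit 234) (nat_lit 1064) (nat_lit 0) (XT.nd (nat_lit 78) (nat_lit 608) (nat_lit 0) (XT.lf (nat_lit 0) (nat_lit 7950713313) (nat_lit 228) (nat_lit 1829165471) (nat_lit 304) (nat_lit 7516128935) (nat_lit 102) (nat_lit 5) (nat_lit 105) (nat_lit 5) (nat_lit 106) (nat_lit 5) (nat_lit 480) (nat_lit 404) (nat_lit 316)) (XT.nd (nat_lit 78) (nat_lit 228) (nat_lit 0) (XT.lf (nat_lit 0) (nat_lit 58509040) (nat_lit 380) (nat_lit 9694394373) (nat_lit 76) (nat_lit 7859794017) (nat_lit 97) (nat_lit 5) (nat_lit 102) (nat_lit 5) (nat_lit 98) (nat_lit 5) (nat_lit 481) (nat_lit 404) (nat_lit 315)) (XT.lf (nat_lit 0) (nat_lit 7847679964) (nat_lit 304) (nat_lit 10071748229) (nat_lit 76) (nat_lit 16678255) (nat_lit 94) (nat_lit 5) (nat_lit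 98) (nat_lit 5) (nat_lit 95) (nat_lit 5) (nat_lit 482) (nat_lit 404) (nat_lit 314)))) (XT.nd (nat_lit 156) (nat_lit 532) (nat_lit 0) (XT.nd (nat_lit 78) (nat_lit 304) (nat_lit 0) (XT.lf (nat_lit 0) (nat_lit 7785749085) (nat_lit 228) (nat_lit 8228872479) (nat_lit 304) (nat_lit 2251714669) (nat_lit 91) (nat_lit 5) (nat_lit 94) (nat_lit 5) (nat_lit 95) (nat_lit 5) (nat_lit 483) (nat_lit 404) (nat_lit 313)) (XT.lf (nat_lit 0) (nat_lit 5837394868) (nat_lit 304) (nat_lit 10906533179) (nat_lit 76) (nat_lit 1859916934) (nat_lit 87) (nat_lit 5) (nat_lit 91) (nat_lit 5) (nat_lit 88) (nat_lit 5) (nat_lit 484) (nat_lit 404) (nat_lit 312))) (XT.nd (nat_lit 78) (nat_lit 304) (nat_lit 0) (XT.lf (nat_lit 0) (nat_lit 7578466670) (nat_lit 228) (nat_lit 6699150031) (nat_lit 304) (nat_lit 4670784369) (nat_lit 84) (nat_lit 5) (nat_lit 87) (nat_lit 5) (nat_lit 88) (nat_lit 5) (nat_lit 485) (nat_lit 404) (nat_lit 311)) (XT.lf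 (nat_lit 0) (nat_lit 3730607294) (nat_lit 304) (nat_lit 11850088778) (nat_lit 76) (nat_lit 3719902676) (nat_lit 80) (nat_lit 5) (nat_lit 84) (nat_lit 5) (nat_lit 81) (nat_lit 5) (nat_lit 486) (nat_lit 404) (nat_lit 310))))) (XT.nd (nat_lit 56238) (nat_lit 0) (nat_lit 50008) (XT.nd (nat_lit 56082) (nat_lit 0) (nat_lit 51376) (XT.lf (nat_lit 0) (nat_lit 7285114434) (nat_lit 228) (nat_lit 5169521080) (nat_lit 304) (nat_lit 7205428664) (nat_lit 77) (nat_lit 5) (nat_lit 80) (nat_lit 5) (nat_lit 81) (nat_lit 5) (nat_lit 487) (nat_lit 404) (nat_lit 309)) (XT.nd (nat_lit 78) (nat_lit 684) (nat_lit 0) (XT.lf (nat_lit 0) (nat_lit 1020203462) (nat_lit 0) (nat_lit 1020203462) (nat_lit 532) (nat_lit 1233533967) (nat_lit 762) (nat_lit 5) (nat_lit 762) (nat_lit 3) (nat_lit 769) (nat_lit 3) (nat_lit 405) (nat_lit 405) (nat_lit 390)) (XT.lf (nat_lit 76) (nat_lit 397230531) (nat_lit 0) (nat_lit 915039840) (nat_lit 684)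 (nat_lit 5258300592) (nat_lit 754) (nat_lit 5) (nat_lit 753) (nat_lit 3) (nat_lit 762) (nat_lit 5) (nat_lit 406) (nat_lit 405) (nat_lit 389)))) (XT.nd (nat_lit 156) (nat_lit 760) (nat_lit 0) (XT.nd (nat_lit 78) (nat_lit 684) (nat_lit 0) (XT.lf (nat_lit 0) (nat_lit 5056405375) (nat_lit 608) (nat_lit 1180532444) (nat_lit 684) (nat_lit 358985351) (nat_lit 754) (nat_lit 5) (nat_lit 762) (nat_lit 5) (nat_lit 763) (nat_lit 5) (nat_lit 407) (nat_lit 405) (nat_lit 388)) (XT.lf (nat_lit 0) (nat_lit 2148384529) (nat_lit 684) (nat_lit 2708297475) (nat_lit 760) (nat_lit 1767311297) (nat_lit 745) (nat_lit 5) (nat_lit 754) (nat_lit 5) (nat_lit 755) (nat_lit 5) (nat_lit 408) (nat_lit 405) (nat_lit 387))) (XT.nd (nat_lit 78) (nat_lit 760) (nat_lit 0) (XT.lf (nat_lit 76) (nat_lit 2472309980) (nat_lit 0) (nat_lit 3337380502) (nat_lit 760) (nat_lit 845344519) (nat_lit 746) (nat_lit 5) (nat_lit 745) (nat_lit 5) (nat_lit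 755) (nat_lit 5) (nat_lit 409) (nat_lit 405) (nat_lit 386)) (XT.lf (nat_lit 76) (nat_lit 1075395983) (nat_lit 0) (nat_lit 1668075422) (nat_lit 836) (nat_lit 3945415160) (nat_lit 736) (nat_lit 5) (nat_lit 735) (nat_lit 5) (nat_lit 746) (nat_lit 5) (nat_lit 410) (nat_lit 405) (nat_lit 385)))))) (XT.nd (nat_lit 546) (nat_lit 10260) (nat_lit 0) (XT.nd (nat_lit 234) (nat_lit 1824) (nat_lit 0) (XT.nd (nat_lit 78) (nat_lit 836) (nat_lit 0) (XT.lf (nat_lit 0) (nat_lit 6323421420) (nat_lit 760) (nat_lit 261199499) (nat_lit 836) (nat_lit 141128049) (nat_lit 736) (nat_lit 5) (nat_lit 746) (nat_lit 5) (nat_lit 747) (nat_lit 5) (nat_lit 411) (nat_lit 405) (nat_lit 384)) (XT.nd (nat_lit 78) (nat_lit 0) (nat_lit 0) (XT.lf (nat_lit 0) (nat_lit 3118944399) (nat_lit 836) (nat_lit 1554842393) (nat_lit 912) (nat_lit 2091225104) (nat_lit 725) (nat_lit 5) (nat_lit 736) (nat_lit 5) (nat_lit 737) (nat_lit 5) (nat_lit 412)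 (nat_lit 405) (nat_lit 383)) (XT.lf (nat_lit 76) (nat_lit 4015348535) (nat_lit 0) (nat_lit 2625294936) (nat_lit 912) (nat_lit 166756626) (nat_lit 726) (nat_lit 5) (nat_lit 725) (nat_lit 5) (nat_lit 737) (nat_lit 5) (nat_lit 413) (nat_lit 405) (nat_lit 382)))) (XT.nd (nat_lit 156) (nat_lit 912) (nat_lit 0) (XT.nd (nat_lit 78) (nat_lit 0) (nat_lit 76) (XT.lf (nat_lit 76) (nat_lit 2859480858) (nat_lit 0) (nat_lit 416569296) (nat_lit 988) (nat_lit 3576492882) (nat_lit 714) (nat_lit 5) (nat_lit 713) (nat_lit 5) (nat_lit 726) (nat_lit 5) (nat_lit 414) (nat_lit 405) (nat_lit 381)) (XT.lf (nat_lit 76) (nat_lit 1749450232) (nat_lit 0) (nat_lit 4991100112) (nat_lit 988) (nat_lit 160059619) (nat_lit 715) (nat_lit 5) (nat_lit 714) (nat_lit 5) (nat_lit 727) (nat_lit 5) (nat_lit 415) (nat_lit 405) (nat_lit 380))) (XT.nd (nat_lit 78) (nat_lit 0) (nat_lit 76) (XT.lf (nat_lit 76) (nat_lit 672774423) (nat_lit 0) (nat_lit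 2556866752) (nat_lit 1064) (nat_lit 3721750021) (nat_lit 702) (nat_lit 5) (nat_lit 701) (nat_lit 5) (nat_lit 715) (nat_lit 5) (nat_lit 416) (nat_lit 405) (nat_lit 379)) (XT.lf (nat_lit 0) (nat_lit 6637331057) (nat_lit 988) (nat_lit 343906328) (nat_lit 76) (nat_lit 24072709) (nat_lit 702) (nat_lit 5) (nat_lit 715) (nat_lit 5) (nat_lit 703) (nat_lit 5) (nat_lit 417) (nat_lit 405) (nat_lit 378))))) (XT.nd (nat_lit 312) (nat_lit 5776) (nat_lit 0) (XT.nd (nat_lit 156) (nat_lit 2432) (nat_lit 0) (XT.nd (nat_lit 78) (nat_lit 1064) (nat_lit 0) (XT.lf (nat_lit 0) (nat_lit 2986984619) (nat_lit 1064) (nat_lit 1334026677) (nat_lit 76) (nat_lit 2740617929) (nat_lit 688) (nat_lit 5) (nat_lit 702) (nat_lit 5) (nat_lit 689) (nat_lit 5) (nat_lit 418) (nat_lit 405) (nat_lit 377)) (XT.lf (nat_lit 0) (nat_lit 4847806209) (nat_lit 1064) (nat_lit 1512723753) (nat_lit 1140) (nat_lit 760605153) (nat_lit 674) (nat_lit 5) (nat_lit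 688) (nat_lit 5) (nat_lit 689) (nat_lit 5) (nat_lit 419) (nat_lit 405) (nat_lit 376))) (XT.nd (nat_lit 78) (nat_lit 1216) (nat_lit 0) (XT.lf (nat_lit 0) (nat_lit 2553753255) (nat_lit 1216) (nat_lit 3186513856) (nat_lit 76) (nat_lit 1443105040) (nat_lit 658) (nat_lit 5) (nat_lit 674) (nat_lit 5) (nat_lit 659) (nat_lit 5) (nat_lit 420) (nat_lit 405) (nat_lit 375)) (XT.lf (nat_lit 0) (nat_lit 3184720615) (nat_lit 1216) (nat_lit 2712773408) (nat_lit 1292) (nat_lit 1351080157) (nat_lit 642) (nat_lit 5) (nat_lit 658) (nat_lit 5) (nat_lit 659) (nat_lit 5) (nat_lit 421) (nat_lit 405) (nat_lit 374)))) (XT.nd (nat_lit 156) (nat_lit 3040) (nat_lit 0) (XT.nd (nat_lit 78) (nat_lit 1368) (nat_lit 0) (XT.lf (nat_lit 0) (nat_lit 1935576055) (nat_lit 1368) (nat_lit 4907090158) (nat_lit 76) (nat_lit 474080327) (nat_lit 624) (nat_lit 5) (nat_lit 642) (nat_lit 5) (nat_lit 625) (nat_lit 5) (nat_lit 422) (nat_lit 405) (nat_lit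 373)) (XT.lf (nat_lit 0) (nat_lit 1659198443) (nat_lit 1368) (nat_lit 3598487506) (nat_lit 1444) (nat_lit 2129999137) (nat_lit 606) (nat_lit 5) (nat_lit 624) (nat_lit 5) (nat_lit 625) (nat_lit 5) (nat_lit 423) (nat_lit 405) (nat_lit 372))) (XT.nd (nat_lit 78) (nat_lit 1520) (nat_lit 0) (XT.lf (nat_lit 0) (nat_lit 952121887) (nat_lit 1444) (nat_lit 190501531) (nat_lit 1520) (nat_lit 6319175761) (nat_lit 586) (nat_lit 5) (nat_lit 605) (nat_lit 5) (nat_lit 606) (nat_lit 5) (nat_lit 424) (nat_lit 405) (nat_lit 371)) (XT.lf (nat_lit 0) (nat_lit 259018412) (nat_lit 1520) (nat_lit 4190681976) (nat_lit 1596) (nat_lit 3088853972) (nat_lit 566) (nat_lit 5) (nat_lit 586) (nat_lit 5) (nat_lit 587) (nat_lit 5) (nat_lit 425) (nat_lit 405) (nat_lit 370))))))) (XT.nd (nat_lit 1170) (nat_lit 9044) (nat_lit 0) (XT.nd (nat_lit 546) (nat_lit 6840) (nat_lit 0) (XT.nd (nat_lit 234) (nat_lit 5776) (nat_lit 0) (XT.nd (nat_lit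 78) (nat_lit 3268) (nat_lit 0) (XT.lf (nat_lit 0) (nat_lit 185340797) (nat_lit 1596) (nat_lit 382422363) (nat_lit 76) (nat_lit 7050819652) (nat_lit 565) (nat_lit 5) (nat_lit 586) (nat_lit 5) (nat_lit 566) (nat_lit 5) (nat_lit 426) (nat_lit 405) (nat_lit 369)) (XT.nd (nat_lit 78) (nat_lit 1672) (nat_lit 0) (XT.lf (nat_lit 0) (nat_lit 3487839573) (nat_lit 1672) (nat_lit 1013758061) (nat_lit 76) (nat_lit 3199568530) (nat_lit 544) (nat_lit 5) (nat_lit 566) (nat_lit 5) (nat_lit 545) (nat_lit 5) (nat_lit 427) (nat_lit 405) (nat_lit 368)) (XT.lf (nat_lit 0) (nat_lit 6185046003) (nat_lit 1672) (nat_lit 660394907) (nat_lit 1748) (nat_lit 941668722) (nat_lit 522) (nat_lit 5) (nat_lit 544) (nat_lit 5) (nat_lit 545) (nat_lit 5) (nat_lit 428) (nat_lit 405) (nat_lit 367)))) (XT.nd (nat_lit 156) (nat_lit 2128) (nat_lit 0) (XT.nd (nat_lit 78) (nat_lit 1824) (nat_lit 0) (XT.lf (nat_lit 0) (nat_lit 2373175026) (nat_lit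 1824) (nat_lit 2181234487) (nat_lit 76) (nat_lit 3321371975) (nat_lit 498) (nat_lit 5) (nat_lit 522) (nat_lit 5) (nat_lit 499) (nat_lit 5) (nat_lit 429) (nat_lit 405) (nat_lit 366)) (XT.lf (nat_lit 0) (nat_lit 5242040391) (nat_lit 1824) (nat_lit 495208085) (nat_lit 1900) (nat_lit 2230491904) (nat_lit 474) (nat_lit 5) (nat_lit 498) (nat_lit 5) (nat_lit 499) (nat_lit 5) (nat_lit 430) (nat_lit 405) (nat_lit 365))) (XT.nd (nat_lit 78) (nat_lit 912) (nat_lit 0) (XT.lf (nat_lit 0) (nat_lit 1109969977) (nat_lit 1216) (nat_lit 3256682967) (nat_lit 76) (nat_lit 3695957230) (nat_lit 458) (nat_lit 5) (nat_lit 474) (nat_lit 5) (nat_lit 459) (nat_lit 5) (nat_lit 431) (nat_lit 405) (nat_lit 364)) (XT.lf (nat_lit 0) (nat_lit 4398976751) (nat_lit 912) (nat_lit 88574612) (nat_lit 988) (nat_lit 3673138347) (nat_lit 446) (nat_lit 5) (nat_lit 458) (nat_lit 5) (nat_lit 459) (nat_lit 5) (nat_lit 432) (nat_lit 405) (nat_lit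 363))))) (XT.nd (nat_lit 312) (nat_lit 3192) (nat_lit 0) (XT.nd (nat_lit 156) (nat_lit 1824) (nat_lit 0) (XT.nd (nat_lit 78) (nat_lit 912) (nat_lit 0) (XT.lf (nat_lit 0) (nat_lit 4010483307) (nat_lit 912) (nat_lit 3950757297) (nat_lit 988) (nat_lit 300578050) (nat_lit 434) (nat_lit 5) (nat_lit 446) (nat_lit 5) (nat_lit 447) (nat_lit 5) (nat_lit 433) (nat_lit 405) (nat_lit 362)) (XT.lf (nat_lit 0) (nat_lit 3104832580) (nat_lit 912) (nat_lit 4722680953) (nat_lit 76) (nat_lit 538592586) (nat_lit 422) (nat_lit 5) (nat_lit 434) (nat_lit 5) (nat_lit 423) (nat_lit 5) (nat_lit 434) (nat_lit 405) (nat_lit 361))) (XT.nd (nat_lit 78) (nat_lit 912) (nat_lit 0) (XT.lf (nat_lit 0) (nat_lit 3293312486) (nat_lit 912) (nat_lit 3313456431) (nat_lit 988) (nat_lit 1866747042) (nat_lit 410) (nat_lit 5) (nat_lit 422) (nat_lit 5) (nat_lit 423) (nat_lit 5) (nat_lit 435) (nat_lit 405) (nat_lit 360)) (XT.lf (nat_lit 0) (nat_lit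 1591724911) (nat_lit 912) (nat_lit 5615561541) (nat_lit 76) (nat_lit 1376982696) (nat_lit 398) (nat_lit 5) (nat_lit 410) (nat_lit 5) (nat_lit 399) (nat_lit 5) (nat_lit 436) (nat_lit 405) (nat_lit 359)))) (XT.nd (nat_lit 156) (nat_lit 1596) (nat_lit 0) (XT.nd (nat_lit 78) (nat_lit 760) (nat_lit 0) (XT.lf (nat_lit 0) (nat_lit 2653880630) (nat_lit 836) (nat_lit 2474149920) (nat_lit 912) (nat_lit 3570081017) (nat_lit 387) (nat_lit 5) (nat_lit 398) (nat_lit 5) (nat_lit 399) (nat_lit 5) (nat_lit 437) (nat_lit 405) (nat_lit 358)) (XT.lf (nat_lit 0) (nat_lit 2367355333) (nat_lit 760) (nat_lit 6398542201) (nat_lit 836) (nat_lit 49564458) (nat_lit 377) (nat_lit 5) (nat_lit 387) (nat_lit 5) (nat_lit 388) (nat_lit 5) (nat_lit 438) (nat_lit 405) (nat_lit 357))) (XT.nd (nat_lit 78) (nat_lit 760) (nat_lit 0) (XT.lf (nat_lit 0) (nat_lit 2084650233) (nat_lit 760) (nat_lit 1443676332) (nat_lit 836) (nat_lit 5407570686)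 (nat_lit 366) (nat_lit 5) (nat_lit 376) (nat_lit 5) (nat_lit 377) (nat_lit 5) (nat_lit 439) (nat_lit 405) (nat_lit 356)) (XT.lf (nat_lit 0) (nat_lit 1820868216) (nat_lit 760) (nat_lit 5400481746) (nat_lit 836) (nat_lit 1838421684) (nat_lit 356) (nat_lit 5) (nat_lit 366) (nat_lit 5) (nat_lit 367) (nat_lit 5) (nat_lit 440) (nat_lit 405) (nat_lit 355)))))) (XT.nd (nat_lit 546) (nat_lit 4104) (nat_lit 0) (XT.nd (nat_lit 234) (nat_lit 2736) (nat_lit 0) (XT.nd (nat_lit 78) (nat_lit 1368) (nat_lit 0) (XT.lf (nat_lit 0) (nat_lit 1578476362) (nat_lit 760) (nat_lit 231845776) (nat_lit 836) (nat_lit 7376870939) (nat_lit 345) (nat_lit 5) (nat_lit 355) (nat_lit 5) (nat_lit 356) (nat_lit 5) (nat_lit 441) (nat_lit 405) (nat_lit 354)) (XT.nd (nat_lit 78) (nat_lit 684) (nat_lit 0) (XT.lf (nat_lit 0) (nat_lit 1332998016) (nat_lit 684) (nat_lit 4233226162) (nat_lit 760) (nat_lit 3751518336) (nat_lit 336) (nat_lit 5) (nat_lit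 345) (nat_lit 5) (nat_lit 346) (nat_lit 5) (nat_lit 442) (nat_lit 405) (nat_lit 353)) (XT.lf (nat_lit 0) (nat_lit 1120813492) (nat_lit 684) (nat_lit 8314720595) (nat_lit 760) (nat_lit 16661538) (nat_lit 327) (nat_lit 5) (nat_lit 336) (nat_lit 5) (nat_lit 337) (nat_lit 5) (nat_lit 443) (nat_lit 405) (nat_lit 352)))) (XT.nd (nat_lit 156) (nat_lit 1292) (nat_lit 0) (XT.nd (nat_lit 78) (nat_lit 684) (nat_lit 0) (XT.lf (nat_lit 0) (nat_lit 897127615) (nat_lit 684) (nat_lit 2905320303) (nat_lit 760) (nat_lit 5787289935) (nat_lit 317) (nat_lit 5) (nat_lit 326) (nat_lit 5) (nat_lit 327) (nat_lit 5) (nat_lit 444) (nat_lit 405) (nat_lit 351)) (XT.lf (nat_lit 0) (nat_lit 697368693) (nat_lit 684) (nat_lit 7052369030) (nat_lit 760) (nat_lit 1981391425) (nat_lit 308) (nat_lit 5) (nat_lit 317) (nat_lit 5) (nat_lit 318) (nat_lit 5) (nat_lit 445) (nat_lit 405) (nat_lit 350))) (XT.nd (nat_lit 78) (nat_lit 608) (nat_lit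 0) (XT.lf (nat_lit 0) (nat_lit 506904532) (nat_lit 608) (nat_lit 1424484308) (nat_lit 684) (nat_lit 7944760565) (nat_lit 299) (nat_lit 5) (nat_lit 307) (nat_lit 5) (nat_lit 308) (nat_lit 5) (nat_lit 446) (nat_lit 405) (nat_lit 349)) (XT.lf (nat_lit 0) (nat_lit 315604977) (nat_lit 608) (nat_lit 5648603384) (nat_lit 684) (nat_lit 4060460008) (nat_lit 291) (nat_lit 5) (nat_lit 299) (nat_lit 5) (nat_lit 300) (nat_lit 5) (nat_lit 447) (nat_lit 405) (nat_lit 348))))) (XT.nd (nat_lit 312) (nat_lit 2204) (nat_lit 0) (XT.nd (nat_lit 156) (nat_lit 1216) (nat_lit 0) (XT.nd (nat_lit 78) (nat_lit 76) (nat_lit 0) (XT.lf (nat_lit 0) (nat_lit 154553659) (nat_lit 608) (nat_lit 9977403463) (nat_lit 684) (nat_lit 45408385) (nat_lit 283) (nat_lit 5) (nat_lit 291) (nat_lit 5) (nat_lit 292) (nat_lit 5) (nat_lit 448) (nat_lit 405) (nat_lit 347)) (XT.lf (nat_lit 0) (nat_lit 4079905707) (nat_lit 684) (nat_lit 30097462) (nat_lit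 76) (nat_lit 6223241637) (nat_lit 282) (nat_lit 5) (nat_lit 291) (nat_lit 5) (nat_lit 283) (nat_lit 5) (nat_lit 449) (nat_lit 405) (nat_lit 346))) (XT.nd (nat_lit 78) (nat_lit 608) (nat_lit 0) (XT.lf (nat_lit 0) (nat_lit 8349472449) (nat_lit 684) (nat_lit 185742148) (nat_lit 76) (nat_lit 1958159067) (nat_lit 274) (nat_lit 5) (nat_lit 283) (nat_lit 5) (nat_lit 275) (nat_lit 5) (nat_lit 450) (nat_lit 405) (nat_lit 345)) (XT.lf (nat_lit 0) (nat_lit 2098743959) (nat_lit 608) (nat_lit 342264508) (nat_lit 76) (nat_lit 8216281609) (nat_lit 266) (nat_lit 5) (nat_lit 274) (nat_lit 5) (nat_lit 267) (nat_lit 5) (nat_lit 451) (nat_lit 405) (nat_lit 344)))) (XT.nd (nat_lit 156) (nat_lit 988) (nat_lit 0) (XT.nd (nat_lit 78) (nat_lit 608) (nat_lit 0) (XT.lf (nat_lit 0) (nat_lit 6476658387) (nat_lit 684) (nat_lit 498234842) (nat_lit 76) (nat_lit 3850206265) (nat_lit 258) (nat_lit 5) (nat_lit 267) (nat_lit 5) (nat_lit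 259) (nat_lit 5) (nat_lit 452) (nat_lit 405) (nat_lit 343)) (XT.lf (nat_lit 0) (nat_lit 18473974) (nat_lit 608) (nat_lit 630733907) (nat_lit 76) (nat_lit 10348131110) (nat_lit 250) (nat_lit 5) (nat_lit 258) (nat_lit 5) (nat_lit 251) (nat_lit 5) (nat_lit 453) (nat_lit 405) (nat_lit 342))) (XT.nd (nat_lit 78) (nat_lit 456) (nat_lit 0) (XT.lf (nat_lit 0) (nat_lit 4512301547) (nat_lit 608) (nat_lit 790602499) (nat_lit 76) (nat_lit 5870168280) (nat_lit 243) (nat_lit 5) (nat_lit 251) (nat_lit 5) (nat_lit 244) (nat_lit 5) (nat_lit 454) (nat_lit 405) (nat_lit 341)) (XT.lf (nat_lit 0) (nat_lit 9171592322) (nat_lit 532) (nat_lit 923648752) (nat_lit 76) (nat_lit 1258224767) (nat_lit 237) (nat_lit 5) (nat_lit 244) (nat_lit 5) (nat_lit 238) (nat_lit 5) (nat_lit 455) (nat_lit 405) (nat_lit 340))))))))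
noncomputable def xc42 : XT := (XT.nd (nat_lit 2262) (nat_lit 532) (nat_lit 0) (XT.nd (nat_lit 1092) (nat_lit 4864) (nat_lit 0) (XT.nd (nat_lit 546) (nat_lit 2812) (nat_lit 0) (XT.nd (nat_lit 234) (nat_lit 1824) (nat_lit 0) (XT.nd (nat_lit 78) (nat_lit 988) (nat_lit 0) (XT.lf (nat_lit 0) (nat_lit 2455722731) (nat_lit 608) (nat_lit 1068467770) (nat_lit 76) (nat_lit 8013641624) (nat_lit 229) (nat_lit 5) (nat_lit 237) (nat_lit 5) (nat_lit 230) (nat_lit 5) (nat_lit 456) (nat_lit 405) (nat_lit 339)) (XT.nd (nat_lit 78) (nat_lit 532) (nat_lit 0) (XT.lf (nat_lit 0) (nat_lit 7246847038) (nat_lit 532) (nat_lit 1209887635) (nat_lit 76) (nat_lit 3269826477) (nat_lit 223) (nat_lit 5) (nat_lit 230) (nat_lit 5) (nat_lit 224) (nat_lit 5) (nat_lit 457) (nat_lit 405) (nat_lit 338)) (XT.lf (nat_lit 0) (nat_lit 305777667) (nat_lit 532) (nat_lit 1337470180) (nat_lit 76) (nat_lit 10276702458) (nat_lit 216) (nat_lit 5) (nat_lit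 223) (nat_lit 5) (nat_lit 217) (nat_lit 5) (nat_lit 458) (nat_lit 405) (nat_lit 337)))) (XT.nd (nat_lit 156) (nat_lit 912) (nat_lit 0) (XT.nd (nat_lit 78) (nat_lit 456) (nat_lit 0) (XT.lf (nat_lit 0) (nat_lit 5236503079) (nat_lit 532) (nat_lit 1490769885) (nat_lit 76) (nat_lit 5390026320) (nat_lit 210) (nat_lit 5) (nat_lit 217) (nat_lit 5) (nat_lit 211) (nat_lit 5) (nat_lit 459) (nat_lit 405) (nat_lit 336)) (XT.lf (nat_lit 0) (nat_lit 10357128404) (nat_lit 532) (nat_lit 1618334884) (nat_lit 76) (nat_lit 344266834) (nat_lit 204) (nat_lit 5) (nat_lit 211) (nat_lit 5) (nat_lit 205) (nat_lit 5) (nat_lit 460) (nat_lit 405) (nat_lit 335))) (XT.nd (nat_lit 78) (nat_lit 456) (nat_lit 0) (XT.lf (nat_lit 0) (nat_lit 3139004518) (nat_lit 456) (nat_lit 1772041951) (nat_lit 76) (nat_lit 7615254085) (nat_lit 198) (nat_lit 5) (nat_lit 204) (nat_lit 5) (nat_lit 199) (nat_lit 5) (nat_lit 461) (nat_lit 405) (nat_lit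 334)) (XT.lf (nat_lit 0) (nat_lit 8415972927) (nat_lit 532) (nat_lit 1915802771) (nat_lit 76) (nat_lit 2406054264) (nat_lit 192) (nat_lit 5) (nat_lit 199) (nat_lit 5) (nat_lit 193) (nat_lit 5) (nat_lit 462) (nat_lit 405) (nat_lit 333))))) (XT.nd (nat_lit 234) (nat_lit 1596) (nat_lit 0) (XT.nd (nat_lit 78) (nat_lit 760) (nat_lit 0) (XT.lf (nat_lit 0) (nat_lit 952342645) (nat_lit 456) (nat_lit 2059588420) (nat_lit 76) (nat_lit 9942287879) (nat_lit 186) (nat_lit 5) (nat_lit 192) (nat_lit 5) (nat_lit 187) (nat_lit 5) (nat_lit 463) (nat_lit 405) (nat_lit 332)) (XT.nd (nat_lit 78) (nat_lit 380) (nat_lit 0) (XT.lf (nat_lit 0) (nat_lit 6393753865) (nat_lit 456) (nat_lit 2223148502) (nat_lit 76) (nat_lit 4558272639) (nat_lit 181) (nat_lit 5) (nat_lit 187) (nat_lit 5) (nat_lit 182) (nat_lit 5) (nat_lit 464) (nat_lit 405) (nat_lit 331)) (XT.lf (nat_lit 0) (nat_lit 11033362872) (nat_lit 380) (nat_lit 1024634718)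 (nat_lit 456) (nat_lit 1343571146) (nat_lit 176) (nat_lit 5) (nat_lit 181) (nat_lit 5) (nat_lit 182) (nat_lit 5) (nat_lit 465) (nat_lit 405) (nat_lit 330)))) (XT.nd (nat_lit 156) (nat_lit 760) (nat_lit 0) (XT.nd (nat_lit 78) (nat_lit 380) (nat_lit 0) (XT.lf (nat_lit 0) (nat_lit 4288094573) (nat_lit 456) (nat_lit 2546557974) (nat_lit 76) (nat_lit 6797819302) (nat_lit 170) (nat_lit 5) (nat_lit 176) (nat_lit 5) (nat_lit 171) (nat_lit 5) (nat_lit 466) (nat_lit 405) (nat_lit 329)) (XT.lf (nat_lit 0) (nat_lit 10127936255) (nat_lit 456) (nat_lit 2709161958) (nat_lit 76) (nat_lit 1031877354) (nat_lit 165) (nat_lit 5) (nat_lit 171) (nat_lit 5) (nat_lit 166) (nat_lit 5) (nat_lit 467) (nat_lit 405) (nat_lit 328))) (XT.nd (nat_lit 78) (nat_lit 304) (nat_lit 0) (XT.lf (nat_lit 0) (nat_lit 2096160688) (nat_lit 456) (nat_lit 2892488507) (nat_lit 76) (nat_lit 9121814425) (nat_lit 159) (nat_lit 5) (nat_lit 165) (nat_lit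 5) (nat_lit 160) (nat_lit 5) (nat_lit 468) (nat_lit 405) (nat_lit 327)) (XT.lf (nat_lit 0) (nat_lit 8126800160) (nat_lit 380) (nat_lit 3083166312) (nat_lit 76) (nat_lit 3147352958) (nat_lit 155) (nat_lit 5) (nat_lit 160) (nat_lit 5) (nat_lit 156) (nat_lit 5) (nat_lit 469) (nat_lit 405) (nat_lit 326)))))) (XT.nd (nat_lit 546) (nat_lit 2356) (nat_lit 0) (XT.nd (nat_lit 234) (nat_lit 1368) (nat_lit 0) (XT.nd (nat_lit 78) (nat_lit 760) (nat_lit 0) (XT.lf (nat_lit 0) (nat_lit 11340961214) (nat_lit 380) (nat_lit 3081129135) (nat_lit 456) (nat_lit 187816589) (nat_lit 150) (nat_lit 5) (nat_lit 155) (nat_lit 5) (nat_lit 156) (nat_lit 5) (nat_lit 470) (nat_lit 405) (nat_lit 325)) (XT.nd (nat_lit 78) (nat_lit 380) (nat_lit 0) (XT.lf (nat_lit 0) (nat_lit 6044754243) (nat_lit 380) (nat_lit 3490541450) (nat_lit 76) (nat_lit 5332238136) (nat_lit 145) (nat_lit 5) (nat_lit 150) (nat_lit 5) (nat_lit 146) (nat_lit 5)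 (nat_lit 471) (nat_lit 405) (nat_lit 324)) (XT.lf (nat_lit 0) (nat_lit 11435067203) (nat_lit 380) (nat_lit 1102025893) (nat_lit 456) (nat_lit 2594265353) (nat_lit 140) (nat_lit 5) (nat_lit 145) (nat_lit 5) (nat_lit 146) (nat_lit 5) (nat_lit 472) (nat_lit 405) (nat_lit 323)))) (XT.nd (nat_lit 156) (nat_lit 684) (nat_lit 0) (XT.nd (nat_lit 78) (nat_lit 304) (nat_lit 0) (XT.lf (nat_lit 0) (nat_lit 3878135234) (nat_lit 380) (nat_lit 3938686613) (nat_lit 76) (nat_lit 7583637445) (nat_lit 135) (nat_lit 5) (nat_lit 140) (nat_lit 5) (nat_lit 136) (nat_lit 5) (nat_lit 473) (nat_lit 405) (nat_lit 322)) (XT.lf (nat_lit 0) (nat_lit 10582313326) (nat_lit 380) (nat_lit 4174441063) (nat_lit 76) (nat_lit 919079340) (nat_lit 131) (nat_lit 5) (nat_lit 136) (nat_lit 5) (nat_lit 132) (nat_lit 5) (nat_lit 474) (nat_lit 405) (nat_lit 321))) (XT.nd (nat_lit 78) (nat_lit 304) (nat_lit 0) (XT.lf (nat_lit 0) (nat_lit 1622777321)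 (nat_lit 380) (nat_lit 4435492835) (nat_lit 76) (nat_lit 9898707903) (nat_lit 126) (nat_lit 5) (nat_lit 131) (nat_lit 5) (nat_lit 127) (nat_lit 5) (nat_lit 475) (nat_lit 405) (nat_lit 320)) (XT.lf (nat_lit 0) (nat_lit 8555194599) (nat_lit 380) (nat_lit 4713023466) (nat_lit 76) (nat_lit 2975989174) (nat_lit 122) (nat_lit 5) (nat_lit 127) (nat_lit 5) (nat_lit 123) (nat_lit 5) (nat_lit 476) (nat_lit 405) (nat_lit 319))))) (XT.nd (nat_lit 312) (nat_lit 1064) (nat_lit 0) (XT.nd (nat_lit 156) (nat_lit 608) (nat_lit 0) (XT.nd (nat_lit 78) (nat_lit 380) (nat_lit 0) (XT.lf (nat_lit 0) (nat_lit 11543728111) (nat_lit 304) (nat_lit 4258530460) (nat_lit 380) (nat_lit 735661743) (nat_lit 118) (nat_lit 5) (nat_lit 122) (nat_lit 5) (nat_lit 123) (nat_lit 5) (nat_lit 477) (nat_lit 405) (nat_lit 318)) (XT.lf (nat_lit 0) (nat_lit 6444040839) (nat_lit 380) (nat_lit 5313656035) (nat_lit 76) (nat_lit 5079873246) (nat_lit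 113) (nat_lit 5) (nat_lit 118) (nat_lit 5) (nat_lit 114) (nat_lit 5) (nat_lit 478) (nat_lit 405) (nat_lit 317))) (XT.nd (nat_lit 78) (nat_lit 380) (nat_lit 0) (XT.lf (nat_lit 0) (nat_lit 11513693392) (nat_lit 228) (nat_lit 2414770157) (nat_lit 304) (nat_lit 3215662604) (nat_lit 110) (nat_lit 5) (nat_lit 113) (nat_lit 5) (nat_lit 114) (nat_lit 5) (nat_lit 479) (nat_lit 405) (nat_lit 316)) (XT.lf (nat_lit 0) (nat_lit 4243755824) (nat_lit 380) (nat_lit 5985798171) (nat_lit 76) (nat_lit 7227362745) (nat_lit 105) (nat_lit 5) (nat_lit 110) (nat_lit 5) (nat_lit 106) (nat_lit 5) (nat_lit 480) (nat_lit 405) (nat_lit 315)))) (XT.nd (nat_lit 156) (nat_lit 456) (nat_lit 0) (XT.nd (nat_lit 78) (nat_lit 380) (nat_lit 0) (XT.lf (nat_lit 0) (nat_lit 11433422335) (nat_lit 228) (nat_lit 541823996) (nat_lit 304) (nat_lit 5801580477) (nat_lit 102) (nat_lit 5) (nat_lit 105) (nat_lit 5) (nat_lit 106) (nat_lit 5) (nat_lit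 481) (nat_lit 405) (nat_lit 314)) (XT.lf (nat_lit 0) (nat_lit 1948652427) (nat_lit 380) (nat_lit 6739684844) (nat_lit 76) (nat_lit 9414952646) (nat_lit 97) (nat_lit 5) (nat_lit 102) (nat_lit 5) (nat_lit 98) (nat_lit 5) (nat_lit 482) (nat_lit 405) (nat_lit 313))) (XT.nd (nat_lit 78) (nat_lit 228) (nat_lit 0) (XT.lf (nat_lit 0) (nat_lit 9945919398) (nat_lit 304) (nat_lit 7152604139) (nat_lit 76) (nat_lit 1338389852) (nat_lit 94) (nat_lit 5) (nat_lit 98) (nat_lit 5) (nat_lit 95) (nat_lit 5) (nat_lit 483) (nat_lit 405) (nat_lit 312)) (XT.lf (nat_lit 0) (nat_lit 11188356385) (nat_lit 228) (nat_lit 7135831763) (nat_lit 304) (nat_lit 453536126) (nat_lit 91) (nat_lit 5) (nat_lit 94) (nat_lit 5) (nat_lit 95) (nat_lit 5) (nat_lit 484) (nat_lit 405) (nat_lit 311))))))) (XT.nd (nat_lit 57330) (nat_lit 0) (nat_lit 26524) (XT.nd (nat_lit 56706) (nat_lit 0) (nat_lit 45828) (XT.nd (nat_lit 56394) (nat_lit 0) (nat_lit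 49400) (XT.nd (nat_lit 78) (nat_lit 228) (nat_lit 0) (XT.lf (nat_lit 0) (nat_lit 7829205594) (nat_lit 304) (nat_lit 8064496988) (nat_lit 76) (nat_lit 3231905422) (nat_lit 87) (nat_lit 5) (nat_lit 91) (nat_lit 5) (nat_lit 88) (nat_lit 5) (nat_lit 485) (nat_lit 405) (nat_lit 310)) (XT.nd (nat_lit 56238) (nat_lit 0) (nat_lit 50844) (XT.lf (nat_lit 0) (nat_lit 10923635829) (nat_lit 228) (nat_lit 5566327908) (nat_lit 304) (nat_lit 2991190986) (nat_lit 84) (nat_lit 5) (nat_lit 87) (nat_lit 5) (nat_lit 88) (nat_lit 5) (nat_lit 486) (nat_lit 405) (nat_lit 309)) (XT.lf (nat_lit 0) (nat_lit 2490702682) (nat_lit 684) (nat_lit 403273726) (nat_lit 684) (nat_lit 403273726) (nat_lit 753) (nat_lit 3) (nat_lit 762) (nat_lit 3) (nat_lit 762) (nat_lit 5) (nat_lit 406) (nat_lit 406) (nat_lit 388)))) (XT.nd (nat_lit 156) (nat_lit 760) (nat_lit 0) (XT.nd (nat_lit 78) (nat_lit 0) (nat_lit 0) (XT.lf (nat_lit 0) (nat_lit 1999071581)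 (nat_lit 684) (nat_lit 2467745852) (nat_lit 760) (nat_lit 2154344982) (nat_lit 744) (nat_lit 5) (nat_lit 753) (nat_lit 3) (nat_lit 754) (nat_lit 5) (nat_lit 407) (nat_lit 406) (nat_lit 387)) (XT.lf (nat_lit 76) (nat_lit 2573882963) (nat_lit 0) (nat_lit 3005656368) (nat_lit 760) (nat_lit 1071241446) (nat_lit 745) (nat_lit 5) (nat_lit 744) (nat_lit 5) (nat_lit 754) (nat_lit 5) (nat_lit 408) (nat_lit 406) (nat_lit 386))) (XT.nd (nat_lit 78) (nat_lit 0) (nat_lit 76) (XT.lf (nat_lit 76) (nat_lit 1041954509) (nat_lit 0) (nat_lit 1396081316) (nat_lit 836) (nat_lit 4245205966) (nat_lit 735) (nat_lit 5) (nat_lit 734) (nat_lit 5) (nat_lit 745) (nat_lit 5) (nat_lit 409) (nat_lit 406) (nat_lit 385)) (XT.lf (nat_lit 0) (nat_lit 5933785495) (nat_lit 760) (nat_lit 431268884) (nat_lit 836) (nat_lit 353571817) (nat_lit 735) (nat_lit 5) (nat_lit 745) (nat_lit 5) (nat_lit 746) (nat_lit 5) (nat_lit 410) (nat_lit 406) (nat_lit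 384))))) (XT.nd (nat_lit 312) (nat_lit 1900) (nat_lit 0) (XT.nd (nat_lit 156) (nat_lit 912) (nat_lit 0) (XT.nd (nat_lit 78) (nat_lit 0) (nat_lit 0) (XT.lf (nat_lit 0) (nat_lit 2653600323) (nat_lit 836) (nat_lit 1858174235) (nat_lit 912) (nat_lit 2244728184) (nat_lit 724) (nat_lit 5) (nat_lit 735) (nat_lit 5) (nat_lit 736) (nat_lit 5) (nat_lit 411) (nat_lit 406) (nat_lit 383)) (XT.lf (nat_lit 76) (nat_lit 3565197602) (nat_lit 0) (nat_lit 2518006210) (nat_lit 912) (nat_lit 714240248) (nat_lit 725) (nat_lit 5) (nat_lit 724) (nat_lit 5) (nat_lit 736) (nat_lit 5) (nat_lit 412) (nat_lit 406) (nat_lit 382))) (XT.nd (nat_lit 78) (nat_lit 0) (nat_lit 76) (XT.lf (nat_lit 76) (nat_lit 2274050204) (nat_lit 0) (nat_lit 367992878) (nat_lit 988) (nat_lit 4199168046) (nat_lit 713) (nat_lit 5) (nat_lit 712) (nat_lit 5) (nat_lit 725) (nat_lit 5) (nat_lit 413) (nat_lit 406) (nat_lit 381)) (XT.lf (nat_lit 76) (nat_lit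 1023894957) (nat_lit 0) (nat_lit 4984562522) (nat_lit 988) (nat_lit 879361624) (nat_lit 714) (nat_lit 5) (nat_lit 713) (nat_lit 5) (nat_lit 726) (nat_lit 5) (nat_lit 414) (nat_lit 406) (nat_lit 380)))) (XT.nd (nat_lit 156) (nat_lit 988) (nat_lit 0) (XT.nd (nat_lit 78) (nat_lit 0) (nat_lit 0) (XT.lf (nat_lit 0) (nat_lit 2421009445) (nat_lit 988) (nat_lit 186063616) (nat_lit 1064) (nat_lit 4330141740) (nat_lit 700) (nat_lit 5) (nat_lit 713) (nat_lit 5) (nat_lit 714) (nat_lit 5) (nat_lit 415) (nat_lit 406) (nat_lit 379)) (XT.lf (nat_lit 76) (nat_lit 5655769943) (nat_lit 0) (nat_lit 73608504) (nat_lit 1064) (nat_lit 1260183839) (nat_lit 701) (nat_lit 5) (nat_lit 700) (nat_lit 5) (nat_lit 714) (nat_lit 5) (nat_lit 416) (nat_lit 406) (nat_lit 378))) (XT.nd (nat_lit 78) (nat_lit 0) (nat_lit 0) (XT.lf (nat_lit 0) (nat_lit 2000523379) (nat_lit 1064) (nat_lit 2458110703) (nat_lit 1140) (nat_lit 2585889635) (nat_lit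 687) (nat_lit 5) (nat_lit 701) (nat_lit 5) (nat_lit 702) (nat_lit 5) (nat_lit 417) (nat_lit 406) (nat_lit 377)) (XT.lf (nat_lit 76) (nat_lit 3563069276) (nat_lit 0) (nat_lit 1701047121) (nat_lit 1140) (nat_lit 1838411762) (nat_lit 688) (nat_lit 5) (nat_lit 687) (nat_lit 5) (nat_lit 702) (nat_lit 5) (nat_lit 418) (nat_lit 406) (nat_lit 376)))))) (XT.nd (nat_lit 546) (nat_lit 11628) (nat_lit 0) (XT.nd (nat_lit 234) (nat_lit 4180) (nat_lit 0) (XT.nd (nat_lit 78) (nat_lit 2432) (nat_lit 0) (XT.lf (nat_lit 0) (nat_lit 1376971309) (nat_lit 1140) (nat_lit 4587024403) (nat_lit 76) (nat_lit 1199434887) (nat_lit 673) (nat_lit 5) (nat_lit 688) (nat_lit 5) (nat_lit 674) (nat_lit 5) (nat_lit 419) (nat_lit 406) (nat_lit 375)) (XT.nd (nat_lit 78) (nat_lit 1292) (nat_lit 0) (XT.lf (nat_lit 0) (nat_lit 1618408221) (nat_lit 1140) (nat_lit 2985855860) (nat_lit 1216) (nat_lit 2622848628) (nat_lit 658) (nat_lit 5) (nat_lit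 673) (nat_lit 5) (nat_lit 674) (nat_lit 5) (nat_lit 420) (nat_lit 406) (nat_lit 374)) (XT.lf (nat_lit 0) (nat_lit 560338202) (nat_lit 1292) (nat_lit 6586920840) (nat_lit 76) (nat_lit 146707539) (nat_lit 641) (nat_lit 5) (nat_lit 658) (nat_lit 5) (nat_lit 642) (nat_lit 5) (nat_lit 421) (nat_lit 406) (nat_lit 373)))) (XT.nd (nat_lit 156) (nat_lit 2888) (nat_lit 0) (XT.nd (nat_lit 78) (nat_lit 1292) (nat_lit 0) (XT.lf (nat_lit 0) (nat_lit 3760659712) (nat_lit 1292) (nat_lit 189347688) (nat_lit 76) (nat_lit 3413330284) (nat_lit 641) (nat_lit 5) (nat_lit 658) (nat_lit 5) (nat_lit 642) (nat_lit 5) (nat_lit 422) (nat_lit 406) (nat_lit 372)) (XT.lf (nat_lit 0) (nat_lit 6407918451) (nat_lit 1292) (nat_lit 592467542) (nat_lit 1368) (nat_lit 435539737) (nat_lit 624) (nat_lit 5) (nat_lit 641) (nat_lit 5) (nat_lit 642) (nat_lit 5) (nat_lit 423) (nat_lit 406) (nat_lit 371))) (XT.nd (nat_lit 78) (nat_lit 1444) (nat_lit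 0) (XT.lf (nat_lit 0) (nat_lit 2750314360) (nat_lit 1444) (nat_lit 1855836095) (nat_lit 76) (nat_lit 2904961984) (nat_lit 605) (nat_lit 5) (nat_lit 624) (nat_lit 5) (nat_lit 606) (nat_lit 5) (nat_lit 424) (nat_lit 406) (nat_lit 370)) (XT.lf (nat_lit 0) (nat_lit 4945560248) (nat_lit 1444) (nat_lit 1029356401) (nat_lit 1520) (nat_lit 1614602154) (nat_lit 586) (nat_lit 5) (nat_lit 605) (nat_lit 5) (nat_lit 606) (nat_lit 5) (nat_lit 425) (nat_lit 406) (nat_lit 369))))) (XT.nd (nat_lit 312) (nat_lit 4940) (nat_lit 0) (XT.nd (nat_lit 156) (nat_lit 3496) (nat_lit 0) (XT.nd (nat_lit 78) (nat_lit 1596) (nat_lit 0) (XT.lf (nat_lit 0) (nat_lit 1570348397) (nat_lit 1596) (nat_lit 3414058963) (nat_lit 76) (nat_lit 2686348249) (nat_lit 565) (nat_lit 5) (nat_lit 586) (nat_lit 5) (nat_lit 566) (nat_lit 5) (nat_lit 426) (nat_lit 406) (nat_lit 368)) (XT.lf (nat_lit 0) (nat_lit 3598156137) (nat_lit 1596) (nat_lit 1189059691)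 (nat_lit 1672) (nat_lit 2967837321) (nat_lit 544) (nat_lit 5) (nat_lit 565) (nat_lit 5) (nat_lit 566) (nat_lit 5) (nat_lit 427) (nat_lit 406) (nat_lit 367))) (XT.nd (nat_lit 78) (nat_lit 1748) (nat_lit 0) (XT.lf (nat_lit 0) (nat_lit 227456866) (nat_lit 1748) (nat_lit 4875058379) (nat_lit 76) (nat_lit 2739890987) (nat_lit 521) (nat_lit 5) (nat_lit 544) (nat_lit 5) (nat_lit 522) (nat_lit 5) (nat_lit 428) (nat_lit 406) (nat_lit 366)) (XT.lf (nat_lit 0) (nat_lit 2355123342) (nat_lit 1748) (nat_lit 1088583149) (nat_lit 1824) (nat_lit 4488975640) (nat_lit 498) (nat_lit 5) (nat_lit 521) (nat_lit 5) (nat_lit 522) (nat_lit 5) (nat_lit 429) (nat_lit 406) (nat_lit 365)))) (XT.nd (nat_lit 156) (nat_lit 1900) (nat_lit 0) (XT.nd (nat_lit 78) (nat_lit 1216) (nat_lit 0) (XT.lf (nat_lit 0) (nat_lit 1768481945) (nat_lit 1824) (nat_lit 4968128887) (nat_lit 1900) (nat_lit 1289454973) (nat_lit 474) (nat_lit 5) (nat_lit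 498) (nat_lit 5) (nat_lit 499) (nat_lit 5) (nat_lit 430) (nat_lit 406) (nat_lit 364)) (XT.lf (nat_lit 0) (nat_lit 1206542164) (nat_lit 1140) (nat_lit 743420633) (nat_lit 1216) (nat_lit 6172625984) (nat_lit 458) (nat_lit 5) (nat_lit 473) (nat_lit 5) (nat_lit 474) (nat_lit 5) (nat_lit 431) (nat_lit 406) (nat_lit 363))) (XT.nd (nat_lit 78) (nat_lit 988) (nat_lit 0) (XT.lf (nat_lit 0) (nat_lit 656510956) (nat_lit 912) (nat_lit 4602007011) (nat_lit 988) (nat_lit 2963532170) (nat_lit 446) (nat_lit 5) (nat_lit 458) (nat_lit 5) (nat_lit 459) (nat_lit 5) (nat_lit 432) (nat_lit 406) (nat_lit 362)) (XT.lf (nat_lit 0) (nat_lit 143091560) (nat_lit 912) (nat_lit 167666082) (nat_lit 988) (nat_lit 8014227676) (nat_lit 433) (nat_lit 5) (nat_lit 445) (nat_lit 5) (nat_lit 446) (nat_lit 5) (nat_lit 433) (nat_lit 406) (nat_lit 361))))))))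
noncomputable def xc43 : XT := (XT.nd (nat_lit 2262) (nat_lit 7752) (nat_lit 0) (XT.nd (nat_lit 1092) (nat_lit 8132) (nat_lit 0) (XT.nd (nat_lit 546) (nat_lit 5092) (nat_lit 0) (XT.nd (nat_lit 234) (nat_lit 3268) (nat_lit 0) (XT.nd (nat_lit 78) (nat_lit 1824) (nat_lit 0) (XT.lf (nat_lit 0) (nat_lit 3645566133) (nat_lit 988) (nat_lit 371093201) (nat_lit 76) (nat_lit 4413908815) (nat_lit 433) (nat_lit 5) (nat_lit 446) (nat_lit 5) (nat_lit 434) (nat_lit 5) (nat_lit 434) (nat_lit 406) (nat_lit 360)) (XT.nd (nat_lit 78) (nat_lit 988) (nat_lit 0) (XT.lf (nat_lit 0) (nat_lit 7060098313) (nat_lit 912) (nat_lit 846740445) (nat_lit 76) (nat_lit 632888475) (nat_lit 422) (nat_lit 5) (nat_lit 434) (nat_lit 5) (nat_lit 423) (nat_lit 5) (nat_lit 435) (nat_lit 406) (nat_lit 359)) (XT.lf (nat_lit 0) (nat_lit 1902878003) (nat_lit 988) (nat_lit 1320066661) (nat_lit 76) (nat_lit 5428904354) (nat_lit 409) (nat_lit 5) (nat_lit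 422) (nat_lit 5) (nat_lit 410) (nat_lit 5) (nat_lit 436) (nat_lit 406) (nat_lit 358)))) (XT.nd (nat_lit 156) (nat_lit 1520) (nat_lit 0) (XT.nd (nat_lit 78) (nat_lit 912) (nat_lit 0) (XT.lf (nat_lit 0) (nat_lit 5356210939) (nat_lit 912) (nat_lit 1772944527) (nat_lit 76) (nat_lit 1638196497) (nat_lit 398) (nat_lit 5) (nat_lit 410) (nat_lit 5) (nat_lit 399) (nat_lit 5) (nat_lit 437) (nat_lit 406) (nat_lit 357)) (XT.lf (nat_lit 0) (nat_lit 29316297) (nat_lit 912) (nat_lit 2206952593) (nat_lit 76) (nat_lit 6649992813) (nat_lit 386) (nat_lit 5) (nat_lit 398) (nat_lit 5) (nat_lit 387) (nat_lit 5) (nat_lit 438) (nat_lit 406) (nat_lit 356))) (XT.nd (nat_lit 78) (nat_lit 760) (nat_lit 0) (XT.lf (nat_lit 0) (nat_lit 3529144854) (nat_lit 836) (nat_lit 2641940538) (nat_lit 76) (nat_lit 2837154373) (nat_lit 376) (nat_lit 5) (nat_lit 387) (nat_lit 5) (nat_lit 377) (nat_lit 5) (nat_lit 439) (nat_lit 406) (nat_lit 355))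 (XT.lf (nat_lit 0) (nat_lit 6081584071) (nat_lit 760) (nat_lit 1053405628) (nat_lit 836) (nat_lit 1998868996) (nat_lit 366) (nat_lit 5) (nat_lit 376) (nat_lit 5) (nat_lit 377) (nat_lit 5) (nat_lit 440) (nat_lit 406) (nat_lit 354))))) (XT.nd (nat_lit 234) (nat_lit 2812) (nat_lit 0) (XT.nd (nat_lit 78) (nat_lit 1444) (nat_lit 0) (XT.lf (nat_lit 0) (nat_lit 1581192722) (nat_lit 836) (nat_lit 3461062011) (nat_lit 76) (nat_lit 4220462870) (nat_lit 355) (nat_lit 5) (nat_lit 366) (nat_lit 5) (nat_lit 356) (nat_lit 5) (nat_lit 441) (nat_lit 406) (nat_lit 353)) (XT.nd (nat_lit 78) (nat_lit 684) (nat_lit 0) (XT.lf (nat_lit 0) (nat_lit 5241496156) (nat_lit 836) (nat_lit 3853265837) (nat_lit 76) (nat_lit 300417911) (nat_lit 345) (nat_lit 5) (nat_lit 356) (nat_lit 5) (nat_lit 346) (nat_lit 5) (nat_lit 442) (nat_lit 406) (nat_lit 352)) (XT.lf (nat_lit 0) (nat_lit 5290544034) (nat_lit 684) (nat_lit 3748116619) (nat_lit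 760) (nat_lit 492416133) (nat_lit 336) (nat_lit 5) (nat_lit 345) (nat_lit 5) (nat_lit 346) (nat_lit 5) (nat_lit 443) (nat_lit 406) (nat_lit 351)))) (XT.nd (nat_lit 156) (nat_lit 1368) (nat_lit 0) (XT.nd (nat_lit 78) (nat_lit 684) (nat_lit 0) (XT.lf (nat_lit 0) (nat_lit 3243048800) (nat_lit 760) (nat_lit 4622591286) (nat_lit 76) (nat_lit 1804839212) (nat_lit 326) (nat_lit 5) (nat_lit 336) (nat_lit 5) (nat_lit 327) (nat_lit 5) (nat_lit 444) (nat_lit 406) (nat_lit 350)) (XT.lf (nat_lit 0) (nat_lit 4818438410) (nat_lit 684) (nat_lit 2288402042) (nat_lit 760) (nat_lit 2706700901) (nat_lit 317) (nat_lit 5) (nat_lit 326) (nat_lit 5) (nat_lit 327) (nat_lit 5) (nat_lit 445) (nat_lit 406) (nat_lit 349))) (XT.nd (nat_lit 78) (nat_lit 608) (nat_lit 0) (XT.lf (nat_lit 0) (nat_lit 1133809778) (nat_lit 760) (nat_lit 5360040961) (nat_lit 76) (nat_lit 3466441459) (nat_lit 307) (nat_lit 5) (nat_lit 317) (nat_lit 5) (nat_lit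 308) (nat_lit 5) (nat_lit 446) (nat_lit 406) (nat_lit 348)) (XT.lf (nat_lit 0) (nat_lit 4389809912) (nat_lit 608) (nat_lit 680823570) (nat_lit 684) (nat_lit 5040098334) (nat_lit 299) (nat_lit 5) (nat_lit 307) (nat_lit 5) (nat_lit 308) (nat_lit 5) (nat_lit 447) (nat_lit 406) (nat_lit 347)))))) (XT.nd (nat_lit 546) (nat_lit 3876) (nat_lit 0) (XT.nd (nat_lit 234) (nat_lit 2356) (nat_lit 0) (XT.nd (nat_lit 78) (nat_lit 1292) (nat_lit 0) (XT.lf (nat_lit 0) (nat_lit 4185700625) (nat_lit 608) (nat_lit 4979013115) (nat_lit 684) (nat_lit 1100189299) (nat_lit 291) (nat_lit 5) (nat_lit 299) (nat_lit 5) (nat_lit 300) (nat_lit 5) (nat_lit 448) (nat_lit 406) (nat_lit 346)) (XT.nd (nat_lit 78) (nat_lit 608) (nat_lit 0) (XT.lf (nat_lit 0) (nat_lit 2937413489) (nat_lit 684) (nat_lit 6431314330) (nat_lit 76) (nat_lit 1054223069) (nat_lit 282) (nat_lit 5) (nat_lit 291) (nat_lit 5) (nat_lit 283) (nat_lit 5) (nat_lit 449)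 (nat_lit 406) (nat_lit 345)) (XT.lf (nat_lit 0) (nat_lit 3797324742) (nat_lit 608) (nat_lit 3326303490) (nat_lit 684) (nat_lit 3461119215) (nat_lit 274) (nat_lit 5) (nat_lit 282) (nat_lit 5) (nat_lit 283) (nat_lit 5) (nat_lit 450) (nat_lit 406) (nat_lit 344)))) (XT.nd (nat_lit 156) (nat_lit 1140) (nat_lit 0) (XT.nd (nat_lit 78) (nat_lit 608) (nat_lit 0) (XT.lf (nat_lit 0) (nat_lit 705473964) (nat_lit 608) (nat_lit 7130917595) (nat_lit 76) (nat_lit 2914310525) (nat_lit 266) (nat_lit 5) (nat_lit 274) (nat_lit 5) (nat_lit 267) (nat_lit 5) (nat_lit 451) (nat_lit 406) (nat_lit 343)) (XT.lf (nat_lit 0) (nat_lit 3437004469) (nat_lit 608) (nat_lit 1548956947) (nat_lit 684) (nat_lit 5934499237) (nat_lit 258) (nat_lit 5) (nat_lit 266) (nat_lit 5) (nat_lit 267) (nat_lit 5) (nat_lit 452) (nat_lit 406) (nat_lit 342))) (XT.nd (nat_lit 78) (nat_lit 608) (nat_lit 0) (XT.lf (nat_lit 0) (nat_lit 3262158987) (nat_lit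 532) (nat_lit 6180325892) (nat_lit 608) (nat_lit 1651875878) (nat_lit 251) (nat_lit 5) (nat_lit 258) (nat_lit 5) (nat_lit 259) (nat_lit 5) (nat_lit 453) (nat_lit 406) (nat_lit 341)) (XT.lf (nat_lit 0) (nat_lit 2753389453) (nat_lit 608) (nat_lit 8175729069) (nat_lit 76) (nat_lit 343395174) (nat_lit 243) (nat_lit 5) (nat_lit 251) (nat_lit 5) (nat_lit 244) (nat_lit 5) (nat_lit 454) (nat_lit 406) (nat_lit 340))))) (XT.nd (nat_lit 312) (nat_lit 1900) (nat_lit 0) (XT.nd (nat_lit 156) (nat_lit 912) (nat_lit 0) (XT.nd (nat_lit 78) (nat_lit 608) (nat_lit 0) (XT.lf (nat_lit 0) (nat_lit 2918652484) (nat_lit 456) (nat_lit 4411079741) (nat_lit 532) (nat_lit 4124834495) (nat_lit 237) (nat_lit 5) (nat_lit 243) (nat_lit 5) (nat_lit 244) (nat_lit 5) (nat_lit 455) (nat_lit 406) (nat_lit 339)) (XT.lf (nat_lit 0) (nat_lit 433398046) (nat_lit 608) (nat_lit 8878951433) (nat_lit 76) (nat_lit 2328933268) (nat_lit 229) (nat_lit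 5) (nat_lit 237) (nat_lit 5) (nat_lit 230) (nat_lit 5) (nat_lit 456) (nat_lit 406) (nat_lit 338))) (XT.nd (nat_lit 78) (nat_lit 456) (nat_lit 0) (XT.lf (nat_lit 0) (nat_lit 2588388703) (nat_lit 456) (nat_lit 2537960784) (nat_lit 532) (nat_lit 6705626249) (nat_lit 223) (nat_lit 5) (nat_lit 229) (nat_lit 5) (nat_lit 230) (nat_lit 5) (nat_lit 457) (nat_lit 406) (nat_lit 337)) (XT.lf (nat_lit 0) (nat_lit 2424973459) (nat_lit 456) (nat_lit 7590298279) (nat_lit 532) (nat_lit 2012015129) (nat_lit 217) (nat_lit 5) (nat_lit 223) (nat_lit 5) (nat_lit 224) (nat_lit 5) (nat_lit 458) (nat_lit 406) (nat_lit 336)))) (XT.nd (nat_lit 156) (nat_lit 912) (nat_lit 0) (XT.nd (nat_lit 78) (nat_lit 456) (nat_lit 0) (XT.lf (nat_lit 0) (nat_lit 2265718251) (nat_lit 456) (nat_lit 565124261) (nat_lit 532) (nat_lit 9396340185) (nat_lit 210) (nat_lit 5) (nat_lit 216) (nat_lit 5) (nat_lit 217) (nat_lit 5) (nat_lit 459) (nat_lit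 406) (nat_lit 335)) (XT.lf (nat_lit 0) (nat_lit 2088782784) (nat_lit 456) (nat_lit 5776954453) (nat_lit 532) (nat_lit 4565591364) (nat_lit 204) (nat_lit 5) (nat_lit 210) (nat_lit 5) (nat_lit 211) (nat_lit 5) (nat_lit 460) (nat_lit 406) (nat_lit 334))) (XT.nd (nat_lit 78) (nat_lit 456) (nat_lit 0) (XT.lf (nat_lit 0) (nat_lit 451021799) (nat_lit 456) (nat_lit 10705672004) (nat_lit 76) (nat_lit 1483926306) (nat_lit 198) (nat_lit 5) (nat_lit 204) (nat_lit 5) (nat_lit 199) (nat_lit 5) (nat_lit 461) (nat_lit 406) (nat_lit 333)) (XT.lf (nat_lit 0) (nat_lit 1750875262) (nat_lit 456) (nat_lit 3879131770) (nat_lit 532) (nat_lit 7224102568) (nat_lit 192) (nat_lit 5) (nat_lit 198) (nat_lit 5) (nat_lit 199) (nat_lit 5) (nat_lit 462) (nat_lit 406) (nat_lit 332))))))) (XT.nd (nat_lit 1170) (nat_lit 2432) (nat_lit 0) (XT.nd (nat_lit 546) (nat_lit 2508) (nat_lit 0) (XT.nd (nat_lit 234) (nat_lit 1596) (nat_lit 0) (XT.nd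 (nat_lit 78) (nat_lit 836) (nat_lit 0) (XT.lf (nat_lit 0) (nat_lit 1582249998) (nat_lit 380) (nat_lit 9442665681) (nat_lit 456) (nat_lit 2047877848) (nat_lit 187) (nat_lit 5) (nat_lit 192) (nat_lit 5) (nat_lit 193) (nat_lit 5) (nat_lit 463) (nat_lit 406) (nat_lit 331)) (XT.nd (nat_lit 78) (nat_lit 380) (nat_lit 0) (XT.lf (nat_lit 0) (nat_lit 1405297050) (nat_lit 380) (nat_lit 1900447618) (nat_lit 456) (nat_lit 9990564173) (nat_lit 181) (nat_lit 5) (nat_lit 186) (nat_lit 5) (nat_lit 187) (nat_lit 5) (nat_lit 464) (nat_lit 406) (nat_lit 330)) (XT.lf (nat_lit 0) (nat_lit 1215206654) (nat_lit 380) (nat_lit 7656583487) (nat_lit 456) (nat_lit 4652876773) (nat_lit 176) (nat_lit 5) (nat_lit 181) (nat_lit 5) (nat_lit 182) (nat_lit 5) (nat_lit 465) (nat_lit 406) (nat_lit 329)))) (XT.nd (nat_lit 156) (nat_lit 760) (nat_lit 0) (XT.nd (nat_lit 78) (nat_lit 380) (nat_lit 0) (XT.lf (nat_lit 0) (nat_lit 891167426)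 (nat_lit 456) (nat_lit 12713770401) (nat_lit 76) (nat_lit 153682757) (nat_lit 170) (nat_lit 5) (nat_lit 176) (nat_lit 5) (nat_lit 171) (nat_lit 5) (nat_lit 466) (nat_lit 406) (nat_lit 328)) (XT.lf (nat_lit 0) (nat_lit 830550977) (nat_lit 380) (nat_lit 5805076076) (nat_lit 456) (nat_lit 7361405240) (nat_lit 165) (nat_lit 5) (nat_lit 170) (nat_lit 5) (nat_lit 171) (nat_lit 5) (nat_lit 467) (nat_lit 406) (nat_lit 327))) (XT.nd (nat_lit 78) (nat_lit 380) (nat_lit 0) (XT.lf (nat_lit 0) (nat_lit 640282928) (nat_lit 380) (nat_lit 11974557439) (nat_lit 456) (nat_lit 1626508274) (nat_lit 160) (nat_lit 5) (nat_lit 165) (nat_lit 5) (nat_lit 166) (nat_lit 5) (nat_lit 468) (nat_lit 406) (nat_lit 326)) (XT.lf (nat_lit 0) (nat_lit 421692011) (nat_lit 304) (nat_lit 3891584164) (nat_lit 380) (nat_lit 10177383545) (nat_lit 155) (nat_lit 5) (nat_lit 159) (nat_lit 5) (nat_lit 160) (nat_lit 5) (nat_lit 469) (nat_lit 406)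 (nat_lit 325))))) (XT.nd (nat_lit 312) (nat_lit 1368) (nat_lit 0) (XT.nd (nat_lit 156) (nat_lit 684) (nat_lit 0) (XT.nd (nat_lit 78) (nat_lit 76) (nat_lit 0) (XT.lf (nat_lit 0) (nat_lit 201578024) (nat_lit 380) (nat_lit 10288835355) (nat_lit 456) (nat_lit 4255197223) (nat_lit 150) (nat_lit 5) (nat_lit 155) (nat_lit 5) (nat_lit 156) (nat_lit 5) (nat_lit 470) (nat_lit 406) (nat_lit 324)) (XT.lf (nat_lit 0) (nat_lit 1901232039) (nat_lit 456) (nat_lit 18077099) (nat_lit 76) (nat_lit 13087046534) (nat_lit 149) (nat_lit 5) (nat_lit 155) (nat_lit 5) (nat_lit 150) (nat_lit 5) (nat_lit 471) (nat_lit 406) (nat_lit 323))) (XT.nd (nat_lit 78) (nat_lit 380) (nat_lit 0) (XT.lf (nat_lit 0) (nat_lit 8286745238) (nat_lit 380) (nat_lit 268863169) (nat_lit 76) (nat_lit 6716708687) (nat_lit 145) (nat_lit 5) (nat_lit 150) (nat_lit 5) (nat_lit 146) (nat_lit 5) (nat_lit 472) (nat_lit 406) (nat_lit 322)) (XT.lf (nat_lit 0)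 (nat_lit 14935831819) (nat_lit 456) (nat_lit 495035494) (nat_lit 76) (nat_lit 113950457) (nat_lit 140) (nat_lit 5) (nat_lit 146) (nat_lit 5) (nat_lit 141) (nat_lit 5) (nat_lit 473) (nat_lit 406) (nat_lit 321)))) (XT.nd (nat_lit 156) (nat_lit 684) (nat_lit 0) (XT.nd (nat_lit 78) (nat_lit 304) (nat_lit 0) (XT.lf (nat_lit 0) (nat_lit 5999677160) (nat_lit 380) (nat_lit 779012955) (nat_lit 76) (nat_lit 9043651477) (nat_lit 135) (nat_lit 5) (nat_lit 140) (nat_lit 5) (nat_lit 136) (nat_lit 5) (nat_lit 474) (nat_lit 406) (nat_lit 320)) (XT.lf (nat_lit 0) (nat_lit 12875674163) (nat_lit 380) (nat_lit 1043798461) (nat_lit 76) (nat_lit 2187091568) (nat_lit 131) (nat_lit 5) (nat_lit 136) (nat_lit 5) (nat_lit 132) (nat_lit 5) (nat_lit 475) (nat_lit 406) (nat_lit 319))) (XT.nd (nat_lit 78) (nat_lit 304) (nat_lit 0) (XT.lf (nat_lit 0) (nat_lit 3623465759) (nat_lit 380) (nat_lit 1339537949) (nat_lit 76) (nat_lit 11433618157)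 (nat_lit 126) (nat_lit 5) (nat_lit 131) (nat_lit 5) (nat_lit 127) (nat_lit 5) (nat_lit 476) (nat_lit 406) (nat_lit 318)) (XT.lf (nat_lit 0) (nat_lit 10735812166) (nat_lit 380) (nat_lit 1647627629) (nat_lit 76) (nat_lit 4309589736) (nat_lit 122) (nat_lit 5) (nat_lit 127) (nat_lit 5) (nat_lit 123) (nat_lit 5) (nat_lit 477) (nat_lit 406) (nat_lit 317)))))) (XT.nd (nat_lit 546) (nat_lit 304) (nat_lit 0) (XT.nd (nat_lit 234) (nat_lit 1216) (nat_lit 0) (XT.nd (nat_lit 78) (nat_lit 532) (nat_lit 0) (XT.lf (nat_lit 0) (nat_lit 1153142658) (nat_lit 380) (nat_lit 1959052086) (nat_lit 76) (nat_lit 13883919341) (nat_lit 117) (nat_lit 5) (nat_lit 122) (nat_lit 5) (nat_lit 118) (nat_lit 5) (nat_lit 478) (nat_lit 406) (nat_lit 316)) (XT.nd (nat_lit 78) (nat_lit 228) (nat_lit 0) (XT.lf (nat_lit 0) (nat_lit 8511440904) (nat_lit 380) (nat_lit 2315469010) (nat_lit 76) (nat_lit 6478282913) (nat_lit 113) (nat_lit 5) (nat_lit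 118) (nat_lit 5) (nat_lit 114) (nat_lit 5) (nat_lit 479) (nat_lit 406) (nat_lit 315)) (XT.lf (nat_lit 0) (nat_lit 14965472644) (nat_lit 228) (nat_lit 1220507435) (nat_lit 304) (nat_lit 1435654451) (nat_lit 110) (nat_lit 5) (nat_lit 113) (nat_lit 5) (nat_lit 114) (nat_lit 5) (nat_lit 480) (nat_lit 406) (nat_lit 314)))) (XT.nd (nat_lit 156) (nat_lit 608) (nat_lit 0) (XT.nd (nat_lit 78) (nat_lit 228) (nat_lit 0) (XT.lf (nat_lit 0) (nat_lit 6197192543) (nat_lit 380) (nat_lit 3056984234) (nat_lit 76) (nat_lit 8689903898) (nat_lit 105) (nat_lit 5) (nat_lit 110) (nat_lit 5) (nat_lit 106) (nat_lit 5) (nat_lit 481) (nat_lit 406) (nat_lit 313)) (XT.lf (nat_lit 0) (nat_lit 14131884869) (nat_lit 304) (nat_lit 3444463239) (nat_lit 76) (nat_lit 697815409) (nat_lit 102) (nat_lit 5) (nat_lit 106) (nat_lit 5) (nat_lit 103) (nat_lit 5) (nat_lit 482) (nat_lit 406) (nat_lit 312))) (XT.nd (nat_lit 78) (nat_lit 228) (nat_lit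 0) (XT.lf (nat_lit 0) (nat_lit 3787098913) (nat_lit 380) (nat_lit 3882641380) (nat_lit 76) (nat_lit 10941029097) (nat_lit 97) (nat_lit 5) (nat_lit 102) (nat_lit 5) (nat_lit 98) (nat_lit 5) (nat_lit 483) (nat_lit 406) (nat_lit 311)) (XT.lf (nat_lit 0) (nat_lit 12000173156) (nat_lit 304) (nat_lit 4330801325) (nat_lit 76) (nat_lit 2623909867) (nat_lit 94) (nat_lit 5) (nat_lit 98) (nat_lit 5) (nat_lit 95) (nat_lit 5) (nat_lit 484) (nat_lit 406) (nat_lit 310))))) (XT.nd (nat_lit 56628) (nat_lit 0) (nat_lit 47196) (XT.nd (nat_lit 56472) (nat_lit 0) (nat_lit 48868) (XT.nd (nat_lit 56394) (nat_lit 0) (nat_lit 49704) (XT.lf (nat_lit 0) (nat_lit 1274549151) (nat_lit 304) (nat_lit 4803813916) (nat_lit 76) (nat_lit 13228024294) (nat_lit 90) (nat_lit 5) (nat_lit 94) (nat_lit 5) (nat_lit 91) (nat_lit 5) (nat_lit 485) (nat_lit 406) (nat_lit 309)) (XT.lf (nat_lit 0) (nat_lit 1375712160) (nat_lit 0) (nat_lit 1375712160)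 (nat_lit 684) (nat_lit 573257195) (nat_lit 744) (nat_lit 5) (nat_lit 744) (nat_lit 3) (nat_lit 753) (nat_lit 3) (nat_lit 407) (nat_lit 407) (nat_lit 386))) (XT.nd (nat_lit 78) (nat_lit 0) (nat_lit 76) (XT.lf (nat_lit 76) (nat_lit 1083800635) (nat_lit 0) (nat_lit 1201596140) (nat_lit 836) (nat_lit 4395023621) (nat_lit 734) (nat_lit 5) (nat_lit 733) (nat_lit 3) (nat_lit 744) (nat_lit 5) (nat_lit 408) (nat_lit 407) (nat_lit 385)) (XT.lf (nat_lit 0) (nat_lit 5700163782) (nat_lit 760) (nat_lit 526167154) (nat_lit 836) (nat_lit 488023610) (nat_lit 734) (nat_lit 5) (nat_lit 744) (nat_lit 5) (nat_lit 745) (nat_lit 5) (nat_lit 409) (nat_lit 407) (nat_lit 384)))) (XT.nd (nat_lit 156) (nat_lit 912) (nat_lit 0) (XT.nd (nat_lit 78) (nat_lit 0) (nat_lit 0) (XT.lf (nat_lit 0) (nat_lit 2343636177) (nat_lit 836) (nat_lit 2086947917) (nat_lit 912) (nat_lit 2320249217) (nat_lit 723) (nat_lit 5) (nat_lit 734) (nat_lit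 5) (nat_lit 735) (nat_lit 5) (nat_lit 410) (nat_lit 407) (nat_lit 383)) (XT.lf (nat_lit 76) (nat_lit 3192890302) (nat_lit 0) (nat_lit 2492548738) (nat_lit 912) (nat_lit 1104898594) (nat_lit 724) (nat_lit 5) (nat_lit 723) (nat_lit 5) (nat_lit 735) (nat_lit 5) (nat_lit 411) (nat_lit 407) (nat_lit 382))) (XT.nd (nat_lit 78) (nat_lit 0) (nat_lit 76) (XT.lf (nat_lit 76) (nat_lit 1765897288) (nat_lit 0) (nat_lit 401206985) (nat_lit 988) (nat_lit 4665614929) (nat_lit 712) (nat_lit 5) (nat_lit 711) (nat_lit 5) (nat_lit 724) (nat_lit 5) (nat_lit 412) (nat_lit 407) (nat_lit 381)) (XT.lf (nat_lit 76) (nat_lit 376683221) (nat_lit 0) (nat_lit 5062597019) (nat_lit 988) (nat_lit 1438610666) (nat_lit 713) (nat_lit 5) (nat_lit 712) (nat_lit 5) (nat_lit 725) (nat_lit 5) (nat_lit 413) (nat_lit 407) (nat_lit 380))))))))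
noncomputable def xc44 : XT := (XT.nd (nat_lit 2262) (nat_lit 15200) (nat_lit 0) (XT.nd (nat_lit 1092) (nat_lit 15124) (nat_lit 0) (XT.nd (nat_lit 546) (nat_lit 9728) (nat_lit 0) (XT.nd (nat_lit 234) (nat_lit 1064) (nat_lit 0) (XT.nd (nat_lit 78) (nat_lit 988) (nat_lit 0) (XT.lf (nat_lit 0) (nat_lit 1778579759) (nat_lit 988) (nat_lit 959265202) (nat_lit 1064) (nat_lit 4187970973) (nat_lit 699) (nat_lit 5) (nat_lit 712) (nat_lit 5) (nat_lit 713) (nat_lit 5) (nat_lit 414) (nat_lit 407) (nat_lit 379)) (XT.nd (nat_lit 78) (nat_lit 988) (nat_lit 0) (XT.lf (nat_lit 76) (nat_lit 4730253367) (nat_lit 0) (nat_lit 257637027) (nat_lit 1064) (nat_lit 1988799986) (nat_lit 700) (nat_lit 5) (nat_lit 699) (nat_lit 5) (nat_lit 713) (nat_lit 5) (nat_lit 415) (nat_lit 407) (nat_lit 378)) (XT.lf (nat_lit 0) (nat_lit 1179269118) (nat_lit 1064) (nat_lit 3504686438) (nat_lit 1140) (nat_lit 2346346679) (nat_lit 686) (nat_lit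 5) (nat_lit 700) (nat_lit 5) (nat_lit 701) (nat_lit 5) (nat_lit 416) (nat_lit 407) (nat_lit 377)))) (XT.nd (nat_lit 156) (nat_lit 0) (nat_lit 0) (XT.nd (nat_lit 78) (nat_lit 1064) (nat_lit 0) (XT.lf (nat_lit 76) (nat_lit 2359402369) (nat_lit 0) (nat_lit 1978078640) (nat_lit 1140) (nat_lit 2749340578) (nat_lit 687) (nat_lit 5) (nat_lit 686) (nat_lit 5) (nat_lit 701) (nat_lit 5) (nat_lit 417) (nat_lit 407) (nat_lit 376)) (XT.lf (nat_lit 0) (nat_lit 368885599) (nat_lit 1140) (nat_lit 5909188137) (nat_lit 1216) (nat_lit 868322720) (nat_lit 672) (nat_lit 5) (nat_lit 687) (nat_lit 5) (nat_lit 688) (nat_lit 5) (nat_lit 418) (nat_lit 407) (nat_lit 375))) (XT.nd (nat_lit 78) (nat_lit 0) (nat_lit 0) (XT.lf (nat_lit 76) (nat_lit 134103311) (nat_lit 0) (nat_lit 3350305299) (nat_lit 1216) (nat_lit 3724168579) (nat_lit 673) (nat_lit 5) (nat_lit 672) (nat_lit 5) (nat_lit 688) (nat_lit 5) (nat_lit 419) (nat_lit 407)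 (nat_lit 374)) (XT.lf (nat_lit 76) (nat_lit 6366587693) (nat_lit 0) (nat_lit 263994035) (nat_lit 1216) (nat_lit 643301943) (nat_lit 673) (nat_lit 5) (nat_lit 672) (nat_lit 5) (nat_lit 688) (nat_lit 5) (nat_lit 420) (nat_lit 407) (nat_lit 373))))) (XT.nd (nat_lit 234) (nat_lit 6004) (nat_lit 0) (XT.nd (nat_lit 78) (nat_lit 2584) (nat_lit 0) (XT.lf (nat_lit 0) (nat_lit 2450972112) (nat_lit 1216) (nat_lit 1934134652) (nat_lit 76) (nat_lit 2956634624) (nat_lit 657) (nat_lit 5) (nat_lit 673) (nat_lit 5) (nat_lit 658) (nat_lit 5) (nat_lit 421) (nat_lit 407) (nat_lit 372)) (XT.nd (nat_lit 78) (nat_lit 1368) (nat_lit 0) (XT.lf (nat_lit 0) (nat_lit 4492501154) (nat_lit 1216) (nat_lit 1076120514) (nat_lit 1292) (nat_lit 1844146090) (nat_lit 641) (nat_lit 5) (nat_lit 657) (nat_lit 5) (nat_lit 658) (nat_lit 5) (nat_lit 422) (nat_lit 407) (nat_lit 371)) (XT.lf (nat_lit 0) (nat_lit 1233044139) (nat_lit 1368) (nat_lit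 3884089661) (nat_lit 76) (nat_lit 2369503883) (nat_lit 623) (nat_lit 5) (nat_lit 641) (nat_lit 5) (nat_lit 624) (nat_lit 5) (nat_lit 423) (nat_lit 407) (nat_lit 370)))) (XT.nd (nat_lit 156) (nat_lit 3192) (nat_lit 0) (XT.nd (nat_lit 78) (nat_lit 1444) (nat_lit 0) (XT.lf (nat_lit 0) (nat_lit 2740878826) (nat_lit 1368) (nat_lit 1588006789) (nat_lit 1444) (nat_lit 3234569919) (nat_lit 605) (nat_lit 5) (nat_lit 623) (nat_lit 5) (nat_lit 624) (nat_lit 5) (nat_lit 424) (nat_lit 407) (nat_lit 369)) (XT.lf (nat_lit 0) (nat_lit 1912478761) (nat_lit 1444) (nat_lit 5566035831) (nat_lit 1520) (nat_lit 164848412) (nat_lit 586) (nat_lit 5) (nat_lit 605) (nat_lit 5) (nat_lit 606) (nat_lit 5) (nat_lit 425) (nat_lit 407) (nat_lit 368))) (XT.nd (nat_lit 78) (nat_lit 1596) (nat_lit 0) (XT.lf (nat_lit 0) (nat_lit 1099883961) (nat_lit 1520) (nat_lit 1818729771) (nat_lit 1596) (nat_lit 4807448877) (nat_lit 565) (nat_lit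 5) (nat_lit 585) (nat_lit 5) (nat_lit 586) (nat_lit 5) (nat_lit 426) (nat_lit 407) (nat_lit 367)) (XT.lf (nat_lit 0) (nat_lit 317647117) (nat_lit 1596) (nat_lit 5741634487) (nat_lit 1672) (nat_lit 1752604051) (nat_lit 544) (nat_lit 5) (nat_lit 565) (nat_lit 5) (nat_lit 566) (nat_lit 5) (nat_lit 427) (nat_lit 407) (nat_lit 366)))))) (XT.nd (nat_lit 546) (nat_lit 6688) (nat_lit 0) (XT.nd (nat_lit 234) (nat_lit 4940) (nat_lit 0) (XT.nd (nat_lit 78) (nat_lit 3420) (nat_lit 0) (XT.lf (nat_lit 0) (nat_lit 1346986827) (nat_lit 1672) (nat_lit 435790585) (nat_lit 76) (nat_lit 6117900274) (nat_lit 543) (nat_lit 5) (nat_lit 565) (nat_lit 5) (nat_lit 544) (nat_lit 5) (nat_lit 428) (nat_lit 407) (nat_lit 365)) (XT.nd (nat_lit 78) (nat_lit 1748) (nat_lit 0) (XT.lf (nat_lit 0) (nat_lit 4492157848) (nat_lit 1748) (nat_lit 1168821140) (nat_lit 76) (nat_lit 2331397570) (nat_lit 521) (nat_lit 5) (nat_lit 544) (nat_lit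 5) (nat_lit 522) (nat_lit 5) (nat_lit 429) (nat_lit 407) (nat_lit 364)) (XT.lf (nat_lit 0) (nat_lit 6215763975) (nat_lit 1748) (nat_lit 1489722252) (nat_lit 1824) (nat_lit 381866884) (nat_lit 498) (nat_lit 5) (nat_lit 521) (nat_lit 5) (nat_lit 522) (nat_lit 5) (nat_lit 430) (nat_lit 407) (nat_lit 363)))) (XT.nd (nat_lit 156) (nat_lit 1900) (nat_lit 0) (XT.nd (nat_lit 78) (nat_lit 1140) (nat_lit 0) (XT.lf (nat_lit 0) (nat_lit 2776081014) (nat_lit 1900) (nat_lit 2569433027) (nat_lit 76) (nat_lit 2839636821) (nat_lit 473) (nat_lit 5) (nat_lit 498) (nat_lit 5) (nat_lit 474) (nat_lit 5) (nat_lit 431) (nat_lit 407) (nat_lit 362)) (XT.lf (nat_lit 0) (nat_lit 5047252001) (nat_lit 1140) (nat_lit 953678931) (nat_lit 1216) (nat_lit 2285356647) (nat_lit 458) (nat_lit 5) (nat_lit 473) (nat_lit 5) (nat_lit 474) (nat_lit 5) (nat_lit 432) (nat_lit 407) (nat_lit 361))) (XT.nd (nat_lit 78) (nat_lit 912) (nat_lit 0) (XT.lf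 (nat_lit 0) (nat_lit 913364080) (nat_lit 988) (nat_lit 3897720561) (nat_lit 76) (nat_lit 3579384747) (nat_lit 445) (nat_lit 5) (nat_lit 458) (nat_lit 5) (nat_lit 446) (nat_lit 5) (nat_lit 433) (nat_lit 407) (nat_lit 360)) (XT.lf (nat_lit 0) (nat_lit 3959483925) (nat_lit 912) (nat_lit 196773282) (nat_lit 988) (nat_lit 4341634480) (nat_lit 433) (nat_lit 5) (nat_lit 445) (nat_lit 5) (nat_lit 446) (nat_lit 5) (nat_lit 434) (nat_lit 407) (nat_lit 359))))) (XT.nd (nat_lit 312) (nat_lit 3116) (nat_lit 0) (XT.nd (nat_lit 156) (nat_lit 1748) (nat_lit 0) (XT.nd (nat_lit 78) (nat_lit 988) (nat_lit 0) (XT.lf (nat_lit 0) (nat_lit 3438697541) (nat_lit 836) (nat_lit 4062853638) (nat_lit 912) (nat_lit 1106885484) (nat_lit 422) (nat_lit 5) (nat_lit 433) (nat_lit 5) (nat_lit 434) (nat_lit 5) (nat_lit 435) (nat_lit 407) (nat_lit 358)) (XT.lf (nat_lit 0) (nat_lit 2179912890) (nat_lit 988) (nat_lit 5783368653) (nat_lit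 76) (nat_lit 759045974) (nat_lit 409) (nat_lit 5) (nat_lit 422) (nat_lit 5) (nat_lit 410) (nat_lit 5) (nat_lit 436) (nat_lit 407) (nat_lit 357))) (XT.nd (nat_lit 78) (nat_lit 912) (nat_lit 0) (XT.lf (nat_lit 0) (nat_lit 2445673974) (nat_lit 836) (nat_lit 3112420463) (nat_lit 912) (nat_lit 3281240095) (nat_lit 398) (nat_lit 5) (nat_lit 409) (nat_lit 5) (nat_lit 410) (nat_lit 5) (nat_lit 437) (nat_lit 407) (nat_lit 356)) (XT.lf (nat_lit 0) (nat_lit 72232196) (nat_lit 912) (nat_lit 6979743454) (nat_lit 76) (nat_lit 1907958373) (nat_lit 386) (nat_lit 5) (nat_lit 398) (nat_lit 5) (nat_lit 387) (nat_lit 5) (nat_lit 438) (nat_lit 407) (nat_lit 355)))) (XT.nd (nat_lit 156) (nat_lit 1596) (nat_lit 0) (XT.nd (nat_lit 78) (nat_lit 760) (nat_lit 0) (XT.lf (nat_lit 0) (nat_lit 1512086801) (nat_lit 760) (nat_lit 1976199453) (nat_lit 836) (nat_lit 5595302284) (nat_lit 376) (nat_lit 5) (nat_lit 386) (nat_lit 5) (nat_lit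 387) (nat_lit 5) (nat_lit 439) (nat_lit 407) (nat_lit 354)) (XT.lf (nat_lit 0) (nat_lit 1062438267) (nat_lit 760) (nat_lit 5953526209) (nat_lit 836) (nat_lit 2194807259) (nat_lit 366) (nat_lit 5) (nat_lit 376) (nat_lit 5) (nat_lit 377) (nat_lit 5) (nat_lit 440) (nat_lit 407) (nat_lit 353))) (XT.nd (nat_lit 78) (nat_lit 760) (nat_lit 0) (XT.lf (nat_lit 0) (nat_lit 630575192) (nat_lit 760) (nat_lit 663483788) (nat_lit 836) (nat_lit 8047473303) (nat_lit 355) (nat_lit 5) (nat_lit 365) (nat_lit 5) (nat_lit 366) (nat_lit 5) (nat_lit 441) (nat_lit 407) (nat_lit 352)) (XT.lf (nat_lit 0) (nat_lit 191710541) (nat_lit 760) (nat_lit 4690054926) (nat_lit 836) (nat_lit 4593681917) (nat_lit 345) (nat_lit 5) (nat_lit 355) (nat_lit 5) (nat_lit 356) (nat_lit 5) (nat_lit 442) (nat_lit 407) (nat_lit 351))))))) (XT.nd (nat_lit 1170) (nat_lit 6384) (nat_lit 0) (XT.nd (nat_lit 546) (nat_lit 4636) (nat_lit 0) (XT.nd (nat_lit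 234) (nat_lit 2736) (nat_lit 0) (XT.nd (nat_lit 78) (nat_lit 1444) (nat_lit 0) (XT.lf (nat_lit 0) (nat_lit 8583221018) (nat_lit 836) (nat_lit 215294273) (nat_lit 76) (nat_lit 814743994) (nat_lit 345) (nat_lit 5) (nat_lit 356) (nat_lit 5) (nat_lit 346) (nat_lit 5) (nat_lit 443) (nat_lit 407) (nat_lit 350)) (XT.nd (nat_lit 78) (nat_lit 684) (nat_lit 0) (XT.lf (nat_lit 0) (nat_lit 2635883259) (nat_lit 760) (nat_lit 630019774) (nat_lit 76) (nat_lit 6488361263) (nat_lit 335) (nat_lit 5) (nat_lit 345) (nat_lit 5) (nat_lit 336) (nat_lit 5) (nat_lit 444) (nat_lit 407) (nat_lit 349)) (XT.lf (nat_lit 0) (nat_lit 6413188894) (nat_lit 760) (nat_lit 1029889171) (nat_lit 76) (nat_lit 2455978783) (nat_lit 326) (nat_lit 5) (nat_lit 336) (nat_lit 5) (nat_lit 327) (nat_lit 5) (nat_lit 445) (nat_lit 407) (nat_lit 348)))) (XT.nd (nat_lit 156) (nat_lit 1292) (nat_lit 0) (XT.nd (nat_lit 78) (nat_lit 684) (nat_lit 0) (XT.lf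 (nat_lit 0) (nat_lit 275835260) (nat_lit 760) (nat_lit 1415706923) (nat_lit 76) (nat_lit 8356147951) (nat_lit 316) (nat_lit 5) (nat_lit 326) (nat_lit 5) (nat_lit 317) (nat_lit 5) (nat_lit 446) (nat_lit 407) (nat_lit 347)) (XT.lf (nat_lit 0) (nat_lit 4135000104) (nat_lit 760) (nat_lit 1815043466) (nat_lit 76) (nat_lit 4249640076) (nat_lit 307) (nat_lit 5) (nat_lit 317) (nat_lit 5) (nat_lit 308) (nat_lit 5) (nat_lit 447) (nat_lit 407) (nat_lit 346))) (XT.nd (nat_lit 78) (nat_lit 684) (nat_lit 0) (XT.lf (nat_lit 0) (nat_lit 8127435803) (nat_lit 684) (nat_lit 2188972637) (nat_lit 76) (nat_lit 39480015) (nat_lit 299) (nat_lit 5) (nat_lit 308) (nat_lit 5) (nat_lit 300) (nat_lit 5) (nat_lit 448) (nat_lit 407) (nat_lit 345)) (XT.lf (nat_lit 0) (nat_lit 1748725627) (nat_lit 684) (nat_lit 2577039451) (nat_lit 76) (nat_lit 6189822834) (nat_lit 290) (nat_lit 5) (nat_lit 299) (nat_lit 5) (nat_lit 291) (nat_lit 5)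 (nat_lit 449) (nat_lit 407) (nat_lit 344))))) (XT.nd (nat_lit 312) (nat_lit 2204) (nat_lit 0) (XT.nd (nat_lit 156) (nat_lit 1216) (nat_lit 0) (XT.nd (nat_lit 78) (nat_lit 608) (nat_lit 0) (XT.lf (nat_lit 0) (nat_lit 5837837449) (nat_lit 684) (nat_lit 2955785283) (nat_lit 76) (nat_lit 1885704440) (nat_lit 282) (nat_lit 5) (nat_lit 291) (nat_lit 5) (nat_lit 283) (nat_lit 5) (nat_lit 450) (nat_lit 407) (nat_lit 343)) (XT.lf (nat_lit 0) (nat_lit 7520196418) (nat_lit 608) (nat_lit 2570962230) (nat_lit 684) (nat_lit 755990507) (nat_lit 274) (nat_lit 5) (nat_lit 282) (nat_lit 5) (nat_lit 283) (nat_lit 5) (nat_lit 451) (nat_lit 407) (nat_lit 342))) (XT.nd (nat_lit 78) (nat_lit 608) (nat_lit 0) (XT.lf (nat_lit 0) (nat_lit 3446968112) (nat_lit 608) (nat_lit 3709447082) (nat_lit 76) (nat_lit 3862340168) (nat_lit 266) (nat_lit 5) (nat_lit 274) (nat_lit 5) (nat_lit 267) (nat_lit 5) (nat_lit 452) (nat_lit 407) (nat_lit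 341)) (XT.lf (nat_lit 0) (nat_lit 7116532630) (nat_lit 608) (nat_lit 683325125) (nat_lit 684) (nat_lit 3394870964) (nat_lit 258) (nat_lit 5) (nat_lit 266) (nat_lit 5) (nat_lit 267) (nat_lit 5) (nat_lit 453) (nat_lit 407) (nat_lit 340)))) (XT.nd (nat_lit 156) (nat_lit 1064) (nat_lit 0) (XT.nd (nat_lit 78) (nat_lit 532) (nat_lit 0) (XT.lf (nat_lit 0) (nat_lit 953873444) (nat_lit 608) (nat_lit 4456024098) (nat_lit 76) (nat_lit 5964798611) (nat_lit 250) (nat_lit 5) (nat_lit 258) (nat_lit 5) (nat_lit 251) (nat_lit 5) (nat_lit 454) (nat_lit 407) (nat_lit 339)) (XT.lf (nat_lit 0) (nat_lit 5421536578) (nat_lit 608) (nat_lit 4833918994) (nat_lit 76) (nat_lit 1303467730) (nat_lit 243) (nat_lit 5) (nat_lit 251) (nat_lit 5) (nat_lit 244) (nat_lit 5) (nat_lit 455) (nat_lit 407) (nat_lit 338))) (XT.nd (nat_lit 78) (nat_lit 608) (nat_lit 0) (XT.lf (nat_lit 0) (nat_lit 6535097863) (nat_lit 456) (nat_lit 3547676488)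 (nat_lit 532) (nat_lit 1664713069) (nat_lit 237) (nat_lit 5) (nat_lit 243) (nat_lit 5) (nat_lit 244) (nat_lit 5) (nat_lit 456) (nat_lit 407) (nat_lit 337)) (XT.lf (nat_lit 0) (nat_lit 2951399538) (nat_lit 608) (nat_lit 5596811895) (nat_lit 76) (nat_lit 3392159074) (nat_lit 229) (nat_lit 5) (nat_lit 237) (nat_lit 5) (nat_lit 230) (nat_lit 5) (nat_lit 457) (nat_lit 407) (nat_lit 336)))))) (XT.nd (nat_lit 546) (nat_lit 3116) (nat_lit 0) (XT.nd (nat_lit 234) (nat_lit 1824) (nat_lit 0) (XT.nd (nat_lit 78) (nat_lit 988) (nat_lit 0) (XT.lf (nat_lit 0) (nat_lit 6156978117) (nat_lit 456) (nat_lit 1577865737) (nat_lit 532) (nat_lit 4402947823) (nat_lit 223) (nat_lit 5) (nat_lit 229) (nat_lit 5) (nat_lit 230) (nat_lit 5) (nat_lit 458) (nat_lit 407) (nat_lit 335)) (XT.nd (nat_lit 78) (nat_lit 456) (nat_lit 0) (XT.lf (nat_lit 0) (nat_lit 383135033) (nat_lit 532) (nat_lit 6368580744) (nat_lit 76) (nat_lit 5588045300)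 (nat_lit 216) (nat_lit 5) (nat_lit 223) (nat_lit 5) (nat_lit 217) (nat_lit 5) (nat_lit 459) (nat_lit 407) (nat_lit 334)) (XT.lf (nat_lit 0) (nat_lit 5298956806) (nat_lit 532) (nat_lit 6764411662) (nat_lit 76) (nat_lit 482920413) (nat_lit 210) (nat_lit 5) (nat_lit 217) (nat_lit 5) (nat_lit 211) (nat_lit 5) (nat_lit 460) (nat_lit 407) (nat_lit 333)))) (XT.nd (nat_lit 156) (nat_lit 912) (nat_lit 0) (XT.nd (nat_lit 78) (nat_lit 456) (nat_lit 0) (XT.lf (nat_lit 0) (nat_lit 5586908291) (nat_lit 456) (nat_lit 4854551269) (nat_lit 532) (nat_lit 2315969705) (nat_lit 204) (nat_lit 5) (nat_lit 210) (nat_lit 5) (nat_lit 211) (nat_lit 5) (nat_lit 461) (nat_lit 407) (nat_lit 332)) (XT.lf (nat_lit 0) (nat_lit 2780537439) (nat_lit 456) (nat_lit 7577215534) (nat_lit 76) (nat_lit 2615723977) (nat_lit 198) (nat_lit 5) (nat_lit 204) (nat_lit 5) (nat_lit 199) (nat_lit 5) (nat_lit 462) (nat_lit 407) (nat_lit 331))) (XT.nd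 (nat_lit 78) (nat_lit 456) (nat_lit 0) (XT.lf (nat_lit 0) (nat_lit 5197062056) (nat_lit 456) (nat_lit 2872408195) (nat_lit 532) (nat_lit 5124810541) (nat_lit 192) (nat_lit 5) (nat_lit 198) (nat_lit 5) (nat_lit 199) (nat_lit 5) (nat_lit 463) (nat_lit 407) (nat_lit 330)) (XT.lf (nat_lit 0) (nat_lit 166609679) (nat_lit 456) (nat_lit 8415504186) (nat_lit 76) (nat_lit 4838133304) (nat_lit 186) (nat_lit 5) (nat_lit 192) (nat_lit 5) (nat_lit 187) (nat_lit 5) (nat_lit 464) (nat_lit 407) (nat_lit 329))))) (XT.nd (nat_lit 312) (nat_lit 1520) (nat_lit 0) (XT.nd (nat_lit 156) (nat_lit 836) (nat_lit 0) (XT.nd (nat_lit 78) (nat_lit 380) (nat_lit 0) (XT.lf (nat_lit 0) (nat_lit 4798257259) (nat_lit 380) (nat_lit 811191908) (nat_lit 456) (nat_lit 8041620560) (nat_lit 181) (nat_lit 5) (nat_lit 186) (nat_lit 5) (nat_lit 187) (nat_lit 5) (nat_lit 465) (nat_lit 407) (nat_lit 328)) (XT.lf (nat_lit 0) (nat_lit 4584192234)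 (nat_lit 380) (nat_lit 6722936658) (nat_lit 456) (nat_lit 2579857691) (nat_lit 176) (nat_lit 5) (nat_lit 181) (nat_lit 5) (nat_lit 182) (nat_lit 5) (nat_lit 466) (nat_lit 407) (nat_lit 327))) (XT.nd (nat_lit 78) (nat_lit 380) (nat_lit 0) (XT.lf (nat_lit 0) (nat_lit 3066928813) (nat_lit 456) (nat_lit 9752840925) (nat_lit 76) (nat_lit 1308594063) (nat_lit 170) (nat_lit 5) (nat_lit 176) (nat_lit 5) (nat_lit 171) (nat_lit 5) (nat_lit 467) (nat_lit 407) (nat_lit 326)) (XT.lf (nat_lit 0) (nat_lit 4143584556) (nat_lit 380) (nat_lit 4798893307) (nat_lit 456) (nat_lit 5432275900) (nat_lit 165) (nat_lit 5) (nat_lit 170) (nat_lit 5) (nat_lit 171) (nat_lit 5) (nat_lit 468) (nat_lit 407) (nat_lit 325)))) (XT.nd (nat_lit 156) (nat_lit 760) (nat_lit 0) (XT.nd (nat_lit 78) (nat_lit 304) (nat_lit 0) (XT.lf (nat_lit 0) (nat_lit 435496309) (nat_lit 456) (nat_lit 10701691758) (nat_lit 76) (nat_lit 3489809791) (nat_lit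 159) (nat_lit 5) (nat_lit 165) (nat_lit 5) (nat_lit 160) (nat_lit 5) (nat_lit 469) (nat_lit 407) (nat_lit 324)) (XT.lf (nat_lit 0) (nat_lit 3677389254) (nat_lit 304) (nat_lit 2814329492) (nat_lit 380) (nat_lit 8392648592) (nat_lit 155) (nat_lit 5) (nat_lit 159) (nat_lit 5) (nat_lit 160) (nat_lit 5) (nat_lit 470) (nat_lit 407) (nat_lit 323))) (XT.nd (nat_lit 78) (nat_lit 380) (nat_lit 0) (XT.lf (nat_lit 0) (nat_lit 3430777588) (nat_lit 380) (nat_lit 9392164878) (nat_lit 456) (nat_lit 2324649742) (nat_lit 150) (nat_lit 5) (nat_lit 155) (nat_lit 5) (nat_lit 156) (nat_lit 5) (nat_lit 471) (nat_lit 407) (nat_lit 322)) (XT.lf (nat_lit 0) (nat_lit 3178578618) (nat_lit 304) (nat_lit 772376065) (nat_lit 380) (nat_lit 11465709032) (nat_lit 145) (nat_lit 5) (nat_lit 149) (nat_lit 5) (nat_lit 150) (nat_lit 5) (nat_lit 472) (nat_lit 407) (nat_lit 321))))))))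
noncomputable def xc45 : XT := (XT.nd (nat_lit 58578) (nat_lit 0) (nat_lit 13376) (XT.nd (nat_lit 57408) (nat_lit 0) (nat_lit 41876) (XT.nd (nat_lit 546) (nat_lit 1748) (nat_lit 0) (XT.nd (nat_lit 234) (nat_lit 1368) (nat_lit 0) (XT.nd (nat_lit 78) (nat_lit 684) (nat_lit 0) (XT.lf (nat_lit 0) (nat_lit 2896504989) (nat_lit 380) (nat_lit 7600007359) (nat_lit 456) (nat_lit 5194722892) (nat_lit 140) (nat_lit 5) (nat_lit 145) (nat_lit 5) (nat_lit 146) (nat_lit 5) (nat_lit 473) (nat_lit 407) (nat_lit 320)) (XT.nd (nat_lit 78) (nat_lit 304) (nat_lit 0) (XT.lf (nat_lit 0) (nat_lit 1324388354) (nat_lit 380) (nat_lit 13341433947) (nat_lit 76) (nat_lit 1306526387) (nat_lit 135) (nat_lit 5) (nat_lit 140) (nat_lit 5) (nat_lit 136) (nat_lit 5) (nat_lit 474) (nat_lit 407) (nat_lit 319)) (XT.lf (nat_lit 0) (nat_lit 2317686694) (nat_lit 304) (nat_lit 5767120048) (nat_lit 380) (nat_lit 8174076371) (nat_lit 131) (nat_lit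 5) (nat_lit 135) (nat_lit 5) (nat_lit 136) (nat_lit 5) (nat_lit 475) (nat_lit 407) (nat_lit 318)))) (XT.nd (nat_lit 156) (nat_lit 684) (nat_lit 0) (XT.nd (nat_lit 78) (nat_lit 380) (nat_lit 0) (XT.lf (nat_lit 0) (nat_lit 2020360213) (nat_lit 304) (nat_lit 13117168879) (nat_lit 380) (nat_lit 1414695147) (nat_lit 127) (nat_lit 5) (nat_lit 131) (nat_lit 5) (nat_lit 132) (nat_lit 5) (nat_lit 476) (nat_lit 407) (nat_lit 317)) (XT.lf (nat_lit 0) (nat_lit 1686049485) (nat_lit 304) (nat_lit 3897019238) (nat_lit 380) (nat_lit 11268409846) (nat_lit 122) (nat_lit 5) (nat_lit 126) (nat_lit 5) (nat_lit 127) (nat_lit 5) (nat_lit 477) (nat_lit 407) (nat_lit 316))) (XT.nd (nat_lit 78) (nat_lit 380) (nat_lit 0) (XT.lf (nat_lit 0) (nat_lit 1343264573) (nat_lit 304) (nat_lit 11536861776) (nat_lit 380) (nat_lit 4277225996) (nat_lit 118) (nat_lit 5) (nat_lit 122) (nat_lit 5) (nat_lit 123) (nat_lit 5) (nat_lit 478) (nat_lit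 407) (nat_lit 315)) (XT.lf (nat_lit 0) (nat_lit 992694242) (nat_lit 304) (nat_lit 1993302863) (nat_lit 380) (nat_lit 14484013045) (nat_lit 113) (nat_lit 5) (nat_lit 117) (nat_lit 5) (nat_lit 118) (nat_lit 5) (nat_lit 479) (nat_lit 407) (nat_lit 314))))) (XT.nd (nat_lit 234) (nat_lit 1140) (nat_lit 0) (XT.nd (nat_lit 78) (nat_lit 380) (nat_lit 0) (XT.lf (nat_lit 0) (nat_lit 599264112) (nat_lit 228) (nat_lit 9937909887) (nat_lit 304) (nat_lit 7251745308) (nat_lit 110) (nat_lit 5) (nat_lit 113) (nat_lit 5) (nat_lit 114) (nat_lit 5) (nat_lit 480) (nat_lit 407) (nat_lit 313)) (XT.nd (nat_lit 78) (nat_lit 0) (nat_lit 0) (XT.lf (nat_lit 0) (nat_lit 228012820) (nat_lit 304) (nat_lit 59700139) (nat_lit 380) (nat_lit 17827801286) (nat_lit 105) (nat_lit 5) (nat_lit 109) (nat_lit 5) (nat_lit 110) (nat_lit 5) (nat_lit 481) (nat_lit 407) (nat_lit 312)) (XT.lf (nat_lit 0) (nat_lit 8104405372) (nat_lit 380) (nat_lit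 218740060) (nat_lit 76) (nat_lit 10124811846) (nat_lit 105) (nat_lit 5) (nat_lit 110) (nat_lit 5) (nat_lit 106) (nat_lit 5) (nat_lit 482) (nat_lit 407) (nat_lit 311)))) (XT.nd (nat_lit 156) (nat_lit 532) (nat_lit 0) (XT.nd (nat_lit 78) (nat_lit 380) (nat_lit 0) (XT.lf (nat_lit 0) (nat_lit 16253460950) (nat_lit 304) (nat_lit 639304393) (nat_lit 76) (nat_lit 1895651392) (nat_lit 102) (nat_lit 5) (nat_lit 106) (nat_lit 5) (nat_lit 103) (nat_lit 5) (nat_lit 483) (nat_lit 407) (nat_lit 310)) (XT.lf (nat_lit 0) (nat_lit 5578520262) (nat_lit 380) (nat_lit 1115499159) (nat_lit 76) (nat_lit 12441498514) (nat_lit 97) (nat_lit 5) (nat_lit 102) (nat_lit 5) (nat_lit 98) (nat_lit 5) (nat_lit 484) (nat_lit 407) (nat_lit 309))) (XT.nd (nat_lit 78) (nat_lit 304) (nat_lit 0) (XT.lf (nat_lit 0) (nat_lit 14015260052) (nat_lit 304) (nat_lit 1598645114) (nat_lit 76) (nat_lit 3876506246) (nat_lit 94) (nat_lit 5) (nat_lit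 98) (nat_lit 5) (nat_lit 95) (nat_lit 5) (nat_lit 485) (nat_lit 407) (nat_lit 308)) (XT.lf (nat_lit 0) (nat_lit 2948721819) (nat_lit 304) (nat_lit 2110524229) (nat_lit 76) (nat_lit 14793597235) (nat_lit 90) (nat_lit 5) (nat_lit 94) (nat_lit 5) (nat_lit 91) (nat_lit 5) (nat_lit 486) (nat_lit 407) (nat_lit 307)))))) (XT.nd (nat_lit 546) (nat_lit 4332) (nat_lit 0) (XT.nd (nat_lit 234) (nat_lit 1824) (nat_lit 0) (XT.nd (nat_lit 78) (nat_lit 836) (nat_lit 0) (XT.lf (nat_lit 0) (nat_lit 2811158255) (nat_lit 836) (nat_lit 272653622) (nat_lit 836) (nat_lit 272653622) (nat_lit 733) (nat_lit 3) (nat_lit 744) (nat_lit 3) (nat_lit 744) (nat_lit 5) (nat_lit 408) (nat_lit 408) (nat_lit 384)) (XT.nd (nat_lit 78) (nat_lit 0) (nat_lit 0) (XT.lf (nat_lit 0) (nat_lit 2188733647) (nat_lit 836) (nat_lit 2240635369) (nat_lit 912) (nat_lit 2318630580) (nat_lit 722) (nat_lit 5) (nat_lit 733) (nat_lit 3) (nat_lit 734) (nat_lit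 5) (nat_lit 409) (nat_lit 408) (nat_lit 383)) (XT.lf (nat_lit 76) (nat_lit 2898888733) (nat_lit 0) (nat_lit 2548053937) (nat_lit 912) (nat_lit 1339133120) (nat_lit 723) (nat_lit 5) (nat_lit 722) (nat_lit 5) (nat_lit 734) (nat_lit 5) (nat_lit 410) (nat_lit 408) (nat_lit 382)))) (XT.nd (nat_lit 156) (nat_lit 912) (nat_lit 0) (XT.nd (nat_lit 78) (nat_lit 0) (nat_lit 76) (XT.lf (nat_lit 76) (nat_lit 1335425036) (nat_lit 0) (nat_lit 515322979) (nat_lit 988) (nat_lit 4976313237) (nat_lit 711) (nat_lit 5) (nat_lit 710) (nat_lit 5) (nat_lit 723) (nat_lit 5) (nat_lit 411) (nat_lit 408) (nat_lit 381)) (XT.lf (nat_lit 0) (nat_lit 5033691285) (nat_lit 912) (nat_lit 189334193) (nat_lit 988) (nat_lit 1647767823) (nat_lit 711) (nat_lit 5) (nat_lit 723) (nat_lit 5) (nat_lit 724) (nat_lit 5) (nat_lit 412) (nat_lit 408) (nat_lit 380))) (XT.nd (nat_lit 78) (nat_lit 0) (nat_lit 0) (XT.lf (nat_lit 0) (nat_lit 1297329465)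 (nat_lit 988) (nat_lit 1655381442) (nat_lit 1064) (nat_lit 3964562951) (nat_lit 698) (nat_lit 5) (nat_lit 711) (nat_lit 5) (nat_lit 712) (nat_lit 5) (nat_lit 413) (nat_lit 408) (nat_lit 379)) (XT.lf (nat_lit 76) (nat_lit 3885216854) (nat_lit 0) (nat_lit 526739435) (nat_lit 1064) (nat_lit 2554732094) (nat_lit 699) (nat_lit 5) (nat_lit 698) (nat_lit 5) (nat_lit 712) (nat_lit 5) (nat_lit 414) (nat_lit 408) (nat_lit 378))))) (XT.nd (nat_lit 312) (nat_lit 2280) (nat_lit 0) (XT.nd (nat_lit 156) (nat_lit 1064) (nat_lit 0) (XT.nd (nat_lit 78) (nat_lit 0) (nat_lit 0) (XT.lf (nat_lit 0) (nat_lit 522395781) (nat_lit 1064) (nat_lit 4473606890) (nat_lit 1140) (nat_lit 2022951849) (nat_lit 685) (nat_lit 5) (nat_lit 699) (nat_lit 5) (nat_lit 700) (nat_lit 5) (nat_lit 415) (nat_lit 408) (nat_lit 377)) (XT.lf (nat_lit 76) (nat_lit 1236878506) (nat_lit 0) (nat_lit 2342816484) (nat_lit 1140) (nat_lit 3494309066) (nat_lit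 686) (nat_lit 5) (nat_lit 685) (nat_lit 5) (nat_lit 700) (nat_lit 5) (nat_lit 416) (nat_lit 408) (nat_lit 376))) (XT.nd (nat_lit 78) (nat_lit 1140) (nat_lit 0) (XT.lf (nat_lit 0) (nat_lit 6654577479) (nat_lit 1064) (nat_lit 23577429) (nat_lit 1140) (nat_lit 454037229) (nat_lit 686) (nat_lit 5) (nat_lit 700) (nat_lit 5) (nat_lit 701) (nat_lit 5) (nat_lit 417) (nat_lit 408) (nat_lit 375)) (XT.lf (nat_lit 0) (nat_lit 2545051061) (nat_lit 1140) (nat_lit 1251616610) (nat_lit 1216) (nat_lit 3396121709) (nat_lit 671) (nat_lit 5) (nat_lit 686) (nat_lit 5) (nat_lit 687) (nat_lit 5) (nat_lit 418) (nat_lit 408) (nat_lit 374)))) (XT.nd (nat_lit 156) (nat_lit 1140) (nat_lit 0) (XT.nd (nat_lit 78) (nat_lit 1140) (nat_lit 0) (XT.lf (nat_lit 76) (nat_lit 4821172026) (nat_lit 0) (nat_lit 760091474) (nat_lit 1216) (nat_lit 1675294802) (nat_lit 672) (nat_lit 5) (nat_lit 671) (nat_lit 5) (nat_lit 687) (nat_lit 5) (nat_lit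 419) (nat_lit 408) (nat_lit 373)) (XT.lf (nat_lit 0) (nat_lit 1316553201) (nat_lit 1216) (nat_lit 3597106126) (nat_lit 1292) (nat_lit 2409436507) (nat_lit 656) (nat_lit 5) (nat_lit 672) (nat_lit 5) (nat_lit 673) (nat_lit 5) (nat_lit 420) (nat_lit 408) (nat_lit 372))) (XT.nd (nat_lit 78) (nat_lit 1140) (nat_lit 0) (XT.lf (nat_lit 76) (nat_lit 2662666599) (nat_lit 0) (nat_lit 1654242758) (nat_lit 1292) (nat_lit 3075672105) (nat_lit 657) (nat_lit 5) (nat_lit 656) (nat_lit 5) (nat_lit 673) (nat_lit 5) (nat_lit 421) (nat_lit 408) (nat_lit 371)) (XT.lf (nat_lit 0) (nat_lit 1634987947) (nat_lit 1216) (nat_lit 5723462804) (nat_lit 1292) (nat_lit 106681020) (nat_lit 641) (nat_lit 5) (nat_lit 657) (nat_lit 5) (nat_lit 658) (nat_lit 5) (nat_lit 422) (nat_lit 408) (nat_lit 370))))))) (XT.nd (nat_lit 1170) (nat_lit 10868) (nat_lit 0) (XT.nd (nat_lit 546) (nat_lit 8512) (nat_lit 0) (XT.nd (nat_lit 234) (nat_lit 6308)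 (nat_lit 0) (XT.nd (nat_lit 78) (nat_lit 1444) (nat_lit 0) (XT.lf (nat_lit 0) (nat_lit 622962724) (nat_lit 1292) (nat_lit 2243742766) (nat_lit 1368) (nat_lit 4673692611) (nat_lit 623) (nat_lit 5) (nat_lit 640) (nat_lit 5) (nat_lit 641) (nat_lit 5) (nat_lit 423) (nat_lit 408) (nat_lit 369)) (XT.nd (nat_lit 78) (nat_lit 1444) (nat_lit 0) (XT.lf (nat_lit 0) (nat_lit 5885387303) (nat_lit 1368) (nat_lit 349285595) (nat_lit 76) (nat_lit 1384087888) (nat_lit 623) (nat_lit 5) (nat_lit 641) (nat_lit 5) (nat_lit 624) (nat_lit 5) (nat_lit 424) (nat_lit 408) (nat_lit 368)) (XT.lf (nat_lit 0) (nat_lit 1246325307) (nat_lit 1444) (nat_lit 1293116206) (nat_lit 76) (nat_lit 5160504701) (nat_lit 604) (nat_lit 5) (nat_lit 623) (nat_lit 5) (nat_lit 605) (nat_lit 5) (nat_lit 425) (nat_lit 408) (nat_lit 367)))) (XT.nd (nat_lit 156) (nat_lit 3344) (nat_lit 0) (XT.nd (nat_lit 78) (nat_lit 1520) (nat_lit 0) (XT.lf (nat_lit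 0) (nat_lit 4252531753) (nat_lit 1520) (nat_lit 2214389388) (nat_lit 76) (nat_lit 1317206661) (nat_lit 585) (nat_lit 5) (nat_lit 605) (nat_lit 5) (nat_lit 586) (nat_lit 5) (nat_lit 426) (nat_lit 408) (nat_lit 366)) (XT.lf (nat_lit 0) (nat_lit 4760377080) (nat_lit 1520) (nat_lit 2560705180) (nat_lit 1596) (nat_lit 550312408) (nat_lit 565) (nat_lit 5) (nat_lit 585) (nat_lit 5) (nat_lit 586) (nat_lit 5) (nat_lit 427) (nat_lit 408) (nat_lit 365))) (XT.nd (nat_lit 78) (nat_lit 1672) (nat_lit 0) (XT.lf (nat_lit 0) (nat_lit 2455160917) (nat_lit 1672) (nat_lit 3992815066) (nat_lit 76) (nat_lit 1513622979) (nat_lit 543) (nat_lit 5) (nat_lit 565) (nat_lit 5) (nat_lit 544) (nat_lit 5) (nat_lit 428) (nat_lit 408) (nat_lit 364)) (XT.lf (nat_lit 0) (nat_lit 3199436875) (nat_lit 1672) (nat_lit 2322002133) (nat_lit 1748) (nat_lit 2533438044) (nat_lit 521) (nat_lit 5) (nat_lit 543) (nat_lit 5) (nat_lit 544) (nat_lit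 5) (nat_lit 429) (nat_lit 408) (nat_lit 363))))) (XT.nd (nat_lit 312) (nat_lit 2736) (nat_lit 0) (XT.nd (nat_lit 156) (nat_lit 2128) (nat_lit 0) (XT.nd (nat_lit 78) (nat_lit 1824) (nat_lit 0) (XT.lf (nat_lit 0) (nat_lit 498304903) (nat_lit 1824) (nat_lit 5694987408) (nat_lit 76) (nat_lit 1958065389) (nat_lit 497) (nat_lit 5) (nat_lit 521) (nat_lit 5) (nat_lit 498) (nat_lit 5) (nat_lit 430) (nat_lit 408) (nat_lit 362)) (XT.lf (nat_lit 0) (nat_lit 1722400346) (nat_lit 1824) (nat_lit 1846462647) (nat_lit 1900) (nat_lit 4681891759) (nat_lit 473) (nat_lit 5) (nat_lit 497) (nat_lit 5) (nat_lit 498) (nat_lit 5) (nat_lit 431) (nat_lit 408) (nat_lit 361))) (XT.nd (nat_lit 78) (nat_lit 988) (nat_lit 0) (XT.lf (nat_lit 0) (nat_lit 1012015674) (nat_lit 1140) (nat_lit 5706120220) (nat_lit 1216) (nat_lit 1635268336) (nat_lit 458) (nat_lit 5) (nat_lit 473) (nat_lit 5) (nat_lit 474) (nat_lit 5) (nat_lit 432) (nat_lit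 408) (nat_lit 360)) (XT.lf (nat_lit 0) (nat_lit 319854971) (nat_lit 912) (nat_lit 1147504490) (nat_lit 988) (nat_lit 6991894660) (nat_lit 445) (nat_lit 5) (nat_lit 457) (nat_lit 5) (nat_lit 458) (nat_lit 5) (nat_lit 433) (nat_lit 408) (nat_lit 359)))) (XT.nd (nat_lit 156) (nat_lit 1824) (nat_lit 0) (XT.nd (nat_lit 78) (nat_lit 912) (nat_lit 0) (XT.lf (nat_lit 0) (nat_lit 4641178747) (nat_lit 988) (nat_lit 362124754) (nat_lit 76) (nat_lit 3564755525) (nat_lit 445) (nat_lit 5) (nat_lit 458) (nat_lit 5) (nat_lit 446) (nat_lit 5) (nat_lit 434) (nat_lit 408) (nat_lit 358)) (XT.lf (nat_lit 0) (nat_lit 7671537948) (nat_lit 912) (nat_lit 225371568) (nat_lit 988) (nat_lit 783486845) (nat_lit 433) (nat_lit 5) (nat_lit 445) (nat_lit 5) (nat_lit 446) (nat_lit 5) (nat_lit 435) (nat_lit 408) (nat_lit 357))) (XT.nd (nat_lit 78) (nat_lit 912) (nat_lit 0) (XT.lf (nat_lit 0) (nat_lit 2432289105) (nat_lit 912) (nat_lit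 1663670465) (nat_lit 76) (nat_lit 4699622312) (nat_lit 421) (nat_lit 5) (nat_lit 433) (nat_lit 5) (nat_lit 422) (nat_lit 5) (nat_lit 436) (nat_lit 408) (nat_lit 356)) (XT.lf (nat_lit 0) (nat_lit 5723224022) (nat_lit 988) (nat_lit 2293503517) (nat_lit 76) (nat_lit 897607302) (nat_lit 409) (nat_lit 5) (nat_lit 422) (nat_lit 5) (nat_lit 410) (nat_lit 5) (nat_lit 437) (nat_lit 408) (nat_lit 355)))))) (XT.nd (nat_lit 546) (nat_lit 5244) (nat_lit 0) (XT.nd (nat_lit 234) (nat_lit 3116) (nat_lit 0) (XT.nd (nat_lit 78) (nat_lit 1596) (nat_lit 0) (XT.lf (nat_lit 0) (nat_lit 87278698) (nat_lit 912) (nat_lit 2914010667) (nat_lit 76) (nat_lit 6035112241) (nat_lit 397) (nat_lit 5) (nat_lit 409) (nat_lit 5) (nat_lit 398) (nat_lit 5) (nat_lit 438) (nat_lit 408) (nat_lit 354)) (XT.nd (nat_lit 78) (nat_lit 760) (nat_lit 0) (XT.lf (nat_lit 0) (nat_lit 3422237024) (nat_lit 912) (nat_lit 3533391406) (nat_lit 76) (nat_lit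 2206050540) (nat_lit 386) (nat_lit 5) (nat_lit 398) (nat_lit 5) (nat_lit 387) (nat_lit 5) (nat_lit 439) (nat_lit 408) (nat_lit 353)) (XT.lf (nat_lit 0) (nat_lit 5153883648) (nat_lit 760) (nat_lit 1712729651) (nat_lit 836) (nat_lit 2423915814) (nat_lit 376) (nat_lit 5) (nat_lit 386) (nat_lit 5) (nat_lit 387) (nat_lit 5) (nat_lit 440) (nat_lit 408) (nat_lit 352)))) (XT.nd (nat_lit 156) (nat_lit 1520) (nat_lit 0) (XT.nd (nat_lit 78) (nat_lit 760) (nat_lit 0) (XT.lf (nat_lit 0) (nat_lit 994043918) (nat_lit 836) (nat_lit 4734629488) (nat_lit 76) (nat_lit 3694125095) (nat_lit 365) (nat_lit 5) (nat_lit 376) (nat_lit 5) (nat_lit 366) (nat_lit 5) (nat_lit 441) (nat_lit 408) (nat_lit 351)) (XT.lf (nat_lit 0) (nat_lit 4233857708) (nat_lit 760) (nat_lit 253408269) (nat_lit 836) (nat_lit 5071338154) (nat_lit 355) (nat_lit 5) (nat_lit 365) (nat_lit 5) (nat_lit 366) (nat_lit 5) (nat_lit 442) (nat_lit 408) (nat_lit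 350))) (XT.nd (nat_lit 78) (nat_lit 760) (nat_lit 0) (XT.lf (nat_lit 0) (nat_lit 3783077821) (nat_lit 760) (nat_lit 4333641141) (nat_lit 836) (nat_lit 1581137935) (nat_lit 345) (nat_lit 5) (nat_lit 355) (nat_lit 5) (nat_lit 356) (nat_lit 5) (nat_lit 443) (nat_lit 408) (nat_lit 349)) (XT.lf (nat_lit 0) (nat_lit 1996574400) (nat_lit 760) (nat_lit 6493822365) (nat_lit 76) (nat_lit 1350446219) (nat_lit 335) (nat_lit 5) (nat_lit 345) (nat_lit 5) (nat_lit 336) (nat_lit 5) (nat_lit 444) (nat_lit 408) (nat_lit 348))))) (XT.nd (nat_lit 312) (nat_lit 2508) (nat_lit 0) (XT.nd (nat_lit 156) (nat_lit 1368) (nat_lit 0) (XT.nd (nat_lit 78) (nat_lit 684) (nat_lit 0) (XT.lf (nat_lit 0) (nat_lit 2909299677) (nat_lit 684) (nat_lit 2780925852) (nat_lit 760) (nat_lit 4297083849) (nat_lit 326) (nat_lit 5) (nat_lit 335) (nat_lit 5) (nat_lit 336) (nat_lit 5) (nat_lit 445) (nat_lit 408) (nat_lit 347)) (XT.lf (nat_lit 0) (nat_lit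 2489041769) (nat_lit 684) (nat_lit 7029157848) (nat_lit 760) (nat_lit 619501361) (nat_lit 317) (nat_lit 5) (nat_lit 326) (nat_lit 5) (nat_lit 327) (nat_lit 5) (nat_lit 446) (nat_lit 408) (nat_lit 346))) (XT.nd (nat_lit 78) (nat_lit 608) (nat_lit 0) (XT.lf (nat_lit 0) (nat_lit 2067044644) (nat_lit 684) (nat_lit 1083887519) (nat_lit 760) (nat_lit 7140780590) (nat_lit 307) (nat_lit 5) (nat_lit 316) (nat_lit 5) (nat_lit 317) (nat_lit 5) (nat_lit 447) (nat_lit 408) (nat_lit 345)) (XT.lf (nat_lit 0) (nat_lit 1645152416) (nat_lit 608) (nat_lit 5421427101) (nat_lit 684) (nat_lit 3382874488) (nat_lit 299) (nat_lit 5) (nat_lit 307) (nat_lit 5) (nat_lit 308) (nat_lit 5) (nat_lit 448) (nat_lit 408) (nat_lit 344)))) (XT.nd (nat_lit 156) (nat_lit 1216) (nat_lit 0) (XT.nd (nat_lit 78) (nat_lit 608) (nat_lit 0) (XT.lf (nat_lit 0) (nat_lit 503417708) (nat_lit 684) (nat_lit 9366386504) (nat_lit 76) (nat_lit 741620328)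 (nat_lit 290) (nat_lit 5) (nat_lit 299) (nat_lit 5) (nat_lit 291) (nat_lit 5) (nat_lit 449) (nat_lit 408) (nat_lit 343)) (XT.lf (nat_lit 0) (nat_lit 822533356) (nat_lit 608) (nat_lit 3686472133) (nat_lit 684) (nat_lit 6267829416) (nat_lit 282) (nat_lit 5) (nat_lit 290) (nat_lit 5) (nat_lit 291) (nat_lit 5) (nat_lit 450) (nat_lit 408) (nat_lit 342))) (XT.nd (nat_lit 78) (nat_lit 608) (nat_lit 0) (XT.lf (nat_lit 0) (nat_lit 418918732) (nat_lit 608) (nat_lit 8247637681) (nat_lit 684) (nat_lit 2280016488) (nat_lit 274) (nat_lit 5) (nat_lit 282) (nat_lit 5) (nat_lit 283) (nat_lit 5) (nat_lit 451) (nat_lit 408) (nat_lit 341)) (XT.lf (nat_lit 0) (nat_lit 15059846) (nat_lit 532) (nat_lit 1829571190) (nat_lit 608) (nat_lit 9275712526) (nat_lit 266) (nat_lit 5) (nat_lit 273) (nat_lit 5) (nat_lit 274) (nat_lit 5) (nat_lit 452) (nat_lit 408) (nat_lit 340))))))))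
noncomputable def xc46 : XT := (XT.nd (nat_lit 2262) (nat_lit 1444) (nat_lit 0) (XT.nd (nat_lit 1092) (nat_lit 5396) (nat_lit 0) (XT.nd (nat_lit 546) (nat_lit 3192) (nat_lit 0) (XT.nd (nat_lit 234) (nat_lit 2052) (nat_lit 0) (XT.nd (nat_lit 78) (nat_lit 1216) (nat_lit 0) (XT.lf (nat_lit 0) (nat_lit 6114549017) (nat_lit 608) (nat_lit 394019174) (nat_lit 76) (nat_lit 4789408721) (nat_lit 266) (nat_lit 5) (nat_lit 274) (nat_lit 5) (nat_lit 267) (nat_lit 5) (nat_lit 453) (nat_lit 408) (nat_lit 339)) (XT.nd (nat_lit 78) (nat_lit 608) (nat_lit 0) (XT.lf (nat_lit 0) (nat_lit 10546240579) (nat_lit 684) (nat_lit 780153800) (nat_lit 76) (nat_lit 153872465) (nat_lit 258) (nat_lit 5) (nat_lit 267) (nat_lit 5) (nat_lit 259) (nat_lit 5) (nat_lit 454) (nat_lit 408) (nat_lit 338)) (XT.lf (nat_lit 0) (nat_lit 3464336202) (nat_lit 608) (nat_lit 1196268212) (nat_lit 76) (nat_lit 7005642395) (nat_lit 250) (nat_lit 5) (nat_lit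 258) (nat_lit 5) (nat_lit 251) (nat_lit 5) (nat_lit 455) (nat_lit 408) (nat_lit 337)))) (XT.nd (nat_lit 156) (nat_lit 988) (nat_lit 0) (XT.nd (nat_lit 78) (nat_lit 532) (nat_lit 0) (XT.lf (nat_lit 0) (nat_lit 8021307231) (nat_lit 608) (nat_lit 1597767794) (nat_lit 76) (nat_lit 2237821740) (nat_lit 243) (nat_lit 5) (nat_lit 251) (nat_lit 5) (nat_lit 244) (nat_lit 5) (nat_lit 456) (nat_lit 408) (nat_lit 336)) (XT.lf (nat_lit 0) (nat_lit 711432924) (nat_lit 532) (nat_lit 1999323424) (nat_lit 76) (nat_lit 9341257109) (nat_lit 236) (nat_lit 5) (nat_lit 243) (nat_lit 5) (nat_lit 237) (nat_lit 5) (nat_lit 457) (nat_lit 408) (nat_lit 335))) (XT.nd (nat_lit 78) (nat_lit 456) (nat_lit 0) (XT.lf (nat_lit 0) (nat_lit 5401143854) (nat_lit 608) (nat_lit 2419907052) (nat_lit 76) (nat_lit 4430258852) (nat_lit 229) (nat_lit 5) (nat_lit 237) (nat_lit 5) (nat_lit 230) (nat_lit 5) (nat_lit 458) (nat_lit 408) (nat_lit 334))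 (XT.lf (nat_lit 0) (nat_lit 9632231105) (nat_lit 456) (nat_lit 648451902) (nat_lit 532) (nat_lit 2174920118) (nat_lit 223) (nat_lit 5) (nat_lit 229) (nat_lit 5) (nat_lit 230) (nat_lit 5) (nat_lit 459) (nat_lit 408) (nat_lit 333))))) (XT.nd (nat_lit 234) (nat_lit 1748) (nat_lit 0) (XT.nd (nat_lit 78) (nat_lit 912) (nat_lit 0) (XT.lf (nat_lit 0) (nat_lit 2683563987) (nat_lit 532) (nat_lit 3252684796) (nat_lit 76) (nat_lit 6727882239) (nat_lit 216) (nat_lit 5) (nat_lit 223) (nat_lit 5) (nat_lit 217) (nat_lit 5) (nat_lit 460) (nat_lit 408) (nat_lit 332)) (XT.nd (nat_lit 78) (nat_lit 456) (nat_lit 0) (XT.lf (nat_lit 0) (nat_lit 7707872023) (nat_lit 532) (nat_lit 3675688360) (nat_lit 76) (nat_lit 1494075332) (nat_lit 210) (nat_lit 5) (nat_lit 217) (nat_lit 5) (nat_lit 211) (nat_lit 5) (nat_lit 461) (nat_lit 408) (nat_lit 331)) (XT.lf (nat_lit 0) (nat_lit 8992767989) (nat_lit 456) (nat_lit 3967374330) (nat_lit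 532) (nat_lit 135859392) (nat_lit 204) (nat_lit 5) (nat_lit 210) (nat_lit 5) (nat_lit 211) (nat_lit 5) (nat_lit 462) (nat_lit 408) (nat_lit 330)))) (XT.nd (nat_lit 156) (nat_lit 836) (nat_lit 0) (XT.nd (nat_lit 78) (nat_lit 456) (nat_lit 0) (XT.lf (nat_lit 0) (nat_lit 5046991535) (nat_lit 456) (nat_lit 4552928051) (nat_lit 76) (nat_lit 3719061266) (nat_lit 198) (nat_lit 5) (nat_lit 204) (nat_lit 5) (nat_lit 199) (nat_lit 5) (nat_lit 463) (nat_lit 408) (nat_lit 329)) (XT.lf (nat_lit 0) (nat_lit 8551824455) (nat_lit 456) (nat_lit 1899953306) (nat_lit 532) (nat_lit 3095488494) (nat_lit 192) (nat_lit 5) (nat_lit 198) (nat_lit 5) (nat_lit 199) (nat_lit 5) (nat_lit 464) (nat_lit 408) (nat_lit 328))) (XT.nd (nat_lit 78) (nat_lit 380) (nat_lit 0) (XT.lf (nat_lit 0) (nat_lit 2290808488) (nat_lit 456) (nat_lit 5457430540) (nat_lit 76) (nat_lit 6032194908) (nat_lit 186) (nat_lit 5) (nat_lit 192) (nat_lit 5) (nat_lit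 187) (nat_lit 5) (nat_lit 465) (nat_lit 408) (nat_lit 327)) (XT.lf (nat_lit 0) (nat_lit 7857305955) (nat_lit 456) (nat_lit 5919940336) (nat_lit 76) (nat_lit 241728491) (nat_lit 181) (nat_lit 5) (nat_lit 187) (nat_lit 5) (nat_lit 182) (nat_lit 5) (nat_lit 466) (nat_lit 408) (nat_lit 326)))))) (XT.nd (nat_lit 546) (nat_lit 2660) (nat_lit 0) (XT.nd (nat_lit 234) (nat_lit 1520) (nat_lit 0) (XT.nd (nat_lit 78) (nat_lit 836) (nat_lit 0) (XT.lf (nat_lit 0) (nat_lit 7862946561) (nat_lit 380) (nat_lit 5828061148) (nat_lit 456) (nat_lit 571660636) (nat_lit 176) (nat_lit 5) (nat_lit 181) (nat_lit 5) (nat_lit 182) (nat_lit 5) (nat_lit 467) (nat_lit 408) (nat_lit 325)) (XT.nd (nat_lit 78) (nat_lit 380) (nat_lit 0) (XT.lf (nat_lit 0) (nat_lit 5184600136) (nat_lit 456) (nat_lit 6894947703) (nat_lit 76) (nat_lit 2432120735) (nat_lit 170) (nat_lit 5) (nat_lit 176) (nat_lit 5) (nat_lit 171) (nat_lit 5) (nat_lit 468)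 (nat_lit 408) (nat_lit 324)) (XT.lf (nat_lit 0) (nat_lit 7367257773) (nat_lit 380) (nat_lit 3830281117) (nat_lit 456) (nat_lit 3568689838) (nat_lit 165) (nat_lit 5) (nat_lit 170) (nat_lit 5) (nat_lit 171) (nat_lit 5) (nat_lit 469) (nat_lit 408) (nat_lit 323)))) (XT.nd (nat_lit 156) (nat_lit 760) (nat_lit 0) (XT.nd (nat_lit 78) (nat_lit 304) (nat_lit 0) (XT.lf (nat_lit 0) (nat_lit 2417481855) (nat_lit 456) (nat_lit 7915448002) (nat_lit 76) (nat_lit 4693469147) (nat_lit 159) (nat_lit 5) (nat_lit 165) (nat_lit 5) (nat_lit 160) (nat_lit 5) (nat_lit 470) (nat_lit 408) (nat_lit 322)) (XT.lf (nat_lit 0) (nat_lit 6844593279) (nat_lit 304) (nat_lit 1773297791) (nat_lit 380) (nat_lit 6674349381) (nat_lit 155) (nat_lit 5) (nat_lit 159) (nat_lit 5) (nat_lit 160) (nat_lit 5) (nat_lit 471) (nat_lit 408) (nat_lit 321))) (XT.nd (nat_lit 78) (nat_lit 380) (nat_lit 0) (XT.lf (nat_lit 0) (nat_lit 6571831016) (nat_lit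 380) (nat_lit 8537785479) (nat_lit 456) (nat_lit 454335132) (nat_lit 150) (nat_lit 5) (nat_lit 155) (nat_lit 5) (nat_lit 156) (nat_lit 5) (nat_lit 472) (nat_lit 408) (nat_lit 320)) (XT.lf (nat_lit 0) (nat_lit 5950103270) (nat_lit 380) (nat_lit 9555940225) (nat_lit 76) (nat_lit 335480478) (nat_lit 145) (nat_lit 5) (nat_lit 150) (nat_lit 5) (nat_lit 146) (nat_lit 5) (nat_lit 473) (nat_lit 408) (nat_lit 319))))) (XT.nd (nat_lit 312) (nat_lit 1216) (nat_lit 0) (XT.nd (nat_lit 156) (nat_lit 684) (nat_lit 0) (XT.nd (nat_lit 78) (nat_lit 380) (nat_lit 0) (XT.lf (nat_lit 0) (nat_lit 5978135077) (nat_lit 380) (nat_lit 6683575833) (nat_lit 456) (nat_lit 3463228863) (nat_lit 140) (nat_lit 5) (nat_lit 145) (nat_lit 5) (nat_lit 146) (nat_lit 5) (nat_lit 474) (nat_lit 408) (nat_lit 318)) (XT.lf (nat_lit 0) (nat_lit 3199160110) (nat_lit 380) (nat_lit 10741994285) (nat_lit 76) (nat_lit 2473638765) (nat_lit 135) (nat_lit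 5) (nat_lit 140) (nat_lit 5) (nat_lit 136) (nat_lit 5) (nat_lit 475) (nat_lit 408) (nat_lit 317))) (XT.nd (nat_lit 78) (nat_lit 380) (nat_lit 0) (XT.lf (nat_lit 0) (nat_lit 5338233687) (nat_lit 304) (nat_lit 4789869548) (nat_lit 380) (nat_lit 6582506872) (nat_lit 131) (nat_lit 5) (nat_lit 135) (nat_lit 5) (nat_lit 136) (nat_lit 5) (nat_lit 476) (nat_lit 408) (nat_lit 316)) (XT.lf (nat_lit 0) (nat_lit 348335802) (nat_lit 380) (nat_lit 12003348834) (nat_lit 76) (nat_lit 4661545045) (nat_lit 126) (nat_lit 5) (nat_lit 131) (nat_lit 5) (nat_lit 127) (nat_lit 5) (nat_lit 477) (nat_lit 408) (nat_lit 315)))) (XT.nd (nat_lit 156) (nat_lit 608) (nat_lit 0) (XT.nd (nat_lit 78) (nat_lit 304) (nat_lit 0) (XT.lf (nat_lit 0) (nat_lit 4643699856) (nat_lit 304) (nat_lit 2860066813) (nat_lit 380) (nat_lit 9818169542) (nat_lit 122) (nat_lit 5) (nat_lit 126) (nat_lit 5) (nat_lit 127) (nat_lit 5) (nat_lit 478) (nat_lit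 408) (nat_lit 314)) (XT.lf (nat_lit 0) (nat_lit 4270615031) (nat_lit 304) (nat_lit 10724074845) (nat_lit 380) (nat_lit 2642797906) (nat_lit 118) (nat_lit 5) (nat_lit 122) (nat_lit 5) (nat_lit 123) (nat_lit 5) (nat_lit 479) (nat_lit 408) (nat_lit 313))) (XT.nd (nat_lit 78) (nat_lit 228) (nat_lit 0) (XT.lf (nat_lit 0) (nat_lit 3885453394) (nat_lit 304) (nat_lit 897669409) (nat_lit 380) (nat_lit 13176815853) (nat_lit 113) (nat_lit 5) (nat_lit 117) (nat_lit 5) (nat_lit 118) (nat_lit 5) (nat_lit 480) (nat_lit 408) (nat_lit 312)) (XT.lf (nat_lit 0) (nat_lit 3460009214) (nat_lit 228) (nat_lit 9076831912) (nat_lit 304) (nat_lit 5752054449) (nat_lit 110) (nat_lit 5) (nat_lit 113) (nat_lit 5) (nat_lit 114) (nat_lit 5) (nat_lit 481) (nat_lit 408) (nat_lit 311))))))) (XT.nd (nat_lit 57564) (nat_lit 0) (nat_lit 27816) (XT.nd (nat_lit 56940) (nat_lit 0) (nat_lit 44004) (XT.nd (nat_lit 234) (nat_lit 532) (nat_lit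 0) (XT.nd (nat_lit 78) (nat_lit 532) (nat_lit 0) (XT.lf (nat_lit 0) (nat_lit 1967107295) (nat_lit 380) (nat_lit 15579111982) (nat_lit 76) (nat_lit 1079325839) (nat_lit 105) (nat_lit 5) (nat_lit 110) (nat_lit 5) (nat_lit 106) (nat_lit 5) (nat_lit 482) (nat_lit 408) (nat_lit 310)) (XT.nd (nat_lit 78) (nat_lit 304) (nat_lit 0) (XT.lf (nat_lit 0) (nat_lit 2570168330) (nat_lit 228) (nat_lit 7416544001) (nat_lit 304) (nat_lit 8981881434) (nat_lit 102) (nat_lit 5) (nat_lit 105) (nat_lit 5) (nat_lit 106) (nat_lit 5) (nat_lit 483) (nat_lit 408) (nat_lit 309)) (XT.lf (nat_lit 0) (nat_lit 2110732471) (nat_lit 304) (nat_lit 16244205810) (nat_lit 380) (nat_lit 964835295) (nat_lit 98) (nat_lit 5) (nat_lit 102) (nat_lit 5) (nat_lit 103) (nat_lit 5) (nat_lit 484) (nat_lit 408) (nat_lit 308)))) (XT.nd (nat_lit 56550) (nat_lit 0) (nat_lit 46968) (XT.nd (nat_lit 78) (nat_lit 228) (nat_lit 0) (XT.lf (nat_lit 0) (nat_lit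 1589978513) (nat_lit 228) (nat_lit 5747715869) (nat_lit 304) (nat_lit 12340035407) (nat_lit 94) (nat_lit 5) (nat_lit 97) (nat_lit 5) (nat_lit 98) (nat_lit 5) (nat_lit 485) (nat_lit 408) (nat_lit 307)) (XT.lf (nat_lit 0) (nat_lit 1065150305) (nat_lit 228) (nat_lit 14937556451) (nat_lit 304) (nat_lit 4041060412) (nat_lit 91) (nat_lit 5) (nat_lit 94) (nat_lit 5) (nat_lit 95) (nat_lit 5) (nat_lit 486) (nat_lit 408) (nat_lit 306))) (XT.nd (nat_lit 78) (nat_lit 988) (nat_lit 0) (XT.lf (nat_lit 0) (nat_lit 1341867738) (nat_lit 0) (nat_lit 1341867738) (nat_lit 836) (nat_lit 708592278) (nat_lit 722) (nat_lit 5) (nat_lit 722) (nat_lit 3) (nat_lit 733) (nat_lit 3) (nat_lit 409) (nat_lit 409) (nat_lit 382)) (XT.lf (nat_lit 76) (nat_lit 983116348) (nat_lit 0) (nat_lit 709534394) (nat_lit 988) (nat_lit 5131582534) (nat_lit 710) (nat_lit 5) (nat_lit 709) (nat_lit 3) (nat_lit 722) (nat_lit 5) (nat_lit 410) (nat_lit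 409) (nat_lit 381))))) (XT.nd (nat_lit 312) (nat_lit 1064) (nat_lit 0) (XT.nd (nat_lit 156) (nat_lit 988) (nat_lit 0) (XT.nd (nat_lit 78) (nat_lit 988) (nat_lit 0) (XT.lf (nat_lit 0) (nat_lit 4791969394) (nat_lit 912) (nat_lit 672354763) (nat_lit 988) (nat_lit 1402183264) (nat_lit 710) (nat_lit 5) (nat_lit 722) (nat_lit 5) (nat_lit 723) (nat_lit 5) (nat_lit 411) (nat_lit 409) (nat_lit 380)) (XT.lf (nat_lit 0) (nat_lit 976768157) (nat_lit 988) (nat_lit 2274060314) (nat_lit 1064) (nat_lit 3660754037) (nat_lit 697) (nat_lit 5) (nat_lit 710) (nat_lit 5) (nat_lit 711) (nat_lit 5) (nat_lit 412) (nat_lit 409) (nat_lit 379))) (XT.nd (nat_lit 78) (nat_lit 988) (nat_lit 0) (XT.lf (nat_lit 76) (nat_lit 3120943920) (nat_lit 0) (nat_lit 880047834) (nat_lit 1064) (nat_lit 2958557424) (nat_lit 698) (nat_lit 5) (nat_lit 697) (nat_lit 5) (nat_lit 711) (nat_lit 5) (nat_lit 413) (nat_lit 409) (nat_lit 378)) (XT.lf (nat_lit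 0) (nat_lit 29244121) (nat_lit 1064) (nat_lit 5364644759) (nat_lit 1140) (nat_lit 1616583483) (nat_lit 684) (nat_lit 5) (nat_lit 698) (nat_lit 5) (nat_lit 699) (nat_lit 5) (nat_lit 414) (nat_lit 409) (nat_lit 377)))) (XT.nd (nat_lit 156) (nat_lit 1064) (nat_lit 0) (XT.nd (nat_lit 78) (nat_lit 0) (nat_lit 0) (XT.lf (nat_lit 76) (nat_lit 195653746) (nat_lit 0) (nat_lit 2794346408) (nat_lit 1140) (nat_lit 4074066131) (nat_lit 685) (nat_lit 5) (nat_lit 684) (nat_lit 5) (nat_lit 699) (nat_lit 5) (nat_lit 415) (nat_lit 409) (nat_lit 376)) (XT.lf (nat_lit 76) (nat_lit 5931260693) (nat_lit 0) (nat_lit 37401610) (nat_lit 1140) (nat_lit 1152028401) (nat_lit 685) (nat_lit 5) (nat_lit 684) (nat_lit 5) (nat_lit 699) (nat_lit 5) (nat_lit 416) (nat_lit 409) (nat_lit 375))) (XT.nd (nat_lit 78) (nat_lit 0) (nat_lit 0) (XT.lf (nat_lit 0) (nat_lit 1777358206) (nat_lit 1140) (nat_lit 2554673140) (nat_lit 1216) (nat_lit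 2847864391) (nat_lit 670) (nat_lit 5) (nat_lit 685) (nat_lit 5) (nat_lit 686) (nat_lit 5) (nat_lit 417) (nat_lit 409) (nat_lit 374)) (XT.lf (nat_lit 76) (nat_lit 3360249614) (nat_lit 0) (nat_lit 1347050168) (nat_lit 1216) (nat_lit 2534862358) (nat_lit 671) (nat_lit 5) (nat_lit 670) (nat_lit 5) (nat_lit 686) (nat_lit 5) (nat_lit 418) (nat_lit 409) (nat_lit 373)))))) (XT.nd (nat_lit 546) (nat_lit 11172) (nat_lit 0) (XT.nd (nat_lit 234) (nat_lit 3876) (nat_lit 0) (XT.nd (nat_lit 78) (nat_lit 0) (nat_lit 0) (XT.lf (nat_lit 0) (nat_lit 356281710) (nat_lit 1216) (nat_lit 5178361289) (nat_lit 1292) (nat_lit 1772744335) (nat_lit 655) (nat_lit 5) (nat_lit 671) (nat_lit 5) (nat_lit 672) (nat_lit 5) (nat_lit 419) (nat_lit 409) (nat_lit 372)) (XT.nd (nat_lit 78) (nat_lit 0) (nat_lit 76) (XT.lf (nat_lit 76) (nat_lit 918236449) (nat_lit 0) (nat_lit 2325778471) (nat_lit 1292) (nat_lit 4131337093) (nat_lit 656) (nat_lit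 5) (nat_lit 655) (nat_lit 5) (nat_lit 672) (nat_lit 5) (nat_lit 420) (nat_lit 409) (nat_lit 371)) (XT.lf (nat_lit 0) (nat_lit 6165304584) (nat_lit 1216) (nat_lit 250691095) (nat_lit 1292) (nat_lit 1030425066) (nat_lit 656) (nat_lit 5) (nat_lit 672) (nat_lit 5) (nat_lit 673) (nat_lit 5) (nat_lit 421) (nat_lit 409) (nat_lit 370)))) (XT.nd (nat_lit 156) (nat_lit 2660) (nat_lit 0) (XT.nd (nat_lit 78) (nat_lit 0) (nat_lit 76) (XT.lf (nat_lit 0) (nat_lit 1596092243) (nat_lit 1292) (nat_lit 1390024665) (nat_lit 1368) (nat_lit 4534029577) (nat_lit 639) (nat_lit 5) (nat_lit 656) (nat_lit 5) (nat_lit 657) (nat_lit 5) (nat_lit 422) (nat_lit 409) (nat_lit 369)) (XT.lf (nat_lit 0) (nat_lit 4490801779) (nat_lit 1292) (nat_lit 2499155652) (nat_lit 76) (nat_lit 606988729) (nat_lit 640) (nat_lit 5) (nat_lit 657) (nat_lit 5) (nat_lit 641) (nat_lit 5) (nat_lit 423) (nat_lit 409) (nat_lit 368))) (XT.nd (nat_lit 78) (nat_lit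 1444) (nat_lit 0) (XT.lf (nat_lit 0) (nat_lit 4089963304) (nat_lit 1292) (nat_lit 3350415685) (nat_lit 1368) (nat_lit 236313540) (nat_lit 623) (nat_lit 5) (nat_lit 640) (nat_lit 5) (nat_lit 641) (nat_lit 5) (nat_lit 424) (nat_lit 409) (nat_lit 367)) (XT.lf (nat_lit 0) (nat_lit 2637830801) (nat_lit 1444) (nat_lit 4654185568) (nat_lit 76) (nat_lit 467387111) (nat_lit 604) (nat_lit 5) (nat_lit 623) (nat_lit 5) (nat_lit 605) (nat_lit 5) (nat_lit 425) (nat_lit 409) (nat_lit 366))))) (XT.nd (nat_lit 312) (nat_lit 6536) (nat_lit 0) (XT.nd (nat_lit 156) (nat_lit 1596) (nat_lit 0) (XT.nd (nat_lit 78) (nat_lit 1596) (nat_lit 0) (XT.lf (nat_lit 0) (nat_lit 2138981401) (nat_lit 1444) (nat_lit 3432575256) (nat_lit 1520) (nat_lit 2273479493) (nat_lit 585) (nat_lit 5) (nat_lit 604) (nat_lit 5) (nat_lit 605) (nat_lit 5) (nat_lit 426) (nat_lit 409) (nat_lit 365)) (XT.lf (nat_lit 0) (nat_lit 612179995) (nat_lit 1596)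 (nat_lit 6727338003) (nat_lit 76) (nat_lit 594421331) (nat_lit 564) (nat_lit 5) (nat_lit 585) (nat_lit 5) (nat_lit 565) (nat_lit 5) (nat_lit 427) (nat_lit 409) (nat_lit 364))) (XT.nd (nat_lit 78) (nat_lit 0) (nat_lit 0) (XT.lf (nat_lit 0) (nat_lit 276776607) (nat_lit 1596) (nat_lit 3259925472) (nat_lit 1672) (nat_lit 4488846122) (nat_lit 543) (nat_lit 5) (nat_lit 564) (nat_lit 5) (nat_lit 565) (nat_lit 5) (nat_lit 428) (nat_lit 409) (nat_lit 363)) (XT.lf (nat_lit 0) (nat_lit 6522281483) (nat_lit 1672) (nat_lit 611298559) (nat_lit 76) (nat_lit 986861543) (nat_lit 543) (nat_lit 5) (nat_lit 565) (nat_lit 5) (nat_lit 544) (nat_lit 5) (nat_lit 429) (nat_lit 409) (nat_lit 362)))) (XT.nd (nat_lit 156) (nat_lit 3040) (nat_lit 0) (XT.nd (nat_lit 78) (nat_lit 1748) (nat_lit 0) (XT.lf (nat_lit 0) (nat_lit 1350252204) (nat_lit 1748) (nat_lit 1487367737) (nat_lit 76) (nat_lit 5380603386) (nat_lit 520) (nat_lit 5)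 (nat_lit 543) (nat_lit 5) (nat_lit 521) (nat_lit 5) (nat_lit 430) (nat_lit 409) (nat_lit 361)) (XT.lf (nat_lit 0) (nat_lit 4344170962) (nat_lit 1824) (nat_lit 2346425522) (nat_lit 76) (nat_lit 1628557901) (nat_lit 497) (nat_lit 5) (nat_lit 521) (nat_lit 5) (nat_lit 498) (nat_lit 5) (nat_lit 431) (nat_lit 409) (nat_lit 360))) (XT.nd (nat_lit 78) (nat_lit 1216) (nat_lit 0) (XT.lf (nat_lit 0) (nat_lit 5236385595) (nat_lit 1824) (nat_lit 2181359729) (nat_lit 1900) (nat_lit 1005573694) (nat_lit 473) (nat_lit 5) (nat_lit 497) (nat_lit 5) (nat_lit 498) (nat_lit 5) (nat_lit 432) (nat_lit 409) (nat_lit 359)) (XT.lf (nat_lit 0) (nat_lit 2015752253) (nat_lit 1216) (nat_lit 4020030887) (nat_lit 76) (nat_lit 2494765995) (nat_lit 457) (nat_lit 5) (nat_lit 473) (nat_lit 5) (nat_lit 458) (nat_lit 5) (nat_lit 433) (nat_lit 409) (nat_lit 358))))))))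
noncomputable def xc47 : XT := (XT.nd (nat_lit 2262) (nat_lit 8816) (nat_lit 0) (XT.nd (nat_lit 1092) (nat_lit 8056) (nat_lit 0) (XT.nd (nat_lit 546) (nat_lit 5320) (nat_lit 0) (XT.nd (nat_lit 234) (nat_lit 2660) (nat_lit 0) (XT.nd (nat_lit 78) (nat_lit 1824) (nat_lit 0) (XT.lf (nat_lit 0) (nat_lit 3802833361) (nat_lit 912) (nat_lit 1301960910) (nat_lit 988) (nat_lit 3536256408) (nat_lit 445) (nat_lit 5) (nat_lit 457) (nat_lit 5) (nat_lit 458) (nat_lit 5) (nat_lit 434) (nat_lit 409) (nat_lit 357)) (XT.nd (nat_lit 78) (nat_lit 912) (nat_lit 0) (XT.lf (nat_lit 0) (nat_lit 3110665852) (nat_lit 912) (nat_lit 5177939620) (nat_lit 988) (nat_lit 466221996) (nat_lit 433) (nat_lit 5) (nat_lit 445) (nat_lit 5) (nat_lit 446) (nat_lit 5) (nat_lit 435) (nat_lit 409) (nat_lit 356)) (XT.lf (nat_lit 0) (nat_lit 2430696868) (nat_lit 836) (nat_lit 219747706) (nat_lit 912) (nat_lit 6221427198) (nat_lit 421) (nat_lit 5)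 (nat_lit 432) (nat_lit 5) (nat_lit 433) (nat_lit 5) (nat_lit 436) (nat_lit 409) (nat_lit 355)))) (XT.nd (nat_lit 156) (nat_lit 836) (nat_lit 0) (XT.nd (nat_lit 78) (nat_lit 912) (nat_lit 0) (XT.lf (nat_lit 0) (nat_lit 1753433929) (nat_lit 912) (nat_lit 4116425990) (nat_lit 988) (nat_lit 3122196186) (nat_lit 409) (nat_lit 5) (nat_lit 421) (nat_lit 5) (nat_lit 422) (nat_lit 5) (nat_lit 437) (nat_lit 409) (nat_lit 354)) (XT.lf (nat_lit 0) (nat_lit 63561621) (nat_lit 912) (nat_lit 8011114881) (nat_lit 76) (nat_lit 1041272911) (nat_lit 397) (nat_lit 5) (nat_lit 409) (nat_lit 5) (nat_lit 398) (nat_lit 5) (nat_lit 438) (nat_lit 409) (nat_lit 353))) (XT.nd (nat_lit 78) (nat_lit 0) (nat_lit 0) (XT.lf (nat_lit 0) (nat_lit 444417040) (nat_lit 836) (nat_lit 2874523373) (nat_lit 912) (nat_lit 5923878862) (nat_lit 386) (nat_lit 5) (nat_lit 397) (nat_lit 5) (nat_lit 398) (nat_lit 5) (nat_lit 439) (nat_lit 409) (nat_lit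 352)) (XT.lf (nat_lit 0) (nat_lit 6680562408) (nat_lit 912) (nat_lit 193503477) (nat_lit 76) (nat_lit 2499259500) (nat_lit 386) (nat_lit 5) (nat_lit 398) (nat_lit 5) (nat_lit 387) (nat_lit 5) (nat_lit 440) (nat_lit 409) (nat_lit 351))))) (XT.nd (nat_lit 234) (nat_lit 2964) (nat_lit 0) (XT.nd (nat_lit 78) (nat_lit 1520) (nat_lit 0) (XT.lf (nat_lit 0) (nat_lit 642388885) (nat_lit 836) (nat_lit 813183605) (nat_lit 76) (nat_lit 8051784709) (nat_lit 375) (nat_lit 5) (nat_lit 386) (nat_lit 5) (nat_lit 376) (nat_lit 5) (nat_lit 441) (nat_lit 409) (nat_lit 350)) (XT.nd (nat_lit 78) (nat_lit 760) (nat_lit 0) (XT.lf (nat_lit 0) (nat_lit 4063780917) (nat_lit 836) (nat_lit 1442342484) (nat_lit 76) (nat_lit 4138476843) (nat_lit 365) (nat_lit 5) (nat_lit 376) (nat_lit 5) (nat_lit 366) (nat_lit 5) (nat_lit 442) (nat_lit 409) (nat_lit 349)) (XT.lf (nat_lit 0) (nat_lit 7596131375) (nat_lit 836) (nat_lit 2047269923)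 (nat_lit 76) (nat_lit 142394553) (nat_lit 355) (nat_lit 5) (nat_lit 366) (nat_lit 5) (nat_lit 356) (nat_lit 5) (nat_lit 443) (nat_lit 409) (nat_lit 348)))) (XT.nd (nat_lit 156) (nat_lit 1444) (nat_lit 0) (XT.nd (nat_lit 78) (nat_lit 684) (nat_lit 0) (XT.lf (nat_lit 0) (nat_lit 1323352476) (nat_lit 836) (nat_lit 2662838533) (nat_lit 76) (nat_lit 5944124228) (nat_lit 344) (nat_lit 5) (nat_lit 355) (nat_lit 5) (nat_lit 345) (nat_lit 5) (nat_lit 444) (nat_lit 409) (nat_lit 347)) (XT.lf (nat_lit 0) (nat_lit 4926740242) (nat_lit 760) (nat_lit 3271099118) (nat_lit 76) (nat_lit 1880748268) (nat_lit 335) (nat_lit 5) (nat_lit 345) (nat_lit 5) (nat_lit 336) (nat_lit 5) (nat_lit 445) (nat_lit 409) (nat_lit 346))) (XT.nd (nat_lit 78) (nat_lit 760) (nat_lit 0) (XT.lf (nat_lit 0) (nat_lit 6358671093) (nat_lit 684) (nat_lit 2310758689) (nat_lit 760) (nat_lit 1561255846) (nat_lit 326) (nat_lit 5) (nat_lit 335) (nat_lit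 5) (nat_lit 336) (nat_lit 5) (nat_lit 446) (nat_lit 409) (nat_lit 345)) (XT.lf (nat_lit 0) (nat_lit 2140574662) (nat_lit 760) (nat_lit 4477749782) (nat_lit 76) (nat_lit 3768115010) (nat_lit 316) (nat_lit 5) (nat_lit 326) (nat_lit 5) (nat_lit 317) (nat_lit 5) (nat_lit 447) (nat_lit 409) (nat_lit 344)))))) (XT.nd (nat_lit 546) (nat_lit 3648) (nat_lit 0) (XT.nd (nat_lit 234) (nat_lit 2432) (nat_lit 0) (XT.nd (nat_lit 78) (nat_lit 1292) (nat_lit 0) (XT.lf (nat_lit 0) (nat_lit 5470182569) (nat_lit 684) (nat_lit 486574686) (nat_lit 760) (nat_lit 4589413402) (nat_lit 307) (nat_lit 5) (nat_lit 316) (nat_lit 5) (nat_lit 317) (nat_lit 5) (nat_lit 448) (nat_lit 409) (nat_lit 343)) (XT.nd (nat_lit 78) (nat_lit 684) (nat_lit 0) (XT.lf (nat_lit 0) (nat_lit 5030817469) (nat_lit 608) (nat_lit 4905718448) (nat_lit 684) (nat_lit 773176960) (nat_lit 299) (nat_lit 5) (nat_lit 307) (nat_lit 5) (nat_lit 308) (nat_lit 5)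 (nat_lit 449) (nat_lit 409) (nat_lit 342)) (XT.lf (nat_lit 0) (nat_lit 3142284959) (nat_lit 684) (nat_lit 6282236043) (nat_lit 76) (nat_lit 1452708570) (nat_lit 290) (nat_lit 5) (nat_lit 299) (nat_lit 5) (nat_lit 291) (nat_lit 5) (nat_lit 450) (nat_lit 409) (nat_lit 341)))) (XT.nd (nat_lit 156) (nat_lit 1140) (nat_lit 0) (XT.nd (nat_lit 78) (nat_lit 684) (nat_lit 0) (XT.lf (nat_lit 0) (nat_lit 4157755980) (nat_lit 608) (nat_lit 3055358326) (nat_lit 684) (nat_lit 3835588280) (nat_lit 282) (nat_lit 5) (nat_lit 290) (nat_lit 5) (nat_lit 291) (nat_lit 5) (nat_lit 451) (nat_lit 409) (nat_lit 340)) (XT.lf (nat_lit 0) (nat_lit 219267473) (nat_lit 684) (nat_lit 7491762516) (nat_lit 76) (nat_lit 3513449682) (nat_lit 273) (nat_lit 5) (nat_lit 282) (nat_lit 5) (nat_lit 274) (nat_lit 5) (nat_lit 452) (nat_lit 409) (nat_lit 339))) (XT.nd (nat_lit 78) (nat_lit 608) (nat_lit 0) (XT.lf (nat_lit 0) (nat_lit 3297855114)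 (nat_lit 532) (nat_lit 1086420708) (nat_lit 608) (nat_lit 7019935935) (nat_lit 266) (nat_lit 5) (nat_lit 273) (nat_lit 5) (nat_lit 274) (nat_lit 5) (nat_lit 453) (nat_lit 409) (nat_lit 338)) (XT.lf (nat_lit 0) (nat_lit 2861695980) (nat_lit 608) (nat_lit 5871847442) (nat_lit 684) (nat_lit 2854607274) (nat_lit 258) (nat_lit 5) (nat_lit 266) (nat_lit 5) (nat_lit 267) (nat_lit 5) (nat_lit 454) (nat_lit 409) (nat_lit 337))))) (XT.nd (nat_lit 312) (nat_lit 1444) (nat_lit 0) (XT.nd (nat_lit 156) (nat_lit 1064) (nat_lit 0) (XT.nd (nat_lit 78) (nat_lit 532) (nat_lit 0) (XT.lf (nat_lit 0) (nat_lit 1454808549) (nat_lit 608) (nat_lit 9338137957) (nat_lit 76) (nat_lit 983716760) (nat_lit 250) (nat_lit 5) (nat_lit 258) (nat_lit 5) (nat_lit 251) (nat_lit 5) (nat_lit 455) (nat_lit 409) (nat_lit 336)) (XT.lf (nat_lit 0) (nat_lit 1992616733) (nat_lit 532) (nat_lit 3927965353) (nat_lit 608) (nat_lit 6048555572) (nat_lit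 243) (nat_lit 5) (nat_lit 250) (nat_lit 5) (nat_lit 251) (nat_lit 5) (nat_lit 456) (nat_lit 409) (nat_lit 335))) (XT.nd (nat_lit 78) (nat_lit 608) (nat_lit 0) (XT.lf (nat_lit 0) (nat_lit 1561859085) (nat_lit 456) (nat_lit 9007451624) (nat_lit 532) (nat_lit 1597096899) (nat_lit 237) (nat_lit 5) (nat_lit 243) (nat_lit 5) (nat_lit 244) (nat_lit 5) (nat_lit 457) (nat_lit 409) (nat_lit 334)) (XT.lf (nat_lit 0) (nat_lit 1120922669) (nat_lit 532) (nat_lit 1884753963) (nat_lit 608) (nat_lit 9362392788) (nat_lit 229) (nat_lit 5) (nat_lit 236) (nat_lit 5) (nat_lit 237) (nat_lit 5) (nat_lit 458) (nat_lit 409) (nat_lit 333)))) (XT.nd (nat_lit 156) (nat_lit 532) (nat_lit 0) (XT.nd (nat_lit 78) (nat_lit 456) (nat_lit 0) (XT.lf (nat_lit 0) (nat_lit 669074234) (nat_lit 456) (nat_lit 7124107665) (nat_lit 532) (nat_lit 4781022004) (nat_lit 223) (nat_lit 5) (nat_lit 229) (nat_lit 5) (nat_lit 230) (nat_lit 5) (nat_lit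 459) (nat_lit 409) (nat_lit 332)) (XT.lf (nat_lit 0) (nat_lit 238732851) (nat_lit 456) (nat_lit 12534534446) (nat_lit 532) (nat_lit 12276884) (nat_lit 217) (nat_lit 5) (nat_lit 223) (nat_lit 5) (nat_lit 224) (nat_lit 5) (nat_lit 460) (nat_lit 409) (nat_lit 331))) (XT.nd (nat_lit 78) (nat_lit 456) (nat_lit 0) (XT.lf (nat_lit 0) (nat_lit 4921611582) (nat_lit 532) (nat_lit 233144621) (nat_lit 76) (nat_lit 7846106283) (nat_lit 216) (nat_lit 5) (nat_lit 223) (nat_lit 5) (nat_lit 217) (nat_lit 5) (nat_lit 461) (nat_lit 409) (nat_lit 330)) (XT.lf (nat_lit 0) (nat_lit 10059898562) (nat_lit 532) (nat_lit 683257860) (nat_lit 76) (nat_lit 2478352118) (nat_lit 210) (nat_lit 5) (nat_lit 217) (nat_lit 5) (nat_lit 211) (nat_lit 5) (nat_lit 462) (nat_lit 409) (nat_lit 329))))))) (XT.nd (nat_lit 1170) (nat_lit 2812) (nat_lit 0) (XT.nd (nat_lit 546) (nat_lit 2964) (nat_lit 0) (XT.nd (nat_lit 234) (nat_lit 1672) (nat_lit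 0) (XT.nd (nat_lit 78) (nat_lit 836) (nat_lit 0) (XT.lf (nat_lit 0) (nat_lit 1954543738) (nat_lit 532) (nat_lit 1145210046) (nat_lit 76) (nat_lit 10347254784) (nat_lit 203) (nat_lit 5) (nat_lit 210) (nat_lit 5) (nat_lit 204) (nat_lit 5) (nat_lit 463) (nat_lit 409) (nat_lit 328)) (XT.nd (nat_lit 78) (nat_lit 456) (nat_lit 0) (XT.lf (nat_lit 0) (nat_lit 7256123945) (nat_lit 456) (nat_lit 1624567312) (nat_lit 76) (nat_lit 4796667197) (nat_lit 198) (nat_lit 5) (nat_lit 204) (nat_lit 5) (nat_lit 199) (nat_lit 5) (nat_lit 464) (nat_lit 409) (nat_lit 327)) (XT.lf (nat_lit 0) (nat_lit 11823602620) (nat_lit 456) (nat_lit 959094298) (nat_lit 532) (nat_lit 1130603726) (nat_lit 192) (nat_lit 5) (nat_lit 198) (nat_lit 5) (nat_lit 199) (nat_lit 5) (nat_lit 465) (nat_lit 409) (nat_lit 326)))) (XT.nd (nat_lit 156) (nat_lit 836) (nat_lit 0) (XT.nd (nat_lit 78) (nat_lit 380) (nat_lit 0) (XT.lf (nat_lit 0) (nat_lit 4357082481)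 (nat_lit 456) (nat_lit 2594912743) (nat_lit 76) (nat_lit 7201866200) (nat_lit 186) (nat_lit 5) (nat_lit 192) (nat_lit 5) (nat_lit 187) (nat_lit 5) (nat_lit 466) (nat_lit 409) (nat_lit 325)) (XT.lf (nat_lit 0) (nat_lit 10058335825) (nat_lit 456) (nat_lit 3087799921) (nat_lit 76) (nat_lit 1254068536) (nat_lit 181) (nat_lit 5) (nat_lit 187) (nat_lit 5) (nat_lit 182) (nat_lit 5) (nat_lit 467) (nat_lit 409) (nat_lit 324))) (XT.nd (nat_lit 78) (nat_lit 380) (nat_lit 0) (XT.lf (nat_lit 0) (nat_lit 1359000372) (nat_lit 456) (nat_lit 3601166630) (nat_lit 76) (nat_lit 9691624169) (nat_lit 175) (nat_lit 5) (nat_lit 181) (nat_lit 5) (nat_lit 176) (nat_lit 5) (nat_lit 468) (nat_lit 409) (nat_lit 323)) (XT.lf (nat_lit 0) (nat_lit 7249520230) (nat_lit 456) (nat_lit 4132168035) (nat_lit 76) (nat_lit 3527111739) (nat_lit 170) (nat_lit 5) (nat_lit 176) (nat_lit 5) (nat_lit 171) (nat_lit 5) (nat_lit 469) (nat_lit 409)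 (nat_lit 322))))) (XT.nd (nat_lit 312) (nat_lit 1368) (nat_lit 0) (XT.nd (nat_lit 156) (nat_lit 760) (nat_lit 0) (XT.nd (nat_lit 78) (nat_lit 456) (nat_lit 0) (XT.lf (nat_lit 0) (nat_lit 10509724917) (nat_lit 380) (nat_lit 2896477146) (nat_lit 456) (nat_lit 1765528705) (nat_lit 165) (nat_lit 5) (nat_lit 170) (nat_lit 5) (nat_lit 171) (nat_lit 5) (nat_lit 470) (nat_lit 409) (nat_lit 321)) (XT.lf (nat_lit 0) (nat_lit 4345902868) (nat_lit 456) (nat_lit 5223988349) (nat_lit 76) (nat_lit 5870153193) (nat_lit 159) (nat_lit 5) (nat_lit 165) (nat_lit 5) (nat_lit 160) (nat_lit 5) (nat_lit 471) (nat_lit 409) (nat_lit 320))) (XT.nd (nat_lit 78) (nat_lit 456) (nat_lit 0) (XT.lf (nat_lit 0) (nat_lit 9931335873) (nat_lit 304) (nat_lit 765641237) (nat_lit 380) (nat_lit 5017591768) (nat_lit 155) (nat_lit 5) (nat_lit 159) (nat_lit 5) (nat_lit 160) (nat_lit 5) (nat_lit 472) (nat_lit 409) (nat_lit 319)) (XT.lf (nat_lit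 0) (nat_lit 1342875762) (nat_lit 456) (nat_lit 6371106864) (nat_lit 76) (nat_lit 8280827785) (nat_lit 149) (nat_lit 5) (nat_lit 155) (nat_lit 5) (nat_lit 150) (nat_lit 5) (nat_lit 473) (nat_lit 409) (nat_lit 318)))) (XT.nd (nat_lit 156) (nat_lit 684) (nat_lit 0) (XT.nd (nat_lit 78) (nat_lit 380) (nat_lit 0) (XT.lf (nat_lit 0) (nat_lit 7906139752) (nat_lit 380) (nat_lit 6973241295) (nat_lit 76) (nat_lit 1401812288) (nat_lit 145) (nat_lit 5) (nat_lit 150) (nat_lit 5) (nat_lit 146) (nat_lit 5) (nat_lit 474) (nat_lit 409) (nat_lit 317)) (XT.lf (nat_lit 0) (nat_lit 8980304031) (nat_lit 380) (nat_lit 5805346425) (nat_lit 456) (nat_lit 1788130804) (nat_lit 140) (nat_lit 5) (nat_lit 145) (nat_lit 5) (nat_lit 146) (nat_lit 5) (nat_lit 475) (nat_lit 409) (nat_lit 316))) (XT.nd (nat_lit 78) (nat_lit 304) (nat_lit 0) (XT.lf (nat_lit 0) (nat_lit 5024836209) (nat_lit 380) (nat_lit 8236765491) (nat_lit 76) (nat_lit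 3611017489) (nat_lit 135) (nat_lit 5) (nat_lit 140) (nat_lit 5) (nat_lit 136) (nat_lit 5) (nat_lit 476) (nat_lit 409) (nat_lit 315)) (XT.lf (nat_lit 0) (nat_lit 8279996677) (nat_lit 304) (nat_lit 3849331398) (nat_lit 380) (nat_lit 5048629652) (nat_lit 131) (nat_lit 5) (nat_lit 135) (nat_lit 5) (nat_lit 136) (nat_lit 5) (nat_lit 477) (nat_lit 409) (nat_lit 314)))))) (XT.nd (nat_lit 546) (nat_lit 608) (nat_lit 0) (XT.nd (nat_lit 234) (nat_lit 1216) (nat_lit 0) (XT.nd (nat_lit 78) (nat_lit 608) (nat_lit 0) (XT.lf (nat_lit 0) (nat_lit 2042602638) (nat_lit 380) (nat_lit 9578068566) (nat_lit 76) (nat_lit 5869257093) (nat_lit 126) (nat_lit 5) (nat_lit 131) (nat_lit 5) (nat_lit 127) (nat_lit 5) (nat_lit 478) (nat_lit 409) (nat_lit 313)) (XT.nd (nat_lit 78) (nat_lit 304) (nat_lit 0) (XT.lf (nat_lit 0) (nat_lit 7523202091) (nat_lit 304) (nat_lit 1858242273) (nat_lit 380) (nat_lit 8427077340) (nat_lit 122) (nat_lit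 5) (nat_lit 126) (nat_lit 5) (nat_lit 127) (nat_lit 5) (nat_lit 479) (nat_lit 409) (nat_lit 312)) (XT.lf (nat_lit 0) (nat_lit 7120057377) (nat_lit 304) (nat_lit 9953429493) (nat_lit 380) (nat_lit 1060525740) (nat_lit 118) (nat_lit 5) (nat_lit 122) (nat_lit 5) (nat_lit 123) (nat_lit 5) (nat_lit 480) (nat_lit 409) (nat_lit 311)))) (XT.nd (nat_lit 156) (nat_lit 608) (nat_lit 0) (XT.nd (nat_lit 78) (nat_lit 228) (nat_lit 0) (XT.lf (nat_lit 0) (nat_lit 6537210245) (nat_lit 380) (nat_lit 11766946052) (nat_lit 76) (nat_lit 162348961) (nat_lit 113) (nat_lit 5) (nat_lit 118) (nat_lit 5) (nat_lit 114) (nat_lit 5) (nat_lit 481) (nat_lit 409) (nat_lit 310)) (XT.lf (nat_lit 0) (nat_lit 6243390203) (nat_lit 228) (nat_lit 8256465296) (nat_lit 304) (nat_lit 4305949649) (nat_lit 110) (nat_lit 5) (nat_lit 113) (nat_lit 5) (nat_lit 114) (nat_lit 5) (nat_lit 482) (nat_lit 409) (nat_lit 309))) (XT.nd (nat_lit 78) (nat_lit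 228) (nat_lit 0) (XT.lf (nat_lit 0) (nat_lit 3601351155) (nat_lit 380) (nat_lit 13365162649) (nat_lit 76) (nat_lit 2186274863) (nat_lit 105) (nat_lit 5) (nat_lit 110) (nat_lit 5) (nat_lit 106) (nat_lit 5) (nat_lit 483) (nat_lit 409) (nat_lit 308)) (XT.lf (nat_lit 0) (nat_lit 5285094797) (nat_lit 228) (nat_lit 6547695527) (nat_lit 304) (nat_lit 7673914061) (nat_lit 102) (nat_lit 5) (nat_lit 105) (nat_lit 5) (nat_lit 106) (nat_lit 5) (nat_lit 484) (nat_lit 409) (nat_lit 307))))) (XT.nd (nat_lit 56784) (nat_lit 0) (nat_lit 44764) (XT.nd (nat_lit 56628) (nat_lit 0) (nat_lit 45752) (XT.nd (nat_lit 78) (nat_lit 228) (nat_lit 0) (XT.lf (nat_lit 0) (nat_lit 554685600) (nat_lit 380) (nat_lit 15079937928) (nat_lit 76) (nat_lit 4234146845) (nat_lit 97) (nat_lit 5) (nat_lit 102) (nat_lit 5) (nat_lit 98) (nat_lit 5) (nat_lit 485) (nat_lit 409) (nat_lit 306)) (XT.lf (nat_lit 0) (nat_lit 4233786622) (nat_lit 228)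 (nat_lit 4831605269) (nat_lit 304) (nat_lit 11172502140) (nat_lit 94) (nat_lit 5) (nat_lit 97) (nat_lit 5) (nat_lit 98) (nat_lit 5) (nat_lit 486) (nat_lit 409) (nat_lit 305))) (XT.nd (nat_lit 78) (nat_lit 988) (nat_lit 0) (XT.lf (nat_lit 0) (nat_lit 2355711384) (nat_lit 988) (nat_lit 538414091) (nat_lit 988) (nat_lit 538414091) (nat_lit 709) (nat_lit 3) (nat_lit 722) (nat_lit 3) (nat_lit 722) (nat_lit 5) (nat_lit 410) (nat_lit 410) (nat_lit 380)) (XT.lf (nat_lit 0) (nat_lit 816569140) (nat_lit 988) (nat_lit 2814870018) (nat_lit 1064) (nat_lit 3277298686) (nat_lit 696) (nat_lit 5) (nat_lit 709) (nat_lit 3) (nat_lit 710) (nat_lit 5) (nat_lit 411) (nat_lit 410) (nat_lit 379)))) (XT.nd (nat_lit 156) (nat_lit 988) (nat_lit 0) (XT.nd (nat_lit 78) (nat_lit 0) (nat_lit 76) (XT.lf (nat_lit 76) (nat_lit 2437800481) (nat_lit 0) (nat_lit 1316779264) (nat_lit 1064) (nat_lit 3200687940) (nat_lit 697) (nat_lit 5)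 (nat_lit 696) (nat_lit 5) (nat_lit 710) (nat_lit 5) (nat_lit 412) (nat_lit 410) (nat_lit 378)) (XT.lf (nat_lit 76) (nat_lit 825339578) (nat_lit 0) (nat_lit 5874795706) (nat_lit 1064) (nat_lit 304674748) (nat_lit 698) (nat_lit 5) (nat_lit 697) (nat_lit 5) (nat_lit 711) (nat_lit 5) (nat_lit 413) (nat_lit 410) (nat_lit 377))) (XT.nd (nat_lit 78) (nat_lit 0) (nat_lit 0) (XT.lf (nat_lit 0) (nat_lit 2572768875) (nat_lit 1064) (nat_lit 754012297) (nat_lit 1140) (nat_lit 3730120669) (nat_lit 683) (nat_lit 5) (nat_lit 697) (nat_lit 5) (nat_lit 698) (nat_lit 5) (nat_lit 414) (nat_lit 410) (nat_lit 376)) (XT.lf (nat_lit 76) (nat_lit 4834750767) (nat_lit 0) (nat_lit 622316953) (nat_lit 1140) (nat_lit 1654959329) (nat_lit 684) (nat_lit 5) (nat_lit 683) (nat_lit 5) (nat_lit 698) (nat_lit 5) (nat_lit 415) (nat_lit 410) (nat_lit 375))))))))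
noncomputable def xc48 : XT := (XT.nd (nat_lit 2262) (nat_lit 14364) (nat_lit 0) (XT.nd (nat_lit 1092) (nat_lit 15124) (nat_lit 0) (XT.nd (nat_lit 546) (nat_lit 7220) (nat_lit 0) (XT.nd (nat_lit 234) (nat_lit 2356) (nat_lit 0) (XT.nd (nat_lit 78) (nat_lit 0) (nat_lit 0) (XT.lf (nat_lit 0) (nat_lit 1179694007) (nat_lit 1140) (nat_lit 3776714483) (nat_lit 1216) (nat_lit 2213495809) (nat_lit 669) (nat_lit 5) (nat_lit 684) (nat_lit 5) (nat_lit 685) (nat_lit 5) (nat_lit 416) (nat_lit 410) (nat_lit 374)) (XT.nd (nat_lit 78) (nat_lit 0) (nat_lit 76) (XT.lf (nat_lit 76) (nat_lit 1983857774) (nat_lit 0) (nat_lit 2023963833) (nat_lit 1216) (nat_lit 3222863108) (nat_lit 670) (nat_lit 5) (nat_lit 669) (nat_lit 5) (nat_lit 685) (nat_lit 5) (nat_lit 417) (nat_lit 410) (nat_lit 373)) (XT.lf (nat_lit 76) (nat_lit 613797893) (nat_lit 0) (nat_lit 6244236208) (nat_lit 1216) (nat_lit 436513520) (nat_lit 671) (nat_lit 5)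 (nat_lit 670) (nat_lit 5) (nat_lit 686) (nat_lit 5) (nat_lit 418) (nat_lit 410) (nat_lit 372)))) (XT.nd (nat_lit 156) (nat_lit 1216) (nat_lit 0) (XT.nd (nat_lit 78) (nat_lit 0) (nat_lit 76) (XT.lf (nat_lit 0) (nat_lit 2353693620) (nat_lit 1216) (nat_lit 731164233) (nat_lit 1292) (nat_lit 4276112647) (nat_lit 654) (nat_lit 5) (nat_lit 670) (nat_lit 5) (nat_lit 671) (nat_lit 5) (nat_lit 419) (nat_lit 410) (nat_lit 371)) (XT.lf (nat_lit 0) (nat_lit 5164034065) (nat_lit 1216) (nat_lit 2029403352) (nat_lit 1292) (nat_lit 237047391) (nat_lit 655) (nat_lit 5) (nat_lit 671) (nat_lit 5) (nat_lit 672) (nat_lit 5) (nat_lit 420) (nat_lit 410) (nat_lit 370))) (XT.nd (nat_lit 78) (nat_lit 0) (nat_lit 0) (XT.lf (nat_lit 0) (nat_lit 510139139) (nat_lit 1292) (nat_lit 3309738391) (nat_lit 1368) (nat_lit 3682921392) (nat_lit 638) (nat_lit 5) (nat_lit 655) (nat_lit 5) (nat_lit 656) (nat_lit 5) (nat_lit 421) (nat_lit 410)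 (nat_lit 369)) (XT.lf (nat_lit 76) (nat_lit 3013865620) (nat_lit 0) (nat_lit 268864732) (nat_lit 1368) (nat_lit 4295385896) (nat_lit 639) (nat_lit 5) (nat_lit 638) (nat_lit 5) (nat_lit 656) (nat_lit 5) (nat_lit 422) (nat_lit 410) (nat_lit 368))))) (XT.nd (nat_lit 234) (nat_lit 5928) (nat_lit 0) (XT.nd (nat_lit 78) (nat_lit 1368) (nat_lit 0) (XT.lf (nat_lit 76) (nat_lit 1855136155) (nat_lit 0) (nat_lit 4252279973) (nat_lit 1368) (nat_lit 1548901861) (nat_lit 640) (nat_lit 5) (nat_lit 639) (nat_lit 5) (nat_lit 657) (nat_lit 5) (nat_lit 423) (nat_lit 410) (nat_lit 367)) (XT.nd (nat_lit 78) (nat_lit 0) (nat_lit 76) (XT.lf (nat_lit 76) (nat_lit 728184005) (nat_lit 0) (nat_lit 486533425) (nat_lit 1444) (nat_lit 6522954664) (nat_lit 622) (nat_lit 5) (nat_lit 621) (nat_lit 5) (nat_lit 640) (nat_lit 5) (nat_lit 424) (nat_lit 410) (nat_lit 366)) (XT.lf (nat_lit 0) (nat_lit 4018017186) (nat_lit 1368) (nat_lit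 385645043) (nat_lit 76) (nat_lit 3418046507) (nat_lit 622) (nat_lit 5) (nat_lit 640) (nat_lit 5) (nat_lit 623) (nat_lit 5) (nat_lit 425) (nat_lit 410) (nat_lit 365)))) (XT.nd (nat_lit 156) (nat_lit 3116) (nat_lit 0) (XT.nd (nat_lit 78) (nat_lit 1520) (nat_lit 0) (XT.lf (nat_lit 0) (nat_lit 6455056820) (nat_lit 1368) (nat_lit 414067114) (nat_lit 1444) (nat_lit 1039871284) (nat_lit 604) (nat_lit 5) (nat_lit 622) (nat_lit 5) (nat_lit 623) (nat_lit 5) (nat_lit 426) (nat_lit 410) (nat_lit 364)) (XT.lf (nat_lit 0) (nat_lit 1765951204) (nat_lit 1520) (nat_lit 2519380296) (nat_lit 76) (nat_lit 3713681229) (nat_lit 584) (nat_lit 5) (nat_lit 604) (nat_lit 5) (nat_lit 585) (nat_lit 5) (nat_lit 427) (nat_lit 410) (nat_lit 363))) (XT.nd (nat_lit 78) (nat_lit 1596) (nat_lit 0) (XT.lf (nat_lit 0) (nat_lit 4535329682) (nat_lit 1520) (nat_lit 70716475) (nat_lit 1596) (nat_lit 3486265306) (nat_lit 564) (nat_lit 5) (nat_lit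 584) (nat_lit 5) (nat_lit 585) (nat_lit 5) (nat_lit 428) (nat_lit 410) (nat_lit 362)) (XT.lf (nat_lit 0) (nat_lit 3602998401) (nat_lit 1596) (nat_lit 3920610581) (nat_lit 1672) (nat_lit 664957479) (nat_lit 543) (nat_lit 5) (nat_lit 564) (nat_lit 5) (nat_lit 565) (nat_lit 5) (nat_lit 429) (nat_lit 410) (nat_lit 361)))))) (XT.nd (nat_lit 546) (nat_lit 6688) (nat_lit 0) (XT.nd (nat_lit 234) (nat_lit 3116) (nat_lit 0) (XT.nd (nat_lit 78) (nat_lit 3572) (nat_lit 0) (XT.lf (nat_lit 0) (nat_lit 2182450290) (nat_lit 1748) (nat_lit 5596482639) (nat_lit 76) (nat_lit 509070622) (nat_lit 520) (nat_lit 5) (nat_lit 543) (nat_lit 5) (nat_lit 521) (nat_lit 5) (nat_lit 430) (nat_lit 410) (nat_lit 360)) (XT.nd (nat_lit 78) (nat_lit 1824) (nat_lit 0) (XT.lf (nat_lit 0) (nat_lit 1787518025) (nat_lit 1748) (nat_lit 3314979554) (nat_lit 1824) (nat_lit 3287915644) (nat_lit 497) (nat_lit 5) (nat_lit 520) (nat_lit 5) (nat_lit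 521) (nat_lit 5) (nat_lit 431) (nat_lit 410) (nat_lit 359)) (XT.lf (nat_lit 0) (nat_lit 912532632) (nat_lit 1824) (nat_lit 7178894834) (nat_lit 1900) (nat_lit 404844430) (nat_lit 473) (nat_lit 5) (nat_lit 497) (nat_lit 5) (nat_lit 498) (nat_lit 5) (nat_lit 432) (nat_lit 410) (nat_lit 358)))) (XT.nd (nat_lit 156) (nat_lit 1900) (nat_lit 0) (XT.nd (nat_lit 78) (nat_lit 0) (nat_lit 0) (XT.lf (nat_lit 0) (nat_lit 35508239) (nat_lit 1140) (nat_lit 2493057483) (nat_lit 1216) (nat_lit 6076460122) (nat_lit 457) (nat_lit 5) (nat_lit 472) (nat_lit 5) (nat_lit 473) (nat_lit 5) (nat_lit 433) (nat_lit 410) (nat_lit 357)) (XT.lf (nat_lit 0) (nat_lit 5543081637) (nat_lit 1216) (nat_lit 812642783) (nat_lit 76) (nat_lit 2361294552) (nat_lit 457) (nat_lit 5) (nat_lit 473) (nat_lit 5) (nat_lit 458) (nat_lit 5) (nat_lit 434) (nat_lit 410) (nat_lit 356))) (XT.nd (nat_lit 78) (nat_lit 988) (nat_lit 0) (XT.lf (nat_lit 0)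 (nat_lit 7190914724) (nat_lit 912) (nat_lit 1454160735) (nat_lit 988) (nat_lit 187357682) (nat_lit 445) (nat_lit 5) (nat_lit 457) (nat_lit 5) (nat_lit 458) (nat_lit 5) (nat_lit 435) (nat_lit 410) (nat_lit 355)) (XT.lf (nat_lit 0) (nat_lit 2857225764) (nat_lit 988) (nat_lit 2477647774) (nat_lit 76) (nat_lit 3615937191) (nat_lit 432) (nat_lit 5) (nat_lit 445) (nat_lit 5) (nat_lit 433) (nat_lit 5) (nat_lit 436) (nat_lit 410) (nat_lit 354))))) (XT.nd (nat_lit 312) (nat_lit 3192) (nat_lit 0) (XT.nd (nat_lit 156) (nat_lit 1672) (nat_lit 0) (XT.nd (nat_lit 78) (nat_lit 988) (nat_lit 0) (XT.lf (nat_lit 0) (nat_lit 5782269195) (nat_lit 836) (nat_lit 203088904) (nat_lit 912) (nat_lit 3087463578) (nat_lit 421) (nat_lit 5) (nat_lit 432) (nat_lit 5) (nat_lit 433) (nat_lit 5) (nat_lit 437) (nat_lit 410) (nat_lit 353)) (XT.lf (nat_lit 0) (nat_lit 29568712) (nat_lit 988) (nat_lit 4102779220) (nat_lit 76) (nat_lit 5065728850)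 (nat_lit 408) (nat_lit 5) (nat_lit 421) (nat_lit 5) (nat_lit 409) (nat_lit 5) (nat_lit 438) (nat_lit 410) (nat_lit 352))) (XT.nd (nat_lit 78) (nat_lit 836) (nat_lit 0) (XT.lf (nat_lit 0) (nat_lit 3197660610) (nat_lit 912) (nat_lit 4911623649) (nat_lit 76) (nat_lit 1217409005) (nat_lit 397) (nat_lit 5) (nat_lit 409) (nat_lit 5) (nat_lit 398) (nat_lit 5) (nat_lit 439) (nat_lit 410) (nat_lit 351)) (XT.lf (nat_lit 0) (nat_lit 3743389543) (nat_lit 836) (nat_lit 2737414881) (nat_lit 912) (nat_lit 2977965370) (nat_lit 386) (nat_lit 5) (nat_lit 397) (nat_lit 5) (nat_lit 398) (nat_lit 5) (nat_lit 440) (nat_lit 410) (nat_lit 350)))) (XT.nd (nat_lit 156) (nat_lit 1596) (nat_lit 0) (XT.nd (nat_lit 78) (nat_lit 760) (nat_lit 0) (XT.lf (nat_lit 0) (nat_lit 277314013) (nat_lit 836) (nat_lit 6507083127) (nat_lit 76) (nat_lit 2810114576) (nat_lit 375) (nat_lit 5) (nat_lit 386) (nat_lit 5) (nat_lit 376) (nat_lit 5) (nat_lit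 441) (nat_lit 410) (nat_lit 349)) (XT.lf (nat_lit 0) (nat_lit 2428650895) (nat_lit 760) (nat_lit 1176743362) (nat_lit 836) (nat_lit 6128227529) (nat_lit 365) (nat_lit 5) (nat_lit 375) (nat_lit 5) (nat_lit 376) (nat_lit 5) (nat_lit 442) (nat_lit 410) (nat_lit 348))) (XT.nd (nat_lit 78) (nat_lit 836) (nat_lit 0) (XT.lf (nat_lit 0) (nat_lit 1774846202) (nat_lit 760) (nat_lit 5287783706) (nat_lit 836) (nat_lit 2813690550) (nat_lit 355) (nat_lit 5) (nat_lit 365) (nat_lit 5) (nat_lit 366) (nat_lit 5) (nat_lit 443) (nat_lit 410) (nat_lit 347)) (XT.lf (nat_lit 0) (nat_lit 605469402) (nat_lit 836) (nat_lit 8882390281) (nat_lit 76) (nat_lit 535102747) (nat_lit 344) (nat_lit 5) (nat_lit 355) (nat_lit 5) (nat_lit 345) (nat_lit 5) (nat_lit 444) (nat_lit 410) (nat_lit 346))))))) (XT.nd (nat_lit 1092) (nat_lit 6156) (nat_lit 0) (XT.nd (nat_lit 546) (nat_lit 4104) (nat_lit 0) (XT.nd (nat_lit 234) (nat_lit 2660) (nat_lit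 0) (XT.nd (nat_lit 78) (nat_lit 760) (nat_lit 0) (XT.lf (nat_lit 0) (nat_lit 486209492) (nat_lit 684) (nat_lit 3642339436) (nat_lit 760) (nat_lit 6044292767) (nat_lit 335) (nat_lit 5) (nat_lit 344) (nat_lit 5) (nat_lit 345) (nat_lit 5) (nat_lit 445) (nat_lit 410) (nat_lit 345)) (XT.nd (nat_lit 78) (nat_lit 760) (nat_lit 0) (XT.lf (nat_lit 0) (nat_lit 7780045900) (nat_lit 760) (nat_lit 147874830) (nat_lit 76) (nat_lit 2398843506) (nat_lit 335) (nat_lit 5) (nat_lit 345) (nat_lit 5) (nat_lit 336) (nat_lit 5) (nat_lit 446) (nat_lit 410) (nat_lit 344)) (XT.lf (nat_lit 0) (nat_lit 1077874783) (nat_lit 760) (nat_lit 773157236) (nat_lit 76) (nat_lit 8633417902) (nat_lit 325) (nat_lit 5) (nat_lit 335) (nat_lit 5) (nat_lit 326) (nat_lit 5) (nat_lit 447) (nat_lit 410) (nat_lit 343)))) (XT.nd (nat_lit 156) (nat_lit 1292) (nat_lit 0) (XT.nd (nat_lit 78) (nat_lit 684) (nat_lit 0) (XT.lf (nat_lit 0) (nat_lit 4816058230)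 (nat_lit 760) (nat_lit 1410813237) (nat_lit 76) (nat_lit 4418870277) (nat_lit 316) (nat_lit 5) (nat_lit 326) (nat_lit 5) (nat_lit 317) (nat_lit 5) (nat_lit 448) (nat_lit 410) (nat_lit 342)) (XT.lf (nat_lit 0) (nat_lit 8691718143) (nat_lit 760) (nat_lit 2028359259) (nat_lit 76) (nat_lit 91289553) (nat_lit 307) (nat_lit 5) (nat_lit 317) (nat_lit 5) (nat_lit 308) (nat_lit 5) (nat_lit 449) (nat_lit 410) (nat_lit 341))) (XT.nd (nat_lit 78) (nat_lit 608) (nat_lit 0) (XT.lf (nat_lit 0) (nat_lit 1736106512) (nat_lit 684) (nat_lit 2665721984) (nat_lit 76) (nat_lit 6578777902) (nat_lit 298) (nat_lit 5) (nat_lit 307) (nat_lit 5) (nat_lit 299) (nat_lit 5) (nat_lit 450) (nat_lit 410) (nat_lit 340)) (XT.lf (nat_lit 0) (nat_lit 5709703399) (nat_lit 684) (nat_lit 3298733988) (nat_lit 76) (nat_lit 2145587246) (nat_lit 290) (nat_lit 5) (nat_lit 299) (nat_lit 5) (nat_lit 291) (nat_lit 5) (nat_lit 451) (nat_lit 410) (nat_lit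 339))))) (XT.nd (nat_lit 234) (nat_lit 2280) (nat_lit 0) (XT.nd (nat_lit 78) (nat_lit 1216) (nat_lit 0) (XT.lf (nat_lit 0) (nat_lit 7402996365) (nat_lit 608) (nat_lit 2447888175) (nat_lit 684) (nat_lit 1480794473) (nat_lit 282) (nat_lit 5) (nat_lit 290) (nat_lit 5) (nat_lit 291) (nat_lit 5) (nat_lit 452) (nat_lit 410) (nat_lit 338)) (XT.nd (nat_lit 78) (nat_lit 532) (nat_lit 0) (XT.lf (nat_lit 0) (nat_lit 2617102491) (nat_lit 684) (nat_lit 4571568840) (nat_lit 76) (nat_lit 4324663227) (nat_lit 273) (nat_lit 5) (nat_lit 282) (nat_lit 5) (nat_lit 274) (nat_lit 5) (nat_lit 453) (nat_lit 410) (nat_lit 337)) (XT.lf (nat_lit 0) (nat_lit 6490714298) (nat_lit 532) (nat_lit 366786335) (nat_lit 608) (nat_lit 4841950766) (nat_lit 266) (nat_lit 5) (nat_lit 273) (nat_lit 5) (nat_lit 274) (nat_lit 5) (nat_lit 454) (nat_lit 410) (nat_lit 336)))) (XT.nd (nat_lit 156) (nat_lit 1064) (nat_lit 0) (XT.nd (nat_lit 78) (nat_lit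 608) (nat_lit 0) (XT.lf (nat_lit 0) (nat_lit 6032596466) (nat_lit 608) (nat_lit 5261216936) (nat_lit 684) (nat_lit 595965299) (nat_lit 258) (nat_lit 5) (nat_lit 266) (nat_lit 5) (nat_lit 267) (nat_lit 5) (nat_lit 455) (nat_lit 410) (nat_lit 335)) (XT.lf (nat_lit 0) (nat_lit 3769693980) (nat_lit 608) (nat_lit 6512806886) (nat_lit 76) (nat_lit 1801988699) (nat_lit 250) (nat_lit 5) (nat_lit 258) (nat_lit 5) (nat_lit 251) (nat_lit 5) (nat_lit 456) (nat_lit 410) (nat_lit 334))) (XT.nd (nat_lit 78) (nat_lit 532) (nat_lit 0) (XT.lf (nat_lit 0) (nat_lit 5107487799) (nat_lit 532) (nat_lit 3215635956) (nat_lit 608) (nat_lit 3960542195) (nat_lit 243) (nat_lit 5) (nat_lit 250) (nat_lit 5) (nat_lit 251) (nat_lit 5) (nat_lit 457) (nat_lit 410) (nat_lit 333)) (XT.lf (nat_lit 0) (nat_lit 576198722) (nat_lit 532) (nat_lit 7838679539) (nat_lit 76) (nat_lit 4072697433) (nat_lit 236) (nat_lit 5) (nat_lit 243) (nat_lit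 5) (nat_lit 237) (nat_lit 5) (nat_lit 458) (nat_lit 410) (nat_lit 332)))))) (XT.nd (nat_lit 546) (nat_lit 2812) (nat_lit 0) (XT.nd (nat_lit 234) (nat_lit 1824) (nat_lit 0) (XT.nd (nat_lit 78) (nat_lit 988) (nat_lit 0) (XT.lf (nat_lit 0) (nat_lit 4178014248) (nat_lit 532) (nat_lit 1073029937) (nat_lit 608) (nat_lit 7444919612) (nat_lit 229) (nat_lit 5) (nat_lit 236) (nat_lit 5) (nat_lit 237) (nat_lit 5) (nat_lit 459) (nat_lit 410) (nat_lit 331)) (XT.nd (nat_lit 78) (nat_lit 532) (nat_lit 0) (XT.lf (nat_lit 0) (nat_lit 3700460032) (nat_lit 456) (nat_lit 6443966455) (nat_lit 532) (nat_lit 2764612063) (nat_lit 223) (nat_lit 5) (nat_lit 229) (nat_lit 5) (nat_lit 230) (nat_lit 5) (nat_lit 460) (nat_lit 410) (nat_lit 330)) (XT.lf (nat_lit 0) (nat_lit 2082220337) (nat_lit 532) (nat_lit 9896802775) (nat_lit 76) (nat_lit 1148154603) (nat_lit 216) (nat_lit 5) (nat_lit 223) (nat_lit 5) (nat_lit 217) (nat_lit 5)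 (nat_lit 461) (nat_lit 410) (nat_lit 329)))) (XT.nd (nat_lit 156) (nat_lit 912) (nat_lit 0) (XT.nd (nat_lit 78) (nat_lit 456) (nat_lit 0) (XT.lf (nat_lit 0) (nat_lit 2733901892) (nat_lit 456) (nat_lit 4386797356) (nat_lit 532) (nat_lit 6229121063) (nat_lit 210) (nat_lit 5) (nat_lit 216) (nat_lit 5) (nat_lit 217) (nat_lit 5) (nat_lit 462) (nat_lit 410) (nat_lit 328)) (XT.lf (nat_lit 0) (nat_lit 2250351582) (nat_lit 456) (nat_lit 10125003046) (nat_lit 532) (nat_lit 1202487868) (nat_lit 204) (nat_lit 5) (nat_lit 210) (nat_lit 5) (nat_lit 211) (nat_lit 5) (nat_lit 463) (nat_lit 410) (nat_lit 327))) (XT.nd (nat_lit 78) (nat_lit 456) (nat_lit 0) (XT.lf (nat_lit 0) (nat_lit 1746737791) (nat_lit 380) (nat_lit 2250300572) (nat_lit 456) (nat_lit 9813667014) (nat_lit 198) (nat_lit 5) (nat_lit 203) (nat_lit 5) (nat_lit 204) (nat_lit 5) (nat_lit 464) (nat_lit 410) (nat_lit 326)) (XT.lf (nat_lit 0) (nat_lit 1231859723)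 (nat_lit 456) (nat_lit 8189546955) (nat_lit 532) (nat_lit 4627285324) (nat_lit 192) (nat_lit 5) (nat_lit 198) (nat_lit 5) (nat_lit 199) (nat_lit 5) (nat_lit 465) (nat_lit 410) (nat_lit 325))))) (XT.nd (nat_lit 312) (nat_lit 1520) (nat_lit 0) (XT.nd (nat_lit 156) (nat_lit 456) (nat_lit 0) (XT.nd (nat_lit 78) (nat_lit 380) (nat_lit 0) (XT.lf (nat_lit 0) (nat_lit 732386611) (nat_lit 380) (nat_lit 37307244) (nat_lit 456) (nat_lit 13522744640) (nat_lit 186) (nat_lit 5) (nat_lit 191) (nat_lit 5) (nat_lit 192) (nat_lit 5) (nat_lit 466) (nat_lit 410) (nat_lit 324)) (XT.lf (nat_lit 0) (nat_lit 182150932) (nat_lit 380) (nat_lit 6189708880) (nat_lit 456) (nat_lit 8168903606) (nat_lit 181) (nat_lit 5) (nat_lit 186) (nat_lit 5) (nat_lit 187) (nat_lit 5) (nat_lit 467) (nat_lit 410) (nat_lit 323))) (XT.nd (nat_lit 78) (nat_lit 456) (nat_lit 0) (XT.lf (nat_lit 0) (nat_lit 12212579717) (nat_lit 456) (nat_lit 343466604)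 (nat_lit 76) (nat_lit 2239082608) (nat_lit 181) (nat_lit 5) (nat_lit 187) (nat_lit 5) (nat_lit 182) (nat_lit 5) (nat_lit 468) (nat_lit 410) (nat_lit 322)) (XT.lf (nat_lit 0) (nat_lit 3228489841) (nat_lit 456) (nat_lit 893927937) (nat_lit 76) (nat_lit 10932322657) (nat_lit 175) (nat_lit 5) (nat_lit 181) (nat_lit 5) (nat_lit 176) (nat_lit 5) (nat_lit 469) (nat_lit 410) (nat_lit 321)))) (XT.nd (nat_lit 156) (nat_lit 760) (nat_lit 0) (XT.nd (nat_lit 78) (nat_lit 380) (nat_lit 0) (XT.lf (nat_lit 0) (nat_lit 9266781583) (nat_lit 456) (nat_lit 1456973779) (nat_lit 76) (nat_lit 4596283921) (nat_lit 170) (nat_lit 5) (nat_lit 176) (nat_lit 5) (nat_lit 171) (nat_lit 5) (nat_lit 470) (nat_lit 410) (nat_lit 320)) (XT.lf (nat_lit 0) (nat_lit 13578762928) (nat_lit 380) (nat_lit 1994859438) (nat_lit 456) (nat_lit 17927284) (nat_lit 165) (nat_lit 5) (nat_lit 170) (nat_lit 5) (nat_lit 171) (nat_lit 5) (nat_lit 471) (nat_lit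 410) (nat_lit 319))) (XT.nd (nat_lit 78) (nat_lit 304) (nat_lit 0) (XT.lf (nat_lit 0) (nat_lit 6225640456) (nat_lit 456) (nat_lit 2619917073) (nat_lit 76) (nat_lit 7022674012) (nat_lit 159) (nat_lit 5) (nat_lit 165) (nat_lit 5) (nat_lit 160) (nat_lit 5) (nat_lit 472) (nat_lit 410) (nat_lit 318)) (XT.lf (nat_lit 0) (nat_lit 12735300963) (nat_lit 380) (nat_lit 3207754782) (nat_lit 76) (nat_lit 208575706) (nat_lit 155) (nat_lit 5) (nat_lit 160) (nat_lit 5) (nat_lit 156) (nat_lit 5) (nat_lit 473) (nat_lit 410) (nat_lit 317))))))))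
noncomputable def xc49 : XT := (XT.nd (nat_lit 58812) (nat_lit 0) (nat_lit 12160) (XT.nd (nat_lit 57642) (nat_lit 0) (nat_lit 38456) (XT.nd (nat_lit 546) (nat_lit 1900) (nat_lit 0) (XT.nd (nat_lit 234) (nat_lit 1368) (nat_lit 0) (XT.nd (nat_lit 78) (nat_lit 684) (nat_lit 0) (XT.lf (nat_lit 0) (nat_lit 3084268172) (nat_lit 456) (nat_lit 3840269079) (nat_lit 76) (nat_lit 9516070408) (nat_lit 149) (nat_lit 5) (nat_lit 155) (nat_lit 5) (nat_lit 150) (nat_lit 5) (nat_lit 474) (nat_lit 410) (nat_lit 316)) (XT.nd (nat_lit 78) (nat_lit 380) (nat_lit 0) (XT.lf (nat_lit 0) (nat_lit 9818819641) (nat_lit 380) (nat_lit 4477775383) (nat_lit 76) (nat_lit 2439499982) (nat_lit 145) (nat_lit 5) (nat_lit 150) (nat_lit 5) (nat_lit 146) (nat_lit 5) (nat_lit 475) (nat_lit 410) (nat_lit 315)) (XT.lf (nat_lit 0) (nat_lit 11910496356) (nat_lit 380) (nat_lit 4962694033) (nat_lit 456) (nat_lit 164901390) (nat_lit 140) (nat_lit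 5) (nat_lit 145) (nat_lit 5) (nat_lit 146) (nat_lit 5) (nat_lit 476) (nat_lit 410) (nat_lit 314)))) (XT.nd (nat_lit 156) (nat_lit 684) (nat_lit 0) (XT.nd (nat_lit 78) (nat_lit 304) (nat_lit 0) (XT.lf (nat_lit 0) (nat_lit 6805990661) (nat_lit 380) (nat_lit 5818689246) (nat_lit 76) (nat_lit 4721487292) (nat_lit 135) (nat_lit 5) (nat_lit 140) (nat_lit 5) (nat_lit 136) (nat_lit 5) (nat_lit 477) (nat_lit 410) (nat_lit 313)) (XT.lf (nat_lit 0) (nat_lit 11150336421) (nat_lit 304) (nat_lit 2942816584) (nat_lit 380) (nat_lit 3568122827) (nat_lit 131) (nat_lit 5) (nat_lit 135) (nat_lit 5) (nat_lit 136) (nat_lit 5) (nat_lit 478) (nat_lit 410) (nat_lit 312))) (XT.nd (nat_lit 78) (nat_lit 304) (nat_lit 0) (XT.lf (nat_lit 0) (nat_lit 3691039509) (nat_lit 380) (nat_lit 7239922139) (nat_lit 76) (nat_lit 7051900642) (nat_lit 126) (nat_lit 5) (nat_lit 131) (nat_lit 5) (nat_lit 127) (nat_lit 5) (nat_lit 479) (nat_lit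 410) (nat_lit 311)) (XT.lf (nat_lit 0) (nat_lit 10331791206) (nat_lit 304) (nat_lit 888797210) (nat_lit 380) (nat_lit 7091014848) (nat_lit 122) (nat_lit 5) (nat_lit 126) (nat_lit 5) (nat_lit 127) (nat_lit 5) (nat_lit 480) (nat_lit 410) (nat_lit 310))))) (XT.nd (nat_lit 234) (nat_lit 988) (nat_lit 0) (XT.nd (nat_lit 78) (nat_lit 532) (nat_lit 0) (XT.lf (nat_lit 0) (nat_lit 467620048) (nat_lit 380) (nat_lit 8751613124) (nat_lit 76) (nat_lit 9428009844) (nat_lit 117) (nat_lit 5) (nat_lit 122) (nat_lit 5) (nat_lit 118) (nat_lit 5) (nat_lit 481) (nat_lit 410) (nat_lit 309)) (XT.nd (nat_lit 78) (nat_lit 228) (nat_lit 0) (XT.lf (nat_lit 0) (nat_lit 8257124149) (nat_lit 380) (nat_lit 9552539356) (nat_lit 76) (nat_lit 1180342405) (nat_lit 113) (nat_lit 5) (nat_lit 118) (nat_lit 5) (nat_lit 114) (nat_lit 5) (nat_lit 482) (nat_lit 410) (nat_lit 308)) (XT.lf (nat_lit 0) (nat_lit 8956453727) (nat_lit 228) (nat_lit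 7474211500) (nat_lit 304) (nat_lit 2909379781) (nat_lit 110) (nat_lit 5) (nat_lit 113) (nat_lit 5) (nat_lit 114) (nat_lit 5) (nat_lit 483) (nat_lit 410) (nat_lit 307)))) (XT.nd (nat_lit 156) (nat_lit 380) (nat_lit 0) (XT.nd (nat_lit 78) (nat_lit 228) (nat_lit 0) (XT.lf (nat_lit 0) (nat_lit 5194197648) (nat_lit 380) (nat_lit 11238713728) (nat_lit 76) (nat_lit 3264747686) (nat_lit 105) (nat_lit 5) (nat_lit 110) (nat_lit 5) (nat_lit 106) (nat_lit 5) (nat_lit 484) (nat_lit 410) (nat_lit 306)) (XT.lf (nat_lit 0) (nat_lit 7930047318) (nat_lit 228) (nat_lit 5715429255) (nat_lit 304) (nat_lit 6417258246) (nat_lit 102) (nat_lit 5) (nat_lit 105) (nat_lit 5) (nat_lit 106) (nat_lit 5) (nat_lit 485) (nat_lit 410) (nat_lit 305))) (XT.nd (nat_lit 56628) (nat_lit 0) (nat_lit 45524) (XT.lf (nat_lit 0) (nat_lit 2018618417) (nat_lit 380) (nat_lit 13044898861) (nat_lit 76) (nat_lit 5372354516) (nat_lit 97) (nat_lit 5)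 (nat_lit 102) (nat_lit 5) (nat_lit 98) (nat_lit 5) (nat_lit 486) (nat_lit 410) (nat_lit 304)) (XT.lf (nat_lit 0) (nat_lit 918117546) (nat_lit 0) (nat_lit 918117546) (nat_lit 988) (nat_lit 1640685336) (nat_lit 696) (nat_lit 5) (nat_lit 696) (nat_lit 3) (nat_lit 709) (nat_lit 3) (nat_lit 411) (nat_lit 411) (nat_lit 378)))))) (XT.nd (nat_lit 546) (nat_lit 3800) (nat_lit 0) (XT.nd (nat_lit 234) (nat_lit 2204) (nat_lit 0) (XT.nd (nat_lit 78) (nat_lit 1064) (nat_lit 0) (XT.lf (nat_lit 76) (nat_lit 87182419) (nat_lit 0) (nat_lit 6440922151) (nat_lit 1064) (nat_lit 473915970) (nat_lit 697) (nat_lit 5) (nat_lit 696) (nat_lit 5) (nat_lit 710) (nat_lit 5) (nat_lit 412) (nat_lit 411) (nat_lit 377)) (XT.nd (nat_lit 78) (nat_lit 0) (nat_lit 0) (XT.lf (nat_lit 0) (nat_lit 2323360553) (nat_lit 1064) (nat_lit 1620325176) (nat_lit 1140) (nat_lit 3108904255) (nat_lit 682) (nat_lit 5) (nat_lit 696) (nat_lit 5) (nat_lit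 697) (nat_lit 5) (nat_lit 413) (nat_lit 411) (nat_lit 376)) (XT.lf (nat_lit 76) (nat_lit 3822382301) (nat_lit 0) (nat_lit 1293908632) (nat_lit 1140) (nat_lit 1989963786) (nat_lit 683) (nat_lit 5) (nat_lit 682) (nat_lit 5) (nat_lit 697) (nat_lit 5) (nat_lit 414) (nat_lit 411) (nat_lit 375)))) (XT.nd (nat_lit 156) (nat_lit 1140) (nat_lit 0) (XT.nd (nat_lit 78) (nat_lit 0) (nat_lit 0) (XT.lf (nat_lit 0) (nat_lit 751464598) (nat_lit 1140) (nat_lit 4917547145) (nat_lit 1216) (nat_lit 1493796025) (nat_lit 668) (nat_lit 5) (nat_lit 683) (nat_lit 5) (nat_lit 684) (nat_lit 5) (nat_lit 415) (nat_lit 411) (nat_lit 374)) (XT.lf (nat_lit 76) (nat_lit 692119491) (nat_lit 0) (nat_lit 2790015835) (nat_lit 1216) (nat_lit 3739982318) (nat_lit 669) (nat_lit 5) (nat_lit 668) (nat_lit 5) (nat_lit 684) (nat_lit 5) (nat_lit 416) (nat_lit 411) (nat_lit 373))) (XT.nd (nat_lit 78) (nat_lit 1216) (nat_lit 0) (XT.lf (nat_lit 0)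 (nat_lit 6230587749) (nat_lit 1140) (nat_lit 807250956) (nat_lit 1216) (nat_lit 246654780) (nat_lit 669) (nat_lit 5) (nat_lit 684) (nat_lit 5) (nat_lit 685) (nat_lit 5) (nat_lit 417) (nat_lit 411) (nat_lit 372)) (XT.lf (nat_lit 0) (nat_lit 1645666242) (nat_lit 1216) (nat_lit 2284333399) (nat_lit 1292) (nat_lit 3419414741) (nat_lit 653) (nat_lit 5) (nat_lit 669) (nat_lit 5) (nat_lit 670) (nat_lit 5) (nat_lit 418) (nat_lit 411) (nat_lit 371))))) (XT.nd (nat_lit 312) (nat_lit 2584) (nat_lit 0) (XT.nd (nat_lit 156) (nat_lit 1216) (nat_lit 0) (XT.nd (nat_lit 78) (nat_lit 0) (nat_lit 76) (XT.lf (nat_lit 76) (nat_lit 3690508030) (nat_lit 0) (nat_lit 656800752) (nat_lit 1292) (nat_lit 3070130363) (nat_lit 654) (nat_lit 5) (nat_lit 653) (nat_lit 5) (nat_lit 670) (nat_lit 5) (nat_lit 419) (nat_lit 411) (nat_lit 370)) (XT.lf (nat_lit 76) (nat_lit 2341283240) (nat_lit 0) (nat_lit 4745558876) (nat_lit 1292) (nat_lit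 401529203) (nat_lit 655) (nat_lit 5) (nat_lit 654) (nat_lit 5) (nat_lit 671) (nat_lit 5) (nat_lit 420) (nat_lit 411) (nat_lit 369))) (XT.nd (nat_lit 78) (nat_lit 0) (nat_lit 76) (XT.lf (nat_lit 76) (nat_lit 1014557839) (nat_lit 0) (nat_lit 1248311045) (nat_lit 1368) (nat_lit 5299330683) (nat_lit 638) (nat_lit 5) (nat_lit 637) (nat_lit 5) (nat_lit 655) (nat_lit 5) (nat_lit 421) (nat_lit 411) (nat_lit 368)) (XT.lf (nat_lit 0) (nat_lit 4964700189) (nat_lit 1292) (nat_lit 285774290) (nat_lit 1368) (nat_lit 2388459205) (nat_lit 638) (nat_lit 5) (nat_lit 655) (nat_lit 5) (nat_lit 656) (nat_lit 5) (nat_lit 422) (nat_lit 411) (nat_lit 367)))) (XT.nd (nat_lit 156) (nat_lit 1368) (nat_lit 0) (XT.nd (nat_lit 78) (nat_lit 1292) (nat_lit 0) (XT.lf (nat_lit 76) (nat_lit 6176866719) (nat_lit 0) (nat_lit 1534252936) (nat_lit 1368) (nat_lit 7582642) (nat_lit 639) (nat_lit 5) (nat_lit 638) (nat_lit 5) (nat_lit 656) (nat_lit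 5) (nat_lit 423) (nat_lit 411) (nat_lit 366)) (XT.lf (nat_lit 0) (nat_lit 2669728327) (nat_lit 1368) (nat_lit 2792187725) (nat_lit 1444) (nat_lit 2339263549) (nat_lit 621) (nat_lit 5) (nat_lit 639) (nat_lit 5) (nat_lit 640) (nat_lit 5) (nat_lit 424) (nat_lit 411) (nat_lit 365))) (XT.nd (nat_lit 78) (nat_lit 1368) (nat_lit 0) (XT.lf (nat_lit 76) (nat_lit 3871228073) (nat_lit 0) (nat_lit 1520752757) (nat_lit 1444) (nat_lit 2494857788) (nat_lit 622) (nat_lit 5) (nat_lit 621) (nat_lit 5) (nat_lit 640) (nat_lit 5) (nat_lit 425) (nat_lit 411) (nat_lit 364)) (XT.lf (nat_lit 0) (nat_lit 192104539) (nat_lit 1444) (nat_lit 5220649300) (nat_lit 76) (nat_lit 2562804303) (nat_lit 603) (nat_lit 5) (nat_lit 622) (nat_lit 5) (nat_lit 604) (nat_lit 5) (nat_lit 426) (nat_lit 411) (nat_lit 363))))))) (XT.nd (nat_lit 1170) (nat_lit 9804) (nat_lit 0) (XT.nd (nat_lit 546) (nat_lit 6536) (nat_lit 0) (XT.nd (nat_lit 234) (nat_lit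 6916) (nat_lit 0) (XT.nd (nat_lit 78) (nat_lit 1596) (nat_lit 0) (XT.lf (nat_lit 0) (nat_lit 1650266165) (nat_lit 1444) (nat_lit 1246296930) (nat_lit 1520) (nat_lit 5170633364) (nat_lit 584) (nat_lit 5) (nat_lit 603) (nat_lit 5) (nat_lit 604) (nat_lit 5) (nat_lit 427) (nat_lit 411) (nat_lit 362)) (XT.nd (nat_lit 78) (nat_lit 76) (nat_lit 0) (XT.lf (nat_lit 0) (nat_lit 563195113) (nat_lit 1520) (nat_lit 5102282655) (nat_lit 1596) (nat_lit 2496442312) (nat_lit 564) (nat_lit 5) (nat_lit 584) (nat_lit 5) (nat_lit 585) (nat_lit 5) (nat_lit 428) (nat_lit 411) (nat_lit 361)) (XT.lf (nat_lit 0) (nat_lit 232297120) (nat_lit 1596) (nat_lit 490416626) (nat_lit 76) (nat_lit 7537186522) (nat_lit 563) (nat_lit 5) (nat_lit 584) (nat_lit 5) (nat_lit 564) (nat_lit 5) (nat_lit 429) (nat_lit 411) (nat_lit 360)))) (XT.nd (nat_lit 156) (nat_lit 3648) (nat_lit 0) (XT.nd (nat_lit 78) (nat_lit 1672) (nat_lit 0) (XT.lf (nat_lit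 0) (nat_lit 3006456405) (nat_lit 1672) (nat_lit 1542172897) (nat_lit 76) (nat_lit 3811913444) (nat_lit 542) (nat_lit 5) (nat_lit 564) (nat_lit 5) (nat_lit 543) (nat_lit 5) (nat_lit 430) (nat_lit 411) (nat_lit 359)) (XT.lf (nat_lit 0) (nat_lit 5840285020) (nat_lit 1748) (nat_lit 2564315783) (nat_lit 76) (nat_lit 60077139) (nat_lit 520) (nat_lit 5) (nat_lit 543) (nat_lit 5) (nat_lit 521) (nat_lit 5) (nat_lit 431) (nat_lit 411) (nat_lit 358))) (XT.nd (nat_lit 78) (nat_lit 1824) (nat_lit 0) (XT.lf (nat_lit 0) (nat_lit 189377760) (nat_lit 1824) (nat_lit 3583805394) (nat_lit 76) (nat_lit 4798639123) (nat_lit 496) (nat_lit 5) (nat_lit 520) (nat_lit 5) (nat_lit 497) (nat_lit 5) (nat_lit 432) (nat_lit 411) (nat_lit 357)) (XT.lf (nat_lit 0) (nat_lit 3035558896) (nat_lit 1900) (nat_lit 4594117610) (nat_lit 76) (nat_lit 1052486600) (nat_lit 472) (nat_lit 5) (nat_lit 497) (nat_lit 5) (nat_lit 473) (nat_lit 5) (nat_lit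 433) (nat_lit 411) (nat_lit 356))))) (XT.nd (nat_lit 312) (nat_lit 2660) (nat_lit 0) (XT.nd (nat_lit 156) (nat_lit 1748) (nat_lit 0) (XT.nd (nat_lit 78) (nat_lit 988) (nat_lit 0) (XT.lf (nat_lit 0) (nat_lit 3198849694) (nat_lit 1140) (nat_lit 2772783976) (nat_lit 1216) (nat_lit 2824092418) (nat_lit 457) (nat_lit 5) (nat_lit 472) (nat_lit 5) (nat_lit 473) (nat_lit 5) (nat_lit 434) (nat_lit 411) (nat_lit 355)) (XT.lf (nat_lit 0) (nat_lit 78539680) (nat_lit 988) (nat_lit 6582791918) (nat_lit 76) (nat_lit 2251424872) (nat_lit 444) (nat_lit 5) (nat_lit 457) (nat_lit 5) (nat_lit 445) (nat_lit 5) (nat_lit 435) (nat_lit 411) (nat_lit 354))) (XT.nd (nat_lit 78) (nat_lit 836) (nat_lit 0) (XT.lf (nat_lit 0) (nat_lit 1458482687) (nat_lit 912) (nat_lit 1574483718) (nat_lit 988) (nat_lit 5999898269) (nat_lit 432) (nat_lit 5) (nat_lit 444) (nat_lit 5) (nat_lit 445) (nat_lit 5) (nat_lit 436) (nat_lit 411) (nat_lit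 353)) (XT.lf (nat_lit 0) (nat_lit 597265077) (nat_lit 836) (nat_lit 5489470843) (nat_lit 912) (nat_lit 3069627882) (nat_lit 421) (nat_lit 5) (nat_lit 432) (nat_lit 5) (nat_lit 433) (nat_lit 5) (nat_lit 437) (nat_lit 411) (nat_lit 352)))) (XT.nd (nat_lit 156) (nat_lit 1672) (nat_lit 0) (XT.nd (nat_lit 78) (nat_lit 988) (nat_lit 0) (XT.lf (nat_lit 0) (nat_lit 9046180688) (nat_lit 836) (nat_lit 187265054) (nat_lit 912) (nat_lit 50097444) (nat_lit 421) (nat_lit 5) (nat_lit 432) (nat_lit 5) (nat_lit 433) (nat_lit 5) (nat_lit 438) (nat_lit 411) (nat_lit 351)) (XT.lf (nat_lit 0) (nat_lit 3049830055) (nat_lit 988) (nat_lit 1085017925) (nat_lit 76) (nat_lit 5278695476) (nat_lit 408) (nat_lit 5) (nat_lit 421) (nat_lit 5) (nat_lit 409) (nat_lit 5) (nat_lit 439) (nat_lit 411) (nat_lit 350))) (XT.nd (nat_lit 78) (nat_lit 836) (nat_lit 0) (XT.lf (nat_lit 0) (nat_lit 6245981927) (nat_lit 912) (nat_lit 1910867279)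 (nat_lit 76) (nat_lit 1390511449) (nat_lit 397) (nat_lit 5) (nat_lit 409) (nat_lit 5) (nat_lit 398) (nat_lit 5) (nat_lit 440) (nat_lit 411) (nat_lit 349)) (XT.lf (nat_lit 0) (nat_lit 6952722044) (nat_lit 836) (nat_lit 2609014004) (nat_lit 912) (nat_lit 122983606) (nat_lit 386) (nat_lit 5) (nat_lit 397) (nat_lit 5) (nat_lit 398) (nat_lit 5) (nat_lit 441) (nat_lit 411) (nat_lit 348)))))) (XT.nd (nat_lit 546) (nat_lit 4484) (nat_lit 0) (XT.nd (nat_lit 234) (nat_lit 2964) (nat_lit 0) (XT.nd (nat_lit 78) (nat_lit 1520) (nat_lit 0) (XT.lf (nat_lit 0) (nat_lit 3128318184) (nat_lit 836) (nat_lit 3562122983) (nat_lit 76) (nat_lit 3134973122) (nat_lit 375) (nat_lit 5) (nat_lit 386) (nat_lit 5) (nat_lit 376) (nat_lit 5) (nat_lit 442) (nat_lit 411) (nat_lit 347)) (XT.nd (nat_lit 78) (nat_lit 760) (nat_lit 0) (XT.lf (nat_lit 0) (nat_lit 5590737489) (nat_lit 760) (nat_lit 902764015) (nat_lit 836) (nat_lit 3476453249)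 (nat_lit 365) (nat_lit 5) (nat_lit 375) (nat_lit 5) (nat_lit 376) (nat_lit 5) (nat_lit 443) (nat_lit 411) (nat_lit 346)) (XT.lf (nat_lit 0) (nat_lit 4919996548) (nat_lit 760) (nat_lit 5075512664) (nat_lit 836) (nat_lit 122606308) (nat_lit 355) (nat_lit 5) (nat_lit 365) (nat_lit 5) (nat_lit 366) (nat_lit 5) (nat_lit 444) (nat_lit 411) (nat_lit 345)))) (XT.nd (nat_lit 156) (nat_lit 1444) (nat_lit 0) (XT.nd (nat_lit 78) (nat_lit 684) (nat_lit 0) (XT.lf (nat_lit 0) (nat_lit 3305516089) (nat_lit 836) (nat_lit 6020166400) (nat_lit 76) (nat_lit 944260208) (nat_lit 344) (nat_lit 5) (nat_lit 355) (nat_lit 5) (nat_lit 345) (nat_lit 5) (nat_lit 445) (nat_lit 411) (nat_lit 344)) (XT.lf (nat_lit 0) (nat_lit 3578731997) (nat_lit 684) (nat_lit 3297426922) (nat_lit 760) (nat_lit 3549324070) (nat_lit 335) (nat_lit 5) (nat_lit 344) (nat_lit 5) (nat_lit 345) (nat_lit 5) (nat_lit 446) (nat_lit 411) (nat_lit 343))) (XT.nd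 (nat_lit 78) (nat_lit 760) (nat_lit 0) (XT.lf (nat_lit 0) (nat_lit 2922455632) (nat_lit 684) (nat_lit 7660162649) (nat_lit 760) (nat_lit 2498582) (nat_lit 326) (nat_lit 5) (nat_lit 335) (nat_lit 5) (nat_lit 336) (nat_lit 5) (nat_lit 447) (nat_lit 411) (nat_lit 342)) (XT.lf (nat_lit 0) (nat_lit 2253828514) (nat_lit 684) (nat_lit 1382918839) (nat_lit 760) (nat_lit 7111641680) (nat_lit 316) (nat_lit 5) (nat_lit 325) (nat_lit 5) (nat_lit 326) (nat_lit 5) (nat_lit 448) (nat_lit 411) (nat_lit 341))))) (XT.nd (nat_lit 312) (nat_lit 2508) (nat_lit 0) (XT.nd (nat_lit 156) (nat_lit 608) (nat_lit 0) (XT.nd (nat_lit 78) (nat_lit 684) (nat_lit 0) (XT.lf (nat_lit 0) (nat_lit 1585155059) (nat_lit 684) (nat_lit 5847045754) (nat_lit 760) (nat_lit 3483418162) (nat_lit 307) (nat_lit 5) (nat_lit 316) (nat_lit 5) (nat_lit 317) (nat_lit 5) (nat_lit 449) (nat_lit 411) (nat_lit 340)) (XT.lf (nat_lit 0) (nat_lit 280136366)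 (nat_lit 684) (nat_lit 10152895509) (nat_lit 76) (nat_lit 654205941) (nat_lit 298) (nat_lit 5) (nat_lit 307) (nat_lit 5) (nat_lit 299) (nat_lit 5) (nat_lit 450) (nat_lit 411) (nat_lit 339))) (XT.nd (nat_lit 78) (nat_lit 0) (nat_lit 0) (XT.lf (nat_lit 0) (nat_lit 253549996) (nat_lit 608) (nat_lit 3913545061) (nat_lit 684) (nat_lit 7095294311) (nat_lit 290) (nat_lit 5) (nat_lit 298) (nat_lit 5) (nat_lit 299) (nat_lit 5) (nat_lit 451) (nat_lit 411) (nat_lit 338)) (XT.lf (nat_lit 0) (nat_lit 8212175471) (nat_lit 684) (nat_lit 407810877) (nat_lit 76) (nat_lit 2821979954) (nat_lit 290) (nat_lit 5) (nat_lit 299) (nat_lit 5) (nat_lit 291) (nat_lit 5) (nat_lit 452) (nat_lit 411) (nat_lit 337)))) (XT.nd (nat_lit 156) (nat_lit 1216) (nat_lit 0) (XT.nd (nat_lit 78) (nat_lit 608) (nat_lit 0) (XT.lf (nat_lit 0) (nat_lit 792333303) (nat_lit 684) (nat_lit 1064676618) (nat_lit 76) (nat_lit 9768813776) (nat_lit 281)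 (nat_lit 5) (nat_lit 290) (nat_lit 5) (nat_lit 282) (nat_lit 5) (nat_lit 453) (nat_lit 411) (nat_lit 336)) (XT.lf (nat_lit 0) (nat_lit 4949604627) (nat_lit 684) (nat_lit 1744302151) (nat_lit 76) (nat_lit 5119696793) (nat_lit 273) (nat_lit 5) (nat_lit 282) (nat_lit 5) (nat_lit 274) (nat_lit 5) (nat_lit 454) (nat_lit 411) (nat_lit 335))) (XT.nd (nat_lit 78) (nat_lit 684) (nat_lit 0) (XT.lf (nat_lit 0) (nat_lit 9272649962) (nat_lit 608) (nat_lit 2406635065) (nat_lit 76) (nat_lit 326911677) (nat_lit 266) (nat_lit 5) (nat_lit 274) (nat_lit 5) (nat_lit 267) (nat_lit 5) (nat_lit 455) (nat_lit 411) (nat_lit 334)) (XT.lf (nat_lit 0) (nat_lit 1574934608) (nat_lit 684) (nat_lit 3091928997) (nat_lit 76) (nat_lit 7536026249) (nat_lit 257) (nat_lit 5) (nat_lit 266) (nat_lit 5) (nat_lit 258) (nat_lit 5) (nat_lit 456) (nat_lit 411) (nat_lit 333))))))))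
noncomputable def xc50 : XT := (XT.nd (nat_lit 2262) (nat_lit 228) (nat_lit 0) (XT.nd (nat_lit 1092) (nat_lit 4940) (nat_lit 0) (XT.nd (nat_lit 546) (nat_lit 3040) (nat_lit 0) (XT.nd (nat_lit 234) (nat_lit 1976) (nat_lit 0) (XT.nd (nat_lit 78) (nat_lit 1064) (nat_lit 0) (XT.lf (nat_lit 0) (nat_lit 6023647439) (nat_lit 608) (nat_lit 3780982864) (nat_lit 76) (nat_lit 2599530721) (nat_lit 250) (nat_lit 5) (nat_lit 258) (nat_lit 5) (nat_lit 251) (nat_lit 5) (nat_lit 457) (nat_lit 411) (nat_lit 332)) (XT.nd (nat_lit 78) (nat_lit 532) (nat_lit 0) (XT.lf (nat_lit 0) (nat_lit 8140430186) (nat_lit 532) (nat_lit 2529591737) (nat_lit 608) (nat_lit 1940165281) (nat_lit 243) (nat_lit 5) (nat_lit 250) (nat_lit 5) (nat_lit 251) (nat_lit 5) (nat_lit 458) (nat_lit 411) (nat_lit 331)) (XT.lf (nat_lit 0) (nat_lit 2666850626) (nat_lit 532) (nat_lit 5176936405) (nat_lit 76) (nat_lit 4976906128) (nat_lit 236) (nat_lit 5)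 (nat_lit 243) (nat_lit 5) (nat_lit 237) (nat_lit 5) (nat_lit 459) (nat_lit 411) (nat_lit 330)))) (XT.nd (nat_lit 156) (nat_lit 988) (nat_lit 0) (XT.nd (nat_lit 78) (nat_lit 456) (nat_lit 0) (XT.lf (nat_lit 0) (nat_lit 7153259378) (nat_lit 532) (nat_lit 286796248) (nat_lit 608) (nat_lit 5596116234) (nat_lit 229) (nat_lit 5) (nat_lit 236) (nat_lit 5) (nat_lit 237) (nat_lit 5) (nat_lit 460) (nat_lit 411) (nat_lit 329)) (XT.lf (nat_lit 0) (nat_lit 6649925686) (nat_lit 456) (nat_lit 5794732485) (nat_lit 532) (nat_lit 811693510) (nat_lit 223) (nat_lit 5) (nat_lit 229) (nat_lit 5) (nat_lit 230) (nat_lit 5) (nat_lit 461) (nat_lit 411) (nat_lit 328))) (XT.nd (nat_lit 78) (nat_lit 456) (nat_lit 0) (XT.lf (nat_lit 0) (nat_lit 4119142302) (nat_lit 532) (nat_lit 7341099831) (nat_lit 76) (nat_lit 2021223689) (nat_lit 216) (nat_lit 5) (nat_lit 223) (nat_lit 5) (nat_lit 217) (nat_lit 5) (nat_lit 462) (nat_lit 411)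 (nat_lit 327)) (XT.lf (nat_lit 0) (nat_lit 5622245816) (nat_lit 456) (nat_lit 3647241891) (nat_lit 532) (nat_lit 4442086856) (nat_lit 210) (nat_lit 5) (nat_lit 216) (nat_lit 5) (nat_lit 217) (nat_lit 5) (nat_lit 463) (nat_lit 411) (nat_lit 326))))) (XT.nd (nat_lit 234) (nat_lit 1672) (nat_lit 0) (XT.nd (nat_lit 78) (nat_lit 836) (nat_lit 0) (XT.lf (nat_lit 0) (nat_lit 692746836) (nat_lit 532) (nat_lit 8840443627) (nat_lit 76) (nat_lit 4413811605) (nat_lit 203) (nat_lit 5) (nat_lit 210) (nat_lit 5) (nat_lit 204) (nat_lit 5) (nat_lit 464) (nat_lit 411) (nat_lit 325)) (XT.nd (nat_lit 78) (nat_lit 456) (nat_lit 0) (XT.lf (nat_lit 0) (nat_lit 4572238195) (nat_lit 380) (nat_lit 1422002880) (nat_lit 456) (nat_lit 8193205432) (nat_lit 198) (nat_lit 5) (nat_lit 203) (nat_lit 5) (nat_lit 204) (nat_lit 5) (nat_lit 465) (nat_lit 411) (nat_lit 324)) (XT.lf (nat_lit 0) (nat_lit 4028172089) (nat_lit 456) (nat_lit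 7522052297) (nat_lit 532) (nat_lit 2882971662) (nat_lit 192) (nat_lit 5) (nat_lit 198) (nat_lit 5) (nat_lit 199) (nat_lit 5) (nat_lit 466) (nat_lit 411) (nat_lit 323)))) (XT.nd (nat_lit 156) (nat_lit 836) (nat_lit 0) (XT.nd (nat_lit 78) (nat_lit 380) (nat_lit 0) (XT.lf (nat_lit 0) (nat_lit 2620576164) (nat_lit 456) (nat_lit 11197165004) (nat_lit 76) (nat_lit 866883048) (nat_lit 186) (nat_lit 5) (nat_lit 192) (nat_lit 5) (nat_lit 187) (nat_lit 5) (nat_lit 467) (nat_lit 411) (nat_lit 322)) (XT.lf (nat_lit 0) (nat_lit 2912123550) (nat_lit 380) (nat_lit 5443378440) (nat_lit 456) (nat_lit 6585603918) (nat_lit 181) (nat_lit 5) (nat_lit 186) (nat_lit 5) (nat_lit 187) (nat_lit 5) (nat_lit 468) (nat_lit 411) (nat_lit 321))) (XT.nd (nat_lit 78) (nat_lit 456) (nat_lit 0) (XT.lf (nat_lit 0) (nat_lit 2351179322) (nat_lit 380) (nat_lit 11989196296) (nat_lit 456) (nat_lit 863349019) (nat_lit 176) (nat_lit 5) (nat_lit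 181) (nat_lit 5) (nat_lit 182) (nat_lit 5) (nat_lit 469) (nat_lit 411) (nat_lit 320)) (XT.lf (nat_lit 0) (nat_lit 1755949280) (nat_lit 380) (nat_lit 3304539523) (nat_lit 456) (nat_lit 10411162604) (nat_lit 170) (nat_lit 5) (nat_lit 175) (nat_lit 5) (nat_lit 176) (nat_lit 5) (nat_lit 470) (nat_lit 411) (nat_lit 319)))))) (XT.nd (nat_lit 546) (nat_lit 2584) (nat_lit 0) (XT.nd (nat_lit 234) (nat_lit 1520) (nat_lit 0) (XT.nd (nat_lit 78) (nat_lit 456) (nat_lit 0) (XT.lf (nat_lit 0) (nat_lit 1152913781) (nat_lit 380) (nat_lit 10095817986) (nat_lit 456) (nat_lit 4496802230) (nat_lit 165) (nat_lit 5) (nat_lit 170) (nat_lit 5) (nat_lit 171) (nat_lit 5) (nat_lit 471) (nat_lit 411) (nat_lit 318)) (XT.nd (nat_lit 78) (nat_lit 0) (nat_lit 0) (XT.lf (nat_lit 0) (nat_lit 552146408) (nat_lit 380) (nat_lit 1108163735) (nat_lit 456) (nat_lit 14365391529) (nat_lit 159) (nat_lit 5) (nat_lit 164) (nat_lit 5) (nat_lit 165)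 (nat_lit 5) (nat_lit 472) (nat_lit 411) (nat_lit 317)) (XT.lf (nat_lit 0) (nat_lit 8061349723) (nat_lit 456) (nat_lit 96204353) (nat_lit 76) (nat_lit 8153720171) (nat_lit 159) (nat_lit 5) (nat_lit 165) (nat_lit 5) (nat_lit 160) (nat_lit 5) (nat_lit 473) (nat_lit 411) (nat_lit 316)))) (XT.nd (nat_lit 156) (nat_lit 760) (nat_lit 0) (XT.nd (nat_lit 78) (nat_lit 456) (nat_lit 0) (XT.lf (nat_lit 0) (nat_lit 14741014174) (nat_lit 380) (nat_lit 717640897) (nat_lit 76) (nat_lit 1145027541) (nat_lit 155) (nat_lit 5) (nat_lit 160) (nat_lit 5) (nat_lit 156) (nat_lit 5) (nat_lit 474) (nat_lit 411) (nat_lit 315)) (XT.lf (nat_lit 0) (nat_lit 4780251904) (nat_lit 456) (nat_lit 1389758431) (nat_lit 76) (nat_lit 10731722931) (nat_lit 149) (nat_lit 5) (nat_lit 155) (nat_lit 5) (nat_lit 150) (nat_lit 5) (nat_lit 475) (nat_lit 411) (nat_lit 314))) (XT.nd (nat_lit 78) (nat_lit 456) (nat_lit 0) (XT.lf (nat_lit 0) (nat_lit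 11692699619) (nat_lit 380) (nat_lit 2062704223) (nat_lit 76) (nat_lit 3451164881) (nat_lit 145) (nat_lit 5) (nat_lit 150) (nat_lit 5) (nat_lit 146) (nat_lit 5) (nat_lit 476) (nat_lit 411) (nat_lit 313)) (XT.lf (nat_lit 0) (nat_lit 1392263073) (nat_lit 456) (nat_lit 2751525392) (nat_lit 76) (nat_lit 13374248720) (nat_lit 139) (nat_lit 5) (nat_lit 145) (nat_lit 5) (nat_lit 140) (nat_lit 5) (nat_lit 477) (nat_lit 411) (nat_lit 312))))) (XT.nd (nat_lit 312) (nat_lit 1292) (nat_lit 0) (XT.nd (nat_lit 156) (nat_lit 684) (nat_lit 0) (XT.nd (nat_lit 78) (nat_lit 304) (nat_lit 0) (XT.lf (nat_lit 0) (nat_lit 8546987580) (nat_lit 380) (nat_lit 3481062904) (nat_lit 76) (nat_lit 5807744295) (nat_lit 135) (nat_lit 5) (nat_lit 140) (nat_lit 5) (nat_lit 136) (nat_lit 5) (nat_lit 478) (nat_lit 411) (nat_lit 311)) (XT.lf (nat_lit 0) (nat_lit 13956276283) (nat_lit 304) (nat_lit 2067773005) (nat_lit 380) (nat_lit 2136882306)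 (nat_lit 131) (nat_lit 5) (nat_lit 135) (nat_lit 5) (nat_lit 136) (nat_lit 5) (nat_lit 479) (nat_lit 411) (nat_lit 310))) (XT.nd (nat_lit 78) (nat_lit 304) (nat_lit 0) (XT.lf (nat_lit 0) (nat_lit 5297820079) (nat_lit 380) (nat_lit 4982345099) (nat_lit 76) (nat_lit 8212242502) (nat_lit 126) (nat_lit 5) (nat_lit 131) (nat_lit 5) (nat_lit 127) (nat_lit 5) (nat_lit 480) (nat_lit 411) (nat_lit 309)) (XT.lf (nat_lit 0) (nat_lit 13025818749) (nat_lit 380) (nat_lit 5755527777) (nat_lit 76) (nat_lit 50213658) (nat_lit 122) (nat_lit 5) (nat_lit 127) (nat_lit 5) (nat_lit 123) (nat_lit 5) (nat_lit 481) (nat_lit 411) (nat_lit 308)))) (XT.nd (nat_lit 156) (nat_lit 608) (nat_lit 0) (XT.nd (nat_lit 78) (nat_lit 304) (nat_lit 0) (XT.lf (nat_lit 0) (nat_lit 1938558166) (nat_lit 380) (nat_lit 6576920910) (nat_lit 76) (nat_lit 10662025028) (nat_lit 117) (nat_lit 5) (nat_lit 122) (nat_lit 5) (nat_lit 118) (nat_lit 5) (nat_lit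 482) (nat_lit 411) (nat_lit 307)) (XT.lf (nat_lit 0) (nat_lit 9941163254) (nat_lit 380) (nat_lit 7419080588) (nat_lit 76) (nat_lit 2170718249) (nat_lit 113) (nat_lit 5) (nat_lit 118) (nat_lit 5) (nat_lit 114) (nat_lit 5) (nat_lit 483) (nat_lit 411) (nat_lit 306))) (XT.nd (nat_lit 78) (nat_lit 380) (nat_lit 0) (XT.lf (nat_lit 0) (nat_lit 11605920096) (nat_lit 228) (nat_lit 6727613305) (nat_lit 304) (nat_lit 1558497014) (nat_lit 110) (nat_lit 5) (nat_lit 113) (nat_lit 5) (nat_lit 114) (nat_lit 5) (nat_lit 484) (nat_lit 411) (nat_lit 305)) (XT.lf (nat_lit 0) (nat_lit 6749595600) (nat_lit 380) (nat_lit 9193554656) (nat_lit 76) (nat_lit 4317430976) (nat_lit 105) (nat_lit 5) (nat_lit 110) (nat_lit 5) (nat_lit 106) (nat_lit 5) (nat_lit 485) (nat_lit 411) (nat_lit 304))))))) (XT.nd (nat_lit 57798) (nat_lit 0) (nat_lit 22420) (XT.nd (nat_lit 57174) (nat_lit 0) (nat_lit 39368) (XT.nd (nat_lit 56862) (nat_lit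 0) (nat_lit 41800) (XT.nd (nat_lit 56706) (nat_lit 0) (nat_lit 44004) (XT.lf (nat_lit 0) (nat_lit 10511618902) (nat_lit 228) (nat_lit 4917246419) (nat_lit 304) (nat_lit 5208255364) (nat_lit 102) (nat_lit 5) (nat_lit 105) (nat_lit 5) (nat_lit 106) (nat_lit 5) (nat_lit 486) (nat_lit 411) (nat_lit 303)) (XT.nd (nat_lit 78) (nat_lit 0) (nat_lit 0) (XT.lf (nat_lit 0) (nat_lit 1120126240) (nat_lit 1140) (nat_lit 1202725139) (nat_lit 1140) (nat_lit 1202725139) (nat_lit 681) (nat_lit 3) (nat_lit 696) (nat_lit 3) (nat_lit 696) (nat_lit 5) (nat_lit 412) (nat_lit 412) (nat_lit 376)) (XT.lf (nat_lit 76) (nat_lit 2894490901) (nat_lit 0) (nat_lit 2051497489) (nat_lit 1140) (nat_lit 2157381197) (nat_lit 682) (nat_lit 5) (nat_lit 681) (nat_lit 3) (nat_lit 696) (nat_lit 5) (nat_lit 413) (nat_lit 412) (nat_lit 375)))) (XT.nd (nat_lit 156) (nat_lit 1140) (nat_lit 0) (XT.nd (nat_lit 78) (nat_lit 0) (nat_lit 0) (XT.lf (nat_lit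 0) (nat_lit 492247068) (nat_lit 1140) (nat_lit 5976894584) (nat_lit 1216) (nat_lit 689459265) (nat_lit 667) (nat_lit 5) (nat_lit 682) (nat_lit 5) (nat_lit 683) (nat_lit 5) (nat_lit 414) (nat_lit 412) (nat_lit 374)) (XT.lf (nat_lit 0) (nat_lit 3133064137) (nat_lit 1140) (nat_lit 508005357) (nat_lit 1216) (nat_lit 3575318298) (nat_lit 667) (nat_lit 5) (nat_lit 682) (nat_lit 5) (nat_lit 683) (nat_lit 5) (nat_lit 415) (nat_lit 412) (nat_lit 373))) (XT.nd (nat_lit 78) (nat_lit 1140) (nat_lit 0) (XT.lf (nat_lit 76) (nat_lit 5137601239) (nat_lit 0) (nat_lit 650234385) (nat_lit 1216) (nat_lit 1489381950) (nat_lit 668) (nat_lit 5) (nat_lit 667) (nat_lit 5) (nat_lit 683) (nat_lit 5) (nat_lit 416) (nat_lit 412) (nat_lit 372)) (XT.lf (nat_lit 0) (nat_lit 1113271013) (nat_lit 1216) (nat_lit 3753233567) (nat_lit 1292) (nat_lit 2474289844) (nat_lit 652) (nat_lit 5) (nat_lit 668) (nat_lit 5) (nat_lit 669) (nat_lit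 5) (nat_lit 417) (nat_lit 412) (nat_lit 371))))) (XT.nd (nat_lit 312) (nat_lit 1216) (nat_lit 0) (XT.nd (nat_lit 156) (nat_lit 1216) (nat_lit 0) (XT.nd (nat_lit 78) (nat_lit 0) (nat_lit 76) (XT.lf (nat_lit 76) (nat_lit 2066159607) (nat_lit 0) (nat_lit 1646064132) (nat_lit 1292) (nat_lit 3695092444) (nat_lit 653) (nat_lit 5) (nat_lit 652) (nat_lit 5) (nat_lit 669) (nat_lit 5) (nat_lit 418) (nat_lit 412) (nat_lit 370)) (XT.lf (nat_lit 76) (nat_lit 575167951) (nat_lit 0) (nat_lit 5762756916) (nat_lit 1292) (nat_lit 1138936631) (nat_lit 654) (nat_lit 5) (nat_lit 653) (nat_lit 5) (nat_lit 670) (nat_lit 5) (nat_lit 419) (nat_lit 412) (nat_lit 369))) (XT.nd (nat_lit 78) (nat_lit 0) (nat_lit 76) (XT.lf (nat_lit 0) (nat_lit 1432048060) (nat_lit 1292) (nat_lit 884427824) (nat_lit 1368) (nat_lit 5232671890) (nat_lit 636) (nat_lit 5) (nat_lit 653) (nat_lit 5) (nat_lit 654) (nat_lit 5) (nat_lit 420) (nat_lit 412)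 (nat_lit 368)) (XT.lf (nat_lit 0) (nat_lit 4020709477) (nat_lit 1292) (nat_lit 2313608258) (nat_lit 1368) (nat_lit 1290017150) (nat_lit 637) (nat_lit 5) (nat_lit 654) (nat_lit 5) (nat_lit 655) (nat_lit 5) (nat_lit 421) (nat_lit 412) (nat_lit 367)))) (XT.nd (nat_lit 156) (nat_lit 0) (nat_lit 0) (XT.nd (nat_lit 78) (nat_lit 1292) (nat_lit 0) (XT.lf (nat_lit 76) (nat_lit 3981770394) (nat_lit 0) (nat_lit 2667916564) (nat_lit 1368) (nat_lit 1052840667) (nat_lit 638) (nat_lit 5) (nat_lit 637) (nat_lit 5) (nat_lit 655) (nat_lit 5) (nat_lit 422) (nat_lit 412) (nat_lit 366)) (XT.lf (nat_lit 0) (nat_lit 1511501322) (nat_lit 1368) (nat_lit 5109020873) (nat_lit 1444) (nat_lit 1163188824) (nat_lit 620) (nat_lit 5) (nat_lit 638) (nat_lit 5) (nat_lit 639) (nat_lit 5) (nat_lit 423) (nat_lit 412) (nat_lit 365))) (XT.nd (nat_lit 78) (nat_lit 0) (nat_lit 76) (XT.lf (nat_lit 76) (nat_lit 1381026045) (nat_lit 0) (nat_lit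 2728762801) (nat_lit 1444) (nat_lit 3757978402) (nat_lit 621) (nat_lit 5) (nat_lit 620) (nat_lit 5) (nat_lit 639) (nat_lit 5) (nat_lit 424) (nat_lit 412) (nat_lit 364)) (XT.lf (nat_lit 76) (nat_lit 116116587) (nat_lit 0) (nat_lit 6634998257) (nat_lit 1444) (nat_lit 1203931337) (nat_lit 622) (nat_lit 5) (nat_lit 621) (nat_lit 5) (nat_lit 640) (nat_lit 5) (nat_lit 425) (nat_lit 412) (nat_lit 363)))))) (XT.nd (nat_lit 546) (nat_lit 7524) (nat_lit 0) (XT.nd (nat_lit 234) (nat_lit 6688) (nat_lit 0) (XT.nd (nat_lit 78) (nat_lit 1368) (nat_lit 0) (XT.lf (nat_lit 0) (nat_lit 1393105784) (nat_lit 1444) (nat_lit 1125013861) (nat_lit 1520) (nat_lit 5526939640) (nat_lit 602) (nat_lit 5) (nat_lit 621) (nat_lit 5) (nat_lit 622) (nat_lit 5) (nat_lit 426) (nat_lit 412) (nat_lit 362)) (XT.nd (nat_lit 78) (nat_lit 1444) (nat_lit 0) (XT.lf (nat_lit 0) (nat_lit 4025895495) (nat_lit 1444) (nat_lit 2348894897) (nat_lit 76)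 (nat_lit 1763341868) (nat_lit 603) (nat_lit 5) (nat_lit 622) (nat_lit 5) (nat_lit 604) (nat_lit 5) (nat_lit 427) (nat_lit 412) (nat_lit 361)) (XT.lf (nat_lit 0) (nat_lit 4679016264) (nat_lit 1444) (nat_lit 2040318804) (nat_lit 1520) (nat_lit 1515031560) (nat_lit 584) (nat_lit 5) (nat_lit 603) (nat_lit 5) (nat_lit 604) (nat_lit 5) (nat_lit 428) (nat_lit 412) (nat_lit 360)))) (XT.nd (nat_lit 156) (nat_lit 3496) (nat_lit 0) (XT.nd (nat_lit 78) (nat_lit 1596) (nat_lit 0) (XT.lf (nat_lit 0) (nat_lit 1128461441) (nat_lit 1596) (nat_lit 4751777912) (nat_lit 76) (nat_lit 2453428709) (nat_lit 563) (nat_lit 5) (nat_lit 584) (nat_lit 5) (nat_lit 564) (nat_lit 5) (nat_lit 429) (nat_lit 412) (nat_lit 359)) (XT.lf (nat_lit 0) (nat_lit 2496756074) (nat_lit 1596) (nat_lit 1318015211) (nat_lit 1672) (nat_lit 4621297393) (nat_lit 542) (nat_lit 5) (nat_lit 563) (nat_lit 5) (nat_lit 564) (nat_lit 5) (nat_lit 430) (nat_lit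 412) (nat_lit 358))) (XT.nd (nat_lit 78) (nat_lit 1824) (nat_lit 0) (XT.lf (nat_lit 0) (nat_lit 1424413722) (nat_lit 1672) (nat_lit 5152480881) (nat_lit 1748) (nat_lit 1964744494) (nat_lit 520) (nat_lit 5) (nat_lit 542) (nat_lit 5) (nat_lit 543) (nat_lit 5) (nat_lit 431) (nat_lit 412) (nat_lit 357)) (XT.lf (nat_lit 0) (nat_lit 372643390) (nat_lit 1748) (nat_lit 373271646) (nat_lit 1824) (nat_lit 7904672997) (nat_lit 496) (nat_lit 5) (nat_lit 519) (nat_lit 5) (nat_lit 520) (nat_lit 5) (nat_lit 432) (nat_lit 412) (nat_lit 356))))) (XT.nd (nat_lit 312) (nat_lit 3572) (nat_lit 0) (XT.nd (nat_lit 156) (nat_lit 2128) (nat_lit 0) (XT.nd (nat_lit 78) (nat_lit 1824) (nat_lit 0) (XT.lf (nat_lit 0) (nat_lit 3523851271) (nat_lit 1824) (nat_lit 679547558) (nat_lit 76) (nat_lit 4558895961) (nat_lit 496) (nat_lit 5) (nat_lit 520) (nat_lit 5) (nat_lit 497) (nat_lit 5) (nat_lit 433) (nat_lit 412) (nat_lit 355)) (XT.lf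 (nat_lit 0) (nat_lit 6375828946) (nat_lit 1900) (nat_lit 1702035908) (nat_lit 76) (nat_lit 799675863) (nat_lit 472) (nat_lit 5) (nat_lit 497) (nat_lit 5) (nat_lit 473) (nat_lit 5) (nat_lit 434) (nat_lit 412) (nat_lit 354))) (XT.nd (nat_lit 78) (nat_lit 912) (nat_lit 0) (XT.lf (nat_lit 0) (nat_lit 324371962) (nat_lit 1216) (nat_lit 2722589501) (nat_lit 76) (nat_lit 5949015133) (nat_lit 456) (nat_lit 5) (nat_lit 472) (nat_lit 5) (nat_lit 457) (nat_lit 5) (nat_lit 435) (nat_lit 412) (nat_lit 353)) (XT.lf (nat_lit 0) (nat_lit 3201230273) (nat_lit 988) (nat_lit 3742542227) (nat_lit 76) (nat_lit 2173864593) (nat_lit 444) (nat_lit 5) (nat_lit 457) (nat_lit 5) (nat_lit 445) (nat_lit 5) (nat_lit 436) (nat_lit 412) (nat_lit 352)))) (XT.nd (nat_lit 156) (nat_lit 1824) (nat_lit 0) (XT.nd (nat_lit 78) (nat_lit 836) (nat_lit 0) (XT.lf (nat_lit 0) (nat_lit 4490686999) (nat_lit 912) (nat_lit 1682122272) (nat_lit 988)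 (nat_lit 3069971661) (nat_lit 432) (nat_lit 5) (nat_lit 444) (nat_lit 5) (nat_lit 445) (nat_lit 5) (nat_lit 437) (nat_lit 412) (nat_lit 351)) (XT.lf (nat_lit 0) (nat_lit 3615613532) (nat_lit 836) (nat_lit 5632876796) (nat_lit 912) (nat_lit 122891435) (nat_lit 421) (nat_lit 5) (nat_lit 432) (nat_lit 5) (nat_lit 433) (nat_lit 5) (nat_lit 438) (nat_lit 412) (nat_lit 350))) (XT.nd (nat_lit 78) (nat_lit 836) (nat_lit 0) (XT.lf (nat_lit 0) (nat_lit 2743653988) (nat_lit 912) (nat_lit 134857901) (nat_lit 988) (nat_lit 6624870007) (nat_lit 408) (nat_lit 5) (nat_lit 420) (nat_lit 5) (nat_lit 421) (nat_lit 5) (nat_lit 439) (nat_lit 412) (nat_lit 349)) (XT.lf (nat_lit 0) (nat_lit 1867471093) (nat_lit 836) (nat_lit 4132028570) (nat_lit 912) (nat_lit 3639203519) (nat_lit 397) (nat_lit 5) (nat_lit 408) (nat_lit 5) (nat_lit 409) (nat_lit 5) (nat_lit 440) (nat_lit 412) (nat_lit 348))))))))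
noncomputable def xc51 : XT := (XT.nd (nat_lit 2262) (nat_lit 5776) (nat_lit 0) (XT.nd (nat_lit 1092) (nat_lit 6992) (nat_lit 0) (XT.nd (nat_lit 546) (nat_lit 4712) (nat_lit 0) (XT.nd (nat_lit 234) (nat_lit 3040) (nat_lit 0) (XT.nd (nat_lit 78) (nat_lit 836) (nat_lit 0) (XT.lf (nat_lit 0) (nat_lit 1012476482) (nat_lit 836) (nat_lit 8210370720) (nat_lit 912) (nat_lit 555063892) (nat_lit 386) (nat_lit 5) (nat_lit 397) (nat_lit 5) (nat_lit 398) (nat_lit 5) (nat_lit 441) (nat_lit 412) (nat_lit 347)) (XT.nd (nat_lit 78) (nat_lit 0) (nat_lit 0) (XT.lf (nat_lit 0) (nat_lit 144483813) (nat_lit 760) (nat_lit 2470348548) (nat_lit 836) (nat_lit 7305571669) (nat_lit 375) (nat_lit 5) (nat_lit 385) (nat_lit 5) (nat_lit 386) (nat_lit 5) (nat_lit 442) (nat_lit 412) (nat_lit 346)) (XT.lf (nat_lit 0) (nat_lit 5901670747) (nat_lit 836) (nat_lit 709072791) (nat_lit 76) (nat_lit 3455768578) (nat_lit 375) (nat_lit 5) (nat_lit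 386) (nat_lit 5) (nat_lit 376) (nat_lit 5) (nat_lit 443) (nat_lit 412) (nat_lit 345)))) (XT.nd (nat_lit 156) (nat_lit 1444) (nat_lit 0) (XT.nd (nat_lit 78) (nat_lit 836) (nat_lit 0) (XT.lf (nat_lit 0) (nat_lit 8670352409) (nat_lit 760) (nat_lit 638319319) (nat_lit 836) (nat_lit 907901991) (nat_lit 365) (nat_lit 5) (nat_lit 375) (nat_lit 5) (nat_lit 376) (nat_lit 5) (nat_lit 444) (nat_lit 412) (nat_lit 344)) (XT.lf (nat_lit 0) (nat_lit 2457230396) (nat_lit 836) (nat_lit 2404445224) (nat_lit 76) (nat_lit 5508293705) (nat_lit 354) (nat_lit 5) (nat_lit 365) (nat_lit 5) (nat_lit 355) (nat_lit 5) (nat_lit 445) (nat_lit 412) (nat_lit 343))) (XT.nd (nat_lit 78) (nat_lit 684) (nat_lit 0) (XT.lf (nat_lit 0) (nat_lit 5932613145) (nat_lit 836) (nat_lit 3251675729) (nat_lit 76) (nat_lit 1343126594) (nat_lit 344) (nat_lit 5) (nat_lit 355) (nat_lit 5) (nat_lit 345) (nat_lit 5) (nat_lit 446) (nat_lit 412) (nat_lit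 342)) (XT.lf (nat_lit 0) (nat_lit 6587344047) (nat_lit 684) (nat_lit 2968238977) (nat_lit 760) (nat_lit 1133136736) (nat_lit 335) (nat_lit 5) (nat_lit 344) (nat_lit 5) (nat_lit 345) (nat_lit 5) (nat_lit 447) (nat_lit 412) (nat_lit 341))))) (XT.nd (nat_lit 234) (nat_lit 2584) (nat_lit 0) (XT.nd (nat_lit 78) (nat_lit 1368) (nat_lit 0) (XT.lf (nat_lit 0) (nat_lit 2436200967) (nat_lit 760) (nat_lit 4959882513) (nat_lit 76) (nat_lit 3457750603) (nat_lit 325) (nat_lit 5) (nat_lit 335) (nat_lit 5) (nat_lit 326) (nat_lit 5) (nat_lit 448) (nat_lit 412) (nat_lit 340)) (XT.nd (nat_lit 78) (nat_lit 684) (nat_lit 0) (XT.lf (nat_lit 0) (nat_lit 5206506586) (nat_lit 684) (nat_lit 925784403) (nat_lit 760) (nat_lit 4890760886) (nat_lit 316) (nat_lit 5) (nat_lit 325) (nat_lit 5) (nat_lit 326) (nat_lit 5) (nat_lit 449) (nat_lit 412) (nat_lit 339)) (XT.lf (nat_lit 0) (nat_lit 4514794853) (nat_lit 684) (nat_lit 5479160703)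 (nat_lit 760) (nat_lit 1202297957) (nat_lit 307) (nat_lit 5) (nat_lit 316) (nat_lit 5) (nat_lit 317) (nat_lit 5) (nat_lit 450) (nat_lit 412) (nat_lit 338)))) (XT.nd (nat_lit 156) (nat_lit 1292) (nat_lit 0) (XT.nd (nat_lit 78) (nat_lit 608) (nat_lit 0) (XT.lf (nat_lit 0) (nat_lit 2596559035) (nat_lit 684) (nat_lit 7548823844) (nat_lit 76) (nat_lit 1228256249) (nat_lit 298) (nat_lit 5) (nat_lit 307) (nat_lit 5) (nat_lit 299) (nat_lit 5) (nat_lit 451) (nat_lit 412) (nat_lit 337)) (XT.lf (nat_lit 0) (nat_lit 3122625497) (nat_lit 608) (nat_lit 3428855702) (nat_lit 684) (nat_lit 5003538549) (nat_lit 290) (nat_lit 5) (nat_lit 298) (nat_lit 5) (nat_lit 299) (nat_lit 5) (nat_lit 452) (nat_lit 412) (nat_lit 336))) (XT.nd (nat_lit 78) (nat_lit 684) (nat_lit 0) (XT.lf (nat_lit 0) (nat_lit 2430079215) (nat_lit 608) (nat_lit 8241600851) (nat_lit 684) (nat_lit 1069230170) (nat_lit 282) (nat_lit 5) (nat_lit 290) (nat_lit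 5) (nat_lit 291) (nat_lit 5) (nat_lit 453) (nat_lit 412) (nat_lit 335)) (XT.lf (nat_lit 0) (nat_lit 1727399136) (nat_lit 608) (nat_lit 1265579025) (nat_lit 684) (nat_lit 8938032998) (nat_lit 273) (nat_lit 5) (nat_lit 281) (nat_lit 5) (nat_lit 282) (nat_lit 5) (nat_lit 454) (nat_lit 412) (nat_lit 334)))))) (XT.nd (nat_lit 546) (nat_lit 3648) (nat_lit 0) (XT.nd (nat_lit 234) (nat_lit 2128) (nat_lit 0) (XT.nd (nat_lit 78) (nat_lit 684) (nat_lit 0) (XT.lf (nat_lit 0) (nat_lit 1010870813) (nat_lit 532) (nat_lit 6218386063) (nat_lit 608) (nat_lit 4896083218) (nat_lit 266) (nat_lit 5) (nat_lit 273) (nat_lit 5) (nat_lit 274) (nat_lit 5) (nat_lit 455) (nat_lit 412) (nat_lit 333)) (XT.nd (nat_lit 78) (nat_lit 76) (nat_lit 0) (XT.lf (nat_lit 0) (nat_lit 311480897) (nat_lit 608) (nat_lit 11326277279) (nat_lit 684) (nat_lit 686838961) (nat_lit 258) (nat_lit 5) (nat_lit 266) (nat_lit 5) (nat_lit 267) (nat_lit 5)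 (nat_lit 456) (nat_lit 412) (nat_lit 332)) (XT.lf (nat_lit 0) (nat_lit 3677728117) (nat_lit 684) (nat_lit 416298496) (nat_lit 76) (nat_lit 8433794391) (nat_lit 257) (nat_lit 5) (nat_lit 266) (nat_lit 5) (nat_lit 258) (nat_lit 5) (nat_lit 457) (nat_lit 412) (nat_lit 331)))) (XT.nd (nat_lit 156) (nat_lit 988) (nat_lit 0) (XT.nd (nat_lit 78) (nat_lit 608) (nat_lit 0) (XT.lf (nat_lit 0) (nat_lit 8222325228) (nat_lit 608) (nat_lit 1135237849) (nat_lit 76) (nat_lit 3378320075) (nat_lit 250) (nat_lit 5) (nat_lit 258) (nat_lit 5) (nat_lit 251) (nat_lit 5) (nat_lit 458) (nat_lit 412) (nat_lit 330)) (XT.lf (nat_lit 0) (nat_lit 17788105) (nat_lit 608) (nat_lit 1849978183) (nat_lit 76) (nat_lit 11081145791) (nat_lit 242) (nat_lit 5) (nat_lit 250) (nat_lit 5) (nat_lit 243) (nat_lit 5) (nat_lit 459) (nat_lit 412) (nat_lit 329))) (XT.nd (nat_lit 78) (nat_lit 532) (nat_lit 0) (XT.lf (nat_lit 0) (nat_lit 4701202401)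 (nat_lit 532) (nat_lit 2601635089) (nat_lit 76) (nat_lit 5863349491) (nat_lit 236) (nat_lit 5) (nat_lit 243) (nat_lit 5) (nat_lit 237) (nat_lit 5) (nat_lit 460) (nat_lit 412) (nat_lit 328)) (XT.lf (nat_lit 0) (nat_lit 9581212932) (nat_lit 608) (nat_lit 3337845956) (nat_lit 76) (nat_lit 469800134) (nat_lit 229) (nat_lit 5) (nat_lit 237) (nat_lit 5) (nat_lit 230) (nat_lit 5) (nat_lit 461) (nat_lit 412) (nat_lit 327))))) (XT.nd (nat_lit 312) (nat_lit 1672) (nat_lit 0) (XT.nd (nat_lit 156) (nat_lit 988) (nat_lit 0) (XT.nd (nat_lit 78) (nat_lit 456) (nat_lit 0) (XT.lf (nat_lit 0) (nat_lit 1068743050) (nat_lit 532) (nat_lit 4098472604) (nat_lit 76) (nat_lit 8449021684) (nat_lit 222) (nat_lit 5) (nat_lit 229) (nat_lit 5) (nat_lit 223) (nat_lit 5) (nat_lit 462) (nat_lit 412) (nat_lit 326)) (XT.lf (nat_lit 0) (nat_lit 6103830110) (nat_lit 532) (nat_lit 4872477112) (nat_lit 76) (nat_lit 2872344373) (nat_lit 216)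 (nat_lit 5) (nat_lit 223) (nat_lit 5) (nat_lit 217) (nat_lit 5) (nat_lit 463) (nat_lit 412) (nat_lit 325))) (XT.nd (nat_lit 78) (nat_lit 532) (nat_lit 0) (XT.lf (nat_lit 0) (nat_lit 8436145415) (nat_lit 456) (nat_lit 2935507875) (nat_lit 532) (nat_lit 2714752008) (nat_lit 210) (nat_lit 5) (nat_lit 216) (nat_lit 5) (nat_lit 217) (nat_lit 5) (nat_lit 464) (nat_lit 412) (nat_lit 324)) (XT.lf (nat_lit 0) (nat_lit 2518662026) (nat_lit 532) (nat_lit 6448638890) (nat_lit 76) (nat_lit 5361975356) (nat_lit 203) (nat_lit 5) (nat_lit 210) (nat_lit 5) (nat_lit 204) (nat_lit 5) (nat_lit 465) (nat_lit 412) (nat_lit 323)))) (XT.nd (nat_lit 156) (nat_lit 836) (nat_lit 0) (XT.nd (nat_lit 78) (nat_lit 456) (nat_lit 0) (XT.lf (nat_lit 0) (nat_lit 7323316426) (nat_lit 380) (nat_lit 620279227) (nat_lit 456) (nat_lit 6634051466) (nat_lit 198) (nat_lit 5) (nat_lit 203) (nat_lit 5) (nat_lit 204) (nat_lit 5) (nat_lit 466) (nat_lit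 412) (nat_lit 322)) (XT.lf (nat_lit 0) (nat_lit 6749975470) (nat_lit 456) (nat_lit 6886953128) (nat_lit 532) (nat_lit 1194428084) (nat_lit 192) (nat_lit 5) (nat_lit 198) (nat_lit 5) (nat_lit 199) (nat_lit 5) (nat_lit 467) (nat_lit 412) (nat_lit 321))) (XT.nd (nat_lit 78) (nat_lit 380) (nat_lit 0) (XT.lf (nat_lit 0) (nat_lit 4422297401) (nat_lit 456) (nat_lit 8922618131) (nat_lit 76) (nat_lit 1745755541) (nat_lit 186) (nat_lit 5) (nat_lit 192) (nat_lit 5) (nat_lit 187) (nat_lit 5) (nat_lit 468) (nat_lit 412) (nat_lit 320)) (XT.lf (nat_lit 0) (nat_lit 5567597437) (nat_lit 380) (nat_lit 4728159945) (nat_lit 456) (nat_lit 5059760974) (nat_lit 181) (nat_lit 5) (nat_lit 186) (nat_lit 5) (nat_lit 187) (nat_lit 5) (nat_lit 469) (nat_lit 412) (nat_lit 319))))))) (XT.nd (nat_lit 1170) (nat_lit 608) (nat_lit 0) (XT.nd (nat_lit 546) (nat_lit 2432) (nat_lit 0) (XT.nd (nat_lit 234) (nat_lit 1520) (nat_lit 0) (XT.nd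 (nat_lit 78) (nat_lit 760) (nat_lit 0) (XT.lf (nat_lit 0) (nat_lit 795950536) (nat_lit 456) (nat_lit 10655973839) (nat_lit 76) (nat_lit 4174529197) (nat_lit 175) (nat_lit 5) (nat_lit 181) (nat_lit 5) (nat_lit 176) (nat_lit 5) (nat_lit 470) (nat_lit 412) (nat_lit 318)) (XT.nd (nat_lit 78) (nat_lit 380) (nat_lit 0) (XT.lf (nat_lit 0) (nat_lit 4343203386) (nat_lit 380) (nat_lit 2510349781) (nat_lit 456) (nat_lit 9049396062) (nat_lit 170) (nat_lit 5) (nat_lit 175) (nat_lit 5) (nat_lit 176) (nat_lit 5) (nat_lit 471) (nat_lit 412) (nat_lit 317)) (XT.lf (nat_lit 0) (nat_lit 3707569120) (nat_lit 380) (nat_lit 9494063993) (nat_lit 456) (nat_lit 2983932167) (nat_lit 165) (nat_lit 5) (nat_lit 170) (nat_lit 5) (nat_lit 171) (nat_lit 5) (nat_lit 472) (nat_lit 412) (nat_lit 316)))) (XT.nd (nat_lit 156) (nat_lit 760) (nat_lit 0) (XT.nd (nat_lit 78) (nat_lit 304) (nat_lit 0) (XT.lf (nat_lit 0) (nat_lit 3069178888)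 (nat_lit 380) (nat_lit 235974553) (nat_lit 456) (nat_lit 13169393902) (nat_lit 159) (nat_lit 5) (nat_lit 164) (nat_lit 5) (nat_lit 165) (nat_lit 5) (nat_lit 473) (nat_lit 412) (nat_lit 315)) (XT.lf (nat_lit 0) (nat_lit 2385117743) (nat_lit 304) (nat_lit 7487842386) (nat_lit 380) (nat_lit 6896232967) (nat_lit 155) (nat_lit 5) (nat_lit 159) (nat_lit 5) (nat_lit 160) (nat_lit 5) (nat_lit 474) (nat_lit 412) (nat_lit 314))) (XT.nd (nat_lit 78) (nat_lit 380) (nat_lit 0) (XT.lf (nat_lit 0) (nat_lit 1721284489) (nat_lit 380) (nat_lit 15003585620) (nat_lit 456) (nat_lit 346067189) (nat_lit 150) (nat_lit 5) (nat_lit 155) (nat_lit 5) (nat_lit 156) (nat_lit 5) (nat_lit 475) (nat_lit 412) (nat_lit 313)) (XT.lf (nat_lit 0) (nat_lit 1000101294) (nat_lit 304) (nat_lit 5441462257) (nat_lit 380) (nat_lit 10936841470) (nat_lit 145) (nat_lit 5) (nat_lit 149) (nat_lit 5) (nat_lit 150) (nat_lit 5) (nat_lit 476) (nat_lit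 412) (nat_lit 312))))) (XT.nd (nat_lit 312) (nat_lit 1368) (nat_lit 0) (XT.nd (nat_lit 156) (nat_lit 608) (nat_lit 0) (XT.nd (nat_lit 78) (nat_lit 76) (nat_lit 0) (XT.lf (nat_lit 0) (nat_lit 282173586) (nat_lit 380) (nat_lit 13251795304) (nat_lit 456) (nat_lit 4158965614) (nat_lit 140) (nat_lit 5) (nat_lit 145) (nat_lit 5) (nat_lit 146) (nat_lit 5) (nat_lit 477) (nat_lit 412) (nat_lit 311)) (XT.lf (nat_lit 0) (nat_lit 2904371160) (nat_lit 456) (nat_lit 450439214) (nat_lit 76) (nat_lit 14659340645) (nat_lit 139) (nat_lit 5) (nat_lit 145) (nat_lit 5) (nat_lit 140) (nat_lit 5) (nat_lit 478) (nat_lit 412) (nat_lit 310))) (XT.nd (nat_lit 78) (nat_lit 304) (nat_lit 0) (XT.lf (nat_lit 0) (nat_lit 10251994812) (nat_lit 380) (nat_lit 1217517583) (nat_lit 76) (nat_lit 6872364393) (nat_lit 135) (nat_lit 5) (nat_lit 140) (nat_lit 5) (nat_lit 136) (nat_lit 5) (nat_lit 479) (nat_lit 412) (nat_lit 309)) (XT.lf (nat_lit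 0) (nat_lit 16704524163) (nat_lit 304) (nat_lit 1221777092) (nat_lit 380) (nat_lit 751008375) (nat_lit 131) (nat_lit 5) (nat_lit 135) (nat_lit 5) (nat_lit 136) (nat_lit 5) (nat_lit 480) (nat_lit 412) (nat_lit 308)))) (XT.nd (nat_lit 156) (nat_lit 684) (nat_lit 0) (XT.nd (nat_lit 78) (nat_lit 304) (nat_lit 0) (XT.lf (nat_lit 0) (nat_lit 6866924711) (nat_lit 380) (nat_lit 2799102939) (nat_lit 76) (nat_lit 9352930485) (nat_lit 126) (nat_lit 5) (nat_lit 131) (nat_lit 5) (nat_lit 127) (nat_lit 5) (nat_lit 481) (nat_lit 412) (nat_lit 307)) (XT.lf (nat_lit 0) (nat_lit 14806504199) (nat_lit 380) (nat_lit 3611542783) (nat_lit 76) (nat_lit 950643951) (nat_lit 122) (nat_lit 5) (nat_lit 127) (nat_lit 5) (nat_lit 123) (nat_lit 5) (nat_lit 482) (nat_lit 412) (nat_lit 306))) (XT.nd (nat_lit 78) (nat_lit 304) (nat_lit 0) (XT.lf (nat_lit 0) (nat_lit 3369991861) (nat_lit 380) (nat_lit 4476895511) (nat_lit 76) (nat_lit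 11878459337) (nat_lit 117) (nat_lit 5) (nat_lit 122) (nat_lit 5) (nat_lit 118) (nat_lit 5) (nat_lit 483) (nat_lit 412) (nat_lit 305)) (XT.lf (nat_lit 0) (nat_lit 11593272580) (nat_lit 380) (nat_lit 5360537962) (nat_lit 76) (nat_lit 3135986438) (nat_lit 113) (nat_lit 5) (nat_lit 118) (nat_lit 5) (nat_lit 114) (nat_lit 5) (nat_lit 484) (nat_lit 412) (nat_lit 304)))))) (XT.nd (nat_lit 57252) (nat_lit 0) (nat_lit 37696) (XT.nd (nat_lit 56940) (nat_lit 0) (nat_lit 41496) (XT.nd (nat_lit 78) (nat_lit 380) (nat_lit 0) (XT.lf (nat_lit 0) (nat_lit 14198204360) (nat_lit 228) (nat_lit 6014346464) (nat_lit 304) (nat_lit 249644271) (nat_lit 110) (nat_lit 5) (nat_lit 113) (nat_lit 5) (nat_lit 114) (nat_lit 5) (nat_lit 485) (nat_lit 412) (nat_lit 303)) (XT.nd (nat_lit 56784) (nat_lit 0) (nat_lit 42636) (XT.lf (nat_lit 0) (nat_lit 8271314331) (nat_lit 380) (nat_lit 7223795754) (nat_lit 76) (nat_lit 5346888733) (nat_lit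 105) (nat_lit 5) (nat_lit 110) (nat_lit 5) (nat_lit 106) (nat_lit 5) (nat_lit 486) (nat_lit 412) (nat_lit 302)) (XT.lf (nat_lit 0) (nat_lit 100774419) (nat_lit 0) (nat_lit 100774419) (nat_lit 1140) (nat_lit 3377078369) (nat_lit 666) (nat_lit 5) (nat_lit 666) (nat_lit 3) (nat_lit 681) (nat_lit 3) (nat_lit 413) (nat_lit 413) (nat_lit 374)))) (XT.nd (nat_lit 156) (nat_lit 1140) (nat_lit 0) (XT.nd (nat_lit 78) (nat_lit 0) (nat_lit 0) (XT.lf (nat_lit 0) (nat_lit 2960862006) (nat_lit 1140) (nat_lit 1615012784) (nat_lit 1216) (nat_lit 2637604182) (nat_lit 666) (nat_lit 5) (nat_lit 681) (nat_lit 3) (nat_lit 682) (nat_lit 5) (nat_lit 414) (nat_lit 413) (nat_lit 373)) (XT.lf (nat_lit 76) (nat_lit 3883731008) (nat_lit 0) (nat_lit 1639603764) (nat_lit 1216) (nat_lit 1749499883) (nat_lit 667) (nat_lit 5) (nat_lit 666) (nat_lit 5) (nat_lit 682) (nat_lit 5) (nat_lit 415) (nat_lit 413) (nat_lit 372))) (XT.nd (nat_lit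 78) (nat_lit 0) (nat_lit 0) (XT.lf (nat_lit 0) (nat_lit 755984184) (nat_lit 1216) (nat_lit 5137698905) (nat_lit 1292) (nat_lit 1441421175) (nat_lit 651) (nat_lit 5) (nat_lit 667) (nat_lit 5) (nat_lit 668) (nat_lit 5) (nat_lit 416) (nat_lit 413) (nat_lit 371)) (XT.lf (nat_lit 76) (nat_lit 529722890) (nat_lit 0) (nat_lit 2726872163) (nat_lit 1292) (nat_lit 4143544605) (nat_lit 652) (nat_lit 5) (nat_lit 651) (nat_lit 5) (nat_lit 668) (nat_lit 5) (nat_lit 417) (nat_lit 413) (nat_lit 370))))) (XT.nd (nat_lit 312) (nat_lit 2584) (nat_lit 0) (XT.nd (nat_lit 156) (nat_lit 0) (nat_lit 76) (XT.nd (nat_lit 78) (nat_lit 1292) (nat_lit 0) (XT.lf (nat_lit 0) (nat_lit 5779462757) (nat_lit 1216) (nat_lit 1087384337) (nat_lit 1292) (nat_lit 601337747) (nat_lit 652) (nat_lit 5) (nat_lit 668) (nat_lit 5) (nat_lit 669) (nat_lit 5) (nat_lit 418) (nat_lit 413) (nat_lit 369)) (XT.lf (nat_lit 0) (nat_lit 789649939) (nat_lit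 1292) (nat_lit 2682732627) (nat_lit 1368) (nat_lit 4066564737) (nat_lit 635) (nat_lit 5) (nat_lit 652) (nat_lit 5) (nat_lit 653) (nat_lit 5) (nat_lit 419) (nat_lit 413) (nat_lit 368))) (XT.nd (nat_lit 78) (nat_lit 0) (nat_lit 0) (XT.lf (nat_lit 0) (nat_lit 3262483723) (nat_lit 1292) (nat_lit 4252797777) (nat_lit 1368) (nat_lit 97470046) (nat_lit 636) (nat_lit 5) (nat_lit 653) (nat_lit 5) (nat_lit 654) (nat_lit 5) (nat_lit 420) (nat_lit 413) (nat_lit 367)) (XT.lf (nat_lit 76) (nat_lit 1879052385) (nat_lit 0) (nat_lit 3899616369) (nat_lit 1368) (nat_lit 1910720977) (nat_lit 637) (nat_lit 5) (nat_lit 636) (nat_lit 5) (nat_lit 654) (nat_lit 5) (nat_lit 421) (nat_lit 413) (nat_lit 366)))) (XT.nd (nat_lit 156) (nat_lit 1292) (nat_lit 0) (XT.nd (nat_lit 78) (nat_lit 0) (nat_lit 76) (XT.lf (nat_lit 76) (nat_lit 432180986) (nat_lit 0) (nat_lit 110762096) (nat_lit 1444) (nat_lit 7226332269) (nat_lit 619) (nat_lit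 5) (nat_lit 618) (nat_lit 5) (nat_lit 637) (nat_lit 5) (nat_lit 422) (nat_lit 413) (nat_lit 365)) (XT.lf (nat_lit 0) (nat_lit 3027912687) (nat_lit 1368) (nat_lit 1002537254) (nat_lit 1444) (nat_lit 3821184804) (nat_lit 619) (nat_lit 5) (nat_lit 637) (nat_lit 5) (nat_lit 638) (nat_lit 5) (nat_lit 423) (nat_lit 413) (nat_lit 364))) (XT.nd (nat_lit 78) (nat_lit 1368) (nat_lit 0) (XT.lf (nat_lit 76) (nat_lit 5539975904) (nat_lit 0) (nat_lit 5772011) (nat_lit 1444) (nat_lit 2391553490) (nat_lit 620) (nat_lit 5) (nat_lit 619) (nat_lit 5) (nat_lit 638) (nat_lit 5) (nat_lit 424) (nat_lit 413) (nat_lit 363)) (XT.lf (nat_lit 0) (nat_lit 96935724) (nat_lit 1444) (nat_lit 3785500560) (nat_lit 1520) (nat_lit 4143392808) (nat_lit 601) (nat_lit 5) (nat_lit 620) (nat_lit 5) (nat_lit 621) (nat_lit 5) (nat_lit 425) (nat_lit 413) (nat_lit 362))))))))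
noncomputable def xc52 : XT := (XT.nd (nat_lit 2262) (nat_lit 12084) (nat_lit 0) (XT.nd (nat_lit 1092) (nat_lit 10564) (nat_lit 0) (XT.nd (nat_lit 546) (nat_lit 7524) (nat_lit 0) (XT.nd (nat_lit 234) (nat_lit 4940) (nat_lit 0) (XT.nd (nat_lit 78) (nat_lit 1368) (nat_lit 0) (XT.lf (nat_lit 0) (nat_lit 2590881358) (nat_lit 1444) (nat_lit 5158880453) (nat_lit 1520) (nat_lit 367671366) (nat_lit 602) (nat_lit 5) (nat_lit 621) (nat_lit 5) (nat_lit 622) (nat_lit 5) (nat_lit 426) (nat_lit 413) (nat_lit 361)) (XT.nd (nat_lit 78) (nat_lit 1368) (nat_lit 0) (XT.lf (nat_lit 76) (nat_lit 1685836850) (nat_lit 0) (nat_lit 3463568034) (nat_lit 1520) (nat_lit 3062587838) (nat_lit 603) (nat_lit 5) (nat_lit 602) (nat_lit 5) (nat_lit 622) (nat_lit 5) (nat_lit 427) (nat_lit 413) (nat_lit 360)) (XT.lf (nat_lit 0) (nat_lit 440954283) (nat_lit 1444) (nat_lit 7316864407) (nat_lit 1520) (nat_lit 552110123) (nat_lit 584) (nat_lit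 5) (nat_lit 603) (nat_lit 5) (nat_lit 604) (nat_lit 5) (nat_lit 428) (nat_lit 413) (nat_lit 359)))) (XT.nd (nat_lit 156) (nat_lit 3344) (nat_lit 0) (XT.nd (nat_lit 78) (nat_lit 1520) (nat_lit 0) (XT.lf (nat_lit 0) (nat_lit 2004844011) (nat_lit 1520) (nat_lit 796429937) (nat_lit 76) (nat_lit 5609310610) (nat_lit 583) (nat_lit 5) (nat_lit 603) (nat_lit 5) (nat_lit 584) (nat_lit 5) (nat_lit 429) (nat_lit 413) (nat_lit 358)) (XT.lf (nat_lit 0) (nat_lit 4617941163) (nat_lit 1596) (nat_lit 2011671255) (nat_lit 76) (nat_lit 1884838127) (nat_lit 563) (nat_lit 5) (nat_lit 584) (nat_lit 5) (nat_lit 564) (nat_lit 5) (nat_lit 430) (nat_lit 413) (nat_lit 357))) (XT.nd (nat_lit 78) (nat_lit 1748) (nat_lit 0) (XT.lf (nat_lit 0) (nat_lit 5407551018) (nat_lit 1596) (nat_lit 1895052481) (nat_lit 1672) (nat_lit 1318967768) (nat_lit 542) (nat_lit 5) (nat_lit 563) (nat_lit 5) (nat_lit 564) (nat_lit 5) (nat_lit 431) (nat_lit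 413) (nat_lit 356)) (XT.lf (nat_lit 0) (nat_lit 1315065963) (nat_lit 1748) (nat_lit 4413679635) (nat_lit 76) (nat_lit 3003054907) (nat_lit 519) (nat_lit 5) (nat_lit 542) (nat_lit 5) (nat_lit 520) (nat_lit 5) (nat_lit 432) (nat_lit 413) (nat_lit 355))))) (XT.nd (nat_lit 234) (nat_lit 2736) (nat_lit 0) (XT.nd (nat_lit 78) (nat_lit 3040) (nat_lit 0) (XT.lf (nat_lit 0) (nat_lit 3240633369) (nat_lit 1748) (nat_lit 761947016) (nat_lit 1824) (nat_lit 4842736316) (nat_lit 496) (nat_lit 5) (nat_lit 519) (nat_lit 5) (nat_lit 520) (nat_lit 5) (nat_lit 433) (nat_lit 413) (nat_lit 354)) (XT.nd (nat_lit 78) (nat_lit 1216) (nat_lit 0) (XT.lf (nat_lit 0) (nat_lit 2167375497) (nat_lit 1824) (nat_lit 4613969240) (nat_lit 1900) (nat_lit 2180683130) (nat_lit 472) (nat_lit 5) (nat_lit 496) (nat_lit 5) (nat_lit 497) (nat_lit 5) (nat_lit 434) (nat_lit 413) (nat_lit 353)) (XT.lf (nat_lit 0) (nat_lit 547399846) (nat_lit 1216)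 (nat_lit 7968436161) (nat_lit 76) (nat_lit 566462786) (nat_lit 456) (nat_lit 5) (nat_lit 472) (nat_lit 5) (nat_lit 457) (nat_lit 5) (nat_lit 435) (nat_lit 413) (nat_lit 352)))) (XT.nd (nat_lit 156) (nat_lit 1824) (nat_lit 0) (XT.nd (nat_lit 78) (nat_lit 0) (nat_lit 0) (XT.lf (nat_lit 0) (nat_lit 46094374) (nat_lit 912) (nat_lit 3299937317) (nat_lit 988) (nat_lit 5859493028) (nat_lit 444) (nat_lit 5) (nat_lit 456) (nat_lit 5) (nat_lit 457) (nat_lit 5) (nat_lit 436) (nat_lit 413) (nat_lit 351)) (XT.lf (nat_lit 0) (nat_lit 6238481624) (nat_lit 988) (nat_lit 991463373) (nat_lit 76) (nat_lit 2102307013) (nat_lit 444) (nat_lit 5) (nat_lit 457) (nat_lit 5) (nat_lit 445) (nat_lit 5) (nat_lit 437) (nat_lit 413) (nat_lit 350))) (XT.nd (nat_lit 78) (nat_lit 912) (nat_lit 0) (XT.lf (nat_lit 0) (nat_lit 7442308195) (nat_lit 912) (nat_lit 1789522545) (nat_lit 988) (nat_lit 230669589) (nat_lit 432) (nat_lit 5) (nat_lit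 444) (nat_lit 5) (nat_lit 445) (nat_lit 5) (nat_lit 438) (nat_lit 413) (nat_lit 349)) (XT.lf (nat_lit 0) (nat_lit 2701899283) (nat_lit 912) (nat_lit 3061775933) (nat_lit 76) (nat_lit 3832245006) (nat_lit 420) (nat_lit 5) (nat_lit 432) (nat_lit 5) (nat_lit 421) (nat_lit 5) (nat_lit 439) (nat_lit 413) (nat_lit 348)))))) (XT.nd (nat_lit 546) (nat_lit 4788) (nat_lit 0) (XT.nd (nat_lit 234) (nat_lit 3116) (nat_lit 0) (XT.nd (nat_lit 78) (nat_lit 1748) (nat_lit 0) (XT.lf (nat_lit 0) (nat_lit 5645312217) (nat_lit 912) (nat_lit 82342989) (nat_lit 988) (nat_lit 4005491723) (nat_lit 408) (nat_lit 5) (nat_lit 420) (nat_lit 5) (nat_lit 421) (nat_lit 5) (nat_lit 440) (nat_lit 413) (nat_lit 347)) (XT.nd (nat_lit 78) (nat_lit 912) (nat_lit 0) (XT.lf (nat_lit 0) (nat_lit 4751180639) (nat_lit 836) (nat_lit 4129338165) (nat_lit 912) (nat_lit 993246476) (nat_lit 397) (nat_lit 5) (nat_lit 408) (nat_lit 5) (nat_lit 409)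 (nat_lit 5) (nat_lit 441) (nat_lit 413) (nat_lit 346)) (XT.lf (nat_lit 0) (nat_lit 2094914434) (nat_lit 912) (nat_lit 6155050765) (nat_lit 76) (nat_lit 1768100283) (nat_lit 385) (nat_lit 5) (nat_lit 397) (nat_lit 5) (nat_lit 386) (nat_lit 5) (nat_lit 442) (nat_lit 413) (nat_lit 345)))) (XT.nd (nat_lit 156) (nat_lit 1596) (nat_lit 0) (XT.nd (nat_lit 78) (nat_lit 760) (nat_lit 0) (XT.lf (nat_lit 0) (nat_lit 2971896838) (nat_lit 760) (nat_lit 2321391432) (nat_lit 836) (nat_lit 4872655291) (nat_lit 375) (nat_lit 5) (nat_lit 385) (nat_lit 5) (nat_lit 386) (nat_lit 5) (nat_lit 443) (nat_lit 413) (nat_lit 344)) (XT.lf (nat_lit 0) (nat_lit 2087029508) (nat_lit 760) (nat_lit 6530930323) (nat_lit 836) (nat_lit 1699692604) (nat_lit 365) (nat_lit 5) (nat_lit 375) (nat_lit 5) (nat_lit 376) (nat_lit 5) (nat_lit 444) (nat_lit 413) (nat_lit 343))) (XT.nd (nat_lit 78) (nat_lit 760) (nat_lit 0) (XT.lf (nat_lit 0) (nat_lit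 1207143158) (nat_lit 760) (nat_lit 364189957) (nat_lit 836) (nat_lit 8901908215) (nat_lit 354) (nat_lit 5) (nat_lit 364) (nat_lit 5) (nat_lit 365) (nat_lit 5) (nat_lit 445) (nat_lit 413) (nat_lit 342)) (XT.lf (nat_lit 0) (nat_lit 306971771) (nat_lit 760) (nat_lit 4659618003) (nat_lit 836) (nat_lit 5665700850) (nat_lit 344) (nat_lit 5) (nat_lit 354) (nat_lit 5) (nat_lit 355) (nat_lit 5) (nat_lit 446) (nat_lit 413) (nat_lit 341))))) (XT.nd (nat_lit 312) (nat_lit 2660) (nat_lit 0) (XT.nd (nat_lit 156) (nat_lit 1368) (nat_lit 0) (XT.nd (nat_lit 78) (nat_lit 760) (nat_lit 0) (XT.lf (nat_lit 0) (nat_lit 8493409498) (nat_lit 836) (nat_lit 569420493) (nat_lit 76) (nat_lit 1732688541) (nat_lit 344) (nat_lit 5) (nat_lit 355) (nat_lit 5) (nat_lit 345) (nat_lit 5) (nat_lit 447) (nat_lit 413) (nat_lit 340)) (XT.lf (nat_lit 0) (nat_lit 1194845935) (nat_lit 760) (nat_lit 1450886723) (nat_lit 76) (nat_lit 8316806855)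 (nat_lit 334) (nat_lit 5) (nat_lit 344) (nat_lit 5) (nat_lit 335) (nat_lit 5) (nat_lit 448) (nat_lit 413) (nat_lit 339))) (XT.nd (nat_lit 78) (nat_lit 684) (nat_lit 0) (XT.lf (nat_lit 0) (nat_lit 4808034056) (nat_lit 760) (nat_lit 2344382781) (nat_lit 76) (nat_lit 3980999071) (nat_lit 325) (nat_lit 5) (nat_lit 335) (nat_lit 5) (nat_lit 326) (nat_lit 5) (nat_lit 449) (nat_lit 413) (nat_lit 338)) (XT.lf (nat_lit 0) (nat_lit 8082150569) (nat_lit 684) (nat_lit 483558877) (nat_lit 760) (nat_lit 2742988432) (nat_lit 316) (nat_lit 5) (nat_lit 325) (nat_lit 5) (nat_lit 326) (nat_lit 5) (nat_lit 450) (nat_lit 413) (nat_lit 337)))) (XT.nd (nat_lit 156) (nat_lit 1292) (nat_lit 0) (XT.nd (nat_lit 78) (nat_lit 608) (nat_lit 0) (XT.lf (nat_lit 0) (nat_lit 997060934) (nat_lit 760) (nat_lit 4127674800) (nat_lit 76) (nat_lit 6363128627) (nat_lit 306) (nat_lit 5) (nat_lit 316) (nat_lit 5) (nat_lit 307) (nat_lit 5) (nat_lit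 451) (nat_lit 413) (nat_lit 336)) (XT.lf (nat_lit 0) (nat_lit 4849984675) (nat_lit 684) (nat_lit 5033598927) (nat_lit 76) (nat_lit 1787701854) (nat_lit 298) (nat_lit 5) (nat_lit 307) (nat_lit 5) (nat_lit 299) (nat_lit 5) (nat_lit 452) (nat_lit 413) (nat_lit 335))) (XT.nd (nat_lit 78) (nat_lit 684) (nat_lit 0) (XT.lf (nat_lit 0) (nat_lit 5913513237) (nat_lit 608) (nat_lit 2964188419) (nat_lit 684) (nat_lit 2981324419) (nat_lit 290) (nat_lit 5) (nat_lit 298) (nat_lit 5) (nat_lit 299) (nat_lit 5) (nat_lit 453) (nat_lit 413) (nat_lit 334)) (XT.lf (nat_lit 0) (nat_lit 1015718744) (nat_lit 684) (nat_lit 6863237669) (nat_lit 76) (nat_lit 4172224198) (nat_lit 281) (nat_lit 5) (nat_lit 290) (nat_lit 5) (nat_lit 282) (nat_lit 5) (nat_lit 454) (nat_lit 413) (nat_lit 333))))))) (XT.nd (nat_lit 1092) (nat_lit 5244) (nat_lit 0) (XT.nd (nat_lit 546) (nat_lit 3420) (nat_lit 0) (XT.nd (nat_lit 234) (nat_lit 1596) (nat_lit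 0) (XT.nd (nat_lit 78) (nat_lit 1216) (nat_lit 0) (XT.lf (nat_lit 0) (nat_lit 4454863975) (nat_lit 608) (nat_lit 686617307) (nat_lit 684) (nat_lit 7106239042) (nat_lit 273) (nat_lit 5) (nat_lit 281) (nat_lit 5) (nat_lit 282) (nat_lit 5) (nat_lit 455) (nat_lit 413) (nat_lit 332)) (XT.nd (nat_lit 78) (nat_lit 684) (nat_lit 0) (XT.lf (nat_lit 0) (nat_lit 3710042553) (nat_lit 532) (nat_lit 5756060032) (nat_lit 608) (nat_lit 2982552824) (nat_lit 266) (nat_lit 5) (nat_lit 273) (nat_lit 5) (nat_lit 274) (nat_lit 5) (nat_lit 456) (nat_lit 413) (nat_lit 331)) (XT.lf (nat_lit 0) (nat_lit 1297509340) (nat_lit 684) (nat_lit 9681160832) (nat_lit 76) (nat_lit 1675799903) (nat_lit 257) (nat_lit 5) (nat_lit 266) (nat_lit 5) (nat_lit 258) (nat_lit 5) (nat_lit 457) (nat_lit 413) (nat_lit 330)))) (XT.nd (nat_lit 156) (nat_lit 532) (nat_lit 0) (XT.nd (nat_lit 78) (nat_lit 532) (nat_lit 0) (XT.lf (nat_lit 0) (nat_lit 2209664245)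 (nat_lit 532) (nat_lit 3530291072) (nat_lit 608) (nat_lit 7124620337) (nat_lit 250) (nat_lit 5) (nat_lit 257) (nat_lit 5) (nat_lit 258) (nat_lit 5) (nat_lit 458) (nat_lit 413) (nat_lit 329)) (XT.lf (nat_lit 0) (nat_lit 1450515382) (nat_lit 532) (nat_lit 8930026037) (nat_lit 608) (nat_lit 2699146451) (nat_lit 243) (nat_lit 5) (nat_lit 250) (nat_lit 5) (nat_lit 251) (nat_lit 5) (nat_lit 459) (nat_lit 413) (nat_lit 328))) (XT.nd (nat_lit 78) (nat_lit 0) (nat_lit 0) (XT.lf (nat_lit 0) (nat_lit 687091917) (nat_lit 456) (nat_lit 1211409014) (nat_lit 532) (nat_lit 11401236046) (nat_lit 236) (nat_lit 5) (nat_lit 242) (nat_lit 5) (nat_lit 243) (nat_lit 5) (nat_lit 460) (nat_lit 413) (nat_lit 327)) (XT.lf (nat_lit 0) (nat_lit 6684397260) (nat_lit 532) (nat_lit 105822885) (nat_lit 76) (nat_lit 6734071523) (nat_lit 236) (nat_lit 5) (nat_lit 243) (nat_lit 5) (nat_lit 237) (nat_lit 5) (nat_lit 461) (nat_lit 413)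 (nat_lit 326))))) (XT.nd (nat_lit 234) (nat_lit 1900) (nat_lit 0) (XT.nd (nat_lit 78) (nat_lit 988) (nat_lit 0) (XT.lf (nat_lit 0) (nat_lit 11678314293) (nat_lit 608) (nat_lit 874463597) (nat_lit 76) (nat_lit 1201516954) (nat_lit 229) (nat_lit 5) (nat_lit 237) (nat_lit 5) (nat_lit 230) (nat_lit 5) (nat_lit 462) (nat_lit 413) (nat_lit 325)) (XT.nd (nat_lit 78) (nat_lit 456) (nat_lit 0) (XT.lf (nat_lit 0) (nat_lit 2885914678) (nat_lit 532) (nat_lit 1675741027) (nat_lit 76) (nat_lit 9427331682) (nat_lit 222) (nat_lit 5) (nat_lit 229) (nat_lit 5) (nat_lit 223) (nat_lit 5) (nat_lit 463) (nat_lit 413) (nat_lit 324)) (XT.lf (nat_lit 0) (nat_lit 8041223023) (nat_lit 532) (nat_lit 2484147029) (nat_lit 76) (nat_lit 3703621663) (nat_lit 216) (nat_lit 5) (nat_lit 223) (nat_lit 5) (nat_lit 217) (nat_lit 5) (nat_lit 464) (nat_lit 413) (nat_lit 323)))) (XT.nd (nat_lit 156) (nat_lit 912) (nat_lit 0) (XT.nd (nat_lit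 78) (nat_lit 532) (nat_lit 0) (XT.lf (nat_lit 0) (nat_lit 11182614851) (nat_lit 456) (nat_lit 2249559280) (nat_lit 532) (nat_lit 1042403020) (nat_lit 210) (nat_lit 5) (nat_lit 216) (nat_lit 5) (nat_lit 217) (nat_lit 5) (nat_lit 465) (nat_lit 413) (nat_lit 322)) (XT.lf (nat_lit 0) (nat_lit 4295732664) (nat_lit 532) (nat_lit 4137603715) (nat_lit 76) (nat_lit 6291756666) (nat_lit 203) (nat_lit 5) (nat_lit 210) (nat_lit 5) (nat_lit 204) (nat_lit 5) (nat_lit 466) (nat_lit 413) (nat_lit 321))) (XT.nd (nat_lit 78) (nat_lit 532) (nat_lit 0) (XT.lf (nat_lit 0) (nat_lit 9850872271) (nat_lit 456) (nat_lit 4975728859) (nat_lit 76) (nat_lit 154965642) (nat_lit 198) (nat_lit 5) (nat_lit 204) (nat_lit 5) (nat_lit 199) (nat_lit 5) (nat_lit 467) (nat_lit 413) (nat_lit 320)) (XT.lf (nat_lit 0) (nat_lit 437069241) (nat_lit 532) (nat_lit 5842209966) (nat_lit 76) (nat_lit 8964125105) (nat_lit 191) (nat_lit 5) (nat_lit 198)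 (nat_lit 5) (nat_lit 192) (nat_lit 5) (nat_lit 468) (nat_lit 413) (nat_lit 319)))))) (XT.nd (nat_lit 546) (nat_lit 2508) (nat_lit 0) (XT.nd (nat_lit 234) (nat_lit 1520) (nat_lit 0) (XT.nd (nat_lit 78) (nat_lit 836) (nat_lit 0) (XT.lf (nat_lit 0) (nat_lit 6179157059) (nat_lit 456) (nat_lit 6729686041) (nat_lit 76) (nat_lit 2602036211) (nat_lit 186) (nat_lit 5) (nat_lit 192) (nat_lit 5) (nat_lit 187) (nat_lit 5) (nat_lit 469) (nat_lit 413) (nat_lit 318)) (XT.nd (nat_lit 78) (nat_lit 456) (nat_lit 0) (XT.lf (nat_lit 0) (nat_lit 8155315511) (nat_lit 380) (nat_lit 4041915529) (nat_lit 456) (nat_lit 3587073586) (nat_lit 181) (nat_lit 5) (nat_lit 186) (nat_lit 5) (nat_lit 187) (nat_lit 5) (nat_lit 470) (nat_lit 413) (nat_lit 317)) (XT.lf (nat_lit 0) (nat_lit 2397298521) (nat_lit 456) (nat_lit 8547173237) (nat_lit 76) (nat_lit 5119200083) (nat_lit 175) (nat_lit 5) (nat_lit 181) (nat_lit 5) (nat_lit 176) (nat_lit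 5) (nat_lit 471) (nat_lit 413) (nat_lit 316)))) (XT.nd (nat_lit 156) (nat_lit 760) (nat_lit 0) (XT.nd (nat_lit 78) (nat_lit 380) (nat_lit 0) (XT.lf (nat_lit 0) (nat_lit 6862580105) (nat_lit 380) (nat_lit 1743614909) (nat_lit 456) (nat_lit 7742876793) (nat_lit 170) (nat_lit 5) (nat_lit 175) (nat_lit 5) (nat_lit 176) (nat_lit 5) (nat_lit 472) (nat_lit 413) (nat_lit 315)) (XT.lf (nat_lit 0) (nat_lit 6194201910) (nat_lit 380) (nat_lit 8926186759) (nat_lit 456) (nat_lit 1520264979) (nat_lit 165) (nat_lit 5) (nat_lit 170) (nat_lit 5) (nat_lit 171) (nat_lit 5) (nat_lit 473) (nat_lit 413) (nat_lit 314))) (XT.nd (nat_lit 78) (nat_lit 304) (nat_lit 0) (XT.lf (nat_lit 0) (nat_lit 4911743715) (nat_lit 456) (nat_lit 11424468939) (nat_lit 76) (nat_lit 602399115) (nat_lit 159) (nat_lit 5) (nat_lit 165) (nat_lit 5) (nat_lit 160) (nat_lit 5) (nat_lit 474) (nat_lit 413) (nat_lit 313)) (XT.lf (nat_lit 0) (nat_lit 4799517055)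 (nat_lit 304) (nat_lit 6849905066) (nat_lit 380) (nat_lit 5593218700) (nat_lit 155) (nat_lit 5) (nat_lit 159) (nat_lit 5) (nat_lit 160) (nat_lit 5) (nat_lit 475) (nat_lit 413) (nat_lit 312))))) (XT.nd (nat_lit 312) (nat_lit 988) (nat_lit 0) (XT.nd (nat_lit 156) (nat_lit 760) (nat_lit 0) (XT.nd (nat_lit 78) (nat_lit 304) (nat_lit 0) (XT.lf (nat_lit 0) (nat_lit 1115614787) (nat_lit 456) (nat_lit 13459832001) (nat_lit 76) (nat_lit 2978295617) (nat_lit 149) (nat_lit 5) (nat_lit 155) (nat_lit 5) (nat_lit 150) (nat_lit 5) (nat_lit 476) (nat_lit 413) (nat_lit 311)) (XT.lf (nat_lit 0) (nat_lit 3340006973) (nat_lit 304) (nat_lit 4734450513) (nat_lit 380) (nat_lit 9796485857) (nat_lit 145) (nat_lit 5) (nat_lit 149) (nat_lit 5) (nat_lit 150) (nat_lit 5) (nat_lit 477) (nat_lit 413) (nat_lit 310))) (XT.nd (nat_lit 78) (nat_lit 380) (nat_lit 0) (XT.lf (nat_lit 0) (nat_lit 2585853759) (nat_lit 380) (nat_lit 12772237523)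 (nat_lit 456) (nat_lit 2837248911) (nat_lit 140) (nat_lit 5) (nat_lit 145) (nat_lit 5) (nat_lit 146) (nat_lit 5) (nat_lit 478) (nat_lit 413) (nat_lit 309)) (XT.lf (nat_lit 0) (nat_lit 1806542454) (nat_lit 304) (nat_lit 2582625764) (nat_lit 380) (nat_lit 14137434708) (nat_lit 135) (nat_lit 5) (nat_lit 139) (nat_lit 5) (nat_lit 140) (nat_lit 5) (nat_lit 479) (nat_lit 413) (nat_lit 308)))) (XT.nd (nat_lit 156) (nat_lit 304) (nat_lit 0) (XT.nd (nat_lit 78) (nat_lit 380) (nat_lit 0) (XT.lf (nat_lit 0) (nat_lit 990999656) (nat_lit 304) (nat_lit 10940431402) (nat_lit 380) (nat_lit 6933245764) (nat_lit 131) (nat_lit 5) (nat_lit 135) (nat_lit 5) (nat_lit 136) (nat_lit 5) (nat_lit 480) (nat_lit 413) (nat_lit 307)) (XT.lf (nat_lit 0) (nat_lit 189312454) (nat_lit 304) (nat_lit 397343638) (nat_lit 380) (nat_lit 18624054442) (nat_lit 126) (nat_lit 5) (nat_lit 130) (nat_lit 5) (nat_lit 131) (nat_lit 5) (nat_lit 481)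 (nat_lit 413) (nat_lit 306))) (XT.nd (nat_lit 78) (nat_lit 304) (nat_lit 0) (XT.lf (nat_lit 0) (nat_lit 8402152954) (nat_lit 380) (nat_lit 684270756) (nat_lit 76) (nat_lit 10476501442) (nat_lit 126) (nat_lit 5) (nat_lit 131) (nat_lit 5) (nat_lit 127) (nat_lit 5) (nat_lit 482) (nat_lit 413) (nat_lit 305)) (XT.lf (nat_lit 0) (nat_lit 16560823642) (nat_lit 380) (nat_lit 1536223474) (nat_lit 76) (nat_lit 1826485244) (nat_lit 122) (nat_lit 5) (nat_lit 127) (nat_lit 5) (nat_lit 123) (nat_lit 5) (nat_lit 483) (nat_lit 413) (nat_lit 304))))))))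
noncomputable def xc53 : XT := (XT.nd (nat_lit 59202) (nat_lit 0) (nat_lit 4864) (XT.nd (nat_lit 58032) (nat_lit 0) (nat_lit 22116) (XT.nd (nat_lit 57486) (nat_lit 0) (nat_lit 36708) (XT.nd (nat_lit 57174) (nat_lit 0) (nat_lit 39292) (XT.nd (nat_lit 57018) (nat_lit 0) (nat_lit 40508) (XT.lf (nat_lit 0) (nat_lit 4765536852) (nat_lit 380) (nat_lit 2445745663) (nat_lit 76) (nat_lit 13079919685) (nat_lit 117) (nat_lit 5) (nat_lit 122) (nat_lit 5) (nat_lit 118) (nat_lit 5) (nat_lit 484) (nat_lit 413) (nat_lit 303)) (XT.nd (nat_lit 78) (nat_lit 1216) (nat_lit 0) (XT.lf (nat_lit 0) (nat_lit 1358799319) (nat_lit 0) (nat_lit 1358799319) (nat_lit 1140) (nat_lit 918088377) (nat_lit 666) (nat_lit 5) (nat_lit 666) (nat_lit 3) (nat_lit 681) (nat_lit 3) (nat_lit 414) (nat_lit 414) (nat_lit 372)) (XT.lf (nat_lit 0) (nat_lit 573457766) (nat_lit 1216) (nat_lit 6437477909) (nat_lit 1292) (nat_lit 321403972) (nat_lit 650)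 (nat_lit 5) (nat_lit 666) (nat_lit 5) (nat_lit 667) (nat_lit 5) (nat_lit 415) (nat_lit 414) (nat_lit 371)))) (XT.nd (nat_lit 156) (nat_lit 1216) (nat_lit 0) (XT.nd (nat_lit 78) (nat_lit 0) (nat_lit 0) (XT.lf (nat_lit 0) (nat_lit 2985942169) (nat_lit 1216) (nat_lit 906569872) (nat_lit 1292) (nat_lit 3503272904) (nat_lit 650) (nat_lit 5) (nat_lit 666) (nat_lit 5) (nat_lit 667) (nat_lit 5) (nat_lit 416) (nat_lit 414) (nat_lit 370)) (XT.lf (nat_lit 76) (nat_lit 4804061725) (nat_lit 0) (nat_lit 606793762) (nat_lit 1292) (nat_lit 2051480527) (nat_lit 651) (nat_lit 5) (nat_lit 650) (nat_lit 5) (nat_lit 667) (nat_lit 5) (nat_lit 417) (nat_lit 414) (nat_lit 369))) (XT.nd (nat_lit 78) (nat_lit 0) (nat_lit 0) (XT.lf (nat_lit 0) (nat_lit 328457462) (nat_lit 1292) (nat_lit 4393606839) (nat_lit 1368) (nat_lit 2809658054) (nat_lit 634) (nat_lit 5) (nat_lit 651) (nat_lit 5) (nat_lit 652) (nat_lit 5) (nat_lit 418) (nat_lit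 414) (nat_lit 368)) (XT.lf (nat_lit 76) (nat_lit 1492844550) (nat_lit 0) (nat_lit 1204266741) (nat_lit 1368) (nat_lit 4906907237) (nat_lit 635) (nat_lit 5) (nat_lit 634) (nat_lit 5) (nat_lit 652) (nat_lit 5) (nat_lit 419) (nat_lit 414) (nat_lit 367))))) (XT.nd (nat_lit 234) (nat_lit 1368) (nat_lit 0) (XT.nd (nat_lit 78) (nat_lit 1292) (nat_lit 0) (XT.lf (nat_lit 0) (nat_lit 5098078339) (nat_lit 1292) (nat_lit 129650720) (nat_lit 1368) (nat_lit 2451532595) (nat_lit 635) (nat_lit 5) (nat_lit 652) (nat_lit 5) (nat_lit 653) (nat_lit 5) (nat_lit 420) (nat_lit 414) (nat_lit 366)) (XT.nd (nat_lit 78) (nat_lit 1292) (nat_lit 0) (XT.lf (nat_lit 76) (nat_lit 6052263521) (nat_lit 0) (nat_lit 1484196342) (nat_lit 1368) (nat_lit 220997547) (nat_lit 636) (nat_lit 5) (nat_lit 635) (nat_lit 5) (nat_lit 653) (nat_lit 5) (nat_lit 421) (nat_lit 414) (nat_lit 365)) (XT.lf (nat_lit 0) (nat_lit 2147079928) (nat_lit 1368)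 (nat_lit 3276111507) (nat_lit 1444) (nat_lit 2415202117) (nat_lit 618) (nat_lit 5) (nat_lit 636) (nat_lit 5) (nat_lit 637) (nat_lit 5) (nat_lit 422) (nat_lit 414) (nat_lit 364)))) (XT.nd (nat_lit 156) (nat_lit 1368) (nat_lit 0) (XT.nd (nat_lit 78) (nat_lit 0) (nat_lit 76) (XT.lf (nat_lit 76) (nat_lit 3097169065) (nat_lit 0) (nat_lit 1449486147) (nat_lit 1444) (nat_lit 3375807007) (nat_lit 619) (nat_lit 5) (nat_lit 618) (nat_lit 5) (nat_lit 637) (nat_lit 5) (nat_lit 423) (nat_lit 414) (nat_lit 363)) (XT.lf (nat_lit 76) (nat_lit 1649785366) (nat_lit 0) (nat_lit 5342543705) (nat_lit 1444) (nat_lit 1017244384) (nat_lit 620) (nat_lit 5) (nat_lit 619) (nat_lit 5) (nat_lit 638) (nat_lit 5) (nat_lit 424) (nat_lit 414) (nat_lit 362))) (XT.nd (nat_lit 78) (nat_lit 0) (nat_lit 76) (XT.lf (nat_lit 76) (nat_lit 217729003) (nat_lit 0) (nat_lit 1145125415) (nat_lit 1520) (nat_lit 6736876869) (nat_lit 601) (nat_lit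 5) (nat_lit 600) (nat_lit 5) (nat_lit 620) (nat_lit 5) (nat_lit 425) (nat_lit 414) (nat_lit 361)) (XT.lf (nat_lit 0) (nat_lit 3791886703) (nat_lit 1444) (nat_lit 1193144555) (nat_lit 1520) (nat_lit 3207603626) (nat_lit 601) (nat_lit 5) (nat_lit 620) (nat_lit 5) (nat_lit 621) (nat_lit 5) (nat_lit 426) (nat_lit 414) (nat_lit 360)))))) (XT.nd (nat_lit 546) (nat_lit 8436) (nat_lit 0) (XT.nd (nat_lit 234) (nat_lit 4788) (nat_lit 0) (XT.nd (nat_lit 78) (nat_lit 1444) (nat_lit 0) (XT.lf (nat_lit 76) (nat_lit 5711871261) (nat_lit 0) (nat_lit 556036360) (nat_lit 1520) (nat_lit 2020938067) (nat_lit 602) (nat_lit 5) (nat_lit 601) (nat_lit 5) (nat_lit 621) (nat_lit 5) (nat_lit 427) (nat_lit 414) (nat_lit 359)) (XT.nd (nat_lit 78) (nat_lit 0) (nat_lit 76) (XT.lf (nat_lit 0) (nat_lit 418723969) (nat_lit 1520) (nat_lit 3958580404) (nat_lit 1596) (nat_lit 4010702894) (nat_lit 582) (nat_lit 5) (nat_lit 602) (nat_lit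 5) (nat_lit 603) (nat_lit 5) (nat_lit 428) (nat_lit 414) (nat_lit 358)) (XT.lf (nat_lit 0) (nat_lit 2880396972) (nat_lit 1520) (nat_lit 5329070735) (nat_lit 76) (nat_lit 280885530) (nat_lit 583) (nat_lit 5) (nat_lit 603) (nat_lit 5) (nat_lit 584) (nat_lit 5) (nat_lit 429) (nat_lit 414) (nat_lit 357)))) (XT.nd (nat_lit 156) (nat_lit 1748) (nat_lit 0) (XT.nd (nat_lit 78) (nat_lit 1596) (nat_lit 0) (XT.lf (nat_lit 0) (nat_lit 1896079369) (nat_lit 1520) (nat_lit 3522591582) (nat_lit 1596) (nat_lit 3177045821) (nat_lit 563) (nat_lit 5) (nat_lit 583) (nat_lit 5) (nat_lit 584) (nat_lit 5) (nat_lit 430) (nat_lit 414) (nat_lit 356)) (XT.lf (nat_lit 0) (nat_lit 653735990) (nat_lit 1596) (nat_lit 7364246712) (nat_lit 1672) (nat_lit 686562856) (nat_lit 542) (nat_lit 5) (nat_lit 563) (nat_lit 5) (nat_lit 564) (nat_lit 5) (nat_lit 431) (nat_lit 414) (nat_lit 355))) (XT.nd (nat_lit 78) (nat_lit 1672) (nat_lit 0) (XT.lf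 (nat_lit 0) (nat_lit 1860185191) (nat_lit 1672) (nat_lit 585878340) (nat_lit 76) (nat_lit 6370209979) (nat_lit 541) (nat_lit 5) (nat_lit 563) (nat_lit 5) (nat_lit 542) (nat_lit 5) (nat_lit 432) (nat_lit 414) (nat_lit 354)) (XT.lf (nat_lit 0) (nat_lit 4476595212) (nat_lit 1748) (nat_lit 1808863721) (nat_lit 76) (nat_lit 2645753832) (nat_lit 519) (nat_lit 5) (nat_lit 542) (nat_lit 5) (nat_lit 520) (nat_lit 5) (nat_lit 433) (nat_lit 414) (nat_lit 353))))) (XT.nd (nat_lit 312) (nat_lit 2736) (nat_lit 0) (XT.nd (nat_lit 156) (nat_lit 2052) (nat_lit 0) (XT.nd (nat_lit 78) (nat_lit 1900) (nat_lit 0) (XT.lf (nat_lit 0) (nat_lit 6030670428) (nat_lit 1748) (nat_lit 1140613911) (nat_lit 1824) (nat_lit 1878322043) (nat_lit 496) (nat_lit 5) (nat_lit 519) (nat_lit 5) (nat_lit 520) (nat_lit 5) (nat_lit 434) (nat_lit 414) (nat_lit 352)) (XT.lf (nat_lit 0) (nat_lit 778344388) (nat_lit 1900) (nat_lit 4232532319) (nat_lit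 76) (nat_lit 4160311257) (nat_lit 471) (nat_lit 5) (nat_lit 496) (nat_lit 5) (nat_lit 472) (nat_lit 5) (nat_lit 435) (nat_lit 414) (nat_lit 351))) (XT.nd (nat_lit 78) (nat_lit 912) (nat_lit 0) (XT.lf (nat_lit 0) (nat_lit 3487733779) (nat_lit 1216) (nat_lit 5440734852) (nat_lit 76) (nat_lit 367730981) (nat_lit 456) (nat_lit 5) (nat_lit 472) (nat_lit 5) (nat_lit 457) (nat_lit 5) (nat_lit 436) (nat_lit 414) (nat_lit 350)) (XT.lf (nat_lit 0) (nat_lit 2769344295) (nat_lit 912) (nat_lit 3533489966) (nat_lit 988) (nat_lit 3121640478) (nat_lit 444) (nat_lit 5) (nat_lit 456) (nat_lit 5) (nat_lit 457) (nat_lit 5) (nat_lit 437) (nat_lit 414) (nat_lit 349)))) (XT.nd (nat_lit 156) (nat_lit 912) (nat_lit 0) (XT.nd (nat_lit 78) (nat_lit 912) (nat_lit 0) (XT.lf (nat_lit 0) (nat_lit 1700076355) (nat_lit 912) (nat_lit 7508974443) (nat_lit 988) (nat_lit 347415733) (nat_lit 432) (nat_lit 5) (nat_lit 444) (nat_lit 5) (nat_lit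 445) (nat_lit 5) (nat_lit 438) (nat_lit 414) (nat_lit 348)) (XT.lf (nat_lit 0) (nat_lit 620399885) (nat_lit 836) (nat_lit 1876042411) (nat_lit 912) (nat_lit 7195264911) (nat_lit 420) (nat_lit 5) (nat_lit 431) (nat_lit 5) (nat_lit 432) (nat_lit 5) (nat_lit 439) (nat_lit 414) (nat_lit 347))) (XT.nd (nat_lit 78) (nat_lit 912) (nat_lit 0) (XT.lf (nat_lit 0) (nat_lit 5447502746) (nat_lit 912) (nat_lit 452296836) (nat_lit 76) (nat_lit 3930629001) (nat_lit 420) (nat_lit 5) (nat_lit 432) (nat_lit 5) (nat_lit 421) (nat_lit 5) (nat_lit 440) (nat_lit 414) (nat_lit 346)) (XT.lf (nat_lit 0) (nat_lit 8472178050) (nat_lit 912) (nat_lit 31499442) (nat_lit 988) (nat_lit 1469303958) (nat_lit 408) (nat_lit 5) (nat_lit 420) (nat_lit 5) (nat_lit 421) (nat_lit 5) (nat_lit 441) (nat_lit 414) (nat_lit 345))))))) (XT.nd (nat_lit 1170) (nat_lit 6992) (nat_lit 0) (XT.nd (nat_lit 546) (nat_lit 4712) (nat_lit 0) (XT.nd (nat_lit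 234) (nat_lit 3040) (nat_lit 0) (XT.nd (nat_lit 78) (nat_lit 1596) (nat_lit 0) (XT.lf (nat_lit 0) (nat_lit 1553290945) (nat_lit 912) (nat_lit 2570123004) (nat_lit 76) (nat_lit 5995366415) (nat_lit 396) (nat_lit 5) (nat_lit 408) (nat_lit 5) (nat_lit 397) (nat_lit 5) (nat_lit 442) (nat_lit 414) (nat_lit 344)) (XT.nd (nat_lit 78) (nat_lit 760) (nat_lit 0) (XT.lf (nat_lit 0) (nat_lit 4664248895) (nat_lit 912) (nat_lit 3634796145) (nat_lit 76) (nat_lit 1969362402) (nat_lit 385) (nat_lit 5) (nat_lit 397) (nat_lit 5) (nat_lit 386) (nat_lit 5) (nat_lit 443) (nat_lit 414) (nat_lit 343)) (XT.lf (nat_lit 0) (nat_lit 5722075998) (nat_lit 760) (nat_lit 2180770593) (nat_lit 836) (nat_lit 2518991866) (nat_lit 375) (nat_lit 5) (nat_lit 385) (nat_lit 5) (nat_lit 386) (nat_lit 5) (nat_lit 444) (nat_lit 414) (nat_lit 342)))) (XT.nd (nat_lit 156) (nat_lit 1444) (nat_lit 0) (XT.nd (nat_lit 78) (nat_lit 760) (nat_lit 0)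 (XT.lf (nat_lit 0) (nat_lit 686228674) (nat_lit 836) (nat_lit 5769235536) (nat_lit 76) (nat_lit 4123601168) (nat_lit 364) (nat_lit 5) (nat_lit 375) (nat_lit 5) (nat_lit 365) (nat_lit 5) (nat_lit 445) (nat_lit 414) (nat_lit 341)) (XT.lf (nat_lit 0) (nat_lit 3896542295) (nat_lit 760) (nat_lit 82799311) (nat_lit 836) (nat_lit 6760816553) (nat_lit 354) (nat_lit 5) (nat_lit 364) (nat_lit 5) (nat_lit 365) (nat_lit 5) (nat_lit 446) (nat_lit 414) (nat_lit 340))) (XT.nd (nat_lit 78) (nat_lit 684) (nat_lit 0) (XT.lf (nat_lit 0) (nat_lit 2970967216) (nat_lit 760) (nat_lit 4455804855) (nat_lit 836) (nat_lit 3478202375) (nat_lit 344) (nat_lit 5) (nat_lit 354) (nat_lit 5) (nat_lit 355) (nat_lit 5) (nat_lit 447) (nat_lit 414) (nat_lit 339)) (XT.lf (nat_lit 0) (nat_lit 2060757396) (nat_lit 684) (nat_lit 8946868652) (nat_lit 760) (nat_lit 66510334) (nat_lit 335) (nat_lit 5) (nat_lit 344) (nat_lit 5) (nat_lit 345) (nat_lit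 5) (nat_lit 448) (nat_lit 414) (nat_lit 338))))) (XT.nd (nat_lit 312) (nat_lit 2508) (nat_lit 0) (XT.nd (nat_lit 156) (nat_lit 760) (nat_lit 0) (XT.nd (nat_lit 78) (nat_lit 684) (nat_lit 0) (XT.lf (nat_lit 0) (nat_lit 1127550186) (nat_lit 684) (nat_lit 2322423136) (nat_lit 760) (nat_lit 7797000176) (nat_lit 325) (nat_lit 5) (nat_lit 334) (nat_lit 5) (nat_lit 335) (nat_lit 5) (nat_lit 449) (nat_lit 414) (nat_lit 337)) (XT.lf (nat_lit 0) (nat_lit 193436992) (nat_lit 684) (nat_lit 6926883581) (nat_lit 760) (nat_lit 4303681990) (nat_lit 316) (nat_lit 5) (nat_lit 325) (nat_lit 5) (nat_lit 326) (nat_lit 5) (nat_lit 450) (nat_lit 414) (nat_lit 336))) (XT.nd (nat_lit 78) (nat_lit 760) (nat_lit 0) (XT.lf (nat_lit 0) (nat_lit 10887956386) (nat_lit 684) (nat_lit 55046454) (nat_lit 760) (nat_lit 662496219) (nat_lit 316) (nat_lit 5) (nat_lit 325) (nat_lit 5) (nat_lit 326) (nat_lit 5) (nat_lit 451) (nat_lit 414)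 (nat_lit 335)) (XT.lf (nat_lit 0) (nat_lit 3118768808) (nat_lit 760) (nat_lit 1662960109) (nat_lit 76) (nat_lit 7008884707) (nat_lit 306) (nat_lit 5) (nat_lit 316) (nat_lit 5) (nat_lit 307) (nat_lit 5) (nat_lit 452) (nat_lit 414) (nat_lit 334)))) (XT.nd (nat_lit 156) (nat_lit 1292) (nat_lit 0) (XT.nd (nat_lit 78) (nat_lit 608) (nat_lit 0) (XT.lf (nat_lit 0) (nat_lit 7046128828) (nat_lit 684) (nat_lit 2600301464) (nat_lit 76) (nat_lit 2333931568) (nat_lit 298) (nat_lit 5) (nat_lit 307) (nat_lit 5) (nat_lit 299) (nat_lit 5) (nat_lit 453) (nat_lit 414) (nat_lit 333)) (XT.lf (nat_lit 0) (nat_lit 8633296780) (nat_lit 608) (nat_lit 2518159831) (nat_lit 684) (nat_lit 1023143936) (nat_lit 290) (nat_lit 5) (nat_lit 298) (nat_lit 5) (nat_lit 299) (nat_lit 5) (nat_lit 454) (nat_lit 414) (nat_lit 332))) (XT.nd (nat_lit 78) (nat_lit 608) (nat_lit 0) (XT.lf (nat_lit 0) (nat_lit 3028075479) (nat_lit 684) (nat_lit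 4505492734) (nat_lit 76) (nat_lit 4839464585) (nat_lit 281) (nat_lit 5) (nat_lit 290) (nat_lit 5) (nat_lit 282) (nat_lit 5) (nat_lit 455) (nat_lit 414) (nat_lit 331)) (XT.lf (nat_lit 0) (nat_lit 7110559913) (nat_lit 608) (nat_lit 125700991) (nat_lit 684) (nat_lit 5340036124) (nat_lit 273) (nat_lit 5) (nat_lit 281) (nat_lit 5) (nat_lit 282) (nat_lit 5) (nat_lit 456) (nat_lit 414) (nat_lit 330)))))) (XT.nd (nat_lit 546) (nat_lit 3192) (nat_lit 0) (XT.nd (nat_lit 234) (nat_lit 2052) (nat_lit 0) (XT.nd (nat_lit 78) (nat_lit 1216) (nat_lit 0) (XT.lf (nat_lit 0) (nat_lit 6336986788) (nat_lit 532) (nat_lit 5317112450) (nat_lit 608) (nat_lit 1129892646) (nat_lit 266) (nat_lit 5) (nat_lit 273) (nat_lit 5) (nat_lit 274) (nat_lit 5) (nat_lit 457) (nat_lit 414) (nat_lit 329)) (XT.nd (nat_lit 78) (nat_lit 532) (nat_lit 0) (XT.lf (nat_lit 0) (nat_lit 3217549913) (nat_lit 684) (nat_lit 7438128130) (nat_lit 76) (nat_lit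 2340762980) (nat_lit 257) (nat_lit 5) (nat_lit 266) (nat_lit 5) (nat_lit 258) (nat_lit 5) (nat_lit 458) (nat_lit 414) (nat_lit 328)) (XT.lf (nat_lit 0) (nat_lit 4768319198) (nat_lit 532) (nat_lit 2986342392) (nat_lit 608) (nat_lit 5458961522) (nat_lit 250) (nat_lit 5) (nat_lit 257) (nat_lit 5) (nat_lit 258) (nat_lit 5) (nat_lit 459) (nat_lit 414) (nat_lit 327)))) (XT.nd (nat_lit 156) (nat_lit 988) (nat_lit 0) (XT.nd (nat_lit 78) (nat_lit 532) (nat_lit 0) (XT.lf (nat_lit 0) (nat_lit 3978100674) (nat_lit 532) (nat_lit 8522923973) (nat_lit 608) (nat_lit 934834016) (nat_lit 243) (nat_lit 5) (nat_lit 250) (nat_lit 5) (nat_lit 251) (nat_lit 5) (nat_lit 460) (nat_lit 414) (nat_lit 326)) (XT.lf (nat_lit 0) (nat_lit 3175319191) (nat_lit 456) (nat_lit 564202391) (nat_lit 532) (nat_lit 9923489543) (nat_lit 236) (nat_lit 5) (nat_lit 242) (nat_lit 5) (nat_lit 243) (nat_lit 5) (nat_lit 461) (nat_lit 414) (nat_lit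 325))) (XT.nd (nat_lit 78) (nat_lit 456) (nat_lit 0) (XT.lf (nat_lit 0) (nat_lit 2347906738) (nat_lit 532) (nat_lit 6288677942) (nat_lit 608) (nat_lit 5258367046) (nat_lit 229) (nat_lit 5) (nat_lit 236) (nat_lit 5) (nat_lit 237) (nat_lit 5) (nat_lit 462) (nat_lit 414) (nat_lit 324)) (XT.lf (nat_lit 0) (nat_lit 1535806201) (nat_lit 456) (nat_lit 12208611794) (nat_lit 532) (nat_lit 388156064) (nat_lit 223) (nat_lit 5) (nat_lit 229) (nat_lit 5) (nat_lit 230) (nat_lit 5) (nat_lit 463) (nat_lit 414) (nat_lit 323))))) (XT.nd (nat_lit 312) (nat_lit 1672) (nat_lit 0) (XT.nd (nat_lit 156) (nat_lit 988) (nat_lit 0) (XT.nd (nat_lit 78) (nat_lit 0) (nat_lit 0) (XT.lf (nat_lit 0) (nat_lit 682490708) (nat_lit 456) (nat_lit 3977069350) (nat_lit 532) (nat_lit 9715322711) (nat_lit 216) (nat_lit 5) (nat_lit 222) (nat_lit 5) (nat_lit 223) (nat_lit 5) (nat_lit 464) (nat_lit 414) (nat_lit 322)) (XT.lf (nat_lit 0) (nat_lit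 9936034988) (nat_lit 532) (nat_lit 169657965) (nat_lit 76) (nat_lit 4517065085) (nat_lit 216) (nat_lit 5) (nat_lit 223) (nat_lit 5) (nat_lit 217) (nat_lit 5) (nat_lit 465) (nat_lit 414) (nat_lit 321))) (XT.nd (nat_lit 78) (nat_lit 456) (nat_lit 0) (XT.lf (nat_lit 0) (nat_lit 571842147) (nat_lit 532) (nat_lit 1011784279) (nat_lit 76) (nat_lit 13292668357) (nat_lit 209) (nat_lit 5) (nat_lit 216) (nat_lit 5) (nat_lit 210) (nat_lit 5) (nat_lit 466) (nat_lit 414) (nat_lit 320)) (XT.lf (nat_lit 0) (nat_lit 6028441743) (nat_lit 532) (nat_lit 1901005707) (nat_lit 76) (nat_lit 7205292145) (nat_lit 203) (nat_lit 5) (nat_lit 210) (nat_lit 5) (nat_lit 204) (nat_lit 5) (nat_lit 467) (nat_lit 414) (nat_lit 319)))) (XT.nd (nat_lit 156) (nat_lit 760) (nat_lit 0) (XT.nd (nat_lit 78) (nat_lit 532) (nat_lit 0) (XT.lf (nat_lit 0) (nat_lit 11723471519) (nat_lit 456) (nat_lit 2775972848) (nat_lit 76) (nat_lit 899999304)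 (nat_lit 198) (nat_lit 5) (nat_lit 204) (nat_lit 5) (nat_lit 199) (nat_lit 5) (nat_lit 468) (nat_lit 414) (nat_lit 318)) (XT.lf (nat_lit 0) (nat_lit 2006591041) (nat_lit 532) (nat_lit 3685847447) (nat_lit 76) (nat_lit 9977112496) (nat_lit 191) (nat_lit 5) (nat_lit 198) (nat_lit 5) (nat_lit 192) (nat_lit 5) (nat_lit 469) (nat_lit 414) (nat_lit 317))) (XT.nd (nat_lit 78) (nat_lit 380) (nat_lit 0) (XT.lf (nat_lit 0) (nat_lit 7895487314) (nat_lit 456) (nat_lit 4612215104) (nat_lit 76) (nat_lit 3437857693) (nat_lit 186) (nat_lit 5) (nat_lit 192) (nat_lit 5) (nat_lit 187) (nat_lit 5) (nat_lit 470) (nat_lit 414) (nat_lit 316)) (XT.lf (nat_lit 0) (nat_lit 10681707610) (nat_lit 380) (nat_lit 3382619488) (nat_lit 456) (nat_lit 2163457387) (nat_lit 181) (nat_lit 5) (nat_lit 186) (nat_lit 5) (nat_lit 187) (nat_lit 5) (nat_lit 471) (nat_lit 414) (nat_lit 315))))))))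
noncomputable def xc54 : XT := (XT.nd (nat_lit 59280) (nat_lit 0) (nat_lit 10032) (XT.nd (nat_lit 58110) (nat_lit 0) (nat_lit 35188) (XT.nd (nat_lit 546) (nat_lit 2052) (nat_lit 0) (XT.nd (nat_lit 234) (nat_lit 1520) (nat_lit 0) (XT.nd (nat_lit 78) (nat_lit 760) (nat_lit 0) (XT.lf (nat_lit 0) (nat_lit 3956133744) (nat_lit 456) (nat_lit 6514513293) (nat_lit 76) (nat_lit 6045172173) (nat_lit 175) (nat_lit 5) (nat_lit 181) (nat_lit 5) (nat_lit 176) (nat_lit 5) (nat_lit 472) (nat_lit 414) (nat_lit 314)) (XT.nd (nat_lit 78) (nat_lit 380) (nat_lit 0) (XT.lf (nat_lit 0) (nat_lit 9320395125) (nat_lit 380) (nat_lit 1002214839) (nat_lit 456) (nat_lit 6487745668) (nat_lit 170) (nat_lit 5) (nat_lit 175) (nat_lit 5) (nat_lit 176) (nat_lit 5) (nat_lit 473) (nat_lit 414) (nat_lit 313)) (XT.lf (nat_lit 0) (nat_lit 8619075679) (nat_lit 380) (nat_lit 8390221628) (nat_lit 456) (nat_lit 101846956) (nat_lit 165) (nat_lit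 5) (nat_lit 170) (nat_lit 5) (nat_lit 171) (nat_lit 5) (nat_lit 474) (nat_lit 414) (nat_lit 312)))) (XT.nd (nat_lit 156) (nat_lit 760) (nat_lit 0) (XT.nd (nat_lit 78) (nat_lit 304) (nat_lit 0) (XT.lf (nat_lit 0) (nat_lit 6481486201) (nat_lit 456) (nat_lit 9522427341) (nat_lit 76) (nat_lit 1414386831) (nat_lit 159) (nat_lit 5) (nat_lit 165) (nat_lit 5) (nat_lit 160) (nat_lit 5) (nat_lit 475) (nat_lit 414) (nat_lit 311)) (XT.lf (nat_lit 0) (nat_lit 7151859415) (nat_lit 304) (nat_lit 6242344822) (nat_lit 380) (nat_lit 4337788514) (nat_lit 155) (nat_lit 5) (nat_lit 159) (nat_lit 5) (nat_lit 160) (nat_lit 5) (nat_lit 476) (nat_lit 414) (nat_lit 310))) (XT.nd (nat_lit 78) (nat_lit 304) (nat_lit 0) (XT.lf (nat_lit 0) (nat_lit 2532238191) (nat_lit 456) (nat_lit 11650415455) (nat_lit 76) (nat_lit 3870017654) (nat_lit 149) (nat_lit 5) (nat_lit 155) (nat_lit 5) (nat_lit 150) (nat_lit 5) (nat_lit 477) (nat_lit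 414) (nat_lit 309)) (XT.lf (nat_lit 0) (nat_lit 5617511962) (nat_lit 304) (nat_lit 4056184649) (nat_lit 380) (nat_lit 8706215235) (nat_lit 145) (nat_lit 5) (nat_lit 149) (nat_lit 5) (nat_lit 150) (nat_lit 5) (nat_lit 478) (nat_lit 414) (nat_lit 308))))) (XT.nd (nat_lit 234) (nat_lit 988) (nat_lit 0) (XT.nd (nat_lit 78) (nat_lit 684) (nat_lit 0) (XT.lf (nat_lit 0) (nat_lit 4826889609) (nat_lit 380) (nat_lit 12328642805) (nat_lit 456) (nat_lit 1558914901) (nat_lit 140) (nat_lit 5) (nat_lit 145) (nat_lit 5) (nat_lit 146) (nat_lit 5) (nat_lit 479) (nat_lit 414) (nat_lit 307)) (XT.nd (nat_lit 78) (nat_lit 304) (nat_lit 0) (XT.lf (nat_lit 0) (nat_lit 4006709628) (nat_lit 304) (nat_lit 1834444922) (nat_lit 380) (nat_lit 13214822043) (nat_lit 135) (nat_lit 5) (nat_lit 139) (nat_lit 5) (nat_lit 140) (nat_lit 5) (nat_lit 480) (nat_lit 414) (nat_lit 306)) (XT.lf (nat_lit 0) (nat_lit 3152606675) (nat_lit 304) (nat_lit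 10437669084) (nat_lit 380) (nat_lit 5814305667) (nat_lit 131) (nat_lit 5) (nat_lit 135) (nat_lit 5) (nat_lit 136) (nat_lit 5) (nat_lit 481) (nat_lit 414) (nat_lit 305)))) (XT.nd (nat_lit 156) (nat_lit 304) (nat_lit 0) (XT.nd (nat_lit 78) (nat_lit 304) (nat_lit 0) (XT.lf (nat_lit 0) (nat_lit 1892103903) (nat_lit 380) (nat_lit 17454620411) (nat_lit 76) (nat_lit 414533759) (nat_lit 126) (nat_lit 5) (nat_lit 131) (nat_lit 5) (nat_lit 127) (nat_lit 5) (nat_lit 482) (nat_lit 414) (nat_lit 304)) (XT.lf (nat_lit 0) (nat_lit 1385963130) (nat_lit 304) (nat_lit 8530170811) (nat_lit 380) (nat_lit 10208424313) (nat_lit 122) (nat_lit 5) (nat_lit 126) (nat_lit 5) (nat_lit 127) (nat_lit 5) (nat_lit 483) (nat_lit 414) (nat_lit 303))) (XT.nd (nat_lit 57096) (nat_lit 0) (nat_lit 40356) (XT.lf (nat_lit 0) (nat_lit 482329918) (nat_lit 304) (nat_lit 17813367860) (nat_lit 380) (nat_lit 2200763715) (nat_lit 118) (nat_lit 5)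 (nat_lit 122) (nat_lit 5) (nat_lit 123) (nat_lit 5) (nat_lit 484) (nat_lit 414) (nat_lit 302)) (XT.lf (nat_lit 0) (nat_lit 1448450343) (nat_lit 1292) (nat_lit 1124352528) (nat_lit 1292) (nat_lit 1124352528) (nat_lit 649) (nat_lit 3) (nat_lit 666) (nat_lit 3) (nat_lit 666) (nat_lit 5) (nat_lit 415) (nat_lit 415) (nat_lit 370)))))) (XT.nd (nat_lit 546) (nat_lit 2736) (nat_lit 0) (XT.nd (nat_lit 234) (nat_lit 1216) (nat_lit 0) (XT.nd (nat_lit 78) (nat_lit 1216) (nat_lit 0) (XT.lf (nat_lit 76) (nat_lit 3313919156) (nat_lit 0) (nat_lit 1914701714) (nat_lit 1292) (nat_lit 2230752237) (nat_lit 650) (nat_lit 5) (nat_lit 649) (nat_lit 3) (nat_lit 666) (nat_lit 5) (nat_lit 416) (nat_lit 415) (nat_lit 369)) (XT.nd (nat_lit 78) (nat_lit 0) (nat_lit 0) (XT.lf (nat_lit 0) (nat_lit 48021795) (nat_lit 1292) (nat_lit 6016906486) (nat_lit 1368) (nat_lit 1462539255) (nat_lit 633) (nat_lit 5) (nat_lit 650) (nat_lit 5)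 (nat_lit 651) (nat_lit 5) (nat_lit 417) (nat_lit 415) (nat_lit 368)) (XT.lf (nat_lit 0) (nat_lit 2319321531) (nat_lit 1292) (nat_lit 280109323) (nat_lit 1368) (nat_lit 4998792879) (nat_lit 633) (nat_lit 5) (nat_lit 650) (nat_lit 5) (nat_lit 651) (nat_lit 5) (nat_lit 418) (nat_lit 415) (nat_lit 367)))) (XT.nd (nat_lit 156) (nat_lit 1292) (nat_lit 0) (XT.nd (nat_lit 78) (nat_lit 0) (nat_lit 0) (XT.lf (nat_lit 0) (nat_lit 4618012170) (nat_lit 1292) (nat_lit 2022622403) (nat_lit 1368) (nat_lit 1031286144) (nat_lit 634) (nat_lit 5) (nat_lit 651) (nat_lit 5) (nat_lit 652) (nat_lit 5) (nat_lit 419) (nat_lit 415) (nat_lit 366)) (XT.lf (nat_lit 76) (nat_lit 3999817691) (nat_lit 0) (nat_lit 2949242594) (nat_lit 1368) (nat_lit 799503436) (nat_lit 635) (nat_lit 5) (nat_lit 634) (nat_lit 5) (nat_lit 652) (nat_lit 5) (nat_lit 420) (nat_lit 415) (nat_lit 365))) (XT.nd (nat_lit 78) (nat_lit 0) (nat_lit 0) (XT.lf (nat_lit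 0) (nat_lit 1457477129) (nat_lit 1368) (nat_lit 5457932183) (nat_lit 1444) (nat_lit 912803666) (nat_lit 617) (nat_lit 5) (nat_lit 635) (nat_lit 5) (nat_lit 636) (nat_lit 5) (nat_lit 421) (nat_lit 415) (nat_lit 364)) (XT.lf (nat_lit 76) (nat_lit 749887852) (nat_lit 0) (nat_lit 2993554404) (nat_lit 1444) (nat_lit 4167263832) (nat_lit 618) (nat_lit 5) (nat_lit 617) (nat_lit 5) (nat_lit 636) (nat_lit 5) (nat_lit 422) (nat_lit 415) (nat_lit 363))))) (XT.nd (nat_lit 312) (nat_lit 1368) (nat_lit 0) (XT.nd (nat_lit 156) (nat_lit 0) (nat_lit 76) (XT.nd (nat_lit 78) (nat_lit 1444) (nat_lit 0) (XT.lf (nat_lit 0) (nat_lit 6066060430) (nat_lit 1368) (nat_lit 833384274) (nat_lit 1444) (nat_lit 1096870540) (nat_lit 618) (nat_lit 5) (nat_lit 636) (nat_lit 5) (nat_lit 637) (nat_lit 5) (nat_lit 423) (nat_lit 415) (nat_lit 362)) (XT.lf (nat_lit 0) (nat_lit 352074592) (nat_lit 1444) (nat_lit 2397277231) (nat_lit 1520)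 (nat_lit 5335432638) (nat_lit 599) (nat_lit 5) (nat_lit 618) (nat_lit 5) (nat_lit 619) (nat_lit 5) (nat_lit 424) (nat_lit 415) (nat_lit 361))) (XT.nd (nat_lit 78) (nat_lit 0) (nat_lit 0) (XT.lf (nat_lit 0) (nat_lit 2647954866) (nat_lit 1444) (nat_lit 3953366019) (nat_lit 1520) (nat_lit 1574908105) (nat_lit 600) (nat_lit 5) (nat_lit 619) (nat_lit 5) (nat_lit 620) (nat_lit 5) (nat_lit 425) (nat_lit 415) (nat_lit 360)) (XT.lf (nat_lit 76) (nat_lit 2772647448) (nat_lit 0) (nat_lit 2222371427) (nat_lit 1520) (nat_lit 3275754286) (nat_lit 601) (nat_lit 5) (nat_lit 600) (nat_lit 5) (nat_lit 620) (nat_lit 5) (nat_lit 426) (nat_lit 415) (nat_lit 359)))) (XT.nd (nat_lit 156) (nat_lit 0) (nat_lit 76) (XT.nd (nat_lit 78) (nat_lit 1520) (nat_lit 0) (XT.lf (nat_lit 76) (nat_lit 1339215242) (nat_lit 0) (nat_lit 6055227675) (nat_lit 1520) (nat_lit 974074159) (nat_lit 602) (nat_lit 5) (nat_lit 601) (nat_lit 5) (nat_lit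 621) (nat_lit 5) (nat_lit 427) (nat_lit 415) (nat_lit 358)) (XT.lf (nat_lit 0) (nat_lit 1363367102) (nat_lit 1520) (nat_lit 86025372) (nat_lit 1596) (nat_lit 7019921178) (nat_lit 581) (nat_lit 5) (nat_lit 601) (nat_lit 5) (nat_lit 602) (nat_lit 5) (nat_lit 428) (nat_lit 415) (nat_lit 357))) (XT.nd (nat_lit 78) (nat_lit 0) (nat_lit 0) (XT.lf (nat_lit 0) (nat_lit 3760362944) (nat_lit 1520) (nat_lit 1491911045) (nat_lit 1596) (nat_lit 3320680261) (nat_lit 582) (nat_lit 5) (nat_lit 602) (nat_lit 5) (nat_lit 603) (nat_lit 5) (nat_lit 429) (nat_lit 415) (nat_lit 356)) (XT.lf (nat_lit 76) (nat_lit 5801543709) (nat_lit 0) (nat_lit 411989612) (nat_lit 1596) (nat_lit 2466487588) (nat_lit 583) (nat_lit 5) (nat_lit 582) (nat_lit 5) (nat_lit 603) (nat_lit 5) (nat_lit 430) (nat_lit 415) (nat_lit 355))))))) (XT.nd (nat_lit 1170) (nat_lit 9500) (nat_lit 0) (XT.nd (nat_lit 546) (nat_lit 6156) (nat_lit 0) (XT.nd (nat_lit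 234) (nat_lit 4788) (nat_lit 0) (XT.nd (nat_lit 78) (nat_lit 3344) (nat_lit 0) (XT.lf (nat_lit 0) (nat_lit 4523707216) (nat_lit 1520) (nat_lit 4223777499) (nat_lit 1596) (nat_lit 42673209) (nat_lit 563) (nat_lit 5) (nat_lit 583) (nat_lit 5) (nat_lit 584) (nat_lit 5) (nat_lit 431) (nat_lit 415) (nat_lit 354)) (XT.nd (nat_lit 78) (nat_lit 1672) (nat_lit 0) (XT.lf (nat_lit 0) (nat_lit 2409789094) (nat_lit 1672) (nat_lit 5651099791) (nat_lit 76) (nat_lit 842631171) (nat_lit 541) (nat_lit 5) (nat_lit 563) (nat_lit 5) (nat_lit 542) (nat_lit 5) (nat_lit 432) (nat_lit 415) (nat_lit 353)) (XT.lf (nat_lit 0) (nat_lit 1982392032) (nat_lit 1672) (nat_lit 2963629243) (nat_lit 1748) (nat_lit 4074042540) (nat_lit 519) (nat_lit 5) (nat_lit 541) (nat_lit 5) (nat_lit 542) (nat_lit 5) (nat_lit 433) (nat_lit 415) (nat_lit 352)))) (XT.nd (nat_lit 156) (nat_lit 2964) (nat_lit 0) (XT.nd (nat_lit 78) (nat_lit 76) (nat_lit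 0) (XT.lf (nat_lit 0) (nat_lit 726496817) (nat_lit 1748) (nat_lit 6831970413) (nat_lit 1824) (nat_lit 1581635979) (nat_lit 496) (nat_lit 5) (nat_lit 519) (nat_lit 5) (nat_lit 520) (nat_lit 5) (nat_lit 434) (nat_lit 415) (nat_lit 351)) (XT.lf (nat_lit 0) (nat_lit 983445886) (nat_lit 1824) (nat_lit 520170624) (nat_lit 76) (nat_lit 7759784499) (nat_lit 495) (nat_lit 5) (nat_lit 519) (nat_lit 5) (nat_lit 496) (nat_lit 5) (nat_lit 435) (nat_lit 415) (nat_lit 350))) (XT.nd (nat_lit 78) (nat_lit 1140) (nat_lit 0) (XT.lf (nat_lit 0) (nat_lit 3624760004) (nat_lit 1900) (nat_lit 1766072122) (nat_lit 76) (nat_lit 3998942883) (nat_lit 471) (nat_lit 5) (nat_lit 496) (nat_lit 5) (nat_lit 472) (nat_lit 5) (nat_lit 436) (nat_lit 415) (nat_lit 349)) (XT.lf (nat_lit 0) (nat_lit 6348433223) (nat_lit 1216) (nat_lit 2996025525) (nat_lit 76) (nat_lit 175420758) (nat_lit 456) (nat_lit 5) (nat_lit 472) (nat_lit 5) (nat_lit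 457) (nat_lit 5) (nat_lit 437) (nat_lit 415) (nat_lit 348))))) (XT.nd (nat_lit 312) (nat_lit 2508) (nat_lit 0) (XT.nd (nat_lit 156) (nat_lit 1748) (nat_lit 0) (XT.nd (nat_lit 78) (nat_lit 988) (nat_lit 0) (XT.lf (nat_lit 0) (nat_lit 5418045409) (nat_lit 912) (nat_lit 3766325215) (nat_lit 988) (nat_lit 468907054) (nat_lit 444) (nat_lit 5) (nat_lit 456) (nat_lit 5) (nat_lit 457) (nat_lit 5) (nat_lit 438) (nat_lit 415) (nat_lit 347)) (XT.lf (nat_lit 0) (nat_lit 2294318882) (nat_lit 988) (nat_lit 5476633765) (nat_lit 76) (nat_lit 2019226753) (nat_lit 431) (nat_lit 5) (nat_lit 444) (nat_lit 5) (nat_lit 432) (nat_lit 5) (nat_lit 439) (nat_lit 415) (nat_lit 346))) (XT.nd (nat_lit 78) (nat_lit 912) (nat_lit 0) (XT.lf (nat_lit 0) (nat_lit 3209741830) (nat_lit 836) (nat_lit 1948637993) (nat_lit 912) (nat_lit 4772261681) (nat_lit 420) (nat_lit 5) (nat_lit 431) (nat_lit 5) (nat_lit 432) (nat_lit 5) (nat_lit 440)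 (nat_lit 415) (nat_lit 345)) (XT.lf (nat_lit 0) (nat_lit 2108046512) (nat_lit 912) (nat_lit 6028158768) (nat_lit 988) (nat_lit 1938556792) (nat_lit 408) (nat_lit 5) (nat_lit 420) (nat_lit 5) (nat_lit 421) (nat_lit 5) (nat_lit 441) (nat_lit 415) (nat_lit 344)))) (XT.nd (nat_lit 156) (nat_lit 1596) (nat_lit 0) (XT.nd (nat_lit 78) (nat_lit 0) (nat_lit 0) (XT.lf (nat_lit 0) (nat_lit 984286626) (nat_lit 912) (nat_lit 9207770368) (nat_lit 76) (nat_lit 30683725) (nat_lit 396) (nat_lit 5) (nat_lit 408) (nat_lit 5) (nat_lit 397) (nat_lit 5) (nat_lit 442) (nat_lit 415) (nat_lit 343)) (XT.lf (nat_lit 0) (nat_lit 4015685141) (nat_lit 912) (nat_lit 102691962) (nat_lit 76) (nat_lit 6255582545) (nat_lit 396) (nat_lit 5) (nat_lit 408) (nat_lit 5) (nat_lit 397) (nat_lit 5) (nat_lit 443) (nat_lit 415) (nat_lit 342))) (XT.nd (nat_lit 78) (nat_lit 760) (nat_lit 0) (XT.lf (nat_lit 0) (nat_lit 7166780781) (nat_lit 912) (nat_lit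 1194206564) (nat_lit 76) (nat_lit 2168154002) (nat_lit 385) (nat_lit 5) (nat_lit 397) (nat_lit 5) (nat_lit 386) (nat_lit 5) (nat_lit 444) (nat_lit 415) (nat_lit 341)) (XT.lf (nat_lit 0) (nat_lit 8402006969) (nat_lit 760) (nat_lit 2048001062) (nat_lit 836) (nat_lit 238219757) (nat_lit 375) (nat_lit 5) (nat_lit 385) (nat_lit 5) (nat_lit 386) (nat_lit 5) (nat_lit 445) (nat_lit 415) (nat_lit 340)))))) (XT.nd (nat_lit 546) (nat_lit 4256) (nat_lit 0) (XT.nd (nat_lit 234) (nat_lit 2888) (nat_lit 0) (XT.nd (nat_lit 78) (nat_lit 1520) (nat_lit 0) (XT.lf (nat_lit 0) (nat_lit 2982196372) (nat_lit 836) (nat_lit 3400188479) (nat_lit 76) (nat_lit 4468483668) (nat_lit 364) (nat_lit 5) (nat_lit 375) (nat_lit 5) (nat_lit 365) (nat_lit 5) (nat_lit 446) (nat_lit 415) (nat_lit 339)) (XT.nd (nat_lit 78) (nat_lit 760) (nat_lit 0) (XT.lf (nat_lit 0) (nat_lit 6325302091) (nat_lit 836) (nat_lit 4504712088) (nat_lit 76) (nat_lit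 187757699) (nat_lit 354) (nat_lit 5) (nat_lit 365) (nat_lit 5) (nat_lit 355) (nat_lit 5) (nat_lit 447) (nat_lit 415) (nat_lit 338)) (XT.lf (nat_lit 0) (nat_lit 5562486932) (nat_lit 760) (nat_lit 4265601455) (nat_lit 836) (nat_lit 1360407339) (nat_lit 344) (nat_lit 5) (nat_lit 354) (nat_lit 5) (nat_lit 355) (nat_lit 5) (nat_lit 448) (nat_lit 415) (nat_lit 337)))) (XT.nd (nat_lit 156) (nat_lit 1444) (nat_lit 0) (XT.nd (nat_lit 78) (nat_lit 684) (nat_lit 0) (XT.lf (nat_lit 0) (nat_lit 2079927970) (nat_lit 760) (nat_lit 6752097234) (nat_lit 76) (nat_lit 2531338549) (nat_lit 334) (nat_lit 5) (nat_lit 344) (nat_lit 5) (nat_lit 335) (nat_lit 5) (nat_lit 449) (nat_lit 415) (nat_lit 336)) (XT.lf (nat_lit 0) (nat_lit 3651548694) (nat_lit 684) (nat_lit 2003077259) (nat_lit 760) (nat_lit 5887680368) (nat_lit 325) (nat_lit 5) (nat_lit 334) (nat_lit 5) (nat_lit 335) (nat_lit 5) (nat_lit 450) (nat_lit 415) (nat_lit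 335))) (XT.nd (nat_lit 78) (nat_lit 760) (nat_lit 0) (XT.lf (nat_lit 0) (nat_lit 2687920975) (nat_lit 684) (nat_lit 6704574371) (nat_lit 760) (nat_lit 2333004231) (nat_lit 316) (nat_lit 5) (nat_lit 325) (nat_lit 5) (nat_lit 326) (nat_lit 5) (nat_lit 451) (nat_lit 415) (nat_lit 334)) (XT.lf (nat_lit 0) (nat_lit 1352185645) (nat_lit 760) (nat_lit 10184670921) (nat_lit 76) (nat_lit 376334659) (nat_lit 306) (nat_lit 5) (nat_lit 316) (nat_lit 5) (nat_lit 307) (nat_lit 5) (nat_lit 452) (nat_lit 415) (nat_lit 333))))) (XT.nd (nat_lit 312) (nat_lit 2356) (nat_lit 0) (XT.nd (nat_lit 156) (nat_lit 1292) (nat_lit 0) (XT.nd (nat_lit 78) (nat_lit 0) (nat_lit 0) (XT.lf (nat_lit 0) (nat_lit 736765767) (nat_lit 608) (nat_lit 4452068072) (nat_lit 684) (nat_lit 6915920322) (nat_lit 298) (nat_lit 5) (nat_lit 306) (nat_lit 5) (nat_lit 307) (nat_lit 5) (nat_lit 453) (nat_lit 415) (nat_lit 332)) (XT.lf (nat_lit 0) (nat_lit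 9190441916) (nat_lit 684) (nat_lit 242354780) (nat_lit 76) (nat_lit 2868270996) (nat_lit 298) (nat_lit 5) (nat_lit 307) (nat_lit 5) (nat_lit 299) (nat_lit 5) (nat_lit 454) (nat_lit 415) (nat_lit 331))) (XT.nd (nat_lit 78) (nat_lit 608) (nat_lit 0) (XT.lf (nat_lit 0) (nat_lit 864748136) (nat_lit 684) (nat_lit 1218907896) (nat_lit 76) (nat_lit 10418179871) (nat_lit 289) (nat_lit 5) (nat_lit 298) (nat_lit 5) (nat_lit 290) (nat_lit 5) (nat_lit 455) (nat_lit 415) (nat_lit 330)) (XT.lf (nat_lit 0) (nat_lit 4987034600) (nat_lit 684) (nat_lit 2224178993) (nat_lit 76) (nat_lit 5495604937) (nat_lit 281) (nat_lit 5) (nat_lit 290) (nat_lit 5) (nat_lit 282) (nat_lit 5) (nat_lit 456) (nat_lit 415) (nat_lit 329)))) (XT.nd (nat_lit 156) (nat_lit 1140) (nat_lit 0) (XT.nd (nat_lit 78) (nat_lit 608) (nat_lit 0) (XT.lf (nat_lit 0) (nat_lit 9285207486) (nat_lit 684) (nat_lit 3218528952) (nat_lit 76) (nat_lit 413170662)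 (nat_lit 273) (nat_lit 5) (nat_lit 282) (nat_lit 5) (nat_lit 274) (nat_lit 5) (nat_lit 457) (nat_lit 415) (nat_lit 328)) (XT.lf (nat_lit 0) (nat_lit 658114742) (nat_lit 608) (nat_lit 4237575430) (nat_lit 76) (nat_lit 8235800116) (nat_lit 265) (nat_lit 5) (nat_lit 273) (nat_lit 5) (nat_lit 266) (nat_lit 5) (nat_lit 458) (nat_lit 415) (nat_lit 327))) (XT.nd (nat_lit 78) (nat_lit 532) (nat_lit 0) (XT.lf (nat_lit 0) (nat_lit 5087207990) (nat_lit 684) (nat_lit 5273235847) (nat_lit 76) (nat_lit 2990389282) (nat_lit 257) (nat_lit 5) (nat_lit 266) (nat_lit 5) (nat_lit 258) (nat_lit 5) (nat_lit 459) (nat_lit 415) (nat_lit 326)) (XT.lf (nat_lit 0) (nat_lit 7260661852) (nat_lit 532) (nat_lit 2463379725) (nat_lit 608) (nat_lit 3851218044) (nat_lit 250) (nat_lit 5) (nat_lit 257) (nat_lit 5) (nat_lit 258) (nat_lit 5) (nat_lit 460) (nat_lit 415) (nat_lit 325))))))))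
noncomputable def xc55 : XT := (XT.nd (nat_lit 59280) (nat_lit 0) (nat_lit 17480) (XT.nd (nat_lit 1092) (nat_lit 4332) (nat_lit 0) (XT.nd (nat_lit 546) (nat_lit 2508) (nat_lit 0) (XT.nd (nat_lit 234) (nat_lit 1976) (nat_lit 0) (XT.nd (nat_lit 78) (nat_lit 988) (nat_lit 0) (XT.lf (nat_lit 0) (nat_lit 766297093) (nat_lit 608) (nat_lit 7370917422) (nat_lit 76) (nat_lit 5667478403) (nat_lit 242) (nat_lit 5) (nat_lit 250) (nat_lit 5) (nat_lit 243) (nat_lit 5) (nat_lit 461) (nat_lit 415) (nat_lit 324)) (XT.nd (nat_lit 78) (nat_lit 532) (nat_lit 0) (XT.lf (nat_lit 0) (nat_lit 5533770407) (nat_lit 532) (nat_lit 8443101960) (nat_lit 76) (nat_lit 62353283) (nat_lit 236) (nat_lit 5) (nat_lit 243) (nat_lit 5) (nat_lit 237) (nat_lit 5) (nat_lit 462) (nat_lit 415) (nat_lit 323)) (XT.lf (nat_lit 0) (nat_lit 4735577262) (nat_lit 532) (nat_lit 5811884196) (nat_lit 608) (nat_lit 3731269696) (nat_lit 229) (nat_lit 5)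 (nat_lit 236) (nat_lit 5) (nat_lit 237) (nat_lit 5) (nat_lit 463) (nat_lit 415) (nat_lit 322)))) (XT.nd (nat_lit 156) (nat_lit 988) (nat_lit 0) (XT.nd (nat_lit 78) (nat_lit 456) (nat_lit 0) (XT.lf (nat_lit 0) (nat_lit 1239070632) (nat_lit 532) (nat_lit 10642412036) (nat_lit 76) (nat_lit 2642416046) (nat_lit 222) (nat_lit 5) (nat_lit 229) (nat_lit 5) (nat_lit 223) (nat_lit 5) (nat_lit 464) (nat_lit 415) (nat_lit 321)) (XT.lf (nat_lit 0) (nat_lit 2994832500) (nat_lit 456) (nat_lit 3405441206) (nat_lit 532) (nat_lit 8373806016) (nat_lit 216) (nat_lit 5) (nat_lit 222) (nat_lit 5) (nat_lit 223) (nat_lit 5) (nat_lit 465) (nat_lit 415) (nat_lit 320))) (XT.nd (nat_lit 78) (nat_lit 532) (nat_lit 0) (XT.lf (nat_lit 0) (nat_lit 2104730544) (nat_lit 456) (nat_lit 9701704089) (nat_lit 532) (nat_lit 3223529683) (nat_lit 210) (nat_lit 5) (nat_lit 216) (nat_lit 5) (nat_lit 217) (nat_lit 5) (nat_lit 466) (nat_lit 415)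 (nat_lit 319)) (XT.lf (nat_lit 0) (nat_lit 1209530740) (nat_lit 456) (nat_lit 925104473) (nat_lit 532) (nat_lit 13157007016) (nat_lit 203) (nat_lit 5) (nat_lit 209) (nat_lit 5) (nat_lit 210) (nat_lit 5) (nat_lit 467) (nat_lit 415) (nat_lit 318))))) (XT.nd (nat_lit 234) (nat_lit 1596) (nat_lit 0) (XT.nd (nat_lit 78) (nat_lit 532) (nat_lit 0) (XT.lf (nat_lit 0) (nat_lit 270725519) (nat_lit 380) (nat_lit 7452097494) (nat_lit 456) (nat_lit 7835660402) (nat_lit 198) (nat_lit 5) (nat_lit 203) (nat_lit 5) (nat_lit 204) (nat_lit 5) (nat_lit 468) (nat_lit 415) (nat_lit 317)) (XT.nd (nat_lit 78) (nat_lit 532) (nat_lit 0) (XT.lf (nat_lit 0) (nat_lit 13561718297) (nat_lit 456) (nat_lit 645067968) (nat_lit 76) (nat_lit 1624882866) (nat_lit 198) (nat_lit 5) (nat_lit 204) (nat_lit 5) (nat_lit 199) (nat_lit 5) (nat_lit 469) (nat_lit 415) (nat_lit 316)) (XT.lf (nat_lit 0) (nat_lit 3533854209) (nat_lit 532) (nat_lit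 1598639086) (nat_lit 76) (nat_lit 10977777213) (nat_lit 191) (nat_lit 5) (nat_lit 198) (nat_lit 5) (nat_lit 192) (nat_lit 5) (nat_lit 470) (nat_lit 415) (nat_lit 315)))) (XT.nd (nat_lit 156) (nat_lit 836) (nat_lit 0) (XT.nd (nat_lit 78) (nat_lit 380) (nat_lit 0) (XT.lf (nat_lit 0) (nat_lit 9575424366) (nat_lit 456) (nat_lit 2564360878) (nat_lit 76) (nat_lit 4255255273) (nat_lit 186) (nat_lit 5) (nat_lit 192) (nat_lit 5) (nat_lit 187) (nat_lit 5) (nat_lit 471) (nat_lit 415) (nat_lit 314)) (XT.lf (nat_lit 0) (nat_lit 13152910684) (nat_lit 380) (nat_lit 2748351531) (nat_lit 456) (nat_lit 785031476) (nat_lit 181) (nat_lit 5) (nat_lit 186) (nat_lit 5) (nat_lit 187) (nat_lit 5) (nat_lit 472) (nat_lit 415) (nat_lit 313))) (XT.nd (nat_lit 78) (nat_lit 380) (nat_lit 0) (XT.lf (nat_lit 0) (nat_lit 5476378948) (nat_lit 456) (nat_lit 4552275828) (nat_lit 76) (nat_lit 6954584732) (nat_lit 175) (nat_lit 5) (nat_lit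 181) (nat_lit 5) (nat_lit 176) (nat_lit 5) (nat_lit 473) (nat_lit 415) (nat_lit 312)) (XT.lf (nat_lit 0) (nat_lit 11722674163) (nat_lit 380) (nat_lit 284134883) (nat_lit 456) (nat_lit 5280344454) (nat_lit 170) (nat_lit 5) (nat_lit 175) (nat_lit 5) (nat_lit 176) (nat_lit 5) (nat_lit 474) (nat_lit 415) (nat_lit 311)))))) (XT.nd (nat_lit 546) (nat_lit 1672) (nat_lit 0) (XT.nd (nat_lit 234) (nat_lit 1520) (nat_lit 0) (XT.nd (nat_lit 78) (nat_lit 684) (nat_lit 0) (XT.lf (nat_lit 0) (nat_lit 1258359590) (nat_lit 456) (nat_lit 6617512277) (nat_lit 76) (nat_lit 9721361317) (nat_lit 164) (nat_lit 5) (nat_lit 170) (nat_lit 5) (nat_lit 165) (nat_lit 5) (nat_lit 475) (nat_lit 415) (nat_lit 310)) (XT.nd (nat_lit 78) (nat_lit 304) (nat_lit 0) (XT.lf (nat_lit 0) (nat_lit 8016669947) (nat_lit 456) (nat_lit 7692183801) (nat_lit 76) (nat_lit 2205160168) (nat_lit 159) (nat_lit 5) (nat_lit 165) (nat_lit 5) (nat_lit 160)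 (nat_lit 5) (nat_lit 476) (nat_lit 415) (nat_lit 309)) (XT.lf (nat_lit 0) (nat_lit 9448003328) (nat_lit 304) (nat_lit 5663230592) (nat_lit 380) (nat_lit 3126394460) (nat_lit 155) (nat_lit 5) (nat_lit 159) (nat_lit 5) (nat_lit 160) (nat_lit 5) (nat_lit 477) (nat_lit 415) (nat_lit 308)))) (XT.nd (nat_lit 156) (nat_lit 760) (nat_lit 0) (XT.nd (nat_lit 78) (nat_lit 304) (nat_lit 0) (XT.lf (nat_lit 0) (nat_lit 3911961544) (nat_lit 456) (nat_lit 9913763806) (nat_lit 76) (nat_lit 4742431849) (nat_lit 149) (nat_lit 5) (nat_lit 155) (nat_lit 5) (nat_lit 150) (nat_lit 5) (nat_lit 478) (nat_lit 415) (nat_lit 307)) (XT.lf (nat_lit 0) (nat_lit 7838355899) (nat_lit 304) (nat_lit 3404659350) (nat_lit 380) (nat_lit 7662693240) (nat_lit 145) (nat_lit 5) (nat_lit 149) (nat_lit 5) (nat_lit 150) (nat_lit 5) (nat_lit 479) (nat_lit 415) (nat_lit 306))) (XT.nd (nat_lit 78) (nat_lit 380) (nat_lit 0) (XT.lf (nat_lit 0) (nat_lit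 7010965066) (nat_lit 380) (nat_lit 11919199758) (nat_lit 456) (nat_lit 320498563) (nat_lit 140) (nat_lit 5) (nat_lit 145) (nat_lit 5) (nat_lit 146) (nat_lit 5) (nat_lit 480) (nat_lit 415) (nat_lit 305)) (XT.lf (nat_lit 0) (nat_lit 6149694309) (nat_lit 304) (nat_lit 1111214895) (nat_lit 380) (nat_lit 12341839137) (nat_lit 135) (nat_lit 5) (nat_lit 139) (nat_lit 5) (nat_lit 140) (nat_lit 5) (nat_lit 481) (nat_lit 415) (nat_lit 304))))) (XT.nd (nat_lit 57330) (nat_lit 0) (nat_lit 39444) (XT.nd (nat_lit 156) (nat_lit 988) (nat_lit 0) (XT.nd (nat_lit 78) (nat_lit 380) (nat_lit 0) (XT.lf (nat_lit 0) (nat_lit 5256683442) (nat_lit 304) (nat_lit 9967525275) (nat_lit 380) (nat_lit 4737969007) (nat_lit 131) (nat_lit 5) (nat_lit 135) (nat_lit 5) (nat_lit 136) (nat_lit 5) (nat_lit 482) (nat_lit 415) (nat_lit 303)) (XT.lf (nat_lit 0) (nat_lit 3165292075) (nat_lit 380) (nat_lit 15966040718) (nat_lit 76) (nat_lit 1198418672)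 (nat_lit 126) (nat_lit 5) (nat_lit 131) (nat_lit 5) (nat_lit 127) (nat_lit 5) (nat_lit 483) (nat_lit 415) (nat_lit 302))) (XT.nd (nat_lit 156) (nat_lit 684) (nat_lit 0) (XT.lf (nat_lit 0) (nat_lit 3407114477) (nat_lit 304) (nat_lit 8000351378) (nat_lit 380) (nat_lit 9296936801) (nat_lit 122) (nat_lit 5) (nat_lit 126) (nat_lit 5) (nat_lit 127) (nat_lit 5) (nat_lit 484) (nat_lit 415) (nat_lit 301)) (XT.lf (nat_lit 0) (nat_lit 1450700017) (nat_lit 304) (nat_lit 6021317708) (nat_lit 380) (nat_lit 14006563738) (nat_lit 113) (nat_lit 5) (nat_lit 117) (nat_lit 5) (nat_lit 118) (nat_lit 5) (nat_lit 486) (nat_lit 415) (nat_lit 299)))) (XT.nd (nat_lit 156) (nat_lit 0) (nat_lit 0) (XT.nd (nat_lit 78) (nat_lit 1292) (nat_lit 0) (XT.lf (nat_lit 0) (nat_lit 3736864973) (nat_lit 1292) (nat_lit 13109840) (nat_lit 1292) (nat_lit 13109840) (nat_lit 649) (nat_lit 3) (nat_lit 666) (nat_lit 3) (nat_lit 666) (nat_lit 5)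 (nat_lit 416) (nat_lit 416) (nat_lit 368)) (XT.lf (nat_lit 0) (nat_lit 2135364605) (nat_lit 1292) (nat_lit 1943428317) (nat_lit 1368) (nat_lit 3516437570) (nat_lit 632) (nat_lit 5) (nat_lit 649) (nat_lit 3) (nat_lit 650) (nat_lit 5) (nat_lit 417) (nat_lit 416) (nat_lit 367))) (XT.nd (nat_lit 78) (nat_lit 0) (nat_lit 76) (XT.lf (nat_lit 76) (nat_lit 3839957072) (nat_lit 0) (nat_lit 489023913) (nat_lit 1368) (nat_lit 3338560917) (nat_lit 633) (nat_lit 5) (nat_lit 632) (nat_lit 5) (nat_lit 650) (nat_lit 5) (nat_lit 418) (nat_lit 416) (nat_lit 366)) (XT.lf (nat_lit 76) (nat_lit 2042157965) (nat_lit 0) (nat_lit 4511792032) (nat_lit 1368) (nat_lit 1188764822) (nat_lit 634) (nat_lit 5) (nat_lit 633) (nat_lit 5) (nat_lit 651) (nat_lit 5) (nat_lit 419) (nat_lit 416) (nat_lit 365))))))) (XT.nd (nat_lit 1170) (nat_lit 13376) (nat_lit 0) (XT.nd (nat_lit 546) (nat_lit 6004) (nat_lit 0) (XT.nd (nat_lit 234) (nat_lit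 1292) (nat_lit 0) (XT.nd (nat_lit 78) (nat_lit 0) (nat_lit 76) (XT.lf (nat_lit 76) (nat_lit 268455517) (nat_lit 0) (nat_lit 694500842) (nat_lit 1444) (nat_lit 6858038673) (nat_lit 616) (nat_lit 5) (nat_lit 615) (nat_lit 5) (nat_lit 634) (nat_lit 5) (nat_lit 420) (nat_lit 416) (nat_lit 364)) (XT.nd (nat_lit 78) (nat_lit 0) (nat_lit 0) (XT.lf (nat_lit 0) (nat_lit 3145093761) (nat_lit 1368) (nat_lit 1482273870) (nat_lit 1444) (nat_lit 3274461378) (nat_lit 616) (nat_lit 5) (nat_lit 634) (nat_lit 5) (nat_lit 635) (nat_lit 5) (nat_lit 421) (nat_lit 416) (nat_lit 363)) (XT.lf (nat_lit 76) (nat_lit 4782777637) (nat_lit 0) (nat_lit 569906136) (nat_lit 1444) (nat_lit 2633207195) (nat_lit 617) (nat_lit 5) (nat_lit 616) (nat_lit 5) (nat_lit 635) (nat_lit 5) (nat_lit 422) (nat_lit 416) (nat_lit 362)))) (XT.nd (nat_lit 156) (nat_lit 0) (nat_lit 76) (XT.nd (nat_lit 78) (nat_lit 1444) (nat_lit 0) (XT.lf (nat_lit 76)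 (nat_lit 3155343271) (nat_lit 0) (nat_lit 4451584800) (nat_lit 1444) (nat_lit 465940838) (nat_lit 618) (nat_lit 5) (nat_lit 617) (nat_lit 5) (nat_lit 636) (nat_lit 5) (nat_lit 423) (nat_lit 416) (nat_lit 361)) (XT.lf (nat_lit 76) (nat_lit 1544665135) (nat_lit 0) (nat_lit 161967121) (nat_lit 1520) (nat_lit 6456328000) (nat_lit 599) (nat_lit 5) (nat_lit 598) (nat_lit 5) (nat_lit 618) (nat_lit 5) (nat_lit 424) (nat_lit 416) (nat_lit 360))) (XT.nd (nat_lit 78) (nat_lit 0) (nat_lit 76) (XT.lf (nat_lit 0) (nat_lit 3928998660) (nat_lit 1444) (nat_lit 65388213) (nat_lit 1520) (nat_lit 4261489398) (nat_lit 599) (nat_lit 5) (nat_lit 618) (nat_lit 5) (nat_lit 619) (nat_lit 5) (nat_lit 425) (nat_lit 416) (nat_lit 359)) (XT.lf (nat_lit 0) (nat_lit 6198008084) (nat_lit 1444) (nat_lit 1630254352) (nat_lit 1520) (nat_lit 523720270) (nat_lit 600) (nat_lit 5) (nat_lit 619) (nat_lit 5) (nat_lit 620) (nat_lit 5) (nat_lit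 426) (nat_lit 416) (nat_lit 358))))) (XT.nd (nat_lit 312) (nat_lit 4636) (nat_lit 0) (XT.nd (nat_lit 156) (nat_lit 0) (nat_lit 76) (XT.nd (nat_lit 78) (nat_lit 0) (nat_lit 76) (XT.lf (nat_lit 0) (nat_lit 77882631) (nat_lit 1520) (nat_lit 3193663273) (nat_lit 1596) (nat_lit 5179520368) (nat_lit 580) (nat_lit 5) (nat_lit 600) (nat_lit 5) (nat_lit 601) (nat_lit 5) (nat_lit 427) (nat_lit 416) (nat_lit 357)) (XT.lf (nat_lit 0) (nat_lit 2327952510) (nat_lit 1520) (nat_lit 4753333446) (nat_lit 1596) (nat_lit 1471943414) (nat_lit 581) (nat_lit 5) (nat_lit 601) (nat_lit 5) (nat_lit 602) (nat_lit 5) (nat_lit 428) (nat_lit 416) (nat_lit 356))) (XT.nd (nat_lit 78) (nat_lit 0) (nat_lit 76) (XT.lf (nat_lit 76) (nat_lit 2350309252) (nat_lit 0) (nat_lit 2290665699) (nat_lit 1596) (nat_lit 4017575537) (nat_lit 582) (nat_lit 5) (nat_lit 581) (nat_lit 5) (nat_lit 602) (nat_lit 5) (nat_lit 429) (nat_lit 416) (nat_lit 355))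 (XT.lf (nat_lit 76) (nat_lit 912309424) (nat_lit 0) (nat_lit 6104762329) (nat_lit 1596) (nat_lit 1750087887) (nat_lit 583) (nat_lit 5) (nat_lit 582) (nat_lit 5) (nat_lit 603) (nat_lit 5) (nat_lit 430) (nat_lit 416) (nat_lit 354)))) (XT.nd (nat_lit 156) (nat_lit 3192) (nat_lit 0) (XT.nd (nat_lit 78) (nat_lit 0) (nat_lit 76) (XT.lf (nat_lit 0) (nat_lit 575359914) (nat_lit 1596) (nat_lit 509796638) (nat_lit 1672) (nat_lit 7793844201) (nat_lit 561) (nat_lit 5) (nat_lit 582) (nat_lit 5) (nat_lit 583) (nat_lit 5) (nat_lit 431) (nat_lit 416) (nat_lit 353)) (XT.lf (nat_lit 0) (nat_lit 2960983594) (nat_lit 1596) (nat_lit 1930961036) (nat_lit 76) (nat_lit 4101739238) (nat_lit 562) (nat_lit 5) (nat_lit 583) (nat_lit 5) (nat_lit 563) (nat_lit 5) (nat_lit 432) (nat_lit 416) (nat_lit 352))) (XT.nd (nat_lit 78) (nat_lit 1672) (nat_lit 0) (XT.lf (nat_lit 0) (nat_lit 5411363859) (nat_lit 1672) (nat_lit 3335344149) (nat_lit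 76) (nat_lit 365237573) (nat_lit 541) (nat_lit 5) (nat_lit 563) (nat_lit 5) (nat_lit 542) (nat_lit 5) (nat_lit 433) (nat_lit 416) (nat_lit 351)) (XT.lf (nat_lit 0) (nat_lit 4486831574) (nat_lit 1672) (nat_lit 3467406917) (nat_lit 1748) (nat_lit 1279138803) (nat_lit 519) (nat_lit 5) (nat_lit 541) (nat_lit 5) (nat_lit 542) (nat_lit 5) (nat_lit 434) (nat_lit 416) (nat_lit 350)))))) (XT.nd (nat_lit 546) (nat_lit 5852) (nat_lit 0) (XT.nd (nat_lit 234) (nat_lit 2736) (nat_lit 0) (XT.nd (nat_lit 78) (nat_lit 2964) (nat_lit 0) (XT.lf (nat_lit 0) (nat_lit 1200770028) (nat_lit 1824) (nat_lit 6153716865) (nat_lit 76) (nat_lit 2003773880) (nat_lit 495) (nat_lit 5) (nat_lit 519) (nat_lit 5) (nat_lit 496) (nat_lit 5) (nat_lit 435) (nat_lit 416) (nat_lit 349)) (XT.nd (nat_lit 78) (nat_lit 1140) (nat_lit 0) (XT.lf (nat_lit 0) (nat_lit 1918237253) (nat_lit 1824) (nat_lit 1833855161) (nat_lit 1900) (nat_lit 5734343016)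 (nat_lit 471) (nat_lit 5) (nat_lit 495) (nat_lit 5) (nat_lit 496) (nat_lit 5) (nat_lit 436) (nat_lit 416) (nat_lit 348)) (XT.lf (nat_lit 0) (nat_lit 633820706) (nat_lit 1140) (nat_lit 5764807069) (nat_lit 1216) (nat_lit 3219455707) (nat_lit 456) (nat_lit 5) (nat_lit 471) (nat_lit 5) (nat_lit 472) (nat_lit 5) (nat_lit 437) (nat_lit 416) (nat_lit 347)))) (XT.nd (nat_lit 156) (nat_lit 1748) (nat_lit 0) (XT.nd (nat_lit 78) (nat_lit 988) (nat_lit 0) (XT.lf (nat_lit 0) (nat_lit 9125684282) (nat_lit 1140) (nat_lit 11132099) (nat_lit 1216) (nat_lit 616621025) (nat_lit 456) (nat_lit 5) (nat_lit 471) (nat_lit 5) (nat_lit 472) (nat_lit 5) (nat_lit 438) (nat_lit 416) (nat_lit 346)) (XT.lf (nat_lit 0) (nat_lit 2078137420) (nat_lit 988) (nat_lit 1906782112) (nat_lit 76) (nat_lit 5906847611) (nat_lit 443) (nat_lit 5) (nat_lit 456) (nat_lit 5) (nat_lit 444) (nat_lit 5) (nat_lit 439) (nat_lit 416) (nat_lit 345))) (XT.nd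 (nat_lit 78) (nat_lit 836) (nat_lit 0) (XT.lf (nat_lit 0) (nat_lit 4858637161) (nat_lit 988) (nat_lit 3177812037) (nat_lit 76) (nat_lit 1997451990) (nat_lit 431) (nat_lit 5) (nat_lit 444) (nat_lit 5) (nat_lit 432) (nat_lit 5) (nat_lit 440) (nat_lit 416) (nat_lit 344)) (XT.lf (nat_lit 0) (nat_lit 5729193618) (nat_lit 836) (nat_lit 2022474934) (nat_lit 912) (nat_lit 2428049781) (nat_lit 420) (nat_lit 5) (nat_lit 431) (nat_lit 5) (nat_lit 432) (nat_lit 5) (nat_lit 441) (nat_lit 416) (nat_lit 343))))) (XT.nd (nat_lit 312) (nat_lit 2432) (nat_lit 0) (XT.nd (nat_lit 156) (nat_lit 1596) (nat_lit 0) (XT.nd (nat_lit 78) (nat_lit 836) (nat_lit 0) (XT.lf (nat_lit 0) (nat_lit 428530409) (nat_lit 988) (nat_lit 5728807745) (nat_lit 76) (nat_lit 4171876711) (nat_lit 407) (nat_lit 5) (nat_lit 420) (nat_lit 5) (nat_lit 408) (nat_lit 5) (nat_lit 442) (nat_lit 416) (nat_lit 342)) (XT.lf (nat_lit 0) (nat_lit 3359247717)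 (nat_lit 912) (nat_lit 7013581409) (nat_lit 76) (nat_lit 109618934) (nat_lit 396) (nat_lit 5) (nat_lit 408) (nat_lit 5) (nat_lit 397) (nat_lit 5) (nat_lit 443) (nat_lit 416) (nat_lit 341))) (XT.nd (nat_lit 78) (nat_lit 760) (nat_lit 0) (XT.lf (nat_lit 0) (nat_lit 2323164021) (nat_lit 836) (nat_lit 4105194121) (nat_lit 912) (nat_lit 4210911946) (nat_lit 385) (nat_lit 5) (nat_lit 396) (nat_lit 5) (nat_lit 397) (nat_lit 5) (nat_lit 444) (nat_lit 416) (nat_lit 340)) (XT.lf (nat_lit 0) (nat_lit 1188833072) (nat_lit 760) (nat_lit 8427651085) (nat_lit 836) (nat_lit 1183775002) (nat_lit 375) (nat_lit 5) (nat_lit 385) (nat_lit 5) (nat_lit 386) (nat_lit 5) (nat_lit 445) (nat_lit 416) (nat_lit 339)))) (XT.nd (nat_lit 156) (nat_lit 1596) (nat_lit 0) (XT.nd (nat_lit 78) (nat_lit 0) (nat_lit 0) (XT.lf (nat_lit 0) (nat_lit 40793722) (nat_lit 760) (nat_lit 1909271172) (nat_lit 836) (nat_lit 9014937903) (nat_lit 364)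 (nat_lit 5) (nat_lit 374) (nat_lit 5) (nat_lit 375) (nat_lit 5) (nat_lit 446) (nat_lit 416) (nat_lit 338)) (XT.lf (nat_lit 0) (nat_lit 5216426932) (nat_lit 836) (nat_lit 1105998335) (nat_lit 76) (nat_lit 4811016323) (nat_lit 364) (nat_lit 5) (nat_lit 375) (nat_lit 5) (nat_lit 365) (nat_lit 5) (nat_lit 447) (nat_lit 416) (nat_lit 337))) (XT.nd (nat_lit 78) (nat_lit 836) (nat_lit 0) (XT.lf (nat_lit 0) (nat_lit 8614348506) (nat_lit 836) (nat_lit 2242211319) (nat_lit 76) (nat_lit 449703451) (nat_lit 354) (nat_lit 5) (nat_lit 365) (nat_lit 5) (nat_lit 355) (nat_lit 5) (nat_lit 448) (nat_lit 416) (nat_lit 336)) (XT.lf (nat_lit 0) (nat_lit 684267996) (nat_lit 836) (nat_lit 3399424054) (nat_lit 76) (nat_lit 7399244981) (nat_lit 343) (nat_lit 5) (nat_lit 354) (nat_lit 5) (nat_lit 344) (nat_lit 5) (nat_lit 449) (nat_lit 416) (nat_lit 335))))))))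
noncomputable def xc56 : XT := (XT.nd (nat_lit 2262) (nat_lit 6688) (nat_lit 0) (XT.nd (nat_lit 1092) (nat_lit 6156) (nat_lit 0) (XT.nd (nat_lit 546) (nat_lit 3420) (nat_lit 0) (XT.nd (nat_lit 234) (nat_lit 2660) (nat_lit 0) (XT.nd (nat_lit 78) (nat_lit 1368) (nat_lit 0) (XT.lf (nat_lit 0) (nat_lit 4166583657) (nat_lit 760) (nat_lit 4568725249) (nat_lit 76) (nat_lit 2928418842) (nat_lit 334) (nat_lit 5) (nat_lit 344) (nat_lit 5) (nat_lit 335) (nat_lit 5) (nat_lit 450) (nat_lit 416) (nat_lit 334)) (XT.nd (nat_lit 78) (nat_lit 684) (nat_lit 0) (XT.lf (nat_lit 0) (nat_lit 6108321098) (nat_lit 684) (nat_lit 1696482263) (nat_lit 760) (nat_lit 4044111125) (nat_lit 325) (nat_lit 5) (nat_lit 334) (nat_lit 5) (nat_lit 335) (nat_lit 5) (nat_lit 451) (nat_lit 416) (nat_lit 333)) (XT.lf (nat_lit 0) (nat_lit 5114379015) (nat_lit 684) (nat_lit 6500286285) (nat_lit 760) (nat_lit 423742572) (nat_lit 316) (nat_lit 5)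 (nat_lit 325) (nat_lit 5) (nat_lit 326) (nat_lit 5) (nat_lit 452) (nat_lit 416) (nat_lit 332)))) (XT.nd (nat_lit 156) (nat_lit 1292) (nat_lit 0) (XT.nd (nat_lit 78) (nat_lit 608) (nat_lit 0) (XT.lf (nat_lit 0) (nat_lit 3307040919) (nat_lit 760) (nat_lit 8121325742) (nat_lit 76) (nat_lit 803888067) (nat_lit 306) (nat_lit 5) (nat_lit 316) (nat_lit 5) (nat_lit 307) (nat_lit 5) (nat_lit 453) (nat_lit 416) (nat_lit 331)) (XT.lf (nat_lit 0) (nat_lit 3089321697) (nat_lit 608) (nat_lit 4128841698) (nat_lit 684) (nat_lit 5212215014) (nat_lit 298) (nat_lit 5) (nat_lit 306) (nat_lit 5) (nat_lit 307) (nat_lit 5) (nat_lit 454) (nat_lit 416) (nat_lit 330))) (XT.nd (nat_lit 78) (nat_lit 684) (nat_lit 0) (XT.lf (nat_lit 0) (nat_lit 2073693340) (nat_lit 608) (nat_lit 9227896804) (nat_lit 684) (nat_lit 1331757107) (nat_lit 290) (nat_lit 5) (nat_lit 298) (nat_lit 5) (nat_lit 299) (nat_lit 5) (nat_lit 455) (nat_lit 416)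 (nat_lit 329)) (XT.lf (nat_lit 0) (nat_lit 1040949057) (nat_lit 608) (nat_lit 1651923858) (nat_lit 684) (nat_lit 10147932754) (nat_lit 281) (nat_lit 5) (nat_lit 289) (nat_lit 5) (nat_lit 290) (nat_lit 5) (nat_lit 456) (nat_lit 416) (nat_lit 328))))) (XT.nd (nat_lit 234) (nat_lit 2204) (nat_lit 0) (XT.nd (nat_lit 78) (nat_lit 1216) (nat_lit 0) (XT.lf (nat_lit 0) (nat_lit 6897524944) (nat_lit 684) (nat_lit 13141592) (nat_lit 76) (nat_lit 6142098512) (nat_lit 281) (nat_lit 5) (nat_lit 290) (nat_lit 5) (nat_lit 282) (nat_lit 5) (nat_lit 457) (nat_lit 416) (nat_lit 327)) (XT.nd (nat_lit 78) (nat_lit 608) (nat_lit 0) (XT.lf (nat_lit 0) (nat_lit 11291258641) (nat_lit 684) (nat_lit 1043108518) (nat_lit 76) (nat_lit 935457982) (nat_lit 273) (nat_lit 5) (nat_lit 282) (nat_lit 5) (nat_lit 274) (nat_lit 5) (nat_lit 458) (nat_lit 416) (nat_lit 326)) (XT.lf (nat_lit 0) (nat_lit 2380790469) (nat_lit 608) (nat_lit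 2106918051) (nat_lit 76) (nat_lit 9003630449) (nat_lit 265) (nat_lit 5) (nat_lit 273) (nat_lit 5) (nat_lit 266) (nat_lit 5) (nat_lit 459) (nat_lit 416) (nat_lit 325)))) (XT.nd (nat_lit 156) (nat_lit 1064) (nat_lit 0) (XT.nd (nat_lit 78) (nat_lit 532) (nat_lit 0) (XT.lf (nat_lit 0) (nat_lit 6911170803) (nat_lit 684) (nat_lit 3180479838) (nat_lit 76) (nat_lit 3626244247) (nat_lit 257) (nat_lit 5) (nat_lit 266) (nat_lit 5) (nat_lit 258) (nat_lit 5) (nat_lit 460) (nat_lit 416) (nat_lit 324)) (XT.lf (nat_lit 0) (nat_lit 9692915752) (nat_lit 532) (nat_lit 1959891223) (nat_lit 608) (nat_lit 2296934316) (nat_lit 250) (nat_lit 5) (nat_lit 257) (nat_lit 5) (nat_lit 258) (nat_lit 5) (nat_lit 461) (nat_lit 416) (nat_lit 323))) (XT.nd (nat_lit 78) (nat_lit 456) (nat_lit 0) (XT.lf (nat_lit 0) (nat_lit 2407296939) (nat_lit 608) (nat_lit 5363445022) (nat_lit 76) (nat_lit 6415697987) (nat_lit 242) (nat_lit 5) (nat_lit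 250) (nat_lit 5) (nat_lit 243) (nat_lit 5) (nat_lit 462) (nat_lit 416) (nat_lit 322)) (XT.lf (nat_lit 0) (nat_lit 7288845870) (nat_lit 532) (nat_lit 6476159688) (nat_lit 76) (nat_lit 663583052) (nat_lit 236) (nat_lit 5) (nat_lit 243) (nat_lit 5) (nat_lit 237) (nat_lit 5) (nat_lit 463) (nat_lit 416) (nat_lit 321)))))) (XT.nd (nat_lit 546) (nat_lit 2812) (nat_lit 0) (XT.nd (nat_lit 234) (nat_lit 1824) (nat_lit 0) (XT.nd (nat_lit 78) (nat_lit 988) (nat_lit 0) (XT.lf (nat_lit 0) (nat_lit 7061859230) (nat_lit 532) (nat_lit 5358986424) (nat_lit 608) (nat_lit 2255076614) (nat_lit 229) (nat_lit 5) (nat_lit 236) (nat_lit 5) (nat_lit 237) (nat_lit 5) (nat_lit 464) (nat_lit 416) (nat_lit 320)) (XT.nd (nat_lit 78) (nat_lit 456) (nat_lit 0) (XT.lf (nat_lit 0) (nat_lit 2816093746) (nat_lit 532) (nat_lit 8765753503) (nat_lit 76) (nat_lit 3346941317) (nat_lit 222) (nat_lit 5) (nat_lit 229) (nat_lit 5) (nat_lit 223)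 (nat_lit 5) (nat_lit 465) (nat_lit 416) (nat_lit 319)) (XT.lf (nat_lit 0) (nat_lit 5244982000) (nat_lit 456) (nat_lit 2856327013) (nat_lit 532) (nat_lit 7085783344) (nat_lit 216) (nat_lit 5) (nat_lit 222) (nat_lit 5) (nat_lit 223) (nat_lit 5) (nat_lit 466) (nat_lit 416) (nat_lit 318)))) (XT.nd (nat_lit 156) (nat_lit 836) (nat_lit 0) (XT.nd (nat_lit 78) (nat_lit 532) (nat_lit 0) (XT.lf (nat_lit 0) (nat_lit 4318688328) (nat_lit 456) (nat_lit 9325084082) (nat_lit 532) (nat_lit 1807399577) (nat_lit 210) (nat_lit 5) (nat_lit 216) (nat_lit 5) (nat_lit 217) (nat_lit 5) (nat_lit 467) (nat_lit 416) (nat_lit 317)) (XT.lf (nat_lit 0) (nat_lit 3381284671) (nat_lit 456) (nat_lit 280764065) (nat_lit 532) (nat_lit 12059048273) (nat_lit 203) (nat_lit 5) (nat_lit 209) (nat_lit 5) (nat_lit 210) (nat_lit 5) (nat_lit 468) (nat_lit 416) (nat_lit 316))) (XT.nd (nat_lit 78) (nat_lit 456) (nat_lit 0) (XT.lf (nat_lit 0) (nat_lit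 2404196199) (nat_lit 380) (nat_lit 6989099168) (nat_lit 456) (nat_lit 6603140586) (nat_lit 198) (nat_lit 5) (nat_lit 203) (nat_lit 5) (nat_lit 204) (nat_lit 5) (nat_lit 469) (nat_lit 416) (nat_lit 315)) (XT.lf (nat_lit 0) (nat_lit 1441567249) (nat_lit 456) (nat_lit 13937571213) (nat_lit 532) (nat_lit 899243923) (nat_lit 192) (nat_lit 5) (nat_lit 198) (nat_lit 5) (nat_lit 199) (nat_lit 5) (nat_lit 470) (nat_lit 416) (nat_lit 314))))) (XT.nd (nat_lit 312) (nat_lit 1520) (nat_lit 0) (XT.nd (nat_lit 156) (nat_lit 836) (nat_lit 0) (XT.nd (nat_lit 78) (nat_lit 0) (nat_lit 0) (XT.lf (nat_lit 0) (nat_lit 430672088) (nat_lit 380) (nat_lit 4594843836) (nat_lit 456) (nat_lit 11540325555) (nat_lit 186) (nat_lit 5) (nat_lit 191) (nat_lit 5) (nat_lit 192) (nat_lit 5) (nat_lit 471) (nat_lit 416) (nat_lit 313)) (XT.lf (nat_lit 0) (nat_lit 11222921268) (nat_lit 456) (nat_lit 580569036) (nat_lit 76) (nat_lit 5056173228)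 (nat_lit 186) (nat_lit 5) (nat_lit 192) (nat_lit 5) (nat_lit 187) (nat_lit 5) (nat_lit 472) (nat_lit 416) (nat_lit 312))) (XT.nd (nat_lit 78) (nat_lit 380) (nat_lit 0) (XT.lf (nat_lit 0) (nat_lit 544655994) (nat_lit 456) (nat_lit 1588979474) (nat_lit 76) (nat_lit 15026476973) (nat_lit 180) (nat_lit 5) (nat_lit 186) (nat_lit 5) (nat_lit 181) (nat_lit 5) (nat_lit 473) (nat_lit 416) (nat_lit 311)) (XT.lf (nat_lit 0) (nat_lit 6961776162) (nat_lit 456) (nat_lit 2655030488) (nat_lit 76) (nat_lit 7849486194) (nat_lit 175) (nat_lit 5) (nat_lit 181) (nat_lit 5) (nat_lit 176) (nat_lit 5) (nat_lit 474) (nat_lit 416) (nat_lit 310)))) (XT.nd (nat_lit 156) (nat_lit 684) (nat_lit 0) (XT.nd (nat_lit 78) (nat_lit 456) (nat_lit 0) (XT.lf (nat_lit 0) (nat_lit 13665309475) (nat_lit 456) (nat_lit 3707341349) (nat_lit 76) (nat_lit 407130260) (nat_lit 170) (nat_lit 5) (nat_lit 176) (nat_lit 5) (nat_lit 171) (nat_lit 5) (nat_lit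 475) (nat_lit 416) (nat_lit 309)) (XT.lf (nat_lit 0) (nat_lit 2579818684) (nat_lit 456) (nat_lit 4809592864) (nat_lit 76) (nat_lit 10710044383) (nat_lit 164) (nat_lit 5) (nat_lit 170) (nat_lit 5) (nat_lit 165) (nat_lit 5) (nat_lit 476) (nat_lit 416) (nat_lit 308))) (XT.nd (nat_lit 78) (nat_lit 304) (nat_lit 0) (XT.lf (nat_lit 0) (nat_lit 9520945293) (nat_lit 456) (nat_lit 5928495210) (nat_lit 76) (nat_lit 2976698828) (nat_lit 159) (nat_lit 5) (nat_lit 165) (nat_lit 5) (nat_lit 160) (nat_lit 5) (nat_lit 477) (nat_lit 416) (nat_lit 307)) (XT.lf (nat_lit 0) (nat_lit 11693539884) (nat_lit 304) (nat_lit 5110736544) (nat_lit 380) (nat_lit 1955667763) (nat_lit 155) (nat_lit 5) (nat_lit 159) (nat_lit 5) (nat_lit 160) (nat_lit 5) (nat_lit 478) (nat_lit 416) (nat_lit 306))))))) (XT.nd (nat_lit 58110) (nat_lit 0) (nat_lit 30704) (XT.nd (nat_lit 1716) (nat_lit 3800) (nat_lit 0) (XT.nd (nat_lit 234) (nat_lit 1672)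 (nat_lit 0) (XT.nd (nat_lit 78) (nat_lit 760) (nat_lit 0) (XT.lf (nat_lit 0) (nat_lit 5258235657) (nat_lit 456) (nat_lit 8244766962) (nat_lit 76) (nat_lit 5597602971) (nat_lit 149) (nat_lit 5) (nat_lit 155) (nat_lit 5) (nat_lit 150) (nat_lit 5) (nat_lit 479) (nat_lit 416) (nat_lit 305)) (XT.nd (nat_lit 78) (nat_lit 456) (nat_lit 0) (XT.lf (nat_lit 0) (nat_lit 10008013672) (nat_lit 304) (nat_lit 2777973756) (nat_lit 380) (nat_lit 6662761187) (nat_lit 145) (nat_lit 5) (nat_lit 149) (nat_lit 5) (nat_lit 150) (nat_lit 5) (nat_lit 480) (nat_lit 416) (nat_lit 304)) (XT.lf (nat_lit 0) (nat_lit 869737108) (nat_lit 456) (nat_lit 10666635058) (nat_lit 76) (nat_lit 8267926915) (nat_lit 139) (nat_lit 5) (nat_lit 145) (nat_lit 5) (nat_lit 140) (nat_lit 5) (nat_lit 481) (nat_lit 416) (nat_lit 303)))) (XT.nd (nat_lit 156) (nat_lit 1064) (nat_lit 0) (XT.nd (nat_lit 78) (nat_lit 304) (nat_lit 0) (XT.lf (nat_lit 0) (nat_lit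 8240852488) (nat_lit 304) (nat_lit 410963468) (nat_lit 380) (nat_lit 11515537079) (nat_lit 135) (nat_lit 5) (nat_lit 139) (nat_lit 5) (nat_lit 140) (nat_lit 5) (nat_lit 482) (nat_lit 416) (nat_lit 302)) (XT.lf (nat_lit 0) (nat_lit 7308529074) (nat_lit 304) (nat_lit 9528240277) (nat_lit 380) (nat_lit 3701141323) (nat_lit 131) (nat_lit 5) (nat_lit 135) (nat_lit 5) (nat_lit 136) (nat_lit 5) (nat_lit 483) (nat_lit 416) (nat_lit 301))) (XT.nd (nat_lit 156) (nat_lit 684) (nat_lit 0) (XT.lf (nat_lit 0) (nat_lit 4406848118) (nat_lit 380) (nat_lit 14548313197) (nat_lit 76) (nat_lit 1961535809) (nat_lit 126) (nat_lit 5) (nat_lit 131) (nat_lit 5) (nat_lit 127) (nat_lit 5) (nat_lit 484) (nat_lit 416) (nat_lit 300)) (XT.lf (nat_lit 0) (nat_lit 32569581) (nat_lit 380) (nat_lit 17308740560) (nat_lit 76) (nat_lit 4356925374) (nat_lit 117) (nat_lit 5) (nat_lit 122) (nat_lit 5) (nat_lit 118) (nat_lit 5) (nat_lit 486)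 (nat_lit 416) (nat_lit 298))))) (XT.nd (nat_lit 56082) (nat_lit 0) (nat_lit 41572) (XT.nd (nat_lit 55926) (nat_lit 0) (nat_lit 42940) (XT.lf (nat_lit 0) (nat_lit 4534424969) (nat_lit 228) (nat_lit 15308539776) (nat_lit 76) (nat_lit 8879582004) (nat_lit 67) (nat_lit 5) (nat_lit 70) (nat_lit 5) (nat_lit 68) (nat_lit 5) (nat_lit 501) (nat_lit 416) (nat_lit 283)) (XT.nd (nat_lit 78) (nat_lit 0) (nat_lit 0) (XT.lf (nat_lit 0) (nat_lit 1058732504) (nat_lit 0) (nat_lit 1058732504) (nat_lit 1292) (nat_lit 1715553705) (nat_lit 632) (nat_lit 5) (nat_lit 632) (nat_lit 3) (nat_lit 649) (nat_lit 3) (nat_lit 417) (nat_lit 417) (nat_lit 366)) (XT.lf (nat_lit 76) (nat_lit 179405082) (nat_lit 0) (nat_lit 6171345511) (nat_lit 1368) (nat_lit 1389155662) (nat_lit 633) (nat_lit 5) (nat_lit 632) (nat_lit 5) (nat_lit 650) (nat_lit 5) (nat_lit 418) (nat_lit 417) (nat_lit 365)))) (XT.nd (nat_lit 156) (nat_lit 0) (nat_lit 76)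 (XT.nd (nat_lit 78) (nat_lit 0) (nat_lit 76) (XT.lf (nat_lit 0) (nat_lit 676504364) (nat_lit 1368) (nat_lit 1722413799) (nat_lit 1444) (nat_lit 5417546868) (nat_lit 614) (nat_lit 5) (nat_lit 632) (nat_lit 5) (nat_lit 633) (nat_lit 5) (nat_lit 419) (nat_lit 417) (nat_lit 364)) (XT.lf (nat_lit 0) (nat_lit 2745533383) (nat_lit 1368) (nat_lit 3610440938) (nat_lit 1444) (nat_lit 1539959972) (nat_lit 615) (nat_lit 5) (nat_lit 633) (nat_lit 5) (nat_lit 634) (nat_lit 5) (nat_lit 420) (nat_lit 417) (nat_lit 363))) (XT.nd (nat_lit 78) (nat_lit 0) (nat_lit 76) (XT.lf (nat_lit 76) (nat_lit 2493136793) (nat_lit 0) (nat_lit 2351840423) (nat_lit 1444) (nat_lit 3133446271) (nat_lit 616) (nat_lit 5) (nat_lit 615) (nat_lit 5) (nat_lit 634) (nat_lit 5) (nat_lit 421) (nat_lit 417) (nat_lit 362)) (XT.lf (nat_lit 76) (nat_lit 720035560) (nat_lit 0) (nat_lit 6254675178) (nat_lit 1444) (nat_lit 1089333146) (nat_lit 617) (nat_lit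 5) (nat_lit 616) (nat_lit 5) (nat_lit 635) (nat_lit 5) (nat_lit 422) (nat_lit 417) (nat_lit 361)))))) (XT.nd (nat_lit 546) (nat_lit 8208) (nat_lit 0) (XT.nd (nat_lit 234) (nat_lit 1368) (nat_lit 0) (XT.nd (nat_lit 78) (nat_lit 0) (nat_lit 76) (XT.lf (nat_lit 0) (nat_lit 983799500) (nat_lit 1444) (nat_lit 1031787711) (nat_lit 1520) (nat_lit 6136895814) (nat_lit 597) (nat_lit 5) (nat_lit 616) (nat_lit 5) (nat_lit 617) (nat_lit 5) (nat_lit 423) (nat_lit 417) (nat_lit 360)) (XT.nd (nat_lit 78) (nat_lit 0) (nat_lit 0) (XT.lf (nat_lit 0) (nat_lit 3085766017) (nat_lit 1444) (nat_lit 2768341335) (nat_lit 1520) (nat_lit 2389697639) (nat_lit 598) (nat_lit 5) (nat_lit 617) (nat_lit 5) (nat_lit 618) (nat_lit 5) (nat_lit 424) (nat_lit 417) (nat_lit 359)) (XT.lf (nat_lit 76) (nat_lit 3847388370) (nat_lit 0) (nat_lit 1380812069) (nat_lit 1520) (nat_lit 3110120378) (nat_lit 599) (nat_lit 5) (nat_lit 598) (nat_lit 5)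 (nat_lit 618) (nat_lit 5) (nat_lit 425) (nat_lit 417) (nat_lit 358)))) (XT.nd (nat_lit 156) (nat_lit 0) (nat_lit 76) (XT.nd (nat_lit 78) (nat_lit 1520) (nat_lit 0) (XT.lf (nat_lit 76) (nat_lit 2227685597) (nat_lit 0) (nat_lit 5195284706) (nat_lit 1520) (nat_lit 1012942880) (nat_lit 600) (nat_lit 5) (nat_lit 599) (nat_lit 5) (nat_lit 619) (nat_lit 5) (nat_lit 426) (nat_lit 417) (nat_lit 357)) (XT.lf (nat_lit 76) (nat_lit 619972014) (nat_lit 0) (nat_lit 491005420) (nat_lit 1596) (nat_lit 7425731674) (nat_lit 580) (nat_lit 5) (nat_lit 579) (nat_lit 5) (nat_lit 600) (nat_lit 5) (nat_lit 427) (nat_lit 417) (nat_lit 356))) (XT.nd (nat_lit 78) (nat_lit 0) (nat_lit 76) (XT.lf (nat_lit 0) (nat_lit 3292264144) (nat_lit 1520) (nat_lit 982469880) (nat_lit 1596) (nat_lit 4365514898) (nat_lit 580) (nat_lit 5) (nat_lit 600) (nat_lit 5) (nat_lit 601) (nat_lit 5) (nat_lit 428) (nat_lit 417) (nat_lit 355)) (XT.lf (nat_lit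 0) (nat_lit 5525409600) (nat_lit 1520) (nat_lit 2557981354) (nat_lit 1596) (nat_lit 663777648) (nat_lit 581) (nat_lit 5) (nat_lit 601) (nat_lit 5) (nat_lit 602) (nat_lit 5) (nat_lit 429) (nat_lit 417) (nat_lit 354))))) (XT.nd (nat_lit 312) (nat_lit 5320) (nat_lit 0) (XT.nd (nat_lit 156) (nat_lit 1520) (nat_lit 0) (XT.nd (nat_lit 78) (nat_lit 1520) (nat_lit 0) (XT.lf (nat_lit 76) (nat_lit 4720840130) (nat_lit 0) (nat_lit 3110820165) (nat_lit 1596) (nat_lit 1025515373) (nat_lit 582) (nat_lit 5) (nat_lit 581) (nat_lit 5) (nat_lit 602) (nat_lit 5) (nat_lit 430) (nat_lit 417) (nat_lit 353)) (XT.lf (nat_lit 0) (nat_lit 1213791793) (nat_lit 1596) (nat_lit 5711277175) (nat_lit 1672) (nat_lit 2045387423) (nat_lit 561) (nat_lit 5) (nat_lit 582) (nat_lit 5) (nat_lit 583) (nat_lit 5) (nat_lit 431) (nat_lit 417) (nat_lit 352))) (XT.nd (nat_lit 78) (nat_lit 1520) (nat_lit 0) (XT.lf (nat_lit 76) (nat_lit 1797036102)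 (nat_lit 0) (nat_lit 1712825963) (nat_lit 1672) (nat_lit 5577069427) (nat_lit 562) (nat_lit 5) (nat_lit 561) (nat_lit 5) (nat_lit 583) (nat_lit 5) (nat_lit 432) (nat_lit 417) (nat_lit 351)) (XT.lf (nat_lit 0) (nat_lit 337334523) (nat_lit 1596) (nat_lit 5546566736) (nat_lit 1672) (nat_lit 3322819658) (nat_lit 541) (nat_lit 5) (nat_lit 562) (nat_lit 5) (nat_lit 563) (nat_lit 5) (nat_lit 433) (nat_lit 417) (nat_lit 350)))) (XT.nd (nat_lit 156) (nat_lit 3572) (nat_lit 0) (XT.nd (nat_lit 78) (nat_lit 1748) (nat_lit 0) (XT.lf (nat_lit 0) (nat_lit 8236555678) (nat_lit 1596) (nat_lit 98919722) (nat_lit 1672) (nat_lit 994504102) (nat_lit 541) (nat_lit 5) (nat_lit 562) (nat_lit 5) (nat_lit 563) (nat_lit 5) (nat_lit 434) (nat_lit 417) (nat_lit 349)) (XT.lf (nat_lit 0) (nat_lit 1413374138) (nat_lit 1748) (nat_lit 2539624132) (nat_lit 76) (nat_lit 5503194526) (nat_lit 518) (nat_lit 5) (nat_lit 541) (nat_lit 5) (nat_lit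 519) (nat_lit 5) (nat_lit 435) (nat_lit 417) (nat_lit 348))) (XT.nd (nat_lit 78) (nat_lit 1824) (nat_lit 0) (XT.lf (nat_lit 0) (nat_lit 3884063695) (nat_lit 1824) (nat_lit 3980216750) (nat_lit 76) (nat_lit 1721700463) (nat_lit 495) (nat_lit 5) (nat_lit 519) (nat_lit 5) (nat_lit 496) (nat_lit 5) (nat_lit 436) (nat_lit 417) (nat_lit 347)) (XT.lf (nat_lit 0) (nat_lit 4295638432) (nat_lit 1824) (nat_lit 2154244384) (nat_lit 1900) (nat_lit 3269361243) (nat_lit 471) (nat_lit 5) (nat_lit 495) (nat_lit 5) (nat_lit 496) (nat_lit 5) (nat_lit 437) (nat_lit 417) (nat_lit 346))))))))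
noncomputable def xc57 : XT := (XT.nd (nat_lit 2262) (nat_lit 11780) (nat_lit 0) (XT.nd (nat_lit 1092) (nat_lit 8512) (nat_lit 0) (XT.nd (nat_lit 546) (nat_lit 4712) (nat_lit 0) (XT.nd (nat_lit 234) (nat_lit 2660) (nat_lit 0) (XT.nd (nat_lit 78) (nat_lit 1900) (nat_lit 0) (XT.lf (nat_lit 0) (nat_lit 2987691834) (nat_lit 1140) (nat_lit 6126311153) (nat_lit 1216) (nat_lit 742077119) (nat_lit 456) (nat_lit 5) (nat_lit 471) (nat_lit 5) (nat_lit 472) (nat_lit 5) (nat_lit 438) (nat_lit 417) (nat_lit 345)) (XT.nd (nat_lit 78) (nat_lit 912) (nat_lit 0) (XT.lf (nat_lit 0) (nat_lit 1679261244) (nat_lit 912) (nat_lit 171069434) (nat_lit 988) (nat_lit 8146176091) (nat_lit 443) (nat_lit 5) (nat_lit 455) (nat_lit 5) (nat_lit 456) (nat_lit 5) (nat_lit 439) (nat_lit 417) (nat_lit 344)) (XT.lf (nat_lit 0) (nat_lit 352229162) (nat_lit 912) (nat_lit 4198662004) (nat_lit 988) (nat_lit 5589349129) (nat_lit 431) (nat_lit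 5) (nat_lit 443) (nat_lit 5) (nat_lit 444) (nat_lit 5) (nat_lit 440) (nat_lit 417) (nat_lit 343)))) (XT.nd (nat_lit 156) (nat_lit 1824) (nat_lit 0) (XT.nd (nat_lit 78) (nat_lit 836) (nat_lit 0) (XT.lf (nat_lit 0) (nat_lit 7356633728) (nat_lit 988) (nat_lit 951418864) (nat_lit 76) (nat_lit 1979751301) (nat_lit 431) (nat_lit 5) (nat_lit 444) (nat_lit 5) (nat_lit 432) (nat_lit 5) (nat_lit 441) (nat_lit 417) (nat_lit 342)) (XT.lf (nat_lit 0) (nat_lit 8185129690) (nat_lit 836) (nat_lit 2097644235) (nat_lit 912) (nat_lit 156297297) (nat_lit 420) (nat_lit 5) (nat_lit 431) (nat_lit 5) (nat_lit 432) (nat_lit 5) (nat_lit 442) (nat_lit 417) (nat_lit 341))) (XT.nd (nat_lit 78) (nat_lit 836) (nat_lit 0) (XT.lf (nat_lit 0) (nat_lit 2702727304) (nat_lit 988) (nat_lit 3578167222) (nat_lit 76) (nat_lit 4312905663) (nat_lit 407) (nat_lit 5) (nat_lit 420) (nat_lit 5) (nat_lit 408) (nat_lit 5) (nat_lit 443) (nat_lit 417)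 (nat_lit 340)) (XT.lf (nat_lit 0) (nat_lit 5670820222) (nat_lit 912) (nat_lit 4895379114) (nat_lit 76) (nat_lit 186443836) (nat_lit 396) (nat_lit 5) (nat_lit 408) (nat_lit 5) (nat_lit 397) (nat_lit 5) (nat_lit 444) (nat_lit 417) (nat_lit 339))))) (XT.nd (nat_lit 234) (nat_lit 2280) (nat_lit 0) (XT.nd (nat_lit 78) (nat_lit 1596) (nat_lit 0) (XT.lf (nat_lit 0) (nat_lit 4683689752) (nat_lit 836) (nat_lit 4098795710) (nat_lit 912) (nat_lit 2132676586) (nat_lit 385) (nat_lit 5) (nat_lit 396) (nat_lit 5) (nat_lit 397) (nat_lit 5) (nat_lit 445) (nat_lit 417) (nat_lit 338)) (XT.nd (nat_lit 78) (nat_lit 760) (nat_lit 0) (XT.lf (nat_lit 0) (nat_lit 924808137) (nat_lit 836) (nat_lit 7568092181) (nat_lit 76) (nat_lit 2588905150) (nat_lit 374) (nat_lit 5) (nat_lit 385) (nat_lit 5) (nat_lit 375) (nat_lit 5) (nat_lit 446) (nat_lit 417) (nat_lit 337)) (XT.lf (nat_lit 0) (nat_lit 2328077546) (nat_lit 760) (nat_lit 1761453472)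 (nat_lit 836) (nat_lit 7162746569) (nat_lit 364) (nat_lit 5) (nat_lit 374) (nat_lit 5) (nat_lit 375) (nat_lit 5) (nat_lit 447) (nat_lit 417) (nat_lit 336)))) (XT.nd (nat_lit 156) (nat_lit 1520) (nat_lit 0) (XT.nd (nat_lit 78) (nat_lit 0) (nat_lit 0) (XT.lf (nat_lit 0) (nat_lit 1134343186) (nat_lit 760) (nat_lit 6267587864) (nat_lit 836) (nat_lit 4024879181) (nat_lit 354) (nat_lit 5) (nat_lit 364) (nat_lit 5) (nat_lit 365) (nat_lit 5) (nat_lit 448) (nat_lit 417) (nat_lit 335)) (XT.lf (nat_lit 0) (nat_lit 10851558632) (nat_lit 836) (nat_lit 49469994) (nat_lit 76) (nat_lit 704794159) (nat_lit 354) (nat_lit 5) (nat_lit 365) (nat_lit 5) (nat_lit 355) (nat_lit 5) (nat_lit 449) (nat_lit 417) (nat_lit 334))) (XT.nd (nat_lit 78) (nat_lit 684) (nat_lit 0) (XT.lf (nat_lit 0) (nat_lit 2653245757) (nat_lit 836) (nat_lit 1252120927) (nat_lit 76) (nat_lit 7883039212) (nat_lit 343) (nat_lit 5) (nat_lit 354) (nat_lit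 5) (nat_lit 344) (nat_lit 5) (nat_lit 450) (nat_lit 417) (nat_lit 333)) (XT.lf (nat_lit 0) (nat_lit 6199638333) (nat_lit 760) (nat_lit 2456814528) (nat_lit 76) (nat_lit 3318976787) (nat_lit 334) (nat_lit 5) (nat_lit 344) (nat_lit 5) (nat_lit 335) (nat_lit 5) (nat_lit 451) (nat_lit 417) (nat_lit 332)))))) (XT.nd (nat_lit 546) (nat_lit 3876) (nat_lit 0) (XT.nd (nat_lit 234) (nat_lit 2508) (nat_lit 0) (XT.nd (nat_lit 78) (nat_lit 1444) (nat_lit 0) (XT.lf (nat_lit 0) (nat_lit 8504056302) (nat_lit 684) (nat_lit 1401738769) (nat_lit 760) (nat_lit 2261202528) (nat_lit 325) (nat_lit 5) (nat_lit 334) (nat_lit 5) (nat_lit 335) (nat_lit 5) (nat_lit 452) (nat_lit 417) (nat_lit 331)) (XT.nd (nat_lit 78) (nat_lit 684) (nat_lit 0) (XT.lf (nat_lit 0) (nat_lit 1410435835) (nat_lit 760) (nat_lit 4893242027) (nat_lit 76) (nat_lit 6059070506) (nat_lit 315) (nat_lit 5) (nat_lit 325) (nat_lit 5) (nat_lit 316) (nat_lit 5)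 (nat_lit 453) (nat_lit 417) (nat_lit 330)) (XT.lf (nat_lit 0) (nat_lit 5210653791) (nat_lit 760) (nat_lit 6132063916) (nat_lit 76) (nat_lit 1220372857) (nat_lit 306) (nat_lit 5) (nat_lit 316) (nat_lit 5) (nat_lit 307) (nat_lit 5) (nat_lit 454) (nat_lit 417) (nat_lit 329)))) (XT.nd (nat_lit 156) (nat_lit 1216) (nat_lit 0) (XT.nd (nat_lit 78) (nat_lit 684) (nat_lit 0) (XT.lf (nat_lit 0) (nat_lit 5378676771) (nat_lit 608) (nat_lit 3822140056) (nat_lit 684) (nat_lit 3567108265) (nat_lit 298) (nat_lit 5) (nat_lit 306) (nat_lit 5) (nat_lit 307) (nat_lit 5) (nat_lit 455) (nat_lit 417) (nat_lit 328)) (XT.lf (nat_lit 0) (nat_lit 389410306) (nat_lit 684) (nat_lit 8651254026) (nat_lit 76) (nat_lit 3936958407) (nat_lit 289) (nat_lit 5) (nat_lit 298) (nat_lit 5) (nat_lit 290) (nat_lit 5) (nat_lit 456) (nat_lit 417) (nat_lit 327))) (XT.nd (nat_lit 78) (nat_lit 608) (nat_lit 0) (XT.lf (nat_lit 0) (nat_lit 3252504415)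 (nat_lit 608) (nat_lit 1227669947) (nat_lit 684) (nat_lit 8711685898) (nat_lit 281) (nat_lit 5) (nat_lit 289) (nat_lit 5) (nat_lit 290) (nat_lit 5) (nat_lit 457) (nat_lit 417) (nat_lit 326)) (XT.lf (nat_lit 0) (nat_lit 2161826776) (nat_lit 608) (nat_lit 6616457560) (nat_lit 684) (nat_lit 4632548861) (nat_lit 273) (nat_lit 5) (nat_lit 281) (nat_lit 5) (nat_lit 282) (nat_lit 5) (nat_lit 458) (nat_lit 417) (nat_lit 325))))) (XT.nd (nat_lit 312) (nat_lit 2128) (nat_lit 0) (XT.nd (nat_lit 156) (nat_lit 1140) (nat_lit 0) (XT.nd (nat_lit 78) (nat_lit 76) (nat_lit 0) (XT.lf (nat_lit 0) (nat_lit 1081335707) (nat_lit 532) (nat_lit 12184011096) (nat_lit 608) (nat_lit 369829065) (nat_lit 266) (nat_lit 5) (nat_lit 273) (nat_lit 5) (nat_lit 274) (nat_lit 5) (nat_lit 459) (nat_lit 417) (nat_lit 324)) (XT.lf (nat_lit 0) (nat_lit 4057391188) (nat_lit 608) (nat_lit 41947025) (nat_lit 76) (nat_lit 9764602149) (nat_lit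 265) (nat_lit 5) (nat_lit 273) (nat_lit 5) (nat_lit 266) (nat_lit 5) (nat_lit 460) (nat_lit 417) (nat_lit 323))) (XT.nd (nat_lit 78) (nat_lit 532) (nat_lit 0) (XT.lf (nat_lit 0) (nat_lit 8693910370) (nat_lit 684) (nat_lit 1154155065) (nat_lit 76) (nat_lit 4249824002) (nat_lit 257) (nat_lit 5) (nat_lit 266) (nat_lit 5) (nat_lit 258) (nat_lit 5) (nat_lit 461) (nat_lit 417) (nat_lit 322)) (XT.lf (nat_lit 0) (nat_lit 12071019696) (nat_lit 532) (nat_lit 1474442607) (nat_lit 608) (nat_lit 791876591) (nat_lit 250) (nat_lit 5) (nat_lit 257) (nat_lit 5) (nat_lit 258) (nat_lit 5) (nat_lit 462) (nat_lit 417) (nat_lit 321)))) (XT.nd (nat_lit 156) (nat_lit 1064) (nat_lit 0) (XT.nd (nat_lit 78) (nat_lit 456) (nat_lit 0) (XT.lf (nat_lit 0) (nat_lit 4004646334) (nat_lit 608) (nat_lit 3423679202) (nat_lit 76) (nat_lit 7153173387) (nat_lit 242) (nat_lit 5) (nat_lit 250) (nat_lit 5) (nat_lit 243) (nat_lit 5) (nat_lit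 463) (nat_lit 417) (nat_lit 320)) (XT.lf (nat_lit 0) (nat_lit 9005354918) (nat_lit 532) (nat_lit 4577659740) (nat_lit 76) (nat_lit 1248444045) (nat_lit 236) (nat_lit 5) (nat_lit 243) (nat_lit 5) (nat_lit 237) (nat_lit 5) (nat_lit 464) (nat_lit 417) (nat_lit 319))) (XT.nd (nat_lit 78) (nat_lit 532) (nat_lit 0) (XT.lf (nat_lit 0) (nat_lit 9332546800) (nat_lit 532) (nat_lit 4928508682) (nat_lit 608) (nat_lit 825762966) (nat_lit 229) (nat_lit 5) (nat_lit 236) (nat_lit 5) (nat_lit 237) (nat_lit 5) (nat_lit 465) (nat_lit 417) (nat_lit 318)) (XT.lf (nat_lit 0) (nat_lit 4352033806) (nat_lit 532) (nat_lit 6958850630) (nat_lit 76) (nat_lit 4036710277) (nat_lit 222) (nat_lit 5) (nat_lit 229) (nat_lit 5) (nat_lit 223) (nat_lit 5) (nat_lit 466) (nat_lit 417) (nat_lit 317))))))) (XT.nd (nat_lit 1170) (nat_lit 5928) (nat_lit 0) (XT.nd (nat_lit 546) (nat_lit 2736) (nat_lit 0) (XT.nd (nat_lit 234) (nat_lit 1672) (nat_lit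 0) (XT.nd (nat_lit 78) (nat_lit 988) (nat_lit 0) (XT.lf (nat_lit 0) (nat_lit 7438625667) (nat_lit 456) (nat_lit 2328125383) (nat_lit 532) (nat_lit 5847478484) (nat_lit 216) (nat_lit 5) (nat_lit 222) (nat_lit 5) (nat_lit 223) (nat_lit 5) (nat_lit 467) (nat_lit 417) (nat_lit 316)) (XT.nd (nat_lit 78) (nat_lit 532) (nat_lit 0) (XT.lf (nat_lit 0) (nat_lit 6475599215) (nat_lit 456) (nat_lit 8975492529) (nat_lit 532) (nat_lit 435628544) (nat_lit 210) (nat_lit 5) (nat_lit 216) (nat_lit 5) (nat_lit 217) (nat_lit 5) (nat_lit 468) (nat_lit 417) (nat_lit 315)) (XT.lf (nat_lit 0) (nat_lit 5153516575) (nat_lit 532) (nat_lit 10671746026) (nat_lit 76) (nat_lit 339809743) (nat_lit 203) (nat_lit 5) (nat_lit 210) (nat_lit 5) (nat_lit 204) (nat_lit 5) (nat_lit 469) (nat_lit 417) (nat_lit 314)))) (XT.nd (nat_lit 156) (nat_lit 760) (nat_lit 0) (XT.nd (nat_lit 78) (nat_lit 532) (nat_lit 0) (XT.lf (nat_lit 0) (nat_lit 4479667277)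 (nat_lit 380) (nat_lit 6551622317) (nat_lit 456) (nat_lit 5417890823) (nat_lit 198) (nat_lit 5) (nat_lit 203) (nat_lit 5) (nat_lit 204) (nat_lit 5) (nat_lit 470) (nat_lit 417) (nat_lit 313)) (XT.lf (nat_lit 0) (nat_lit 428499015) (nat_lit 532) (nat_lit 13264622448) (nat_lit 76) (nat_lit 3046857696) (nat_lit 191) (nat_lit 5) (nat_lit 198) (nat_lit 5) (nat_lit 192) (nat_lit 5) (nat_lit 471) (nat_lit 417) (nat_lit 312))) (XT.nd (nat_lit 78) (nat_lit 380) (nat_lit 0) (XT.lf (nat_lit 0) (nat_lit 2422245065) (nat_lit 380) (nat_lit 4070351703) (nat_lit 456) (nat_lit 10543870817) (nat_lit 186) (nat_lit 5) (nat_lit 191) (nat_lit 5) (nat_lit 192) (nat_lit 5) (nat_lit 472) (nat_lit 417) (nat_lit 311)) (XT.lf (nat_lit 0) (nat_lit 1362309585) (nat_lit 380) (nat_lit 11488295504) (nat_lit 456) (nat_lit 4489006260) (nat_lit 181) (nat_lit 5) (nat_lit 186) (nat_lit 5) (nat_lit 187) (nat_lit 5) (nat_lit 473) (nat_lit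 417) (nat_lit 310))))) (XT.nd (nat_lit 312) (nat_lit 1444) (nat_lit 0) (XT.nd (nat_lit 156) (nat_lit 836) (nat_lit 0) (XT.nd (nat_lit 78) (nat_lit 0) (nat_lit 0) (XT.lf (nat_lit 0) (nat_lit 294974684) (nat_lit 380) (nat_lit 1533497204) (nat_lit 456) (nat_lit 15821073302) (nat_lit 175) (nat_lit 5) (nat_lit 180) (nat_lit 5) (nat_lit 181) (nat_lit 5) (nat_lit 474) (nat_lit 417) (nat_lit 309)) (XT.lf (nat_lit 0) (nat_lit 8415898412) (nat_lit 456) (nat_lit 817617009) (nat_lit 76) (nat_lit 8731840344) (nat_lit 175) (nat_lit 5) (nat_lit 181) (nat_lit 5) (nat_lit 176) (nat_lit 5) (nat_lit 475) (nat_lit 417) (nat_lit 308))) (XT.nd (nat_lit 78) (nat_lit 456) (nat_lit 0) (XT.lf (nat_lit 0) (nat_lit 15300828466) (nat_lit 456) (nat_lit 1912470315) (nat_lit 76) (nat_lit 1075344653) (nat_lit 170) (nat_lit 5) (nat_lit 176) (nat_lit 5) (nat_lit 171) (nat_lit 5) (nat_lit 476) (nat_lit 417) (nat_lit 307)) (XT.lf (nat_lit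 0) (nat_lit 3867231442) (nat_lit 456) (nat_lit 3062614006) (nat_lit 76) (nat_lit 11688374865) (nat_lit 164) (nat_lit 5) (nat_lit 170) (nat_lit 5) (nat_lit 165) (nat_lit 5) (nat_lit 477) (nat_lit 417) (nat_lit 306)))) (XT.nd (nat_lit 156) (nat_lit 760) (nat_lit 0) (XT.nd (nat_lit 78) (nat_lit 304) (nat_lit 0) (XT.lf (nat_lit 0) (nat_lit 10997803030) (nat_lit 456) (nat_lit 4226385786) (nat_lit 76) (nat_lit 3730891728) (nat_lit 159) (nat_lit 5) (nat_lit 165) (nat_lit 5) (nat_lit 160) (nat_lit 5) (nat_lit 478) (nat_lit 417) (nat_lit 305)) (XT.lf (nat_lit 0) (nat_lit 13893810174) (nat_lit 304) (nat_lit 4583135871) (nat_lit 380) (nat_lit 822407802) (nat_lit 155) (nat_lit 5) (nat_lit 159) (nat_lit 5) (nat_lit 160) (nat_lit 5) (nat_lit 479) (nat_lit 417) (nat_lit 304))) (XT.nd (nat_lit 78) (nat_lit 304) (nat_lit 0) (XT.lf (nat_lit 0) (nat_lit 6574353231) (nat_lit 456) (nat_lit 6638580177) (nat_lit 76) (nat_lit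 6437505956) (nat_lit 149) (nat_lit 5) (nat_lit 155) (nat_lit 5) (nat_lit 150) (nat_lit 5) (nat_lit 480) (nat_lit 417) (nat_lit 303)) (XT.lf (nat_lit 0) (nat_lit 12131712557) (nat_lit 304) (nat_lit 2174325153) (nat_lit 380) (nat_lit 5703427461) (nat_lit 145) (nat_lit 5) (nat_lit 149) (nat_lit 5) (nat_lit 150) (nat_lit 5) (nat_lit 481) (nat_lit 417) (nat_lit 302)))))) (XT.nd (nat_lit 57486) (nat_lit 0) (nat_lit 40204) (XT.nd (nat_lit 234) (nat_lit 4864) (nat_lit 0) (XT.nd (nat_lit 78) (nat_lit 608) (nat_lit 0) (XT.lf (nat_lit 0) (nat_lit 2022722549) (nat_lit 456) (nat_lit 9159778707) (nat_lit 76) (nat_lit 9193373236) (nat_lit 139) (nat_lit 5) (nat_lit 145) (nat_lit 5) (nat_lit 140) (nat_lit 5) (nat_lit 482) (nat_lit 417) (nat_lit 301)) (XT.nd (nat_lit 78) (nat_lit 304) (nat_lit 0) (XT.lf (nat_lit 0) (nat_lit 10018851583) (nat_lit 380) (nat_lit 10466689915) (nat_lit 76) (nat_lit 264667267) (nat_lit 135)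 (nat_lit 5) (nat_lit 140) (nat_lit 5) (nat_lit 136) (nat_lit 5) (nat_lit 483) (nat_lit 417) (nat_lit 300)) (XT.lf (nat_lit 0) (nat_lit 9313198396) (nat_lit 304) (nat_lit 9118158787) (nat_lit 380) (nat_lit 2700886322) (nat_lit 131) (nat_lit 5) (nat_lit 135) (nat_lit 5) (nat_lit 136) (nat_lit 5) (nat_lit 484) (nat_lit 417) (nat_lit 299)))) (XT.nd (nat_lit 1248) (nat_lit 4180) (nat_lit 0) (XT.nd (nat_lit 78) (nat_lit 304) (nat_lit 0) (XT.lf (nat_lit 0) (nat_lit 5619831468) (nat_lit 380) (nat_lit 13196932692) (nat_lit 76) (nat_lit 2705804238) (nat_lit 126) (nat_lit 5) (nat_lit 131) (nat_lit 5) (nat_lit 127) (nat_lit 5) (nat_lit 485) (nat_lit 417) (nat_lit 298)) (XT.lf (nat_lit 0) (nat_lit 7295347237) (nat_lit 304) (nat_lit 7026627309) (nat_lit 380) (nat_lit 7598901740) (nat_lit 122) (nat_lit 5) (nat_lit 126) (nat_lit 5) (nat_lit 127) (nat_lit 5) (nat_lit 486) (nat_lit 417) (nat_lit 297))) (XT.nd (nat_lit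 78) (nat_lit 228) (nat_lit 0) (XT.lf (nat_lit 0) (nat_lit 16495545279) (nat_lit 228) (nat_lit 5725088098) (nat_lit 304) (nat_lit 6790565792) (nat_lit 70) (nat_lit 5) (nat_lit 73) (nat_lit 5) (nat_lit 74) (nat_lit 5) (nat_lit 501) (nat_lit 417) (nat_lit 282)) (XT.lf (nat_lit 0) (nat_lit 5525718017) (nat_lit 228) (nat_lit 14240297372) (nat_lit 76) (nat_lit 9801095140) (nat_lit 67) (nat_lit 5) (nat_lit 70) (nat_lit 5) (nat_lit 68) (nat_lit 5) (nat_lit 502) (nat_lit 417) (nat_lit 281))))) (XT.nd (nat_lit 312) (nat_lit 1292) (nat_lit 0) (XT.nd (nat_lit 156) (nat_lit 0) (nat_lit 76) (XT.nd (nat_lit 78) (nat_lit 0) (nat_lit 0) (XT.lf (nat_lit 0) (nat_lit 290816390) (nat_lit 1444) (nat_lit 1808327749) (nat_lit 1444) (nat_lit 1808327749) (nat_lit 613) (nat_lit 3) (nat_lit 632) (nat_lit 3) (nat_lit 632) (nat_lit 5) (nat_lit 418) (nat_lit 418) (nat_lit 364)) (XT.lf (nat_lit 76) (nat_lit 2246799628) (nat_lit 0)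 (nat_lit 294623975) (nat_lit 1444) (nat_lit 5351652957) (nat_lit 614) (nat_lit 5) (nat_lit 613) (nat_lit 3) (nat_lit 632) (nat_lit 5) (nat_lit 419) (nat_lit 418) (nat_lit 363))) (XT.nd (nat_lit 78) (nat_lit 0) (nat_lit 0) (XT.lf (nat_lit 76) (nat_lit 301383250) (nat_lit 0) (nat_lit 4233854038) (nat_lit 1444) (nat_lit 3438814186) (nat_lit 615) (nat_lit 5) (nat_lit 614) (nat_lit 5) (nat_lit 633) (nat_lit 5) (nat_lit 420) (nat_lit 418) (nat_lit 362)) (XT.lf (nat_lit 76) (nat_lit 6462610986) (nat_lit 0) (nat_lit 92823447) (nat_lit 1444) (nat_lit 1502692476) (nat_lit 615) (nat_lit 5) (nat_lit 614) (nat_lit 5) (nat_lit 633) (nat_lit 5) (nat_lit 421) (nat_lit 418) (nat_lit 361)))) (XT.nd (nat_lit 156) (nat_lit 0) (nat_lit 76) (XT.nd (nat_lit 78) (nat_lit 0) (nat_lit 76) (XT.lf (nat_lit 0) (nat_lit 471007238) (nat_lit 1444) (nat_lit 3490790191) (nat_lit 1520) (nat_lit 4183147069) (nat_lit 596) (nat_lit 5) (nat_lit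 615) (nat_lit 5) (nat_lit 616) (nat_lit 5) (nat_lit 422) (nat_lit 418) (nat_lit 360)) (XT.lf (nat_lit 0) (nat_lit 2446519619) (nat_lit 1444) (nat_lit 5372762559) (nat_lit 1520) (nat_lit 415627886) (nat_lit 597) (nat_lit 5) (nat_lit 616) (nat_lit 5) (nat_lit 617) (nat_lit 5) (nat_lit 423) (nat_lit 418) (nat_lit 359))) (XT.nd (nat_lit 78) (nat_lit 0) (nat_lit 76) (XT.lf (nat_lit 76) (nat_lit 1071979180) (nat_lit 0) (nat_lit 3398602418) (nat_lit 1520) (nat_lit 3857209694) (nat_lit 598) (nat_lit 5) (nat_lit 597) (nat_lit 5) (nat_lit 617) (nat_lit 5) (nat_lit 424) (nat_lit 418) (nat_lit 358)) (XT.lf (nat_lit 0) (nat_lit 6533406258) (nat_lit 1444) (nat_lit 689459140) (nat_lit 1520) (nat_lit 1201035055) (nat_lit 598) (nat_lit 5) (nat_lit 617) (nat_lit 5) (nat_lit 618) (nat_lit 5) (nat_lit 425) (nat_lit 418) (nat_lit 357))))))))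
noncomputable def xc58 : XT := (XT.nd (nat_lit 2262) (nat_lit 13680) (nat_lit 0) (XT.nd (nat_lit 1092) (nat_lit 10640) (nat_lit 0) (XT.nd (nat_lit 546) (nat_lit 7980) (nat_lit 0) (XT.nd (nat_lit 234) (nat_lit 1368) (nat_lit 0) (XT.nd (nat_lit 78) (nat_lit 0) (nat_lit 76) (XT.lf (nat_lit 0) (nat_lit 131521030) (nat_lit 1520) (nat_lit 2434131001) (nat_lit 1596) (nat_lit 5957264064) (nat_lit 578) (nat_lit 5) (nat_lit 598) (nat_lit 5) (nat_lit 599) (nat_lit 5) (nat_lit 426) (nat_lit 418) (nat_lit 356)) (XT.nd (nat_lit 78) (nat_lit 0) (nat_lit 0) (XT.lf (nat_lit 0) (nat_lit 2174256354) (nat_lit 1520) (nat_lit 4180879082) (nat_lit 1596) (nat_lit 2269804105) (nat_lit 579) (nat_lit 5) (nat_lit 599) (nat_lit 5) (nat_lit 600) (nat_lit 5) (nat_lit 427) (nat_lit 418) (nat_lit 355)) (XT.lf (nat_lit 76) (nat_lit 2809589455) (nat_lit 0) (nat_lit 1459399445) (nat_lit 1596) (nat_lit 4461222560) (nat_lit 580) (nat_lit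 5) (nat_lit 579) (nat_lit 5) (nat_lit 600) (nat_lit 5) (nat_lit 428) (nat_lit 418) (nat_lit 354)))) (XT.nd (nat_lit 156) (nat_lit 1520) (nat_lit 0) (XT.nd (nat_lit 78) (nat_lit 0) (nat_lit 0) (XT.lf (nat_lit 76) (nat_lit 1178078599) (nat_lit 0) (nat_lit 5248262845) (nat_lit 1596) (nat_lit 2412306545) (nat_lit 581) (nat_lit 5) (nat_lit 580) (nat_lit 5) (nat_lit 601) (nat_lit 5) (nat_lit 429) (nat_lit 418) (nat_lit 353)) (XT.lf (nat_lit 76) (nat_lit 8518742811) (nat_lit 0) (nat_lit 121297034) (nat_lit 1596) (nat_lit 310467219) (nat_lit 581) (nat_lit 5) (nat_lit 580) (nat_lit 5) (nat_lit 601) (nat_lit 5) (nat_lit 430) (nat_lit 418) (nat_lit 352))) (XT.nd (nat_lit 78) (nat_lit 0) (nat_lit 76) (XT.lf (nat_lit 0) (nat_lit 1853005871) (nat_lit 1596) (nat_lit 2047003335) (nat_lit 1672) (nat_lit 5165015770) (nat_lit 560) (nat_lit 5) (nat_lit 581) (nat_lit 5) (nat_lit 582) (nat_lit 5) (nat_lit 431) (nat_lit 418)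 (nat_lit 351)) (XT.lf (nat_lit 0) (nat_lit 4071150988) (nat_lit 1596) (nat_lit 3651005598) (nat_lit 1672) (nat_lit 1460902883) (nat_lit 561) (nat_lit 5) (nat_lit 582) (nat_lit 5) (nat_lit 583) (nat_lit 5) (nat_lit 432) (nat_lit 418) (nat_lit 350))))) (XT.nd (nat_lit 234) (nat_lit 4788) (nat_lit 0) (XT.nd (nat_lit 78) (nat_lit 3268) (nat_lit 0) (XT.lf (nat_lit 76) (nat_lit 4046351858) (nat_lit 0) (nat_lit 2321842074) (nat_lit 1672) (nat_lit 2936195750) (nat_lit 562) (nat_lit 5) (nat_lit 561) (nat_lit 5) (nat_lit 583) (nat_lit 5) (nat_lit 433) (nat_lit 418) (nat_lit 349)) (XT.nd (nat_lit 78) (nat_lit 1748) (nat_lit 0) (XT.lf (nat_lit 0) (nat_lit 2565058187) (nat_lit 1596) (nat_lit 6179093692) (nat_lit 1672) (nat_lit 685009552) (nat_lit 541) (nat_lit 5) (nat_lit 562) (nat_lit 5) (nat_lit 563) (nat_lit 5) (nat_lit 434) (nat_lit 418) (nat_lit 348)) (XT.lf (nat_lit 0) (nat_lit 1082574847) (nat_lit 1672) (nat_lit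 536453929) (nat_lit 1748) (nat_lit 7938302175) (nat_lit 518) (nat_lit 5) (nat_lit 540) (nat_lit 5) (nat_lit 541) (nat_lit 5) (nat_lit 435) (nat_lit 418) (nat_lit 347)))) (XT.nd (nat_lit 156) (nat_lit 3040) (nat_lit 0) (XT.nd (nat_lit 78) (nat_lit 1748) (nat_lit 0) (XT.lf (nat_lit 0) (nat_lit 4013610867) (nat_lit 1748) (nat_lit 409418481) (nat_lit 76) (nat_lit 5265612640) (nat_lit 518) (nat_lit 5) (nat_lit 541) (nat_lit 5) (nat_lit 519) (nat_lit 5) (nat_lit 436) (nat_lit 418) (nat_lit 346)) (XT.lf (nat_lit 0) (nat_lit 6495892012) (nat_lit 1824) (nat_lit 1876876885) (nat_lit 76) (nat_lit 1450807755) (nat_lit 495) (nat_lit 5) (nat_lit 519) (nat_lit 5) (nat_lit 496) (nat_lit 5) (nat_lit 437) (nat_lit 418) (nat_lit 345))) (XT.nd (nat_lit 78) (nat_lit 1216) (nat_lit 0) (XT.lf (nat_lit 0) (nat_lit 6611192534) (nat_lit 1824) (nat_lit 2469011755) (nat_lit 1900) (nat_lit 881805297) (nat_lit 471) (nat_lit 5) (nat_lit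 495) (nat_lit 5) (nat_lit 496) (nat_lit 5) (nat_lit 438) (nat_lit 418) (nat_lit 344)) (XT.lf (nat_lit 0) (nat_lit 1640071180) (nat_lit 1216) (nat_lit 4836759329) (nat_lit 76) (nat_lit 3627071859) (nat_lit 455) (nat_lit 5) (nat_lit 471) (nat_lit 5) (nat_lit 456) (nat_lit 5) (nat_lit 439) (nat_lit 418) (nat_lit 343)))))) (XT.nd (nat_lit 546) (nat_lit 5320) (nat_lit 0) (XT.nd (nat_lit 234) (nat_lit 2660) (nat_lit 0) (XT.nd (nat_lit 78) (nat_lit 1748) (nat_lit 0) (XT.lf (nat_lit 0) (nat_lit 3926133877) (nat_lit 912) (nat_lit 318614584) (nat_lit 988) (nat_lit 6004805773) (nat_lit 443) (nat_lit 5) (nat_lit 455) (nat_lit 5) (nat_lit 456) (nat_lit 5) (nat_lit 440) (nat_lit 418) (nat_lit 342)) (XT.nd (nat_lit 78) (nat_lit 836) (nat_lit 0) (XT.lf (nat_lit 0) (nat_lit 2570652643) (nat_lit 912) (nat_lit 4400986752) (nat_lit 988) (nat_lit 3427056125) (nat_lit 431) (nat_lit 5) (nat_lit 443) (nat_lit 5) (nat_lit 444)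 (nat_lit 5) (nat_lit 441) (nat_lit 418) (nat_lit 341)) (XT.lf (nat_lit 0) (nat_lit 1224549633) (nat_lit 836) (nat_lit 8577943094) (nat_lit 912) (nat_lit 749376495) (nat_lit 420) (nat_lit 5) (nat_lit 431) (nat_lit 5) (nat_lit 432) (nat_lit 5) (nat_lit 442) (nat_lit 418) (nat_lit 340)))) (XT.nd (nat_lit 156) (nat_lit 1672) (nat_lit 0) (XT.nd (nat_lit 78) (nat_lit 912) (nat_lit 0) (XT.lf (nat_lit 0) (nat_lit 2022145228) (nat_lit 912) (nat_lit 138521652) (nat_lit 76) (nat_lit 8547914553) (nat_lit 419) (nat_lit 5) (nat_lit 431) (nat_lit 5) (nat_lit 420) (nat_lit 5) (nat_lit 443) (nat_lit 418) (nat_lit 339)) (XT.lf (nat_lit 0) (nat_lit 4915339883) (nat_lit 988) (nat_lit 1496328757) (nat_lit 76) (nat_lit 4457254329) (nat_lit 407) (nat_lit 5) (nat_lit 420) (nat_lit 5) (nat_lit 408) (nat_lit 5) (nat_lit 444) (nat_lit 418) (nat_lit 338))) (XT.nd (nat_lit 78) (nat_lit 836) (nat_lit 0) (XT.lf (nat_lit 0) (nat_lit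 7924831220) (nat_lit 912) (nat_lit 2847302475) (nat_lit 76) (nat_lit 261352199) (nat_lit 396) (nat_lit 5) (nat_lit 408) (nat_lit 5) (nat_lit 397) (nat_lit 5) (nat_lit 445) (nat_lit 418) (nat_lit 337)) (XT.lf (nat_lit 0) (nat_lit 6983528195) (nat_lit 836) (nat_lit 4099642290) (nat_lit 912) (nat_lit 118645084) (nat_lit 385) (nat_lit 5) (nat_lit 396) (nat_lit 5) (nat_lit 397) (nat_lit 5) (nat_lit 446) (nat_lit 418) (nat_lit 336))))) (XT.nd (nat_lit 312) (nat_lit 2128) (nat_lit 0) (XT.nd (nat_lit 156) (nat_lit 1596) (nat_lit 0) (XT.nd (nat_lit 78) (nat_lit 760) (nat_lit 0) (XT.lf (nat_lit 0) (nat_lit 2958495642) (nat_lit 836) (nat_lit 5604768030) (nat_lit 76) (nat_lit 2810822715) (nat_lit 374) (nat_lit 5) (nat_lit 385) (nat_lit 5) (nat_lit 375) (nat_lit 5) (nat_lit 447) (nat_lit 418) (nat_lit 335)) (XT.lf (nat_lit 0) (nat_lit 4552750688) (nat_lit 760) (nat_lit 1620974581) (nat_lit 836) (nat_lit 5376837684)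 (nat_lit 364) (nat_lit 5) (nat_lit 374) (nat_lit 5) (nat_lit 375) (nat_lit 5) (nat_lit 448) (nat_lit 418) (nat_lit 334))) (XT.nd (nat_lit 78) (nat_lit 836) (nat_lit 0) (XT.lf (nat_lit 0) (nat_lit 3325655556) (nat_lit 760) (nat_lit 6217935562) (nat_lit 836) (nat_lit 2187580121) (nat_lit 354) (nat_lit 5) (nat_lit 364) (nat_lit 5) (nat_lit 365) (nat_lit 5) (nat_lit 449) (nat_lit 418) (nat_lit 333)) (XT.lf (nat_lit 0) (nat_lit 1124658314) (nat_lit 836) (nat_lit 9816816435) (nat_lit 76) (nat_lit 974747587) (nat_lit 343) (nat_lit 5) (nat_lit 354) (nat_lit 5) (nat_lit 344) (nat_lit 5) (nat_lit 450) (nat_lit 418) (nat_lit 332)))) (XT.nd (nat_lit 156) (nat_lit 1444) (nat_lit 0) (XT.nd (nat_lit 78) (nat_lit 0) (nat_lit 0) (XT.lf (nat_lit 0) (nat_lit 841519767) (nat_lit 684) (nat_lit 3733387803) (nat_lit 760) (nat_lit 7530261846) (nat_lit 334) (nat_lit 5) (nat_lit 343) (nat_lit 5) (nat_lit 344) (nat_lit 5) (nat_lit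 451) (nat_lit 418) (nat_lit 331)) (XT.lf (nat_lit 0) (nat_lit 8184154363) (nat_lit 760) (nat_lit 410646706) (nat_lit 76) (nat_lit 3703874943) (nat_lit 334) (nat_lit 5) (nat_lit 344) (nat_lit 5) (nat_lit 335) (nat_lit 5) (nat_lit 452) (nat_lit 418) (nat_lit 330))) (XT.nd (nat_lit 78) (nat_lit 760) (nat_lit 0) (XT.lf (nat_lit 0) (nat_lit 10844657840) (nat_lit 684) (nat_lit 1117994003) (nat_lit 760) (nat_lit 534117377) (nat_lit 325) (nat_lit 5) (nat_lit 334) (nat_lit 5) (nat_lit 335) (nat_lit 5) (nat_lit 453) (nat_lit 418) (nat_lit 329)) (XT.lf (nat_lit 0) (nat_lit 3188224924) (nat_lit 760) (nat_lit 2932702174) (nat_lit 76) (nat_lit 6577951702) (nat_lit 315) (nat_lit 5) (nat_lit 325) (nat_lit 5) (nat_lit 316) (nat_lit 5) (nat_lit 454) (nat_lit 418) (nat_lit 328))))))) (XT.nd (nat_lit 1170) (nat_lit 5624) (nat_lit 0) (XT.nd (nat_lit 546) (nat_lit 3648) (nat_lit 0) (XT.nd (nat_lit 234) (nat_lit 2432) (nat_lit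 0) (XT.nd (nat_lit 78) (nat_lit 1292) (nat_lit 0) (XT.lf (nat_lit 0) (nat_lit 7067795013) (nat_lit 760) (nat_lit 4211301920) (nat_lit 76) (nat_lit 1626828655) (nat_lit 306) (nat_lit 5) (nat_lit 316) (nat_lit 5) (nat_lit 307) (nat_lit 5) (nat_lit 455) (nat_lit 418) (nat_lit 327)) (XT.nd (nat_lit 78) (nat_lit 684) (nat_lit 0) (XT.lf (nat_lit 0) (nat_lit 7610614342) (nat_lit 608) (nat_lit 3530953667) (nat_lit 684) (nat_lit 1976060244) (nat_lit 298) (nat_lit 5) (nat_lit 306) (nat_lit 5) (nat_lit 307) (nat_lit 5) (nat_lit 456) (nat_lit 418) (nat_lit 326)) (XT.lf (nat_lit 0) (nat_lit 2044159734) (nat_lit 684) (nat_lit 6821731932) (nat_lit 76) (nat_lit 4468160285) (nat_lit 289) (nat_lit 5) (nat_lit 298) (nat_lit 5) (nat_lit 290) (nat_lit 5) (nat_lit 457) (nat_lit 418) (nat_lit 325)))) (XT.nd (nat_lit 156) (nat_lit 1216) (nat_lit 0) (XT.nd (nat_lit 78) (nat_lit 608) (nat_lit 0) (XT.lf (nat_lit 0) (nat_lit 5405246751)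 (nat_lit 608) (nat_lit 817887145) (nat_lit 684) (nat_lit 7332274066) (nat_lit 281) (nat_lit 5) (nat_lit 289) (nat_lit 5) (nat_lit 290) (nat_lit 5) (nat_lit 458) (nat_lit 418) (nat_lit 324)) (XT.lf (nat_lit 0) (nat_lit 4277339041) (nat_lit 608) (nat_lit 6342126511) (nat_lit 684) (nat_lit 3162100047) (nat_lit 273) (nat_lit 5) (nat_lit 281) (nat_lit 5) (nat_lit 282) (nat_lit 5) (nat_lit 459) (nat_lit 418) (nat_lit 323))) (XT.nd (nat_lit 78) (nat_lit 608) (nat_lit 0) (XT.lf (nat_lit 0) (nat_lit 1182496225) (nat_lit 608) (nat_lit 10861789371) (nat_lit 76) (nat_lit 1968792316) (nat_lit 265) (nat_lit 5) (nat_lit 273) (nat_lit 5) (nat_lit 266) (nat_lit 5) (nat_lit 460) (nat_lit 418) (nat_lit 322)) (XT.lf (nat_lit 0) (nat_lit 1988891646) (nat_lit 608) (nat_lit 3716167759) (nat_lit 684) (nat_lit 8544247025) (nat_lit 257) (nat_lit 5) (nat_lit 265) (nat_lit 5) (nat_lit 266) (nat_lit 5) (nat_lit 461) (nat_lit 418)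 (nat_lit 321))))) (XT.nd (nat_lit 312) (nat_lit 2052) (nat_lit 0) (XT.nd (nat_lit 156) (nat_lit 988) (nat_lit 0) (XT.nd (nat_lit 78) (nat_lit 76) (nat_lit 0) (XT.lf (nat_lit 0) (nat_lit 821942872) (nat_lit 532) (nat_lit 9623091189) (nat_lit 608) (nat_lit 4045953685) (nat_lit 250) (nat_lit 5) (nat_lit 257) (nat_lit 5) (nat_lit 258) (nat_lit 5) (nat_lit 462) (nat_lit 418) (nat_lit 320)) (XT.lf (nat_lit 0) (nat_lit 659220104) (nat_lit 608) (nat_lit 342028625) (nat_lit 76) (nat_lit 13737002436) (nat_lit 249) (nat_lit 5) (nat_lit 257) (nat_lit 5) (nat_lit 250) (nat_lit 5) (nat_lit 463) (nat_lit 418) (nat_lit 319))) (XT.nd (nat_lit 78) (nat_lit 456) (nat_lit 0) (XT.lf (nat_lit 0) (nat_lit 5562367481) (nat_lit 608) (nat_lit 1546307412) (nat_lit 76) (nat_lit 7881487564) (nat_lit 242) (nat_lit 5) (nat_lit 250) (nat_lit 5) (nat_lit 243) (nat_lit 5) (nat_lit 464) (nat_lit 418) (nat_lit 318)) (XT.lf (nat_lit 0)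 (nat_lit 10687376883) (nat_lit 532) (nat_lit 2742339198) (nat_lit 76) (nat_lit 1818420226) (nat_lit 236) (nat_lit 5) (nat_lit 243) (nat_lit 5) (nat_lit 237) (nat_lit 5) (nat_lit 465) (nat_lit 418) (nat_lit 317)))) (XT.nd (nat_lit 156) (nat_lit 988) (nat_lit 0) (XT.nd (nat_lit 78) (nat_lit 456) (nat_lit 0) (XT.lf (nat_lit 0) (nat_lit 553147087) (nat_lit 608) (nat_lit 3962197627) (nat_lit 76) (nat_lit 10996310634) (nat_lit 228) (nat_lit 5) (nat_lit 236) (nat_lit 5) (nat_lit 229) (nat_lit 5) (nat_lit 466) (nat_lit 418) (nat_lit 316)) (XT.lf (nat_lit 0) (nat_lit 5850732485) (nat_lit 532) (nat_lit 5216559991) (nat_lit 76) (nat_lit 4713340590) (nat_lit 222) (nat_lit 5) (nat_lit 229) (nat_lit 5) (nat_lit 223) (nat_lit 5) (nat_lit 467) (nat_lit 418) (nat_lit 315))) (XT.nd (nat_lit 78) (nat_lit 532) (nat_lit 0) (XT.lf (nat_lit 0) (nat_lit 9581187027) (nat_lit 456) (nat_lit 1819317584) (nat_lit 532) (nat_lit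 4655310832) (nat_lit 216) (nat_lit 5) (nat_lit 222) (nat_lit 5) (nat_lit 223) (nat_lit 5) (nat_lit 468) (nat_lit 418) (nat_lit 314)) (XT.lf (nat_lit 0) (nat_lit 883693959) (nat_lit 532) (nat_lit 7761916142) (nat_lit 76) (nat_lit 7691215221) (nat_lit 209) (nat_lit 5) (nat_lit 216) (nat_lit 5) (nat_lit 210) (nat_lit 5) (nat_lit 469) (nat_lit 418) (nat_lit 313)))))) (XT.nd (nat_lit 546) (nat_lit 2660) (nat_lit 0) (XT.nd (nat_lit 234) (nat_lit 1596) (nat_lit 0) (XT.nd (nat_lit 78) (nat_lit 912) (nat_lit 0) (XT.lf (nat_lit 0) (nat_lit 6612188403) (nat_lit 532) (nat_lit 9072412037) (nat_lit 76) (nat_lit 939318760) (nat_lit 203) (nat_lit 5) (nat_lit 210) (nat_lit 5) (nat_lit 204) (nat_lit 5) (nat_lit 470) (nat_lit 418) (nat_lit 312)) (XT.nd (nat_lit 78) (nat_lit 532) (nat_lit 0) (XT.lf (nat_lit 0) (nat_lit 6502402279) (nat_lit 380) (nat_lit 6138170208) (nat_lit 456) (nat_lit 4276493171) (nat_lit 198) (nat_lit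 5) (nat_lit 203) (nat_lit 5) (nat_lit 204) (nat_lit 5) (nat_lit 471) (nat_lit 418) (nat_lit 311)) (XT.lf (nat_lit 0) (nat_lit 1706857519) (nat_lit 532) (nat_lit 11766733522) (nat_lit 76) (nat_lit 3743255255) (nat_lit 191) (nat_lit 5) (nat_lit 198) (nat_lit 5) (nat_lit 192) (nat_lit 5) (nat_lit 472) (nat_lit 418) (nat_lit 310)))) (XT.nd (nat_lit 156) (nat_lit 836) (nat_lit 0) (XT.nd (nat_lit 78) (nat_lit 380) (nat_lit 0) (XT.lf (nat_lit 0) (nat_lit 4359982466) (nat_lit 380) (nat_lit 3568145684) (nat_lit 456) (nat_lit 9594596871) (nat_lit 186) (nat_lit 5) (nat_lit 191) (nat_lit 5) (nat_lit 192) (nat_lit 5) (nat_lit 473) (nat_lit 418) (nat_lit 309)) (XT.lf (nat_lit 0) (nat_lit 3258436307) (nat_lit 380) (nat_lit 11198282939) (nat_lit 456) (nat_lit 3378647628) (nat_lit 181) (nat_lit 5) (nat_lit 186) (nat_lit 5) (nat_lit 187) (nat_lit 5) (nat_lit 474) (nat_lit 418) (nat_lit 308))) (XT.nd (nat_lit 78) (nat_lit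 380) (nat_lit 0) (XT.lf (nat_lit 0) (nat_lit 2145066026) (nat_lit 380) (nat_lit 943127246) (nat_lit 456) (nat_lit 15066721041) (nat_lit 175) (nat_lit 5) (nat_lit 180) (nat_lit 5) (nat_lit 181) (nat_lit 5) (nat_lit 475) (nat_lit 418) (nat_lit 307)) (XT.lf (nat_lit 0) (nat_lit 977694169) (nat_lit 380) (nat_lit 8870814466) (nat_lit 456) (nat_lit 8632185829) (nat_lit 170) (nat_lit 5) (nat_lit 175) (nat_lit 5) (nat_lit 176) (nat_lit 5) (nat_lit 476) (nat_lit 418) (nat_lit 306))))) (XT.nd (nat_lit 312) (nat_lit 1444) (nat_lit 0) (XT.nd (nat_lit 156) (nat_lit 760) (nat_lit 0) (XT.nd (nat_lit 78) (nat_lit 456) (nat_lit 0) (XT.lf (nat_lit 0) (nat_lit 16915060885) (nat_lit 456) (nat_lit 173170586) (nat_lit 76) (nat_lit 1725948368) (nat_lit 170) (nat_lit 5) (nat_lit 176) (nat_lit 5) (nat_lit 171) (nat_lit 5) (nat_lit 477) (nat_lit 418) (nat_lit 305)) (XT.lf (nat_lit 0) (nat_lit 5123806589) (nat_lit 456) (nat_lit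 1371792226) (nat_lit 76) (nat_lit 12658339101) (nat_lit 164) (nat_lit 5) (nat_lit 170) (nat_lit 5) (nat_lit 165) (nat_lit 5) (nat_lit 478) (nat_lit 418) (nat_lit 304))) (XT.nd (nat_lit 78) (nat_lit 380) (nat_lit 0) (XT.lf (nat_lit 0) (nat_lit 12450585059) (nat_lit 456) (nat_lit 2581130720) (nat_lit 76) (nat_lit 4469542899) (nat_lit 159) (nat_lit 5) (nat_lit 165) (nat_lit 5) (nat_lit 160) (nat_lit 5) (nat_lit 479) (nat_lit 418) (nat_lit 303)) (XT.lf (nat_lit 0) (nat_lit 272802893) (nat_lit 380) (nat_lit 3804161386) (nat_lit 76) (nat_lit 15779288223) (nat_lit 154) (nat_lit 5) (nat_lit 159) (nat_lit 5) (nat_lit 155) (nat_lit 5) (nat_lit 480) (nat_lit 418) (nat_lit 302)))) (XT.nd (nat_lit 156) (nat_lit 760) (nat_lit 0) (XT.nd (nat_lit 78) (nat_lit 304) (nat_lit 0) (XT.lf (nat_lit 0) (nat_lit 7863459126) (nat_lit 456) (nat_lit 5090607981) (nat_lit 76) (nat_lit 7264031923) (nat_lit 149) (nat_lit 5) (nat_lit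 155) (nat_lit 5) (nat_lit 150) (nat_lit 5) (nat_lit 481) (nat_lit 418) (nat_lit 301)) (XT.lf (nat_lit 0) (nat_lit 14214448433) (nat_lit 304) (nat_lit 1592003002) (nat_lit 380) (nat_lit 4781857496) (nat_lit 145) (nat_lit 5) (nat_lit 149) (nat_lit 5) (nat_lit 150) (nat_lit 5) (nat_lit 482) (nat_lit 418) (nat_lit 300))) (XT.nd (nat_lit 78) (nat_lit 304) (nat_lit 0) (XT.lf (nat_lit 0) (nat_lit 3145609266) (nat_lit 456) (nat_lit 7712585639) (nat_lit 76) (nat_lit 10107696927) (nat_lit 139) (nat_lit 5) (nat_lit 145) (nat_lit 5) (nat_lit 140) (nat_lit 5) (nat_lit 483) (nat_lit 418) (nat_lit 299)) (XT.lf (nat_lit 0) (nat_lit 11365914861) (nat_lit 380) (nat_lit 9070013495) (nat_lit 76) (nat_lit 915842354) (nat_lit 135) (nat_lit 5) (nat_lit 140) (nat_lit 5) (nat_lit 136) (nat_lit 5) (nat_lit 484) (nat_lit 418) (nat_lit 298))))))))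
noncomputable def xc59 : XT := (XT.nd (nat_lit 58032) (nat_lit 0) (nat_lit 17784) (XT.nd (nat_lit 1092) (nat_lit 1444) (nat_lit 0) (XT.nd (nat_lit 546) (nat_lit 1672) (nat_lit 0) (XT.nd (nat_lit 234) (nat_lit 1292) (nat_lit 0) (XT.nd (nat_lit 78) (nat_lit 684) (nat_lit 0) (XT.lf (nat_lit 0) (nat_lit 11275517761) (nat_lit 304) (nat_lit 8735724006) (nat_lit 380) (nat_lit 1734416220) (nat_lit 131) (nat_lit 5) (nat_lit 135) (nat_lit 5) (nat_lit 136) (nat_lit 5) (nat_lit 485) (nat_lit 418) (nat_lit 297)) (XT.nd (nat_lit 78) (nat_lit 304) (nat_lit 0) (XT.lf (nat_lit 0) (nat_lit 6807163245) (nat_lit 380) (nat_lit 11907639522) (nat_lit 76) (nat_lit 3433054674) (nat_lit 126) (nat_lit 5) (nat_lit 131) (nat_lit 5) (nat_lit 127) (nat_lit 5) (nat_lit 486) (nat_lit 418) (nat_lit 296)) (XT.lf (nat_lit 0) (nat_lit 9172068419) (nat_lit 304) (nat_lit 6579394182) (nat_lit 380) (nat_lit 6807030511) (nat_lit 122) (nat_lit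 5) (nat_lit 126) (nat_lit 5) (nat_lit 127) (nat_lit 5) (nat_lit 487) (nat_lit 418) (nat_lit 295)))) (XT.nd (nat_lit 156) (nat_lit 608) (nat_lit 0) (XT.nd (nat_lit 78) (nat_lit 304) (nat_lit 0) (XT.lf (nat_lit 0) (nat_lit 2110715062) (nat_lit 380) (nat_lit 14889664697) (nat_lit 76) (nat_lit 5977729390) (nat_lit 117) (nat_lit 5) (nat_lit 122) (nat_lit 5) (nat_lit 118) (nat_lit 5) (nat_lit 488) (nat_lit 418) (nat_lit 294)) (XT.lf (nat_lit 0) (nat_lit 6951597978) (nat_lit 304) (nat_lit 4413908707) (nat_lit 380) (nat_lit 12040667436) (nat_lit 113) (nat_lit 5) (nat_lit 117) (nat_lit 5) (nat_lit 118) (nat_lit 5) (nat_lit 489) (nat_lit 418) (nat_lit 293))) (XT.nd (nat_lit 78) (nat_lit 380) (nat_lit 0) (XT.lf (nat_lit 0) (nat_lit 5795147045) (nat_lit 228) (nat_lit 15278789922) (nat_lit 304) (nat_lit 2769624407) (nat_lit 110) (nat_lit 5) (nat_lit 113) (nat_lit 5) (nat_lit 114) (nat_lit 5) (nat_lit 490) (nat_lit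 418) (nat_lit 292)) (XT.lf (nat_lit 0) (nat_lit 4600560344) (nat_lit 304) (nat_lit 2243214191) (nat_lit 380) (nat_lit 17446352784) (nat_lit 105) (nat_lit 5) (nat_lit 109) (nat_lit 5) (nat_lit 110) (nat_lit 5) (nat_lit 491) (nat_lit 418) (nat_lit 291))))) (XT.nd (nat_lit 234) (nat_lit 836) (nat_lit 0) (XT.nd (nat_lit 78) (nat_lit 608) (nat_lit 0) (XT.lf (nat_lit 0) (nat_lit 3349363089) (nat_lit 228) (nat_lit 13558035907) (nat_lit 304) (nat_lit 7838336277) (nat_lit 102) (nat_lit 5) (nat_lit 105) (nat_lit 5) (nat_lit 106) (nat_lit 5) (nat_lit 492) (nat_lit 418) (nat_lit 290)) (XT.nd (nat_lit 78) (nat_lit 228) (nat_lit 0) (XT.lf (nat_lit 0) (nat_lit 2104214460) (nat_lit 304) (nat_lit 71669127) (nat_lit 380) (nat_lit 23035961793) (nat_lit 97) (nat_lit 5) (nat_lit 101) (nat_lit 5) (nat_lit 102) (nat_lit 5) (nat_lit 493) (nat_lit 418) (nat_lit 289)) (XT.lf (nat_lit 0) (nat_lit 749846982) (nat_lit 228) (nat_lit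 11857568868) (nat_lit 304) (nat_lit 13079019346) (nat_lit 94) (nat_lit 5) (nat_lit 97) (nat_lit 5) (nat_lit 98) (nat_lit 5) (nat_lit 494) (nat_lit 418) (nat_lit 288)))) (XT.nd (nat_lit 156) (nat_lit 532) (nat_lit 0) (XT.nd (nat_lit 78) (nat_lit 304) (nat_lit 0) (XT.lf (nat_lit 0) (nat_lit 23505254080) (nat_lit 304) (nat_lit 577399053) (nat_lit 76) (nat_lit 2089542561) (nat_lit 94) (nat_lit 5) (nat_lit 98) (nat_lit 5) (nat_lit 95) (nat_lit 5) (nat_lit 495) (nat_lit 418) (nat_lit 287)) (XT.lf (nat_lit 0) (nat_lit 8176127853) (nat_lit 304) (nat_lit 1993710118) (nat_lit 76) (nat_lit 16497158827) (nat_lit 90) (nat_lit 5) (nat_lit 94) (nat_lit 5) (nat_lit 91) (nat_lit 5) (nat_lit 496) (nat_lit 418) (nat_lit 286))) (XT.nd (nat_lit 78) (nat_lit 304) (nat_lit 0) (XT.lf (nat_lit 0) (nat_lit 19478057558) (nat_lit 304) (nat_lit 3423910291) (nat_lit 76) (nat_lit 4270925660) (nat_lit 87) (nat_lit 5) (nat_lit 91)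 (nat_lit 5) (nat_lit 88) (nat_lit 5) (nat_lit 497) (nat_lit 418) (nat_lit 285)) (XT.lf (nat_lit 0) (nat_lit 3594609905) (nat_lit 304) (nat_lit 4913839153) (nat_lit 76) (nat_lit 19180784425) (nat_lit 83) (nat_lit 5) (nat_lit 87) (nat_lit 5) (nat_lit 84) (nat_lit 5) (nat_lit 498) (nat_lit 418) (nat_lit 284)))))) (XT.nd (nat_lit 56316) (nat_lit 0) (nat_lit 39064) (XT.nd (nat_lit 234) (nat_lit 684) (nat_lit 0) (XT.nd (nat_lit 78) (nat_lit 532) (nat_lit 0) (XT.lf (nat_lit 0) (nat_lit 15309597324) (nat_lit 304) (nat_lit 6466990122) (nat_lit 76) (nat_lit 6439631097) (nat_lit 80) (nat_lit 5) (nat_lit 84) (nat_lit 5) (nat_lit 81) (nat_lit 5) (nat_lit 499) (nat_lit 418) (nat_lit 283)) (XT.nd (nat_lit 78) (nat_lit 304) (nat_lit 0) (XT.lf (nat_lit 0) (nat_lit 20707077865) (nat_lit 228) (nat_lit 6877627204) (nat_lit 304) (nat_lit 1170134829) (nat_lit 77) (nat_lit 5) (nat_lit 80) (nat_lit 5) (nat_lit 81) (nat_lit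 5) (nat_lit 500) (nat_lit 418) (nat_lit 282)) (XT.lf (nat_lit 0) (nat_lit 10987340980) (nat_lit 304) (nat_lit 9727358587) (nat_lit 76) (nat_lit 8589260835) (nat_lit 73) (nat_lit 5) (nat_lit 77) (nat_lit 5) (nat_lit 74) (nat_lit 5) (nat_lit 501) (nat_lit 418) (nat_lit 281)))) (XT.nd (nat_lit 156) (nat_lit 228) (nat_lit 0) (XT.nd (nat_lit 78) (nat_lit 228) (nat_lit 0) (XT.lf (nat_lit 0) (nat_lit 18430926370) (nat_lit 228) (nat_lit 5267563115) (nat_lit 304) (nat_lit 6166813571) (nat_lit 70) (nat_lit 5) (nat_lit 73) (nat_lit 5) (nat_lit 74) (nat_lit 5) (nat_lit 502) (nat_lit 418) (nat_lit 280)) (XT.lf (nat_lit 0) (nat_lit 6497654416) (nat_lit 228) (nat_lit 13227692364) (nat_lit 76) (nat_lit 10712646777) (nat_lit 67) (nat_lit 5) (nat_lit 70) (nat_lit 5) (nat_lit 68) (nat_lit 5) (nat_lit 503) (nat_lit 418) (nat_lit 279))) (XT.nd (nat_lit 55848) (nat_lit 0) (nat_lit 41724) (XT.lf (nat_lit 0) (nat_lit 15949173875)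 (nat_lit 228) (nat_lit 3710931330) (nat_lit 304) (nat_lit 11362907818) (nat_lit 64) (nat_lit 5) (nat_lit 67) (nat_lit 5) (nat_lit 68) (nat_lit 5) (nat_lit 504) (nat_lit 418) (nat_lit 278)) (XT.lf (nat_lit 0) (nat_lit 2217404882) (nat_lit 1444) (nat_lit 884432254) (nat_lit 1444) (nat_lit 884432254) (nat_lit 613) (nat_lit 3) (nat_lit 632) (nat_lit 3) (nat_lit 632) (nat_lit 5) (nat_lit 419) (nat_lit 419) (nat_lit 362))))) (XT.nd (nat_lit 312) (nat_lit 1292) (nat_lit 0) (XT.nd (nat_lit 156) (nat_lit 0) (nat_lit 0) (XT.nd (nat_lit 78) (nat_lit 1368) (nat_lit 0) (XT.lf (nat_lit 76) (nat_lit 4238755781) (nat_lit 0) (nat_lit 2115413766) (nat_lit 1444) (nat_lit 1700834533) (nat_lit 614) (nat_lit 5) (nat_lit 613) (nat_lit 3) (nat_lit 632) (nat_lit 5) (nat_lit 420) (nat_lit 419) (nat_lit 361)) (XT.lf (nat_lit 0) (nat_lit 157735287) (nat_lit 1444) (nat_lit 5852620968) (nat_lit 1520) (nat_lit 2130183274) (nat_lit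 595) (nat_lit 5) (nat_lit 614) (nat_lit 5) (nat_lit 615) (nat_lit 5) (nat_lit 421) (nat_lit 419) (nat_lit 360))) (XT.nd (nat_lit 78) (nat_lit 0) (nat_lit 76) (XT.lf (nat_lit 76) (nat_lit 339302666) (nat_lit 0) (nat_lit 1682280960) (nat_lit 1520) (nat_lit 6207382435) (nat_lit 596) (nat_lit 5) (nat_lit 595) (nat_lit 5) (nat_lit 615) (nat_lit 5) (nat_lit 422) (nat_lit 419) (nat_lit 359)) (XT.lf (nat_lit 0) (nat_lit 3931389049) (nat_lit 1444) (nat_lit 1580149242) (nat_lit 1520) (nat_lit 2808708647) (nat_lit 596) (nat_lit 5) (nat_lit 615) (nat_lit 5) (nat_lit 616) (nat_lit 5) (nat_lit 423) (nat_lit 419) (nat_lit 358)))) (XT.nd (nat_lit 156) (nat_lit 1368) (nat_lit 0) (XT.nd (nat_lit 78) (nat_lit 0) (nat_lit 76) (XT.lf (nat_lit 76) (nat_lit 4933552441) (nat_lit 0) (nat_lit 942294468) (nat_lit 1520) (nat_lit 2538874480) (nat_lit 597) (nat_lit 5) (nat_lit 596) (nat_lit 5) (nat_lit 616) (nat_lit 5) (nat_lit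 424) (nat_lit 419) (nat_lit 357)) (XT.lf (nat_lit 76) (nat_lit 3129629926) (nat_lit 0) (nat_lit 4740466265) (nat_lit 1520) (nat_lit 642106972) (nat_lit 598) (nat_lit 5) (nat_lit 597) (nat_lit 5) (nat_lit 617) (nat_lit 5) (nat_lit 425) (nat_lit 419) (nat_lit 356))) (XT.nd (nat_lit 78) (nat_lit 0) (nat_lit 0) (XT.lf (nat_lit 0) (nat_lit 1270646953) (nat_lit 1520) (nat_lit 7276112233) (nat_lit 1596) (nat_lit 66156335) (nat_lit 578) (nat_lit 5) (nat_lit 598) (nat_lit 5) (nat_lit 599) (nat_lit 5) (nat_lit 426) (nat_lit 419) (nat_lit 355)) (XT.lf (nat_lit 0) (nat_lit 3239370459) (nat_lit 1520) (nat_lit 461033085) (nat_lit 1596) (nat_lit 5016016680) (nat_lit 578) (nat_lit 5) (nat_lit 598) (nat_lit 5) (nat_lit 599) (nat_lit 5) (nat_lit 427) (nat_lit 419) (nat_lit 354))))))) (XT.nd (nat_lit 1170) (nat_lit 10108) (nat_lit 0) (XT.nd (nat_lit 546) (nat_lit 9728) (nat_lit 0) (XT.nd (nat_lit 234) (nat_lit 0) (nat_lit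 0) (XT.nd (nat_lit 78) (nat_lit 1520) (nat_lit 0) (XT.lf (nat_lit 0) (nat_lit 5259470891) (nat_lit 1520) (nat_lit 2226164692) (nat_lit 1596) (nat_lit 1337550194) (nat_lit 579) (nat_lit 5) (nat_lit 599) (nat_lit 5) (nat_lit 600) (nat_lit 5) (nat_lit 428) (nat_lit 419) (nat_lit 353)) (XT.nd (nat_lit 78) (nat_lit 1520) (nat_lit 0) (XT.lf (nat_lit 76) (nat_lit 4940270088) (nat_lit 0) (nat_lit 2402101084) (nat_lit 1596) (nat_lit 1590741144) (nat_lit 580) (nat_lit 5) (nat_lit 579) (nat_lit 5) (nat_lit 600) (nat_lit 5) (nat_lit 429) (nat_lit 419) (nat_lit 352)) (XT.lf (nat_lit 0) (nat_lit 434340910) (nat_lit 1596) (nat_lit 5758818179) (nat_lit 1672) (nat_lit 2853147934) (nat_lit 559) (nat_lit 5) (nat_lit 580) (nat_lit 5) (nat_lit 581) (nat_lit 5) (nat_lit 430) (nat_lit 419) (nat_lit 351)))) (XT.nd (nat_lit 156) (nat_lit 0) (nat_lit 152) (XT.nd (nat_lit 78) (nat_lit 0) (nat_lit 76) (XT.lf (nat_lit 76) (nat_lit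 1632592276) (nat_lit 0) (nat_lit 864779263) (nat_lit 1672) (nat_lit 6665341382) (nat_lit 560) (nat_lit 5) (nat_lit 559) (nat_lit 5) (nat_lit 581) (nat_lit 5) (nat_lit 431) (nat_lit 419) (nat_lit 350)) (XT.lf (nat_lit 0) (nat_lit 4637819718) (nat_lit 1596) (nat_lit 28515053) (nat_lit 1672) (nat_lit 4615967446) (nat_lit 560) (nat_lit 5) (nat_lit 581) (nat_lit 5) (nat_lit 582) (nat_lit 5) (nat_lit 432) (nat_lit 419) (nat_lit 349))) (XT.nd (nat_lit 78) (nat_lit 0) (nat_lit 0) (XT.lf (nat_lit 0) (nat_lit 6852297151) (nat_lit 1596) (nat_lit 1657029411) (nat_lit 1672) (nat_lit 895958018) (nat_lit 561) (nat_lit 5) (nat_lit 582) (nat_lit 5) (nat_lit 583) (nat_lit 5) (nat_lit 433) (nat_lit 419) (nat_lit 348)) (XT.lf (nat_lit 76) (nat_lit 6237121878) (nat_lit 0) (nat_lit 2917118349) (nat_lit 1672) (nat_lit 377297214) (nat_lit 562) (nat_lit 5) (nat_lit 561) (nat_lit 5) (nat_lit 583) (nat_lit 5) (nat_lit 434) (nat_lit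 419) (nat_lit 347))))) (XT.nd (nat_lit 312) (nat_lit 3040) (nat_lit 0) (XT.nd (nat_lit 156) (nat_lit 3572) (nat_lit 0) (XT.nd (nat_lit 78) (nat_lit 1672) (nat_lit 0) (XT.lf (nat_lit 0) (nat_lit 1850203235) (nat_lit 1672) (nat_lit 4941219618) (nat_lit 76) (nat_lit 2869694969) (nat_lit 540) (nat_lit 5) (nat_lit 562) (nat_lit 5) (nat_lit 541) (nat_lit 5) (nat_lit 435) (nat_lit 419) (nat_lit 346)) (XT.lf (nat_lit 0) (nat_lit 3204814815) (nat_lit 1672) (nat_lit 948692301) (nat_lit 1748) (nat_lit 5640748061) (nat_lit 518) (nat_lit 5) (nat_lit 540) (nat_lit 5) (nat_lit 541) (nat_lit 5) (nat_lit 436) (nat_lit 419) (nat_lit 345))) (XT.nd (nat_lit 78) (nat_lit 1824) (nat_lit 0) (XT.lf (nat_lit 0) (nat_lit 1680071717) (nat_lit 1748) (nat_lit 4875860898) (nat_lit 1824) (nat_lit 3374855070) (nat_lit 495) (nat_lit 5) (nat_lit 518) (nat_lit 5) (nat_lit 519) (nat_lit 5) (nat_lit 437) (nat_lit 419) (nat_lit 344)) (XT.lf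 (nat_lit 0) (nat_lit 164120916) (nat_lit 1824) (nat_lit 8879779049) (nat_lit 1900) (nat_lit 1027248261) (nat_lit 471) (nat_lit 5) (nat_lit 495) (nat_lit 5) (nat_lit 496) (nat_lit 5) (nat_lit 438) (nat_lit 419) (nat_lit 343)))) (XT.nd (nat_lit 156) (nat_lit 1824) (nat_lit 0) (XT.nd (nat_lit 78) (nat_lit 1140) (nat_lit 0) (XT.lf (nat_lit 0) (nat_lit 1415875368) (nat_lit 1900) (nat_lit 1353486449) (nat_lit 76) (nat_lit 7445311959) (nat_lit 470) (nat_lit 5) (nat_lit 495) (nat_lit 5) (nat_lit 471) (nat_lit 5) (nat_lit 439) (nat_lit 419) (nat_lit 342)) (XT.lf (nat_lit 0) (nat_lit 3946211919) (nat_lit 1216) (nat_lit 2877311264) (nat_lit 76) (nat_lit 3538289930) (nat_lit 455) (nat_lit 5) (nat_lit 471) (nat_lit 5) (nat_lit 456) (nat_lit 5) (nat_lit 440) (nat_lit 419) (nat_lit 341))) (XT.nd (nat_lit 78) (nat_lit 912) (nat_lit 0) (XT.lf (nat_lit 0) (nat_lit 6114324901) (nat_lit 912) (nat_lit 462410996) (nat_lit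 988) (nat_lit 3936146476) (nat_lit 443) (nat_lit 5) (nat_lit 455) (nat_lit 5) (nat_lit 456) (nat_lit 5) (nat_lit 441) (nat_lit 419) (nat_lit 340)) (XT.lf (nat_lit 0) (nat_lit 4728888826) (nat_lit 912) (nat_lit 4604997585) (nat_lit 988) (nat_lit 1333644340) (nat_lit 431) (nat_lit 5) (nat_lit 443) (nat_lit 5) (nat_lit 444) (nat_lit 5) (nat_lit 442) (nat_lit 419) (nat_lit 339)))))) (XT.nd (nat_lit 546) (nat_lit 5016) (nat_lit 0) (XT.nd (nat_lit 234) (nat_lit 2432) (nat_lit 0) (XT.nd (nat_lit 78) (nat_lit 1748) (nat_lit 0) (XT.lf (nat_lit 0) (nat_lit 1355760488) (nat_lit 912) (nat_lit 7483688058) (nat_lit 76) (nat_lit 1986666466) (nat_lit 419) (nat_lit 5) (nat_lit 431) (nat_lit 5) (nat_lit 420) (nat_lit 5) (nat_lit 443) (nat_lit 419) (nat_lit 338)) (XT.nd (nat_lit 78) (nat_lit 836) (nat_lit 0) (XT.lf (nat_lit 0) (nat_lit 1939497130) (nat_lit 912) (nat_lit 2211725564) (nat_lit 988) (nat_lit 6837189076) (nat_lit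 407) (nat_lit 5) (nat_lit 419) (nat_lit 5) (nat_lit 420) (nat_lit 5) (nat_lit 444) (nat_lit 419) (nat_lit 337)) (XT.lf (nat_lit 0) (nat_lit 529237822) (nat_lit 836) (nat_lit 6546170595) (nat_lit 912) (nat_lit 4079272945) (nat_lit 396) (nat_lit 5) (nat_lit 407) (nat_lit 5) (nat_lit 408) (nat_lit 5) (nat_lit 445) (nat_lit 419) (nat_lit 336)))) (XT.nd (nat_lit 156) (nat_lit 1520) (nat_lit 0) (XT.nd (nat_lit 78) (nat_lit 912) (nat_lit 0) (XT.lf (nat_lit 0) (nat_lit 10126838945) (nat_lit 912) (nat_lit 863781959) (nat_lit 76) (nat_lit 334528846) (nat_lit 396) (nat_lit 5) (nat_lit 408) (nat_lit 5) (nat_lit 397) (nat_lit 5) (nat_lit 446) (nat_lit 419) (nat_lit 335)) (XT.lf (nat_lit 0) (nat_lit 1812434681) (nat_lit 912) (nat_lit 2282927228) (nat_lit 76) (nat_lit 7403810473) (nat_lit 384) (nat_lit 5) (nat_lit 396) (nat_lit 5) (nat_lit 385) (nat_lit 5) (nat_lit 447) (nat_lit 419) (nat_lit 334))) (XT.nd (nat_lit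 78) (nat_lit 760) (nat_lit 0) (XT.lf (nat_lit 0) (nat_lit 4938044424) (nat_lit 836) (nat_lit 3708280176) (nat_lit 76) (nat_lit 3031117243) (nat_lit 374) (nat_lit 5) (nat_lit 385) (nat_lit 5) (nat_lit 375) (nat_lit 5) (nat_lit 448) (nat_lit 419) (nat_lit 333)) (XT.lf (nat_lit 0) (nat_lit 6720467920) (nat_lit 760) (nat_lit 1487378825) (nat_lit 836) (nat_lit 3652205137) (nat_lit 364) (nat_lit 5) (nat_lit 374) (nat_lit 5) (nat_lit 375) (nat_lit 5) (nat_lit 449) (nat_lit 419) (nat_lit 332))))) (XT.nd (nat_lit 312) (nat_lit 2052) (nat_lit 0) (XT.nd (nat_lit 156) (nat_lit 1368) (nat_lit 0) (XT.nd (nat_lit 78) (nat_lit 836) (nat_lit 0) (XT.lf (nat_lit 0) (nat_lit 5458870480) (nat_lit 760) (nat_lit 6180437491) (nat_lit 836) (nat_lit 407561907) (nat_lit 354) (nat_lit 5) (nat_lit 364) (nat_lit 5) (nat_lit 365) (nat_lit 5) (nat_lit 450) (nat_lit 419) (nat_lit 331)) (XT.lf (nat_lit 0) (nat_lit 2941505574) (nat_lit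 836) (nat_lit 8052905744) (nat_lit 76) (nat_lit 1243589550) (nat_lit 343) (nat_lit 5) (nat_lit 354) (nat_lit 5) (nat_lit 344) (nat_lit 5) (nat_lit 451) (nat_lit 419) (nat_lit 330))) (XT.nd (nat_lit 78) (nat_lit 684) (nat_lit 0) (XT.lf (nat_lit 0) (nat_lit 2891785203) (nat_lit 684) (nat_lit 3564689706) (nat_lit 760) (nat_lit 5976918537) (nat_lit 334) (nat_lit 5) (nat_lit 343) (nat_lit 5) (nat_lit 344) (nat_lit 5) (nat_lit 452) (nat_lit 419) (nat_lit 329)) (XT.lf (nat_lit 0) (nat_lit 1596150612) (nat_lit 684) (nat_lit 8539175729) (nat_lit 760) (nat_lit 2498153656) (nat_lit 325) (nat_lit 5) (nat_lit 334) (nat_lit 5) (nat_lit 335) (nat_lit 5) (nat_lit 453) (nat_lit 419) (nat_lit 328)))) (XT.nd (nat_lit 156) (nat_lit 1292) (nat_lit 0) (XT.nd (nat_lit 78) (nat_lit 0) (nat_lit 0) (XT.lf (nat_lit 0) (nat_lit 293745092) (nat_lit 684) (nat_lit 834932418) (nat_lit 760) (nat_lit 11709592900) (nat_lit 315) (nat_lit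 5) (nat_lit 324) (nat_lit 5) (nat_lit 325) (nat_lit 5) (nat_lit 454) (nat_lit 419) (nat_lit 327)) (XT.lf (nat_lit 0) (nat_lit 4919724262) (nat_lit 760) (nat_lit 1034315898) (nat_lit 76) (nat_lit 7093047894) (nat_lit 315) (nat_lit 5) (nat_lit 325) (nat_lit 5) (nat_lit 316) (nat_lit 5) (nat_lit 455) (nat_lit 419) (nat_lit 326))) (XT.nd (nat_lit 78) (nat_lit 608) (nat_lit 0) (XT.lf (nat_lit 0) (nat_lit 8883016354) (nat_lit 760) (nat_lit 2353736828) (nat_lit 76) (nat_lit 2024247532) (nat_lit 306) (nat_lit 5) (nat_lit 316) (nat_lit 5) (nat_lit 307) (nat_lit 5) (nat_lit 456) (nat_lit 419) (nat_lit 325)) (XT.lf (nat_lit 0) (nat_lit 9790650434) (nat_lit 608) (nat_lit 3254329169) (nat_lit 684) (nat_lit 434756446) (nat_lit 298) (nat_lit 5) (nat_lit 306) (nat_lit 5) (nat_lit 307) (nat_lit 5) (nat_lit 457) (nat_lit 419) (nat_lit 324))))))))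
noncomputable def xc60 : XT := (XT.nd (nat_lit 2262) (nat_lit 4864) (nat_lit 0) (XT.nd (nat_lit 1092) (nat_lit 5472) (nat_lit 0) (XT.nd (nat_lit 546) (nat_lit 2964) (nat_lit 0) (XT.nd (nat_lit 234) (nat_lit 2356) (nat_lit 0) (XT.nd (nat_lit 78) (nat_lit 1216) (nat_lit 0) (XT.lf (nat_lit 0) (nat_lit 3654232870) (nat_lit 684) (nat_lit 5057244748) (nat_lit 76) (nat_lit 4991584984) (nat_lit 289) (nat_lit 5) (nat_lit 298) (nat_lit 5) (nat_lit 290) (nat_lit 5) (nat_lit 458) (nat_lit 419) (nat_lit 323)) (XT.nd (nat_lit 78) (nat_lit 608) (nat_lit 0) (XT.lf (nat_lit 0) (nat_lit 7504596352) (nat_lit 608) (nat_lit 421448267) (nat_lit 684) (nat_lit 6005666355) (nat_lit 281) (nat_lit 5) (nat_lit 289) (nat_lit 5) (nat_lit 290) (nat_lit 5) (nat_lit 459) (nat_lit 419) (nat_lit 322)) (XT.lf (nat_lit 0) (nat_lit 6338600546) (nat_lit 608) (nat_lit 6086707606) (nat_lit 684) (nat_lit 1739925364) (nat_lit 273) (nat_lit 5)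 (nat_lit 281) (nat_lit 5) (nat_lit 282) (nat_lit 5) (nat_lit 460) (nat_lit 419) (nat_lit 321)))) (XT.nd (nat_lit 156) (nat_lit 1140) (nat_lit 0) (XT.nd (nat_lit 78) (nat_lit 608) (nat_lit 0) (XT.lf (nat_lit 0) (nat_lit 2686935460) (nat_lit 608) (nat_lit 9240058187) (nat_lit 76) (nat_lit 2477065070) (nat_lit 265) (nat_lit 5) (nat_lit 273) (nat_lit 5) (nat_lit 266) (nat_lit 5) (nat_lit 461) (nat_lit 419) (nat_lit 320)) (XT.lf (nat_lit 0) (nat_lit 3964546010) (nat_lit 608) (nat_lit 3350284018) (nat_lit 684) (nat_lit 7333151911) (nat_lit 257) (nat_lit 5) (nat_lit 265) (nat_lit 5) (nat_lit 266) (nat_lit 5) (nat_lit 462) (nat_lit 419) (nat_lit 319))) (XT.nd (nat_lit 78) (nat_lit 608) (nat_lit 0) (XT.lf (nat_lit 0) (nat_lit 2756791417) (nat_lit 532) (nat_lit 9413722331) (nat_lit 608) (nat_lit 2726930663) (nat_lit 250) (nat_lit 5) (nat_lit 257) (nat_lit 5) (nat_lit 258) (nat_lit 5) (nat_lit 463) (nat_lit 419)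 (nat_lit 318)) (XT.lf (nat_lit 0) (nat_lit 1540842421) (nat_lit 532) (nat_lit 528265744) (nat_lit 608) (nat_lit 13083459374) (nat_lit 242) (nat_lit 5) (nat_lit 249) (nat_lit 5) (nat_lit 250) (nat_lit 5) (nat_lit 464) (nat_lit 419) (nat_lit 317))))) (XT.nd (nat_lit 234) (nat_lit 1900) (nat_lit 0) (XT.nd (nat_lit 78) (nat_lit 608) (nat_lit 0) (XT.lf (nat_lit 0) (nat_lit 277358318) (nat_lit 456) (nat_lit 6808739665) (nat_lit 532) (nat_lit 8326604070) (nat_lit 236) (nat_lit 5) (nat_lit 242) (nat_lit 5) (nat_lit 243) (nat_lit 5) (nat_lit 465) (nat_lit 419) (nat_lit 316)) (XT.nd (nat_lit 78) (nat_lit 608) (nat_lit 0) (XT.lf (nat_lit 0) (nat_lit 12338812891) (nat_lit 532) (nat_lit 965197238) (nat_lit 76) (nat_lit 2374926702) (nat_lit 236) (nat_lit 5) (nat_lit 243) (nat_lit 5) (nat_lit 237) (nat_lit 5) (nat_lit 466) (nat_lit 419) (nat_lit 315)) (XT.lf (nat_lit 0) (nat_lit 1882332708) (nat_lit 608) (nat_lit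 2234348571) (nat_lit 76) (nat_lit 11834045949) (nat_lit 228) (nat_lit 5) (nat_lit 236) (nat_lit 5) (nat_lit 229) (nat_lit 5) (nat_lit 467) (nat_lit 419) (nat_lit 314)))) (XT.nd (nat_lit 156) (nat_lit 988) (nat_lit 0) (XT.nd (nat_lit 78) (nat_lit 456) (nat_lit 0) (XT.lf (nat_lit 0) (nat_lit 7315855425) (nat_lit 532) (nat_lit 3533999237) (nat_lit 76) (nat_lit 5378380175) (nat_lit 222) (nat_lit 5) (nat_lit 229) (nat_lit 5) (nat_lit 223) (nat_lit 5) (nat_lit 468) (nat_lit 419) (nat_lit 313)) (XT.lf (nat_lit 0) (nat_lit 11677843667) (nat_lit 456) (nat_lit 1328462518) (nat_lit 532) (nat_lit 3505883526) (nat_lit 216) (nat_lit 5) (nat_lit 222) (nat_lit 5) (nat_lit 223) (nat_lit 5) (nat_lit 469) (nat_lit 419) (nat_lit 312))) (XT.nd (nat_lit 78) (nat_lit 456) (nat_lit 0) (XT.lf (nat_lit 0) (nat_lit 2160564485) (nat_lit 532) (nat_lit 6176859288) (nat_lit 76) (nat_lit 8464475826) (nat_lit 209) (nat_lit 5) (nat_lit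 216) (nat_lit 5) (nat_lit 210) (nat_lit 5) (nat_lit 470) (nat_lit 419) (nat_lit 311)) (XT.lf (nat_lit 0) (nat_lit 8039761643) (nat_lit 532) (nat_lit 7535284400) (nat_lit 76) (nat_lit 1522983972) (nat_lit 203) (nat_lit 5) (nat_lit 210) (nat_lit 5) (nat_lit 204) (nat_lit 5) (nat_lit 471) (nat_lit 419) (nat_lit 310)))))) (XT.nd (nat_lit 546) (nat_lit 2584) (nat_lit 0) (XT.nd (nat_lit 234) (nat_lit 1596) (nat_lit 0) (XT.nd (nat_lit 78) (nat_lit 912) (nat_lit 0) (XT.lf (nat_lit 0) (nat_lit 8477420603) (nat_lit 380) (nat_lit 5747331075) (nat_lit 456) (nat_lit 3175704757) (nat_lit 198) (nat_lit 5) (nat_lit 203) (nat_lit 5) (nat_lit 204) (nat_lit 5) (nat_lit 472) (nat_lit 419) (nat_lit 309)) (XT.nd (nat_lit 78) (nat_lit 380) (nat_lit 0) (XT.lf (nat_lit 0) (nat_lit 2950921699) (nat_lit 532) (nat_lit 10332736188) (nat_lit 76) (nat_lit 4425815735) (nat_lit 191) (nat_lit 5) (nat_lit 198) (nat_lit 5) (nat_lit 192)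 (nat_lit 5) (nat_lit 473) (nat_lit 419) (nat_lit 308)) (XT.lf (nat_lit 0) (nat_lit 6248789338) (nat_lit 380) (nat_lit 3086711810) (nat_lit 456) (nat_lit 8689494755) (nat_lit 186) (nat_lit 5) (nat_lit 191) (nat_lit 5) (nat_lit 192) (nat_lit 5) (nat_lit 474) (nat_lit 419) (nat_lit 307)))) (XT.nd (nat_lit 156) (nat_lit 760) (nat_lit 0) (XT.nd (nat_lit 78) (nat_lit 456) (nat_lit 0) (XT.lf (nat_lit 0) (nat_lit 5104947465) (nat_lit 380) (nat_lit 10936002159) (nat_lit 456) (nat_lit 2306447985) (nat_lit 181) (nat_lit 5) (nat_lit 186) (nat_lit 5) (nat_lit 187) (nat_lit 5) (nat_lit 475) (nat_lit 419) (nat_lit 306)) (XT.lf (nat_lit 0) (nat_lit 3944965280) (nat_lit 380) (nat_lit 371576711) (nat_lit 456) (nat_lit 14360286948) (nat_lit 175) (nat_lit 5) (nat_lit 180) (nat_lit 5) (nat_lit 181) (nat_lit 5) (nat_lit 476) (nat_lit 419) (nat_lit 305))) (XT.nd (nat_lit 78) (nat_lit 380) (nat_lit 0) (XT.lf (nat_lit 0) (nat_lit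 2732947664) (nat_lit 380) (nat_lit 8528627412) (nat_lit 456) (nat_lit 7751169798) (nat_lit 170) (nat_lit 5) (nat_lit 175) (nat_lit 5) (nat_lit 176) (nat_lit 5) (nat_lit 477) (nat_lit 419) (nat_lit 304)) (XT.lf (nat_lit 0) (nat_lit 1535307539) (nat_lit 380) (nat_lit 16986067333) (nat_lit 456) (nat_lit 835235449) (nat_lit 165) (nat_lit 5) (nat_lit 170) (nat_lit 5) (nat_lit 171) (nat_lit 5) (nat_lit 478) (nat_lit 419) (nat_lit 303))))) (XT.nd (nat_lit 312) (nat_lit 1368) (nat_lit 0) (XT.nd (nat_lit 156) (nat_lit 760) (nat_lit 0) (XT.nd (nat_lit 78) (nat_lit 0) (nat_lit 0) (XT.lf (nat_lit 0) (nat_lit 270973793) (nat_lit 380) (nat_lit 6083391831) (nat_lit 456) (nat_lit 13352636713) (nat_lit 159) (nat_lit 5) (nat_lit 164) (nat_lit 5) (nat_lit 165) (nat_lit 5) (nat_lit 479) (nat_lit 419) (nat_lit 302)) (XT.lf (nat_lit 0) (nat_lit 13882494485) (nat_lit 456) (nat_lit 988240728) (nat_lit 76) (nat_lit 5194377059)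 (nat_lit 159) (nat_lit 5) (nat_lit 165) (nat_lit 5) (nat_lit 160) (nat_lit 5) (nat_lit 480) (nat_lit 419) (nat_lit 301))) (XT.nd (nat_lit 78) (nat_lit 380) (nat_lit 0) (XT.lf (nat_lit 0) (nat_lit 1326112178) (nat_lit 380) (nat_lit 2261156629) (nat_lit 76) (nat_lit 16843753224) (nat_lit 154) (nat_lit 5) (nat_lit 159) (nat_lit 5) (nat_lit 155) (nat_lit 5) (nat_lit 481) (nat_lit 419) (nat_lit 300)) (XT.lf (nat_lit 0) (nat_lit 9128560089) (nat_lit 456) (nat_lit 3596489006) (nat_lit 76) (nat_lit 8078993872) (nat_lit 149) (nat_lit 5) (nat_lit 155) (nat_lit 5) (nat_lit 150) (nat_lit 5) (nat_lit 482) (nat_lit 419) (nat_lit 299)))) (XT.nd (nat_lit 156) (nat_lit 608) (nat_lit 0) (XT.nd (nat_lit 78) (nat_lit 456) (nat_lit 0) (XT.lf (nat_lit 0) (nat_lit 16261001123) (nat_lit 304) (nat_lit 1029383316) (nat_lit 380) (nat_lit 3895364321) (nat_lit 145) (nat_lit 5) (nat_lit 149) (nat_lit 5) (nat_lit 150) (nat_lit 5)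 (nat_lit 483) (nat_lit 419) (nat_lit 298)) (XT.lf (nat_lit 0) (nat_lit 4241207670) (nat_lit 456) (nat_lit 6320825844) (nat_lit 76) (nat_lit 11012796526) (nat_lit 139) (nat_lit 5) (nat_lit 145) (nat_lit 5) (nat_lit 140) (nat_lit 5) (nat_lit 484) (nat_lit 419) (nat_lit 297))) (XT.nd (nat_lit 78) (nat_lit 304) (nat_lit 0) (XT.lf (nat_lit 0) (nat_lit 12693316787) (nat_lit 380) (nat_lit 7729636648) (nat_lit 76) (nat_lit 1549628369) (nat_lit 135) (nat_lit 5) (nat_lit 140) (nat_lit 5) (nat_lit 136) (nat_lit 5) (nat_lit 485) (nat_lit 419) (nat_lit 296)) (XT.lf (nat_lit 0) (nat_lit 13200100019) (nat_lit 304) (nat_lit 8379472091) (nat_lit 380) (nat_lit 799082610) (nat_lit 131) (nat_lit 5) (nat_lit 135) (nat_lit 5) (nat_lit 136) (nat_lit 5) (nat_lit 486) (nat_lit 419) (nat_lit 295))))))) (XT.nd (nat_lit 1170) (nat_lit 760) (nat_lit 0) (XT.nd (nat_lit 546) (nat_lit 1900) (nat_lit 0) (XT.nd (nat_lit 234) (nat_lit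 1140) (nat_lit 0) (XT.nd (nat_lit 78) (nat_lit 684) (nat_lit 0) (XT.lf (nat_lit 0) (nat_lit 7971635314) (nat_lit 380) (nat_lit 10676404996) (nat_lit 76) (nat_lit 4145035199) (nat_lit 126) (nat_lit 5) (nat_lit 131) (nat_lit 5) (nat_lit 127) (nat_lit 5) (nat_lit 487) (nat_lit 419) (nat_lit 294)) (XT.nd (nat_lit 78) (nat_lit 380) (nat_lit 0) (XT.lf (nat_lit 0) (nat_lit 11009923246) (nat_lit 304) (nat_lit 6156517787) (nat_lit 380) (nat_lit 6049946034) (nat_lit 122) (nat_lit 5) (nat_lit 126) (nat_lit 5) (nat_lit 127) (nat_lit 5) (nat_lit 488) (nat_lit 419) (nat_lit 293)) (XT.lf (nat_lit 0) (nat_lit 3109171293) (nat_lit 380) (nat_lit 13771982635) (nat_lit 76) (nat_lit 6767584237) (nat_lit 117) (nat_lit 5) (nat_lit 122) (nat_lit 5) (nat_lit 118) (nat_lit 5) (nat_lit 489) (nat_lit 419) (nat_lit 292)))) (XT.nd (nat_lit 156) (nat_lit 608) (nat_lit 0) (XT.nd (nat_lit 78) (nat_lit 228) (nat_lit 0) (XT.lf (nat_lit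 0) (nat_lit 8699137843) (nat_lit 304) (nat_lit 3925224043) (nat_lit 380) (nat_lit 11465628434) (nat_lit 113) (nat_lit 5) (nat_lit 117) (nat_lit 5) (nat_lit 118) (nat_lit 5) (nat_lit 490) (nat_lit 419) (nat_lit 291)) (XT.lf (nat_lit 0) (nat_lit 7497128894) (nat_lit 228) (nat_lit 15114018289) (nat_lit 304) (nat_lit 1929610290) (nat_lit 110) (nat_lit 5) (nat_lit 113) (nat_lit 5) (nat_lit 114) (nat_lit 5) (nat_lit 491) (nat_lit 419) (nat_lit 290))) (XT.nd (nat_lit 78) (nat_lit 228) (nat_lit 0) (XT.lf (nat_lit 0) (nat_lit 6253833296) (nat_lit 304) (nat_lit 1689554843) (nat_lit 380) (nat_lit 17057546620) (nat_lit 105) (nat_lit 5) (nat_lit 109) (nat_lit 5) (nat_lit 110) (nat_lit 5) (nat_lit 492) (nat_lit 419) (nat_lit 289)) (XT.lf (nat_lit 0) (nat_lit 4954156677) (nat_lit 228) (nat_lit 13342398298) (nat_lit 304) (nat_lit 7173903604) (nat_lit 102) (nat_lit 5) (nat_lit 105) (nat_lit 5) (nat_lit 106) (nat_lit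 5) (nat_lit 493) (nat_lit 419) (nat_lit 288))))) (XT.nd (nat_lit 312) (nat_lit 988) (nat_lit 0) (XT.nd (nat_lit 156) (nat_lit 304) (nat_lit 0) (XT.nd (nat_lit 78) (nat_lit 228) (nat_lit 0) (XT.lf (nat_lit 0) (nat_lit 3116316424) (nat_lit 380) (nat_lit 22295440148) (nat_lit 76) (nat_lit 538931456) (nat_lit 97) (nat_lit 5) (nat_lit 102) (nat_lit 5) (nat_lit 98) (nat_lit 5) (nat_lit 494) (nat_lit 419) (nat_lit 287)) (XT.lf (nat_lit 0) (nat_lit 2252866937) (nat_lit 228) (nat_lit 11592515598) (nat_lit 304) (nat_lit 12594441525) (nat_lit 94) (nat_lit 5) (nat_lit 97) (nat_lit 5) (nat_lit 98) (nat_lit 5) (nat_lit 495) (nat_lit 419) (nat_lit 286))) (XT.nd (nat_lit 78) (nat_lit 76) (nat_lit 0) (XT.lf (nat_lit 0) (nat_lit 866840186) (nat_lit 228) (nat_lit 24187815859) (nat_lit 304) (nat_lit 1885811598) (nat_lit 91) (nat_lit 5) (nat_lit 94) (nat_lit 5) (nat_lit 95) (nat_lit 5) (nat_lit 496) (nat_lit 419) (nat_lit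 285)) (XT.lf (nat_lit 0) (nat_lit 9250327058) (nat_lit 304) (nat_lit 615832175) (nat_lit 76) (nat_lit 17584260560) (nat_lit 90) (nat_lit 5) (nat_lit 94) (nat_lit 5) (nat_lit 91) (nat_lit 5) (nat_lit 497) (nat_lit 419) (nat_lit 284)))) (XT.nd (nat_lit 156) (nat_lit 456) (nat_lit 0) (XT.nd (nat_lit 78) (nat_lit 304) (nat_lit 0) (XT.lf (nat_lit 0) (nat_lit 20880252736) (nat_lit 304) (nat_lit 2099873954) (nat_lit 76) (nat_lit 4991588204) (nat_lit 87) (nat_lit 5) (nat_lit 91) (nat_lit 5) (nat_lit 88) (nat_lit 5) (nat_lit 498) (nat_lit 419) (nat_lit 283)) (XT.lf (nat_lit 0) (nat_lit 4510920668) (nat_lit 304) (nat_lit 3646895943) (nat_lit 76) (nat_lit 20345916478) (nat_lit 83) (nat_lit 5) (nat_lit 87) (nat_lit 5) (nat_lit 84) (nat_lit 5) (nat_lit 499) (nat_lit 419) (nat_lit 282))) (XT.nd (nat_lit 78) (nat_lit 228) (nat_lit 0) (XT.lf (nat_lit 0) (nat_lit 16566723002) (nat_lit 304) (nat_lit 5257579900) (nat_lit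 76) (nat_lit 7222437726) (nat_lit 80) (nat_lit 5) (nat_lit 84) (nat_lit 5) (nat_lit 81) (nat_lit 5) (nat_lit 500) (nat_lit 419) (nat_lit 281)) (XT.lf (nat_lit 0) (nat_lit 22708941306) (nat_lit 228) (nat_lit 6486868783) (nat_lit 304) (nat_lit 405996237) (nat_lit 77) (nat_lit 5) (nat_lit 80) (nat_lit 5) (nat_lit 81) (nat_lit 5) (nat_lit 501) (nat_lit 419) (nat_lit 280)))))) (XT.nd (nat_lit 56394) (nat_lit 0) (nat_lit 37316) (XT.nd (nat_lit 56082) (nat_lit 0) (nat_lit 40052) (XT.nd (nat_lit 78) (nat_lit 456) (nat_lit 0) (XT.lf (nat_lit 0) (nat_lit 12095489686) (nat_lit 304) (nat_lit 8638963691) (nat_lit 76) (nat_lit 9433048138) (nat_lit 73) (nat_lit 5) (nat_lit 77) (nat_lit 5) (nat_lit 74) (nat_lit 5) (nat_lit 502) (nat_lit 419) (nat_lit 279)) (XT.nd (nat_lit 78) (nat_lit 228) (nat_lit 0) (XT.lf (nat_lit 0) (nat_lit 20341677456) (nat_lit 228) (nat_lit 4832435492) (nat_lit 304) (nat_lit 5571848901) (nat_lit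 70) (nat_lit 5) (nat_lit 73) (nat_lit 5) (nat_lit 74) (nat_lit 5) (nat_lit 503) (nat_lit 419) (nat_lit 278)) (XT.lf (nat_lit 0) (nat_lit 7452471747) (nat_lit 228) (nat_lit 12267360415) (nat_lit 76) (nat_lit 11616096858) (nat_lit 67) (nat_lit 5) (nat_lit 70) (nat_lit 5) (nat_lit 68) (nat_lit 5) (nat_lit 504) (nat_lit 419) (nat_lit 277)))) (XT.nd (nat_lit 156) (nat_lit 0) (nat_lit 76) (XT.nd (nat_lit 78) (nat_lit 0) (nat_lit 0) (XT.lf (nat_lit 0) (nat_lit 10957993) (nat_lit 0) (nat_lit 10957993) (nat_lit 1444) (nat_lit 4047714927) (nat_lit 594) (nat_lit 5) (nat_lit 594) (nat_lit 3) (nat_lit 613) (nat_lit 3) (nat_lit 420) (nat_lit 420) (nat_lit 360)) (XT.lf (nat_lit 0) (nat_lit 1816578949) (nat_lit 1444) (nat_lit 2058044697) (nat_lit 1520) (nat_lit 4351224302) (nat_lit 594) (nat_lit 5) (nat_lit 613) (nat_lit 3) (nat_lit 614) (nat_lit 5) (nat_lit 421) (nat_lit 420) (nat_lit 359))) (XT.nd (nat_lit 78) (nat_lit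 0) (nat_lit 0) (XT.lf (nat_lit 0) (nat_lit 3606015477) (nat_lit 1444) (nat_lit 4117340487) (nat_lit 1520) (nat_lit 592407925) (nat_lit 595) (nat_lit 5) (nat_lit 614) (nat_lit 5) (nat_lit 615) (nat_lit 5) (nat_lit 422) (nat_lit 420) (nat_lit 358)) (XT.lf (nat_lit 76) (nat_lit 2229339437) (nat_lit 0) (nat_lit 3208347594) (nat_lit 1520) (nat_lit 2970921552) (nat_lit 596) (nat_lit 5) (nat_lit 595) (nat_lit 5) (nat_lit 615) (nat_lit 5) (nat_lit 423) (nat_lit 420) (nat_lit 357))))) (XT.nd (nat_lit 312) (nat_lit 1368) (nat_lit 0) (XT.nd (nat_lit 156) (nat_lit 0) (nat_lit 76) (XT.nd (nat_lit 78) (nat_lit 1520) (nat_lit 0) (XT.lf (nat_lit 76) (nat_lit 275737100) (nat_lit 0) (nat_lit 7023806543) (nat_lit 1520) (nat_lit 1205192521) (nat_lit 597) (nat_lit 5) (nat_lit 596) (nat_lit 5) (nat_lit 616) (nat_lit 5) (nat_lit 424) (nat_lit 420) (nat_lit 356)) (XT.lf (nat_lit 0) (nat_lit 606273920) (nat_lit 1520) (nat_lit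 1657308693) (nat_lit 1596) (nat_lit 6340071194) (nat_lit 576) (nat_lit 5) (nat_lit 596) (nat_lit 5) (nat_lit 597) (nat_lit 5) (nat_lit 425) (nat_lit 420) (nat_lit 355))) (XT.nd (nat_lit 78) (nat_lit 0) (nat_lit 0) (XT.lf (nat_lit 0) (nat_lit 2445743549) (nat_lit 1520) (nat_lit 3589254588) (nat_lit 1596) (nat_lit 2670582929) (nat_lit 577) (nat_lit 5) (nat_lit 597) (nat_lit 5) (nat_lit 598) (nat_lit 5) (nat_lit 426) (nat_lit 420) (nat_lit 354)) (XT.lf (nat_lit 76) (nat_lit 3296221868) (nat_lit 0) (nat_lit 1032748615) (nat_lit 1596) (nat_lit 4481826208) (nat_lit 578) (nat_lit 5) (nat_lit 577) (nat_lit 5) (nat_lit 598) (nat_lit 5) (nat_lit 427) (nat_lit 420) (nat_lit 353)))) (XT.nd (nat_lit 156) (nat_lit 1520) (nat_lit 0) (XT.nd (nat_lit 78) (nat_lit 0) (nat_lit 76) (XT.lf (nat_lit 76) (nat_lit 1473122267) (nat_lit 0) (nat_lit 4798720814) (nat_lit 1596) (nat_lit 2647264683) (nat_lit 579) (nat_lit 5) (nat_lit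 578) (nat_lit 5) (nat_lit 599) (nat_lit 5) (nat_lit 428) (nat_lit 420) (nat_lit 352)) (XT.lf (nat_lit 0) (nat_lit 8263882264) (nat_lit 1520) (nat_lit 332217461) (nat_lit 1596) (nat_lit 434752735) (nat_lit 579) (nat_lit 5) (nat_lit 599) (nat_lit 5) (nat_lit 600) (nat_lit 5) (nat_lit 429) (nat_lit 420) (nat_lit 351))) (XT.nd (nat_lit 78) (nat_lit 0) (nat_lit 76) (XT.lf (nat_lit 0) (nat_lit 1177742980) (nat_lit 1596) (nat_lit 2135835850) (nat_lit 1672) (nat_lit 5831753557) (nat_lit 558) (nat_lit 5) (nat_lit 579) (nat_lit 5) (nat_lit 580) (nat_lit 5) (nat_lit 430) (nat_lit 420) (nat_lit 350)) (XT.lf (nat_lit 0) (nat_lit 3168107948) (nat_lit 1596) (nat_lit 3937581282) (nat_lit 1672) (nat_lit 2157503233) (nat_lit 559) (nat_lit 5) (nat_lit 580) (nat_lit 5) (nat_lit 581) (nat_lit 5) (nat_lit 431) (nat_lit 420) (nat_lit 349))))))))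
noncomputable def xc61 : XT := (XT.nd (nat_lit 2262) (nat_lit 12464) (nat_lit 0) (XT.nd (nat_lit 1092) (nat_lit 9576) (nat_lit 0) (XT.nd (nat_lit 546) (nat_lit 6688) (nat_lit 0) (XT.nd (nat_lit 234) (nat_lit 4864) (nat_lit 0) (XT.nd (nat_lit 78) (nat_lit 0) (nat_lit 76) (XT.lf (nat_lit 76) (nat_lit 3643221183) (nat_lit 0) (nat_lit 1583299893) (nat_lit 1672) (nat_lit 4157902225) (nat_lit 560) (nat_lit 5) (nat_lit 559) (nat_lit 5) (nat_lit 581) (nat_lit 5) (nat_lit 432) (nat_lit 420) (nat_lit 348)) (XT.nd (nat_lit 78) (nat_lit 0) (nat_lit 76) (XT.lf (nat_lit 76) (nat_lit 1956796944) (nat_lit 0) (nat_lit 5405417256) (nat_lit 1672) (nat_lit 2146767963) (nat_lit 561) (nat_lit 5) (nat_lit 560) (nat_lit 5) (nat_lit 582) (nat_lit 5) (nat_lit 433) (nat_lit 420) (nat_lit 347)) (XT.lf (nat_lit 76) (nat_lit 279684301) (nat_lit 0) (nat_lit 9286371148) (nat_lit 1672) (nat_lit 71142403) (nat_lit 562) (nat_lit 5) (nat_lit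 561) (nat_lit 5) (nat_lit 583) (nat_lit 5) (nat_lit 434) (nat_lit 420) (nat_lit 346)))) (XT.nd (nat_lit 156) (nat_lit 3344) (nat_lit 0) (XT.nd (nat_lit 78) (nat_lit 0) (nat_lit 76) (XT.lf (nat_lit 0) (nat_lit 2078794460) (nat_lit 1672) (nat_lit 1407335851) (nat_lit 1748) (nat_lit 6282079886) (nat_lit 539) (nat_lit 5) (nat_lit 561) (nat_lit 5) (nat_lit 562) (nat_lit 5) (nat_lit 435) (nat_lit 420) (nat_lit 345)) (XT.lf (nat_lit 0) (nat_lit 4306038798) (nat_lit 1672) (nat_lit 3087169694) (nat_lit 76) (nat_lit 2509660980) (nat_lit 540) (nat_lit 5) (nat_lit 562) (nat_lit 5) (nat_lit 541) (nat_lit 5) (nat_lit 436) (nat_lit 420) (nat_lit 344))) (XT.nd (nat_lit 78) (nat_lit 1748) (nat_lit 0) (XT.lf (nat_lit 0) (nat_lit 5270761052) (nat_lit 1672) (nat_lit 1350557494) (nat_lit 1748) (nat_lit 3419827059) (nat_lit 518) (nat_lit 5) (nat_lit 540) (nat_lit 5) (nat_lit 541) (nat_lit 5) (nat_lit 437) (nat_lit 420) (nat_lit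 343)) (XT.lf (nat_lit 0) (nat_lit 3716878750) (nat_lit 1748) (nat_lit 5321232617) (nat_lit 1824) (nat_lit 1144818959) (nat_lit 495) (nat_lit 5) (nat_lit 518) (nat_lit 5) (nat_lit 519) (nat_lit 5) (nat_lit 438) (nat_lit 420) (nat_lit 342))))) (XT.nd (nat_lit 234) (nat_lit 3648) (nat_lit 0) (XT.nd (nat_lit 78) (nat_lit 1140) (nat_lit 0) (XT.lf (nat_lit 0) (nat_lit 1200687554) (nat_lit 1900) (nat_lit 8166341191) (nat_lit 76) (nat_lit 961426235) (nat_lit 470) (nat_lit 5) (nat_lit 495) (nat_lit 5) (nat_lit 471) (nat_lit 5) (nat_lit 439) (nat_lit 420) (nat_lit 341)) (XT.nd (nat_lit 78) (nat_lit 0) (nat_lit 0) (XT.lf (nat_lit 0) (nat_lit 585458491) (nat_lit 1140) (nat_lit 3056186112) (nat_lit 1216) (nat_lit 6835737940) (nat_lit 455) (nat_lit 5) (nat_lit 470) (nat_lit 5) (nat_lit 471) (nat_lit 5) (nat_lit 440) (nat_lit 420) (nat_lit 340)) (XT.lf (nat_lit 0) (nat_lit 6191979371) (nat_lit 1216) (nat_lit 979889584)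 (nat_lit 76) (nat_lit 3458187252) (nat_lit 455) (nat_lit 5) (nat_lit 471) (nat_lit 5) (nat_lit 456) (nat_lit 5) (nat_lit 441) (nat_lit 420) (nat_lit 339)))) (XT.nd (nat_lit 156) (nat_lit 1748) (nat_lit 0) (XT.nd (nat_lit 78) (nat_lit 988) (nat_lit 0) (XT.lf (nat_lit 0) (nat_lit 8249311825) (nat_lit 912) (nat_lit 602815492) (nat_lit 988) (nat_lit 1934517919) (nat_lit 443) (nat_lit 5) (nat_lit 455) (nat_lit 5) (nat_lit 456) (nat_lit 5) (nat_lit 442) (nat_lit 420) (nat_lit 338)) (XT.lf (nat_lit 0) (nat_lit 687362895) (nat_lit 988) (nat_lit 4119021264) (nat_lit 76) (nat_lit 6140432027) (nat_lit 430) (nat_lit 5) (nat_lit 443) (nat_lit 5) (nat_lit 431) (nat_lit 5) (nat_lit 443) (nat_lit 420) (nat_lit 337))) (XT.nd (nat_lit 78) (nat_lit 912) (nat_lit 0) (XT.lf (nat_lit 0) (nat_lit 3392375640) (nat_lit 912) (nat_lit 5711366099) (nat_lit 76) (nat_lit 2007180747) (nat_lit 419) (nat_lit 5) (nat_lit 431) (nat_lit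 5) (nat_lit 420) (nat_lit 5) (nat_lit 444) (nat_lit 420) (nat_lit 336)) (XT.lf (nat_lit 0) (nat_lit 3962118409) (nat_lit 912) (nat_lit 2264203484) (nat_lit 988) (nat_lit 5052675512) (nat_lit 407) (nat_lit 5) (nat_lit 419) (nat_lit 5) (nat_lit 420) (nat_lit 5) (nat_lit 445) (nat_lit 420) (nat_lit 335)))))) (XT.nd (nat_lit 546) (nat_lit 4712) (nat_lit 0) (XT.nd (nat_lit 234) (nat_lit 3116) (nat_lit 0) (XT.nd (nat_lit 78) (nat_lit 912) (nat_lit 0) (XT.lf (nat_lit 0) (nat_lit 2516024964) (nat_lit 836) (nat_lit 6678279633) (nat_lit 912) (nat_lit 2256830676) (nat_lit 396) (nat_lit 5) (nat_lit 407) (nat_lit 5) (nat_lit 408) (nat_lit 5) (nat_lit 446) (nat_lit 420) (nat_lit 334)) (XT.nd (nat_lit 78) (nat_lit 0) (nat_lit 0) (XT.lf (nat_lit 0) (nat_lit 652769746) (nat_lit 912) (nat_lit 10557405061) (nat_lit 76) (nat_lit 417421604) (nat_lit 384) (nat_lit 5) (nat_lit 396) (nat_lit 5) (nat_lit 385) (nat_lit 5) (nat_lit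 447) (nat_lit 420) (nat_lit 333)) (XT.lf (nat_lit 0) (nat_lit 3688879910) (nat_lit 912) (nat_lit 408616161) (nat_lit 76) (nat_lit 7710160274) (nat_lit 384) (nat_lit 5) (nat_lit 396) (nat_lit 5) (nat_lit 385) (nat_lit 5) (nat_lit 448) (nat_lit 420) (nat_lit 332)))) (XT.nd (nat_lit 156) (nat_lit 1596) (nat_lit 0) (XT.nd (nat_lit 78) (nat_lit 760) (nat_lit 0) (XT.lf (nat_lit 0) (nat_lit 6868440363) (nat_lit 836) (nat_lit 1873415946) (nat_lit 76) (nat_lit 3250215382) (nat_lit 374) (nat_lit 5) (nat_lit 385) (nat_lit 5) (nat_lit 375) (nat_lit 5) (nat_lit 449) (nat_lit 420) (nat_lit 331)) (XT.lf (nat_lit 0) (nat_lit 8836621227) (nat_lit 760) (nat_lit 1360235657) (nat_lit 836) (nat_lit 1984094152) (nat_lit 364) (nat_lit 5) (nat_lit 374) (nat_lit 5) (nat_lit 375) (nat_lit 5) (nat_lit 450) (nat_lit 420) (nat_lit 330))) (XT.nd (nat_lit 78) (nat_lit 760) (nat_lit 0) (XT.lf (nat_lit 0) (nat_lit 1302598396) (nat_lit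 836) (nat_lit 4843335551) (nat_lit 76) (nat_lit 6228014258) (nat_lit 353) (nat_lit 5) (nat_lit 364) (nat_lit 5) (nat_lit 354) (nat_lit 5) (nat_lit 451) (nat_lit 420) (nat_lit 329)) (XT.lf (nat_lit 0) (nat_lit 4710500587) (nat_lit 836) (nat_lit 6354239184) (nat_lit 76) (nat_lit 1506742777) (nat_lit 343) (nat_lit 5) (nat_lit 354) (nat_lit 5) (nat_lit 344) (nat_lit 5) (nat_lit 452) (nat_lit 420) (nat_lit 328))))) (XT.nd (nat_lit 312) (nat_lit 1900) (nat_lit 0) (XT.nd (nat_lit 156) (nat_lit 1444) (nat_lit 0) (XT.nd (nat_lit 78) (nat_lit 684) (nat_lit 0) (XT.lf (nat_lit 0) (nat_lit 4887314180) (nat_lit 684) (nat_lit 3407043980) (nat_lit 760) (nat_lit 4479111225) (nat_lit 334) (nat_lit 5) (nat_lit 343) (nat_lit 5) (nat_lit 344) (nat_lit 5) (nat_lit 453) (nat_lit 420) (nat_lit 327)) (XT.lf (nat_lit 0) (nat_lit 3552544619) (nat_lit 684) (nat_lit 8497200659) (nat_lit 760) (nat_lit 930491075) (nat_lit 325) (nat_lit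 5) (nat_lit 334) (nat_lit 5) (nat_lit 335) (nat_lit 5) (nat_lit 454) (nat_lit 420) (nat_lit 326))) (XT.nd (nat_lit 78) (nat_lit 684) (nat_lit 0) (XT.lf (nat_lit 0) (nat_lit 2201336622) (nat_lit 684) (nat_lit 547377989) (nat_lit 760) (nat_lit 10442941484) (nat_lit 315) (nat_lit 5) (nat_lit 324) (nat_lit 5) (nat_lit 325) (nat_lit 5) (nat_lit 455) (nat_lit 420) (nat_lit 325)) (XT.lf (nat_lit 0) (nat_lit 817720912) (nat_lit 684) (nat_lit 5796852223) (nat_lit 760) (nat_lit 6792944658) (nat_lit 306) (nat_lit 5) (nat_lit 315) (nat_lit 5) (nat_lit 316) (nat_lit 5) (nat_lit 456) (nat_lit 420) (nat_lit 324)))) (XT.nd (nat_lit 156) (nat_lit 1216) (nat_lit 0) (XT.nd (nat_lit 78) (nat_lit 684) (nat_lit 0) (XT.lf (nat_lit 0) (nat_lit 10660664815) (nat_lit 760) (nat_lit 554328997) (nat_lit 76) (nat_lit 2413577105) (nat_lit 306) (nat_lit 5) (nat_lit 316) (nat_lit 5) (nat_lit 307) (nat_lit 5) (nat_lit 457) (nat_lit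 420) (nat_lit 323)) (XT.lf (nat_lit 0) (nat_lit 1046992326) (nat_lit 684) (nat_lit 1937347855) (nat_lit 76) (nat_lit 10870032836) (nat_lit 297) (nat_lit 5) (nat_lit 306) (nat_lit 5) (nat_lit 298) (nat_lit 5) (nat_lit 458) (nat_lit 420) (nat_lit 322))) (XT.nd (nat_lit 78) (nat_lit 608) (nat_lit 0) (XT.lf (nat_lit 0) (nat_lit 5223703710) (nat_lit 684) (nat_lit 3352859590) (nat_lit 76) (nat_lit 5508360425) (nat_lit 289) (nat_lit 5) (nat_lit 298) (nat_lit 5) (nat_lit 290) (nat_lit 5) (nat_lit 459) (nat_lit 420) (nat_lit 321)) (XT.lf (nat_lit 0) (nat_lit 9555723685) (nat_lit 608) (nat_lit 37281937) (nat_lit 684) (nat_lit 4728040197) (nat_lit 281) (nat_lit 5) (nat_lit 289) (nat_lit 5) (nat_lit 290) (nat_lit 5) (nat_lit 460) (nat_lit 420) (nat_lit 320))))))) (XT.nd (nat_lit 1170) (nat_lit 5244) (nat_lit 0) (XT.nd (nat_lit 546) (nat_lit 3268) (nat_lit 0) (XT.nd (nat_lit 234) (nat_lit 2128) (nat_lit 0) (XT.nd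 (nat_lit 78) (nat_lit 1216) (nat_lit 0) (XT.lf (nat_lit 0) (nat_lit 8350741156) (nat_lit 608) (nat_lit 5849210145) (nat_lit 684) (nat_lit 362169609) (nat_lit 273) (nat_lit 5) (nat_lit 281) (nat_lit 5) (nat_lit 282) (nat_lit 5) (nat_lit 461) (nat_lit 420) (nat_lit 319)) (XT.nd (nat_lit 78) (nat_lit 608) (nat_lit 0) (XT.lf (nat_lit 0) (nat_lit 4152183308) (nat_lit 608) (nat_lit 7681474406) (nat_lit 76) (nat_lit 2974799574) (nat_lit 265) (nat_lit 5) (nat_lit 273) (nat_lit 5) (nat_lit 266) (nat_lit 5) (nat_lit 462) (nat_lit 420) (nat_lit 318)) (XT.lf (nat_lit 0) (nat_lit 5889484478) (nat_lit 608) (nat_lit 3000826685) (nat_lit 684) (nat_lit 6169960000) (nat_lit 257) (nat_lit 5) (nat_lit 265) (nat_lit 5) (nat_lit 266) (nat_lit 5) (nat_lit 463) (nat_lit 420) (nat_lit 317)))) (XT.nd (nat_lit 156) (nat_lit 988) (nat_lit 0) (XT.nd (nat_lit 78) (nat_lit 608) (nat_lit 0) (XT.lf (nat_lit 0) (nat_lit 4640032684)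 (nat_lit 532) (nat_lit 9226663179) (nat_lit 608) (nat_lit 1451021896) (nat_lit 250) (nat_lit 5) (nat_lit 257) (nat_lit 5) (nat_lit 258) (nat_lit 5) (nat_lit 464) (nat_lit 420) (nat_lit 316)) (XT.lf (nat_lit 0) (nat_lit 3375939074) (nat_lit 532) (nat_lit 67740359) (nat_lit 608) (nat_lit 12137187901) (nat_lit 242) (nat_lit 5) (nat_lit 249) (nat_lit 5) (nat_lit 250) (nat_lit 5) (nat_lit 465) (nat_lit 420) (nat_lit 315))) (XT.nd (nat_lit 78) (nat_lit 532) (nat_lit 0) (XT.lf (nat_lit 0) (nat_lit 2068336297) (nat_lit 456) (nat_lit 6519191591) (nat_lit 532) (nat_lit 7261751812) (nat_lit 236) (nat_lit 5) (nat_lit 242) (nat_lit 5) (nat_lit 243) (nat_lit 5) (nat_lit 466) (nat_lit 420) (nat_lit 314)) (XT.lf (nat_lit 0) (nat_lit 768601462) (nat_lit 532) (nat_lit 13199786580) (nat_lit 608) (nat_lit 2155702975) (nat_lit 229) (nat_lit 5) (nat_lit 236) (nat_lit 5) (nat_lit 237) (nat_lit 5) (nat_lit 467) (nat_lit 420)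 (nat_lit 313))))) (XT.nd (nat_lit 312) (nat_lit 1748) (nat_lit 0) (XT.nd (nat_lit 156) (nat_lit 988) (nat_lit 0) (XT.nd (nat_lit 78) (nat_lit 456) (nat_lit 0) (XT.lf (nat_lit 0) (nat_lit 3176045793) (nat_lit 608) (nat_lit 560673037) (nat_lit 76) (nat_lit 12667760886) (nat_lit 228) (nat_lit 5) (nat_lit 236) (nat_lit 5) (nat_lit 229) (nat_lit 5) (nat_lit 468) (nat_lit 420) (nat_lit 312)) (XT.lf (nat_lit 0) (nat_lit 8750903683) (nat_lit 532) (nat_lit 1906531088) (nat_lit 76) (nat_lit 6033311906) (nat_lit 222) (nat_lit 5) (nat_lit 229) (nat_lit 5) (nat_lit 223) (nat_lit 5) (nat_lit 469) (nat_lit 420) (nat_lit 311))) (XT.nd (nat_lit 78) (nat_lit 532) (nat_lit 0) (XT.lf (nat_lit 0) (nat_lit 13733543318) (nat_lit 456) (nat_lit 854191977) (nat_lit 532) (nat_lit 2395972247) (nat_lit 216) (nat_lit 5) (nat_lit 222) (nat_lit 5) (nat_lit 223) (nat_lit 5) (nat_lit 470) (nat_lit 420) (nat_lit 310)) (XT.lf (nat_lit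 0) (nat_lit 3403965365) (nat_lit 532) (nat_lit 4648606448) (nat_lit 76) (nat_lit 9229791145) (nat_lit 209) (nat_lit 5) (nat_lit 216) (nat_lit 5) (nat_lit 210) (nat_lit 5) (nat_lit 471) (nat_lit 420) (nat_lit 309)))) (XT.nd (nat_lit 156) (nat_lit 912) (nat_lit 0) (XT.nd (nat_lit 78) (nat_lit 380) (nat_lit 0) (XT.lf (nat_lit 0) (nat_lit 9439600537) (nat_lit 532) (nat_lit 6055904154) (nat_lit 76) (nat_lit 2092271991) (nat_lit 203) (nat_lit 5) (nat_lit 210) (nat_lit 5) (nat_lit 204) (nat_lit 5) (nat_lit 472) (nat_lit 420) (nat_lit 308)) (XT.lf (nat_lit 0) (nat_lit 10409513281) (nat_lit 380) (nat_lit 5377773216) (nat_lit 456) (nat_lit 2112447095) (nat_lit 198) (nat_lit 5) (nat_lit 203) (nat_lit 5) (nat_lit 204) (nat_lit 5) (nat_lit 473) (nat_lit 420) (nat_lit 307))) (XT.nd (nat_lit 78) (nat_lit 380) (nat_lit 0) (XT.lf (nat_lit 0) (nat_lit 4163832848) (nat_lit 532) (nat_lit 8958300007) (nat_lit 76) (nat_lit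 5096117611) (nat_lit 191) (nat_lit 5) (nat_lit 198) (nat_lit 5) (nat_lit 192) (nat_lit 5) (nat_lit 474) (nat_lit 420) (nat_lit 306)) (XT.lf (nat_lit 0) (nat_lit 8093343600) (nat_lit 380) (nat_lit 2624615979) (nat_lit 456) (nat_lit 7825719212) (nat_lit 186) (nat_lit 5) (nat_lit 191) (nat_lit 5) (nat_lit 192) (nat_lit 5) (nat_lit 475) (nat_lit 420) (nat_lit 305)))))) (XT.nd (nat_lit 546) (nat_lit 2812) (nat_lit 0) (XT.nd (nat_lit 234) (nat_lit 1216) (nat_lit 0) (XT.nd (nat_lit 78) (nat_lit 836) (nat_lit 0) (XT.lf (nat_lit 0) (nat_lit 6906468091) (nat_lit 380) (nat_lit 10700193764) (nat_lit 456) (nat_lit 1269449444) (nat_lit 181) (nat_lit 5) (nat_lit 186) (nat_lit 5) (nat_lit 187) (nat_lit 5) (nat_lit 476) (nat_lit 420) (nat_lit 304)) (XT.nd (nat_lit 78) (nat_lit 380) (nat_lit 0) (XT.lf (nat_lit 0) (nat_lit 5517733301) (nat_lit 456) (nat_lit 13517658085) (nat_lit 76) (nat_lit 180290849) (nat_lit 175) (nat_lit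 5) (nat_lit 181) (nat_lit 5) (nat_lit 176) (nat_lit 5) (nat_lit 477) (nat_lit 420) (nat_lit 303)) (XT.lf (nat_lit 0) (nat_lit 4441783741) (nat_lit 380) (nat_lit 8211094315) (nat_lit 456) (nat_lit 6909162894) (nat_lit 170) (nat_lit 5) (nat_lit 175) (nat_lit 5) (nat_lit 176) (nat_lit 5) (nat_lit 478) (nat_lit 420) (nat_lit 302)))) (XT.nd (nat_lit 156) (nat_lit 380) (nat_lit 0) (XT.nd (nat_lit 78) (nat_lit 380) (nat_lit 0) (XT.lf (nat_lit 0) (nat_lit 194762704) (nat_lit 456) (nat_lit 16718933056) (nat_lit 76) (nat_lit 3002832806) (nat_lit 164) (nat_lit 5) (nat_lit 170) (nat_lit 5) (nat_lit 165) (nat_lit 5) (nat_lit 479) (nat_lit 420) (nat_lit 301)) (XT.lf (nat_lit 0) (nat_lit 1884058323) (nat_lit 380) (nat_lit 5684729895) (nat_lit 456) (nat_lit 12708932503) (nat_lit 159) (nat_lit 5) (nat_lit 164) (nat_lit 5) (nat_lit 165) (nat_lit 5) (nat_lit 480) (nat_lit 420) (nat_lit 300))) (XT.nd (nat_lit 78) (nat_lit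 76) (nat_lit 0) (XT.lf (nat_lit 0) (nat_lit 563948827) (nat_lit 304) (nat_lit 14736317871) (nat_lit 380) (nat_lit 5346757602) (nat_lit 155) (nat_lit 5) (nat_lit 159) (nat_lit 5) (nat_lit 160) (nat_lit 5) (nat_lit 481) (nat_lit 420) (nat_lit 299)) (XT.lf (nat_lit 0) (nat_lit 2351026280) (nat_lit 380) (nat_lit 766987747) (nat_lit 76) (nat_lit 17906221400) (nat_lit 154) (nat_lit 5) (nat_lit 159) (nat_lit 5) (nat_lit 155) (nat_lit 5) (nat_lit 482) (nat_lit 420) (nat_lit 298))))) (XT.nd (nat_lit 312) (nat_lit 1368) (nat_lit 0) (XT.nd (nat_lit 156) (nat_lit 760) (nat_lit 0) (XT.nd (nat_lit 78) (nat_lit 304) (nat_lit 0) (XT.lf (nat_lit 0) (nat_lit 10372533952) (nat_lit 456) (nat_lit 2152081655) (nat_lit 76) (nat_lit 8884132085) (nat_lit 149) (nat_lit 5) (nat_lit 155) (nat_lit 5) (nat_lit 150) (nat_lit 5) (nat_lit 483) (nat_lit 420) (nat_lit 297)) (XT.lf (nat_lit 0) (nat_lit 18275948922) (nat_lit 304) (nat_lit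 484923335) (nat_lit 380) (nat_lit 3041399630) (nat_lit 145) (nat_lit 5) (nat_lit 149) (nat_lit 5) (nat_lit 150) (nat_lit 5) (nat_lit 484) (nat_lit 420) (nat_lit 296))) (XT.nd (nat_lit 78) (nat_lit 304) (nat_lit 0) (XT.lf (nat_lit 0) (nat_lit 5312199320) (nat_lit 456) (nat_lit 4980487981) (nat_lit 76) (nat_lit 11910499387) (nat_lit 139) (nat_lit 5) (nat_lit 145) (nat_lit 5) (nat_lit 140) (nat_lit 5) (nat_lit 485) (nat_lit 420) (nat_lit 295)) (XT.lf (nat_lit 0) (nat_lit 14003915970) (nat_lit 380) (nat_lit 6441611285) (nat_lit 76) (nat_lit 2167623248) (nat_lit 135) (nat_lit 5) (nat_lit 140) (nat_lit 5) (nat_lit 136) (nat_lit 5) (nat_lit 486) (nat_lit 420) (nat_lit 294)))) (XT.nd (nat_lit 156) (nat_lit 684) (nat_lit 0) (XT.nd (nat_lit 78) (nat_lit 304) (nat_lit 0) (XT.lf (nat_lit 0) (nat_lit 106220538) (nat_lit 380) (nat_lit 7941093591) (nat_lit 76) (nat_lit 14984425341) (nat_lit 130) (nat_lit 5) (nat_lit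 135) (nat_lit 5) (nat_lit 131) (nat_lit 5) (nat_lit 487) (nat_lit 420) (nat_lit 293)) (XT.lf (nat_lit 0) (nat_lit 9115918854) (nat_lit 380) (nat_lit 9499417750) (nat_lit 76) (nat_lit 4843416687) (nat_lit 126) (nat_lit 5) (nat_lit 131) (nat_lit 5) (nat_lit 127) (nat_lit 5) (nat_lit 488) (nat_lit 420) (nat_lit 292))) (XT.nd (nat_lit 78) (nat_lit 380) (nat_lit 0) (XT.lf (nat_lit 0) (nat_lit 12813208760) (nat_lit 304) (nat_lit 5756560459) (nat_lit 380) (nat_lit 5325331312) (nat_lit 122) (nat_lit 5) (nat_lit 126) (nat_lit 5) (nat_lit 127) (nat_lit 5) (nat_lit 489) (nat_lit 420) (nat_lit 291)) (XT.lf (nat_lit 0) (nat_lit 4083900649) (nat_lit 380) (nat_lit 12710571464) (nat_lit 76) (nat_lit 7546088215) (nat_lit 117) (nat_lit 5) (nat_lit 122) (nat_lit 5) (nat_lit 118) (nat_lit 5) (nat_lit 490) (nat_lit 420) (nat_lit 290))))))))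
noncomputable def xc62 : XT := (XT.nd (nat_lit 58110) (nat_lit 0) (nat_lit 14440) (XT.nd (nat_lit 1092) (nat_lit 228) (nat_lit 0) (XT.nd (nat_lit 546) (nat_lit 1596) (nat_lit 0) (XT.nd (nat_lit 234) (nat_lit 1064) (nat_lit 0) (XT.nd (nat_lit 78) (nat_lit 608) (nat_lit 0) (XT.lf (nat_lit 0) (nat_lit 10410759472) (nat_lit 304) (nat_lit 3457532631) (nat_lit 380) (nat_lit 10927083359) (nat_lit 113) (nat_lit 5) (nat_lit 117) (nat_lit 5) (nat_lit 118) (nat_lit 5) (nat_lit 491) (nat_lit 420) (nat_lit 289)) (XT.nd (nat_lit 78) (nat_lit 380) (nat_lit 0) (XT.lf (nat_lit 0) (nat_lit 9162449433) (nat_lit 228) (nat_lit 14980074025) (nat_lit 304) (nat_lit 1117385630) (nat_lit 110) (nat_lit 5) (nat_lit 113) (nat_lit 5) (nat_lit 114) (nat_lit 5) (nat_lit 492) (nat_lit 420) (nat_lit 288)) (XT.lf (nat_lit 0) (nat_lit 7869722534) (nat_lit 304) (nat_lit 1154931116) (nat_lit 380) (nat_lit 16709440095) (nat_lit 105) (nat_lit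 5) (nat_lit 109) (nat_lit 5) (nat_lit 110) (nat_lit 5) (nat_lit 493) (nat_lit 420) (nat_lit 287)))) (XT.nd (nat_lit 156) (nat_lit 456) (nat_lit 0) (XT.nd (nat_lit 78) (nat_lit 380) (nat_lit 0) (XT.lf (nat_lit 0) (nat_lit 6520740370) (nat_lit 228) (nat_lit 13156018644) (nat_lit 304) (nat_lit 6541177682) (nat_lit 102) (nat_lit 5) (nat_lit 105) (nat_lit 5) (nat_lit 106) (nat_lit 5) (nat_lit 494) (nat_lit 420) (nat_lit 286)) (XT.lf (nat_lit 0) (nat_lit 4035176463) (nat_lit 380) (nat_lit 21545752673) (nat_lit 76) (nat_lit 1131763087) (nat_lit 97) (nat_lit 5) (nat_lit 102) (nat_lit 5) (nat_lit 98) (nat_lit 5) (nat_lit 495) (nat_lit 420) (nat_lit 285))) (XT.nd (nat_lit 78) (nat_lit 228) (nat_lit 0) (XT.lf (nat_lit 0) (nat_lit 3715989326) (nat_lit 228) (nat_lit 11355146061) (nat_lit 304) (nat_lit 12145666795) (nat_lit 94) (nat_lit 5) (nat_lit 97) (nat_lit 5) (nat_lit 98) (nat_lit 5) (nat_lit 496) (nat_lit 420)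 (nat_lit 284)) (XT.lf (nat_lit 0) (nat_lit 2277956845) (nat_lit 228) (nat_lit 24327808181) (nat_lit 304) (nat_lit 1126918743) (nat_lit 91) (nat_lit 5) (nat_lit 94) (nat_lit 5) (nat_lit 95) (nat_lit 5) (nat_lit 497) (nat_lit 420) (nat_lit 283))))) (XT.nd (nat_lit 234) (nat_lit 988) (nat_lit 0) (XT.nd (nat_lit 78) (nat_lit 304) (nat_lit 0) (XT.lf (nat_lit 0) (nat_lit 730432616) (nat_lit 228) (nat_lit 9583478943) (nat_lit 304) (nat_lit 17944291226) (nat_lit 87) (nat_lit 5) (nat_lit 90) (nat_lit 5) (nat_lit 91) (nat_lit 5) (nat_lit 498) (nat_lit 420) (nat_lit 282)) (XT.nd (nat_lit 78) (nat_lit 304) (nat_lit 0) (XT.lf (nat_lit 0) (nat_lit 22277565636) (nat_lit 304) (nat_lit 818018024) (nat_lit 76) (nat_lit 5699856705) (nat_lit 87) (nat_lit 5) (nat_lit 91) (nat_lit 5) (nat_lit 88) (nat_lit 5) (nat_lit 499) (nat_lit 420) (nat_lit 281)) (XT.lf (nat_lit 0) (nat_lit 5408311127) (nat_lit 304) (nat_lit 2423134395)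 (nat_lit 76) (nat_lit 21512150812) (nat_lit 83) (nat_lit 5) (nat_lit 87) (nat_lit 5) (nat_lit 84) (nat_lit 5) (nat_lit 500) (nat_lit 420) (nat_lit 280)))) (XT.nd (nat_lit 156) (nat_lit 456) (nat_lit 0) (XT.nd (nat_lit 78) (nat_lit 304) (nat_lit 0) (XT.lf (nat_lit 0) (nat_lit 17815763299) (nat_lit 304) (nat_lit 4092449415) (nat_lit 76) (nat_lit 7994882087) (nat_lit 80) (nat_lit 5) (nat_lit 84) (nat_lit 5) (nat_lit 81) (nat_lit 5) (nat_lit 501) (nat_lit 420) (nat_lit 279)) (XT.lf (nat_lit 0) (nat_lit 330790681) (nat_lit 304) (nat_lit 5785652398) (nat_lit 76) (nat_lit 24358595168) (nat_lit 76) (nat_lit 5) (nat_lit 80) (nat_lit 5) (nat_lit 77) (nat_lit 5) (nat_lit 502) (nat_lit 420) (nat_lit 278))) (XT.nd (nat_lit 78) (nat_lit 228) (nat_lit 0) (XT.lf (nat_lit 0) (nat_lit 13192192133) (nat_lit 304) (nat_lit 7597146972) (nat_lit 76) (nat_lit 10268503978) (nat_lit 73) (nat_lit 5) (nat_lit 77) (nat_lit 5) (nat_lit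 74) (nat_lit 5) (nat_lit 503) (nat_lit 420) (nat_lit 277)) (XT.lf (nat_lit 0) (nat_lit 22231806463) (nat_lit 228) (nat_lit 4418303537) (nat_lit 304) (nat_lit 5003808706) (nat_lit 70) (nat_lit 5) (nat_lit 73) (nat_lit 5) (nat_lit 74) (nat_lit 5) (nat_lit 504) (nat_lit 420) (nat_lit 276)))))) (XT.nd (nat_lit 56394) (nat_lit 0) (nat_lit 35796) (XT.nd (nat_lit 56082) (nat_lit 0) (nat_lit 38608) (XT.nd (nat_lit 55926) (nat_lit 0) (nat_lit 40052) (XT.lf (nat_lit 0) (nat_lit 8392312935) (nat_lit 228) (nat_lit 11356125200) (nat_lit 76) (nat_lit 12513237203) (nat_lit 67) (nat_lit 5) (nat_lit 70) (nat_lit 5) (nat_lit 68) (nat_lit 5) (nat_lit 505) (nat_lit 420) (nat_lit 275)) (XT.nd (nat_lit 78) (nat_lit 0) (nat_lit 0) (XT.lf (nat_lit 0) (nat_lit 874638626) (nat_lit 0) (nat_lit 874638626) (nat_lit 1444) (nat_lit 2407848082) (nat_lit 594) (nat_lit 5) (nat_lit 594) (nat_lit 3) (nat_lit 613) (nat_lit 3) (nat_lit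 421) (nat_lit 421) (nat_lit 358)) (XT.lf (nat_lit 0) (nat_lit 5213014827) (nat_lit 1444) (nat_lit 365316421) (nat_lit 1520) (nat_lit 2827336026) (nat_lit 594) (nat_lit 5) (nat_lit 613) (nat_lit 3) (nat_lit 614) (nat_lit 5) (nat_lit 422) (nat_lit 421) (nat_lit 357)))) (XT.nd (nat_lit 156) (nat_lit 0) (nat_lit 76) (XT.nd (nat_lit 78) (nat_lit 1444) (nat_lit 0) (XT.lf (nat_lit 76) (nat_lit 6054476167) (nat_lit 0) (nat_lit 911512298) (nat_lit 1520) (nat_lit 1534098567) (nat_lit 595) (nat_lit 5) (nat_lit 594) (nat_lit 5) (nat_lit 614) (nat_lit 5) (nat_lit 423) (nat_lit 421) (nat_lit 356)) (XT.lf (nat_lit 0) (nat_lit 163978006) (nat_lit 1520) (nat_lit 4530412469) (nat_lit 1596) (nat_lit 3903087403) (nat_lit 575) (nat_lit 5) (nat_lit 595) (nat_lit 5) (nat_lit 596) (nat_lit 5) (nat_lit 424) (nat_lit 421) (nat_lit 355))) (XT.nd (nat_lit 78) (nat_lit 0) (nat_lit 0) (XT.lf (nat_lit 0) (nat_lit 1869124350) (nat_lit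 1520) (nat_lit 6612162055) (nat_lit 1596) (nat_lit 216763915) (nat_lit 576) (nat_lit 5) (nat_lit 596) (nat_lit 5) (nat_lit 597) (nat_lit 5) (nat_lit 425) (nat_lit 421) (nat_lit 354)) (XT.lf (nat_lit 76) (nat_lit 95828194) (nat_lit 0) (nat_lit 3533326163) (nat_lit 1596) (nat_lit 5172413007) (nat_lit 577) (nat_lit 5) (nat_lit 576) (nat_lit 5) (nat_lit 597) (nat_lit 5) (nat_lit 426) (nat_lit 421) (nat_lit 353))))) (XT.nd (nat_lit 312) (nat_lit 1444) (nat_lit 0) (XT.nd (nat_lit 156) (nat_lit 1520) (nat_lit 0) (XT.nd (nat_lit 78) (nat_lit 0) (nat_lit 0) (XT.lf (nat_lit 0) (nat_lit 5439692481) (nat_lit 1520) (nat_lit 1858397215) (nat_lit 1596) (nat_lit 1610148033) (nat_lit 577) (nat_lit 5) (nat_lit 597) (nat_lit 5) (nat_lit 598) (nat_lit 5) (nat_lit 427) (nat_lit 421) (nat_lit 352)) (XT.lf (nat_lit 76) (nat_lit 5203815488) (nat_lit 0) (nat_lit 2102278722) (nat_lit 1596) (nat_lit 1711984945) (nat_lit 578)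 (nat_lit 5) (nat_lit 577) (nat_lit 5) (nat_lit 598) (nat_lit 5) (nat_lit 428) (nat_lit 421) (nat_lit 351))) (XT.nd (nat_lit 78) (nat_lit 0) (nat_lit 0) (XT.lf (nat_lit 0) (nat_lit 97251798) (nat_lit 1596) (nat_lit 5772404173) (nat_lit 1672) (nat_lit 3261523921) (nat_lit 557) (nat_lit 5) (nat_lit 578) (nat_lit 5) (nat_lit 579) (nat_lit 5) (nat_lit 429) (nat_lit 421) (nat_lit 350)) (XT.lf (nat_lit 76) (nat_lit 1510239482) (nat_lit 0) (nat_lit 423946432) (nat_lit 1672) (nat_lit 7313329577) (nat_lit 558) (nat_lit 5) (nat_lit 557) (nat_lit 5) (nat_lit 579) (nat_lit 5) (nat_lit 430) (nat_lit 421) (nat_lit 349)))) (XT.nd (nat_lit 156) (nat_lit 1520) (nat_lit 0) (XT.nd (nat_lit 78) (nat_lit 0) (nat_lit 76) (XT.lf (nat_lit 0) (nat_lit 3847364663) (nat_lit 1596) (nat_lit 346622535) (nat_lit 1672) (nat_lit 5172932933) (nat_lit 558) (nat_lit 5) (nat_lit 579) (nat_lit 5) (nat_lit 580) (nat_lit 5) (nat_lit 431) (nat_lit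 421) (nat_lit 348)) (XT.lf (nat_lit 0) (nat_lit 5827706575) (nat_lit 1596) (nat_lit 2176171118) (nat_lit 1672) (nat_lit 1485835513) (nat_lit 559) (nat_lit 5) (nat_lit 580) (nat_lit 5) (nat_lit 581) (nat_lit 5) (nat_lit 432) (nat_lit 421) (nat_lit 347))) (XT.nd (nat_lit 78) (nat_lit 1596) (nat_lit 0) (XT.lf (nat_lit 76) (nat_lit 5601562156) (nat_lit 0) (nat_lit 2283619374) (nat_lit 1672) (nat_lit 1730655694) (nat_lit 560) (nat_lit 5) (nat_lit 559) (nat_lit 5) (nat_lit 581) (nat_lit 5) (nat_lit 433) (nat_lit 421) (nat_lit 346)) (XT.lf (nat_lit 0) (nat_lit 271083824) (nat_lit 1672) (nat_lit 5859193140) (nat_lit 1748) (nat_lit 3615119139) (nat_lit 538) (nat_lit 5) (nat_lit 560) (nat_lit 5) (nat_lit 561) (nat_lit 5) (nat_lit 434) (nat_lit 421) (nat_lit 345))))))) (XT.nd (nat_lit 1170) (nat_lit 8892) (nat_lit 0) (XT.nd (nat_lit 546) (nat_lit 6156) (nat_lit 0) (XT.nd (nat_lit 234) (nat_lit 6308) (nat_lit 0)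 (XT.nd (nat_lit 78) (nat_lit 0) (nat_lit 76) (XT.lf (nat_lit 76) (nat_lit 2165273392) (nat_lit 0) (nat_lit 154006825) (nat_lit 1748) (nat_lit 7559135873) (nat_lit 539) (nat_lit 5) (nat_lit 538) (nat_lit 5) (nat_lit 561) (nat_lit 5) (nat_lit 435) (nat_lit 421) (nat_lit 344)) (XT.nd (nat_lit 78) (nat_lit 0) (nat_lit 76) (XT.lf (nat_lit 76) (nat_lit 425559747) (nat_lit 0) (nat_lit 4039328496) (nat_lit 1748) (nat_lit 5549820557) (nat_lit 540) (nat_lit 5) (nat_lit 539) (nat_lit 5) (nat_lit 562) (nat_lit 5) (nat_lit 436) (nat_lit 421) (nat_lit 343)) (XT.lf (nat_lit 0) (nat_lit 6697760697) (nat_lit 1672) (nat_lit 1292437709) (nat_lit 76) (nat_lit 2164435362) (nat_lit 540) (nat_lit 5) (nat_lit 562) (nat_lit 5) (nat_lit 541) (nat_lit 5) (nat_lit 437) (nat_lit 421) (nat_lit 342)))) (XT.nd (nat_lit 156) (nat_lit 2964) (nat_lit 0) (XT.nd (nat_lit 78) (nat_lit 1824) (nat_lit 0) (XT.lf (nat_lit 0) (nat_lit 7285610995)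 (nat_lit 1672) (nat_lit 1743043701) (nat_lit 1748) (nat_lit 1269482438) (nat_lit 518) (nat_lit 5) (nat_lit 540) (nat_lit 5) (nat_lit 541) (nat_lit 5) (nat_lit 438) (nat_lit 421) (nat_lit 341)) (XT.lf (nat_lit 0) (nat_lit 1004938027) (nat_lit 1824) (nat_lit 4751114471) (nat_lit 76) (nat_lit 4689080537) (nat_lit 494) (nat_lit 5) (nat_lit 518) (nat_lit 5) (nat_lit 495) (nat_lit 5) (nat_lit 439) (nat_lit 421) (nat_lit 340))) (XT.nd (nat_lit 78) (nat_lit 1140) (nat_lit 0) (XT.lf (nat_lit 0) (nat_lit 3352719627) (nat_lit 1900) (nat_lit 6496893426) (nat_lit 76) (nat_lit 746311671) (nat_lit 470) (nat_lit 5) (nat_lit 495) (nat_lit 5) (nat_lit 471) (nat_lit 5) (nat_lit 440) (nat_lit 421) (nat_lit 339)) (XT.lf (nat_lit 0) (nat_lit 2486400764) (nat_lit 1140) (nat_lit 3331101364) (nat_lit 1216) (nat_lit 4932807906) (nat_lit 455) (nat_lit 5) (nat_lit 470) (nat_lit 5) (nat_lit 471) (nat_lit 5) (nat_lit 441) (nat_lit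 421) (nat_lit 338))))) (XT.nd (nat_lit 312) (nat_lit 3420) (nat_lit 0) (XT.nd (nat_lit 156) (nat_lit 1748) (nat_lit 0) (XT.nd (nat_lit 78) (nat_lit 76) (nat_lit 0) (XT.lf (nat_lit 0) (nat_lit 872016550) (nat_lit 912) (nat_lit 7516644628) (nat_lit 988) (nat_lit 2520018244) (nat_lit 443) (nat_lit 5) (nat_lit 455) (nat_lit 5) (nat_lit 456) (nat_lit 5) (nat_lit 442) (nat_lit 421) (nat_lit 337)) (XT.lf (nat_lit 0) (nat_lit 5407437) (nat_lit 988) (nat_lit 734724934) (nat_lit 76) (nat_lit 10330877267) (nat_lit 442) (nat_lit 5) (nat_lit 455) (nat_lit 5) (nat_lit 443) (nat_lit 5) (nat_lit 443) (nat_lit 421) (nat_lit 336))) (XT.nd (nat_lit 78) (nat_lit 836) (nat_lit 0) (XT.lf (nat_lit 0) (nat_lit 2633708026) (nat_lit 988) (nat_lit 2367899425) (nat_lit 76) (nat_lit 6235043268) (nat_lit 430) (nat_lit 5) (nat_lit 443) (nat_lit 5) (nat_lit 431) (nat_lit 5) (nat_lit 444) (nat_lit 421) (nat_lit 335)) (XT.lf (nat_lit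 0) (nat_lit 5375513992) (nat_lit 912) (nat_lit 4000500841) (nat_lit 76) (nat_lit 2030554135) (nat_lit 419) (nat_lit 5) (nat_lit 431) (nat_lit 5) (nat_lit 420) (nat_lit 5) (nat_lit 445) (nat_lit 421) (nat_lit 334)))) (XT.nd (nat_lit 156) (nat_lit 1672) (nat_lit 0) (XT.nd (nat_lit 78) (nat_lit 836) (nat_lit 0) (XT.lf (nat_lit 0) (nat_lit 5932651642) (nat_lit 912) (nat_lit 2319052158) (nat_lit 988) (nat_lit 3328839399) (nat_lit 407) (nat_lit 5) (nat_lit 419) (nat_lit 5) (nat_lit 420) (nat_lit 5) (nat_lit 446) (nat_lit 421) (nat_lit 333)) (XT.lf (nat_lit 0) (nat_lit 4449277423) (nat_lit 836) (nat_lit 6818041652) (nat_lit 912) (nat_lit 491355789) (nat_lit 396) (nat_lit 5) (nat_lit 407) (nat_lit 5) (nat_lit 408) (nat_lit 5) (nat_lit 447) (nat_lit 421) (nat_lit 332))) (XT.nd (nat_lit 78) (nat_lit 760) (nat_lit 0) (XT.lf (nat_lit 0) (nat_lit 2441354963) (nat_lit 912) (nat_lit 8987914704) (nat_lit 76) (nat_lit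 511726277) (nat_lit 384) (nat_lit 5) (nat_lit 396) (nat_lit 5) (nat_lit 385) (nat_lit 5) (nat_lit 448) (nat_lit 421) (nat_lit 331)) (XT.lf (nat_lit 0) (nat_lit 1429143102) (nat_lit 760) (nat_lit 4097159942) (nat_lit 836) (nat_lit 6601000949) (nat_lit 374) (nat_lit 5) (nat_lit 384) (nat_lit 5) (nat_lit 385) (nat_lit 5) (nat_lit 449) (nat_lit 421) (nat_lit 330)))))) (XT.nd (nat_lit 546) (nat_lit 4408) (nat_lit 0) (XT.nd (nat_lit 234) (nat_lit 2888) (nat_lit 0) (XT.nd (nat_lit 78) (nat_lit 1596) (nat_lit 0) (XT.lf (nat_lit 0) (nat_lit 8754439475) (nat_lit 836) (nat_lit 95220616) (nat_lit 76) (nat_lit 3468529292) (nat_lit 374) (nat_lit 5) (nat_lit 385) (nat_lit 5) (nat_lit 375) (nat_lit 5) (nat_lit 450) (nat_lit 421) (nat_lit 329)) (XT.nd (nat_lit 78) (nat_lit 836) (nat_lit 0) (XT.lf (nat_lit 0) (nat_lit 10906356748) (nat_lit 760) (nat_lit 1239138180) (nat_lit 836) (nat_lit 367985777) (nat_lit 364) (nat_lit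 5) (nat_lit 374) (nat_lit 5) (nat_lit 375) (nat_lit 5) (nat_lit 451) (nat_lit 421) (nat_lit 328)) (XT.lf (nat_lit 0) (nat_lit 2960001880) (nat_lit 836) (nat_lit 3160397064) (nat_lit 76) (nat_lit 6592359112) (nat_lit 353) (nat_lit 5) (nat_lit 364) (nat_lit 5) (nat_lit 354) (nat_lit 5) (nat_lit 452) (nat_lit 421) (nat_lit 327)))) (XT.nd (nat_lit 156) (nat_lit 1444) (nat_lit 0) (XT.nd (nat_lit 78) (nat_lit 684) (nat_lit 0) (XT.lf (nat_lit 0) (nat_lit 6436083533) (nat_lit 836) (nat_lit 4715991130) (nat_lit 76) (nat_lit 1764826144) (nat_lit 343) (nat_lit 5) (nat_lit 354) (nat_lit 5) (nat_lit 344) (nat_lit 5) (nat_lit 453) (nat_lit 421) (nat_lit 326)) (XT.lf (nat_lit 0) (nat_lit 6833137507) (nat_lit 684) (nat_lit 3259857224) (nat_lit 760) (nat_lit 3032642948) (nat_lit 334) (nat_lit 5) (nat_lit 343) (nat_lit 5) (nat_lit 344) (nat_lit 5) (nat_lit 454) (nat_lit 421) (nat_lit 325))) (XT.nd (nat_lit 78) (nat_lit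 684) (nat_lit 0) (XT.lf (nat_lit 0) (nat_lit 582172246) (nat_lit 760) (nat_lit 7885002457) (nat_lit 76) (nat_lit 4871995266) (nat_lit 324) (nat_lit 5) (nat_lit 334) (nat_lit 5) (nat_lit 325) (nat_lit 5) (nat_lit 455) (nat_lit 421) (nat_lit 324)) (XT.lf (nat_lit 0) (nat_lit 4057158205) (nat_lit 684) (nat_lit 269141585) (nat_lit 760) (nat_lit 9231166853) (nat_lit 315) (nat_lit 5) (nat_lit 324) (nat_lit 5) (nat_lit 325) (nat_lit 5) (nat_lit 456) (nat_lit 421) (nat_lit 323))))) (XT.nd (nat_lit 312) (nat_lit 2432) (nat_lit 0) (XT.nd (nat_lit 156) (nat_lit 684) (nat_lit 0) (XT.nd (nat_lit 78) (nat_lit 608) (nat_lit 0) (XT.lf (nat_lit 0) (nat_lit 2630568277) (nat_lit 684) (nat_lit 5647486823) (nat_lit 760) (nat_lit 5502351740) (nat_lit 306) (nat_lit 5) (nat_lit 315) (nat_lit 5) (nat_lit 316) (nat_lit 5) (nat_lit 457) (nat_lit 421) (nat_lit 322)) (XT.lf (nat_lit 0) (nat_lit 1207551529) (nat_lit 608) (nat_lit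 11205184776) (nat_lit 684) (nat_lit 1596012153) (nat_lit 298) (nat_lit 5) (nat_lit 306) (nat_lit 5) (nat_lit 307) (nat_lit 5) (nat_lit 458) (nat_lit 421) (nat_lit 321))) (XT.nd (nat_lit 78) (nat_lit 608) (nat_lit 0) (XT.lf (nat_lit 0) (nat_lit 2481850583) (nat_lit 684) (nat_lit 242708444) (nat_lit 76) (nat_lit 11517343319) (nat_lit 297) (nat_lit 5) (nat_lit 306) (nat_lit 5) (nat_lit 298) (nat_lit 5) (nat_lit 459) (nat_lit 421) (nat_lit 320)) (XT.lf (nat_lit 0) (nat_lit 6756457665) (nat_lit 684) (nat_lit 1703890755) (nat_lit 76) (nat_lit 6019570227) (nat_lit 289) (nat_lit 5) (nat_lit 298) (nat_lit 5) (nat_lit 290) (nat_lit 5) (nat_lit 460) (nat_lit 421) (nat_lit 319)))) (XT.nd (nat_lit 156) (nat_lit 1140) (nat_lit 0) (XT.nd (nat_lit 78) (nat_lit 684) (nat_lit 0) (XT.lf (nat_lit 0) (nat_lit 11230113834) (nat_lit 684) (nat_lit 3162316978) (nat_lit 76) (nat_lit 331229017) (nat_lit 281) (nat_lit 5) (nat_lit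 290) (nat_lit 5) (nat_lit 282) (nat_lit 5) (nat_lit 461) (nat_lit 421) (nat_lit 318)) (XT.lf (nat_lit 0) (nat_lit 962048517) (nat_lit 684) (nat_lit 4660198774) (nat_lit 76) (nat_lit 9350152362) (nat_lit 272) (nat_lit 5) (nat_lit 281) (nat_lit 5) (nat_lit 273) (nat_lit 5) (nat_lit 462) (nat_lit 421) (nat_lit 317))) (XT.nd (nat_lit 78) (nat_lit 608) (nat_lit 0) (XT.lf (nat_lit 0) (nat_lit 5581904605) (nat_lit 608) (nat_lit 6181514711) (nat_lit 76) (nat_lit 3463159925) (nat_lit 265) (nat_lit 5) (nat_lit 273) (nat_lit 5) (nat_lit 266) (nat_lit 5) (nat_lit 463) (nat_lit 421) (nat_lit 316)) (XT.lf (nat_lit 0) (nat_lit 7768499192) (nat_lit 608) (nat_lit 2666715513) (nat_lit 684) (nat_lit 5051272893) (nat_lit 257) (nat_lit 5) (nat_lit 265) (nat_lit 5) (nat_lit 266) (nat_lit 5) (nat_lit 464) (nat_lit 421) (nat_lit 315))))))))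
noncomputable def xc63 : XT := (XT.nd (nat_lit 2262) (nat_lit 3268) (nat_lit 0) (XT.nd (nat_lit 1092) (nat_lit 4940) (nat_lit 0) (XT.nd (nat_lit 546) (nat_lit 3116) (nat_lit 0) (XT.nd (nat_lit 234) (nat_lit 1520) (nat_lit 0) (XT.nd (nat_lit 78) (nat_lit 1064) (nat_lit 0) (XT.lf (nat_lit 0) (nat_lit 6476412969) (nat_lit 532) (nat_lit 9060941798) (nat_lit 608) (nat_lit 214774358) (nat_lit 250) (nat_lit 5) (nat_lit 257) (nat_lit 5) (nat_lit 258) (nat_lit 5) (nat_lit 465) (nat_lit 421) (nat_lit 314)) (XT.nd (nat_lit 78) (nat_lit 456) (nat_lit 0) (XT.lf (nat_lit 0) (nat_lit 4786607460) (nat_lit 608) (nat_lit 10862586829) (nat_lit 76) (nat_lit 374281009) (nat_lit 242) (nat_lit 5) (nat_lit 250) (nat_lit 5) (nat_lit 243) (nat_lit 5) (nat_lit 466) (nat_lit 421) (nat_lit 313)) (XT.lf (nat_lit 0) (nat_lit 3810711797) (nat_lit 456) (nat_lit 6249303804) (nat_lit 532) (nat_lit 6240420296) (nat_lit 236) (nat_lit 5)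 (nat_lit 242) (nat_lit 5) (nat_lit 243) (nat_lit 5) (nat_lit 467) (nat_lit 421) (nat_lit 312)))) (XT.nd (nat_lit 156) (nat_lit 456) (nat_lit 0) (XT.nd (nat_lit 78) (nat_lit 532) (nat_lit 0) (XT.lf (nat_lit 0) (nat_lit 2465678160) (nat_lit 532) (nat_lit 13115041988) (nat_lit 608) (nat_lit 1003203760) (nat_lit 229) (nat_lit 5) (nat_lit 236) (nat_lit 5) (nat_lit 237) (nat_lit 5) (nat_lit 468) (nat_lit 421) (nat_lit 311)) (XT.lf (nat_lit 0) (nat_lit 1077419669) (nat_lit 456) (nat_lit 3367123108) (nat_lit 532) (nat_lit 12428583956) (nat_lit 222) (nat_lit 5) (nat_lit 228) (nat_lit 5) (nat_lit 229) (nat_lit 5) (nat_lit 469) (nat_lit 421) (nat_lit 310))) (XT.nd (nat_lit 78) (nat_lit 456) (nat_lit 0) (XT.lf (nat_lit 0) (nat_lit 10159224548) (nat_lit 532) (nat_lit 329748205) (nat_lit 76) (nat_lit 6679558059) (nat_lit 222) (nat_lit 5) (nat_lit 229) (nat_lit 5) (nat_lit 223) (nat_lit 5) (nat_lit 470) (nat_lit 421)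 (nat_lit 309)) (XT.lf (nat_lit 0) (nat_lit 15753019069) (nat_lit 456) (nat_lit 395206164) (nat_lit 532) (nat_lit 1322514639) (nat_lit 216) (nat_lit 5) (nat_lit 222) (nat_lit 5) (nat_lit 223) (nat_lit 5) (nat_lit 471) (nat_lit 421) (nat_lit 308))))) (XT.nd (nat_lit 234) (nat_lit 1748) (nat_lit 0) (XT.nd (nat_lit 78) (nat_lit 836) (nat_lit 0) (XT.lf (nat_lit 0) (nat_lit 4617012731) (nat_lit 532) (nat_lit 3172871297) (nat_lit 76) (nat_lit 9988710559) (nat_lit 209) (nat_lit 5) (nat_lit 216) (nat_lit 5) (nat_lit 210) (nat_lit 5) (nat_lit 472) (nat_lit 421) (nat_lit 307)) (XT.nd (nat_lit 78) (nat_lit 380) (nat_lit 0) (XT.lf (nat_lit 0) (nat_lit 10814923574) (nat_lit 532) (nat_lit 4630041664) (nat_lit 76) (nat_lit 2648581955) (nat_lit 203) (nat_lit 5) (nat_lit 210) (nat_lit 5) (nat_lit 204) (nat_lit 5) (nat_lit 473) (nat_lit 421) (nat_lit 306)) (XT.lf (nat_lit 0) (nat_lit 12303257874) (nat_lit 380) (nat_lit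 5028240364) (nat_lit 456) (nat_lit 1083795995) (nat_lit 198) (nat_lit 5) (nat_lit 203) (nat_lit 5) (nat_lit 204) (nat_lit 5) (nat_lit 474) (nat_lit 421) (nat_lit 305)))) (XT.nd (nat_lit 156) (nat_lit 836) (nat_lit 0) (XT.nd (nat_lit 78) (nat_lit 380) (nat_lit 0) (XT.lf (nat_lit 0) (nat_lit 5348587120) (nat_lit 532) (nat_lit 7639323239) (nat_lit 76) (nat_lit 5755672270) (nat_lit 191) (nat_lit 5) (nat_lit 198) (nat_lit 5) (nat_lit 192) (nat_lit 5) (nat_lit 475) (nat_lit 421) (nat_lit 304)) (XT.lf (nat_lit 0) (nat_lit 9898110712) (nat_lit 380) (nat_lit 2180499160) (nat_lit 456) (nat_lit 7000579030) (nat_lit 186) (nat_lit 5) (nat_lit 191) (nat_lit 5) (nat_lit 192) (nat_lit 5) (nat_lit 476) (nat_lit 421) (nat_lit 303))) (XT.nd (nat_lit 78) (nat_lit 456) (nat_lit 0) (XT.lf (nat_lit 0) (nat_lit 8667411028) (nat_lit 380) (nat_lit 10489680621) (nat_lit 456) (nat_lit 264840892) (nat_lit 181) (nat_lit 5) (nat_lit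 186) (nat_lit 5) (nat_lit 187) (nat_lit 5) (nat_lit 477) (nat_lit 421) (nat_lit 302)) (XT.lf (nat_lit 0) (nat_lit 6695782925) (nat_lit 456) (nat_lit 12364439043) (nat_lit 76) (nat_lit 711663726) (nat_lit 175) (nat_lit 5) (nat_lit 181) (nat_lit 5) (nat_lit 176) (nat_lit 5) (nat_lit 478) (nat_lit 421) (nat_lit 301)))))) (XT.nd (nat_lit 546) (nat_lit 2660) (nat_lit 0) (XT.nd (nat_lit 234) (nat_lit 1064) (nat_lit 0) (XT.nd (nat_lit 78) (nat_lit 836) (nat_lit 0) (XT.lf (nat_lit 0) (nat_lit 6108497191) (nat_lit 380) (nat_lit 7916950266) (nat_lit 456) (nat_lit 6103578889) (nat_lit 170) (nat_lit 5) (nat_lit 175) (nat_lit 5) (nat_lit 176) (nat_lit 5) (nat_lit 479) (nat_lit 421) (nat_lit 300)) (XT.nd (nat_lit 78) (nat_lit 380) (nat_lit 0) (XT.lf (nat_lit 0) (nat_lit 1184461111) (nat_lit 456) (nat_lit 15682728195) (nat_lit 76) (nat_lit 3627142616) (nat_lit 164) (nat_lit 5) (nat_lit 170) (nat_lit 5) (nat_lit 165)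 (nat_lit 5) (nat_lit 480) (nat_lit 421) (nat_lit 299)) (XT.lf (nat_lit 0) (nat_lit 3453404389) (nat_lit 380) (nat_lit 5307469275) (nat_lit 456) (nat_lit 12105863300) (nat_lit 159) (nat_lit 5) (nat_lit 164) (nat_lit 5) (nat_lit 165) (nat_lit 5) (nat_lit 481) (nat_lit 421) (nat_lit 298)))) (XT.nd (nat_lit 156) (nat_lit 304) (nat_lit 0) (XT.nd (nat_lit 78) (nat_lit 456) (nat_lit 0) (XT.lf (nat_lit 0) (nat_lit 2084650847) (nat_lit 304) (nat_lit 14624754884) (nat_lit 380) (nat_lit 4538012169) (nat_lit 155) (nat_lit 5) (nat_lit 159) (nat_lit 5) (nat_lit 160) (nat_lit 5) (nat_lit 482) (nat_lit 421) (nat_lit 297)) (XT.lf (nat_lit 0) (nat_lit 691408755) (nat_lit 380) (nat_lit 2663217599) (nat_lit 456) (nat_lit 18281660940) (nat_lit 149) (nat_lit 5) (nat_lit 154) (nat_lit 5) (nat_lit 155) (nat_lit 5) (nat_lit 483) (nat_lit 421) (nat_lit 296))) (XT.nd (nat_lit 78) (nat_lit 304) (nat_lit 0) (XT.lf (nat_lit 0) (nat_lit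 11598138343) (nat_lit 456) (nat_lit 753450569) (nat_lit 76) (nat_lit 9681119235) (nat_lit 149) (nat_lit 5) (nat_lit 155) (nat_lit 5) (nat_lit 150) (nat_lit 5) (nat_lit 484) (nat_lit 421) (nat_lit 295)) (XT.lf (nat_lit 0) (nat_lit 20221117027) (nat_lit 380) (nat_lit 2174980039) (nat_lit 76) (nat_lit 42281590) (nat_lit 145) (nat_lit 5) (nat_lit 150) (nat_lit 5) (nat_lit 146) (nat_lit 5) (nat_lit 485) (nat_lit 421) (nat_lit 294))))) (XT.nd (nat_lit 312) (nat_lit 1216) (nat_lit 0) (XT.nd (nat_lit 156) (nat_lit 684) (nat_lit 0) (XT.nd (nat_lit 78) (nat_lit 304) (nat_lit 0) (XT.lf (nat_lit 0) (nat_lit 6361145299) (nat_lit 456) (nat_lit 3687766095) (nat_lit 76) (nat_lit 12802566905) (nat_lit 139) (nat_lit 5) (nat_lit 145) (nat_lit 5) (nat_lit 140) (nat_lit 5) (nat_lit 486) (nat_lit 421) (nat_lit 293)) (XT.lf (nat_lit 0) (nat_lit 15300458823) (nat_lit 380) (nat_lit 5202194469) (nat_lit 76) (nat_lit 2771351189)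 (nat_lit 135) (nat_lit 5) (nat_lit 140) (nat_lit 5) (nat_lit 136) (nat_lit 5) (nat_lit 487) (nat_lit 421) (nat_lit 292))) (XT.nd (nat_lit 78) (nat_lit 304) (nat_lit 0) (XT.lf (nat_lit 0) (nat_lit 975163694) (nat_lit 380) (nat_lit 6758387636) (nat_lit 76) (nat_lit 15971813744) (nat_lit 130) (nat_lit 5) (nat_lit 135) (nat_lit 5) (nat_lit 131) (nat_lit 5) (nat_lit 488) (nat_lit 421) (nat_lit 291)) (XT.lf (nat_lit 0) (nat_lit 10242572479) (nat_lit 380) (nat_lit 8373070849) (nat_lit 76) (nat_lit 5529797924) (nat_lit 126) (nat_lit 5) (nat_lit 131) (nat_lit 5) (nat_lit 127) (nat_lit 5) (nat_lit 489) (nat_lit 421) (nat_lit 290)))) (XT.nd (nat_lit 156) (nat_lit 532) (nat_lit 0) (XT.nd (nat_lit 78) (nat_lit 380) (nat_lit 0) (XT.lf (nat_lit 0) (nat_lit 14586037313) (nat_lit 304) (nat_lit 5378165877) (nat_lit 380) (nat_lit 4630992746) (nat_lit 122) (nat_lit 5) (nat_lit 126) (nat_lit 5) (nat_lit 127) (nat_lit 5)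 (nat_lit 490) (nat_lit 421) (nat_lit 289)) (XT.lf (nat_lit 0) (nat_lit 5037272808) (nat_lit 380) (nat_lit 11701964346) (nat_lit 76) (nat_lit 8314912609) (nat_lit 117) (nat_lit 5) (nat_lit 122) (nat_lit 5) (nat_lit 118) (nat_lit 5) (nat_lit 491) (nat_lit 421) (nat_lit 288))) (XT.nd (nat_lit 78) (nat_lit 228) (nat_lit 0) (XT.lf (nat_lit 0) (nat_lit 12090456648) (nat_lit 304) (nat_lit 3009417594) (nat_lit 380) (nat_lit 10423041843) (nat_lit 113) (nat_lit 5) (nat_lit 117) (nat_lit 5) (nat_lit 118) (nat_lit 5) (nat_lit 492) (nat_lit 421) (nat_lit 287)) (XT.lf (nat_lit 0) (nat_lit 10795044352) (nat_lit 228) (nat_lit 14875828576) (nat_lit 304) (nat_lit 330742274) (nat_lit 110) (nat_lit 5) (nat_lit 113) (nat_lit 5) (nat_lit 114) (nat_lit 5) (nat_lit 493) (nat_lit 421) (nat_lit 286))))))) (XT.nd (nat_lit 57018) (nat_lit 0) (nat_lit 34276) (XT.nd (nat_lit 546) (nat_lit 1292) (nat_lit 0) (XT.nd (nat_lit 234) (nat_lit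 988) (nat_lit 0) (XT.nd (nat_lit 78) (nat_lit 608) (nat_lit 0) (XT.lf (nat_lit 0) (nat_lit 9452099666) (nat_lit 304) (nat_lit 637867887) (nat_lit 380) (nat_lit 16400248303) (nat_lit 105) (nat_lit 5) (nat_lit 109) (nat_lit 5) (nat_lit 110) (nat_lit 5) (nat_lit 494) (nat_lit 421) (nat_lit 285)) (XT.nd (nat_lit 78) (nat_lit 380) (nat_lit 0) (XT.lf (nat_lit 0) (nat_lit 8052924927) (nat_lit 228) (nat_lit 12997723801) (nat_lit 304) (nat_lit 5938145381) (nat_lit 102) (nat_lit 5) (nat_lit 105) (nat_lit 5) (nat_lit 106) (nat_lit 5) (nat_lit 495) (nat_lit 421) (nat_lit 284)) (XT.lf (nat_lit 0) (nat_lit 4934222657) (nat_lit 380) (nat_lit 20855005185) (nat_lit 76) (nat_lit 1709276812) (nat_lit 97) (nat_lit 5) (nat_lit 102) (nat_lit 5) (nat_lit 98) (nat_lit 5) (nat_lit 496) (nat_lit 421) (nat_lit 283)))) (XT.nd (nat_lit 156) (nat_lit 532) (nat_lit 0) (XT.nd (nat_lit 78) (nat_lit 228) (nat_lit 0) (XT.lf (nat_lit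 0) (nat_lit 5142895889) (nat_lit 228) (nat_lit 11144245154) (nat_lit 304) (nat_lit 11730879503) (nat_lit 94) (nat_lit 5) (nat_lit 97) (nat_lit 5) (nat_lit 98) (nat_lit 5) (nat_lit 497) (nat_lit 421) (nat_lit 282)) (XT.lf (nat_lit 0) (nat_lit 3651895939) (nat_lit 228) (nat_lit 24505618529) (nat_lit 304) (nat_lit 392070255) (nat_lit 91) (nat_lit 5) (nat_lit 94) (nat_lit 5) (nat_lit 95) (nat_lit 5) (nat_lit 498) (nat_lit 421) (nat_lit 281))) (XT.nd (nat_lit 78) (nat_lit 228) (nat_lit 0) (XT.lf (nat_lit 0) (nat_lit 2046689421) (nat_lit 228) (nat_lit 9321523794) (nat_lit 304) (nat_lit 17722830326) (nat_lit 87) (nat_lit 5) (nat_lit 90) (nat_lit 5) (nat_lit 91) (nat_lit 5) (nat_lit 499) (nat_lit 421) (nat_lit 280)) (XT.lf (nat_lit 0) (nat_lit 430742839) (nat_lit 228) (nat_lit 23244598632) (nat_lit 304) (nat_lit 5969365708) (nat_lit 84) (nat_lit 5) (nat_lit 87) (nat_lit 5) (nat_lit 88) (nat_lit 5) (nat_lit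 500) (nat_lit 421) (nat_lit 279))))) (XT.nd (nat_lit 312) (nat_lit 456) (nat_lit 0) (XT.nd (nat_lit 156) (nat_lit 532) (nat_lit 0) (XT.nd (nat_lit 78) (nat_lit 228) (nat_lit 0) (XT.lf (nat_lit 0) (nat_lit 6288877775) (nat_lit 304) (nat_lit 1239189321) (nat_lit 76) (nat_lit 22681463720) (nat_lit 83) (nat_lit 5) (nat_lit 87) (nat_lit 5) (nat_lit 84) (nat_lit 5) (nat_lit 501) (nat_lit 421) (nat_lit 278)) (XT.lf (nat_lit 0) (nat_lit 19059104712) (nat_lit 304) (nat_lit 2968302471) (nat_lit 76) (nat_lit 8758596236) (nat_lit 80) (nat_lit 5) (nat_lit 84) (nat_lit 5) (nat_lit 81) (nat_lit 5) (nat_lit 502) (nat_lit 421) (nat_lit 277))) (XT.nd (nat_lit 78) (nat_lit 228) (nat_lit 0) (XT.lf (nat_lit 0) (nat_lit 1041517824) (nat_lit 304) (nat_lit 4723211511) (nat_lit 76) (nat_lit 25610537466) (nat_lit 76) (nat_lit 5) (nat_lit 80) (nat_lit 5) (nat_lit 77) (nat_lit 5) (nat_lit 503) (nat_lit 421) (nat_lit 276)) (XT.lf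 (nat_lit 0) (nat_lit 14279670364) (nat_lit 304) (nat_lit 6598757649) (nat_lit 76) (nat_lit 11097309777) (nat_lit 73) (nat_lit 5) (nat_lit 77) (nat_lit 5) (nat_lit 74) (nat_lit 5) (nat_lit 504) (nat_lit 421) (nat_lit 275)))) (XT.nd (nat_lit 56004) (nat_lit 0) (nat_lit 40052) (XT.nd (nat_lit 78) (nat_lit 228) (nat_lit 0) (XT.lf (nat_lit 0) (nat_lit 24105169067) (nat_lit 228) (nat_lit 4023842538) (nat_lit 304) (nat_lit 4460930544) (nat_lit 70) (nat_lit 5) (nat_lit 73) (nat_lit 5) (nat_lit 74) (nat_lit 5) (nat_lit 505) (nat_lit 421) (nat_lit 274)) (XT.lf (nat_lit 0) (nat_lit 9319232701) (nat_lit 228) (nat_lit 10490987458) (nat_lit 76) (nat_lit 13405796578) (nat_lit 67) (nat_lit 5) (nat_lit 70) (nat_lit 5) (nat_lit 68) (nat_lit 5) (nat_lit 506) (nat_lit 421) (nat_lit 273))) (XT.nd (nat_lit 78) (nat_lit 0) (nat_lit 0) (XT.lf (nat_lit 0) (nat_lit 1714669747) (nat_lit 0) (nat_lit 1714669747) (nat_lit 1444)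 (nat_lit 819890959) (nat_lit 594) (nat_lit 5) (nat_lit 594) (nat_lit 3) (nat_lit 613) (nat_lit 3) (nat_lit 422) (nat_lit 422) (nat_lit 356)) (XT.lf (nat_lit 76) (nat_lit 1294457006) (nat_lit 0) (nat_lit 7233450307) (nat_lit 1520) (nat_lit 66649332) (nat_lit 595) (nat_lit 5) (nat_lit 594) (nat_lit 5) (nat_lit 614) (nat_lit 5) (nat_lit 423) (nat_lit 422) (nat_lit 355)))))) (XT.nd (nat_lit 546) (nat_lit 2888) (nat_lit 0) (XT.nd (nat_lit 234) (nat_lit 1368) (nat_lit 0) (XT.nd (nat_lit 78) (nat_lit 0) (nat_lit 76) (XT.lf (nat_lit 0) (nat_lit 1529942173) (nat_lit 1520) (nat_lit 840633351) (nat_lit 1596) (nat_lit 6322827221) (nat_lit 574) (nat_lit 5) (nat_lit 594) (nat_lit 5) (nat_lit 595) (nat_lit 5) (nat_lit 424) (nat_lit 422) (nat_lit 354)) (XT.nd (nat_lit 78) (nat_lit 0) (nat_lit 0) (XT.lf (nat_lit 0) (nat_lit 3170022909) (nat_lit 1520) (nat_lit 2956110042) (nat_lit 1596) (nat_lit 2669144540) (nat_lit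 575) (nat_lit 5) (nat_lit 595) (nat_lit 5) (nat_lit 596) (nat_lit 5) (nat_lit 425) (nat_lit 422) (nat_lit 353)) (XT.lf (nat_lit 76) (nat_lit 3832431750) (nat_lit 0) (nat_lit 1015935310) (nat_lit 1596) (nat_lit 4052062155) (nat_lit 576) (nat_lit 5) (nat_lit 575) (nat_lit 5) (nat_lit 596) (nat_lit 5) (nat_lit 426) (nat_lit 422) (nat_lit 352)))) (XT.nd (nat_lit 156) (nat_lit 1520) (nat_lit 0) (XT.nd (nat_lit 78) (nat_lit 0) (nat_lit 76) (XT.lf (nat_lit 76) (nat_lit 1819451133) (nat_lit 0) (nat_lit 4761374224) (nat_lit 1596) (nat_lit 2427836755) (nat_lit 577) (nat_lit 5) (nat_lit 576) (nat_lit 5) (nat_lit 597) (nat_lit 5) (nat_lit 427) (nat_lit 422) (nat_lit 351)) (XT.lf (nat_lit 0) (nat_lit 8355806835) (nat_lit 1520) (nat_lit 181153552) (nat_lit 1596) (nat_lit 583372464) (nat_lit 577) (nat_lit 5) (nat_lit 597) (nat_lit 5) (nat_lit 598) (nat_lit 5) (nat_lit 428) (nat_lit 422) (nat_lit 350))) (XT.nd (nat_lit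 78) (nat_lit 0) (nat_lit 76) (XT.lf (nat_lit 0) (nat_lit 961455839) (nat_lit 1596) (nat_lit 2176370134) (nat_lit 1672) (nat_lit 6096902024) (nat_lit 556) (nat_lit 5) (nat_lit 577) (nat_lit 5) (nat_lit 578) (nat_lit 5) (nat_lit 429) (nat_lit 422) (nat_lit 349)) (XT.lf (nat_lit 0) (nat_lit 2728290277) (nat_lit 1596) (nat_lit 4174195906) (nat_lit 1672) (nat_lit 2449980246) (nat_lit 557) (nat_lit 5) (nat_lit 578) (nat_lit 5) (nat_lit 579) (nat_lit 5) (nat_lit 430) (nat_lit 422) (nat_lit 348))))) (XT.nd (nat_lit 312) (nat_lit 1444) (nat_lit 0) (XT.nd (nat_lit 156) (nat_lit 1520) (nat_lit 0) (XT.nd (nat_lit 78) (nat_lit 0) (nat_lit 76) (XT.lf (nat_lit 76) (nat_lit 3298188516) (nat_lit 0) (nat_lit 1256911076) (nat_lit 1672) (nat_lit 4918499679) (nat_lit 558) (nat_lit 5) (nat_lit 557) (nat_lit 5) (nat_lit 579) (nat_lit 5) (nat_lit 431) (nat_lit 422) (nat_lit 347)) (XT.lf (nat_lit 76) (nat_lit 1408351628) (nat_lit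 0) (nat_lit 5046648333) (nat_lit 1672) (nat_lit 3143002008) (nat_lit 559) (nat_lit 5) (nat_lit 558) (nat_lit 5) (nat_lit 580) (nat_lit 5) (nat_lit 432) (nat_lit 422) (nat_lit 346))) (XT.nd (nat_lit 78) (nat_lit 1672) (nat_lit 0) (XT.lf (nat_lit 0) (nat_lit 8419877190) (nat_lit 1596) (nat_lit 469811796) (nat_lit 1672) (nat_lit 836289722) (nat_lit 559) (nat_lit 5) (nat_lit 580) (nat_lit 5) (nat_lit 581) (nat_lit 5) (nat_lit 433) (nat_lit 422) (nat_lit 345)) (XT.lf (nat_lit 0) (nat_lit 614744305) (nat_lit 1672) (nat_lit 2348604310) (nat_lit 1748) (nat_lit 6893641085) (nat_lit 537) (nat_lit 5) (nat_lit 559) (nat_lit 5) (nat_lit 560) (nat_lit 5) (nat_lit 434) (nat_lit 422) (nat_lit 344)))) (XT.nd (nat_lit 156) (nat_lit 1520) (nat_lit 0) (XT.nd (nat_lit 78) (nat_lit 0) (nat_lit 0) (XT.lf (nat_lit 0) (nat_lit 2591644392) (nat_lit 1672) (nat_lit 4239134033) (nat_lit 1748) (nat_lit 3160657898) (nat_lit 538)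 (nat_lit 5) (nat_lit 560) (nat_lit 5) (nat_lit 561) (nat_lit 5) (nat_lit 435) (nat_lit 422) (nat_lit 343)) (XT.lf (nat_lit 76) (nat_lit 3996931208) (nat_lit 0) (nat_lit 648473781) (nat_lit 1748) (nat_lit 5484161683) (nat_lit 539) (nat_lit 5) (nat_lit 538) (nat_lit 5) (nat_lit 561) (nat_lit 5) (nat_lit 436) (nat_lit 422) (nat_lit 342))) (XT.nd (nat_lit 78) (nat_lit 1596) (nat_lit 0) (XT.lf (nat_lit 76) (nat_lit 2223960916) (nat_lit 0) (nat_lit 4574201434) (nat_lit 1748) (nat_lit 3472932259) (nat_lit 540) (nat_lit 5) (nat_lit 539) (nat_lit 5) (nat_lit 562) (nat_lit 5) (nat_lit 437) (nat_lit 422) (nat_lit 341)) (XT.lf (nat_lit 0) (nat_lit 453745749) (nat_lit 1672) (nat_lit 8580555428) (nat_lit 1748) (nat_lit 1382192552) (nat_lit 518) (nat_lit 5) (nat_lit 540) (nat_lit 5) (nat_lit 541) (nat_lit 5) (nat_lit 438) (nat_lit 422) (nat_lit 340))))))))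
noncomputable def xc64 : XT := (XT.nd (nat_lit 2262) (nat_lit 10640) (nat_lit 0) (XT.nd (nat_lit 1092) (nat_lit 8436) (nat_lit 0) (XT.nd (nat_lit 546) (nat_lit 5852) (nat_lit 0) (XT.nd (nat_lit 234) (nat_lit 3040) (nat_lit 0) (XT.nd (nat_lit 78) (nat_lit 3572) (nat_lit 0) (XT.lf (nat_lit 0) (nat_lit 805342008) (nat_lit 1748) (nat_lit 1316353729) (nat_lit 76) (nat_lit 8443576427) (nat_lit 517) (nat_lit 5) (nat_lit 540) (nat_lit 5) (nat_lit 518) (nat_lit 5) (nat_lit 439) (nat_lit 422) (nat_lit 339)) (XT.nd (nat_lit 78) (nat_lit 1824) (nat_lit 0) (XT.lf (nat_lit 0) (nat_lit 3079234168) (nat_lit 1824) (nat_lit 3101525422) (nat_lit 76) (nat_lit 4536782653) (nat_lit 494) (nat_lit 5) (nat_lit 518) (nat_lit 5) (nat_lit 495) (nat_lit 5) (nat_lit 440) (nat_lit 422) (nat_lit 338)) (XT.lf (nat_lit 0) (nat_lit 5447844948) (nat_lit 1900) (nat_lit 4887258801) (nat_lit 76) (nat_lit 538747820) (nat_lit 470) (nat_lit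 5) (nat_lit 495) (nat_lit 5) (nat_lit 471) (nat_lit 5) (nat_lit 441) (nat_lit 422) (nat_lit 337)))) (XT.nd (nat_lit 156) (nat_lit 988) (nat_lit 0) (XT.nd (nat_lit 78) (nat_lit 912) (nat_lit 0) (XT.lf (nat_lit 0) (nat_lit 4336257673) (nat_lit 1140) (nat_lit 3603745941) (nat_lit 1216) (nat_lit 3093797918) (nat_lit 455) (nat_lit 5) (nat_lit 470) (nat_lit 5) (nat_lit 471) (nat_lit 5) (nat_lit 442) (nat_lit 422) (nat_lit 336)) (XT.lf (nat_lit 0) (nat_lit 2684128319) (nat_lit 912) (nat_lit 7857938823) (nat_lit 988) (nat_lit 655781164) (nat_lit 443) (nat_lit 5) (nat_lit 455) (nat_lit 5) (nat_lit 456) (nat_lit 5) (nat_lit 443) (nat_lit 422) (nat_lit 335))) (XT.nd (nat_lit 78) (nat_lit 0) (nat_lit 0) (XT.lf (nat_lit 0) (nat_lit 1015235752) (nat_lit 912) (nat_lit 855562683) (nat_lit 988) (nat_lit 9494983064) (nat_lit 430) (nat_lit 5) (nat_lit 442) (nat_lit 5) (nat_lit 443) (nat_lit 5) (nat_lit 444) (nat_lit 422)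 (nat_lit 334)) (XT.lf (nat_lit 0) (nat_lit 4527899062) (nat_lit 988) (nat_lit 671858948) (nat_lit 76) (nat_lit 6337636352) (nat_lit 430) (nat_lit 5) (nat_lit 443) (nat_lit 5) (nat_lit 431) (nat_lit 5) (nat_lit 445) (nat_lit 422) (nat_lit 333))))) (XT.nd (nat_lit 234) (nat_lit 3192) (nat_lit 0) (XT.nd (nat_lit 78) (nat_lit 1824) (nat_lit 0) (XT.lf (nat_lit 0) (nat_lit 7310148326) (nat_lit 912) (nat_lit 2346355963) (nat_lit 76) (nat_lit 2056743608) (nat_lit 419) (nat_lit 5) (nat_lit 431) (nat_lit 5) (nat_lit 420) (nat_lit 5) (nat_lit 446) (nat_lit 422) (nat_lit 332)) (XT.nd (nat_lit 78) (nat_lit 912) (nat_lit 0) (XT.lf (nat_lit 0) (nat_lit 7856007458) (nat_lit 912) (nat_lit 2376296991) (nat_lit 988) (nat_lit 1660944775) (nat_lit 407) (nat_lit 5) (nat_lit 419) (nat_lit 5) (nat_lit 420) (nat_lit 5) (nat_lit 447) (nat_lit 422) (nat_lit 331)) (XT.lf (nat_lit 0) (nat_lit 1205826523) (nat_lit 912) (nat_lit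 5751556182) (nat_lit 76) (nat_lit 5119965506) (nat_lit 395) (nat_lit 5) (nat_lit 407) (nat_lit 5) (nat_lit 396) (nat_lit 5) (nat_lit 448) (nat_lit 422) (nat_lit 330)))) (XT.nd (nat_lit 156) (nat_lit 1596) (nat_lit 0) (XT.nd (nat_lit 78) (nat_lit 760) (nat_lit 0) (XT.lf (nat_lit 0) (nat_lit 4182049779) (nat_lit 912) (nat_lit 7479615951) (nat_lit 76) (nat_lit 604165468) (nat_lit 384) (nat_lit 5) (nat_lit 396) (nat_lit 5) (nat_lit 385) (nat_lit 5) (nat_lit 449) (nat_lit 422) (nat_lit 329)) (XT.lf (nat_lit 0) (nat_lit 3221108687) (nat_lit 760) (nat_lit 4101227250) (nat_lit 836) (nat_lit 5136138085) (nat_lit 374) (nat_lit 5) (nat_lit 384) (nat_lit 5) (nat_lit 385) (nat_lit 5) (nat_lit 450) (nat_lit 422) (nat_lit 328))) (XT.nd (nat_lit 78) (nat_lit 836) (nat_lit 0) (XT.lf (nat_lit 0) (nat_lit 1652694014) (nat_lit 760) (nat_lit 8958619164) (nat_lit 836) (nat_lit 2044494148) (nat_lit 364) (nat_lit 5) (nat_lit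 374) (nat_lit 5) (nat_lit 375) (nat_lit 5) (nat_lit 451) (nat_lit 422) (nat_lit 327)) (XT.lf (nat_lit 0) (nat_lit 69838029) (nat_lit 760) (nat_lit 1115289473) (nat_lit 836) (nat_lit 11672582345) (nat_lit 353) (nat_lit 5) (nat_lit 363) (nat_lit 5) (nat_lit 364) (nat_lit 5) (nat_lit 452) (nat_lit 422) (nat_lit 326)))))) (XT.nd (nat_lit 546) (nat_lit 4256) (nat_lit 0) (XT.nd (nat_lit 234) (nat_lit 2736) (nat_lit 0) (XT.nd (nat_lit 78) (nat_lit 1444) (nat_lit 0) (XT.lf (nat_lit 0) (nat_lit 4574228962) (nat_lit 836) (nat_lit 1531918793) (nat_lit 76) (nat_lit 6957444831) (nat_lit 353) (nat_lit 5) (nat_lit 364) (nat_lit 5) (nat_lit 354) (nat_lit 5) (nat_lit 453) (nat_lit 422) (nat_lit 325)) (XT.nd (nat_lit 78) (nat_lit 684) (nat_lit 0) (XT.lf (nat_lit 0) (nat_lit 8122490507) (nat_lit 836) (nat_lit 3133580553) (nat_lit 76) (nat_lit 2018431766) (nat_lit 343) (nat_lit 5) (nat_lit 354) (nat_lit 5) (nat_lit 344)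 (nat_lit 5) (nat_lit 454) (nat_lit 422) (nat_lit 324)) (XT.lf (nat_lit 0) (nat_lit 8734053871) (nat_lit 684) (nat_lit 3122571336) (nat_lit 760) (nat_lit 1633527398) (nat_lit 334) (nat_lit 5) (nat_lit 343) (nat_lit 5) (nat_lit 344) (nat_lit 5) (nat_lit 455) (nat_lit 422) (nat_lit 323)))) (XT.nd (nat_lit 156) (nat_lit 1292) (nat_lit 0) (XT.nd (nat_lit 78) (nat_lit 684) (nat_lit 0) (XT.lf (nat_lit 0) (nat_lit 2039931872) (nat_lit 760) (nat_lit 6406690222) (nat_lit 76) (nat_lit 5263881494) (nat_lit 324) (nat_lit 5) (nat_lit 334) (nat_lit 5) (nat_lit 325) (nat_lit 5) (nat_lit 456) (nat_lit 422) (nat_lit 322)) (XT.lf (nat_lit 0) (nat_lit 5865389729) (nat_lit 760) (nat_lit 8070059905) (nat_lit 76) (nat_lit 520434) (nat_lit 315) (nat_lit 5) (nat_lit 325) (nat_lit 5) (nat_lit 316) (nat_lit 5) (nat_lit 457) (nat_lit 422) (nat_lit 321))) (XT.nd (nat_lit 78) (nat_lit 608) (nat_lit 0) (XT.lf (nat_lit 0) (nat_lit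 4395144424) (nat_lit 684) (nat_lit 5512197536) (nat_lit 760) (nat_lit 4258824632) (nat_lit 306) (nat_lit 5) (nat_lit 315) (nat_lit 5) (nat_lit 316) (nat_lit 5) (nat_lit 458) (nat_lit 422) (nat_lit 320)) (XT.lf (nat_lit 0) (nat_lit 2927346875) (nat_lit 608) (nat_lit 11211346648) (nat_lit 684) (nat_lit 263213315) (nat_lit 298) (nat_lit 5) (nat_lit 306) (nat_lit 5) (nat_lit 307) (nat_lit 5) (nat_lit 459) (nat_lit 422) (nat_lit 319))))) (XT.nd (nat_lit 312) (nat_lit 2280) (nat_lit 0) (XT.nd (nat_lit 156) (nat_lit 1292) (nat_lit 0) (XT.nd (nat_lit 78) (nat_lit 0) (nat_lit 0) (XT.lf (nat_lit 0) (nat_lit 1420788459) (nat_lit 608) (nat_lit 2467627145) (nat_lit 684) (nat_lit 10754070619) (nat_lit 289) (nat_lit 5) (nat_lit 297) (nat_lit 5) (nat_lit 298) (nat_lit 5) (nat_lit 460) (nat_lit 422) (nat_lit 318)) (XT.lf (nat_lit 0) (nat_lit 8256203751) (nat_lit 684) (nat_lit 105884447) (nat_lit 76) (nat_lit 6526256861)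 (nat_lit 289) (nat_lit 5) (nat_lit 298) (nat_lit 5) (nat_lit 290) (nat_lit 5) (nat_lit 461) (nat_lit 422) (nat_lit 317))) (XT.nd (nat_lit 78) (nat_lit 684) (nat_lit 0) (XT.lf (nat_lit 0) (nat_lit 12839113926) (nat_lit 684) (nat_lit 1611682199) (nat_lit 76) (nat_lit 689102343) (nat_lit 281) (nat_lit 5) (nat_lit 290) (nat_lit 5) (nat_lit 282) (nat_lit 5) (nat_lit 462) (nat_lit 422) (nat_lit 316)) (XT.lf (nat_lit 0) (nat_lit 2244742377) (nat_lit 684) (nat_lit 3164506212) (nat_lit 76) (nat_lit 9987218589) (nat_lit 272) (nat_lit 5) (nat_lit 281) (nat_lit 5) (nat_lit 273) (nat_lit 5) (nat_lit 463) (nat_lit 422) (nat_lit 315)))) (XT.nd (nat_lit 156) (nat_lit 1140) (nat_lit 0) (XT.nd (nat_lit 78) (nat_lit 608) (nat_lit 0) (XT.lf (nat_lit 0) (nat_lit 6979596258) (nat_lit 608) (nat_lit 4735888489) (nat_lit 76) (nat_lit 3943260176) (nat_lit 265) (nat_lit 5) (nat_lit 273) (nat_lit 5) (nat_lit 266) (nat_lit 5) (nat_lit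 464) (nat_lit 422) (nat_lit 314)) (XT.lf (nat_lit 0) (nat_lit 9606163631) (nat_lit 608) (nat_lit 2346928146) (nat_lit 684) (nat_lit 3973867817) (nat_lit 257) (nat_lit 5) (nat_lit 265) (nat_lit 5) (nat_lit 266) (nat_lit 5) (nat_lit 465) (nat_lit 422) (nat_lit 313))) (XT.nd (nat_lit 78) (nat_lit 532) (nat_lit 0) (XT.lf (nat_lit 0) (nat_lit 972176388) (nat_lit 608) (nat_lit 7936951104) (nat_lit 76) (nat_lit 7291759423) (nat_lit 249) (nat_lit 5) (nat_lit 257) (nat_lit 5) (nat_lit 250) (nat_lit 5) (nat_lit 466) (nat_lit 422) (nat_lit 312)) (XT.lf (nat_lit 0) (nat_lit 6099091207) (nat_lit 608) (nat_lit 9578476432) (nat_lit 76) (nat_lit 803209977) (nat_lit 242) (nat_lit 5) (nat_lit 250) (nat_lit 5) (nat_lit 243) (nat_lit 5) (nat_lit 467) (nat_lit 422) (nat_lit 311))))))) (XT.nd (nat_lit 1092) (nat_lit 4712) (nat_lit 0) (XT.nd (nat_lit 546) (nat_lit 2964) (nat_lit 0) (XT.nd (nat_lit 234) (nat_lit 1444) (nat_lit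 0) (XT.nd (nat_lit 78) (nat_lit 1064) (nat_lit 0) (XT.lf (nat_lit 0) (nat_lit 5508901009) (nat_lit 456) (nat_lit 5998038895) (nat_lit 532) (nat_lit 5259583070) (nat_lit 236) (nat_lit 5) (nat_lit 242) (nat_lit 5) (nat_lit 243) (nat_lit 5) (nat_lit 468) (nat_lit 422) (nat_lit 310)) (XT.nd (nat_lit 78) (nat_lit 456) (nat_lit 0) (XT.lf (nat_lit 0) (nat_lit 112504746) (nat_lit 608) (nat_lit 12942091685) (nat_lit 76) (nat_lit 4004311928) (nat_lit 228) (nat_lit 5) (nat_lit 236) (nat_lit 5) (nat_lit 229) (nat_lit 5) (nat_lit 469) (nat_lit 422) (nat_lit 309)) (XT.lf (nat_lit 0) (nat_lit 2676890416) (nat_lit 456) (nat_lit 3010438082) (nat_lit 532) (nat_lit 11669781310) (nat_lit 222) (nat_lit 5) (nat_lit 228) (nat_lit 5) (nat_lit 229) (nat_lit 5) (nat_lit 470) (nat_lit 422) (nat_lit 308)))) (XT.nd (nat_lit 156) (nat_lit 988) (nat_lit 0) (XT.nd (nat_lit 78) (nat_lit 0) (nat_lit 0) (XT.lf (nat_lit 0) (nat_lit 1216495655)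 (nat_lit 456) (nat_lit 10335424432) (nat_lit 532) (nat_lit 6109887168) (nat_lit 216) (nat_lit 5) (nat_lit 222) (nat_lit 5) (nat_lit 223) (nat_lit 5) (nat_lit 471) (nat_lit 422) (nat_lit 307)) (XT.lf (nat_lit 0) (nat_lit 17691396117) (nat_lit 532) (nat_lit 233192667) (nat_lit 76) (nat_lit 49078310) (nat_lit 216) (nat_lit 5) (nat_lit 223) (nat_lit 5) (nat_lit 217) (nat_lit 5) (nat_lit 472) (nat_lit 422) (nat_lit 306))) (XT.nd (nat_lit 78) (nat_lit 456) (nat_lit 0) (XT.lf (nat_lit 0) (nat_lit 5802679683) (nat_lit 532) (nat_lit 1745582798) (nat_lit 76) (nat_lit 10742727309) (nat_lit 209) (nat_lit 5) (nat_lit 216) (nat_lit 5) (nat_lit 210) (nat_lit 5) (nat_lit 473) (nat_lit 422) (nat_lit 305)) (XT.lf (nat_lit 0) (nat_lit 12168813285) (nat_lit 532) (nat_lit 3253682649) (nat_lit 76) (nat_lit 3193249899) (nat_lit 203) (nat_lit 5) (nat_lit 210) (nat_lit 5) (nat_lit 204) (nat_lit 5) (nat_lit 474) (nat_lit 422)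 (nat_lit 304))))) (XT.nd (nat_lit 234) (nat_lit 1672) (nat_lit 0) (XT.nd (nat_lit 78) (nat_lit 912) (nat_lit 0) (XT.lf (nat_lit 0) (nat_lit 14163032577) (nat_lit 380) (nat_lit 4697547327) (nat_lit 456) (nat_lit 86972037) (nat_lit 198) (nat_lit 5) (nat_lit 203) (nat_lit 5) (nat_lit 204) (nat_lit 5) (nat_lit 475) (nat_lit 422) (nat_lit 303)) (XT.nd (nat_lit 78) (nat_lit 380) (nat_lit 0) (XT.lf (nat_lit 0) (nat_lit 6508044909) (nat_lit 532) (nat_lit 6371919123) (nat_lit 76) (nat_lit 6405928574) (nat_lit 191) (nat_lit 5) (nat_lit 198) (nat_lit 5) (nat_lit 192) (nat_lit 5) (nat_lit 476) (nat_lit 422) (nat_lit 302)) (XT.lf (nat_lit 0) (nat_lit 11667357552) (nat_lit 380) (nat_lit 1753072870) (nat_lit 456) (nat_lit 6211527913) (nat_lit 186) (nat_lit 5) (nat_lit 191) (nat_lit 5) (nat_lit 192) (nat_lit 5) (nat_lit 477) (nat_lit 422) (nat_lit 301)))) (XT.nd (nat_lit 156) (nat_lit 836) (nat_lit 0) (XT.nd (nat_lit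 78) (nat_lit 380) (nat_lit 0) (XT.lf (nat_lit 0) (nat_lit 700738679) (nat_lit 456) (nat_lit 9597922441) (nat_lit 76) (nat_lit 9686549705) (nat_lit 180) (nat_lit 5) (nat_lit 186) (nat_lit 5) (nat_lit 181) (nat_lit 5) (nat_lit 478) (nat_lit 422) (nat_lit 300)) (XT.lf (nat_lit 0) (nat_lit 7851051385) (nat_lit 456) (nat_lit 11266101986) (nat_lit 76) (nat_lit 1228785295) (nat_lit 175) (nat_lit 5) (nat_lit 181) (nat_lit 5) (nat_lit 176) (nat_lit 5) (nat_lit 479) (nat_lit 422) (nat_lit 299))) (XT.nd (nat_lit 78) (nat_lit 456) (nat_lit 0) (XT.lf (nat_lit 0) (nat_lit 7737185171) (nat_lit 380) (nat_lit 7645007480) (nat_lit 456) (nat_lit 5331969608) (nat_lit 170) (nat_lit 5) (nat_lit 175) (nat_lit 5) (nat_lit 176) (nat_lit 5) (nat_lit 480) (nat_lit 422) (nat_lit 298)) (XT.lf (nat_lit 0) (nat_lit 2147373137) (nat_lit 456) (nat_lit 14703711640) (nat_lit 76) (nat_lit 4239515030) (nat_lit 164) (nat_lit 5) (nat_lit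 170) (nat_lit 5) (nat_lit 165) (nat_lit 5) (nat_lit 481) (nat_lit 422) (nat_lit 297)))))) (XT.nd (nat_lit 546) (nat_lit 2508) (nat_lit 0) (XT.nd (nat_lit 234) (nat_lit 1064) (nat_lit 0) (XT.nd (nat_lit 78) (nat_lit 760) (nat_lit 0) (XT.lf (nat_lit 0) (nat_lit 4982988532) (nat_lit 380) (nat_lit 4950336941) (nat_lit 456) (nat_lit 11541207002) (nat_lit 159) (nat_lit 5) (nat_lit 164) (nat_lit 5) (nat_lit 165) (nat_lit 5) (nat_lit 482) (nat_lit 422) (nat_lit 296)) (XT.nd (nat_lit 78) (nat_lit 456) (nat_lit 0) (XT.lf (nat_lit 0) (nat_lit 3564650599) (nat_lit 304) (nat_lit 14541626927) (nat_lit 380) (nat_lit 3760637443) (nat_lit 155) (nat_lit 5) (nat_lit 159) (nat_lit 5) (nat_lit 160) (nat_lit 5) (nat_lit 483) (nat_lit 422) (nat_lit 295)) (XT.lf (nat_lit 0) (nat_lit 2118414365) (nat_lit 380) (nat_lit 2221257073) (nat_lit 456) (nat_lit 17928003332) (nat_lit 149) (nat_lit 5) (nat_lit 154) (nat_lit 5) (nat_lit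 155) (nat_lit 5) (nat_lit 484) (nat_lit 422) (nat_lit 294)))) (XT.nd (nat_lit 156) (nat_lit 760) (nat_lit 0) (XT.nd (nat_lit 78) (nat_lit 0) (nat_lit 0) (XT.lf (nat_lit 0) (nat_lit 611161648) (nat_lit 304) (nat_lit 12200825354) (nat_lit 380) (nat_lit 9864371662) (nat_lit 145) (nat_lit 5) (nat_lit 149) (nat_lit 5) (nat_lit 150) (nat_lit 5) (nat_lit 485) (nat_lit 422) (nat_lit 293)) (XT.lf (nat_lit 0) (nat_lit 21676710381) (nat_lit 380) (nat_lit 869798939) (nat_lit 76) (nat_lit 548029228) (nat_lit 145) (nat_lit 5) (nat_lit 150) (nat_lit 5) (nat_lit 146) (nat_lit 5) (nat_lit 486) (nat_lit 422) (nat_lit 292))) (XT.nd (nat_lit 78) (nat_lit 304) (nat_lit 0) (XT.lf (nat_lit 0) (nat_lit 7390494126) (nat_lit 456) (nat_lit 2439047089) (nat_lit 76) (nat_lit 13690699465) (nat_lit 139) (nat_lit 5) (nat_lit 145) (nat_lit 5) (nat_lit 140) (nat_lit 5) (nat_lit 487) (nat_lit 422) (nat_lit 291)) (XT.lf (nat_lit 0) (nat_lit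 16585587560) (nat_lit 380) (nat_lit 4007835990) (nat_lit 76) (nat_lit 3362267428) (nat_lit 135) (nat_lit 5) (nat_lit 140) (nat_lit 5) (nat_lit 136) (nat_lit 5) (nat_lit 488) (nat_lit 422) (nat_lit 290))))) (XT.nd (nat_lit 312) (nat_lit 1140) (nat_lit 0) (XT.nd (nat_lit 156) (nat_lit 684) (nat_lit 0) (XT.nd (nat_lit 78) (nat_lit 304) (nat_lit 0) (XT.lf (nat_lit 0) (nat_lit 1820477177) (nat_lit 380) (nat_lit 5621768200) (nat_lit 76) (nat_lit 16957948684) (nat_lit 130) (nat_lit 5) (nat_lit 135) (nat_lit 5) (nat_lit 131) (nat_lit 5) (nat_lit 489) (nat_lit 422) (nat_lit 289)) (XT.lf (nat_lit 0) (nat_lit 11354049917) (nat_lit 380) (nat_lit 7293949624) (nat_lit 76) (nat_lit 6205710466) (nat_lit 126) (nat_lit 5) (nat_lit 131) (nat_lit 5) (nat_lit 127) (nat_lit 5) (nat_lit 490) (nat_lit 422) (nat_lit 288))) (XT.nd (nat_lit 78) (nat_lit 380) (nat_lit 0) (XT.lf (nat_lit 0) (nat_lit 16332349029) (nat_lit 304) (nat_lit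 5020054358) (nat_lit 380) (nat_lit 3964852772) (nat_lit 122) (nat_lit 5) (nat_lit 126) (nat_lit 5) (nat_lit 127) (nat_lit 5) (nat_lit 491) (nat_lit 422) (nat_lit 287)) (XT.lf (nat_lit 0) (nat_lit 5971551648) (nat_lit 380) (nat_lit 10742886352) (nat_lit 76) (nat_lit 9075663360) (nat_lit 117) (nat_lit 5) (nat_lit 122) (nat_lit 5) (nat_lit 118) (nat_lit 5) (nat_lit 492) (nat_lit 422) (nat_lit 286)))) (XT.nd (nat_lit 156) (nat_lit 532) (nat_lit 0) (XT.nd (nat_lit 78) (nat_lit 304) (nat_lit 0) (XT.lf (nat_lit 0) (nat_lit 13742051857) (nat_lit 304) (nat_lit 2579537037) (nat_lit 380) (nat_lit 9951630904) (nat_lit 113) (nat_lit 5) (nat_lit 117) (nat_lit 5) (nat_lit 118) (nat_lit 5) (nat_lit 493) (nat_lit 422) (nat_lit 285)) (XT.lf (nat_lit 0) (nat_lit 426748299) (nat_lit 304) (nat_lit 14370625399) (nat_lit 76) (nat_lit 11969066349) (nat_lit 109) (nat_lit 5) (nat_lit 113) (nat_lit 5) (nat_lit 110) (nat_lit 5)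 (nat_lit 494) (nat_lit 422) (nat_lit 284))) (XT.nd (nat_lit 78) (nat_lit 228) (nat_lit 0) (XT.lf (nat_lit 0) (nat_lit 11004665819) (nat_lit 304) (nat_lit 136963239) (nat_lit 380) (nat_lit 16128305337) (nat_lit 105) (nat_lit 5) (nat_lit 109) (nat_lit 5) (nat_lit 110) (nat_lit 5) (nat_lit 495) (nat_lit 422) (nat_lit 283)) (XT.lf (nat_lit 0) (nat_lit 9554350874) (nat_lit 228) (nat_lit 12866423164) (nat_lit 304) (nat_lit 5362903343) (nat_lit 102) (nat_lit 5) (nat_lit 105) (nat_lit 5) (nat_lit 106) (nat_lit 5) (nat_lit 496) (nat_lit 422) (nat_lit 282))))))))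
noncomputable def xc65 : XT := (XT.nd (nat_lit 58188) (nat_lit 0) (nat_lit 11552) (XT.nd (nat_lit 57018) (nat_lit 0) (nat_lit 32224) (XT.nd (nat_lit 546) (nat_lit 760) (nat_lit 0) (XT.nd (nat_lit 234) (nat_lit 760) (nat_lit 0) (XT.nd (nat_lit 78) (nat_lit 532) (nat_lit 0) (XT.lf (nat_lit 0) (nat_lit 5815580377) (nat_lit 380) (nat_lit 20220291434) (nat_lit 76) (nat_lit 2272913333) (nat_lit 97) (nat_lit 5) (nat_lit 102) (nat_lit 5) (nat_lit 98) (nat_lit 5) (nat_lit 497) (nat_lit 422) (nat_lit 281)) (XT.nd (nat_lit 78) (nat_lit 304) (nat_lit 0) (XT.lf (nat_lit 0) (nat_lit 6537098765) (nat_lit 228) (nat_lit 10958678751) (nat_lit 304) (nat_lit 11348375408) (nat_lit 94) (nat_lit 5) (nat_lit 97) (nat_lit 5) (nat_lit 98) (nat_lit 5) (nat_lit 498) (nat_lit 422) (nat_lit 280)) (XT.lf (nat_lit 0) (nat_lit 316493650) (nat_lit 304) (nat_lit 24401834128) (nat_lit 76) (nat_lit 4673488914) (nat_lit 90) (nat_lit 5)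 (nat_lit 94) (nat_lit 5) (nat_lit 91) (nat_lit 5) (nat_lit 499) (nat_lit 422) (nat_lit 279)))) (XT.nd (nat_lit 156) (nat_lit 304) (nat_lit 0) (XT.nd (nat_lit 78) (nat_lit 228) (nat_lit 0) (XT.lf (nat_lit 0) (nat_lit 3328133300) (nat_lit 228) (nat_lit 9083251215) (nat_lit 304) (nat_lit 17538340632) (nat_lit 87) (nat_lit 5) (nat_lit 90) (nat_lit 5) (nat_lit 91) (nat_lit 5) (nat_lit 500) (nat_lit 422) (nat_lit 278)) (XT.lf (nat_lit 0) (nat_lit 1654428216) (nat_lit 228) (nat_lit 23423973966) (nat_lit 304) (nat_lit 5441783210) (nat_lit 84) (nat_lit 5) (nat_lit 87) (nat_lit 5) (nat_lit 88) (nat_lit 5) (nat_lit 501) (nat_lit 422) (nat_lit 277))) (XT.nd (nat_lit 78) (nat_lit 228) (nat_lit 0) (XT.lf (nat_lit 0) (nat_lit 7154627071) (nat_lit 304) (nat_lit 91862121) (nat_lit 76) (nat_lit 23855779234) (nat_lit 83) (nat_lit 5) (nat_lit 87) (nat_lit 5) (nat_lit 84) (nat_lit 5) (nat_lit 502) (nat_lit 422) (nat_lit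 276)) (XT.lf (nat_lit 0) (nat_lit 20299054415) (nat_lit 304) (nat_lit 1882009451) (nat_lit 76) (nat_lit 9515149661) (nat_lit 80) (nat_lit 5) (nat_lit 84) (nat_lit 5) (nat_lit 81) (nat_lit 5) (nat_lit 503) (nat_lit 422) (nat_lit 275))))) (XT.nd (nat_lit 56160) (nat_lit 0) (nat_lit 38228) (XT.nd (nat_lit 78) (nat_lit 456) (nat_lit 0) (XT.lf (nat_lit 0) (nat_lit 1733337797) (nat_lit 304) (nat_lit 3699849454) (nat_lit 76) (nat_lit 26870119913) (nat_lit 76) (nat_lit 5) (nat_lit 80) (nat_lit 5) (nat_lit 77) (nat_lit 5) (nat_lit 504) (nat_lit 422) (nat_lit 274)) (XT.nd (nat_lit 78) (nat_lit 228) (nat_lit 0) (XT.lf (nat_lit 0) (nat_lit 15360065817) (nat_lit 304) (nat_lit 5640811498) (nat_lit 76) (nat_lit 11921086530) (nat_lit 73) (nat_lit 5) (nat_lit 77) (nat_lit 5) (nat_lit 74) (nat_lit 5) (nat_lit 505) (nat_lit 422) (nat_lit 273)) (XT.lf (nat_lit 0) (nat_lit 25965479772) (nat_lit 228) (nat_lit 3647800245)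 (nat_lit 304) (nat_lit 3941546637) (nat_lit 70) (nat_lit 5) (nat_lit 73) (nat_lit 5) (nat_lit 74) (nat_lit 5) (nat_lit 506) (nat_lit 422) (nat_lit 272)))) (XT.nd (nat_lit 156) (nat_lit 0) (nat_lit 76) (XT.nd (nat_lit 78) (nat_lit 0) (nat_lit 0) (XT.lf (nat_lit 0) (nat_lit 710954817) (nat_lit 1596) (nat_lit 1817461116) (nat_lit 1596) (nat_lit 1817461116) (nat_lit 573) (nat_lit 3) (nat_lit 594) (nat_lit 3) (nat_lit 594) (nat_lit 5) (nat_lit 423) (nat_lit 423) (nat_lit 354)) (XT.lf (nat_lit 76) (nat_lit 2892899498) (nat_lit 0) (nat_lit 38964352) (nat_lit 1596) (nat_lit 5860443951) (nat_lit 574) (nat_lit 5) (nat_lit 573) (nat_lit 3) (nat_lit 594) (nat_lit 5) (nat_lit 424) (nat_lit 423) (nat_lit 353))) (XT.nd (nat_lit 78) (nat_lit 0) (nat_lit 76) (XT.lf (nat_lit 76) (nat_lit 715868031) (nat_lit 0) (nat_lit 3776619655) (nat_lit 1596) (nat_lit 4403284962) (nat_lit 575) (nat_lit 5) (nat_lit 574) (nat_lit 5)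 (nat_lit 595) (nat_lit 5) (nat_lit 425) (nat_lit 423) (nat_lit 352)) (XT.lf (nat_lit 0) (nat_lit 6093972275) (nat_lit 1520) (nat_lit 1432751867) (nat_lit 1596) (nat_lit 1475738355) (nat_lit 575) (nat_lit 5) (nat_lit 595) (nat_lit 5) (nat_lit 596) (nat_lit 5) (nat_lit 426) (nat_lit 423) (nat_lit 351)))))) (XT.nd (nat_lit 546) (nat_lit 4636) (nat_lit 0) (XT.nd (nat_lit 234) (nat_lit 0) (nat_lit 76) (XT.nd (nat_lit 78) (nat_lit 1520) (nat_lit 0) (XT.lf (nat_lit 76) (nat_lit 5533292720) (nat_lit 0) (nat_lit 2217277016) (nat_lit 1596) (nat_lit 1361643782) (nat_lit 576) (nat_lit 5) (nat_lit 575) (nat_lit 5) (nat_lit 596) (nat_lit 5) (nat_lit 427) (nat_lit 423) (nat_lit 350)) (XT.nd (nat_lit 78) (nat_lit 0) (nat_lit 0) (XT.lf (nat_lit 0) (nat_lit 229568503) (nat_lit 1596) (nat_lit 5730744536) (nat_lit 1672) (nat_lit 3264895751) (nat_lit 555) (nat_lit 5) (nat_lit 576) (nat_lit 5) (nat_lit 577) (nat_lit 5) (nat_lit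 428) (nat_lit 423) (nat_lit 349)) (XT.lf (nat_lit 76) (nat_lit 1451154215) (nat_lit 0) (nat_lit 396031532) (nat_lit 1672) (nat_lit 7494286506) (nat_lit 556) (nat_lit 5) (nat_lit 555) (nat_lit 5) (nat_lit 577) (nat_lit 5) (nat_lit 429) (nat_lit 423) (nat_lit 348)))) (XT.nd (nat_lit 156) (nat_lit 0) (nat_lit 76) (XT.nd (nat_lit 78) (nat_lit 0) (nat_lit 76) (XT.lf (nat_lit 0) (nat_lit 3536886142) (nat_lit 1596) (nat_lit 600721807) (nat_lit 1672) (nat_lit 5323146232) (nat_lit 556) (nat_lit 5) (nat_lit 577) (nat_lit 5) (nat_lit 578) (nat_lit 5) (nat_lit 430) (nat_lit 423) (nat_lit 347)) (XT.lf (nat_lit 0) (nat_lit 5287395018) (nat_lit 1596) (nat_lit 2629725873) (nat_lit 1672) (nat_lit 1666292932) (nat_lit 557) (nat_lit 5) (nat_lit 578) (nat_lit 5) (nat_lit 579) (nat_lit 5) (nat_lit 431) (nat_lit 423) (nat_lit 346))) (XT.nd (nat_lit 78) (nat_lit 0) (nat_lit 76) (XT.lf (nat_lit 76) (nat_lit 5039741250) (nat_lit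 0) (nat_lit 2067779170) (nat_lit 1672) (nat_lit 2601892368) (nat_lit 558) (nat_lit 5) (nat_lit 557) (nat_lit 5) (nat_lit 579) (nat_lit 5) (nat_lit 432) (nat_lit 423) (nat_lit 345)) (XT.lf (nat_lit 76) (nat_lit 3119107657) (nat_lit 0) (nat_lit 5880907353) (nat_lit 1672) (nat_lit 838822915) (nat_lit 559) (nat_lit 5) (nat_lit 558) (nat_lit 5) (nat_lit 580) (nat_lit 5) (nat_lit 433) (nat_lit 423) (nat_lit 344))))) (XT.nd (nat_lit 312) (nat_lit 3268) (nat_lit 0) (XT.nd (nat_lit 156) (nat_lit 0) (nat_lit 76) (XT.nd (nat_lit 78) (nat_lit 0) (nat_lit 0) (XT.lf (nat_lit 0) (nat_lit 973951372) (nat_lit 1672) (nat_lit 8776563044) (nat_lit 1748) (nat_lit 221313395) (nat_lit 537) (nat_lit 5) (nat_lit 559) (nat_lit 5) (nat_lit 560) (nat_lit 5) (nat_lit 434) (nat_lit 423) (nat_lit 343)) (XT.lf (nat_lit 0) (nat_lit 2870853591) (nat_lit 1672) (nat_lit 746402105) (nat_lit 1748) (nat_lit 6490619383) (nat_lit 537) (nat_lit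 5) (nat_lit 559) (nat_lit 5) (nat_lit 560) (nat_lit 5) (nat_lit 435) (nat_lit 423) (nat_lit 342))) (XT.nd (nat_lit 78) (nat_lit 0) (nat_lit 0) (XT.lf (nat_lit 0) (nat_lit 4849078947) (nat_lit 1672) (nat_lit 2673561422) (nat_lit 1748) (nat_lit 2724876433) (nat_lit 538) (nat_lit 5) (nat_lit 560) (nat_lit 5) (nat_lit 561) (nat_lit 5) (nat_lit 436) (nat_lit 423) (nat_lit 341)) (XT.lf (nat_lit 76) (nat_lit 5782122972) (nat_lit 0) (nat_lit 1129655539) (nat_lit 1748) (nat_lit 3479068034) (nat_lit 539) (nat_lit 5) (nat_lit 538) (nat_lit 5) (nat_lit 561) (nat_lit 5) (nat_lit 437) (nat_lit 423) (nat_lit 340)))) (XT.nd (nat_lit 156) (nat_lit 1748) (nat_lit 0) (XT.nd (nat_lit 78) (nat_lit 1672) (nat_lit 0) (XT.lf (nat_lit 76) (nat_lit 3973811402) (nat_lit 0) (nat_lit 5101372886) (nat_lit 1748) (nat_lit 1462516668) (nat_lit 540) (nat_lit 5) (nat_lit 539) (nat_lit 5) (nat_lit 562) (nat_lit 5) (nat_lit 438) (nat_lit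 423) (nat_lit 339)) (XT.lf (nat_lit 0) (nat_lit 629731599) (nat_lit 1748) (nat_lit 8526116597) (nat_lit 76) (nat_lit 1532569021) (nat_lit 517) (nat_lit 5) (nat_lit 540) (nat_lit 5) (nat_lit 518) (nat_lit 5) (nat_lit 439) (nat_lit 423) (nat_lit 338))) (XT.nd (nat_lit 78) (nat_lit 0) (nat_lit 0) (XT.lf (nat_lit 0) (nat_lit 324401001) (nat_lit 1748) (nat_lit 2482662244) (nat_lit 1824) (nat_lit 8035555843) (nat_lit 494) (nat_lit 5) (nat_lit 517) (nat_lit 5) (nat_lit 518) (nat_lit 5) (nat_lit 440) (nat_lit 423) (nat_lit 337)) (XT.lf (nat_lit 0) (nat_lit 5098416736) (nat_lit 1824) (nat_lit 1505323864) (nat_lit 76) (nat_lit 4396733526) (nat_lit 494) (nat_lit 5) (nat_lit 518) (nat_lit 5) (nat_lit 495) (nat_lit 5) (nat_lit 441) (nat_lit 423) (nat_lit 336))))))) (XT.nd (nat_lit 1170) (nat_lit 8512) (nat_lit 0) (XT.nd (nat_lit 546) (nat_lit 5548) (nat_lit 0) (XT.nd (nat_lit 234) (nat_lit 2660) (nat_lit 0) (XT.nd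 (nat_lit 78) (nat_lit 2128) (nat_lit 0) (XT.lf (nat_lit 0) (nat_lit 7491329059) (nat_lit 1900) (nat_lit 3332923198) (nat_lit 76) (nat_lit 338157308) (nat_lit 470) (nat_lit 5) (nat_lit 495) (nat_lit 5) (nat_lit 471) (nat_lit 5) (nat_lit 442) (nat_lit 423) (nat_lit 335)) (XT.nd (nat_lit 78) (nat_lit 988) (nat_lit 0) (XT.lf (nat_lit 0) (nat_lit 6139702824) (nat_lit 1140) (nat_lit 3874655506) (nat_lit 1216) (nat_lit 1313679228) (nat_lit 455) (nat_lit 5) (nat_lit 470) (nat_lit 5) (nat_lit 471) (nat_lit 5) (nat_lit 443) (nat_lit 423) (nat_lit 334)) (XT.lf (nat_lit 0) (nat_lit 1137906237) (nat_lit 988) (nat_lit 7057282558) (nat_lit 76) (nat_lit 3302540345) (nat_lit 442) (nat_lit 5) (nat_lit 455) (nat_lit 5) (nat_lit 443) (nat_lit 5) (nat_lit 444) (nat_lit 423) (nat_lit 333)))) (XT.nd (nat_lit 156) (nat_lit 912) (nat_lit 0) (XT.nd (nat_lit 78) (nat_lit 836) (nat_lit 0) (XT.lf (nat_lit 0) (nat_lit 2725454788)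 (nat_lit 912) (nat_lit 964317544) (nat_lit 988) (nat_lit 7981674854) (nat_lit 430) (nat_lit 5) (nat_lit 442) (nat_lit 5) (nat_lit 443) (nat_lit 5) (nat_lit 445) (nat_lit 423) (nat_lit 332)) (XT.lf (nat_lit 0) (nat_lit 986564234) (nat_lit 836) (nat_lit 5394558278) (nat_lit 912) (nat_lit 5467996669) (nat_lit 419) (nat_lit 5) (nat_lit 430) (nat_lit 5) (nat_lit 431) (nat_lit 5) (nat_lit 446) (nat_lit 423) (nat_lit 331))) (XT.nd (nat_lit 78) (nat_lit 912) (nat_lit 0) (XT.lf (nat_lit 0) (nat_lit 9201023061) (nat_lit 912) (nat_lit 744430775) (nat_lit 76) (nat_lit 2085712247) (nat_lit 419) (nat_lit 5) (nat_lit 431) (nat_lit 5) (nat_lit 420) (nat_lit 5) (nat_lit 447) (nat_lit 423) (nat_lit 330)) (XT.lf (nat_lit 0) (nat_lit 9736872210) (nat_lit 912) (nat_lit 2435966773) (nat_lit 988) (nat_lit 44489957) (nat_lit 407) (nat_lit 5) (nat_lit 419) (nat_lit 5) (nat_lit 420) (nat_lit 5) (nat_lit 448) (nat_lit 423) (nat_lit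 329))))) (XT.nd (nat_lit 312) (nat_lit 2280) (nat_lit 0) (XT.nd (nat_lit 156) (nat_lit 1520) (nat_lit 0) (XT.nd (nat_lit 78) (nat_lit 836) (nat_lit 0) (XT.lf (nat_lit 0) (nat_lit 2849396400) (nat_lit 912) (nat_lit 4252091115) (nat_lit 76) (nat_lit 5305989026) (nat_lit 395) (nat_lit 5) (nat_lit 407) (nat_lit 5) (nat_lit 396) (nat_lit 5) (nat_lit 449) (nat_lit 423) (nat_lit 328)) (XT.lf (nat_lit 0) (nat_lit 5879246748) (nat_lit 912) (nat_lit 6028129046) (nat_lit 76) (nat_lit 694952703) (nat_lit 384) (nat_lit 5) (nat_lit 396) (nat_lit 5) (nat_lit 385) (nat_lit 5) (nat_lit 450) (nat_lit 423) (nat_lit 327))) (XT.nd (nat_lit 78) (nat_lit 760) (nat_lit 0) (XT.lf (nat_lit 0) (nat_lit 4966428243) (nat_lit 760) (nat_lit 4112238909) (nat_lit 836) (nat_lit 3722786190) (nat_lit 374) (nat_lit 5) (nat_lit 384) (nat_lit 5) (nat_lit 385) (nat_lit 5) (nat_lit 451) (nat_lit 423) (nat_lit 326)) (XT.lf (nat_lit 0) (nat_lit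 3353773227) (nat_lit 760) (nat_lit 9079212144) (nat_lit 836) (nat_lit 572389056) (nat_lit 364) (nat_lit 5) (nat_lit 374) (nat_lit 5) (nat_lit 375) (nat_lit 5) (nat_lit 452) (nat_lit 423) (nat_lit 325)))) (XT.nd (nat_lit 156) (nat_lit 684) (nat_lit 0) (XT.nd (nat_lit 78) (nat_lit 760) (nat_lit 0) (XT.lf (nat_lit 0) (nat_lit 1716462047) (nat_lit 760) (nat_lit 984147697) (nat_lit 836) (nat_lit 10513194315) (nat_lit 353) (nat_lit 5) (nat_lit 363) (nat_lit 5) (nat_lit 364) (nat_lit 5) (nat_lit 453) (nat_lit 423) (nat_lit 324)) (XT.lf (nat_lit 0) (nat_lit 47107745) (nat_lit 760) (nat_lit 6102515215) (nat_lit 836) (nat_lit 7277076669) (nat_lit 343) (nat_lit 5) (nat_lit 353) (nat_lit 5) (nat_lit 354) (nat_lit 5) (nat_lit 454) (nat_lit 423) (nat_lit 323))) (XT.nd (nat_lit 78) (nat_lit 684) (nat_lit 0) (XT.lf (nat_lit 0) (nat_lit 9773766757) (nat_lit 836) (nat_lit 1602656015) (nat_lit 76) (nat_lit 2268126804)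 (nat_lit 343) (nat_lit 5) (nat_lit 354) (nat_lit 5) (nat_lit 344) (nat_lit 5) (nat_lit 455) (nat_lit 423) (nat_lit 322)) (XT.lf (nat_lit 0) (nat_lit 10594644851) (nat_lit 684) (nat_lit 2994661517) (nat_lit 760) (nat_lit 277975921) (nat_lit 334) (nat_lit 5) (nat_lit 343) (nat_lit 5) (nat_lit 344) (nat_lit 5) (nat_lit 456) (nat_lit 423) (nat_lit 321)))))) (XT.nd (nat_lit 546) (nat_lit 4484) (nat_lit 0) (XT.nd (nat_lit 234) (nat_lit 1900) (nat_lit 0) (XT.nd (nat_lit 78) (nat_lit 1368) (nat_lit 0) (XT.lf (nat_lit 0) (nat_lit 3458745492) (nat_lit 760) (nat_lit 4982468731) (nat_lit 76) (nat_lit 5653418610) (nat_lit 324) (nat_lit 5) (nat_lit 334) (nat_lit 5) (nat_lit 325) (nat_lit 5) (nat_lit 457) (nat_lit 423) (nat_lit 320)) (XT.nd (nat_lit 78) (nat_lit 684) (nat_lit 0) (XT.lf (nat_lit 0) (nat_lit 7371449276) (nat_lit 760) (nat_lit 6697063278) (nat_lit 76) (nat_lit 258902088) (nat_lit 315) (nat_lit 5) (nat_lit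 325) (nat_lit 5) (nat_lit 316) (nat_lit 5) (nat_lit 458) (nat_lit 423) (nat_lit 319)) (XT.lf (nat_lit 0) (nat_lit 6115894128) (nat_lit 684) (nat_lit 5390341395) (nat_lit 760) (nat_lit 3058850978) (nat_lit 306) (nat_lit 5) (nat_lit 315) (nat_lit 5) (nat_lit 316) (nat_lit 5) (nat_lit 459) (nat_lit 423) (nat_lit 318)))) (XT.nd (nat_lit 156) (nat_lit 608) (nat_lit 0) (XT.nd (nat_lit 78) (nat_lit 608) (nat_lit 0) (XT.lf (nat_lit 0) (nat_lit 1016800115) (nat_lit 684) (nat_lit 10213012984) (nat_lit 76) (nat_lit 3578468965) (nat_lit 297) (nat_lit 5) (nat_lit 306) (nat_lit 5) (nat_lit 298) (nat_lit 5) (nat_lit 460) (nat_lit 423) (nat_lit 317)) (XT.lf (nat_lit 0) (nat_lit 3041412291) (nat_lit 608) (nat_lit 2220847009) (nat_lit 684) (nat_lit 9794328463) (nat_lit 289) (nat_lit 5) (nat_lit 297) (nat_lit 5) (nat_lit 298) (nat_lit 5) (nat_lit 461) (nat_lit 423) (nat_lit 316))) (XT.nd (nat_lit 78) (nat_lit 0) (nat_lit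 0) (XT.lf (nat_lit 0) (nat_lit 1464604188) (nat_lit 608) (nat_lit 8271391101) (nat_lit 684) (nat_lit 5574329641) (nat_lit 281) (nat_lit 5) (nat_lit 289) (nat_lit 5) (nat_lit 290) (nat_lit 5) (nat_lit 462) (nat_lit 423) (nat_lit 315)) (XT.lf (nat_lit 0) (nat_lit 14423360467) (nat_lit 684) (nat_lit 108987054) (nat_lit 76) (nat_lit 1037738893) (nat_lit 281) (nat_lit 5) (nat_lit 290) (nat_lit 5) (nat_lit 282) (nat_lit 5) (nat_lit 463) (nat_lit 423) (nat_lit 314))))) (XT.nd (nat_lit 312) (nat_lit 2052) (nat_lit 0) (XT.nd (nat_lit 156) (nat_lit 1216) (nat_lit 0) (XT.nd (nat_lit 78) (nat_lit 532) (nat_lit 0) (XT.lf (nat_lit 0) (nat_lit 3493941944) (nat_lit 684) (nat_lit 1717827180) (nat_lit 76) (nat_lit 10622928705) (nat_lit 272) (nat_lit 5) (nat_lit 281) (nat_lit 5) (nat_lit 273) (nat_lit 5) (nat_lit 464) (nat_lit 423) (nat_lit 313)) (XT.lf (nat_lit 0) (nat_lit 8348598167) (nat_lit 608) (nat_lit 3340523666)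 (nat_lit 76) (nat_lit 4416167702) (nat_lit 265) (nat_lit 5) (nat_lit 273) (nat_lit 5) (nat_lit 266) (nat_lit 5) (nat_lit 465) (nat_lit 423) (nat_lit 312))) (XT.nd (nat_lit 78) (nat_lit 608) (nat_lit 0) (XT.lf (nat_lit 0) (nat_lit 11406846856) (nat_lit 608) (nat_lit 2040496673) (nat_lit 684) (nat_lit 2934686960) (nat_lit 257) (nat_lit 5) (nat_lit 265) (nat_lit 5) (nat_lit 266) (nat_lit 5) (nat_lit 466) (nat_lit 423) (nat_lit 311)) (XT.lf (nat_lit 0) (nat_lit 2123495200) (nat_lit 608) (nat_lit 6652201454) (nat_lit 76) (nat_lit 7888750275) (nat_lit 249) (nat_lit 5) (nat_lit 257) (nat_lit 5) (nat_lit 250) (nat_lit 5) (nat_lit 467) (nat_lit 423) (nat_lit 310)))) (XT.nd (nat_lit 156) (nat_lit 1064) (nat_lit 0) (XT.nd (nat_lit 78) (nat_lit 456) (nat_lit 0) (XT.lf (nat_lit 0) (nat_lit 7383850657) (nat_lit 608) (nat_lit 8348262622) (nat_lit 76) (nat_lit 1221029094) (nat_lit 242) (nat_lit 5) (nat_lit 250) (nat_lit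 5) (nat_lit 243) (nat_lit 5) (nat_lit 468) (nat_lit 423) (nat_lit 309)) (XT.lf (nat_lit 0) (nat_lit 7167115404) (nat_lit 456) (nat_lit 5764421740) (nat_lit 532) (nat_lit 4316371566) (nat_lit 236) (nat_lit 5) (nat_lit 242) (nat_lit 5) (nat_lit 243) (nat_lit 5) (nat_lit 469) (nat_lit 423) (nat_lit 308))) (XT.nd (nat_lit 78) (nat_lit 456) (nat_lit 0) (XT.lf (nat_lit 0) (nat_lit 1183136658) (nat_lit 608) (nat_lit 11828806157) (nat_lit 76) (nat_lit 4537366554) (nat_lit 228) (nat_lit 5) (nat_lit 236) (nat_lit 5) (nat_lit 229) (nat_lit 5) (nat_lit 470) (nat_lit 423) (nat_lit 307)) (XT.lf (nat_lit 0) (nat_lit 4234384570) (nat_lit 456) (nat_lit 2669326284) (nat_lit 532) (nat_lit 10953176508) (nat_lit 222) (nat_lit 5) (nat_lit 228) (nat_lit 5) (nat_lit 229) (nat_lit 5) (nat_lit 471) (nat_lit 423) (nat_lit 306))))))))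
noncomputable def xc66 : XT := (XT.nd (nat_lit 2262) (nat_lit 1520) (nat_lit 0) (XT.nd (nat_lit 1092) (nat_lit 4484) (nat_lit 0) (XT.nd (nat_lit 546) (nat_lit 2812) (nat_lit 0) (XT.nd (nat_lit 234) (nat_lit 1748) (nat_lit 0) (XT.nd (nat_lit 78) (nat_lit 532) (nat_lit 0) (XT.lf (nat_lit 0) (nat_lit 2724052786) (nat_lit 456) (nat_lit 10201998927) (nat_lit 532) (nat_lit 5245038386) (nat_lit 216) (nat_lit 5) (nat_lit 222) (nat_lit 5) (nat_lit 223) (nat_lit 5) (nat_lit 472) (nat_lit 423) (nat_lit 305)) (XT.nd (nat_lit 78) (nat_lit 0) (nat_lit 0) (XT.lf (nat_lit 0) (nat_lit 728140199) (nat_lit 532) (nat_lit 17276260285) (nat_lit 76) (nat_lit 488194117) (nat_lit 209) (nat_lit 5) (nat_lit 216) (nat_lit 5) (nat_lit 210) (nat_lit 5) (nat_lit 473) (nat_lit 423) (nat_lit 304)) (XT.lf (nat_lit 0) (nat_lit 6963805572) (nat_lit 532) (nat_lit 362871915) (nat_lit 76) (nat_lit 11493282701) (nat_lit 209) (nat_lit 5) (nat_lit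 216) (nat_lit 5) (nat_lit 210) (nat_lit 5) (nat_lit 474) (nat_lit 423) (nat_lit 303)))) (XT.nd (nat_lit 156) (nat_lit 836) (nat_lit 0) (XT.nd (nat_lit 78) (nat_lit 456) (nat_lit 0) (XT.lf (nat_lit 0) (nat_lit 13504225505) (nat_lit 532) (nat_lit 1923015002) (nat_lit 76) (nat_lit 3727552897) (nat_lit 203) (nat_lit 5) (nat_lit 210) (nat_lit 5) (nat_lit 204) (nat_lit 5) (nat_lit 475) (nat_lit 423) (nat_lit 302)) (XT.lf (nat_lit 0) (nat_lit 869118311) (nat_lit 456) (nat_lit 3509625327) (nat_lit 76) (nat_lit 15118079013) (nat_lit 197) (nat_lit 5) (nat_lit 203) (nat_lit 5) (nat_lit 198) (nat_lit 5) (nat_lit 476) (nat_lit 423) (nat_lit 301))) (XT.nd (nat_lit 78) (nat_lit 380) (nat_lit 0) (XT.lf (nat_lit 0) (nat_lit 7644939735) (nat_lit 532) (nat_lit 5152402916) (nat_lit 76) (nat_lit 7048277170) (nat_lit 191) (nat_lit 5) (nat_lit 198) (nat_lit 5) (nat_lit 192) (nat_lit 5) (nat_lit 477) (nat_lit 423) (nat_lit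 300)) (XT.lf (nat_lit 0) (nat_lit 13405165553) (nat_lit 380) (nat_lit 1341114896) (nat_lit 456) (nat_lit 5456155880) (nat_lit 186) (nat_lit 5) (nat_lit 191) (nat_lit 5) (nat_lit 192) (nat_lit 5) (nat_lit 478) (nat_lit 423) (nat_lit 299))))) (XT.nd (nat_lit 234) (nat_lit 1596) (nat_lit 0) (XT.nd (nat_lit 78) (nat_lit 760) (nat_lit 0) (XT.lf (nat_lit 0) (nat_lit 1636029065) (nat_lit 456) (nat_lit 8493208960) (nat_lit 76) (nat_lit 10437228518) (nat_lit 180) (nat_lit 5) (nat_lit 186) (nat_lit 5) (nat_lit 181) (nat_lit 5) (nat_lit 479) (nat_lit 423) (nat_lit 298)) (XT.nd (nat_lit 78) (nat_lit 380) (nat_lit 0) (XT.lf (nat_lit 0) (nat_lit 8986191722) (nat_lit 456) (nat_lit 10219156939) (nat_lit 76) (nat_lit 1732961190) (nat_lit 175) (nat_lit 5) (nat_lit 181) (nat_lit 5) (nat_lit 176) (nat_lit 5) (nat_lit 480) (nat_lit 423) (nat_lit 297)) (XT.lf (nat_lit 0) (nat_lit 9331760019) (nat_lit 380) (nat_lit 7394150998)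 (nat_lit 456) (nat_lit 4592016690) (nat_lit 170) (nat_lit 5) (nat_lit 175) (nat_lit 5) (nat_lit 176) (nat_lit 5) (nat_lit 481) (nat_lit 423) (nat_lit 296)))) (XT.nd (nat_lit 156) (nat_lit 760) (nat_lit 0) (XT.nd (nat_lit 78) (nat_lit 380) (nat_lit 0) (XT.lf (nat_lit 0) (nat_lit 3085937223) (nat_lit 456) (nat_lit 13778531727) (nat_lit 76) (nat_lit 4841352319) (nat_lit 164) (nat_lit 5) (nat_lit 170) (nat_lit 5) (nat_lit 165) (nat_lit 5) (nat_lit 482) (nat_lit 423) (nat_lit 295)) (XT.lf (nat_lit 0) (nat_lit 6476602998) (nat_lit 380) (nat_lit 4612131608) (nat_lit 456) (nat_lit 11012872379) (nat_lit 159) (nat_lit 5) (nat_lit 164) (nat_lit 5) (nat_lit 165) (nat_lit 5) (nat_lit 483) (nat_lit 423) (nat_lit 294))) (XT.nd (nat_lit 78) (nat_lit 456) (nat_lit 0) (XT.lf (nat_lit 0) (nat_lit 5007682329) (nat_lit 304) (nat_lit 14485962639) (nat_lit 380) (nat_lit 3012380978) (nat_lit 155) (nat_lit 5) (nat_lit 159)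 (nat_lit 5) (nat_lit 160) (nat_lit 5) (nat_lit 484) (nat_lit 423) (nat_lit 293)) (XT.lf (nat_lit 0) (nat_lit 3507504875) (nat_lit 380) (nat_lit 1795994462) (nat_lit 456) (nat_lit 17615520652) (nat_lit 149) (nat_lit 5) (nat_lit 154) (nat_lit 5) (nat_lit 155) (nat_lit 5) (nat_lit 485) (nat_lit 423) (nat_lit 292)))))) (XT.nd (nat_lit 546) (nat_lit 2432) (nat_lit 0) (XT.nd (nat_lit 234) (nat_lit 1292) (nat_lit 0) (XT.nd (nat_lit 78) (nat_lit 456) (nat_lit 0) (XT.lf (nat_lit 0) (nat_lit 1946801697) (nat_lit 304) (nat_lit 12070555499) (nat_lit 380) (nat_lit 9322860103) (nat_lit 145) (nat_lit 5) (nat_lit 149) (nat_lit 5) (nat_lit 150) (nat_lit 5) (nat_lit 486) (nat_lit 423) (nat_lit 291)) (XT.nd (nat_lit 78) (nat_lit 76) (nat_lit 0) (XT.lf (nat_lit 0) (nat_lit 401130170) (nat_lit 380) (nat_lit 22728712001) (nat_lit 456) (nat_lit 641464359) (nat_lit 140) (nat_lit 5) (nat_lit 145) (nat_lit 5) (nat_lit 146) (nat_lit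 5) (nat_lit 487) (nat_lit 423) (nat_lit 290)) (XT.lf (nat_lit 0) (nat_lit 8402589256) (nat_lit 456) (nat_lit 1230898878) (nat_lit 76) (nat_lit 14576541151) (nat_lit 139) (nat_lit 5) (nat_lit 145) (nat_lit 5) (nat_lit 140) (nat_lit 5) (nat_lit 488) (nat_lit 423) (nat_lit 289)))) (XT.nd (nat_lit 156) (nat_lit 608) (nat_lit 0) (XT.nd (nat_lit 78) (nat_lit 380) (nat_lit 0) (XT.lf (nat_lit 0) (nat_lit 17861847780) (nat_lit 380) (nat_lit 2855166636) (nat_lit 76) (nat_lit 3941762751) (nat_lit 135) (nat_lit 5) (nat_lit 140) (nat_lit 5) (nat_lit 136) (nat_lit 5) (nat_lit 489) (nat_lit 423) (nat_lit 288)) (XT.lf (nat_lit 0) (nat_lit 2644304964) (nat_lit 380) (nat_lit 4527935560) (nat_lit 76) (nat_lit 17944564917) (nat_lit 130) (nat_lit 5) (nat_lit 135) (nat_lit 5) (nat_lit 131) (nat_lit 5) (nat_lit 490) (nat_lit 423) (nat_lit 287))) (XT.nd (nat_lit 78) (nat_lit 304) (nat_lit 0) (XT.lf (nat_lit 0) (nat_lit 12452707293)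 (nat_lit 380) (nat_lit 6258820191) (nat_lit 76) (nat_lit 6872623229) (nat_lit 126) (nat_lit 5) (nat_lit 131) (nat_lit 5) (nat_lit 127) (nat_lit 5) (nat_lit 491) (nat_lit 423) (nat_lit 286)) (XT.lf (nat_lit 0) (nat_lit 18055923607) (nat_lit 304) (nat_lit 4681018422) (nat_lit 380) (nat_lit 3324942896) (nat_lit 122) (nat_lit 5) (nat_lit 126) (nat_lit 5) (nat_lit 127) (nat_lit 5) (nat_lit 492) (nat_lit 423) (nat_lit 285))))) (XT.nd (nat_lit 312) (nat_lit 1140) (nat_lit 0) (XT.nd (nat_lit 156) (nat_lit 608) (nat_lit 0) (XT.nd (nat_lit 78) (nat_lit 304) (nat_lit 0) (XT.lf (nat_lit 0) (nat_lit 6888902228) (nat_lit 380) (nat_lit 9830243238) (nat_lit 76) (nat_lit 9829885728) (nat_lit 117) (nat_lit 5) (nat_lit 122) (nat_lit 5) (nat_lit 118) (nat_lit 5) (nat_lit 493) (nat_lit 423) (nat_lit 284)) (XT.lf (nat_lit 0) (nat_lit 15369207850) (nat_lit 304) (nat_lit 2166619553) (nat_lit 380) (nat_lit 9511088310) (nat_lit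 113) (nat_lit 5) (nat_lit 117) (nat_lit 5) (nat_lit 118) (nat_lit 5) (nat_lit 494) (nat_lit 423) (nat_lit 283))) (XT.nd (nat_lit 78) (nat_lit 304) (nat_lit 0) (XT.lf (nat_lit 0) (nat_lit 1158699552) (nat_lit 304) (nat_lit 13585860707) (nat_lit 76) (nat_lit 12810481580) (nat_lit 109) (nat_lit 5) (nat_lit 113) (nat_lit 5) (nat_lit 110) (nat_lit 5) (nat_lit 495) (nat_lit 423) (nat_lit 282)) (XT.lf (nat_lit 0) (nat_lit 12184113591) (nat_lit 380) (nat_lit 15545208569) (nat_lit 76) (nat_lit 344537364) (nat_lit 105) (nat_lit 5) (nat_lit 110) (nat_lit 5) (nat_lit 106) (nat_lit 5) (nat_lit 496) (nat_lit 423) (nat_lit 281)))) (XT.nd (nat_lit 156) (nat_lit 532) (nat_lit 0) (XT.nd (nat_lit 78) (nat_lit 380) (nat_lit 0) (XT.lf (nat_lit 0) (nat_lit 11028499734) (nat_lit 228) (nat_lit 12761104377) (nat_lit 304) (nat_lit 4813651505) (nat_lit 102) (nat_lit 5) (nat_lit 105) (nat_lit 5) (nat_lit 106) (nat_lit 5) (nat_lit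 497) (nat_lit 423) (nat_lit 280)) (XT.lf (nat_lit 0) (nat_lit 6681282627) (nat_lit 380) (nat_lit 19638886315) (nat_lit 76) (nat_lit 2824047492) (nat_lit 97) (nat_lit 5) (nat_lit 102) (nat_lit 5) (nat_lit 98) (nat_lit 5) (nat_lit 498) (nat_lit 423) (nat_lit 279))) (XT.nd (nat_lit 78) (nat_lit 304) (nat_lit 0) (XT.lf (nat_lit 0) (nat_lit 7901951476) (nat_lit 228) (nat_lit 10797389383) (nat_lit 304) (nat_lit 10996555504) (nat_lit 94) (nat_lit 5) (nat_lit 97) (nat_lit 5) (nat_lit 98) (nat_lit 5) (nat_lit 499) (nat_lit 423) (nat_lit 278)) (XT.lf (nat_lit 0) (nat_lit 999972511) (nat_lit 304) (nat_lit 23964916229) (nat_lit 76) (nat_lit 5295195778) (nat_lit 90) (nat_lit 5) (nat_lit 94) (nat_lit 5) (nat_lit 91) (nat_lit 5) (nat_lit 500) (nat_lit 423) (nat_lit 277))))))) (XT.nd (nat_lit 57096) (nat_lit 0) (nat_lit 27360) (XT.nd (nat_lit 56472) (nat_lit 0) (nat_lit 36784) (XT.nd (nat_lit 234) (nat_lit 760) (nat_lit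 0) (XT.nd (nat_lit 78) (nat_lit 532) (nat_lit 0) (XT.lf (nat_lit 0) (nat_lit 4577985024) (nat_lit 228) (nat_lit 8867561087) (nat_lit 304) (nat_lit 17389427600) (nat_lit 87) (nat_lit 5) (nat_lit 90) (nat_lit 5) (nat_lit 91) (nat_lit 5) (nat_lit 501) (nat_lit 423) (nat_lit 276)) (XT.nd (nat_lit 78) (nat_lit 304) (nat_lit 0) (XT.lf (nat_lit 0) (nat_lit 2845321400) (nat_lit 228) (nat_lit 23638463734) (nat_lit 304) (nat_lit 4938938611) (nat_lit 84) (nat_lit 5) (nat_lit 87) (nat_lit 5) (nat_lit 88) (nat_lit 5) (nat_lit 502) (nat_lit 423) (nat_lit 275)) (XT.lf (nat_lit 0) (nat_lit 1035469958) (nat_lit 228) (nat_lit 6978734512) (nat_lit 304) (nat_lit 24008226962) (nat_lit 80) (nat_lit 5) (nat_lit 83) (nat_lit 5) (nat_lit 84) (nat_lit 5) (nat_lit 503) (nat_lit 423) (nat_lit 274)))) (XT.nd (nat_lit 156) (nat_lit 456) (nat_lit 0) (XT.nd (nat_lit 78) (nat_lit 304) (nat_lit 0) (XT.lf (nat_lit 0) (nat_lit 21537846542)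 (nat_lit 304) (nat_lit 830597085) (nat_lit 76) (nat_lit 10266053806) (nat_lit 80) (nat_lit 5) (nat_lit 84) (nat_lit 5) (nat_lit 81) (nat_lit 5) (nat_lit 504) (nat_lit 423) (nat_lit 273)) (XT.lf (nat_lit 0) (nat_lit 2407992695) (nat_lit 304) (nat_lit 2712665654) (nat_lit 76) (nat_lit 28139289137) (nat_lit 76) (nat_lit 5) (nat_lit 80) (nat_lit 5) (nat_lit 77) (nat_lit 5) (nat_lit 505) (nat_lit 423) (nat_lit 272))) (XT.nd (nat_lit 78) (nat_lit 228) (nat_lit 0) (XT.lf (nat_lit 0) (nat_lit 16435445360) (nat_lit 304) (nat_lit 4720480860) (nat_lit 76) (nat_lit 12741399360) (nat_lit 73) (nat_lit 5) (nat_lit 77) (nat_lit 5) (nat_lit 74) (nat_lit 5) (nat_lit 506) (nat_lit 423) (nat_lit 271)) (XT.lf (nat_lit 0) (nat_lit 27816322413) (nat_lit 228) (nat_lit 3288992600) (nat_lit 304) (nat_lit 3444078244) (nat_lit 70) (nat_lit 5) (nat_lit 73) (nat_lit 5) (nat_lit 74) (nat_lit 5) (nat_lit 507) (nat_lit 423) (nat_lit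 270))))) (XT.nd (nat_lit 312) (nat_lit 1444) (nat_lit 0) (XT.nd (nat_lit 156) (nat_lit 0) (nat_lit 76) (XT.nd (nat_lit 78) (nat_lit 0) (nat_lit 0) (XT.lf (nat_lit 0) (nat_lit 2187997381) (nat_lit 1596) (nat_lit 1129546042) (nat_lit 1596) (nat_lit 1129546042) (nat_lit 573) (nat_lit 3) (nat_lit 594) (nat_lit 3) (nat_lit 594) (nat_lit 5) (nat_lit 424) (nat_lit 424) (nat_lit 352)) (XT.lf (nat_lit 76) (nat_lit 4440473920) (nat_lit 0) (nat_lit 1415459216) (nat_lit 1596) (nat_lit 3143325285) (nat_lit 574) (nat_lit 5) (nat_lit 573) (nat_lit 3) (nat_lit 594) (nat_lit 5) (nat_lit 425) (nat_lit 424) (nat_lit 351))) (XT.nd (nat_lit 78) (nat_lit 0) (nat_lit 76) (XT.lf (nat_lit 76) (nat_lit 2239113423) (nat_lit 0) (nat_lit 5142738058) (nat_lit 1596) (nat_lit 1725609023) (nat_lit 575) (nat_lit 5) (nat_lit 574) (nat_lit 5) (nat_lit 595) (nat_lit 5) (nat_lit 426) (nat_lit 424) (nat_lit 350)) (XT.lf (nat_lit 76) (nat_lit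 44350947) (nat_lit 0) (nat_lit 8899189644) (nat_lit 1596) (nat_lit 275569983) (nat_lit 576) (nat_lit 5) (nat_lit 575) (nat_lit 5) (nat_lit 596) (nat_lit 5) (nat_lit 427) (nat_lit 424) (nat_lit 349)))) (XT.nd (nat_lit 156) (nat_lit 0) (nat_lit 76) (XT.nd (nat_lit 78) (nat_lit 0) (nat_lit 76) (XT.lf (nat_lit 0) (nat_lit 1231699336) (nat_lit 1596) (nat_lit 2147481924) (nat_lit 1672) (nat_lit 5954178373) (nat_lit 554) (nat_lit 5) (nat_lit 575) (nat_lit 5) (nat_lit 576) (nat_lit 5) (nat_lit 428) (nat_lit 424) (nat_lit 348)) (XT.lf (nat_lit 0) (nat_lit 2779054862) (nat_lit 1596) (nat_lit 4339930749) (nat_lit 1672) (nat_lit 2332043534) (nat_lit 555) (nat_lit 5) (nat_lit 576) (nat_lit 5) (nat_lit 577) (nat_lit 5) (nat_lit 429) (nat_lit 424) (nat_lit 347))) (XT.nd (nat_lit 78) (nat_lit 0) (nat_lit 76) (XT.lf (nat_lit 76) (nat_lit 3032071428) (nat_lit 0) (nat_lit 1349054613) (nat_lit 1672) (nat_lit 5190938408)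 (nat_lit 556) (nat_lit 5) (nat_lit 555) (nat_lit 5) (nat_lit 577) (nat_lit 5) (nat_lit 430) (nat_lit 424) (nat_lit 346)) (XT.lf (nat_lit 76) (nat_lit 940331954) (nat_lit 0) (nat_lit 5109168168) (nat_lit 1672) (nat_lit 3646867432) (nat_lit 557) (nat_lit 5) (nat_lit 556) (nat_lit 5) (nat_lit 578) (nat_lit 5) (nat_lit 431) (nat_lit 424) (nat_lit 345)))))) (XT.nd (nat_lit 546) (nat_lit 8056) (nat_lit 0) (XT.nd (nat_lit 234) (nat_lit 0) (nat_lit 0) (XT.nd (nat_lit 78) (nat_lit 1596) (nat_lit 0) (XT.lf (nat_lit 0) (nat_lit 7781068271) (nat_lit 1596) (nat_lit 1134769114) (nat_lit 1672) (nat_lit 908301023) (nat_lit 557) (nat_lit 5) (nat_lit 578) (nat_lit 5) (nat_lit 579) (nat_lit 5) (nat_lit 432) (nat_lit 424) (nat_lit 344)) (XT.nd (nat_lit 78) (nat_lit 1596) (nat_lit 0) (XT.lf (nat_lit 76) (nat_lit 6739248199) (nat_lit 0) (nat_lit 2858590715) (nat_lit 1672) (nat_lit 357239834) (nat_lit 558) (nat_lit 5) (nat_lit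 557) (nat_lit 5) (nat_lit 579) (nat_lit 5) (nat_lit 433) (nat_lit 424) (nat_lit 343)) (XT.lf (nat_lit 0) (nat_lit 1378480330) (nat_lit 1672) (nat_lit 5313264551) (nat_lit 1748) (nat_lit 3397676668) (nat_lit 536) (nat_lit 5) (nat_lit 558) (nat_lit 5) (nat_lit 559) (nat_lit 5) (nat_lit 434) (nat_lit 424) (nat_lit 342)))) (XT.nd (nat_lit 156) (nat_lit 0) (nat_lit 152) (XT.nd (nat_lit 78) (nat_lit 0) (nat_lit 76) (XT.lf (nat_lit 76) (nat_lit 2809102623) (nat_lit 0) (nat_lit 368954982) (nat_lit 1748) (nat_lit 7049358381) (nat_lit 537) (nat_lit 5) (nat_lit 536) (nat_lit 5) (nat_lit 559) (nat_lit 5) (nat_lit 435) (nat_lit 424) (nat_lit 341)) (XT.lf (nat_lit 76) (nat_lit 818584503) (nat_lit 0) (nat_lit 4252925209) (nat_lit 1748) (nat_lit 5297244111) (nat_lit 538) (nat_lit 5) (nat_lit 537) (nat_lit 5) (nat_lit 560) (nat_lit 5) (nat_lit 436) (nat_lit 424) (nat_lit 340))) (XT.nd (nat_lit 78) (nat_lit 0) (nat_lit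 0) (XT.lf (nat_lit 0) (nat_lit 7049113690) (nat_lit 1672) (nat_lit 1158192215) (nat_lit 1748) (nat_lit 2306480204) (nat_lit 538) (nat_lit 5) (nat_lit 560) (nat_lit 5) (nat_lit 561) (nat_lit 5) (nat_lit 437) (nat_lit 424) (nat_lit 339)) (XT.lf (nat_lit 76) (nat_lit 7525276386) (nat_lit 0) (nat_lit 1598767700) (nat_lit 1748) (nat_lit 1538366553) (nat_lit 539) (nat_lit 5) (nat_lit 538) (nat_lit 5) (nat_lit 561) (nat_lit 5) (nat_lit 438) (nat_lit 424) (nat_lit 338))))) (XT.nd (nat_lit 312) (nat_lit 3040) (nat_lit 0) (XT.nd (nat_lit 156) (nat_lit 3496) (nat_lit 0) (XT.nd (nat_lit 78) (nat_lit 0) (nat_lit 76) (XT.lf (nat_lit 0) (nat_lit 480439704) (nat_lit 1748) (nat_lit 5138311311) (nat_lit 1824) (nat_lit 5195875052) (nat_lit 516) (nat_lit 5) (nat_lit 539) (nat_lit 5) (nat_lit 540) (nat_lit 5) (nat_lit 439) (nat_lit 424) (nat_lit 337)) (XT.lf (nat_lit 0) (nat_lit 2566540781) (nat_lit 1748) (nat_lit 7154724594)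 (nat_lit 76) (nat_lit 1249387740) (nat_lit 517) (nat_lit 5) (nat_lit 540) (nat_lit 5) (nat_lit 518) (nat_lit 5) (nat_lit 440) (nat_lit 424) (nat_lit 336))) (XT.nd (nat_lit 78) (nat_lit 1824) (nat_lit 0) (XT.lf (nat_lit 0) (nat_lit 1934909543) (nat_lit 1748) (nat_lit 2828814470) (nat_lit 1824) (nat_lit 6366668094) (nat_lit 494) (nat_lit 5) (nat_lit 517) (nat_lit 5) (nat_lit 518) (nat_lit 5) (nat_lit 441) (nat_lit 424) (nat_lit 335)) (XT.lf (nat_lit 0) (nat_lit 42349453) (nat_lit 1824) (nat_lit 7025493767) (nat_lit 1900) (nat_lit 4226260721) (nat_lit 470) (nat_lit 5) (nat_lit 494) (nat_lit 5) (nat_lit 495) (nat_lit 5) (nat_lit 442) (nat_lit 424) (nat_lit 334)))) (XT.nd (nat_lit 156) (nat_lit 1824) (nat_lit 0) (XT.nd (nat_lit 78) (nat_lit 1216) (nat_lit 0) (XT.lf (nat_lit 0) (nat_lit 9488195204) (nat_lit 1900) (nat_lit 1829599208) (nat_lit 76) (nat_lit 143991586) (nat_lit 470) (nat_lit 5) (nat_lit 495)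 (nat_lit 5) (nat_lit 471) (nat_lit 5) (nat_lit 443) (nat_lit 424) (nat_lit 333)) (XT.lf (nat_lit 0) (nat_lit 406921258) (nat_lit 1216) (nat_lit 3734695220) (nat_lit 76) (nat_lit 7491541853) (nat_lit 454) (nat_lit 5) (nat_lit 470) (nat_lit 5) (nat_lit 455) (nat_lit 5) (nat_lit 444) (nat_lit 424) (nat_lit 332))) (XT.nd (nat_lit 78) (nat_lit 912) (nat_lit 0) (XT.lf (nat_lit 0) (nat_lit 2872959748) (nat_lit 988) (nat_lit 5659552897) (nat_lit 76) (nat_lit 3276080761) (nat_lit 442) (nat_lit 5) (nat_lit 455) (nat_lit 5) (nat_lit 443) (nat_lit 5) (nat_lit 445) (nat_lit 424) (nat_lit 331)) (XT.lf (nat_lit 0) (nat_lit 4390555186) (nat_lit 912) (nat_lit 1071565461) (nat_lit 988) (nat_lit 6526189006) (nat_lit 430) (nat_lit 5) (nat_lit 442) (nat_lit 5) (nat_lit 443) (nat_lit 5) (nat_lit 446) (nat_lit 424) (nat_lit 330))))))))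
noncomputable def xc67 : XT := (XT.nd (nat_lit 2262) (nat_lit 9576) (nat_lit 0) (XT.nd (nat_lit 1092) (nat_lit 7828) (nat_lit 0) (XT.nd (nat_lit 546) (nat_lit 4332) (nat_lit 0) (XT.nd (nat_lit 234) (nat_lit 3268) (nat_lit 0) (XT.nd (nat_lit 78) (nat_lit 988) (nat_lit 0) (XT.lf (nat_lit 0) (nat_lit 2607051408) (nat_lit 836) (nat_lit 5588597632) (nat_lit 912) (nat_lit 3976435408) (nat_lit 419) (nat_lit 5) (nat_lit 430) (nat_lit 5) (nat_lit 431) (nat_lit 5) (nat_lit 447) (nat_lit 424) (nat_lit 329)) (XT.nd (nat_lit 78) (nat_lit 76) (nat_lit 0) (XT.lf (nat_lit 0) (nat_lit 820312947) (nat_lit 912) (nat_lit 10237682134) (nat_lit 988) (nat_lit 1302442059) (nat_lit 407) (nat_lit 5) (nat_lit 419) (nat_lit 5) (nat_lit 420) (nat_lit 5) (nat_lit 448) (nat_lit 424) (nat_lit 328)) (XT.lf (nat_lit 0) (nat_lit 1504808916) (nat_lit 988) (nat_lit 983186657) (nat_lit 76) (nat_lit 10064815606) (nat_lit 406) (nat_lit 5)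 (nat_lit 419) (nat_lit 5) (nat_lit 407) (nat_lit 5) (nat_lit 449) (nat_lit 424) (nat_lit 327)))) (XT.nd (nat_lit 156) (nat_lit 1596) (nat_lit 0) (XT.nd (nat_lit 78) (nat_lit 836) (nat_lit 0) (XT.lf (nat_lit 0) (nat_lit 4450002319) (nat_lit 912) (nat_lit 2803622410) (nat_lit 76) (nat_lit 5495731950) (nat_lit 395) (nat_lit 5) (nat_lit 407) (nat_lit 5) (nat_lit 396) (nat_lit 5) (nat_lit 450) (nat_lit 424) (nat_lit 326)) (XT.lf (nat_lit 0) (nat_lit 7537135580) (nat_lit 912) (nat_lit 4629299637) (nat_lit 76) (nat_lit 784292443) (nat_lit 384) (nat_lit 5) (nat_lit 396) (nat_lit 5) (nat_lit 385) (nat_lit 5) (nat_lit 451) (nat_lit 424) (nat_lit 325))) (XT.nd (nat_lit 78) (nat_lit 836) (nat_lit 0) (XT.lf (nat_lit 0) (nat_lit 6669466049) (nat_lit 760) (nat_lit 4130011620) (nat_lit 836) (nat_lit 2357010979) (nat_lit 374) (nat_lit 5) (nat_lit 384) (nat_lit 5) (nat_lit 385) (nat_lit 5) (nat_lit 452) (nat_lit 424)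 (nat_lit 324)) (XT.lf (nat_lit 0) (nat_lit 844628792) (nat_lit 836) (nat_lit 8361631528) (nat_lit 76) (nat_lit 4160785356) (nat_lit 363) (nat_lit 5) (nat_lit 374) (nat_lit 5) (nat_lit 364) (nat_lit 5) (nat_lit 453) (nat_lit 424) (nat_lit 323))))) (XT.nd (nat_lit 234) (nat_lit 2812) (nat_lit 0) (XT.nd (nat_lit 78) (nat_lit 760) (nat_lit 0) (XT.lf (nat_lit 0) (nat_lit 3318082100) (nat_lit 760) (nat_lit 858520408) (nat_lit 836) (nat_lit 9405679880) (nat_lit 353) (nat_lit 5) (nat_lit 363) (nat_lit 5) (nat_lit 364) (nat_lit 5) (nat_lit 454) (nat_lit 424) (nat_lit 322)) (XT.nd (nat_lit 78) (nat_lit 0) (nat_lit 0) (XT.lf (nat_lit 0) (nat_lit 1599989776) (nat_lit 760) (nat_lit 6099517192) (nat_lit 836) (nat_lit 6102650497) (nat_lit 343) (nat_lit 5) (nat_lit 353) (nat_lit 5) (nat_lit 354) (nat_lit 5) (nat_lit 455) (nat_lit 424) (nat_lit 321)) (XT.lf (nat_lit 0) (nat_lit 11393779209) (nat_lit 836) (nat_lit 119081483)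 (nat_lit 76) (nat_lit 2514455164) (nat_lit 343) (nat_lit 5) (nat_lit 354) (nat_lit 5) (nat_lit 344) (nat_lit 5) (nat_lit 456) (nat_lit 424) (nat_lit 320)))) (XT.nd (nat_lit 156) (nat_lit 1368) (nat_lit 0) (XT.nd (nat_lit 78) (nat_lit 684) (nat_lit 0) (XT.lf (nat_lit 0) (nat_lit 1024006260) (nat_lit 760) (nat_lit 1844756519) (nat_lit 76) (nat_lit 11388411258) (nat_lit 333) (nat_lit 5) (nat_lit 343) (nat_lit 5) (nat_lit 334) (nat_lit 5) (nat_lit 457) (nat_lit 424) (nat_lit 319)) (XT.lf (nat_lit 0) (nat_lit 4842190828) (nat_lit 760) (nat_lit 3608309842) (nat_lit 76) (nat_lit 6041345866) (nat_lit 324) (nat_lit 5) (nat_lit 334) (nat_lit 5) (nat_lit 325) (nat_lit 5) (nat_lit 458) (nat_lit 424) (nat_lit 318))) (XT.nd (nat_lit 78) (nat_lit 684) (nat_lit 0) (XT.lf (nat_lit 0) (nat_lit 8846337551) (nat_lit 760) (nat_lit 5375590009) (nat_lit 76) (nat_lit 510203923) (nat_lit 315) (nat_lit 5) (nat_lit 325) (nat_lit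 5) (nat_lit 316) (nat_lit 5) (nat_lit 459) (nat_lit 424) (nat_lit 317)) (XT.lf (nat_lit 0) (nat_lit 7797057229) (nat_lit 684) (nat_lit 5281317290) (nat_lit 760) (nat_lit 1899095731) (nat_lit 306) (nat_lit 5) (nat_lit 315) (nat_lit 5) (nat_lit 316) (nat_lit 5) (nat_lit 460) (nat_lit 424) (nat_lit 316)))))) (XT.nd (nat_lit 546) (nat_lit 4104) (nat_lit 0) (XT.nd (nat_lit 234) (nat_lit 1824) (nat_lit 0) (XT.nd (nat_lit 78) (nat_lit 1216) (nat_lit 0) (XT.lf (nat_lit 0) (nat_lit 2257931113) (nat_lit 684) (nat_lit 9007457333) (nat_lit 76) (nat_lit 3962901169) (nat_lit 297) (nat_lit 5) (nat_lit 306) (nat_lit 5) (nat_lit 298) (nat_lit 5) (nat_lit 461) (nat_lit 424) (nat_lit 315)) (XT.nd (nat_lit 78) (nat_lit 608) (nat_lit 0) (XT.lf (nat_lit 0) (nat_lit 4620071172) (nat_lit 608) (nat_lit 1985079215) (nat_lit 684) (nat_lit 8879406997) (nat_lit 289) (nat_lit 5) (nat_lit 297) (nat_lit 5) (nat_lit 298) (nat_lit 5)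 (nat_lit 462) (nat_lit 424) (nat_lit 314)) (XT.lf (nat_lit 0) (nat_lit 2993238829) (nat_lit 608) (nat_lit 8196890172) (nat_lit 684) (nat_lit 4556237857) (nat_lit 281) (nat_lit 5) (nat_lit 289) (nat_lit 5) (nat_lit 290) (nat_lit 5) (nat_lit 463) (nat_lit 424) (nat_lit 313)))) (XT.nd (nat_lit 156) (nat_lit 1140) (nat_lit 0) (XT.nd (nat_lit 78) (nat_lit 76) (nat_lit 0) (XT.lf (nat_lit 0) (nat_lit 1367690082) (nat_lit 608) (nat_lit 14627492570) (nat_lit 684) (nat_lit 19197962) (nat_lit 273) (nat_lit 5) (nat_lit 281) (nat_lit 5) (nat_lit 282) (nat_lit 5) (nat_lit 464) (nat_lit 424) (nat_lit 312)) (XT.lf (nat_lit 0) (nat_lit 4712774054) (nat_lit 684) (nat_lit 316242739) (nat_lit 76) (nat_lit 11258416979) (nat_lit 272) (nat_lit 5) (nat_lit 281) (nat_lit 5) (nat_lit 273) (nat_lit 5) (nat_lit 465) (nat_lit 424) (nat_lit 311))) (XT.nd (nat_lit 78) (nat_lit 608) (nat_lit 0) (XT.lf (nat_lit 0) (nat_lit 9692103544)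 (nat_lit 608) (nat_lit 1991553329) (nat_lit 76) (nat_lit 4882906405) (nat_lit 265) (nat_lit 5) (nat_lit 273) (nat_lit 5) (nat_lit 266) (nat_lit 5) (nat_lit 466) (nat_lit 424) (nat_lit 310)) (XT.lf (nat_lit 0) (nat_lit 13174726987) (nat_lit 608) (nat_lit 1746504373) (nat_lit 684) (nat_lit 1930827398) (nat_lit 257) (nat_lit 5) (nat_lit 265) (nat_lit 5) (nat_lit 266) (nat_lit 5) (nat_lit 467) (nat_lit 424) (nat_lit 309))))) (XT.nd (nat_lit 312) (nat_lit 1900) (nat_lit 0) (XT.nd (nat_lit 156) (nat_lit 1064) (nat_lit 0) (XT.nd (nat_lit 78) (nat_lit 532) (nat_lit 0) (XT.lf (nat_lit 0) (nat_lit 3244937374) (nat_lit 608) (nat_lit 5416327604) (nat_lit 76) (nat_lit 8481938439) (nat_lit 249) (nat_lit 5) (nat_lit 257) (nat_lit 5) (nat_lit 250) (nat_lit 5) (nat_lit 468) (nat_lit 424) (nat_lit 308)) (XT.lf (nat_lit 0) (nat_lit 8643905825) (nat_lit 608) (nat_lit 7168257014) (nat_lit 76) (nat_lit 1628781485) (nat_lit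 242) (nat_lit 5) (nat_lit 250) (nat_lit 5) (nat_lit 243) (nat_lit 5) (nat_lit 469) (nat_lit 424) (nat_lit 307))) (XT.nd (nat_lit 78) (nat_lit 608) (nat_lit 0) (XT.lf (nat_lit 0) (nat_lit 8789374944) (nat_lit 456) (nat_lit 5547536010) (nat_lit 532) (nat_lit 3408065563) (nat_lit 236) (nat_lit 5) (nat_lit 242) (nat_lit 5) (nat_lit 243) (nat_lit 5) (nat_lit 470) (nat_lit 424) (nat_lit 306)) (XT.lf (nat_lit 0) (nat_lit 2224622623) (nat_lit 608) (nat_lit 10768317077) (nat_lit 76) (nat_lit 5062709220) (nat_lit 228) (nat_lit 5) (nat_lit 236) (nat_lit 5) (nat_lit 229) (nat_lit 5) (nat_lit 471) (nat_lit 424) (nat_lit 305)))) (XT.nd (nat_lit 156) (nat_lit 988) (nat_lit 0) (XT.nd (nat_lit 78) (nat_lit 456) (nat_lit 0) (XT.lf (nat_lit 0) (nat_lit 5753806947) (nat_lit 456) (nat_lit 2342746689) (nat_lit 532) (nat_lit 10276306404) (nat_lit 222) (nat_lit 5) (nat_lit 228) (nat_lit 5) (nat_lit 229) (nat_lit 5) (nat_lit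 472) (nat_lit 424) (nat_lit 304)) (XT.lf (nat_lit 0) (nat_lit 4192391639) (nat_lit 456) (nat_lit 10090028696) (nat_lit 532) (nat_lit 4414411974) (nat_lit 216) (nat_lit 5) (nat_lit 222) (nat_lit 5) (nat_lit 223) (nat_lit 5) (nat_lit 473) (nat_lit 424) (nat_lit 303))) (XT.nd (nat_lit 78) (nat_lit 456) (nat_lit 0) (XT.lf (nat_lit 0) (nat_lit 1708281006) (nat_lit 532) (nat_lit 16401268127) (nat_lit 76) (nat_lit 918639526) (nat_lit 209) (nat_lit 5) (nat_lit 216) (nat_lit 5) (nat_lit 210) (nat_lit 5) (nat_lit 474) (nat_lit 424) (nat_lit 302)) (XT.lf (nat_lit 0) (nat_lit 991950533) (nat_lit 456) (nat_lit 7117594656) (nat_lit 532) (nat_lit 11256259968) (nat_lit 203) (nat_lit 5) (nat_lit 209) (nat_lit 5) (nat_lit 210) (nat_lit 5) (nat_lit 475) (nat_lit 424) (nat_lit 301))))))) (XT.nd (nat_lit 1170) (nat_lit 4408) (nat_lit 0) (XT.nd (nat_lit 546) (nat_lit 2660) (nat_lit 0) (XT.nd (nat_lit 234) (nat_lit 1596)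 (nat_lit 0) (XT.nd (nat_lit 78) (nat_lit 912) (nat_lit 0) (XT.lf (nat_lit 0) (nat_lit 14823998157) (nat_lit 532) (nat_lit 634416332) (nat_lit 76) (nat_lit 4252712975) (nat_lit 203) (nat_lit 5) (nat_lit 210) (nat_lit 5) (nat_lit 204) (nat_lit 5) (nat_lit 476) (nat_lit 424) (nat_lit 300)) (XT.nd (nat_lit 78) (nat_lit 456) (nat_lit 0) (XT.lf (nat_lit 0) (nat_lit 1797750665) (nat_lit 456) (nat_lit 2278456363) (nat_lit 76) (nat_lit 15987453112) (nat_lit 197) (nat_lit 5) (nat_lit 203) (nat_lit 5) (nat_lit 198) (nat_lit 5) (nat_lit 477) (nat_lit 424) (nat_lit 299)) (XT.lf (nat_lit 0) (nat_lit 8761886644) (nat_lit 532) (nat_lit 3977279669) (nat_lit 76) (nat_lit 7684054581) (nat_lit 191) (nat_lit 5) (nat_lit 198) (nat_lit 5) (nat_lit 192) (nat_lit 5) (nat_lit 478) (nat_lit 424) (nat_lit 298)))) (XT.nd (nat_lit 156) (nat_lit 760) (nat_lit 0) (XT.nd (nat_lit 78) (nat_lit 456) (nat_lit 0) (XT.lf (nat_lit 0) (nat_lit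 15115443127) (nat_lit 380) (nat_lit 943465262) (nat_lit 456) (nat_lit 4732181145) (nat_lit 186) (nat_lit 5) (nat_lit 191) (nat_lit 5) (nat_lit 192) (nat_lit 5) (nat_lit 479) (nat_lit 424) (nat_lit 297)) (XT.lf (nat_lit 0) (nat_lit 2546895425) (nat_lit 456) (nat_lit 7435297948) (nat_lit 76) (nat_lit 11184017088) (nat_lit 180) (nat_lit 5) (nat_lit 186) (nat_lit 5) (nat_lit 181) (nat_lit 5) (nat_lit 480) (nat_lit 424) (nat_lit 296))) (XT.nd (nat_lit 78) (nat_lit 380) (nat_lit 0) (XT.lf (nat_lit 0) (nat_lit 10103745044) (nat_lit 456) (nat_lit 9220304080) (nat_lit 76) (nat_lit 2225436722) (nat_lit 175) (nat_lit 5) (nat_lit 181) (nat_lit 5) (nat_lit 176) (nat_lit 5) (nat_lit 481) (nat_lit 424) (nat_lit 295)) (XT.lf (nat_lit 0) (nat_lit 10895961376) (nat_lit 380) (nat_lit 7163334652) (nat_lit 456) (nat_lit 3881523815) (nat_lit 170) (nat_lit 5) (nat_lit 175) (nat_lit 5) (nat_lit 176) (nat_lit 5) (nat_lit 482)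 (nat_lit 424) (nat_lit 294))))) (XT.nd (nat_lit 312) (nat_lit 1064) (nat_lit 0) (XT.nd (nat_lit 156) (nat_lit 760) (nat_lit 0) (XT.nd (nat_lit 78) (nat_lit 380) (nat_lit 0) (XT.lf (nat_lit 0) (nat_lit 4002478853) (nat_lit 456) (nat_lit 12904027123) (nat_lit 76) (nat_lit 5433997769) (nat_lit 164) (nat_lit 5) (nat_lit 170) (nat_lit 5) (nat_lit 165) (nat_lit 5) (nat_lit 483) (nat_lit 424) (nat_lit 293)) (XT.lf (nat_lit 0) (nat_lit 7937867635) (nat_lit 380) (nat_lit 4291719572) (nat_lit 456) (nat_lit 10518891661) (nat_lit 159) (nat_lit 5) (nat_lit 164) (nat_lit 5) (nat_lit 165) (nat_lit 5) (nat_lit 484) (nat_lit 424) (nat_lit 292))) (XT.nd (nat_lit 78) (nat_lit 456) (nat_lit 0) (XT.lf (nat_lit 0) (nat_lit 6417307851) (nat_lit 304) (nat_lit 14456866246) (nat_lit 380) (nat_lit 2291106080) (nat_lit 155) (nat_lit 5) (nat_lit 159) (nat_lit 5) (nat_lit 160) (nat_lit 5) (nat_lit 485) (nat_lit 424) (nat_lit 291))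 (XT.lf (nat_lit 0) (nat_lit 4862176791) (nat_lit 380) (nat_lit 1386211064) (nat_lit 456) (nat_lit 17342475498) (nat_lit 149) (nat_lit 5) (nat_lit 154) (nat_lit 5) (nat_lit 155) (nat_lit 5) (nat_lit 486) (nat_lit 424) (nat_lit 290)))) (XT.nd (nat_lit 156) (nat_lit 304) (nat_lit 0) (XT.nd (nat_lit 78) (nat_lit 456) (nat_lit 0) (XT.lf (nat_lit 0) (nat_lit 3246892240) (nat_lit 304) (nat_lit 11964866891) (nat_lit 380) (nat_lit 8813175836) (nat_lit 145) (nat_lit 5) (nat_lit 149) (nat_lit 5) (nat_lit 150) (nat_lit 5) (nat_lit 487) (nat_lit 424) (nat_lit 289)) (XT.lf (nat_lit 0) (nat_lit 115316538) (nat_lit 456) (nat_lit 22822992261) (nat_lit 76) (nat_lit 1530864844) (nat_lit 139) (nat_lit 5) (nat_lit 145) (nat_lit 5) (nat_lit 140) (nat_lit 5) (nat_lit 488) (nat_lit 424) (nat_lit 288))) (XT.nd (nat_lit 78) (nat_lit 304) (nat_lit 0) (XT.lf (nat_lit 0) (nat_lit 9399676178) (nat_lit 456) (nat_lit 60059209) (nat_lit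 76) (nat_lit 15461684216) (nat_lit 139) (nat_lit 5) (nat_lit 145) (nat_lit 5) (nat_lit 140) (nat_lit 5) (nat_lit 489) (nat_lit 424) (nat_lit 287)) (XT.lf (nat_lit 0) (nat_lit 19131695667) (nat_lit 380) (nat_lit 1740987124) (nat_lit 76) (nat_lit 4511167769) (nat_lit 135) (nat_lit 5) (nat_lit 140) (nat_lit 5) (nat_lit 136) (nat_lit 5) (nat_lit 490) (nat_lit 424) (nat_lit 286)))))) (XT.nd (nat_lit 546) (nat_lit 2128) (nat_lit 0) (XT.nd (nat_lit 234) (nat_lit 1292) (nat_lit 0) (XT.nd (nat_lit 78) (nat_lit 608) (nat_lit 0) (XT.lf (nat_lit 0) (nat_lit 3448691585) (nat_lit 380) (nat_lit 3473759784) (nat_lit 76) (nat_lit 18933347498) (nat_lit 130) (nat_lit 5) (nat_lit 135) (nat_lit 5) (nat_lit 131) (nat_lit 5) (nat_lit 491) (nat_lit 424) (nat_lit 285)) (XT.nd (nat_lit 78) (nat_lit 304) (nat_lit 0) (XT.lf (nat_lit 0) (nat_lit 13540810030) (nat_lit 380) (nat_lit 5264618615) (nat_lit 76) (nat_lit 7531946850) (nat_lit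 126) (nat_lit 5) (nat_lit 131) (nat_lit 5) (nat_lit 127) (nat_lit 5) (nat_lit 492) (nat_lit 424) (nat_lit 284)) (XT.lf (nat_lit 0) (nat_lit 19760391500) (nat_lit 304) (nat_lit 4359918607) (nat_lit 380) (nat_lit 2709397131) (nat_lit 122) (nat_lit 5) (nat_lit 126) (nat_lit 5) (nat_lit 127) (nat_lit 5) (nat_lit 493) (nat_lit 424) (nat_lit 283)))) (XT.nd (nat_lit 156) (nat_lit 608) (nat_lit 0) (XT.nd (nat_lit 78) (nat_lit 304) (nat_lit 0) (XT.lf (nat_lit 0) (nat_lit 7791397393) (nat_lit 380) (nat_lit 8961110847) (nat_lit 76) (nat_lit 10579068723) (nat_lit 117) (nat_lit 5) (nat_lit 122) (nat_lit 5) (nat_lit 118) (nat_lit 5) (nat_lit 494) (nat_lit 424) (nat_lit 282)) (XT.lf (nat_lit 0) (nat_lit 16975438613) (nat_lit 304) (nat_lit 1769459977) (nat_lit 380) (nat_lit 9099756316) (nat_lit 113) (nat_lit 5) (nat_lit 117) (nat_lit 5) (nat_lit 118) (nat_lit 5) (nat_lit 495) (nat_lit 424) (nat_lit 281))) (XT.nd (nat_lit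 78) (nat_lit 304) (nat_lit 0) (XT.lf (nat_lit 0) (nat_lit 1871327259) (nat_lit 304) (nat_lit 12847349758) (nat_lit 76) (nat_lit 13649450792) (nat_lit 109) (nat_lit 5) (nat_lit 113) (nat_lit 5) (nat_lit 110) (nat_lit 5) (nat_lit 496) (nat_lit 424) (nat_lit 280)) (XT.lf (nat_lit 0) (nat_lit 13218080391) (nat_lit 380) (nat_lit 14873755295) (nat_lit 76) (nat_lit 810863037) (nat_lit 105) (nat_lit 5) (nat_lit 110) (nat_lit 5) (nat_lit 106) (nat_lit 5) (nat_lit 497) (nat_lit 424) (nat_lit 279))))) (XT.nd (nat_lit 312) (nat_lit 988) (nat_lit 0) (XT.nd (nat_lit 156) (nat_lit 532) (nat_lit 0) (XT.nd (nat_lit 78) (nat_lit 380) (nat_lit 0) (XT.lf (nat_lit 0) (nat_lit 12478704648) (nat_lit 228) (nat_lit 12680829315) (nat_lit 304) (nat_lit 4288686992) (nat_lit 102) (nat_lit 5) (nat_lit 105) (nat_lit 5) (nat_lit 106) (nat_lit 5) (nat_lit 498) (nat_lit 424) (nat_lit 278)) (XT.lf (nat_lit 0) (nat_lit 7533276237) (nat_lit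 380) (nat_lit 19108235899) (nat_lit 76) (nat_lit 3363992556) (nat_lit 97) (nat_lit 5) (nat_lit 102) (nat_lit 5) (nat_lit 98) (nat_lit 5) (nat_lit 499) (nat_lit 424) (nat_lit 277))) (XT.nd (nat_lit 78) (nat_lit 304) (nat_lit 0) (XT.lf (nat_lit 0) (nat_lit 9240659326) (nat_lit 228) (nat_lit 10659392194) (nat_lit 304) (nat_lit 10673920200) (nat_lit 94) (nat_lit 5) (nat_lit 97) (nat_lit 5) (nat_lit 98) (nat_lit 5) (nat_lit 500) (nat_lit 424) (nat_lit 276)) (XT.lf (nat_lit 0) (nat_lit 1665266296) (nat_lit 304) (nat_lit 23581994622) (nat_lit 76) (nat_lit 5907913653) (nat_lit 90) (nat_lit 5) (nat_lit 94) (nat_lit 5) (nat_lit 91) (nat_lit 5) (nat_lit 501) (nat_lit 424) (nat_lit 275)))) (XT.nd (nat_lit 156) (nat_lit 532) (nat_lit 0) (XT.nd (nat_lit 78) (nat_lit 228) (nat_lit 0) (XT.lf (nat_lit 0) (nat_lit 5799317152) (nat_lit 228) (nat_lit 8673424224) (nat_lit 304) (nat_lit 17274798569) (nat_lit 87) (nat_lit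 5) (nat_lit 90) (nat_lit 5) (nat_lit 91) (nat_lit 5) (nat_lit 502) (nat_lit 424) (nat_lit 274)) (XT.lf (nat_lit 0) (nat_lit 4006428367) (nat_lit 228) (nat_lit 23887414562) (nat_lit 304) (nat_lit 4459245429) (nat_lit 84) (nat_lit 5) (nat_lit 87) (nat_lit 5) (nat_lit 88) (nat_lit 5) (nat_lit 503) (nat_lit 424) (nat_lit 273))) (XT.nd (nat_lit 78) (nat_lit 228) (nat_lit 0) (XT.lf (nat_lit 0) (nat_lit 2132935572) (nat_lit 228) (nat_lit 6730198261) (nat_lit 304) (nat_lit 24107794564) (nat_lit 80) (nat_lit 5) (nat_lit 83) (nat_lit 5) (nat_lit 84) (nat_lit 5) (nat_lit 504) (nat_lit 424) (nat_lit 272)) (XT.lf (nat_lit 0) (nat_lit 191269766) (nat_lit 228) (nat_lit 22587620243) (nat_lit 304) (nat_lit 10822738444) (nat_lit 77) (nat_lit 5) (nat_lit 80) (nat_lit 5) (nat_lit 81) (nat_lit 5) (nat_lit 505) (nat_lit 424) (nat_lit 271))))))))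
noncomputable def xc68 : XT := (XT.nd (nat_lit 58266) (nat_lit 0) (nat_lit 8588) (XT.nd (nat_lit 57096) (nat_lit 0) (nat_lit 24472) (XT.nd (nat_lit 56550) (nat_lit 0) (nat_lit 35112) (XT.nd (nat_lit 56238) (nat_lit 0) (nat_lit 36480) (XT.nd (nat_lit 78) (nat_lit 228) (nat_lit 0) (XT.lf (nat_lit 0) (nat_lit 3067144310) (nat_lit 304) (nat_lit 1758906323) (nat_lit 76) (nat_lit 29419951576) (nat_lit 76) (nat_lit 5) (nat_lit 80) (nat_lit 5) (nat_lit 77) (nat_lit 5) (nat_lit 506) (nat_lit 424) (nat_lit 270)) (XT.nd (nat_lit 56082) (nat_lit 0) (nat_lit 38000) (XT.lf (nat_lit 0) (nat_lit 17507807022) (nat_lit 304) (nat_lit 3835085217) (nat_lit 76) (nat_lit 13559761837) (nat_lit 73) (nat_lit 5) (nat_lit 77) (nat_lit 5) (nat_lit 74) (nat_lit 5) (nat_lit 507) (nat_lit 424) (nat_lit 269)) (XT.lf (nat_lit 0) (nat_lit 3625787288) (nat_lit 1596) (nat_lit 463612546) (nat_lit 1596) (nat_lit 463612546) (nat_lit 573)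 (nat_lit 3) (nat_lit 594) (nat_lit 3) (nat_lit 594) (nat_lit 5) (nat_lit 425) (nat_lit 425) (nat_lit 350)))) (XT.nd (nat_lit 156) (nat_lit 0) (nat_lit 0) (XT.nd (nat_lit 78) (nat_lit 1520) (nat_lit 0) (XT.lf (nat_lit 76) (nat_lit 5950620400) (nat_lit 0) (nat_lit 2754299592) (nat_lit 1596) (nat_lit 510759191) (nat_lit 574) (nat_lit 5) (nat_lit 573) (nat_lit 3) (nat_lit 594) (nat_lit 5) (nat_lit 426) (nat_lit 425) (nat_lit 349)) (XT.lf (nat_lit 0) (nat_lit 859679949) (nat_lit 1596) (nat_lit 5612474176) (nat_lit 1672) (nat_lit 2856399620) (nat_lit 553) (nat_lit 5) (nat_lit 574) (nat_lit 5) (nat_lit 575) (nat_lit 5) (nat_lit 427) (nat_lit 425) (nat_lit 348))) (XT.nd (nat_lit 78) (nat_lit 0) (nat_lit 76) (XT.lf (nat_lit 76) (nat_lit 1476612725) (nat_lit 0) (nat_lit 787999156) (nat_lit 1672) (nat_lit 7180130417) (nat_lit 554) (nat_lit 5) (nat_lit 553) (nat_lit 5) (nat_lit 575) (nat_lit 5) (nat_lit 428) (nat_lit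 425) (nat_lit 347)) (XT.lf (nat_lit 0) (nat_lit 3734291265) (nat_lit 1596) (nat_lit 770016869) (nat_lit 1672) (nat_lit 5059657990) (nat_lit 554) (nat_lit 5) (nat_lit 575) (nat_lit 5) (nat_lit 576) (nat_lit 5) (nat_lit 429) (nat_lit 425) (nat_lit 346))))) (XT.nd (nat_lit 234) (nat_lit 1520) (nat_lit 0) (XT.nd (nat_lit 78) (nat_lit 0) (nat_lit 0) (XT.lf (nat_lit 0) (nat_lit 5259070209) (nat_lit 1596) (nat_lit 2997099995) (nat_lit 1672) (nat_lit 1430377835) (nat_lit 555) (nat_lit 5) (nat_lit 576) (nat_lit 5) (nat_lit 577) (nat_lit 5) (nat_lit 430) (nat_lit 425) (nat_lit 345)) (XT.nd (nat_lit 78) (nat_lit 0) (nat_lit 76) (XT.lf (nat_lit 76) (nat_lit 4572164107) (nat_lit 0) (nat_lit 2276642977) (nat_lit 1672) (nat_lit 2963617551) (nat_lit 556) (nat_lit 5) (nat_lit 555) (nat_lit 5) (nat_lit 577) (nat_lit 5) (nat_lit 431) (nat_lit 425) (nat_lit 344)) (XT.lf (nat_lit 76) (nat_lit 2445870777) (nat_lit 0) (nat_lit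 6057315383) (nat_lit 1672) (nat_lit 1438553835) (nat_lit 557) (nat_lit 5) (nat_lit 556) (nat_lit 5) (nat_lit 578) (nat_lit 5) (nat_lit 432) (nat_lit 425) (nat_lit 343)))) (XT.nd (nat_lit 156) (nat_lit 0) (nat_lit 76) (XT.nd (nat_lit 78) (nat_lit 0) (nat_lit 0) (XT.lf (nat_lit 0) (nat_lit 140978460) (nat_lit 1672) (nat_lit 9756782973) (nat_lit 1748) (nat_lit 176948579) (nat_lit 535) (nat_lit 5) (nat_lit 557) (nat_lit 5) (nat_lit 558) (nat_lit 5) (nat_lit 433) (nat_lit 425) (nat_lit 342)) (XT.lf (nat_lit 0) (nat_lit 1797531017) (nat_lit 1672) (nat_lit 1821698362) (nat_lit 1748) (nat_lit 6591267363) (nat_lit 535) (nat_lit 5) (nat_lit 557) (nat_lit 5) (nat_lit 558) (nat_lit 5) (nat_lit 434) (nat_lit 425) (nat_lit 341))) (XT.nd (nat_lit 78) (nat_lit 0) (nat_lit 0) (XT.lf (nat_lit 0) (nat_lit 3522894954) (nat_lit 1672) (nat_lit 3962201517) (nat_lit 1748) (nat_lit 2864879622) (nat_lit 536) (nat_lit 5) (nat_lit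 558) (nat_lit 5) (nat_lit 559) (nat_lit 5) (nat_lit 435) (nat_lit 425) (nat_lit 340)) (XT.lf (nat_lit 76) (nat_lit 4379331238) (nat_lit 0) (nat_lit 945521937) (nat_lit 1748) (nat_lit 5168291263) (nat_lit 537) (nat_lit 5) (nat_lit 536) (nat_lit 5) (nat_lit 559) (nat_lit 5) (nat_lit 436) (nat_lit 425) (nat_lit 339)))))) (XT.nd (nat_lit 546) (nat_lit 5700) (nat_lit 0) (XT.nd (nat_lit 234) (nat_lit 3420) (nat_lit 0) (XT.nd (nat_lit 78) (nat_lit 1672) (nat_lit 0) (XT.lf (nat_lit 76) (nat_lit 2349029060) (nat_lit 0) (nat_lit 4872541269) (nat_lit 1748) (nat_lit 3418224743) (nat_lit 538) (nat_lit 5) (nat_lit 537) (nat_lit 5) (nat_lit 560) (nat_lit 5) (nat_lit 437) (nat_lit 425) (nat_lit 338)) (XT.nd (nat_lit 78) (nat_lit 1748) (nat_lit 0) (XT.lf (nat_lit 76) (nat_lit 315179106) (nat_lit 0) (nat_lit 8884076435) (nat_lit 1748) (nat_lit 1591109559) (nat_lit 539) (nat_lit 5) (nat_lit 538) (nat_lit 5) (nat_lit 561)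 (nat_lit 5) (nat_lit 438) (nat_lit 425) (nat_lit 337)) (XT.lf (nat_lit 0) (nat_lit 338659775) (nat_lit 1748) (nat_lit 1716037312) (nat_lit 1824) (nat_lit 8889685429) (nat_lit 515) (nat_lit 5) (nat_lit 538) (nat_lit 5) (nat_lit 539) (nat_lit 5) (nat_lit 439) (nat_lit 425) (nat_lit 336)))) (XT.nd (nat_lit 156) (nat_lit 3496) (nat_lit 0) (XT.nd (nat_lit 78) (nat_lit 0) (nat_lit 76) (XT.lf (nat_lit 0) (nat_lit 2349009997) (nat_lit 1748) (nat_lit 3772322623) (nat_lit 1824) (nat_lit 4980592511) (nat_lit 516) (nat_lit 5) (nat_lit 539) (nat_lit 5) (nat_lit 540) (nat_lit 5) (nat_lit 440) (nat_lit 425) (nat_lit 335)) (XT.lf (nat_lit 0) (nat_lit 4451357944) (nat_lit 1748) (nat_lit 5835597362) (nat_lit 76) (nat_lit 976606057) (nat_lit 517) (nat_lit 5) (nat_lit 540) (nat_lit 5) (nat_lit 518) (nat_lit 5) (nat_lit 441) (nat_lit 425) (nat_lit 334))) (XT.nd (nat_lit 78) (nat_lit 1824) (nat_lit 0) (XT.lf (nat_lit 0)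 (nat_lit 3501842221) (nat_lit 1748) (nat_lit 3169756158) (nat_lit 1824) (nat_lit 4757352910) (nat_lit 494) (nat_lit 5) (nat_lit 517) (nat_lit 5) (nat_lit 518) (nat_lit 5) (nat_lit 442) (nat_lit 425) (nat_lit 333)) (XT.lf (nat_lit 0) (nat_lit 1564440132) (nat_lit 1824) (nat_lit 7437254327) (nat_lit 1900) (nat_lit 2596744507) (nat_lit 470) (nat_lit 5) (nat_lit 494) (nat_lit 5) (nat_lit 495) (nat_lit 5) (nat_lit 443) (nat_lit 425) (nat_lit 332))))) (XT.nd (nat_lit 312) (nat_lit 2660) (nat_lit 0) (XT.nd (nat_lit 156) (nat_lit 1824) (nat_lit 0) (XT.nd (nat_lit 78) (nat_lit 1216) (nat_lit 0) (XT.lf (nat_lit 0) (nat_lit 11398672103) (nat_lit 1824) (nat_lit 44859187) (nat_lit 1900) (nat_lit 328644216) (nat_lit 470) (nat_lit 5) (nat_lit 494) (nat_lit 5) (nat_lit 495) (nat_lit 5) (nat_lit 444) (nat_lit 425) (nat_lit 331)) (XT.lf (nat_lit 0) (nat_lit 2061380616) (nat_lit 1216) (nat_lit 2338107175) (nat_lit 76)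 (nat_lit 7549772409) (nat_lit 454) (nat_lit 5) (nat_lit 470) (nat_lit 5) (nat_lit 455) (nat_lit 5) (nat_lit 445) (nat_lit 425) (nat_lit 330))) (XT.nd (nat_lit 78) (nat_lit 912) (nat_lit 0) (XT.lf (nat_lit 0) (nat_lit 4562425310) (nat_lit 988) (nat_lit 4312280252) (nat_lit 76) (nat_lit 3256033658) (nat_lit 442) (nat_lit 5) (nat_lit 455) (nat_lit 5) (nat_lit 443) (nat_lit 5) (nat_lit 446) (nat_lit 425) (nat_lit 329)) (XT.lf (nat_lit 0) (nat_lit 6014718589) (nat_lit 912) (nat_lit 1177535019) (nat_lit 988) (nat_lit 5124334848) (nat_lit 430) (nat_lit 5) (nat_lit 442) (nat_lit 5) (nat_lit 443) (nat_lit 5) (nat_lit 447) (nat_lit 425) (nat_lit 328)))) (XT.nd (nat_lit 156) (nat_lit 836) (nat_lit 0) (XT.nd (nat_lit 78) (nat_lit 988) (nat_lit 0) (XT.lf (nat_lit 0) (nat_lit 4184829590) (nat_lit 836) (nat_lit 5786609604) (nat_lit 912) (nat_lit 2535165587) (nat_lit 419) (nat_lit 5) (nat_lit 430) (nat_lit 5) (nat_lit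 431) (nat_lit 5) (nat_lit 448) (nat_lit 425) (nat_lit 327)) (XT.lf (nat_lit 0) (nat_lit 180964887) (nat_lit 988) (nat_lit 10352000192) (nat_lit 76) (nat_lit 2168319977) (nat_lit 406) (nat_lit 5) (nat_lit 419) (nat_lit 5) (nat_lit 407) (nat_lit 5) (nat_lit 449) (nat_lit 425) (nat_lit 326))) (XT.nd (nat_lit 78) (nat_lit 0) (nat_lit 0) (XT.lf (nat_lit 0) (nat_lit 474726112) (nat_lit 836) (nat_lit 2539363671) (nat_lit 912) (nat_lit 9885982536) (nat_lit 395) (nat_lit 5) (nat_lit 406) (nat_lit 5) (nat_lit 407) (nat_lit 5) (nat_lit 450) (nat_lit 425) (nat_lit 325)) (XT.lf (nat_lit 0) (nat_lit 6011652098) (nat_lit 912) (nat_lit 1402170296) (nat_lit 76) (nat_lit 5689412706) (nat_lit 395) (nat_lit 5) (nat_lit 407) (nat_lit 5) (nat_lit 396) (nat_lit 5) (nat_lit 451) (nat_lit 425) (nat_lit 324))))))) (XT.nd (nat_lit 1092) (nat_lit 6536) (nat_lit 0) (XT.nd (nat_lit 546) (nat_lit 4636) (nat_lit 0) (XT.nd (nat_lit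 234) (nat_lit 2280) (nat_lit 0) (XT.nd (nat_lit 78) (nat_lit 1596) (nat_lit 0) (XT.lf (nat_lit 0) (nat_lit 9159716261) (nat_lit 912) (nat_lit 3279185054) (nat_lit 76) (nat_lit 872380702) (nat_lit 384) (nat_lit 5) (nat_lit 396) (nat_lit 5) (nat_lit 385) (nat_lit 5) (nat_lit 452) (nat_lit 425) (nat_lit 323)) (XT.nd (nat_lit 78) (nat_lit 836) (nat_lit 0) (XT.lf (nat_lit 0) (nat_lit 8334386451) (nat_lit 760) (nat_lit 4154379066) (nat_lit 836) (nat_lit 1035074690) (nat_lit 374) (nat_lit 5) (nat_lit 384) (nat_lit 5) (nat_lit 385) (nat_lit 5) (nat_lit 453) (nat_lit 425) (nat_lit 322)) (XT.lf (nat_lit 0) (nat_lit 2214540495) (nat_lit 836) (nat_lit 7127241631) (nat_lit 76) (nat_lit 4399348218) (nat_lit 363) (nat_lit 5) (nat_lit 374) (nat_lit 5) (nat_lit 364) (nat_lit 5) (nat_lit 454) (nat_lit 425) (nat_lit 321)))) (XT.nd (nat_lit 156) (nat_lit 760) (nat_lit 0) (XT.nd (nat_lit 78) (nat_lit 760) (nat_lit 0) (XT.lf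 (nat_lit 0) (nat_lit 4878767170) (nat_lit 760) (nat_lit 738030644) (nat_lit 836) (nat_lit 8346620881) (nat_lit 353) (nat_lit 5) (nat_lit 363) (nat_lit 5) (nat_lit 364) (nat_lit 5) (nat_lit 455) (nat_lit 425) (nat_lit 320)) (XT.lf (nat_lit 0) (nat_lit 3110397613) (nat_lit 760) (nat_lit 6107110607) (nat_lit 836) (nat_lit 4972940426) (nat_lit 343) (nat_lit 5) (nat_lit 353) (nat_lit 5) (nat_lit 354) (nat_lit 5) (nat_lit 456) (nat_lit 425) (nat_lit 319))) (XT.nd (nat_lit 78) (nat_lit 76) (nat_lit 0) (XT.lf (nat_lit 0) (nat_lit 1338633486) (nat_lit 684) (nat_lit 11656286128) (nat_lit 760) (nat_lit 1427996923) (nat_lit 334) (nat_lit 5) (nat_lit 343) (nat_lit 5) (nat_lit 344) (nat_lit 5) (nat_lit 457) (nat_lit 425) (nat_lit 318)) (XT.lf (nat_lit 0) (nat_lit 2286290577) (nat_lit 760) (nat_lit 463393499) (nat_lit 76) (nat_lit 11910543198) (nat_lit 333) (nat_lit 5) (nat_lit 343) (nat_lit 5) (nat_lit 334) (nat_lit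 5) (nat_lit 458) (nat_lit 425) (nat_lit 317))))) (XT.nd (nat_lit 234) (nat_lit 2584) (nat_lit 0) (XT.nd (nat_lit 78) (nat_lit 1368) (nat_lit 0) (XT.lf (nat_lit 0) (nat_lit 6193680487) (nat_lit 760) (nat_lit 2280388951) (nat_lit 76) (nat_lit 6428378208) (nat_lit 324) (nat_lit 5) (nat_lit 334) (nat_lit 5) (nat_lit 325) (nat_lit 5) (nat_lit 459) (nat_lit 425) (nat_lit 316)) (XT.nd (nat_lit 78) (nat_lit 684) (nat_lit 0) (XT.lf (nat_lit 0) (nat_lit 10293502395) (nat_lit 760) (nat_lit 4101863679) (nat_lit 76) (nat_lit 755064922) (nat_lit 315) (nat_lit 5) (nat_lit 325) (nat_lit 5) (nat_lit 316) (nat_lit 5) (nat_lit 460) (nat_lit 425) (nat_lit 315)) (XT.lf (nat_lit 0) (nat_lit 9442681903) (nat_lit 684) (nat_lit 5184563722) (nat_lit 760) (nat_lit 776390238) (nat_lit 306) (nat_lit 5) (nat_lit 315) (nat_lit 5) (nat_lit 316) (nat_lit 5) (nat_lit 461) (nat_lit 425) (nat_lit 314)))) (XT.nd (nat_lit 156) (nat_lit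 1292) (nat_lit 0) (XT.nd (nat_lit 78) (nat_lit 608) (nat_lit 0) (XT.lf (nat_lit 0) (nat_lit 3466801098) (nat_lit 684) (nat_lit 7852526900) (nat_lit 76) (nat_lit 4342960920) (nat_lit 297) (nat_lit 5) (nat_lit 306) (nat_lit 5) (nat_lit 298) (nat_lit 5) (nat_lit 462) (nat_lit 425) (nat_lit 313)) (XT.lf (nat_lit 0) (nat_lit 6160706027) (nat_lit 608) (nat_lit 1759596994) (nat_lit 684) (nat_lit 8006425158) (nat_lit 289) (nat_lit 5) (nat_lit 297) (nat_lit 5) (nat_lit 298) (nat_lit 5) (nat_lit 463) (nat_lit 425) (nat_lit 312))) (XT.nd (nat_lit 78) (nat_lit 684) (nat_lit 0) (XT.lf (nat_lit 0) (nat_lit 4482504855) (nat_lit 608) (nat_lit 8138675225) (nat_lit 684) (nat_lit 3575645632) (nat_lit 281) (nat_lit 5) (nat_lit 289) (nat_lit 5) (nat_lit 290) (nat_lit 5) (nat_lit 464) (nat_lit 425) (nat_lit 311)) (XT.lf (nat_lit 0) (nat_lit 1062052283) (nat_lit 684) (nat_lit 13675167469) (nat_lit 76) (nat_lit 1735939518)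 (nat_lit 272) (nat_lit 5) (nat_lit 281) (nat_lit 5) (nat_lit 273) (nat_lit 5) (nat_lit 465) (nat_lit 425) (nat_lit 310)))))) (XT.nd (nat_lit 546) (nat_lit 3192) (nat_lit 0) (XT.nd (nat_lit 234) (nat_lit 2204) (nat_lit 0) (XT.nd (nat_lit 78) (nat_lit 608) (nat_lit 0) (XT.lf (nat_lit 0) (nat_lit 1057848112) (nat_lit 532) (nat_lit 4853242315) (nat_lit 608) (nat_lit 10843804401) (nat_lit 265) (nat_lit 5) (nat_lit 272) (nat_lit 5) (nat_lit 273) (nat_lit 5) (nat_lit 466) (nat_lit 425) (nat_lit 309)) (XT.nd (nat_lit 78) (nat_lit 608) (nat_lit 0) (XT.lf (nat_lit 0) (nat_lit 11013168689) (nat_lit 608) (nat_lit 685303089) (nat_lit 76) (nat_lit 5344459741) (nat_lit 265) (nat_lit 5) (nat_lit 273) (nat_lit 5) (nat_lit 266) (nat_lit 5) (nat_lit 467) (nat_lit 425) (nat_lit 308)) (XT.lf (nat_lit 0) (nat_lit 14913803960) (nat_lit 608) (nat_lit 1464082651) (nat_lit 684) (nat_lit 959531585) (nat_lit 257) (nat_lit 5) (nat_lit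 265) (nat_lit 5) (nat_lit 266) (nat_lit 5) (nat_lit 468) (nat_lit 425) (nat_lit 307)))) (XT.nd (nat_lit 156) (nat_lit 1064) (nat_lit 0) (XT.nd (nat_lit 78) (nat_lit 532) (nat_lit 0) (XT.lf (nat_lit 0) (nat_lit 4339304364) (nat_lit 608) (nat_lit 4225777661) (nat_lit 76) (nat_lit 9072456218) (nat_lit 249) (nat_lit 5) (nat_lit 257) (nat_lit 5) (nat_lit 250) (nat_lit 5) (nat_lit 469) (nat_lit 425) (nat_lit 306)) (XT.lf (nat_lit 0) (nat_lit 9882146224) (nat_lit 608) (nat_lit 6034965120) (nat_lit 76) (nat_lit 2027462554) (nat_lit 242) (nat_lit 5) (nat_lit 250) (nat_lit 5) (nat_lit 243) (nat_lit 5) (nat_lit 470) (nat_lit 425) (nat_lit 305))) (XT.nd (nat_lit 78) (nat_lit 608) (nat_lit 0) (XT.lf (nat_lit 0) (nat_lit 10379520588) (nat_lit 456) (nat_lit 5346520878) (nat_lit 532) (nat_lit 2532084181) (nat_lit 236) (nat_lit 5) (nat_lit 242) (nat_lit 5) (nat_lit 243) (nat_lit 5) (nat_lit 471) (nat_lit 425) (nat_lit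 304)) (XT.lf (nat_lit 0) (nat_lit 3239605118) (nat_lit 608) (nat_lit 9757260392) (nat_lit 76) (nat_lit 5581469249) (nat_lit 228) (nat_lit 5) (nat_lit 236) (nat_lit 5) (nat_lit 229) (nat_lit 5) (nat_lit 472) (nat_lit 425) (nat_lit 303))))) (XT.nd (nat_lit 312) (nat_lit 1292) (nat_lit 0) (XT.nd (nat_lit 156) (nat_lit 988) (nat_lit 0) (XT.nd (nat_lit 78) (nat_lit 456) (nat_lit 0) (XT.lf (nat_lit 0) (nat_lit 7238883064) (nat_lit 456) (nat_lit 2029713618) (nat_lit 532) (nat_lit 9636848024) (nat_lit 222) (nat_lit 5) (nat_lit 228) (nat_lit 5) (nat_lit 229) (nat_lit 5) (nat_lit 473) (nat_lit 425) (nat_lit 302)) (XT.lf (nat_lit 0) (nat_lit 5625183154) (nat_lit 456) (nat_lit 9998696001) (nat_lit 532) (nat_lit 3615580724) (nat_lit 216) (nat_lit 5) (nat_lit 222) (nat_lit 5) (nat_lit 223) (nat_lit 5) (nat_lit 474) (nat_lit 425) (nat_lit 301))) (XT.nd (nat_lit 78) (nat_lit 456) (nat_lit 0) (XT.lf (nat_lit 0) (nat_lit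 2662815892) (nat_lit 532) (nat_lit 15580006173) (nat_lit 76) (nat_lit 1338129700) (nat_lit 209) (nat_lit 5) (nat_lit 216) (nat_lit 5) (nat_lit 210) (nat_lit 5) (nat_lit 475) (nat_lit 425) (nat_lit 300)) (XT.lf (nat_lit 0) (nat_lit 2313702314) (nat_lit 456) (nat_lit 6924494850) (nat_lit 532) (nat_lit 10690858502) (nat_lit 203) (nat_lit 5) (nat_lit 209) (nat_lit 5) (nat_lit 210) (nat_lit 5) (nat_lit 476) (nat_lit 425) (nat_lit 299)))) (XT.nd (nat_lit 156) (nat_lit 836) (nat_lit 0) (XT.nd (nat_lit 78) (nat_lit 76) (nat_lit 0) (XT.lf (nat_lit 0) (nat_lit 623738233) (nat_lit 380) (nat_lit 15511171062) (nat_lit 456) (nat_lit 4150212312) (nat_lit 198) (nat_lit 5) (nat_lit 203) (nat_lit 5) (nat_lit 204) (nat_lit 5) (nat_lit 477) (nat_lit 425) (nat_lit 298)) (XT.lf (nat_lit 0) (nat_lit 2702431423) (nat_lit 456) (nat_lit 1087070472) (nat_lit 76) (nat_lit 16859037991) (nat_lit 197) (nat_lit 5) (nat_lit 203) (nat_lit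 5) (nat_lit 198) (nat_lit 5) (nat_lit 478) (nat_lit 425) (nat_lit 297))) (XT.nd (nat_lit 78) (nat_lit 380) (nat_lit 0) (XT.lf (nat_lit 0) (nat_lit 9861390163) (nat_lit 532) (nat_lit 2843232676) (nat_lit 76) (nat_lit 8314547088) (nat_lit 191) (nat_lit 5) (nat_lit 198) (nat_lit 5) (nat_lit 192) (nat_lit 5) (nat_lit 479) (nat_lit 425) (nat_lit 296)) (XT.lf (nat_lit 0) (nat_lit 16801937439) (nat_lit 380) (nat_lit 559022419) (nat_lit 456) (nat_lit 4037442449) (nat_lit 186) (nat_lit 5) (nat_lit 191) (nat_lit 5) (nat_lit 192) (nat_lit 5) (nat_lit 480) (nat_lit 425) (nat_lit 295))))))))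
noncomputable def xc69 : XT := (XT.nd (nat_lit 58266) (nat_lit 0) (nat_lit 21280) (XT.nd (nat_lit 1092) (nat_lit 3724) (nat_lit 0) (XT.nd (nat_lit 546) (nat_lit 2052) (nat_lit 0) (XT.nd (nat_lit 234) (nat_lit 1596) (nat_lit 0) (XT.nd (nat_lit 78) (nat_lit 760) (nat_lit 0) (XT.lf (nat_lit 0) (nat_lit 3435617764) (nat_lit 456) (nat_lit 6421004374) (nat_lit 76) (nat_lit 11928314785) (nat_lit 180) (nat_lit 5) (nat_lit 186) (nat_lit 5) (nat_lit 181) (nat_lit 5) (nat_lit 481) (nat_lit 425) (nat_lit 294)) (XT.nd (nat_lit 78) (nat_lit 380) (nat_lit 0) (XT.lf (nat_lit 0) (nat_lit 11206148159) (nat_lit 456) (nat_lit 8266422518) (nat_lit 76) (nat_lit 2707400782) (nat_lit 175) (nat_lit 5) (nat_lit 181) (nat_lit 5) (nat_lit 176) (nat_lit 5) (nat_lit 482) (nat_lit 425) (nat_lit 293)) (XT.lf (nat_lit 0) (nat_lit 12433367653) (nat_lit 380) (nat_lit 6951577253) (nat_lit 456) (nat_lit 3198409368) (nat_lit 170) (nat_lit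 5) (nat_lit 175) (nat_lit 5) (nat_lit 176) (nat_lit 5) (nat_lit 483) (nat_lit 425) (nat_lit 292)))) (XT.nd (nat_lit 156) (nat_lit 760) (nat_lit 0) (XT.nd (nat_lit 78) (nat_lit 380) (nat_lit 0) (XT.lf (nat_lit 0) (nat_lit 4899217855) (nat_lit 456) (nat_lit 12077215846) (nat_lit 76) (nat_lit 6018739713) (nat_lit 164) (nat_lit 5) (nat_lit 170) (nat_lit 5) (nat_lit 165) (nat_lit 5) (nat_lit 484) (nat_lit 425) (nat_lit 291)) (XT.lf (nat_lit 0) (nat_lit 9370241149) (nat_lit 380) (nat_lit 3988030793) (nat_lit 456) (nat_lit 10057413553) (nat_lit 159) (nat_lit 5) (nat_lit 164) (nat_lit 5) (nat_lit 165) (nat_lit 5) (nat_lit 485) (nat_lit 425) (nat_lit 290))) (XT.nd (nat_lit 78) (nat_lit 456) (nat_lit 0) (XT.lf (nat_lit 0) (nat_lit 7796927711) (nat_lit 304) (nat_lit 14453513819) (nat_lit 380) (nat_lit 1594784756) (nat_lit 155) (nat_lit 5) (nat_lit 159) (nat_lit 5) (nat_lit 160) (nat_lit 5) (nat_lit 486) (nat_lit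 425) (nat_lit 289)) (XT.lf (nat_lit 0) (nat_lit 6185765509) (nat_lit 380) (nat_lit 990750329) (nat_lit 456) (nat_lit 17107248987) (nat_lit 149) (nat_lit 5) (nat_lit 154) (nat_lit 5) (nat_lit 155) (nat_lit 5) (nat_lit 487) (nat_lit 425) (nat_lit 288))))) (XT.nd (nat_lit 234) (nat_lit 988) (nat_lit 0) (XT.nd (nat_lit 78) (nat_lit 760) (nat_lit 0) (XT.lf (nat_lit 0) (nat_lit 4514707615) (nat_lit 304) (nat_lit 11882861560) (nat_lit 380) (nat_lit 8333514111) (nat_lit 145) (nat_lit 5) (nat_lit 149) (nat_lit 5) (nat_lit 150) (nat_lit 5) (nat_lit 488) (nat_lit 425) (nat_lit 287)) (XT.nd (nat_lit 78) (nat_lit 304) (nat_lit 0) (XT.lf (nat_lit 0) (nat_lit 842085980) (nat_lit 456) (nat_lit 22335093062) (nat_lit 76) (nat_lit 2011593537) (nat_lit 139) (nat_lit 5) (nat_lit 145) (nat_lit 5) (nat_lit 140) (nat_lit 5) (nat_lit 489) (nat_lit 425) (nat_lit 286)) (XT.lf (nat_lit 0) (nat_lit 1090882017) (nat_lit 304) (nat_lit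 9300109841) (nat_lit 380) (nat_lit 15263874045) (nat_lit 135) (nat_lit 5) (nat_lit 139) (nat_lit 5) (nat_lit 140) (nat_lit 5) (nat_lit 490) (nat_lit 425) (nat_lit 285)))) (XT.nd (nat_lit 156) (nat_lit 608) (nat_lit 0) (XT.nd (nat_lit 78) (nat_lit 380) (nat_lit 0) (XT.lf (nat_lit 0) (nat_lit 20397504820) (nat_lit 380) (nat_lit 662257635) (nat_lit 76) (nat_lit 5071756960) (nat_lit 135) (nat_lit 5) (nat_lit 140) (nat_lit 5) (nat_lit 136) (nat_lit 5) (nat_lit 491) (nat_lit 425) (nat_lit 284)) (XT.lf (nat_lit 0) (nat_lit 4235588540) (nat_lit 380) (nat_lit 2456270397) (nat_lit 76) (nat_lit 19925936134) (nat_lit 130) (nat_lit 5) (nat_lit 135) (nat_lit 5) (nat_lit 131) (nat_lit 5) (nat_lit 492) (nat_lit 425) (nat_lit 283))) (XT.nd (nat_lit 78) (nat_lit 304) (nat_lit 0) (XT.lf (nat_lit 0) (nat_lit 14620539390) (nat_lit 380) (nat_lit 4308440686) (nat_lit 76) (nat_lit 8185037807) (nat_lit 126) (nat_lit 5) (nat_lit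 131) (nat_lit 5) (nat_lit 127) (nat_lit 5) (nat_lit 493) (nat_lit 425) (nat_lit 282)) (XT.lf (nat_lit 0) (nat_lit 21449244516) (nat_lit 304) (nat_lit 4055679529) (nat_lit 380) (nat_lit 2116445798) (nat_lit 122) (nat_lit 5) (nat_lit 126) (nat_lit 5) (nat_lit 127) (nat_lit 5) (nat_lit 494) (nat_lit 425) (nat_lit 281)))))) (XT.nd (nat_lit 546) (nat_lit 1596) (nat_lit 0) (XT.nd (nat_lit 234) (nat_lit 1140) (nat_lit 0) (XT.nd (nat_lit 78) (nat_lit 608) (nat_lit 0) (XT.lf (nat_lit 0) (nat_lit 8681024035) (nat_lit 380) (nat_lit 8132725124) (nat_lit 76) (nat_lit 11324649310) (nat_lit 117) (nat_lit 5) (nat_lit 122) (nat_lit 5) (nat_lit 118) (nat_lit 5) (nat_lit 495) (nat_lit 425) (nat_lit 280)) (XT.nd (nat_lit 78) (nat_lit 304) (nat_lit 0) (XT.lf (nat_lit 0) (nat_lit 18564119743) (nat_lit 304) (nat_lit 1386915382) (nat_lit 380) (nat_lit 8716075762) (nat_lit 113) (nat_lit 5) (nat_lit 117) (nat_lit 5) (nat_lit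 118) (nat_lit 5) (nat_lit 496) (nat_lit 425) (nat_lit 279)) (XT.lf (nat_lit 0) (nat_lit 2566421475) (nat_lit 304) (nat_lit 12152473549) (nat_lit 76) (nat_lit 14487490037) (nat_lit 109) (nat_lit 5) (nat_lit 113) (nat_lit 5) (nat_lit 110) (nat_lit 5) (nat_lit 497) (nat_lit 425) (nat_lit 278)))) (XT.nd (nat_lit 156) (nat_lit 608) (nat_lit 0) (XT.nd (nat_lit 78) (nat_lit 228) (nat_lit 0) (XT.lf (nat_lit 0) (nat_lit 14244694810) (nat_lit 380) (nat_lit 14247473345) (nat_lit 76) (nat_lit 1265002814) (nat_lit 105) (nat_lit 5) (nat_lit 110) (nat_lit 5) (nat_lit 106) (nat_lit 5) (nat_lit 498) (nat_lit 425) (nat_lit 277)) (XT.lf (nat_lit 0) (nat_lit 13908160446) (nat_lit 228) (nat_lit 12624730306) (nat_lit 304) (nat_lit 3786398353) (nat_lit 102) (nat_lit 5) (nat_lit 105) (nat_lit 5) (nat_lit 106) (nat_lit 5) (nat_lit 499) (nat_lit 425) (nat_lit 276))) (XT.nd (nat_lit 78) (nat_lit 228) (nat_lit 0) (XT.lf (nat_lit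 0) (nat_lit 8373427725) (nat_lit 380) (nat_lit 18625948047) (nat_lit 76) (nat_lit 3894004273) (nat_lit 97) (nat_lit 5) (nat_lit 102) (nat_lit 5) (nat_lit 98) (nat_lit 5) (nat_lit 500) (nat_lit 425) (nat_lit 275)) (XT.lf (nat_lit 0) (nat_lit 10556289235) (nat_lit 228) (nat_lit 10543771123) (nat_lit 304) (nat_lit 10379063841) (nat_lit 94) (nat_lit 5) (nat_lit 97) (nat_lit 5) (nat_lit 98) (nat_lit 5) (nat_lit 501) (nat_lit 425) (nat_lit 274))))) (XT.nd (nat_lit 312) (nat_lit 532) (nat_lit 0) (XT.nd (nat_lit 156) (nat_lit 532) (nat_lit 0) (XT.nd (nat_lit 78) (nat_lit 228) (nat_lit 0) (XT.lf (nat_lit 0) (nat_lit 2314050385) (nat_lit 304) (nat_lit 23250837160) (nat_lit 76) (nat_lit 6512959528) (nat_lit 90) (nat_lit 5) (nat_lit 94) (nat_lit 5) (nat_lit 91) (nat_lit 5) (nat_lit 502) (nat_lit 425) (nat_lit 273)) (XT.lf (nat_lit 0) (nat_lit 6995063636) (nat_lit 228) (nat_lit 8499878534) (nat_lit 304) (nat_lit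 17193257571) (nat_lit 87) (nat_lit 5) (nat_lit 90) (nat_lit 5) (nat_lit 91) (nat_lit 5) (nat_lit 503) (nat_lit 425) (nat_lit 272))) (XT.nd (nat_lit 78) (nat_lit 304) (nat_lit 0) (XT.lf (nat_lit 0) (nat_lit 5140616246) (nat_lit 228) (nat_lit 24170251455) (nat_lit 304) (nat_lit 4001203262) (nat_lit 84) (nat_lit 5) (nat_lit 87) (nat_lit 5) (nat_lit 88) (nat_lit 5) (nat_lit 504) (nat_lit 425) (nat_lit 271)) (XT.lf (nat_lit 0) (nat_lit 3202109344) (nat_lit 228) (nat_lit 6500491157) (nat_lit 304) (nat_lit 24245978720) (nat_lit 80) (nat_lit 5) (nat_lit 83) (nat_lit 5) (nat_lit 84) (nat_lit 5) (nat_lit 505) (nat_lit 425) (nat_lit 270)))) (XT.nd (nat_lit 156) (nat_lit 228) (nat_lit 0) (XT.nd (nat_lit 78) (nat_lit 76) (nat_lit 0) (XT.lf (nat_lit 0) (nat_lit 1194419593) (nat_lit 228) (nat_lit 22833900326) (nat_lit 304) (nat_lit 10570030711) (nat_lit 77) (nat_lit 5) (nat_lit 80) (nat_lit 5) (nat_lit 81) (nat_lit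 5) (nat_lit 506) (nat_lit 425) (nat_lit 269)) (XT.lf (nat_lit 0) (nat_lit 3712379332) (nat_lit 304) (nat_lit 835955442) (nat_lit 76) (nat_lit 30713977935) (nat_lit 76) (nat_lit 5) (nat_lit 80) (nat_lit 5) (nat_lit 77) (nat_lit 5) (nat_lit 507) (nat_lit 425) (nat_lit 268))) (XT.nd (nat_lit 56082) (nat_lit 0) (nat_lit 36404) (XT.lf (nat_lit 0) (nat_lit 18579085442) (nat_lit 304) (nat_lit 2982082283) (nat_lit 76) (nat_lit 14377640087) (nat_lit 73) (nat_lit 5) (nat_lit 77) (nat_lit 5) (nat_lit 74) (nat_lit 5) (nat_lit 508) (nat_lit 425) (nat_lit 267)) (XT.lf (nat_lit 0) (nat_lit 180928230) (nat_lit 0) (nat_lit 180928230) (nat_lit 1596) (nat_lit 4301739629) (nat_lit 552) (nat_lit 5) (nat_lit 552) (nat_lit 3) (nat_lit 573) (nat_lit 3) (nat_lit 426) (nat_lit 426) (nat_lit 348))))))) (XT.nd (nat_lit 1170) (nat_lit 12312) (nat_lit 0) (XT.nd (nat_lit 546) (nat_lit 1444) (nat_lit 0) (XT.nd (nat_lit 234) (nat_lit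 1368) (nat_lit 0) (XT.nd (nat_lit 78) (nat_lit 0) (nat_lit 76) (XT.lf (nat_lit 0) (nat_lit 2017439916) (nat_lit 1596) (nat_lit 2027909858) (nat_lit 1672) (nat_lit 5396051730) (nat_lit 552) (nat_lit 5) (nat_lit 573) (nat_lit 3) (nat_lit 574) (nat_lit 5) (nat_lit 427) (nat_lit 426) (nat_lit 347)) (XT.nd (nat_lit 78) (nat_lit 0) (nat_lit 0) (XT.lf (nat_lit 0) (nat_lit 3349177219) (nat_lit 1596) (nat_lit 4413722937) (nat_lit 1672) (nat_lit 1796154585) (nat_lit 553) (nat_lit 5) (nat_lit 574) (nat_lit 5) (nat_lit 575) (nat_lit 5) (nat_lit 428) (nat_lit 426) (nat_lit 346)) (XT.lf (nat_lit 76) (nat_lit 2865856585) (nat_lit 0) (nat_lit 1867374350) (nat_lit 1672) (nat_lit 4946760913) (nat_lit 554) (nat_lit 5) (nat_lit 553) (nat_lit 5) (nat_lit 575) (nat_lit 5) (nat_lit 429) (nat_lit 426) (nat_lit 345)))) (XT.nd (nat_lit 156) (nat_lit 1520) (nat_lit 0) (XT.nd (nat_lit 78) (nat_lit 0) (nat_lit 76) (XT.lf (nat_lit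 76) (nat_lit 573523646) (nat_lit 0) (nat_lit 5600623124) (nat_lit 1672) (nat_lit 3630105001) (nat_lit 555) (nat_lit 5) (nat_lit 554) (nat_lit 5) (nat_lit 576) (nat_lit 5) (nat_lit 430) (nat_lit 426) (nat_lit 344)) (XT.lf (nat_lit 0) (nat_lit 7675908865) (nat_lit 1596) (nat_lit 1698542191) (nat_lit 1672) (nat_lit 557437530) (nat_lit 555) (nat_lit 5) (nat_lit 576) (nat_lit 5) (nat_lit 577) (nat_lit 5) (nat_lit 431) (nat_lit 426) (nat_lit 343))) (XT.nd (nat_lit 78) (nat_lit 1596) (nat_lit 0) (XT.lf (nat_lit 76) (nat_lit 6075273545) (nat_lit 0) (nat_lit 3181134863) (nat_lit 1672) (nat_lit 806273830) (nat_lit 556) (nat_lit 5) (nat_lit 555) (nat_lit 5) (nat_lit 577) (nat_lit 5) (nat_lit 432) (nat_lit 426) (nat_lit 342)) (XT.lf (nat_lit 0) (nat_lit 693743099) (nat_lit 1672) (nat_lit 6289879619) (nat_lit 1748) (nat_lit 3213372562) (nat_lit 534) (nat_lit 5) (nat_lit 556) (nat_lit 5) (nat_lit 557) (nat_lit 5)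 (nat_lit 433) (nat_lit 426) (nat_lit 341))))) (XT.nd (nat_lit 312) (nat_lit 1444) (nat_lit 0) (XT.nd (nat_lit 156) (nat_lit 0) (nat_lit 152) (XT.nd (nat_lit 78) (nat_lit 0) (nat_lit 76) (XT.lf (nat_lit 76) (nat_lit 1726875303) (nat_lit 0) (nat_lit 519435345) (nat_lit 1748) (nat_lit 8088551710) (nat_lit 535) (nat_lit 5) (nat_lit 534) (nat_lit 5) (nat_lit 557) (nat_lit 5) (nat_lit 434) (nat_lit 426) (nat_lit 340)) (XT.lf (nat_lit 0) (nat_lit 3888088322) (nat_lit 1672) (nat_lit 473561035) (nat_lit 1748) (nat_lit 6114364709) (nat_lit 535) (nat_lit 5) (nat_lit 557) (nat_lit 5) (nat_lit 558) (nat_lit 5) (nat_lit 435) (nat_lit 426) (nat_lit 339))) (XT.nd (nat_lit 78) (nat_lit 0) (nat_lit 0) (XT.lf (nat_lit 0) (nat_lit 5610917757) (nat_lit 1672) (nat_lit 2657313230) (nat_lit 1748) (nat_lit 2352534611) (nat_lit 536) (nat_lit 5) (nat_lit 558) (nat_lit 5) (nat_lit 559) (nat_lit 5) (nat_lit 436) (nat_lit 426) (nat_lit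 338)) (XT.lf (nat_lit 76) (nat_lit 5911366785) (nat_lit 0) (nat_lit 1506923984) (nat_lit 1748) (nat_lit 3350912940) (nat_lit 537) (nat_lit 5) (nat_lit 536) (nat_lit 5) (nat_lit 559) (nat_lit 5) (nat_lit 437) (nat_lit 426) (nat_lit 337)))) (XT.nd (nat_lit 156) (nat_lit 0) (nat_lit 0) (XT.nd (nat_lit 78) (nat_lit 1672) (nat_lit 0) (XT.lf (nat_lit 76) (nat_lit 3838942878) (nat_lit 0) (nat_lit 5482501374) (nat_lit 1748) (nat_lit 1599820697) (nat_lit 538) (nat_lit 5) (nat_lit 537) (nat_lit 5) (nat_lit 560) (nat_lit 5) (nat_lit 438) (nat_lit 426) (nat_lit 336)) (XT.lf (nat_lit 0) (nat_lit 229637369) (nat_lit 1748) (nat_lit 9317710606) (nat_lit 1824) (nat_lit 1529944581) (nat_lit 515) (nat_lit 5) (nat_lit 538) (nat_lit 5) (nat_lit 539) (nat_lit 5) (nat_lit 439) (nat_lit 426) (nat_lit 335))) (XT.nd (nat_lit 78) (nat_lit 0) (nat_lit 76) (XT.lf (nat_lit 0) (nat_lit 2142010343) (nat_lit 1748) (nat_lit 348983952)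 (nat_lit 1824) (nat_lit 8745800953) (nat_lit 515) (nat_lit 5) (nat_lit 538) (nat_lit 5) (nat_lit 539) (nat_lit 5) (nat_lit 440) (nat_lit 426) (nat_lit 334)) (XT.lf (nat_lit 0) (nat_lit 4167201195) (nat_lit 1748) (nat_lit 2452616417) (nat_lit 1824) (nat_lit 4780157527) (nat_lit 516) (nat_lit 5) (nat_lit 539) (nat_lit 5) (nat_lit 540) (nat_lit 5) (nat_lit 441) (nat_lit 426) (nat_lit 333)))))) (XT.nd (nat_lit 546) (nat_lit 5852) (nat_lit 0) (XT.nd (nat_lit 234) (nat_lit 3040) (nat_lit 0) (XT.nd (nat_lit 78) (nat_lit 3572) (nat_lit 0) (XT.lf (nat_lit 0) (nat_lit 6288943304) (nat_lit 1748) (nat_lit 4564940925) (nat_lit 76) (nat_lit 713451306) (nat_lit 517) (nat_lit 5) (nat_lit 540) (nat_lit 5) (nat_lit 518) (nat_lit 5) (nat_lit 442) (nat_lit 426) (nat_lit 332)) (XT.nd (nat_lit 78) (nat_lit 1824) (nat_lit 0) (XT.lf (nat_lit 0) (nat_lit 5029166684) (nat_lit 1748) (nat_lit 3506226215) (nat_lit 1824) (nat_lit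 3203103730) (nat_lit 494) (nat_lit 5) (nat_lit 517) (nat_lit 5) (nat_lit 518) (nat_lit 5) (nat_lit 443) (nat_lit 426) (nat_lit 331)) (XT.lf (nat_lit 0) (nat_lit 3044892231) (nat_lit 1824) (nat_lit 7849829725) (nat_lit 1900) (nat_lit 1019161842) (nat_lit 470) (nat_lit 5) (nat_lit 494) (nat_lit 5) (nat_lit 495) (nat_lit 5) (nat_lit 444) (nat_lit 426) (nat_lit 330)))) (XT.nd (nat_lit 156) (nat_lit 1824) (nat_lit 0) (XT.nd (nat_lit 78) (nat_lit 0) (nat_lit 0) (XT.lf (nat_lit 0) (nat_lit 1044074473) (nat_lit 1140) (nat_lit 214827737) (nat_lit 1216) (nat_lit 10834576741) (nat_lit 454) (nat_lit 5) (nat_lit 469) (nat_lit 5) (nat_lit 470) (nat_lit 5) (nat_lit 445) (nat_lit 426) (nat_lit 329)) (XT.lf (nat_lit 0) (nat_lit 3671201788) (nat_lit 1216) (nat_lit 986222959) (nat_lit 76) (nat_lit 7619308564) (nat_lit 454) (nat_lit 5) (nat_lit 470) (nat_lit 5) (nat_lit 455) (nat_lit 5) (nat_lit 446) (nat_lit 426) (nat_lit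 328))) (XT.nd (nat_lit 78) (nat_lit 912) (nat_lit 0) (XT.lf (nat_lit 0) (nat_lit 6210540193) (nat_lit 988) (nat_lit 3011674835) (nat_lit 76) (nat_lit 3242177741) (nat_lit 442) (nat_lit 5) (nat_lit 455) (nat_lit 5) (nat_lit 443) (nat_lit 5) (nat_lit 447) (nat_lit 426) (nat_lit 327)) (XT.lf (nat_lit 0) (nat_lit 7601934345) (nat_lit 912) (nat_lit 1282445944) (nat_lit 988) (nat_lit 3772136127) (nat_lit 430) (nat_lit 5) (nat_lit 442) (nat_lit 5) (nat_lit 443) (nat_lit 5) (nat_lit 448) (nat_lit 426) (nat_lit 326))))) (XT.nd (nat_lit 312) (nat_lit 3192) (nat_lit 0) (XT.nd (nat_lit 156) (nat_lit 836) (nat_lit 0) (XT.nd (nat_lit 78) (nat_lit 988) (nat_lit 0) (XT.lf (nat_lit 0) (nat_lit 5723859857) (nat_lit 836) (nat_lit 5988819490) (nat_lit 912) (nat_lit 1140240366) (nat_lit 419) (nat_lit 5) (nat_lit 430) (nat_lit 5) (nat_lit 431) (nat_lit 5) (nat_lit 449) (nat_lit 426) (nat_lit 325)) (XT.lf (nat_lit 0) (nat_lit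 1604893216) (nat_lit 988) (nat_lit 9224519177) (nat_lit 76) (nat_lit 2224501943) (nat_lit 406) (nat_lit 5) (nat_lit 419) (nat_lit 5) (nat_lit 407) (nat_lit 5) (nat_lit 450) (nat_lit 426) (nat_lit 324))) (XT.nd (nat_lit 78) (nat_lit 0) (nat_lit 0) (XT.lf (nat_lit 0) (nat_lit 1903678410) (nat_lit 836) (nat_lit 2587203172) (nat_lit 912) (nat_lit 8768427384) (nat_lit 395) (nat_lit 5) (nat_lit 406) (nat_lit 5) (nat_lit 407) (nat_lit 5) (nat_lit 451) (nat_lit 426) (nat_lit 323)) (XT.lf (nat_lit 0) (nat_lit 7538169735) (nat_lit 912) (nat_lit 43951885) (nat_lit 76) (nat_lit 5887250142) (nat_lit 395) (nat_lit 5) (nat_lit 407) (nat_lit 5) (nat_lit 396) (nat_lit 5) (nat_lit 452) (nat_lit 426) (nat_lit 322)))) (XT.nd (nat_lit 156) (nat_lit 1520) (nat_lit 0) (XT.nd (nat_lit 78) (nat_lit 836) (nat_lit 0) (XT.lf (nat_lit 0) (nat_lit 10750811466) (nat_lit 912) (nat_lit 1974041356) (nat_lit 76) (nat_lit 959405631) (nat_lit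 384) (nat_lit 5) (nat_lit 396) (nat_lit 5) (nat_lit 385) (nat_lit 5) (nat_lit 453) (nat_lit 426) (nat_lit 321)) (XT.lf (nat_lit 0) (nat_lit 243342183) (nat_lit 836) (nat_lit 3940215993) (nat_lit 76) (nat_lit 9720191724) (nat_lit 373) (nat_lit 5) (nat_lit 384) (nat_lit 5) (nat_lit 374) (nat_lit 5) (nat_lit 454) (nat_lit 426) (nat_lit 320))) (XT.nd (nat_lit 78) (nat_lit 760) (nat_lit 0) (XT.lf (nat_lit 0) (nat_lit 3548365567) (nat_lit 836) (nat_lit 5941078823) (nat_lit 76) (nat_lit 4638538864) (nat_lit 363) (nat_lit 5) (nat_lit 374) (nat_lit 5) (nat_lit 364) (nat_lit 5) (nat_lit 455) (nat_lit 426) (nat_lit 319)) (XT.lf (nat_lit 0) (nat_lit 6402397230) (nat_lit 760) (nat_lit 622321269) (nat_lit 836) (nat_lit 7332782167) (nat_lit 353) (nat_lit 5) (nat_lit 363) (nat_lit 5) (nat_lit 364) (nat_lit 5) (nat_lit 456) (nat_lit 426) (nat_lit 318))))))))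
noncomputable def xc70 : XT := (XT.nd (nat_lit 2262) (nat_lit 6916) (nat_lit 0) (XT.nd (nat_lit 1092) (nat_lit 6460) (nat_lit 0) (XT.nd (nat_lit 546) (nat_lit 3648) (nat_lit 0) (XT.nd (nat_lit 234) (nat_lit 2052) (nat_lit 0) (XT.nd (nat_lit 78) (nat_lit 1444) (nat_lit 0) (XT.lf (nat_lit 0) (nat_lit 4582169474) (nat_lit 760) (nat_lit 6125000049) (nat_lit 836) (nat_lit 3884698545) (nat_lit 343) (nat_lit 5) (nat_lit 353) (nat_lit 5) (nat_lit 354) (nat_lit 5) (nat_lit 457) (nat_lit 426) (nat_lit 317)) (XT.nd (nat_lit 78) (nat_lit 760) (nat_lit 0) (XT.lf (nat_lit 0) (nat_lit 2757732466) (nat_lit 684) (nat_lit 11814831854) (nat_lit 760) (nat_lit 259253366) (nat_lit 334) (nat_lit 5) (nat_lit 343) (nat_lit 5) (nat_lit 344) (nat_lit 5) (nat_lit 458) (nat_lit 426) (nat_lit 316)) (XT.lf (nat_lit 0) (nat_lit 888591665) (nat_lit 684) (nat_lit 2632924265) (nat_lit 760) (nat_lit 11555156490) (nat_lit 324) (nat_lit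 5) (nat_lit 333) (nat_lit 5) (nat_lit 334) (nat_lit 5) (nat_lit 459) (nat_lit 426) (nat_lit 315)))) (XT.nd (nat_lit 156) (nat_lit 1368) (nat_lit 0) (XT.nd (nat_lit 78) (nat_lit 684) (nat_lit 0) (XT.lf (nat_lit 0) (nat_lit 7516472647) (nat_lit 760) (nat_lit 995072478) (nat_lit 76) (nat_lit 6815208220) (nat_lit 324) (nat_lit 5) (nat_lit 334) (nat_lit 5) (nat_lit 325) (nat_lit 5) (nat_lit 460) (nat_lit 426) (nat_lit 314)) (XT.lf (nat_lit 0) (nat_lit 11716243480) (nat_lit 760) (nat_lit 2872300086) (nat_lit 76) (nat_lit 994094361) (nat_lit 315) (nat_lit 5) (nat_lit 325) (nat_lit 5) (nat_lit 316) (nat_lit 5) (nat_lit 461) (nat_lit 426) (nat_lit 313))) (XT.nd (nat_lit 78) (nat_lit 608) (nat_lit 0) (XT.lf (nat_lit 0) (nat_lit 308182471) (nat_lit 760) (nat_lit 4789306136) (nat_lit 76) (nat_lit 10746386680) (nat_lit 305) (nat_lit 5) (nat_lit 315) (nat_lit 5) (nat_lit 306) (nat_lit 5) (nat_lit 462) (nat_lit 426)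 (nat_lit 312)) (XT.lf (nat_lit 0) (nat_lit 4646431534) (nat_lit 684) (nat_lit 6744758233) (nat_lit 76) (nat_lit 4719430082) (nat_lit 297) (nat_lit 5) (nat_lit 306) (nat_lit 5) (nat_lit 298) (nat_lit 5) (nat_lit 463) (nat_lit 426) (nat_lit 311))))) (XT.nd (nat_lit 234) (nat_lit 1748) (nat_lit 0) (XT.nd (nat_lit 78) (nat_lit 1292) (nat_lit 0) (XT.lf (nat_lit 0) (nat_lit 7667077513) (nat_lit 608) (nat_lit 1543712458) (nat_lit 684) (nat_lit 7172658021) (nat_lit 289) (nat_lit 5) (nat_lit 297) (nat_lit 5) (nat_lit 298) (nat_lit 5) (nat_lit 464) (nat_lit 426) (nat_lit 310)) (XT.nd (nat_lit 78) (nat_lit 684) (nat_lit 0) (XT.lf (nat_lit 0) (nat_lit 5936113624) (nat_lit 608) (nat_lit 8096171655) (nat_lit 684) (nat_lit 2629772046) (nat_lit 281) (nat_lit 5) (nat_lit 289) (nat_lit 5) (nat_lit 290) (nat_lit 5) (nat_lit 465) (nat_lit 426) (nat_lit 309)) (XT.lf (nat_lit 0) (nat_lit 2113394336) (nat_lit 684) (nat_lit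 12755612526) (nat_lit 76) (nat_lit 2077934960) (nat_lit 272) (nat_lit 5) (nat_lit 281) (nat_lit 5) (nat_lit 273) (nat_lit 5) (nat_lit 466) (nat_lit 426) (nat_lit 308)))) (XT.nd (nat_lit 156) (nat_lit 608) (nat_lit 0) (XT.nd (nat_lit 78) (nat_lit 608) (nat_lit 0) (XT.lf (nat_lit 0) (nat_lit 2397818936) (nat_lit 532) (nat_lit 4688885014) (nat_lit 608) (nat_lit 10150850149) (nat_lit 265) (nat_lit 5) (nat_lit 272) (nat_lit 5) (nat_lit 273) (nat_lit 5) (nat_lit 467) (nat_lit 426) (nat_lit 307)) (XT.lf (nat_lit 0) (nat_lit 589451614) (nat_lit 608) (nat_lit 11729097733) (nat_lit 684) (nat_lit 5216149087) (nat_lit 257) (nat_lit 5) (nat_lit 265) (nat_lit 5) (nat_lit 266) (nat_lit 5) (nat_lit 468) (nat_lit 426) (nat_lit 306))) (XT.nd (nat_lit 78) (nat_lit 608) (nat_lit 0) (XT.lf (nat_lit 0) (nat_lit 16627911607) (nat_lit 608) (nat_lit 1192408134) (nat_lit 684) (nat_lit 18178373) (nat_lit 257) (nat_lit 5) (nat_lit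 265) (nat_lit 5) (nat_lit 266) (nat_lit 5) (nat_lit 469) (nat_lit 426) (nat_lit 305)) (XT.lf (nat_lit 0) (nat_lit 5409269402) (nat_lit 608) (nat_lit 3077181237) (nat_lit 76) (nat_lit 9661398332) (nat_lit 249) (nat_lit 5) (nat_lit 257) (nat_lit 5) (nat_lit 250) (nat_lit 5) (nat_lit 470) (nat_lit 426) (nat_lit 304)))))) (XT.nd (nat_lit 546) (nat_lit 2964) (nat_lit 0) (XT.nd (nat_lit 234) (nat_lit 1900) (nat_lit 0) (XT.nd (nat_lit 78) (nat_lit 1064) (nat_lit 0) (XT.lf (nat_lit 0) (nat_lit 11101339637) (nat_lit 608) (nat_lit 4945074678) (nat_lit 76) (nat_lit 2418023092) (nat_lit 242) (nat_lit 5) (nat_lit 250) (nat_lit 5) (nat_lit 243) (nat_lit 5) (nat_lit 471) (nat_lit 426) (nat_lit 303)) (XT.nd (nat_lit 78) (nat_lit 608) (nat_lit 0) (XT.lf (nat_lit 0) (nat_lit 11941226119) (nat_lit 456) (nat_lit 5160567920) (nat_lit 532) (nat_lit 1685977381) (nat_lit 236) (nat_lit 5) (nat_lit 242) (nat_lit 5) (nat_lit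 243) (nat_lit 5) (nat_lit 472) (nat_lit 426) (nat_lit 302)) (XT.lf (nat_lit 0) (nat_lit 4230604013) (nat_lit 608) (nat_lit 8792455160) (nat_lit 76) (nat_lit 6094731738) (nat_lit 228) (nat_lit 5) (nat_lit 236) (nat_lit 5) (nat_lit 229) (nat_lit 5) (nat_lit 473) (nat_lit 426) (nat_lit 301)))) (XT.nd (nat_lit 156) (nat_lit 988) (nat_lit 0) (XT.nd (nat_lit 78) (nat_lit 456) (nat_lit 0) (XT.lf (nat_lit 0) (nat_lit 8693170783) (nat_lit 456) (nat_lit 1729293432) (nat_lit 532) (nat_lit 9032610480) (nat_lit 222) (nat_lit 5) (nat_lit 228) (nat_lit 5) (nat_lit 229) (nat_lit 5) (nat_lit 474) (nat_lit 426) (nat_lit 300)) (XT.lf (nat_lit 0) (nat_lit 7025930132) (nat_lit 456) (nat_lit 9927242464) (nat_lit 532) (nat_lit 2846242877) (nat_lit 216) (nat_lit 5) (nat_lit 222) (nat_lit 5) (nat_lit 223) (nat_lit 5) (nat_lit 475) (nat_lit 426) (nat_lit 299))) (XT.nd (nat_lit 78) (nat_lit 456) (nat_lit 0) (XT.lf (nat_lit 0)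 (nat_lit 3594134487) (nat_lit 532) (nat_lit 14809495154) (nat_lit 76) (nat_lit 1747706137) (nat_lit 209) (nat_lit 5) (nat_lit 216) (nat_lit 5) (nat_lit 210) (nat_lit 5) (nat_lit 476) (nat_lit 426) (nat_lit 298)) (XT.lf (nat_lit 0) (nat_lit 3600940950) (nat_lit 456) (nat_lit 6748944139) (nat_lit 532) (nat_lit 10160336010) (nat_lit 203) (nat_lit 5) (nat_lit 209) (nat_lit 5) (nat_lit 210) (nat_lit 5) (nat_lit 477) (nat_lit 426) (nat_lit 297))))) (XT.nd (nat_lit 312) (nat_lit 1672) (nat_lit 0) (XT.nd (nat_lit 156) (nat_lit 380) (nat_lit 0) (XT.nd (nat_lit 78) (nat_lit 532) (nat_lit 0) (XT.lf (nat_lit 0) (nat_lit 1854507168) (nat_lit 380) (nat_lit 15584969906) (nat_lit 456) (nat_lit 3437772823) (nat_lit 198) (nat_lit 5) (nat_lit 203) (nat_lit 5) (nat_lit 204) (nat_lit 5) (nat_lit 478) (nat_lit 426) (nat_lit 296)) (XT.lf (nat_lit 0) (nat_lit 68643056) (nat_lit 456) (nat_lit 3517218794) (nat_lit 532) (nat_lit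 17666072854) (nat_lit 191) (nat_lit 5) (nat_lit 197) (nat_lit 5) (nat_lit 198) (nat_lit 5) (nat_lit 479) (nat_lit 426) (nat_lit 295))) (XT.nd (nat_lit 78) (nat_lit 380) (nat_lit 0) (XT.lf (nat_lit 0) (nat_lit 10945851831) (nat_lit 532) (nat_lit 1747112574) (nat_lit 76) (nat_lit 8940994407) (nat_lit 191) (nat_lit 5) (nat_lit 198) (nat_lit 5) (nat_lit 192) (nat_lit 5) (nat_lit 480) (nat_lit 426) (nat_lit 294)) (XT.lf (nat_lit 0) (nat_lit 18468245556) (nat_lit 380) (nat_lit 186739646) (nat_lit 456) (nat_lit 3369891832) (nat_lit 186) (nat_lit 5) (nat_lit 191) (nat_lit 5) (nat_lit 192) (nat_lit 5) (nat_lit 481) (nat_lit 426) (nat_lit 293)))) (XT.nd (nat_lit 156) (nat_lit 836) (nat_lit 0) (XT.nd (nat_lit 78) (nat_lit 380) (nat_lit 0) (XT.lf (nat_lit 0) (nat_lit 4304371542) (nat_lit 456) (nat_lit 5447311088) (nat_lit 76) (nat_lit 12671475930) (nat_lit 180) (nat_lit 5) (nat_lit 186) (nat_lit 5) (nat_lit 181)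 (nat_lit 5) (nat_lit 482) (nat_lit 426) (nat_lit 292)) (XT.lf (nat_lit 0) (nat_lit 12295740807) (nat_lit 456) (nat_lit 7354559708) (nat_lit 76) (nat_lit 3179989530) (nat_lit 175) (nat_lit 5) (nat_lit 181) (nat_lit 5) (nat_lit 176) (nat_lit 5) (nat_lit 483) (nat_lit 426) (nat_lit 291))) (XT.nd (nat_lit 78) (nat_lit 456) (nat_lit 0) (XT.lf (nat_lit 0) (nat_lit 13947406891) (nat_lit 380) (nat_lit 6757959014) (nat_lit 456) (nat_lit 2540699511) (nat_lit 170) (nat_lit 5) (nat_lit 175) (nat_lit 5) (nat_lit 176) (nat_lit 5) (nat_lit 484) (nat_lit 426) (nat_lit 290)) (XT.lf (nat_lit 0) (nat_lit 5778275301) (nat_lit 456) (nat_lit 11295284899) (nat_lit 76) (nat_lit 6596815346) (nat_lit 164) (nat_lit 5) (nat_lit 170) (nat_lit 5) (nat_lit 165) (nat_lit 5) (nat_lit 485) (nat_lit 426) (nat_lit 289))))))) (XT.nd (nat_lit 1170) (nat_lit 2204) (nat_lit 0) (XT.nd (nat_lit 546) (nat_lit 2204) (nat_lit 0) (XT.nd (nat_lit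 234) (nat_lit 1368) (nat_lit 0) (XT.nd (nat_lit 78) (nat_lit 760) (nat_lit 0) (XT.lf (nat_lit 0) (nat_lit 10777031751) (nat_lit 380) (nat_lit 3700055197) (nat_lit 456) (nat_lit 9626696656) (nat_lit 159) (nat_lit 5) (nat_lit 164) (nat_lit 5) (nat_lit 165) (nat_lit 5) (nat_lit 486) (nat_lit 426) (nat_lit 288)) (XT.nd (nat_lit 78) (nat_lit 456) (nat_lit 0) (XT.lf (nat_lit 0) (nat_lit 9149791735) (nat_lit 304) (nat_lit 14475149761) (nat_lit 380) (nat_lit 921491049) (nat_lit 155) (nat_lit 5) (nat_lit 159) (nat_lit 5) (nat_lit 160) (nat_lit 5) (nat_lit 487) (nat_lit 426) (nat_lit 287)) (XT.lf (nat_lit 0) (nat_lit 7481455746) (nat_lit 380) (nat_lit 608514063) (nat_lit 456) (nat_lit 16908334516) (nat_lit 149) (nat_lit 5) (nat_lit 154) (nat_lit 5) (nat_lit 155) (nat_lit 5) (nat_lit 488) (nat_lit 426) (nat_lit 286)))) (XT.nd (nat_lit 156) (nat_lit 608) (nat_lit 0) (XT.nd (nat_lit 78) (nat_lit 456) (nat_lit 0)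 (XT.lf (nat_lit 0) (nat_lit 5753371209) (nat_lit 304) (nat_lit 11823708480) (nat_lit 380) (nat_lit 7882174451) (nat_lit 145) (nat_lit 5) (nat_lit 149) (nat_lit 5) (nat_lit 150) (nat_lit 5) (nat_lit 489) (nat_lit 426) (nat_lit 285)) (XT.lf (nat_lit 0) (nat_lit 1549137556) (nat_lit 456) (nat_lit 21899868291) (nat_lit 76) (nat_lit 2481784635) (nat_lit 139) (nat_lit 5) (nat_lit 145) (nat_lit 5) (nat_lit 140) (nat_lit 5) (nat_lit 490) (nat_lit 426) (nat_lit 284))) (XT.nd (nat_lit 78) (nat_lit 304) (nat_lit 0) (XT.lf (nat_lit 0) (nat_lit 2210954225) (nat_lit 304) (nat_lit 9160758222) (nat_lit 380) (nat_lit 15039410396) (nat_lit 135) (nat_lit 5) (nat_lit 139) (nat_lit 5) (nat_lit 140) (nat_lit 5) (nat_lit 491) (nat_lit 426) (nat_lit 283)) (XT.lf (nat_lit 0) (nat_lit 389014047) (nat_lit 304) (nat_lit 21275084442) (nat_lit 380) (nat_lit 5238264187) (nat_lit 131) (nat_lit 5) (nat_lit 135) (nat_lit 5) (nat_lit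 136) (nat_lit 5) (nat_lit 492) (nat_lit 426) (nat_lit 282))))) (XT.nd (nat_lit 312) (nat_lit 1140) (nat_lit 0) (XT.nd (nat_lit 156) (nat_lit 684) (nat_lit 0) (XT.nd (nat_lit 78) (nat_lit 304) (nat_lit 0) (XT.lf (nat_lit 0) (nat_lit 5006860369) (nat_lit 380) (nat_lit 1472646622) (nat_lit 76) (nat_lit 20923929328) (nat_lit 130) (nat_lit 5) (nat_lit 135) (nat_lit 5) (nat_lit 131) (nat_lit 5) (nat_lit 493) (nat_lit 426) (nat_lit 281)) (XT.lf (nat_lit 0) (nat_lit 15693998686) (nat_lit 380) (nat_lit 3387532263) (nat_lit 76) (nat_lit 8833202336) (nat_lit 126) (nat_lit 5) (nat_lit 131) (nat_lit 5) (nat_lit 127) (nat_lit 5) (nat_lit 494) (nat_lit 426) (nat_lit 280))) (XT.nd (nat_lit 78) (nat_lit 380) (nat_lit 0) (XT.lf (nat_lit 0) (nat_lit 23125845870) (nat_lit 304) (nat_lit 3767286160) (nat_lit 380) (nat_lit 1544409672) (nat_lit 122) (nat_lit 5) (nat_lit 126) (nat_lit 5) (nat_lit 127) (nat_lit 5) (nat_lit 495)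 (nat_lit 426) (nat_lit 279)) (XT.lf (nat_lit 0) (nat_lit 9559689009) (nat_lit 380) (nat_lit 7342472692) (nat_lit 76) (nat_lit 12068016393) (nat_lit 117) (nat_lit 5) (nat_lit 122) (nat_lit 5) (nat_lit 118) (nat_lit 5) (nat_lit 496) (nat_lit 426) (nat_lit 278)))) (XT.nd (nat_lit 156) (nat_lit 532) (nat_lit 0) (XT.nd (nat_lit 78) (nat_lit 304) (nat_lit 0) (XT.lf (nat_lit 0) (nat_lit 20138498301) (nat_lit 304) (nat_lit 1017901301) (nat_lit 380) (nat_lit 8358580523) (nat_lit 113) (nat_lit 5) (nat_lit 117) (nat_lit 5) (nat_lit 118) (nat_lit 5) (nat_lit 497) (nat_lit 426) (nat_lit 277)) (XT.lf (nat_lit 0) (nat_lit 3245689920) (nat_lit 304) (nat_lit 11498764505) (nat_lit 76) (nat_lit 15326069608) (nat_lit 109) (nat_lit 5) (nat_lit 113) (nat_lit 5) (nat_lit 110) (nat_lit 5) (nat_lit 498) (nat_lit 426) (nat_lit 276))) (XT.nd (nat_lit 78) (nat_lit 228) (nat_lit 0) (XT.lf (nat_lit 0) (nat_lit 15265938951) (nat_lit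 380) (nat_lit 13663968514) (nat_lit 76) (nat_lit 1708093709) (nat_lit 105) (nat_lit 5) (nat_lit 110) (nat_lit 5) (nat_lit 106) (nat_lit 5) (nat_lit 499) (nat_lit 426) (nat_lit 275)) (XT.lf (nat_lit 0) (nat_lit 15319933168) (nat_lit 228) (nat_lit 12592006584) (nat_lit 304) (nat_lit 3305260123) (nat_lit 102) (nat_lit 5) (nat_lit 105) (nat_lit 5) (nat_lit 106) (nat_lit 5) (nat_lit 500) (nat_lit 426) (nat_lit 274)))))) (XT.nd (nat_lit 546) (nat_lit 304) (nat_lit 0) (XT.nd (nat_lit 234) (nat_lit 988) (nat_lit 0) (XT.nd (nat_lit 78) (nat_lit 532) (nat_lit 0) (XT.lf (nat_lit 0) (nat_lit 9203528852) (nat_lit 380) (nat_lit 18189783582) (nat_lit 76) (nat_lit 4415284709) (nat_lit 97) (nat_lit 5) (nat_lit 102) (nat_lit 5) (nat_lit 98) (nat_lit 5) (nat_lit 501) (nat_lit 426) (nat_lit 273)) (XT.nd (nat_lit 78) (nat_lit 304) (nat_lit 0) (XT.lf (nat_lit 0) (nat_lit 11851779052) (nat_lit 228) (nat_lit 10449675323) (nat_lit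 304) (nat_lit 10110669554) (nat_lit 94) (nat_lit 5) (nat_lit 97) (nat_lit 5) (nat_lit 98) (nat_lit 5) (nat_lit 502) (nat_lit 426) (nat_lit 272)) (XT.lf (nat_lit 0) (nat_lit 2947922928) (nat_lit 304) (nat_lit 22969365856) (nat_lit 76) (nat_lit 7111598823) (nat_lit 90) (nat_lit 5) (nat_lit 94) (nat_lit 5) (nat_lit 91) (nat_lit 5) (nat_lit 503) (nat_lit 426) (nat_lit 271)))) (XT.nd (nat_lit 156) (nat_lit 532) (nat_lit 0) (XT.nd (nat_lit 78) (nat_lit 228) (nat_lit 0) (XT.lf (nat_lit 0) (nat_lit 8168028910) (nat_lit 228) (nat_lit 8346025406) (nat_lit 304) (nat_lit 17143700452) (nat_lit 87) (nat_lit 5) (nat_lit 90) (nat_lit 5) (nat_lit 91) (nat_lit 5) (nat_lit 504) (nat_lit 426) (nat_lit 270)) (XT.lf (nat_lit 0) (nat_lit 6250622299) (nat_lit 228) (nat_lit 24486474520) (nat_lit 304) (nat_lit 3563392691) (nat_lit 84) (nat_lit 5) (nat_lit 87) (nat_lit 5) (nat_lit 88) (nat_lit 5) (nat_lit 505) (nat_lit 426) (nat_lit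 269))) (XT.nd (nat_lit 78) (nat_lit 228) (nat_lit 0) (XT.lf (nat_lit 0) (nat_lit 4245656558) (nat_lit 228) (nat_lit 6288669195) (nat_lit 304) (nat_lit 24421892645) (nat_lit 80) (nat_lit 5) (nat_lit 83) (nat_lit 5) (nat_lit 84) (nat_lit 5) (nat_lit 506) (nat_lit 426) (nat_lit 268)) (XT.lf (nat_lit 0) (nat_lit 2170408401) (nat_lit 228) (nat_lit 23112329981) (nat_lit 304) (nat_lit 10342886288) (nat_lit 77) (nat_lit 5) (nat_lit 80) (nat_lit 5) (nat_lit 81) (nat_lit 5) (nat_lit 507) (nat_lit 426) (nat_lit 267))))) (XT.nd (nat_lit 56394) (nat_lit 0) (nat_lit 34960) (XT.nd (nat_lit 56238) (nat_lit 0) (nat_lit 36404) (XT.nd (nat_lit 56160) (nat_lit 0) (nat_lit 36404) (XT.lf (nat_lit 0) (nat_lit 59453498) (nat_lit 228) (nat_lit 4286146787) (nat_lit 304) (nat_lit 31964139958) (nat_lit 73) (nat_lit 5) (nat_lit 76) (nat_lit 5) (nat_lit 77) (nat_lit 5) (nat_lit 508) (nat_lit 426) (nat_lit 266)) (XT.lf (nat_lit 0)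 (nat_lit 804046310) (nat_lit 0) (nat_lit 804046310) (nat_lit 1596) (nat_lit 3170663004) (nat_lit 552) (nat_lit 5) (nat_lit 552) (nat_lit 3) (nat_lit 573) (nat_lit 3) (nat_lit 427) (nat_lit 427) (nat_lit 346))) (XT.nd (nat_lit 78) (nat_lit 0) (nat_lit 76) (XT.lf (nat_lit 0) (nat_lit 4468972845) (nat_lit 1596) (nat_lit 833506306) (nat_lit 1672) (nat_lit 4374265098) (nat_lit 552) (nat_lit 5) (nat_lit 573) (nat_lit 3) (nat_lit 574) (nat_lit 5) (nat_lit 428) (nat_lit 427) (nat_lit 345)) (XT.lf (nat_lit 0) (nat_lit 5771932555) (nat_lit 1596) (nat_lit 3257487755) (nat_lit 1672) (nat_lit 769883671) (nat_lit 553) (nat_lit 5) (nat_lit 574) (nat_lit 5) (nat_lit 575) (nat_lit 5) (nat_lit 429) (nat_lit 427) (nat_lit 344)))) (XT.nd (nat_lit 156) (nat_lit 1520) (nat_lit 0) (XT.nd (nat_lit 78) (nat_lit 0) (nat_lit 76) (XT.lf (nat_lit 76) (nat_lit 4219572388) (nat_lit 0) (nat_lit 2918527280) (nat_lit 1672) (nat_lit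 2786959935) (nat_lit 554) (nat_lit 5) (nat_lit 553) (nat_lit 5) (nat_lit 575) (nat_lit 5) (nat_lit 430) (nat_lit 427) (nat_lit 343)) (XT.lf (nat_lit 76) (nat_lit 1888854659) (nat_lit 0) (nat_lit 6669634853) (nat_lit 1672) (nat_lit 1495835052) (nat_lit 555) (nat_lit 5) (nat_lit 554) (nat_lit 5) (nat_lit 576) (nat_lit 5) (nat_lit 431) (nat_lit 427) (nat_lit 342))) (XT.nd (nat_lit 78) (nat_lit 1596) (nat_lit 0) (XT.lf (nat_lit 76) (nat_lit 9744515536) (nat_lit 0) (nat_lit 292959570) (nat_lit 1672) (nat_lit 149674073) (nat_lit 555) (nat_lit 5) (nat_lit 554) (nat_lit 5) (nat_lit 576) (nat_lit 5) (nat_lit 432) (nat_lit 427) (nat_lit 341)) (XT.lf (nat_lit 0) (nat_lit 1269968914) (nat_lit 1672) (nat_lit 2786269556) (nat_lit 1748) (nat_lit 6266574389) (nat_lit 533) (nat_lit 5) (nat_lit 555) (nat_lit 5) (nat_lit 556) (nat_lit 5) (nat_lit 433) (nat_lit 427) (nat_lit 340))))))))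
noncomputable def xc71 : XT := (XT.nd (nat_lit 2262) (nat_lit 13680) (nat_lit 0) (XT.nd (nat_lit 1092) (nat_lit 9652) (nat_lit 0) (XT.nd (nat_lit 546) (nat_lit 5472) (nat_lit 0) (XT.nd (nat_lit 234) (nat_lit 1520) (nat_lit 0) (XT.nd (nat_lit 78) (nat_lit 0) (nat_lit 0) (XT.lf (nat_lit 0) (nat_lit 2746811639) (nat_lit 1672) (nat_lit 5138915880) (nat_lit 1748) (nat_lit 2576467545) (nat_lit 534) (nat_lit 5) (nat_lit 556) (nat_lit 5) (nat_lit 557) (nat_lit 5) (nat_lit 434) (nat_lit 427) (nat_lit 339)) (XT.nd (nat_lit 78) (nat_lit 0) (nat_lit 76) (XT.lf (nat_lit 76) (nat_lit 3096607296) (nat_lit 0) (nat_lit 1198713837) (nat_lit 1748) (nat_lit 6309891614) (nat_lit 535) (nat_lit 5) (nat_lit 534) (nat_lit 5) (nat_lit 557) (nat_lit 5) (nat_lit 435) (nat_lit 427) (nat_lit 338)) (XT.lf (nat_lit 76) (nat_lit 845584619) (nat_lit 0) (nat_lit 5084356850) (nat_lit 1748) (nat_lit 4821787586) (nat_lit 536) (nat_lit 5)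 (nat_lit 535) (nat_lit 5) (nat_lit 558) (nat_lit 5) (nat_lit 436) (nat_lit 427) (nat_lit 337)))) (XT.nd (nat_lit 156) (nat_lit 1672) (nat_lit 0) (XT.nd (nat_lit 78) (nat_lit 0) (nat_lit 0) (XT.lf (nat_lit 0) (nat_lit 7647787051) (nat_lit 1672) (nat_lit 1395007617) (nat_lit 1748) (nat_lit 1859163623) (nat_lit 536) (nat_lit 5) (nat_lit 558) (nat_lit 5) (nat_lit 559) (nat_lit 5) (nat_lit 437) (nat_lit 427) (nat_lit 336)) (XT.lf (nat_lit 76) (nat_lit 7408960037) (nat_lit 0) (nat_lit 2054569624) (nat_lit 1748) (nat_lit 1592238649) (nat_lit 537) (nat_lit 5) (nat_lit 536) (nat_lit 5) (nat_lit 559) (nat_lit 5) (nat_lit 438) (nat_lit 427) (nat_lit 335))) (XT.nd (nat_lit 78) (nat_lit 0) (nat_lit 76) (XT.lf (nat_lit 0) (nat_lit 160729032) (nat_lit 1748) (nat_lit 5922329582) (nat_lit 1824) (nat_lit 5130264670) (nat_lit 514) (nat_lit 5) (nat_lit 537) (nat_lit 5) (nat_lit 538) (nat_lit 5) (nat_lit 439) (nat_lit 427)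 (nat_lit 334)) (XT.lf (nat_lit 0) (nat_lit 1977488408) (nat_lit 1748) (nat_lit 8220023983) (nat_lit 1824) (nat_lit 1177226375) (nat_lit 515) (nat_lit 5) (nat_lit 538) (nat_lit 5) (nat_lit 539) (nat_lit 5) (nat_lit 440) (nat_lit 427) (nat_lit 333))))) (XT.nd (nat_lit 234) (nat_lit 5548) (nat_lit 0) (XT.nd (nat_lit 78) (nat_lit 0) (nat_lit 76) (XT.lf (nat_lit 76) (nat_lit 990643797) (nat_lit 0) (nat_lit 2912313062) (nat_lit 1824) (nat_lit 7636956748) (nat_lit 516) (nat_lit 5) (nat_lit 515) (nat_lit 5) (nat_lit 539) (nat_lit 5) (nat_lit 441) (nat_lit 427) (nat_lit 332)) (XT.nd (nat_lit 78) (nat_lit 0) (nat_lit 76) (XT.lf (nat_lit 0) (nat_lit 5939611801) (nat_lit 1748) (nat_lit 1175571962) (nat_lit 1824) (nat_lit 4593792472) (nat_lit 516) (nat_lit 5) (nat_lit 539) (nat_lit 5) (nat_lit 540) (nat_lit 5) (nat_lit 442) (nat_lit 427) (nat_lit 331)) (XT.lf (nat_lit 0) (nat_lit 8083837092) (nat_lit 1748) (nat_lit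 3339155288) (nat_lit 76) (nat_lit 459189908) (nat_lit 517) (nat_lit 5) (nat_lit 540) (nat_lit 5) (nat_lit 518) (nat_lit 5) (nat_lit 443) (nat_lit 427) (nat_lit 330)))) (XT.nd (nat_lit 156) (nat_lit 2052) (nat_lit 0) (XT.nd (nat_lit 78) (nat_lit 1900) (nat_lit 0) (XT.lf (nat_lit 0) (nat_lit 6520666812) (nat_lit 1748) (nat_lit 3838934325) (nat_lit 1824) (nat_lit 1699640081) (nat_lit 494) (nat_lit 5) (nat_lit 517) (nat_lit 5) (nat_lit 518) (nat_lit 5) (nat_lit 444) (nat_lit 427) (nat_lit 329)) (XT.lf (nat_lit 0) (nat_lit 504018549) (nat_lit 1900) (nat_lit 7756505956) (nat_lit 76) (nat_lit 3980067265) (nat_lit 469) (nat_lit 5) (nat_lit 494) (nat_lit 5) (nat_lit 470) (nat_lit 5) (nat_lit 445) (nat_lit 427) (nat_lit 328))) (XT.nd (nat_lit 78) (nat_lit 912) (nat_lit 0) (XT.lf (nat_lit 0) (nat_lit 2424881631) (nat_lit 1140) (nat_lit 375683145) (nat_lit 1216) (nat_lit 9625596847) (nat_lit 454) (nat_lit 5) (nat_lit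 469) (nat_lit 5) (nat_lit 470) (nat_lit 5) (nat_lit 446) (nat_lit 427) (nat_lit 327)) (XT.lf (nat_lit 0) (nat_lit 328901188) (nat_lit 912) (nat_lit 4913691480) (nat_lit 988) (nat_lit 7373175034) (nat_lit 442) (nat_lit 5) (nat_lit 454) (nat_lit 5) (nat_lit 455) (nat_lit 5) (nat_lit 447) (nat_lit 427) (nat_lit 326)))))) (XT.nd (nat_lit 546) (nat_lit 5244) (nat_lit 0) (XT.nd (nat_lit 234) (nat_lit 2584) (nat_lit 0) (XT.nd (nat_lit 78) (nat_lit 1824) (nat_lit 0) (XT.lf (nat_lit 0) (nat_lit 7821347043) (nat_lit 988) (nat_lit 1754137602) (nat_lit 76) (nat_lit 3234308822) (nat_lit 442) (nat_lit 5) (nat_lit 455) (nat_lit 5) (nat_lit 443) (nat_lit 5) (nat_lit 448) (nat_lit 427) (nat_lit 325)) (XT.nd (nat_lit 78) (nat_lit 912) (nat_lit 0) (XT.lf (nat_lit 0) (nat_lit 9156011981) (nat_lit 912) (nat_lit 1386509742) (nat_lit 988) (nat_lit 2465817916) (nat_lit 430) (nat_lit 5) (nat_lit 442) (nat_lit 5) (nat_lit 443)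 (nat_lit 5) (nat_lit 449) (nat_lit 427) (nat_lit 324)) (XT.lf (nat_lit 0) (nat_lit 209310701) (nat_lit 912) (nat_lit 5984737963) (nat_lit 76) (nat_lit 7017205902) (nat_lit 418) (nat_lit 5) (nat_lit 430) (nat_lit 5) (nat_lit 419) (nat_lit 5) (nat_lit 450) (nat_lit 427) (nat_lit 323)))) (XT.nd (nat_lit 156) (nat_lit 836) (nat_lit 0) (XT.nd (nat_lit 78) (nat_lit 836) (nat_lit 0) (XT.lf (nat_lit 0) (nat_lit 2990111727) (nat_lit 988) (nat_lit 8145763168) (nat_lit 76) (nat_lit 2282878406) (nat_lit 406) (nat_lit 5) (nat_lit 419) (nat_lit 5) (nat_lit 407) (nat_lit 5) (nat_lit 451) (nat_lit 427) (nat_lit 322)) (XT.lf (nat_lit 0) (nat_lit 3294289105) (nat_lit 836) (nat_lit 2638104772) (nat_lit 912) (nat_lit 7698522691) (nat_lit 395) (nat_lit 5) (nat_lit 406) (nat_lit 5) (nat_lit 407) (nat_lit 5) (nat_lit 452) (nat_lit 427) (nat_lit 321))) (XT.nd (nat_lit 78) (nat_lit 0) (nat_lit 0) (XT.lf (nat_lit 0) (nat_lit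 1291570251) (nat_lit 836) (nat_lit 7750022826) (nat_lit 912) (nat_lit 4806279369) (nat_lit 384) (nat_lit 5) (nat_lit 395) (nat_lit 5) (nat_lit 396) (nat_lit 5) (nat_lit 453) (nat_lit 427) (nat_lit 320)) (XT.lf (nat_lit 0) (nat_lit 12314078308) (nat_lit 912) (nat_lit 710311093) (nat_lit 76) (nat_lit 1045548067) (nat_lit 384) (nat_lit 5) (nat_lit 396) (nat_lit 5) (nat_lit 385) (nat_lit 5) (nat_lit 454) (nat_lit 427) (nat_lit 319))))) (XT.nd (nat_lit 312) (nat_lit 2128) (nat_lit 0) (XT.nd (nat_lit 156) (nat_lit 1520) (nat_lit 0) (XT.nd (nat_lit 78) (nat_lit 760) (nat_lit 0) (XT.lf (nat_lit 0) (nat_lit 1471762884) (nat_lit 836) (nat_lit 2740673983) (nat_lit 76) (nat_lit 10083970867) (nat_lit 373) (nat_lit 5) (nat_lit 384) (nat_lit 5) (nat_lit 374) (nat_lit 5) (nat_lit 455) (nat_lit 427) (nat_lit 318)) (XT.lf (nat_lit 0) (nat_lit 4849452087) (nat_lit 836) (nat_lit 4799695713) (nat_lit 76) (nat_lit 4878750925)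 (nat_lit 363) (nat_lit 5) (nat_lit 374) (nat_lit 5) (nat_lit 364) (nat_lit 5) (nat_lit 456) (nat_lit 427) (nat_lit 317))) (XT.nd (nat_lit 78) (nat_lit 760) (nat_lit 0) (XT.lf (nat_lit 0) (nat_lit 7892675428) (nat_lit 760) (nat_lit 511053785) (nat_lit 836) (nat_lit 6361100687) (nat_lit 353) (nat_lit 5) (nat_lit 363) (nat_lit 5) (nat_lit 364) (nat_lit 5) (nat_lit 457) (nat_lit 427) (nat_lit 316)) (XT.lf (nat_lit 0) (nat_lit 6018965252) (nat_lit 760) (nat_lit 6152916440) (nat_lit 836) (nat_lit 2834842958) (nat_lit 343) (nat_lit 5) (nat_lit 353) (nat_lit 5) (nat_lit 354) (nat_lit 5) (nat_lit 458) (nat_lit 427) (nat_lit 315)))) (XT.nd (nat_lit 156) (nat_lit 684) (nat_lit 0) (XT.nd (nat_lit 78) (nat_lit 684) (nat_lit 0) (XT.lf (nat_lit 0) (nat_lit 863526832) (nat_lit 760) (nat_lit 11119784782) (nat_lit 76) (nat_lit 3270926068) (nat_lit 333) (nat_lit 5) (nat_lit 343) (nat_lit 5) (nat_lit 334) (nat_lit 5) (nat_lit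 459) (nat_lit 427) (nat_lit 314)) (XT.lf (nat_lit 0) (nat_lit 2208707775) (nat_lit 684) (nat_lit 2521080401) (nat_lit 760) (nat_lit 10777104604) (nat_lit 324) (nat_lit 5) (nat_lit 333) (nat_lit 5) (nat_lit 334) (nat_lit 5) (nat_lit 460) (nat_lit 427) (nat_lit 313))) (XT.nd (nat_lit 78) (nat_lit 0) (nat_lit 0) (XT.lf (nat_lit 0) (nat_lit 254430863) (nat_lit 684) (nat_lit 8560902239) (nat_lit 760) (nat_lit 6949729034) (nat_lit 315) (nat_lit 5) (nat_lit 324) (nat_lit 5) (nat_lit 325) (nat_lit 5) (nat_lit 461) (nat_lit 427) (nat_lit 312)) (XT.lf (nat_lit 0) (nat_lit 13117722313) (nat_lit 760) (nat_lit 1683495478) (nat_lit 76) (nat_lit 1227873730) (nat_lit 315) (nat_lit 5) (nat_lit 325) (nat_lit 5) (nat_lit 316) (nat_lit 5) (nat_lit 462) (nat_lit 427) (nat_lit 311))))))) (XT.nd (nat_lit 1170) (nat_lit 5624) (nat_lit 0) (XT.nd (nat_lit 546) (nat_lit 3648) (nat_lit 0) (XT.nd (nat_lit 234) (nat_lit 2432) (nat_lit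 0) (XT.nd (nat_lit 78) (nat_lit 1216) (nat_lit 0) (XT.lf (nat_lit 0) (nat_lit 1351810493) (nat_lit 760) (nat_lit 3664925768) (nat_lit 76) (nat_lit 11281743160) (nat_lit 305) (nat_lit 5) (nat_lit 315) (nat_lit 5) (nat_lit 306) (nat_lit 5) (nat_lit 463) (nat_lit 427) (nat_lit 310)) (XT.nd (nat_lit 78) (nat_lit 608) (nat_lit 0) (XT.lf (nat_lit 0) (nat_lit 5799705529) (nat_lit 684) (nat_lit 5680869974) (nat_lit 76) (nat_lit 5093061561) (nat_lit 297) (nat_lit 5) (nat_lit 306) (nat_lit 5) (nat_lit 298) (nat_lit 5) (nat_lit 464) (nat_lit 427) (nat_lit 309)) (XT.lf (nat_lit 0) (nat_lit 9142777751) (nat_lit 608) (nat_lit 1336774284) (nat_lit 684) (nat_lit 6375527561) (nat_lit 289) (nat_lit 5) (nat_lit 297) (nat_lit 5) (nat_lit 298) (nat_lit 5) (nat_lit 465) (nat_lit 427) (nat_lit 308)))) (XT.nd (nat_lit 156) (nat_lit 1140) (nat_lit 0) (XT.nd (nat_lit 78) (nat_lit 684) (nat_lit 0) (XT.lf (nat_lit 0) (nat_lit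 7357606990) (nat_lit 608) (nat_lit 8068848655) (nat_lit 684) (nat_lit 1715976967) (nat_lit 281) (nat_lit 5) (nat_lit 289) (nat_lit 5) (nat_lit 290) (nat_lit 5) (nat_lit 466) (nat_lit 427) (nat_lit 307)) (XT.lf (nat_lit 0) (nat_lit 3137754301) (nat_lit 684) (nat_lit 11884807467) (nat_lit 76) (nat_lit 2413547828) (nat_lit 272) (nat_lit 5) (nat_lit 281) (nat_lit 5) (nat_lit 273) (nat_lit 5) (nat_lit 467) (nat_lit 427) (nat_lit 306))) (XT.nd (nat_lit 78) (nat_lit 608) (nat_lit 0) (XT.lf (nat_lit 0) (nat_lit 3702890822) (nat_lit 532) (nat_lit 4537389655) (nat_lit 608) (nat_lit 9495560039) (nat_lit 265) (nat_lit 5) (nat_lit 272) (nat_lit 5) (nat_lit 273) (nat_lit 5) (nat_lit 468) (nat_lit 427) (nat_lit 305)) (XT.lf (nat_lit 0) (nat_lit 1836934704) (nat_lit 608) (nat_lit 11774565814) (nat_lit 684) (nat_lit 4430750881) (nat_lit 257) (nat_lit 5) (nat_lit 265) (nat_lit 5) (nat_lit 266) (nat_lit 5) (nat_lit 469)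 (nat_lit 427) (nat_lit 304))))) (XT.nd (nat_lit 312) (nat_lit 2052) (nat_lit 0) (XT.nd (nat_lit 156) (nat_lit 988) (nat_lit 0) (XT.nd (nat_lit 78) (nat_lit 532) (nat_lit 0) (XT.lf (nat_lit 0) (nat_lit 883977877) (nat_lit 684) (nat_lit 40790106) (nat_lit 76) (nat_lit 17430819259) (nat_lit 256) (nat_lit 5) (nat_lit 265) (nat_lit 5) (nat_lit 257) (nat_lit 5) (nat_lit 470) (nat_lit 427) (nat_lit 303)) (XT.lf (nat_lit 0) (nat_lit 6457385835) (nat_lit 608) (nat_lit 1967338362) (nat_lit 76) (nat_lit 10249824907) (nat_lit 249) (nat_lit 5) (nat_lit 257) (nat_lit 5) (nat_lit 250) (nat_lit 5) (nat_lit 471) (nat_lit 427) (nat_lit 302))) (XT.nd (nat_lit 78) (nat_lit 456) (nat_lit 0) (XT.lf (nat_lit 0) (nat_lit 12304140431) (nat_lit 608) (nat_lit 3895444644) (nat_lit 76) (nat_lit 2801372213) (nat_lit 242) (nat_lit 5) (nat_lit 250) (nat_lit 5) (nat_lit 243) (nat_lit 5) (nat_lit 472) (nat_lit 427) (nat_lit 301)) (XT.lf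 (nat_lit 0) (nat_lit 13478009339) (nat_lit 456) (nat_lit 4988918200) (nat_lit 532) (nat_lit 867417927) (nat_lit 236) (nat_lit 5) (nat_lit 242) (nat_lit 5) (nat_lit 243) (nat_lit 5) (nat_lit 473) (nat_lit 427) (nat_lit 300)))) (XT.nd (nat_lit 156) (nat_lit 988) (nat_lit 0) (XT.nd (nat_lit 78) (nat_lit 456) (nat_lit 0) (XT.lf (nat_lit 0) (nat_lit 5200024483) (nat_lit 608) (nat_lit 7870892738) (nat_lit 76) (nat_lit 6603540711) (nat_lit 228) (nat_lit 5) (nat_lit 236) (nat_lit 5) (nat_lit 229) (nat_lit 5) (nat_lit 474) (nat_lit 427) (nat_lit 299)) (XT.lf (nat_lit 0) (nat_lit 10120071313) (nat_lit 456) (nat_lit 1440601403) (nat_lit 532) (nat_lit 8461527352) (nat_lit 222) (nat_lit 5) (nat_lit 228) (nat_lit 5) (nat_lit 229) (nat_lit 5) (nat_lit 475) (nat_lit 427) (nat_lit 298))) (XT.nd (nat_lit 78) (nat_lit 532) (nat_lit 0) (XT.lf (nat_lit 0) (nat_lit 8397978169) (nat_lit 456) (nat_lit 9874966027) (nat_lit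 532) (nat_lit 2104214508) (nat_lit 216) (nat_lit 5) (nat_lit 222) (nat_lit 5) (nat_lit 223) (nat_lit 5) (nat_lit 476) (nat_lit 427) (nat_lit 297)) (XT.lf (nat_lit 0) (nat_lit 4504516838) (nat_lit 532) (nat_lit 14086929971) (nat_lit 76) (nat_lit 2148362928) (nat_lit 209) (nat_lit 5) (nat_lit 216) (nat_lit 5) (nat_lit 210) (nat_lit 5) (nat_lit 477) (nat_lit 427) (nat_lit 296)))))) (XT.nd (nat_lit 546) (nat_lit 3040) (nat_lit 0) (XT.nd (nat_lit 234) (nat_lit 1216) (nat_lit 0) (XT.nd (nat_lit 78) (nat_lit 912) (nat_lit 0) (XT.lf (nat_lit 0) (nat_lit 4856888460) (nat_lit 456) (nat_lit 6590129066) (nat_lit 532) (nat_lit 9662762975) (nat_lit 203) (nat_lit 5) (nat_lit 209) (nat_lit 5) (nat_lit 210) (nat_lit 5) (nat_lit 478) (nat_lit 427) (nat_lit 295)) (XT.nd (nat_lit 78) (nat_lit 532) (nat_lit 0) (XT.lf (nat_lit 0) (nat_lit 3052622153) (nat_lit 380) (nat_lit 15683458500) (nat_lit 456) (nat_lit 2752004265)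 (nat_lit 198) (nat_lit 5) (nat_lit 203) (nat_lit 5) (nat_lit 204) (nat_lit 5) (nat_lit 479) (nat_lit 427) (nat_lit 294)) (XT.lf (nat_lit 0) (nat_lit 1204839058) (nat_lit 456) (nat_lit 3251841006) (nat_lit 532) (nat_lit 17417534423) (nat_lit 191) (nat_lit 5) (nat_lit 197) (nat_lit 5) (nat_lit 198) (nat_lit 5) (nat_lit 480) (nat_lit 427) (nat_lit 293)))) (XT.nd (nat_lit 156) (nat_lit 836) (nat_lit 0) (XT.nd (nat_lit 78) (nat_lit 380) (nat_lit 0) (XT.lf (nat_lit 0) (nat_lit 12017577338) (nat_lit 532) (nat_lit 685927043) (nat_lit 76) (nat_lit 9564593176) (nat_lit 191) (nat_lit 5) (nat_lit 198) (nat_lit 5) (nat_lit 192) (nat_lit 5) (nat_lit 481) (nat_lit 427) (nat_lit 292)) (XT.lf (nat_lit 0) (nat_lit 19944578842) (nat_lit 456) (nat_lit 2554341634) (nat_lit 76) (nat_lit 172091347) (nat_lit 186) (nat_lit 5) (nat_lit 192) (nat_lit 5) (nat_lit 187) (nat_lit 5) (nat_lit 482) (nat_lit 427) (nat_lit 291))) (XT.nd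 (nat_lit 78) (nat_lit 380) (nat_lit 0) (XT.lf (nat_lit 0) (nat_lit 5155234468) (nat_lit 456) (nat_lit 4511358740) (nat_lit 76) (nat_lit 13414813442) (nat_lit 180) (nat_lit 5) (nat_lit 186) (nat_lit 5) (nat_lit 181) (nat_lit 5) (nat_lit 483) (nat_lit 427) (nat_lit 290)) (XT.lf (nat_lit 0) (nat_lit 13374772522) (nat_lit 456) (nat_lit 6481921463) (nat_lit 76) (nat_lit 3644289890) (nat_lit 175) (nat_lit 5) (nat_lit 181) (nat_lit 5) (nat_lit 176) (nat_lit 5) (nat_lit 484) (nat_lit 427) (nat_lit 289))))) (XT.nd (nat_lit 312) (nat_lit 1520) (nat_lit 0) (XT.nd (nat_lit 156) (nat_lit 684) (nat_lit 0) (XT.nd (nat_lit 78) (nat_lit 456) (nat_lit 0) (XT.lf (nat_lit 0) (nat_lit 15441367045) (nat_lit 380) (nat_lit 6581618176) (nat_lit 456) (nat_lit 1906521648) (nat_lit 170) (nat_lit 5) (nat_lit 175) (nat_lit 5) (nat_lit 176) (nat_lit 5) (nat_lit 485) (nat_lit 427) (nat_lit 288)) (XT.lf (nat_lit 0) (nat_lit 6641680030)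 (nat_lit 456) (nat_lit 10555580507) (nat_lit 76) (nat_lit 7169414350) (nat_lit 164) (nat_lit 5) (nat_lit 170) (nat_lit 5) (nat_lit 165) (nat_lit 5) (nat_lit 486) (nat_lit 427) (nat_lit 287))) (XT.nd (nat_lit 78) (nat_lit 304) (nat_lit 0) (XT.lf (nat_lit 0) (nat_lit 12161407241) (nat_lit 380) (nat_lit 3426839189) (nat_lit 456) (nat_lit 9225103264) (nat_lit 159) (nat_lit 5) (nat_lit 164) (nat_lit 5) (nat_lit 165) (nat_lit 5) (nat_lit 487) (nat_lit 427) (nat_lit 286)) (XT.lf (nat_lit 0) (nat_lit 10479009017) (nat_lit 304) (nat_lit 14521083513) (nat_lit 380) (nat_lit 269394760) (nat_lit 155) (nat_lit 5) (nat_lit 159) (nat_lit 5) (nat_lit 160) (nat_lit 5) (nat_lit 488) (nat_lit 427) (nat_lit 285)))) (XT.nd (nat_lit 156) (nat_lit 760) (nat_lit 0) (XT.nd (nat_lit 78) (nat_lit 304) (nat_lit 0) (XT.lf (nat_lit 0) (nat_lit 8752291418) (nat_lit 380) (nat_lit 238458827) (nat_lit 456) (nat_lit 16744331897) (nat_lit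 149) (nat_lit 5) (nat_lit 154) (nat_lit 5) (nat_lit 155) (nat_lit 5) (nat_lit 489) (nat_lit 427) (nat_lit 284)) (XT.lf (nat_lit 0) (nat_lit 6965865234) (nat_lit 304) (nat_lit 11786640182) (nat_lit 380) (nat_lit 7457554677) (nat_lit 145) (nat_lit 5) (nat_lit 149) (nat_lit 5) (nat_lit 150) (nat_lit 5) (nat_lit 490) (nat_lit 427) (nat_lit 283))) (XT.nd (nat_lit 78) (nat_lit 304) (nat_lit 0) (XT.lf (nat_lit 0) (nat_lit 2238263201) (nat_lit 456) (nat_lit 21515034230) (nat_lit 76) (nat_lit 2942554784) (nat_lit 139) (nat_lit 5) (nat_lit 145) (nat_lit 5) (nat_lit 140) (nat_lit 5) (nat_lit 491) (nat_lit 427) (nat_lit 282)) (XT.lf (nat_lit 0) (nat_lit 3302210506) (nat_lit 304) (nat_lit 9041241339) (nat_lit 380) (nat_lit 14847384234) (nat_lit 135) (nat_lit 5) (nat_lit 139) (nat_lit 5) (nat_lit 140) (nat_lit 5) (nat_lit 492) (nat_lit 427) (nat_lit 281))))))))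
noncomputable def xc72 : XT := (XT.nd (nat_lit 58344) (nat_lit 0) (nat_lit 15124) (XT.nd (nat_lit 1092) (nat_lit 836) (nat_lit 0) (XT.nd (nat_lit 546) (nat_lit 1900) (nat_lit 0) (XT.nd (nat_lit 234) (nat_lit 1292) (nat_lit 0) (XT.nd (nat_lit 78) (nat_lit 380) (nat_lit 0) (XT.lf (nat_lit 0) (nat_lit 1418880811) (nat_lit 304) (nat_lit 21516458563) (nat_lit 380) (nat_lit 4761659387) (nat_lit 131) (nat_lit 5) (nat_lit 135) (nat_lit 5) (nat_lit 136) (nat_lit 5) (nat_lit 493) (nat_lit 427) (nat_lit 280)) (XT.nd (nat_lit 78) (nat_lit 304) (nat_lit 0) (XT.lf (nat_lit 0) (nat_lit 5764290398) (nat_lit 380) (nat_lit 520208162) (nat_lit 76) (nat_lit 21928888334) (nat_lit 130) (nat_lit 5) (nat_lit 135) (nat_lit 5) (nat_lit 131) (nat_lit 5) (nat_lit 494) (nat_lit 427) (nat_lit 279)) (XT.lf (nat_lit 0) (nat_lit 16763219169) (nat_lit 380) (nat_lit 2499280162) (nat_lit 76) (nat_lit 9477700146) (nat_lit 126) (nat_lit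 5) (nat_lit 131) (nat_lit 5) (nat_lit 127) (nat_lit 5) (nat_lit 495) (nat_lit 427) (nat_lit 278)))) (XT.nd (nat_lit 156) (nat_lit 608) (nat_lit 0) (XT.nd (nat_lit 78) (nat_lit 380) (nat_lit 0) (XT.lf (nat_lit 0) (nat_lit 24793439719) (nat_lit 304) (nat_lit 3493780328) (nat_lit 380) (nat_lit 991694455) (nat_lit 122) (nat_lit 5) (nat_lit 126) (nat_lit 5) (nat_lit 127) (nat_lit 5) (nat_lit 496) (nat_lit 427) (nat_lit 277)) (XT.lf (nat_lit 0) (nat_lit 10429224758) (nat_lit 380) (nat_lit 6587881960) (nat_lit 76) (nat_lit 12810514613) (nat_lit 117) (nat_lit 5) (nat_lit 122) (nat_lit 5) (nat_lit 118) (nat_lit 5) (nat_lit 497) (nat_lit 427) (nat_lit 276))) (XT.nd (nat_lit 78) (nat_lit 304) (nat_lit 0) (XT.lf (nat_lit 0) (nat_lit 21701702138) (nat_lit 304) (nat_lit 661388155) (nat_lit 380) (nat_lit 8025892267) (nat_lit 113) (nat_lit 5) (nat_lit 117) (nat_lit 5) (nat_lit 118) (nat_lit 5) (nat_lit 498) (nat_lit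 427) (nat_lit 275)) (XT.lf (nat_lit 0) (nat_lit 3910763325) (nat_lit 304) (nat_lit 10883897813) (nat_lit 76) (nat_lit 16166617904) (nat_lit 109) (nat_lit 5) (nat_lit 113) (nat_lit 5) (nat_lit 110) (nat_lit 5) (nat_lit 499) (nat_lit 427) (nat_lit 274))))) (XT.nd (nat_lit 234) (nat_lit 988) (nat_lit 0) (XT.nd (nat_lit 78) (nat_lit 608) (nat_lit 0) (XT.lf (nat_lit 0) (nat_lit 16283727937) (nat_lit 380) (nat_lit 13120990001) (nat_lit 76) (nat_lit 2141220591) (nat_lit 105) (nat_lit 5) (nat_lit 110) (nat_lit 5) (nat_lit 106) (nat_lit 5) (nat_lit 500) (nat_lit 427) (nat_lit 273)) (XT.nd (nat_lit 78) (nat_lit 380) (nat_lit 0) (XT.lf (nat_lit 0) (nat_lit 16716969101) (nat_lit 228) (nat_lit 12581920961) (nat_lit 304) (nat_lit 2843827691) (nat_lit 102) (nat_lit 5) (nat_lit 105) (nat_lit 5) (nat_lit 106) (nat_lit 5) (nat_lit 501) (nat_lit 427) (nat_lit 272)) (XT.lf (nat_lit 0) (nat_lit 10025301882) (nat_lit 380)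 (nat_lit 17797647976) (nat_lit 76) (nat_lit 4928985882) (nat_lit 97) (nat_lit 5) (nat_lit 102) (nat_lit 5) (nat_lit 98) (nat_lit 5) (nat_lit 502) (nat_lit 427) (nat_lit 271)))) (XT.nd (nat_lit 156) (nat_lit 456) (nat_lit 0) (XT.nd (nat_lit 78) (nat_lit 304) (nat_lit 0) (XT.lf (nat_lit 0) (nat_lit 13129946373) (nat_lit 228) (nat_lit 10376315800) (nat_lit 304) (nat_lit 9867504389) (nat_lit 94) (nat_lit 5) (nat_lit 97) (nat_lit 5) (nat_lit 98) (nat_lit 5) (nat_lit 503) (nat_lit 427) (nat_lit 270)) (XT.lf (nat_lit 0) (nat_lit 3568409850) (nat_lit 304) (nat_lit 22735648812) (nat_lit 76) (nat_lit 7705049068) (nat_lit 90) (nat_lit 5) (nat_lit 94) (nat_lit 5) (nat_lit 91) (nat_lit 5) (nat_lit 504) (nat_lit 427) (nat_lit 269))) (XT.nd (nat_lit 78) (nat_lit 228) (nat_lit 0) (XT.lf (nat_lit 0) (nat_lit 9320896495) (nat_lit 228) (nat_lit 8211026318) (nat_lit 304) (nat_lit 17125110302) (nat_lit 87) (nat_lit 5) (nat_lit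 90) (nat_lit 5) (nat_lit 91) (nat_lit 5) (nat_lit 505) (nat_lit 427) (nat_lit 268)) (XT.lf (nat_lit 0) (nat_lit 7339062417) (nat_lit 228) (nat_lit 24835655918) (nat_lit 304) (nat_lit 3144470485) (nat_lit 84) (nat_lit 5) (nat_lit 87) (nat_lit 5) (nat_lit 88) (nat_lit 5) (nat_lit 506) (nat_lit 427) (nat_lit 267)))))) (XT.nd (nat_lit 56628) (nat_lit 0) (nat_lit 33440) (XT.nd (nat_lit 56316) (nat_lit 0) (nat_lit 36404) (XT.nd (nat_lit 78) (nat_lit 532) (nat_lit 0) (XT.lf (nat_lit 0) (nat_lit 5266120735) (nat_lit 228) (nat_lit 6093846664) (nat_lit 304) (nat_lit 24634740361) (nat_lit 80) (nat_lit 5) (nat_lit 83) (nat_lit 5) (nat_lit 84) (nat_lit 5) (nat_lit 507) (nat_lit 427) (nat_lit 266)) (XT.nd (nat_lit 78) (nat_lit 304) (nat_lit 0) (XT.lf (nat_lit 0) (nat_lit 3121708060) (nat_lit 228) (nat_lit 23422452304) (nat_lit 304) (nat_lit 10140169441) (nat_lit 77) (nat_lit 5) (nat_lit 80) (nat_lit 5) (nat_lit 81)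 (nat_lit 5) (nat_lit 508) (nat_lit 427) (nat_lit 265)) (XT.lf (nat_lit 0) (nat_lit 939670787) (nat_lit 228) (nat_lit 4033530302) (nat_lit 304) (nat_lit 32415882130) (nat_lit 73) (nat_lit 5) (nat_lit 76) (nat_lit 5) (nat_lit 77) (nat_lit 5) (nat_lit 509) (nat_lit 427) (nat_lit 264)))) (XT.nd (nat_lit 156) (nat_lit 0) (nat_lit 0) (XT.nd (nat_lit 78) (nat_lit 0) (nat_lit 0) (XT.lf (nat_lit 0) (nat_lit 1410399987) (nat_lit 0) (nat_lit 1410399987) (nat_lit 1596) (nat_lit 2077990628) (nat_lit 552) (nat_lit 5) (nat_lit 552) (nat_lit 3) (nat_lit 573) (nat_lit 3) (nat_lit 428) (nat_lit 428) (nat_lit 344)) (XT.lf (nat_lit 76) (nat_lit 328988130) (nat_lit 0) (nat_lit 6529945900) (nat_lit 1672) (nat_lit 3062920142) (nat_lit 553) (nat_lit 5) (nat_lit 552) (nat_lit 5) (nat_lit 574) (nat_lit 5) (nat_lit 429) (nat_lit 428) (nat_lit 343))) (XT.nd (nat_lit 78) (nat_lit 0) (nat_lit 76) (XT.lf (nat_lit 76) (nat_lit 7907381147)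 (nat_lit 0) (nat_lit 228162412) (nat_lit 1672) (nat_lit 1913858089) (nat_lit 553) (nat_lit 5) (nat_lit 552) (nat_lit 5) (nat_lit 574) (nat_lit 5) (nat_lit 430) (nat_lit 428) (nat_lit 342)) (XT.lf (nat_lit 76) (nat_lit 5541126197) (nat_lit 0) (nat_lit 3944090167) (nat_lit 1672) (nat_lit 694865269) (nat_lit 554) (nat_lit 5) (nat_lit 553) (nat_lit 5) (nat_lit 575) (nat_lit 5) (nat_lit 431) (nat_lit 428) (nat_lit 341))))) (XT.nd (nat_lit 312) (nat_lit 1444) (nat_lit 0) (XT.nd (nat_lit 156) (nat_lit 0) (nat_lit 76) (XT.nd (nat_lit 78) (nat_lit 0) (nat_lit 0) (XT.lf (nat_lit 0) (nat_lit 566171559) (nat_lit 1672) (nat_lit 7149025380) (nat_lit 1748) (nat_lit 2599157031) (nat_lit 532) (nat_lit 5) (nat_lit 554) (nat_lit 5) (nat_lit 555) (nat_lit 5) (nat_lit 432) (nat_lit 428) (nat_lit 340)) (XT.lf (nat_lit 76) (nat_lit 770145492) (nat_lit 0) (nat_lit 1108610431) (nat_lit 1748) (nat_lit 8573344833) (nat_lit 533)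 (nat_lit 5) (nat_lit 532) (nat_lit 5) (nat_lit 555) (nat_lit 5) (nat_lit 433) (nat_lit 428) (nat_lit 339))) (XT.nd (nat_lit 78) (nat_lit 0) (nat_lit 76) (XT.lf (nat_lit 0) (nat_lit 3277659179) (nat_lit 1672) (nat_lit 1629995743) (nat_lit 1748) (nat_lit 5685387440) (nat_lit 533) (nat_lit 5) (nat_lit 555) (nat_lit 5) (nat_lit 556) (nat_lit 5) (nat_lit 434) (nat_lit 428) (nat_lit 338)) (XT.lf (nat_lit 0) (nat_lit 4744812412) (nat_lit 1672) (nat_lit 4030325200) (nat_lit 1748) (nat_lit 1962550153) (nat_lit 534) (nat_lit 5) (nat_lit 556) (nat_lit 5) (nat_lit 557) (nat_lit 5) (nat_lit 435) (nat_lit 428) (nat_lit 337)))) (XT.nd (nat_lit 156) (nat_lit 1596) (nat_lit 0) (XT.nd (nat_lit 78) (nat_lit 0) (nat_lit 76) (XT.lf (nat_lit 76) (nat_lit 4431776920) (nat_lit 0) (nat_lit 1860271850) (nat_lit 1748) (nat_lit 4593903560) (nat_lit 535) (nat_lit 5) (nat_lit 534) (nat_lit 5) (nat_lit 557) (nat_lit 5) (nat_lit 436)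 (nat_lit 428) (nat_lit 336)) (XT.lf (nat_lit 76) (nat_lit 2133874832) (nat_lit 0) (nat_lit 5791685211) (nat_lit 1748) (nat_lit 3112308770) (nat_lit 536) (nat_lit 5) (nat_lit 535) (nat_lit 5) (nat_lit 558) (nat_lit 5) (nat_lit 437) (nat_lit 428) (nat_lit 335))) (XT.nd (nat_lit 78) (nat_lit 1748) (nat_lit 0) (XT.lf (nat_lit 0) (nat_lit 9638500483) (nat_lit 1672) (nat_lit 171870562) (nat_lit 1748) (nat_lit 1383364373) (nat_lit 536) (nat_lit 5) (nat_lit 558) (nat_lit 5) (nat_lit 559) (nat_lit 5) (nat_lit 438) (nat_lit 428) (nat_lit 334)) (XT.lf (nat_lit 0) (nat_lit 110995023) (nat_lit 1748) (nat_lit 2478062783) (nat_lit 1824) (nat_lit 8763953348) (nat_lit 513) (nat_lit 5) (nat_lit 536) (nat_lit 5) (nat_lit 537) (nat_lit 5) (nat_lit 439) (nat_lit 428) (nat_lit 333))))))) (XT.nd (nat_lit 1092) (nat_lit 9348) (nat_lit 0) (XT.nd (nat_lit 546) (nat_lit 5624) (nat_lit 0) (XT.nd (nat_lit 234) (nat_lit 3420) (nat_lit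 0) (XT.nd (nat_lit 78) (nat_lit 0) (nat_lit 76) (XT.lf (nat_lit 0) (nat_lit 1849906598) (nat_lit 1748) (nat_lit 4816406820) (nat_lit 1824) (nat_lit 4849670676) (nat_lit 514) (nat_lit 5) (nat_lit 537) (nat_lit 5) (nat_lit 538) (nat_lit 5) (nat_lit 440) (nat_lit 428) (nat_lit 332)) (XT.nd (nat_lit 78) (nat_lit 0) (nat_lit 0) (XT.lf (nat_lit 0) (nat_lit 3677836641) (nat_lit 1748) (nat_lit 7168464705) (nat_lit 1824) (nat_lit 836808844) (nat_lit 515) (nat_lit 5) (nat_lit 538) (nat_lit 5) (nat_lit 539) (nat_lit 5) (nat_lit 441) (nat_lit 428) (nat_lit 331)) (XT.lf (nat_lit 76) (nat_lit 2297462004) (nat_lit 0) (nat_lit 3324102111) (nat_lit 1824) (nat_lit 6232467726) (nat_lit 516) (nat_lit 5) (nat_lit 515) (nat_lit 5) (nat_lit 539) (nat_lit 5) (nat_lit 442) (nat_lit 428) (nat_lit 330)))) (XT.nd (nat_lit 156) (nat_lit 3572) (nat_lit 0) (XT.nd (nat_lit 78) (nat_lit 0) (nat_lit 76) (XT.lf (nat_lit 76) (nat_lit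 63079848) (nat_lit 0) (nat_lit 7607957245) (nat_lit 1824) (nat_lit 4358096309) (nat_lit 517) (nat_lit 5) (nat_lit 516) (nat_lit 5) (nat_lit 540) (nat_lit 5) (nat_lit 443) (nat_lit 428) (nat_lit 329)) (XT.lf (nat_lit 0) (nat_lit 9840373780) (nat_lit 1748) (nat_lit 2154822580) (nat_lit 76) (nat_lit 213124963) (nat_lit 517) (nat_lit 5) (nat_lit 540) (nat_lit 5) (nat_lit 518) (nat_lit 5) (nat_lit 444) (nat_lit 428) (nat_lit 328))) (XT.nd (nat_lit 78) (nat_lit 1900) (nat_lit 0) (XT.lf (nat_lit 0) (nat_lit 7979954576) (nat_lit 1748) (nat_lit 4168563023) (nat_lit 1824) (nat_lit 242893624) (nat_lit 494) (nat_lit 5) (nat_lit 517) (nat_lit 5) (nat_lit 518) (nat_lit 5) (nat_lit 445) (nat_lit 428) (nat_lit 327)) (XT.lf (nat_lit 0) (nat_lit 1970725269) (nat_lit 1900) (nat_lit 6696204837) (nat_lit 76) (nat_lit 3911805183) (nat_lit 469) (nat_lit 5) (nat_lit 494) (nat_lit 5) (nat_lit 470) (nat_lit 5) (nat_lit 446)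 (nat_lit 428) (nat_lit 326))))) (XT.nd (nat_lit 234) (nat_lit 3572) (nat_lit 0) (XT.nd (nat_lit 78) (nat_lit 912) (nat_lit 0) (XT.lf (nat_lit 0) (nat_lit 3769647049) (nat_lit 1140) (nat_lit 532500417) (nat_lit 1216) (nat_lit 8468406418) (nat_lit 454) (nat_lit 5) (nat_lit 469) (nat_lit 5) (nat_lit 470) (nat_lit 5) (nat_lit 447) (nat_lit 428) (nat_lit 325)) (XT.nd (nat_lit 78) (nat_lit 0) (nat_lit 0) (XT.lf (nat_lit 0) (nat_lit 1619011803) (nat_lit 912) (nat_lit 5164530798) (nat_lit 988) (nat_lit 6182984620) (nat_lit 442) (nat_lit 5) (nat_lit 454) (nat_lit 5) (nat_lit 455) (nat_lit 5) (nat_lit 448) (nat_lit 428) (nat_lit 324)) (XT.lf (nat_lit 0) (nat_lit 9398706507) (nat_lit 988) (nat_lit 536248507) (nat_lit 76) (nat_lit 3232238971) (nat_lit 442) (nat_lit 5) (nat_lit 455) (nat_lit 5) (nat_lit 443) (nat_lit 5) (nat_lit 449) (nat_lit 428) (nat_lit 323)))) (XT.nd (nat_lit 156) (nat_lit 1748) (nat_lit 0)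 (XT.nd (nat_lit 78) (nat_lit 912) (nat_lit 0) (XT.lf (nat_lit 0) (nat_lit 10680592995) (nat_lit 912) (nat_lit 1489930294) (nat_lit 988) (nat_lit 1201794250) (nat_lit 430) (nat_lit 5) (nat_lit 442) (nat_lit 5) (nat_lit 443) (nat_lit 5) (nat_lit 450) (nat_lit 428) (nat_lit 322)) (XT.lf (nat_lit 0) (nat_lit 1505396025) (nat_lit 912) (nat_lit 4891239856) (nat_lit 76) (nat_lit 7185124251) (nat_lit 418) (nat_lit 5) (nat_lit 430) (nat_lit 5) (nat_lit 419) (nat_lit 5) (nat_lit 451) (nat_lit 428) (nat_lit 321))) (XT.nd (nat_lit 78) (nat_lit 836) (nat_lit 0) (XT.lf (nat_lit 0) (nat_lit 4340133408) (nat_lit 988) (nat_lit 7112455242) (nat_lit 76) (nat_lit 2343485981) (nat_lit 406) (nat_lit 5) (nat_lit 419) (nat_lit 5) (nat_lit 407) (nat_lit 5) (nat_lit 452) (nat_lit 428) (nat_lit 320)) (XT.lf (nat_lit 0) (nat_lit 4650069747) (nat_lit 836) (nat_lit 2692066940) (nat_lit 912) (nat_lit 6673038071) (nat_lit 395) (nat_lit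 5) (nat_lit 406) (nat_lit 5) (nat_lit 407) (nat_lit 5) (nat_lit 453) (nat_lit 428) (nat_lit 319)))))) (XT.nd (nat_lit 546) (nat_lit 4636) (nat_lit 0) (XT.nd (nat_lit 234) (nat_lit 3040) (nat_lit 0) (XT.nd (nat_lit 78) (nat_lit 836) (nat_lit 0) (XT.lf (nat_lit 0) (nat_lit 2590985012) (nat_lit 836) (nat_lit 7926093846) (nat_lit 912) (nat_lit 3722112101) (nat_lit 384) (nat_lit 5) (nat_lit 395) (nat_lit 5) (nat_lit 396) (nat_lit 5) (nat_lit 454) (nat_lit 428) (nat_lit 318)) (XT.nd (nat_lit 78) (nat_lit 76) (nat_lit 0) (XT.lf (nat_lit 0) (nat_lit 522237486) (nat_lit 760) (nat_lit 13334172686) (nat_lit 836) (nat_lit 612135287) (nat_lit 374) (nat_lit 5) (nat_lit 384) (nat_lit 5) (nat_lit 385) (nat_lit 5) (nat_lit 455) (nat_lit 428) (nat_lit 317)) (XT.lf (nat_lit 0) (nat_lit 2666938896) (nat_lit 836) (nat_lit 1580789867) (nat_lit 76) (nat_lit 10454520337) (nat_lit 373) (nat_lit 5) (nat_lit 384) (nat_lit 5)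 (nat_lit 374) (nat_lit 5) (nat_lit 456) (nat_lit 428) (nat_lit 316)))) (XT.nd (nat_lit 156) (nat_lit 1520) (nat_lit 0) (XT.nd (nat_lit 78) (nat_lit 760) (nat_lit 0) (XT.lf (nat_lit 0) (nat_lit 6120994234) (nat_lit 836) (nat_lit 3699822436) (nat_lit 76) (nat_lit 5120368326) (nat_lit 363) (nat_lit 5) (nat_lit 374) (nat_lit 5) (nat_lit 364) (nat_lit 5) (nat_lit 457) (nat_lit 428) (nat_lit 315)) (XT.lf (nat_lit 0) (nat_lit 9353139621) (nat_lit 760) (nat_lit 403907198) (nat_lit 836) (nat_lit 5428675205) (nat_lit 353) (nat_lit 5) (nat_lit 363) (nat_lit 5) (nat_lit 364) (nat_lit 5) (nat_lit 458) (nat_lit 428) (nat_lit 314))) (XT.nd (nat_lit 78) (nat_lit 760) (nat_lit 0) (XT.lf (nat_lit 0) (nat_lit 7424278007) (nat_lit 760) (nat_lit 6190615810) (nat_lit 836) (nat_lit 1820447635) (nat_lit 343) (nat_lit 5) (nat_lit 353) (nat_lit 5) (nat_lit 354) (nat_lit 5) (nat_lit 459) (nat_lit 428) (nat_lit 313)) (XT.lf (nat_lit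 0) (nat_lit 1951790673) (nat_lit 760) (nat_lit 10214063354) (nat_lit 76) (nat_lit 3524737141) (nat_lit 333) (nat_lit 5) (nat_lit 343) (nat_lit 5) (nat_lit 334) (nat_lit 5) (nat_lit 460) (nat_lit 428) (nat_lit 312))))) (XT.nd (nat_lit 312) (nat_lit 2508) (nat_lit 0) (XT.nd (nat_lit 156) (nat_lit 760) (nat_lit 0) (XT.nd (nat_lit 78) (nat_lit 684) (nat_lit 0) (XT.lf (nat_lit 0) (nat_lit 3494177566) (nat_lit 684) (nat_lit 2416835734) (nat_lit 760) (nat_lit 10040273920) (nat_lit 324) (nat_lit 5) (nat_lit 333) (nat_lit 5) (nat_lit 334) (nat_lit 5) (nat_lit 461) (nat_lit 428) (nat_lit 311)) (XT.lf (nat_lit 0) (nat_lit 1480817889) (nat_lit 684) (nat_lit 8617081720) (nat_lit 760) (nat_lit 6119727297) (nat_lit 315) (nat_lit 5) (nat_lit 324) (nat_lit 5) (nat_lit 325) (nat_lit 5) (nat_lit 462) (nat_lit 428) (nat_lit 310))) (XT.nd (nat_lit 78) (nat_lit 760) (nat_lit 0) (XT.lf (nat_lit 0) (nat_lit 14500971703) (nat_lit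 760) (nat_lit 532215433) (nat_lit 76) (nat_lit 1456958540) (nat_lit 315) (nat_lit 5) (nat_lit 325) (nat_lit 5) (nat_lit 316) (nat_lit 5) (nat_lit 463) (nat_lit 428) (nat_lit 309)) (XT.lf (nat_lit 0) (nat_lit 2367369566) (nat_lit 760) (nat_lit 2579605795) (nat_lit 76) (nat_lit 11820935278) (nat_lit 305) (nat_lit 5) (nat_lit 315) (nat_lit 5) (nat_lit 306) (nat_lit 5) (nat_lit 464) (nat_lit 428) (nat_lit 308)))) (XT.nd (nat_lit 156) (nat_lit 1292) (nat_lit 0) (XT.nd (nat_lit 78) (nat_lit 608) (nat_lit 0) (XT.lf (nat_lit 0) (nat_lit 6929376823) (nat_lit 684) (nat_lit 4657751907) (nat_lit 76) (nat_lit 5464581446) (nat_lit 297) (nat_lit 5) (nat_lit 306) (nat_lit 5) (nat_lit 298) (nat_lit 5) (nat_lit 465) (nat_lit 428) (nat_lit 307)) (XT.lf (nat_lit 0) (nat_lit 10591241414) (nat_lit 608) (nat_lit 1138165525) (nat_lit 684) (nat_lit 5612593934) (nat_lit 289) (nat_lit 5) (nat_lit 297) (nat_lit 5) (nat_lit 298)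 (nat_lit 5) (nat_lit 466) (nat_lit 428) (nat_lit 306))) (XT.nd (nat_lit 78) (nat_lit 684) (nat_lit 0) (XT.lf (nat_lit 0) (nat_lit 8750368339) (nat_lit 608) (nat_lit 8056217018) (nat_lit 684) (nat_lit 831752401) (nat_lit 281) (nat_lit 5) (nat_lit 289) (nat_lit 5) (nat_lit 290) (nat_lit 5) (nat_lit 467) (nat_lit 428) (nat_lit 305)) (XT.lf (nat_lit 0) (nat_lit 4137682136) (nat_lit 684) (nat_lit 11059832759) (nat_lit 76) (nat_lit 2743541990) (nat_lit 272) (nat_lit 5) (nat_lit 281) (nat_lit 5) (nat_lit 273) (nat_lit 5) (nat_lit 468) (nat_lit 428) (nat_lit 304))))))))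
noncomputable def xc73 : XT := (XT.nd (nat_lit 2262) (nat_lit 3420) (nat_lit 0) (XT.nd (nat_lit 1092) (nat_lit 4864) (nat_lit 0) (XT.nd (nat_lit 546) (nat_lit 3192) (nat_lit 0) (XT.nd (nat_lit 234) (nat_lit 1596) (nat_lit 0) (XT.nd (nat_lit 78) (nat_lit 1216) (nat_lit 0) (XT.lf (nat_lit 0) (nat_lit 4976327737) (nat_lit 532) (nat_lit 4398120724) (nat_lit 608) (nat_lit 8875708570) (nat_lit 265) (nat_lit 5) (nat_lit 272) (nat_lit 5) (nat_lit 273) (nat_lit 5) (nat_lit 469) (nat_lit 428) (nat_lit 303)) (XT.nd (nat_lit 78) (nat_lit 608) (nat_lit 0) (XT.lf (nat_lit 0) (nat_lit 3051246762) (nat_lit 608) (nat_lit 11838986829) (nat_lit 684) (nat_lit 3675858647) (nat_lit 257) (nat_lit 5) (nat_lit 265) (nat_lit 5) (nat_lit 266) (nat_lit 5) (nat_lit 470) (nat_lit 428) (nat_lit 302)) (XT.lf (nat_lit 0) (nat_lit 1109298368) (nat_lit 532) (nat_lit 659052515) (nat_lit 608) (nat_lit 17120728874) (nat_lit 249) (nat_lit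 5) (nat_lit 256) (nat_lit 5) (nat_lit 257) (nat_lit 5) (nat_lit 471) (nat_lit 428) (nat_lit 301)))) (XT.nd (nat_lit 156) (nat_lit 1064) (nat_lit 0) (XT.nd (nat_lit 78) (nat_lit 532) (nat_lit 0) (XT.lf (nat_lit 0) (nat_lit 7486095016) (nat_lit 608) (nat_lit 893209005) (nat_lit 76) (nat_lit 10838764299) (nat_lit 249) (nat_lit 5) (nat_lit 257) (nat_lit 5) (nat_lit 250) (nat_lit 5) (nat_lit 472) (nat_lit 428) (nat_lit 300)) (XT.lf (nat_lit 0) (nat_lit 13493097433) (nat_lit 608) (nat_lit 2883094792) (nat_lit 76) (nat_lit 3178380133) (nat_lit 242) (nat_lit 5) (nat_lit 250) (nat_lit 5) (nat_lit 243) (nat_lit 5) (nat_lit 473) (nat_lit 428) (nat_lit 299))) (XT.nd (nat_lit 78) (nat_lit 608) (nat_lit 0) (XT.lf (nat_lit 0) (nat_lit 14993242668) (nat_lit 456) (nat_lit 4830859515) (nat_lit 532) (nat_lit 74193812) (nat_lit 236) (nat_lit 5) (nat_lit 242) (nat_lit 5) (nat_lit 243) (nat_lit 5) (nat_lit 474) (nat_lit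 428) (nat_lit 298)) (XT.lf (nat_lit 0) (nat_lit 6150164485) (nat_lit 608) (nat_lit 6989726583) (nat_lit 76) (nat_lit 7108902112) (nat_lit 228) (nat_lit 5) (nat_lit 236) (nat_lit 5) (nat_lit 229) (nat_lit 5) (nat_lit 475) (nat_lit 428) (nat_lit 297))))) (XT.nd (nat_lit 234) (nat_lit 1748) (nat_lit 0) (XT.nd (nat_lit 78) (nat_lit 988) (nat_lit 0) (XT.lf (nat_lit 0) (nat_lit 11522839639) (nat_lit 456) (nat_lit 1162798772) (nat_lit 532) (nat_lit 7921649502) (nat_lit 222) (nat_lit 5) (nat_lit 228) (nat_lit 5) (nat_lit 229) (nat_lit 5) (nat_lit 476) (nat_lit 428) (nat_lit 296)) (XT.nd (nat_lit 78) (nat_lit 532) (nat_lit 0) (XT.lf (nat_lit 0) (nat_lit 9744525991) (nat_lit 456) (nat_lit 9841218109) (nat_lit 532) (nat_lit 1387422331) (nat_lit 216) (nat_lit 5) (nat_lit 222) (nat_lit 5) (nat_lit 223) (nat_lit 5) (nat_lit 477) (nat_lit 428) (nat_lit 295)) (XT.lf (nat_lit 0) (nat_lit 5396140529) (nat_lit 532) (nat_lit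 13409669798) (nat_lit 76) (nat_lit 2541049849) (nat_lit 209) (nat_lit 5) (nat_lit 216) (nat_lit 5) (nat_lit 210) (nat_lit 5) (nat_lit 478) (nat_lit 428) (nat_lit 294)))) (XT.nd (nat_lit 156) (nat_lit 912) (nat_lit 0) (XT.nd (nat_lit 78) (nat_lit 380) (nat_lit 0) (XT.lf (nat_lit 0) (nat_lit 6084619133) (nat_lit 456) (nat_lit 6447288686) (nat_lit 532) (nat_lit 9196322822) (nat_lit 203) (nat_lit 5) (nat_lit 209) (nat_lit 5) (nat_lit 210) (nat_lit 5) (nat_lit 479) (nat_lit 428) (nat_lit 293)) (XT.lf (nat_lit 0) (nat_lit 4221097575) (nat_lit 380) (nat_lit 15806087334) (nat_lit 456) (nat_lit 2090948838) (nat_lit 198) (nat_lit 5) (nat_lit 203) (nat_lit 5) (nat_lit 204) (nat_lit 5) (nat_lit 480) (nat_lit 428) (nat_lit 292))) (XT.nd (nat_lit 78) (nat_lit 380) (nat_lit 0) (XT.lf (nat_lit 0) (nat_lit 2310016853) (nat_lit 456) (nat_lit 2999792737) (nat_lit 532) (nat_lit 17206230108) (nat_lit 191) (nat_lit 5) (nat_lit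 197) (nat_lit 5) (nat_lit 198) (nat_lit 5) (nat_lit 481) (nat_lit 428) (nat_lit 291)) (XT.lf (nat_lit 0) (nat_lit 347729455) (nat_lit 380) (nat_lit 12733311516) (nat_lit 456) (nat_lit 9841028513) (nat_lit 186) (nat_lit 5) (nat_lit 191) (nat_lit 5) (nat_lit 192) (nat_lit 5) (nat_lit 482) (nat_lit 428) (nat_lit 290)))))) (XT.nd (nat_lit 546) (nat_lit 2432) (nat_lit 0) (XT.nd (nat_lit 234) (nat_lit 1596) (nat_lit 0) (XT.nd (nat_lit 78) (nat_lit 836) (nat_lit 0) (XT.lf (nat_lit 0) (nat_lit 21232135637) (nat_lit 456) (nat_lit 1586820711) (nat_lit 76) (nat_lit 518389524) (nat_lit 186) (nat_lit 5) (nat_lit 192) (nat_lit 5) (nat_lit 187) (nat_lit 5) (nat_lit 483) (nat_lit 428) (nat_lit 289)) (XT.nd (nat_lit 78) (nat_lit 380) (nat_lit 0) (XT.lf (nat_lit 0) (nat_lit 5990192924) (nat_lit 456) (nat_lit 3610436253) (nat_lit 76) (nat_lit 14159602301) (nat_lit 180) (nat_lit 5) (nat_lit 186) (nat_lit 5) (nat_lit 181)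 (nat_lit 5) (nat_lit 484) (nat_lit 428) (nat_lit 288)) (XT.lf (nat_lit 0) (nat_lit 14445409128) (nat_lit 456) (nat_lit 5645862531) (nat_lit 76) (nat_lit 4101342852) (nat_lit 175) (nat_lit 5) (nat_lit 181) (nat_lit 5) (nat_lit 176) (nat_lit 5) (nat_lit 485) (nat_lit 428) (nat_lit 287)))) (XT.nd (nat_lit 156) (nat_lit 760) (nat_lit 0) (XT.nd (nat_lit 78) (nat_lit 456) (nat_lit 0) (XT.lf (nat_lit 0) (nat_lit 16918405725) (nat_lit 380) (nat_lit 6421747834) (nat_lit 456) (nat_lit 1294098250) (nat_lit 170) (nat_lit 5) (nat_lit 175) (nat_lit 5) (nat_lit 176) (nat_lit 5) (nat_lit 486) (nat_lit 428) (nat_lit 286)) (XT.lf (nat_lit 0) (nat_lit 7491374837) (nat_lit 456) (nat_lit 9855598907) (nat_lit 76) (nat_lit 7737682325) (nat_lit 164) (nat_lit 5) (nat_lit 170) (nat_lit 5) (nat_lit 165) (nat_lit 5) (nat_lit 487) (nat_lit 428) (nat_lit 285))) (XT.nd (nat_lit 78) (nat_lit 380) (nat_lit 0) (XT.lf (nat_lit 0) (nat_lit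 13526404550) (nat_lit 380) (nat_lit 3167482366) (nat_lit 456) (nat_lit 8851093527) (nat_lit 159) (nat_lit 5) (nat_lit 164) (nat_lit 5) (nat_lit 165) (nat_lit 5) (nat_lit 488) (nat_lit 428) (nat_lit 284)) (XT.lf (nat_lit 0) (nat_lit 358480484) (nat_lit 380) (nat_lit 14229800399) (nat_lit 76) (nat_lit 11426671294) (nat_lit 154) (nat_lit 5) (nat_lit 159) (nat_lit 5) (nat_lit 155) (nat_lit 5) (nat_lit 489) (nat_lit 428) (nat_lit 283))))) (XT.nd (nat_lit 312) (nat_lit 988) (nat_lit 0) (XT.nd (nat_lit 156) (nat_lit 760) (nat_lit 0) (XT.nd (nat_lit 78) (nat_lit 304) (nat_lit 0) (XT.lf (nat_lit 0) (nat_lit 9881559298) (nat_lit 456) (nat_lit 16494316167) (nat_lit 76) (nat_lit 118828279) (nat_lit 149) (nat_lit 5) (nat_lit 155) (nat_lit 5) (nat_lit 150) (nat_lit 5) (nat_lit 490) (nat_lit 428) (nat_lit 282)) (XT.lf (nat_lit 0) (nat_lit 8155039974) (nat_lit 304) (nat_lit 11770949585) (nat_lit 380) (nat_lit 7058145294)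 (nat_lit 145) (nat_lit 5) (nat_lit 149) (nat_lit 5) (nat_lit 150) (nat_lit 5) (nat_lit 491) (nat_lit 428) (nat_lit 281))) (XT.nd (nat_lit 78) (nat_lit 304) (nat_lit 0) (XT.lf (nat_lit 0) (nat_lit 2911171789) (nat_lit 456) (nat_lit 21178460458) (nat_lit 76) (nat_lit 3394971883) (nat_lit 139) (nat_lit 5) (nat_lit 145) (nat_lit 5) (nat_lit 140) (nat_lit 5) (nat_lit 492) (nat_lit 428) (nat_lit 280)) (XT.lf (nat_lit 0) (nat_lit 4367369434) (nat_lit 304) (nat_lit 8940775657) (nat_lit 380) (nat_lit 14686520086) (nat_lit 135) (nat_lit 5) (nat_lit 139) (nat_lit 5) (nat_lit 140) (nat_lit 5) (nat_lit 493) (nat_lit 428) (nat_lit 279)))) (XT.nd (nat_lit 156) (nat_lit 304) (nat_lit 0) (XT.nd (nat_lit 78) (nat_lit 380) (nat_lit 0) (XT.lf (nat_lit 0) (nat_lit 2421194942) (nat_lit 304) (nat_lit 21787856352) (nat_lit 380) (nat_lit 4307136443) (nat_lit 131) (nat_lit 5) (nat_lit 135) (nat_lit 5) (nat_lit 136) (nat_lit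 5) (nat_lit 494) (nat_lit 428) (nat_lit 278)) (XT.lf (nat_lit 0) (nat_lit 408957055) (nat_lit 304) (nat_lit 6103284339) (nat_lit 380) (nat_lit 22536039092) (nat_lit 126) (nat_lit 5) (nat_lit 130) (nat_lit 5) (nat_lit 131) (nat_lit 5) (nat_lit 495) (nat_lit 428) (nat_lit 277))) (XT.nd (nat_lit 78) (nat_lit 304) (nat_lit 0) (XT.lf (nat_lit 0) (nat_lit 17830165628) (nat_lit 380) (nat_lit 1641203549) (nat_lit 76) (nat_lit 10119747937) (nat_lit 126) (nat_lit 5) (nat_lit 131) (nat_lit 5) (nat_lit 127) (nat_lit 5) (nat_lit 496) (nat_lit 428) (nat_lit 276)) (XT.lf (nat_lit 0) (nat_lit 26455160220) (nat_lit 304) (nat_lit 3234257404) (nat_lit 380) (nat_lit 456785559) (nat_lit 122) (nat_lit 5) (nat_lit 126) (nat_lit 5) (nat_lit 127) (nat_lit 5) (nat_lit 497) (nat_lit 428) (nat_lit 275))))))) (XT.nd (nat_lit 57330) (nat_lit 0) (nat_lit 31616) (XT.nd (nat_lit 546) (nat_lit 1292) (nat_lit 0) (XT.nd (nat_lit 234)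 (nat_lit 1140) (nat_lit 0) (XT.nd (nat_lit 78) (nat_lit 608) (nat_lit 0) (XT.lf (nat_lit 0) (nat_lit 11291394627) (nat_lit 380) (nat_lit 5866614740) (nat_lit 76) (nat_lit 13553447949) (nat_lit 117) (nat_lit 5) (nat_lit 122) (nat_lit 5) (nat_lit 118) (nat_lit 5) (nat_lit 498) (nat_lit 428) (nat_lit 274)) (XT.nd (nat_lit 78) (nat_lit 304) (nat_lit 0) (XT.lf (nat_lit 0) (nat_lit 23256748760) (nat_lit 304) (nat_lit 316397878) (nat_lit 380) (nat_lit 7716715532) (nat_lit 113) (nat_lit 5) (nat_lit 117) (nat_lit 5) (nat_lit 118) (nat_lit 5) (nat_lit 499) (nat_lit 428) (nat_lit 273)) (XT.lf (nat_lit 0) (nat_lit 4563200473) (nat_lit 304) (nat_lit 10305683268) (nat_lit 76) (nat_lit 17010525111) (nat_lit 109) (nat_lit 5) (nat_lit 113) (nat_lit 5) (nat_lit 110) (nat_lit 5) (nat_lit 500) (nat_lit 428) (nat_lit 272)))) (XT.nd (nat_lit 156) (nat_lit 608) (nat_lit 0) (XT.nd (nat_lit 78) (nat_lit 228) (nat_lit 0) (XT.lf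 (nat_lit 0) (nat_lit 17299915162) (nat_lit 380) (nat_lit 12616422350) (nat_lit 76) (nat_lit 2565419571) (nat_lit 105) (nat_lit 5) (nat_lit 110) (nat_lit 5) (nat_lit 106) (nat_lit 5) (nat_lit 501) (nat_lit 428) (nat_lit 271)) (XT.lf (nat_lit 0) (nat_lit 18102103340) (nat_lit 228) (nat_lit 12593796705) (nat_lit 304) (nat_lit 2400732459) (nat_lit 102) (nat_lit 5) (nat_lit 105) (nat_lit 5) (nat_lit 106) (nat_lit 5) (nat_lit 502) (nat_lit 428) (nat_lit 270))) (XT.nd (nat_lit 78) (nat_lit 228) (nat_lit 0) (XT.lf (nat_lit 0) (nat_lit 10840404576) (nat_lit 380) (nat_lit 17447583530) (nat_lit 76) (nat_lit 5436213203) (nat_lit 97) (nat_lit 5) (nat_lit 102) (nat_lit 5) (nat_lit 98) (nat_lit 5) (nat_lit 503) (nat_lit 428) (nat_lit 269)) (XT.lf (nat_lit 0) (nat_lit 14393496899) (nat_lit 228) (nat_lit 10322962253) (nat_lit 304) (nat_lit 9648414759) (nat_lit 94) (nat_lit 5) (nat_lit 97) (nat_lit 5) (nat_lit 98) (nat_lit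 5) (nat_lit 504) (nat_lit 428) (nat_lit 268))))) (XT.nd (nat_lit 312) (nat_lit 228) (nat_lit 0) (XT.nd (nat_lit 156) (nat_lit 532) (nat_lit 0) (XT.nd (nat_lit 78) (nat_lit 228) (nat_lit 0) (XT.lf (nat_lit 0) (nat_lit 4176969577) (nat_lit 304) (nat_lit 22547892638) (nat_lit 76) (nat_lit 8294483395) (nat_lit 90) (nat_lit 5) (nat_lit 94) (nat_lit 5) (nat_lit 91) (nat_lit 5) (nat_lit 505) (nat_lit 428) (nat_lit 267)) (XT.lf (nat_lit 0) (nat_lit 10456237141) (nat_lit 228) (nat_lit 8094099637) (nat_lit 304) (nat_lit 17136553153) (nat_lit 87) (nat_lit 5) (nat_lit 90) (nat_lit 5) (nat_lit 91) (nat_lit 5) (nat_lit 506) (nat_lit 428) (nat_lit 266))) (XT.nd (nat_lit 78) (nat_lit 304) (nat_lit 0) (XT.lf (nat_lit 0) (nat_lit 8408439162) (nat_lit 228) (nat_lit 25217437032) (nat_lit 304) (nat_lit 2743165060) (nat_lit 84) (nat_lit 5) (nat_lit 87) (nat_lit 5) (nat_lit 88) (nat_lit 5) (nat_lit 507) (nat_lit 428) (nat_lit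 265)) (XT.lf (nat_lit 0) (nat_lit 6265931560) (nat_lit 228) (nat_lit 5915192928) (nat_lit 304) (nat_lit 24883812674) (nat_lit 80) (nat_lit 5) (nat_lit 83) (nat_lit 5) (nat_lit 84) (nat_lit 5) (nat_lit 508) (nat_lit 428) (nat_lit 264)))) (XT.nd (nat_lit 56316) (nat_lit 0) (nat_lit 34428) (XT.nd (nat_lit 56238) (nat_lit 0) (nat_lit 36100) (XT.lf (nat_lit 0) (nat_lit 4050675926) (nat_lit 228) (nat_lit 23763878275) (nat_lit 304) (nat_lit 9960819585) (nat_lit 77) (nat_lit 5) (nat_lit 80) (nat_lit 5) (nat_lit 81) (nat_lit 5) (nat_lit 509) (nat_lit 428) (nat_lit 263)) (XT.lf (nat_lit 0) (nat_lit 2001521758) (nat_lit 0) (nat_lit 2001521758) (nat_lit 1596) (nat_lit 1020722216) (nat_lit 552) (nat_lit 5) (nat_lit 552) (nat_lit 3) (nat_lit 573) (nat_lit 3) (nat_lit 429) (nat_lit 429) (nat_lit 342))) (XT.nd (nat_lit 78) (nat_lit 1672) (nat_lit 0) (XT.lf (nat_lit 76) (nat_lit 1468944297) (nat_lit 0) (nat_lit 7727476203)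 (nat_lit 1672) (nat_lit 980384644) (nat_lit 553) (nat_lit 5) (nat_lit 552) (nat_lit 5) (nat_lit 574) (nat_lit 5) (nat_lit 430) (nat_lit 429) (nat_lit 341)) (XT.lf (nat_lit 0) (nat_lit 137982838) (nat_lit 1672) (nat_lit 1068556688) (nat_lit 1748) (nat_lit 9102865187) (nat_lit 530) (nat_lit 5) (nat_lit 552) (nat_lit 5) (nat_lit 553) (nat_lit 5) (nat_lit 431) (nat_lit 429) (nat_lit 340)))))) (XT.nd (nat_lit 546) (nat_lit 2888) (nat_lit 0) (XT.nd (nat_lit 234) (nat_lit 0) (nat_lit 152) (XT.nd (nat_lit 78) (nat_lit 0) (nat_lit 76) (XT.lf (nat_lit 0) (nat_lit 1317587907) (nat_lit 1672) (nat_lit 3620144881) (nat_lit 1748) (nat_lit 5507301031) (nat_lit 531) (nat_lit 5) (nat_lit 553) (nat_lit 5) (nat_lit 554) (nat_lit 5) (nat_lit 432) (nat_lit 429) (nat_lit 339)) (XT.nd (nat_lit 78) (nat_lit 0) (nat_lit 0) (XT.lf (nat_lit 0) (nat_lit 2550047999) (nat_lit 1672) (nat_lit 6183926614) (nat_lit 1748) (nat_lit 1850409090)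 (nat_lit 532) (nat_lit 5) (nat_lit 554) (nat_lit 5) (nat_lit 555) (nat_lit 5) (nat_lit 433) (nat_lit 429) (nat_lit 338)) (XT.lf (nat_lit 76) (nat_lit 1953682270) (nat_lit 0) (nat_lit 1898573826) (nat_lit 1748) (nat_lit 6875003711) (nat_lit 533) (nat_lit 5) (nat_lit 532) (nat_lit 5) (nat_lit 555) (nat_lit 5) (nat_lit 434) (nat_lit 429) (nat_lit 337)))) (XT.nd (nat_lit 156) (nat_lit 0) (nat_lit 76) (XT.nd (nat_lit 78) (nat_lit 0) (nat_lit 76) (XT.lf (nat_lit 0) (nat_lit 5232517560) (nat_lit 1672) (nat_lit 510206862) (nat_lit 1748) (nat_lit 5130919200) (nat_lit 533) (nat_lit 5) (nat_lit 555) (nat_lit 5) (nat_lit 556) (nat_lit 5) (nat_lit 435) (nat_lit 429) (nat_lit 336)) (XT.lf (nat_lit 0) (nat_lit 6692790137) (nat_lit 1672) (nat_lit 2960964284) (nat_lit 1748) (nat_lit 1369893601) (nat_lit 534) (nat_lit 5) (nat_lit 556) (nat_lit 5) (nat_lit 557) (nat_lit 5) (nat_lit 436) (nat_lit 429) (nat_lit 335))) (XT.nd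 (nat_lit 78) (nat_lit 0) (nat_lit 76) (XT.lf (nat_lit 76) (nat_lit 5735690172) (nat_lit 0) (nat_lit 2505764800) (nat_lit 1748) (nat_lit 2935807007) (nat_lit 535) (nat_lit 5) (nat_lit 534) (nat_lit 5) (nat_lit 557) (nat_lit 5) (nat_lit 437) (nat_lit 429) (nat_lit 334)) (XT.lf (nat_lit 76) (nat_lit 3388316822) (nat_lit 0) (nat_lit 6488385767) (nat_lit 1748) (nat_lit 1457980377) (nat_lit 536) (nat_lit 5) (nat_lit 535) (nat_lit 5) (nat_lit 558) (nat_lit 5) (nat_lit 438) (nat_lit 429) (nat_lit 333))))) (XT.nd (nat_lit 312) (nat_lit 1520) (nat_lit 0) (XT.nd (nat_lit 156) (nat_lit 0) (nat_lit 76) (XT.nd (nat_lit 78) (nat_lit 0) (nat_lit 0) (XT.lf (nat_lit 0) (nat_lit 97063067) (nat_lit 1748) (nat_lit 10467957579) (nat_lit 1824) (nat_lit 931124151) (nat_lit 513) (nat_lit 5) (nat_lit 536) (nat_lit 5) (nat_lit 537) (nat_lit 5) (nat_lit 439) (nat_lit 429) (nat_lit 332)) (XT.lf (nat_lit 0) (nat_lit 1744536826)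 (nat_lit 1748) (nat_lit 1357662718) (nat_lit 1824) (nat_lit 8558747438) (nat_lit 513) (nat_lit 5) (nat_lit 536) (nat_lit 5) (nat_lit 537) (nat_lit 5) (nat_lit 440) (nat_lit 429) (nat_lit 331))) (XT.nd (nat_lit 78) (nat_lit 0) (nat_lit 76) (XT.lf (nat_lit 0) (nat_lit 3493070583) (nat_lit 1748) (nat_lit 3750989845) (nat_lit 1824) (nat_lit 4585601050) (nat_lit 514) (nat_lit 5) (nat_lit 537) (nat_lit 5) (nat_lit 538) (nat_lit 5) (nat_lit 441) (nat_lit 429) (nat_lit 330)) (XT.lf (nat_lit 0) (nat_lit 5334993855) (nat_lit 1748) (nat_lit 6159878344) (nat_lit 1824) (nat_lit 507747474) (nat_lit 515) (nat_lit 5) (nat_lit 538) (nat_lit 5) (nat_lit 539) (nat_lit 5) (nat_lit 442) (nat_lit 429) (nat_lit 329)))) (XT.nd (nat_lit 156) (nat_lit 1672) (nat_lit 0) (XT.nd (nat_lit 78) (nat_lit 0) (nat_lit 76) (XT.lf (nat_lit 76) (nat_lit 3570174057) (nat_lit 0) (nat_lit 3729621816) (nat_lit 1824) (nat_lit 4879619225) (nat_lit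 516) (nat_lit 5) (nat_lit 515) (nat_lit 5) (nat_lit 539) (nat_lit 5) (nat_lit 443) (nat_lit 429) (nat_lit 328)) (XT.lf (nat_lit 76) (nat_lit 1280930753) (nat_lit 0) (nat_lit 8091820999) (nat_lit 1824) (nat_lit 2987779318) (nat_lit 517) (nat_lit 5) (nat_lit 516) (nat_lit 5) (nat_lit 540) (nat_lit 5) (nat_lit 444) (nat_lit 429) (nat_lit 327))) (XT.nd (nat_lit 78) (nat_lit 1748) (nat_lit 0) (XT.lf (nat_lit 76) (nat_lit 11537119035) (nat_lit 0) (nat_lit 25743646) (nat_lit 1824) (nat_lit 983119368) (nat_lit 517) (nat_lit 5) (nat_lit 516) (nat_lit 5) (nat_lit 540) (nat_lit 5) (nat_lit 445) (nat_lit 429) (nat_lit 326)) (XT.lf (nat_lit 0) (nat_lit 1155647089) (nat_lit 1824) (nat_lit 3332367573) (nat_lit 76) (nat_lit 8247079186) (nat_lit 493) (nat_lit 5) (nat_lit 517) (nat_lit 5) (nat_lit 494) (nat_lit 5) (nat_lit 446) (nat_lit 429) (nat_lit 325))))))))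
noncomputable def xc74 : XT := (XT.nd (nat_lit 2262) (nat_lit 10716) (nat_lit 0) (XT.nd (nat_lit 1092) (nat_lit 8208) (nat_lit 0) (XT.nd (nat_lit 546) (nat_lit 4788) (nat_lit 0) (XT.nd (nat_lit 234) (nat_lit 2736) (nat_lit 0) (XT.nd (nat_lit 78) (nat_lit 2052) (nat_lit 0) (XT.lf (nat_lit 0) (nat_lit 3398106207) (nat_lit 1900) (nat_lit 5678317961) (nat_lit 76) (nat_lit 3852267925) (nat_lit 469) (nat_lit 5) (nat_lit 494) (nat_lit 5) (nat_lit 470) (nat_lit 5) (nat_lit 447) (nat_lit 429) (nat_lit 324)) (XT.nd (nat_lit 78) (nat_lit 912) (nat_lit 0) (XT.lf (nat_lit 0) (nat_lit 5081736337) (nat_lit 1140) (nat_lit 685667226) (nat_lit 1216) (nat_lit 7359504200) (nat_lit 454) (nat_lit 5) (nat_lit 469) (nat_lit 5) (nat_lit 470) (nat_lit 5) (nat_lit 448) (nat_lit 429) (nat_lit 323)) (XT.lf (nat_lit 0) (nat_lit 2874334517) (nat_lit 912) (nat_lit 5416958071) (nat_lit 988) (nat_lit 5038107805) (nat_lit 442) (nat_lit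 5) (nat_lit 454) (nat_lit 5) (nat_lit 455) (nat_lit 5) (nat_lit 449) (nat_lit 429) (nat_lit 322)))) (XT.nd (nat_lit 156) (nat_lit 1748) (nat_lit 0) (XT.nd (nat_lit 78) (nat_lit 76) (nat_lit 0) (XT.lf (nat_lit 0) (nat_lit 653819564) (nat_lit 912) (nat_lit 10296734655) (nat_lit 988) (nat_lit 2586221186) (nat_lit 430) (nat_lit 5) (nat_lit 442) (nat_lit 5) (nat_lit 443) (nat_lit 5) (nat_lit 450) (nat_lit 429) (nat_lit 321)) (XT.lf (nat_lit 0) (nat_lit 23037400) (nat_lit 988) (nat_lit 1569712447) (nat_lit 76) (nat_lit 12155970035) (nat_lit 429) (nat_lit 5) (nat_lit 442) (nat_lit 5) (nat_lit 430) (nat_lit 5) (nat_lit 451) (nat_lit 429) (nat_lit 320))) (XT.nd (nat_lit 78) (nat_lit 912) (nat_lit 0) (XT.lf (nat_lit 0) (nat_lit 2766323768) (nat_lit 912) (nat_lit 3838014524) (nat_lit 76) (nat_lit 7360525440) (nat_lit 418) (nat_lit 5) (nat_lit 430) (nat_lit 5) (nat_lit 419) (nat_lit 5) (nat_lit 452) (nat_lit 429)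 (nat_lit 319)) (XT.lf (nat_lit 0) (nat_lit 5658308311) (nat_lit 988) (nat_lit 6121492183) (nat_lit 76) (nat_lit 2406364057) (nat_lit 406) (nat_lit 5) (nat_lit 419) (nat_lit 5) (nat_lit 407) (nat_lit 5) (nat_lit 453) (nat_lit 429) (nat_lit 318))))) (XT.nd (nat_lit 234) (nat_lit 2280) (nat_lit 0) (XT.nd (nat_lit 78) (nat_lit 1672) (nat_lit 0) (XT.lf (nat_lit 0) (nat_lit 5974369622) (nat_lit 836) (nat_lit 2749093465) (nat_lit 912) (nat_lit 5688913725) (nat_lit 395) (nat_lit 5) (nat_lit 406) (nat_lit 5) (nat_lit 407) (nat_lit 5) (nat_lit 454) (nat_lit 429) (nat_lit 317)) (XT.nd (nat_lit 78) (nat_lit 836) (nat_lit 0) (XT.lf (nat_lit 0) (nat_lit 3857014736) (nat_lit 836) (nat_lit 8110686290) (nat_lit 912) (nat_lit 2675932454) (nat_lit 384) (nat_lit 5) (nat_lit 395) (nat_lit 5) (nat_lit 396) (nat_lit 5) (nat_lit 455) (nat_lit 429) (nat_lit 316)) (XT.lf (nat_lit 0) (nat_lit 495267946) (nat_lit 836) (nat_lit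 13154677054) (nat_lit 76) (nat_lit 1230359215) (nat_lit 373) (nat_lit 5) (nat_lit 384) (nat_lit 5) (nat_lit 374) (nat_lit 5) (nat_lit 456) (nat_lit 429) (nat_lit 315)))) (XT.nd (nat_lit 156) (nat_lit 1520) (nat_lit 0) (XT.nd (nat_lit 78) (nat_lit 760) (nat_lit 0) (XT.lf (nat_lit 0) (nat_lit 3831896753) (nat_lit 836) (nat_lit 457411097) (nat_lit 76) (nat_lit 10832281070) (nat_lit 373) (nat_lit 5) (nat_lit 384) (nat_lit 5) (nat_lit 374) (nat_lit 5) (nat_lit 457) (nat_lit 429) (nat_lit 314)) (XT.lf (nat_lit 0) (nat_lit 7366042277) (nat_lit 836) (nat_lit 2638355851) (nat_lit 76) (nat_lit 5363766230) (nat_lit 363) (nat_lit 5) (nat_lit 374) (nat_lit 5) (nat_lit 364) (nat_lit 5) (nat_lit 458) (nat_lit 429) (nat_lit 313))) (XT.nd (nat_lit 78) (nat_lit 760) (nat_lit 0) (XT.lf (nat_lit 0) (nat_lit 10787173276) (nat_lit 760) (nat_lit 300576963) (nat_lit 836) (nat_lit 4532756591) (nat_lit 353) (nat_lit 5) (nat_lit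 363) (nat_lit 5) (nat_lit 364) (nat_lit 5) (nat_lit 459) (nat_lit 429) (nat_lit 312)) (XT.lf (nat_lit 0) (nat_lit 8801444840) (nat_lit 760) (nat_lit 6237878141) (nat_lit 836) (nat_lit 838732842) (nat_lit 343) (nat_lit 5) (nat_lit 353) (nat_lit 5) (nat_lit 354) (nat_lit 5) (nat_lit 460) (nat_lit 429) (nat_lit 311)))))) (XT.nd (nat_lit 546) (nat_lit 4104) (nat_lit 0) (XT.nd (nat_lit 234) (nat_lit 1976) (nat_lit 0) (XT.nd (nat_lit 78) (nat_lit 1368) (nat_lit 0) (XT.lf (nat_lit 0) (nat_lit 3011718732) (nat_lit 760) (nat_lit 9352312033) (nat_lit 76) (nat_lit 3777225688) (nat_lit 333) (nat_lit 5) (nat_lit 343) (nat_lit 5) (nat_lit 334) (nat_lit 5) (nat_lit 461) (nat_lit 429) (nat_lit 310)) (XT.nd (nat_lit 78) (nat_lit 684) (nat_lit 0) (XT.lf (nat_lit 0) (nat_lit 4748223892) (nat_lit 684) (nat_lit 2319789408) (nat_lit 760) (nat_lit 9342194909) (nat_lit 324) (nat_lit 5) (nat_lit 333) (nat_lit 5) (nat_lit 334)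 (nat_lit 5) (nat_lit 462) (nat_lit 429) (nat_lit 309)) (XT.lf (nat_lit 0) (nat_lit 2674035055) (nat_lit 684) (nat_lit 8686464578) (nat_lit 760) (nat_lit 5324439289) (nat_lit 315) (nat_lit 5) (nat_lit 324) (nat_lit 5) (nat_lit 325) (nat_lit 5) (nat_lit 463) (nat_lit 429) (nat_lit 308)))) (XT.nd (nat_lit 156) (nat_lit 1216) (nat_lit 0) (XT.nd (nat_lit 78) (nat_lit 76) (nat_lit 0) (XT.lf (nat_lit 0) (nat_lit 592384876) (nat_lit 684) (nat_lit 15280366007) (nat_lit 760) (nat_lit 1093341318) (nat_lit 306) (nat_lit 5) (nat_lit 315) (nat_lit 5) (nat_lit 316) (nat_lit 5) (nat_lit 464) (nat_lit 429) (nat_lit 307)) (XT.lf (nat_lit 0) (nat_lit 3357426150) (nat_lit 760) (nat_lit 1530339482) (nat_lit 76) (nat_lit 12364779873) (nat_lit 305) (nat_lit 5) (nat_lit 315) (nat_lit 5) (nat_lit 306) (nat_lit 5) (nat_lit 465) (nat_lit 429) (nat_lit 306))) (XT.nd (nat_lit 78) (nat_lit 608) (nat_lit 0) (XT.lf (nat_lit 0) (nat_lit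 8038078307) (nat_lit 684) (nat_lit 3672454616) (nat_lit 76) (nat_lit 5834691043) (nat_lit 297) (nat_lit 5) (nat_lit 306) (nat_lit 5) (nat_lit 298) (nat_lit 5) (nat_lit 466) (nat_lit 429) (nat_lit 305)) (XT.lf (nat_lit 0) (nat_lit 12015756232) (nat_lit 608) (nat_lit 947301548) (nat_lit 684) (nat_lit 4881547251) (nat_lit 289) (nat_lit 5) (nat_lit 297) (nat_lit 5) (nat_lit 298) (nat_lit 5) (nat_lit 467) (nat_lit 429) (nat_lit 304))))) (XT.nd (nat_lit 312) (nat_lit 1672) (nat_lit 0) (XT.nd (nat_lit 156) (nat_lit 1140) (nat_lit 0) (XT.nd (nat_lit 78) (nat_lit 608) (nat_lit 0) (XT.lf (nat_lit 0) (nat_lit 24954044) (nat_lit 684) (nat_lit 8032705589) (nat_lit 76) (nat_lit 10092511532) (nat_lit 280) (nat_lit 5) (nat_lit 289) (nat_lit 5) (nat_lit 281) (nat_lit 5) (nat_lit 468) (nat_lit 429) (nat_lit 303)) (XT.lf (nat_lit 0) (nat_lit 5115611457) (nat_lit 684) (nat_lit 10277932830) (nat_lit 76) (nat_lit 3068649387)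 (nat_lit 272) (nat_lit 5) (nat_lit 281) (nat_lit 5) (nat_lit 273) (nat_lit 5) (nat_lit 469) (nat_lit 429) (nat_lit 302))) (XT.nd (nat_lit 78) (nat_lit 608) (nat_lit 0) (XT.lf (nat_lit 0) (nat_lit 6221244105) (nat_lit 532) (nat_lit 4270482273) (nat_lit 608) (nat_lit 8289196086) (nat_lit 265) (nat_lit 5) (nat_lit 272) (nat_lit 5) (nat_lit 273) (nat_lit 5) (nat_lit 470) (nat_lit 429) (nat_lit 301)) (XT.lf (nat_lit 0) (nat_lit 4235445129) (nat_lit 608) (nat_lit 11921919693) (nat_lit 684) (nat_lit 2949283845) (nat_lit 257) (nat_lit 5) (nat_lit 265) (nat_lit 5) (nat_lit 266) (nat_lit 5) (nat_lit 471) (nat_lit 429) (nat_lit 300)))) (XT.nd (nat_lit 156) (nat_lit 532) (nat_lit 0) (XT.nd (nat_lit 78) (nat_lit 532) (nat_lit 0) (XT.lf (nat_lit 0) (nat_lit 2228325759) (nat_lit 532) (nat_lit 401945550) (nat_lit 608) (nat_lit 16809286449) (nat_lit 249) (nat_lit 5) (nat_lit 256) (nat_lit 5) (nat_lit 257) (nat_lit 5)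 (nat_lit 472) (nat_lit 429) (nat_lit 299)) (XT.lf (nat_lit 0) (nat_lit 150064942) (nat_lit 532) (nat_lit 8348643147) (nat_lit 608) (nat_lit 11280125178) (nat_lit 242) (nat_lit 5) (nat_lit 249) (nat_lit 5) (nat_lit 250) (nat_lit 5) (nat_lit 473) (nat_lit 429) (nat_lit 298))) (XT.nd (nat_lit 78) (nat_lit 532) (nat_lit 0) (XT.lf (nat_lit 0) (nat_lit 14670661389) (nat_lit 608) (nat_lit 1905195901) (nat_lit 76) (nat_lit 3549880799) (nat_lit 242) (nat_lit 5) (nat_lit 250) (nat_lit 5) (nat_lit 243) (nat_lit 5) (nat_lit 474) (nat_lit 429) (nat_lit 297)) (XT.lf (nat_lit 0) (nat_lit 686673389) (nat_lit 532) (nat_lit 3994442485) (nat_lit 76) (nat_lit 15798881862) (nat_lit 235) (nat_lit 5) (nat_lit 242) (nat_lit 5) (nat_lit 236) (nat_lit 5) (nat_lit 475) (nat_lit 429) (nat_lit 296))))))) (XT.nd (nat_lit 1170) (nat_lit 4560) (nat_lit 0) (XT.nd (nat_lit 546) (nat_lit 2812) (nat_lit 0) (XT.nd (nat_lit 234) (nat_lit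 1900) (nat_lit 0) (XT.nd (nat_lit 78) (nat_lit 912) (nat_lit 0) (XT.lf (nat_lit 0) (nat_lit 7083221845) (nat_lit 608) (nat_lit 6146262629) (nat_lit 76) (nat_lit 7611786650) (nat_lit 228) (nat_lit 5) (nat_lit 236) (nat_lit 5) (nat_lit 229) (nat_lit 5) (nat_lit 476) (nat_lit 429) (nat_lit 295)) (XT.nd (nat_lit 78) (nat_lit 456) (nat_lit 0) (XT.lf (nat_lit 0) (nat_lit 12904594379) (nat_lit 456) (nat_lit 895089963) (nat_lit 532) (nat_lit 7411138302) (nat_lit 222) (nat_lit 5) (nat_lit 228) (nat_lit 5) (nat_lit 229) (nat_lit 5) (nat_lit 477) (nat_lit 429) (nat_lit 294)) (XT.lf (nat_lit 0) (nat_lit 11068635243) (nat_lit 456) (nat_lit 9825400925) (nat_lit 532) (nat_lit 693896908) (nat_lit 216) (nat_lit 5) (nat_lit 222) (nat_lit 5) (nat_lit 223) (nat_lit 5) (nat_lit 478) (nat_lit 429) (nat_lit 293)))) (XT.nd (nat_lit 156) (nat_lit 912) (nat_lit 0) (XT.nd (nat_lit 78) (nat_lit 456) (nat_lit 0) (XT.lf (nat_lit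 0) (nat_lit 6271087415) (nat_lit 532) (nat_lit 12775228747) (nat_lit 76) (nat_lit 2926675285) (nat_lit 209) (nat_lit 5) (nat_lit 216) (nat_lit 5) (nat_lit 210) (nat_lit 5) (nat_lit 479) (nat_lit 429) (nat_lit 292)) (XT.lf (nat_lit 0) (nat_lit 7287069121) (nat_lit 456) (nat_lit 6319711728) (nat_lit 532) (nat_lit 8759305502) (nat_lit 203) (nat_lit 5) (nat_lit 209) (nat_lit 5) (nat_lit 210) (nat_lit 5) (nat_lit 480) (nat_lit 429) (nat_lit 291))) (XT.nd (nat_lit 78) (nat_lit 532) (nat_lit 0) (XT.lf (nat_lit 0) (nat_lit 5362808981) (nat_lit 380) (nat_lit 15952364477) (nat_lit 456) (nat_lit 1452748323) (nat_lit 198) (nat_lit 5) (nat_lit 203) (nat_lit 5) (nat_lit 204) (nat_lit 5) (nat_lit 481) (nat_lit 429) (nat_lit 290)) (XT.lf (nat_lit 0) (nat_lit 3386983136) (nat_lit 456) (nat_lit 2760251691) (nat_lit 532) (nat_lit 17030711527) (nat_lit 191) (nat_lit 5) (nat_lit 197) (nat_lit 5) (nat_lit 198) (nat_lit 5)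 (nat_lit 482) (nat_lit 429) (nat_lit 289))))) (XT.nd (nat_lit 312) (nat_lit 1596) (nat_lit 0) (XT.nd (nat_lit 156) (nat_lit 836) (nat_lit 0) (XT.nd (nat_lit 78) (nat_lit 0) (nat_lit 0) (XT.lf (nat_lit 0) (nat_lit 1360728393) (nat_lit 380) (nat_lit 12779709942) (nat_lit 456) (nat_lit 9455942343) (nat_lit 186) (nat_lit 5) (nat_lit 191) (nat_lit 5) (nat_lit 192) (nat_lit 5) (nat_lit 483) (nat_lit 429) (nat_lit 288)) (XT.lf (nat_lit 0) (nat_lit 22518755122) (nat_lit 456) (nat_lit 650212710) (nat_lit 76) (nat_lit 855494077) (nat_lit 186) (nat_lit 5) (nat_lit 192) (nat_lit 5) (nat_lit 187) (nat_lit 5) (nat_lit 484) (nat_lit 429) (nat_lit 287))) (XT.nd (nat_lit 78) (nat_lit 380) (nat_lit 0) (XT.lf (nat_lit 0) (nat_lit 6811148050) (nat_lit 456) (nat_lit 2741971841) (nat_lit 76) (nat_lit 14907082854) (nat_lit 180) (nat_lit 5) (nat_lit 186) (nat_lit 5) (nat_lit 181) (nat_lit 5) (nat_lit 485) (nat_lit 429) (nat_lit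 286)) (XT.lf (nat_lit 0) (nat_lit 15509738911) (nat_lit 456) (nat_lit 4843877697) (nat_lit 76) (nat_lit 4552146608) (nat_lit 175) (nat_lit 5) (nat_lit 181) (nat_lit 5) (nat_lit 176) (nat_lit 5) (nat_lit 486) (nat_lit 429) (nat_lit 285)))) (XT.nd (nat_lit 156) (nat_lit 760) (nat_lit 0) (XT.nd (nat_lit 78) (nat_lit 456) (nat_lit 0) (XT.lf (nat_lit 0) (nat_lit 18381559433) (nat_lit 380) (nat_lit 6277592947) (nat_lit 456) (nat_lit 701741022) (nat_lit 170) (nat_lit 5) (nat_lit 175) (nat_lit 5) (nat_lit 176) (nat_lit 5) (nat_lit 487) (nat_lit 429) (nat_lit 284)) (XT.lf (nat_lit 0) (nat_lit 8329222319) (nat_lit 456) (nat_lit 9192977672) (nat_lit 76) (nat_lit 8302724044) (nat_lit 164) (nat_lit 5) (nat_lit 170) (nat_lit 5) (nat_lit 165) (nat_lit 5) (nat_lit 488) (nat_lit 429) (nat_lit 283))) (XT.nd (nat_lit 78) (nat_lit 380) (nat_lit 0) (XT.lf (nat_lit 0) (nat_lit 14874938785) (nat_lit 380) (nat_lit 2921134419)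 (nat_lit 456) (nat_lit 8503219946) (nat_lit 159) (nat_lit 5) (nat_lit 164) (nat_lit 5) (nat_lit 165) (nat_lit 5) (nat_lit 489) (nat_lit 429) (nat_lit 282)) (XT.lf (nat_lit 0) (nat_lit 965255196) (nat_lit 380) (nat_lit 13711656556) (nat_lit 76) (nat_lit 12106559721) (nat_lit 154) (nat_lit 5) (nat_lit 159) (nat_lit 5) (nat_lit 155) (nat_lit 5) (nat_lit 490) (nat_lit 429) (nat_lit 281)))))) (XT.nd (nat_lit 546) (nat_lit 2432) (nat_lit 0) (XT.nd (nat_lit 234) (nat_lit 988) (nat_lit 0) (XT.nd (nat_lit 78) (nat_lit 760) (nat_lit 0) (XT.lf (nat_lit 0) (nat_lit 10764942853) (nat_lit 456) (nat_lit 16049977401) (nat_lit 76) (nat_lit 462877263) (nat_lit 149) (nat_lit 5) (nat_lit 155) (nat_lit 5) (nat_lit 150) (nat_lit 5) (nat_lit 491) (nat_lit 429) (nat_lit 280)) (XT.nd (nat_lit 78) (nat_lit 456) (nat_lit 0) (XT.lf (nat_lit 0) (nat_lit 9323622536) (nat_lit 304) (nat_lit 11775987014) (nat_lit 380) (nat_lit 6682524187)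 (nat_lit 145) (nat_lit 5) (nat_lit 149) (nat_lit 5) (nat_lit 150) (nat_lit 5) (nat_lit 492) (nat_lit 429) (nat_lit 279)) (XT.lf (nat_lit 0) (nat_lit 3569494493) (nat_lit 456) (nat_lit 20888161714) (nat_lit 76) (nat_lit 3840058344) (nat_lit 139) (nat_lit 5) (nat_lit 145) (nat_lit 5) (nat_lit 140) (nat_lit 5) (nat_lit 493) (nat_lit 429) (nat_lit 278)))) (XT.nd (nat_lit 156) (nat_lit 380) (nat_lit 0) (XT.nd (nat_lit 78) (nat_lit 304) (nat_lit 0) (XT.lf (nat_lit 0) (nat_lit 5409025463) (nat_lit 304) (nat_lit 8858633272) (nat_lit 380) (nat_lit 14555633290) (nat_lit 135) (nat_lit 5) (nat_lit 139) (nat_lit 5) (nat_lit 140) (nat_lit 5) (nat_lit 494) (nat_lit 429) (nat_lit 277)) (XT.lf (nat_lit 0) (nat_lit 3398485053) (nat_lit 304) (nat_lit 22088870713) (nat_lit 380) (nat_lit 3873269448) (nat_lit 131) (nat_lit 5) (nat_lit 135) (nat_lit 5) (nat_lit 136) (nat_lit 5) (nat_lit 495) (nat_lit 429) (nat_lit 276)))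 (XT.nd (nat_lit 78) (nat_lit 0) (nat_lit 0) (XT.lf (nat_lit 0) (nat_lit 1318475416) (nat_lit 304) (nat_lit 5934469612) (nat_lit 380) (nat_lit 22655870009) (nat_lit 126) (nat_lit 5) (nat_lit 130) (nat_lit 5) (nat_lit 131) (nat_lit 5) (nat_lit 496) (nat_lit 429) (nat_lit 275)) (XT.lf (nat_lit 0) (nat_lit 18896741711) (nat_lit 380) (nat_lit 810945812) (nat_lit 76) (nat_lit 10760522756) (nat_lit 126) (nat_lit 5) (nat_lit 131) (nat_lit 5) (nat_lit 127) (nat_lit 5) (nat_lit 497) (nat_lit 429) (nat_lit 274))))) (XT.nd (nat_lit 312) (nat_lit 1140) (nat_lit 0) (XT.nd (nat_lit 156) (nat_lit 608) (nat_lit 0) (XT.nd (nat_lit 78) (nat_lit 304) (nat_lit 0) (XT.lf (nat_lit 0) (nat_lit 60946872) (nat_lit 380) (nat_lit 2926507329) (nat_lit 76) (nat_lit 28052684268) (nat_lit 121) (nat_lit 5) (nat_lit 126) (nat_lit 5) (nat_lit 122) (nat_lit 5) (nat_lit 498) (nat_lit 429) (nat_lit 273)) (XT.lf (nat_lit 0) (nat_lit 12147897920)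 (nat_lit 380) (nat_lit 5176458334) (nat_lit 76) (nat_lit 14298083151) (nat_lit 117) (nat_lit 5) (nat_lit 122) (nat_lit 5) (nat_lit 118) (nat_lit 5) (nat_lit 499) (nat_lit 429) (nat_lit 272))) (XT.nd (nat_lit 78) (nat_lit 304) (nat_lit 0) (XT.lf (nat_lit 0) (nat_lit 24788671339) (nat_lit 380) (nat_lit 7411950677) (nat_lit 76) (nat_lit 17763198) (nat_lit 113) (nat_lit 5) (nat_lit 118) (nat_lit 5) (nat_lit 114) (nat_lit 5) (nat_lit 500) (nat_lit 429) (nat_lit 271)) (XT.lf (nat_lit 0) (nat_lit 5204492989) (nat_lit 304) (nat_lit 9762057574) (nat_lit 76) (nat_lit 17859146709) (nat_lit 109) (nat_lit 5) (nat_lit 113) (nat_lit 5) (nat_lit 110) (nat_lit 5) (nat_lit 501) (nat_lit 429) (nat_lit 270)))) (XT.nd (nat_lit 156) (nat_lit 608) (nat_lit 0) (XT.nd (nat_lit 78) (nat_lit 228) (nat_lit 0) (XT.lf (nat_lit 0) (nat_lit 18316297278) (nat_lit 380) (nat_lit 12148277873) (nat_lit 76) (nat_lit 2981681209) (nat_lit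 105) (nat_lit 5) (nat_lit 110) (nat_lit 5) (nat_lit 106) (nat_lit 5) (nat_lit 502) (nat_lit 429) (nat_lit 269)) (XT.lf (nat_lit 0) (nat_lit 19478067906) (nat_lit 228) (nat_lit 12627014618) (nat_lit 304) (nat_lit 1974677269) (nat_lit 102) (nat_lit 5) (nat_lit 105) (nat_lit 5) (nat_lit 106) (nat_lit 5) (nat_lit 503) (nat_lit 429) (nat_lit 268))) (XT.nd (nat_lit 78) (nat_lit 228) (nat_lit 0) (XT.lf (nat_lit 0) (nat_lit 11650434922) (nat_lit 380) (nat_lit 17137762016) (nat_lit 76) (nat_lit 5938028739) (nat_lit 97) (nat_lit 5) (nat_lit 102) (nat_lit 5) (nat_lit 98) (nat_lit 5) (nat_lit 504) (nat_lit 429) (nat_lit 267)) (XT.lf (nat_lit 0) (nat_lit 15645032351) (nat_lit 228) (nat_lit 10288940099) (nat_lit 304) (nat_lit 9452322134) (nat_lit 94) (nat_lit 5) (nat_lit 97) (nat_lit 5) (nat_lit 98) (nat_lit 5) (nat_lit 505) (nat_lit 429) (nat_lit 266))))))))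
noncomputable def xc75 : XT := (XT.nd (nat_lit 58500) (nat_lit 0) (nat_lit 8056) (XT.nd (nat_lit 57330) (nat_lit 0) (nat_lit 24776) (XT.nd (nat_lit 56784) (nat_lit 0) (nat_lit 32832) (XT.nd (nat_lit 234) (nat_lit 304) (nat_lit 0) (XT.nd (nat_lit 78) (nat_lit 456) (nat_lit 0) (XT.lf (nat_lit 0) (nat_lit 4774997517) (nat_lit 304) (nat_lit 22404435329) (nat_lit 76) (nat_lit 8881033850) (nat_lit 90) (nat_lit 5) (nat_lit 94) (nat_lit 5) (nat_lit 91) (nat_lit 5) (nat_lit 506) (nat_lit 429) (nat_lit 265)) (XT.nd (nat_lit 78) (nat_lit 228) (nat_lit 0) (XT.lf (nat_lit 0) (nat_lit 11576516535) (nat_lit 228) (nat_lit 7994517620) (nat_lit 304) (nat_lit 17177173965) (nat_lit 87) (nat_lit 5) (nat_lit 90) (nat_lit 5) (nat_lit 91) (nat_lit 5) (nat_lit 507) (nat_lit 429) (nat_lit 264)) (XT.lf (nat_lit 0) (nat_lit 9461149375) (nat_lit 228) (nat_lit 25631525829) (nat_lit 304) (nat_lit 2358272209) (nat_lit 84) (nat_lit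 5) (nat_lit 87) (nat_lit 5) (nat_lit 88) (nat_lit 5) (nat_lit 508) (nat_lit 429) (nat_lit 263)))) (XT.nd (nat_lit 56394) (nat_lit 0) (nat_lit 34200) (XT.nd (nat_lit 56316) (nat_lit 0) (nat_lit 34124) (XT.lf (nat_lit 0) (nat_lit 7247412385) (nat_lit 228) (nat_lit 5751929387) (nat_lit 304) (nat_lit 25168483434) (nat_lit 80) (nat_lit 5) (nat_lit 83) (nat_lit 5) (nat_lit 84) (nat_lit 5) (nat_lit 509) (nat_lit 429) (nat_lit 262)) (XT.lf (nat_lit 0) (nat_lit 3941776) (nat_lit 1748) (nat_lit 2574905028) (nat_lit 1748) (nat_lit 2574905028) (nat_lit 529) (nat_lit 3) (nat_lit 552) (nat_lit 3) (nat_lit 552) (nat_lit 5) (nat_lit 430) (nat_lit 430) (nat_lit 340))) (XT.nd (nat_lit 78) (nat_lit 0) (nat_lit 0) (XT.lf (nat_lit 0) (nat_lit 1026168891) (nat_lit 1672) (nat_lit 7870379619) (nat_lit 1748) (nat_lit 1545172534) (nat_lit 530) (nat_lit 5) (nat_lit 552) (nat_lit 5) (nat_lit 553) (nat_lit 5) (nat_lit 431) (nat_lit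 430) (nat_lit 339)) (XT.lf (nat_lit 0) (nat_lit 2105929525) (nat_lit 1672) (nat_lit 40263110) (nat_lit 1748) (nat_lit 8433155017) (nat_lit 530) (nat_lit 5) (nat_lit 552) (nat_lit 5) (nat_lit 553) (nat_lit 5) (nat_lit 432) (nat_lit 430) (nat_lit 338))))) (XT.nd (nat_lit 234) (nat_lit 1444) (nat_lit 0) (XT.nd (nat_lit 78) (nat_lit 0) (nat_lit 76) (XT.lf (nat_lit 0) (nat_lit 3264847144) (nat_lit 1672) (nat_lit 2641622877) (nat_lit 1748) (nat_lit 4813698959) (nat_lit 531) (nat_lit 5) (nat_lit 553) (nat_lit 5) (nat_lit 554) (nat_lit 5) (nat_lit 433) (nat_lit 430) (nat_lit 337)) (XT.nd (nat_lit 78) (nat_lit 0) (nat_lit 0) (XT.lf (nat_lit 0) (nat_lit 4480533127) (nat_lit 1672) (nat_lit 5257587001) (nat_lit 1748) (nat_lit 1126655974) (nat_lit 532) (nat_lit 5) (nat_lit 554) (nat_lit 5) (nat_lit 555) (nat_lit 5) (nat_lit 434) (nat_lit 430) (nat_lit 336)) (XT.lf (nat_lit 76) (nat_lit 3106111584) (nat_lit 0) (nat_lit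 2668798155) (nat_lit 1748) (nat_lit 5237968435) (nat_lit 533) (nat_lit 5) (nat_lit 532) (nat_lit 5) (nat_lit 555) (nat_lit 5) (nat_lit 435) (nat_lit 430) (nat_lit 335)))) (XT.nd (nat_lit 156) (nat_lit 1596) (nat_lit 0) (XT.nd (nat_lit 78) (nat_lit 0) (nat_lit 76) (XT.lf (nat_lit 76) (nat_lit 583744079) (nat_lit 0) (nat_lit 6559495330) (nat_lit 1748) (nat_lit 4021482569) (nat_lit 534) (nat_lit 5) (nat_lit 533) (nat_lit 5) (nat_lit 556) (nat_lit 5) (nat_lit 436) (nat_lit 430) (nat_lit 334)) (XT.lf (nat_lit 0) (nat_lit 8595556453) (nat_lit 1672) (nat_lit 1927848947) (nat_lit 1748) (nat_lit 796858017) (nat_lit 534) (nat_lit 5) (nat_lit 556) (nat_lit 5) (nat_lit 557) (nat_lit 5) (nat_lit 437) (nat_lit 430) (nat_lit 333))) (XT.nd (nat_lit 78) (nat_lit 1672) (nat_lit 0) (XT.lf (nat_lit 76) (nat_lit 7011502930) (nat_lit 0) (nat_lit 3136772219) (nat_lit 1748) (nat_lit 1331060347) (nat_lit 535) (nat_lit 5) (nat_lit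 534) (nat_lit 5) (nat_lit 557) (nat_lit 5) (nat_lit 438) (nat_lit 430) (nat_lit 332)) (XT.lf (nat_lit 0) (nat_lit 143742608) (nat_lit 1748) (nat_lit 7031260675) (nat_lit 1824) (nat_lit 4467349568) (nat_lit 512) (nat_lit 5) (nat_lit 535) (nat_lit 5) (nat_lit 536) (nat_lit 5) (nat_lit 439) (nat_lit 430) (nat_lit 331)))))) (XT.nd (nat_lit 546) (nat_lit 6536) (nat_lit 0) (XT.nd (nat_lit 234) (nat_lit 1596) (nat_lit 0) (XT.nd (nat_lit 78) (nat_lit 0) (nat_lit 0) (XT.lf (nat_lit 0) (nat_lit 1682705010) (nat_lit 1748) (nat_lit 9622052668) (nat_lit 1824) (nat_lit 504568059) (nat_lit 513) (nat_lit 5) (nat_lit 536) (nat_lit 5) (nat_lit 537) (nat_lit 5) (nat_lit 440) (nat_lit 430) (nat_lit 330)) (XT.nd (nat_lit 78) (nat_lit 0) (nat_lit 76) (XT.lf (nat_lit 0) (nat_lit 3333504048) (nat_lit 1748) (nat_lit 272233726) (nat_lit 1824) (nat_lit 8374257613) (nat_lit 513) (nat_lit 5) (nat_lit 536) (nat_lit 5) (nat_lit 537)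 (nat_lit 5) (nat_lit 441) (nat_lit 430) (nat_lit 329)) (XT.lf (nat_lit 0) (nat_lit 5094390919) (nat_lit 1748) (nat_lit 2723064097) (nat_lit 1824) (nat_lit 4337119740) (nat_lit 514) (nat_lit 5) (nat_lit 537) (nat_lit 5) (nat_lit 538) (nat_lit 5) (nat_lit 442) (nat_lit 430) (nat_lit 328)))) (XT.nd (nat_lit 156) (nat_lit 1748) (nat_lit 0) (XT.nd (nat_lit 78) (nat_lit 0) (nat_lit 0) (XT.lf (nat_lit 0) (nat_lit 6953071868) (nat_lit 1748) (nat_lit 5191276350) (nat_lit 1824) (nat_lit 189144819) (nat_lit 515) (nat_lit 5) (nat_lit 538) (nat_lit 5) (nat_lit 539) (nat_lit 5) (nat_lit 443) (nat_lit 430) (nat_lit 327)) (XT.lf (nat_lit 76) (nat_lit 4811965105) (nat_lit 0) (nat_lit 4129753134) (nat_lit 1824) (nat_lit 3574577381) (nat_lit 516) (nat_lit 5) (nat_lit 515) (nat_lit 5) (nat_lit 539) (nat_lit 5) (nat_lit 444) (nat_lit 430) (nat_lit 326))) (XT.nd (nat_lit 78) (nat_lit 1824) (nat_lit 0) (XT.lf (nat_lit 76)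 (nat_lit 2465516193) (nat_lit 0) (nat_lit 8575526742) (nat_lit 1824) (nat_lit 1662519796) (nat_lit 517) (nat_lit 5) (nat_lit 516) (nat_lit 5) (nat_lit 540) (nat_lit 5) (nat_lit 445) (nat_lit 430) (nat_lit 325)) (XT.lf (nat_lit 76) (nat_lit 99582138) (nat_lit 0) (nat_lit 257398403) (nat_lit 1900) (nat_lit 12538346132) (nat_lit 493) (nat_lit 5) (nat_lit 492) (nat_lit 5) (nat_lit 517) (nat_lit 5) (nat_lit 446) (nat_lit 430) (nat_lit 324))))) (XT.nd (nat_lit 312) (nat_lit 2736) (nat_lit 0) (XT.nd (nat_lit 156) (nat_lit 2052) (nat_lit 0) (XT.nd (nat_lit 78) (nat_lit 1824) (nat_lit 0) (XT.lf (nat_lit 0) (nat_lit 2512350964) (nat_lit 1824) (nat_lit 2291978117) (nat_lit 76) (nat_lit 8286337989) (nat_lit 493) (nat_lit 5) (nat_lit 517) (nat_lit 5) (nat_lit 494) (nat_lit 5) (nat_lit 447) (nat_lit 430) (nat_lit 323)) (XT.lf (nat_lit 0) (nat_lit 4789764899) (nat_lit 1900) (nat_lit 4699857036) (nat_lit 76) (nat_lit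 3801098840) (nat_lit 469) (nat_lit 5) (nat_lit 494) (nat_lit 5) (nat_lit 470) (nat_lit 5) (nat_lit 448) (nat_lit 430) (nat_lit 322))) (XT.nd (nat_lit 78) (nat_lit 912) (nat_lit 0) (XT.lf (nat_lit 0) (nat_lit 6364360806) (nat_lit 1140) (nat_lit 835553669) (nat_lit 1216) (nat_lit 6295574075) (nat_lit 454) (nat_lit 5) (nat_lit 469) (nat_lit 5) (nat_lit 470) (nat_lit 5) (nat_lit 449) (nat_lit 430) (nat_lit 321)) (XT.lf (nat_lit 0) (nat_lit 4098044391) (nat_lit 912) (nat_lit 5671361761) (nat_lit 988) (nat_lit 3935253156) (nat_lit 442) (nat_lit 5) (nat_lit 454) (nat_lit 5) (nat_lit 455) (nat_lit 5) (nat_lit 450) (nat_lit 430) (nat_lit 320)))) (XT.nd (nat_lit 156) (nat_lit 1748) (nat_lit 0) (XT.nd (nat_lit 78) (nat_lit 76) (nat_lit 0) (XT.lf (nat_lit 0) (nat_lit 1817270310) (nat_lit 912) (nat_lit 10662215566) (nat_lit 988) (nat_lit 1439349925) (nat_lit 430) (nat_lit 5) (nat_lit 442) (nat_lit 5) (nat_lit 443)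 (nat_lit 5) (nat_lit 451) (nat_lit 430) (nat_lit 319)) (XT.lf (nat_lit 0) (nat_lit 1196931348) (nat_lit 988) (nat_lit 490659129) (nat_lit 76) (nat_lit 12450094045) (nat_lit 429) (nat_lit 5) (nat_lit 442) (nat_lit 5) (nat_lit 430) (nat_lit 5) (nat_lit 452) (nat_lit 430) (nat_lit 318))) (XT.nd (nat_lit 78) (nat_lit 912) (nat_lit 0) (XT.lf (nat_lit 0) (nat_lit 3995289408) (nat_lit 912) (nat_lit 2822075189) (nat_lit 76) (nat_lit 7543493585) (nat_lit 418) (nat_lit 5) (nat_lit 430) (nat_lit 5) (nat_lit 419) (nat_lit 5) (nat_lit 453) (nat_lit 430) (nat_lit 317)) (XT.lf (nat_lit 0) (nat_lit 6947834071) (nat_lit 988) (nat_lit 5169934088) (nat_lit 76) (nat_lit 2471554787) (nat_lit 406) (nat_lit 5) (nat_lit 419) (nat_lit 5) (nat_lit 407) (nat_lit 5) (nat_lit 454) (nat_lit 430) (nat_lit 316))))))) (XT.nd (nat_lit 1170) (nat_lit 7144) (nat_lit 0) (XT.nd (nat_lit 546) (nat_lit 4712) (nat_lit 0) (XT.nd (nat_lit 234)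 (nat_lit 2356) (nat_lit 0) (XT.nd (nat_lit 78) (nat_lit 1672) (nat_lit 0) (XT.lf (nat_lit 0) (nat_lit 7270386255) (nat_lit 836) (nat_lit 2809193299) (nat_lit 912) (nat_lit 4743250203) (nat_lit 395) (nat_lit 5) (nat_lit 406) (nat_lit 5) (nat_lit 407) (nat_lit 5) (nat_lit 455) (nat_lit 430) (nat_lit 315)) (XT.nd (nat_lit 78) (nat_lit 836) (nat_lit 0) (XT.lf (nat_lit 0) (nat_lit 5092812060) (nat_lit 836) (nat_lit 8303869853) (nat_lit 912) (nat_lit 1664832344) (nat_lit 384) (nat_lit 5) (nat_lit 395) (nat_lit 5) (nat_lit 396) (nat_lit 5) (nat_lit 456) (nat_lit 430) (nat_lit 314)) (XT.lf (nat_lit 0) (nat_lit 1563475198) (nat_lit 836) (nat_lit 12412615942) (nat_lit 76) (nat_lit 1329527393) (nat_lit 373) (nat_lit 5) (nat_lit 384) (nat_lit 5) (nat_lit 374) (nat_lit 5) (nat_lit 457) (nat_lit 430) (nat_lit 313)))) (XT.nd (nat_lit 156) (nat_lit 1596) (nat_lit 0) (XT.nd (nat_lit 78) (nat_lit 0) (nat_lit 0) (XT.lf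 (nat_lit 0) (nat_lit 640865247) (nat_lit 760) (nat_lit 4332818470) (nat_lit 836) (nat_lit 10580989257) (nat_lit 363) (nat_lit 5) (nat_lit 373) (nat_lit 5) (nat_lit 374) (nat_lit 5) (nat_lit 458) (nat_lit 430) (nat_lit 312)) (XT.lf (nat_lit 0) (nat_lit 8587512013) (nat_lit 836) (nat_lit 1612349342) (nat_lit 76) (nat_lit 5609311939) (nat_lit 363) (nat_lit 5) (nat_lit 374) (nat_lit 5) (nat_lit 364) (nat_lit 5) (nat_lit 459) (nat_lit 430) (nat_lit 311))) (XT.nd (nat_lit 78) (nat_lit 836) (nat_lit 0) (XT.lf (nat_lit 0) (nat_lit 12198015797) (nat_lit 760) (nat_lit 200773977) (nat_lit 836) (nat_lit 3670738658) (nat_lit 353) (nat_lit 5) (nat_lit 363) (nat_lit 5) (nat_lit 364) (nat_lit 5) (nat_lit 460) (nat_lit 430) (nat_lit 310)) (XT.lf (nat_lit 0) (nat_lit 111462634) (nat_lit 836) (nat_lit 6182295683) (nat_lit 76) (nat_lit 10041446577) (nat_lit 342) (nat_lit 5) (nat_lit 353) (nat_lit 5) (nat_lit 343) (nat_lit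 5) (nat_lit 461) (nat_lit 430) (nat_lit 309))))) (XT.nd (nat_lit 312) (nat_lit 1976) (nat_lit 0) (XT.nd (nat_lit 156) (nat_lit 1368) (nat_lit 0) (XT.nd (nat_lit 78) (nat_lit 684) (nat_lit 0) (XT.lf (nat_lit 0) (nat_lit 4045961650) (nat_lit 760) (nat_lit 8531766094) (nat_lit 76) (nat_lit 4028865046) (nat_lit 333) (nat_lit 5) (nat_lit 343) (nat_lit 5) (nat_lit 334) (nat_lit 5) (nat_lit 462) (nat_lit 430) (nat_lit 308)) (XT.lf (nat_lit 0) (nat_lit 5973921621) (nat_lit 684) (nat_lit 2229564636) (nat_lit 760) (nat_lit 8680536701) (nat_lit 324) (nat_lit 5) (nat_lit 333) (nat_lit 5) (nat_lit 334) (nat_lit 5) (nat_lit 463) (nat_lit 430) (nat_lit 307))) (XT.nd (nat_lit 78) (nat_lit 684) (nat_lit 0) (XT.lf (nat_lit 0) (nat_lit 3837103339) (nat_lit 684) (nat_lit 8768785735) (nat_lit 760) (nat_lit 4561484348) (nat_lit 315) (nat_lit 5) (nat_lit 324) (nat_lit 5) (nat_lit 325) (nat_lit 5) (nat_lit 464) (nat_lit 430)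 (nat_lit 306)) (XT.lf (nat_lit 0) (nat_lit 1692116854) (nat_lit 684) (nat_lit 15543192735) (nat_lit 760) (nat_lit 222016320) (nat_lit 306) (nat_lit 5) (nat_lit 315) (nat_lit 5) (nat_lit 316) (nat_lit 5) (nat_lit 465) (nat_lit 430) (nat_lit 305)))) (XT.nd (nat_lit 156) (nat_lit 1292) (nat_lit 0) (XT.nd (nat_lit 78) (nat_lit 608) (nat_lit 0) (XT.lf (nat_lit 0) (nat_lit 4324428034) (nat_lit 760) (nat_lit 514269755) (nat_lit 76) (nat_lit 12914078003) (nat_lit 305) (nat_lit 5) (nat_lit 315) (nat_lit 5) (nat_lit 306) (nat_lit 5) (nat_lit 466) (nat_lit 430) (nat_lit 304)) (XT.lf (nat_lit 0) (nat_lit 9128330072) (nat_lit 684) (nat_lit 2722179722) (nat_lit 76) (nat_lit 6204068804) (nat_lit 297) (nat_lit 5) (nat_lit 306) (nat_lit 5) (nat_lit 298) (nat_lit 5) (nat_lit 467) (nat_lit 430) (nat_lit 303))) (XT.nd (nat_lit 78) (nat_lit 684) (nat_lit 0) (XT.lf (nat_lit 0) (nat_lit 13419472934) (nat_lit 608) (nat_lit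 763628085) (nat_lit 684) (nat_lit 4180199812) (nat_lit 289) (nat_lit 5) (nat_lit 297) (nat_lit 5) (nat_lit 298) (nat_lit 5) (nat_lit 468) (nat_lit 430) (nat_lit 302)) (XT.lf (nat_lit 0) (nat_lit 846159992) (nat_lit 684) (nat_lit 7221428657) (nat_lit 76) (nat_lit 10610660114) (nat_lit 280) (nat_lit 5) (nat_lit 289) (nat_lit 5) (nat_lit 281) (nat_lit 5) (nat_lit 469) (nat_lit 430) (nat_lit 301)))))) (XT.nd (nat_lit 546) (nat_lit 3724) (nat_lit 0) (XT.nd (nat_lit 234) (nat_lit 1672) (nat_lit 0) (XT.nd (nat_lit 78) (nat_lit 1140) (nat_lit 0) (XT.lf (nat_lit 0) (nat_lit 6073867109) (nat_lit 684) (nat_lit 9536506547) (nat_lit 76) (nat_lit 3389572227) (nat_lit 272) (nat_lit 5) (nat_lit 281) (nat_lit 5) (nat_lit 273) (nat_lit 5) (nat_lit 470) (nat_lit 430) (nat_lit 300)) (XT.nd (nat_lit 78) (nat_lit 608) (nat_lit 0) (XT.lf (nat_lit 0) (nat_lit 7440614518) (nat_lit 532) (nat_lit 4153915742) (nat_lit 608) (nat_lit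 7734041502) (nat_lit 265) (nat_lit 5) (nat_lit 272) (nat_lit 5) (nat_lit 273) (nat_lit 5) (nat_lit 471) (nat_lit 430) (nat_lit 299)) (XT.lf (nat_lit 0) (nat_lit 5392446238) (nat_lit 608) (nat_lit 12022968045) (nat_lit 684) (nat_lit 2248950445) (nat_lit 257) (nat_lit 5) (nat_lit 265) (nat_lit 5) (nat_lit 266) (nat_lit 5) (nat_lit 472) (nat_lit 430) (nat_lit 298)))) (XT.nd (nat_lit 156) (nat_lit 532) (nat_lit 0) (XT.nd (nat_lit 78) (nat_lit 532) (nat_lit 0) (XT.lf (nat_lit 0) (nat_lit 3318597570) (nat_lit 532) (nat_lit 153019337) (nat_lit 608) (nat_lit 16535862817) (nat_lit 249) (nat_lit 5) (nat_lit 256) (nat_lit 5) (nat_lit 257) (nat_lit 5) (nat_lit 473) (nat_lit 430) (nat_lit 297)) (XT.lf (nat_lit 0) (nat_lit 1174735243) (nat_lit 532) (nat_lit 8327433372) (nat_lit 608) (nat_lit 10855044113) (nat_lit 242) (nat_lit 5) (nat_lit 249) (nat_lit 5) (nat_lit 250) (nat_lit 5) (nat_lit 474) (nat_lit 430) (nat_lit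 296))) (XT.nd (nat_lit 78) (nat_lit 532) (nat_lit 0) (XT.lf (nat_lit 0) (nat_lit 15839192044) (nat_lit 608) (nat_lit 959060483) (nat_lit 76) (nat_lit 3916674389) (nat_lit 242) (nat_lit 5) (nat_lit 250) (nat_lit 5) (nat_lit 243) (nat_lit 5) (nat_lit 475) (nat_lit 430) (nat_lit 295)) (XT.lf (nat_lit 0) (nat_lit 1425617223) (nat_lit 532) (nat_lit 3117700894) (nat_lit 76) (nat_lit 16536698307) (nat_lit 235) (nat_lit 5) (nat_lit 242) (nat_lit 5) (nat_lit 236) (nat_lit 5) (nat_lit 476) (nat_lit 430) (nat_lit 294))))) (XT.nd (nat_lit 312) (nat_lit 1748) (nat_lit 0) (XT.nd (nat_lit 156) (nat_lit 988) (nat_lit 0) (XT.nd (nat_lit 78) (nat_lit 456) (nat_lit 0) (XT.lf (nat_lit 0) (nat_lit 8001300953) (nat_lit 608) (nat_lit 5337950204) (nat_lit 76) (nat_lit 8113132497) (nat_lit 228) (nat_lit 5) (nat_lit 236) (nat_lit 5) (nat_lit 229) (nat_lit 5) (nat_lit 477) (nat_lit 430) (nat_lit 293)) (XT.lf (nat_lit 0) (nat_lit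 14268327131) (nat_lit 456) (nat_lit 636719952) (nat_lit 532) (nat_lit 6928259250) (nat_lit 222) (nat_lit 5) (nat_lit 228) (nat_lit 5) (nat_lit 229) (nat_lit 5) (nat_lit 478) (nat_lit 430) (nat_lit 292))) (XT.nd (nat_lit 78) (nat_lit 532) (nat_lit 0) (XT.lf (nat_lit 0) (nat_lit 12373239755) (nat_lit 456) (nat_lit 9826964982) (nat_lit 532) (nat_lit 21766230) (nat_lit 216) (nat_lit 5) (nat_lit 222) (nat_lit 5) (nat_lit 223) (nat_lit 5) (nat_lit 479) (nat_lit 430) (nat_lit 291)) (XT.lf (nat_lit 0) (nat_lit 7131349992) (nat_lit 532) (nat_lit 12181267073) (nat_lit 76) (nat_lit 3306109008) (nat_lit 209) (nat_lit 5) (nat_lit 216) (nat_lit 5) (nat_lit 210) (nat_lit 5) (nat_lit 480) (nat_lit 430) (nat_lit 290)))) (XT.nd (nat_lit 156) (nat_lit 912) (nat_lit 0) (XT.nd (nat_lit 78) (nat_lit 380) (nat_lit 0) (XT.lf (nat_lit 0) (nat_lit 8467045522) (nat_lit 456) (nat_lit 6206733923) (nat_lit 532) (nat_lit 8350101440)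 (nat_lit 203) (nat_lit 5) (nat_lit 209) (nat_lit 5) (nat_lit 210) (nat_lit 5) (nat_lit 481) (nat_lit 430) (nat_lit 289)) (XT.lf (nat_lit 0) (nat_lit 6480502071) (nat_lit 380) (nat_lit 16121853051) (nat_lit 456) (nat_lit 835637984) (nat_lit 198) (nat_lit 5) (nat_lit 203) (nat_lit 5) (nat_lit 204) (nat_lit 5) (nat_lit 482) (nat_lit 430) (nat_lit 288))) (XT.nd (nat_lit 78) (nat_lit 380) (nat_lit 0) (XT.lf (nat_lit 0) (nat_lit 4438414269) (nat_lit 456) (nat_lit 2532441062) (nat_lit 532) (nat_lit 16889634113) (nat_lit 191) (nat_lit 5) (nat_lit 197) (nat_lit 5) (nat_lit 198) (nat_lit 5) (nat_lit 483) (nat_lit 430) (nat_lit 287)) (XT.lf (nat_lit 0) (nat_lit 2346565849) (nat_lit 380) (nat_lit 12846765186) (nat_lit 456) (nat_lit 9098356568) (nat_lit 186) (nat_lit 5) (nat_lit 191) (nat_lit 5) (nat_lit 192) (nat_lit 5) (nat_lit 484) (nat_lit 430) (nat_lit 286))))))))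
noncomputable def xc76 : XT := (XT.nd (nat_lit 58578) (nat_lit 0) (nat_lit 18240) (XT.nd (nat_lit 1092) (nat_lit 3192) (nat_lit 0) (XT.nd (nat_lit 546) (nat_lit 2128) (nat_lit 0) (XT.nd (nat_lit 234) (nat_lit 1596) (nat_lit 0) (XT.nd (nat_lit 78) (nat_lit 456) (nat_lit 0) (XT.lf (nat_lit 0) (nat_lit 261424327) (nat_lit 380) (nat_lit 23546953325) (nat_lit 456) (nat_lit 924526329) (nat_lit 181) (nat_lit 5) (nat_lit 186) (nat_lit 5) (nat_lit 187) (nat_lit 5) (nat_lit 485) (nat_lit 430) (nat_lit 285)) (XT.nd (nat_lit 78) (nat_lit 380) (nat_lit 0) (XT.lf (nat_lit 0) (nat_lit 7619921495) (nat_lit 456) (nat_lit 1903524521) (nat_lit 76) (nat_lit 15658463955) (nat_lit 180) (nat_lit 5) (nat_lit 186) (nat_lit 5) (nat_lit 181) (nat_lit 5) (nat_lit 486) (nat_lit 430) (nat_lit 284)) (XT.lf (nat_lit 0) (nat_lit 16569778472) (nat_lit 456) (nat_lit 4073593397) (nat_lit 76) (nat_lit 4997659512) (nat_lit 175) (nat_lit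 5) (nat_lit 181) (nat_lit 5) (nat_lit 176) (nat_lit 5) (nat_lit 487) (nat_lit 430) (nat_lit 283)))) (XT.nd (nat_lit 156) (nat_lit 760) (nat_lit 0) (XT.nd (nat_lit 78) (nat_lit 456) (nat_lit 0) (XT.lf (nat_lit 0) (nat_lit 19833752314) (nat_lit 380) (nat_lit 6148447532) (nat_lit 456) (nat_lit 127845402) (nat_lit 170) (nat_lit 5) (nat_lit 175) (nat_lit 5) (nat_lit 176) (nat_lit 5) (nat_lit 488) (nat_lit 430) (nat_lit 282)) (XT.lf (nat_lit 0) (nat_lit 9157010419) (nat_lit 456) (nat_lit 8565487521) (nat_lit 76) (nat_lit 8865606547) (nat_lit 164) (nat_lit 5) (nat_lit 170) (nat_lit 5) (nat_lit 165) (nat_lit 5) (nat_lit 489) (nat_lit 430) (nat_lit 281))) (XT.nd (nat_lit 78) (nat_lit 380) (nat_lit 0) (XT.lf (nat_lit 0) (nat_lit 16209811794) (nat_lit 380) (nat_lit 2686992206) (nat_lit 456) (nat_lit 8180122194) (nat_lit 159) (nat_lit 5) (nat_lit 164) (nat_lit 5) (nat_lit 165) (nat_lit 5) (nat_lit 490) (nat_lit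 430) (nat_lit 280)) (XT.lf (nat_lit 0) (nat_lit 1556019145) (nat_lit 380) (nat_lit 13232217437) (nat_lit 76) (nat_lit 12787494554) (nat_lit 154) (nat_lit 5) (nat_lit 159) (nat_lit 5) (nat_lit 155) (nat_lit 5) (nat_lit 491) (nat_lit 430) (nat_lit 279))))) (XT.nd (nat_lit 234) (nat_lit 988) (nat_lit 0) (XT.nd (nat_lit 78) (nat_lit 760) (nat_lit 0) (XT.lf (nat_lit 0) (nat_lit 11641135342) (nat_lit 456) (nat_lit 15646220570) (nat_lit 76) (nat_lit 797702533) (nat_lit 149) (nat_lit 5) (nat_lit 155) (nat_lit 5) (nat_lit 150) (nat_lit 5) (nat_lit 492) (nat_lit 430) (nat_lit 278)) (XT.nd (nat_lit 78) (nat_lit 456) (nat_lit 0) (XT.lf (nat_lit 0) (nat_lit 10474225135) (nat_lit 304) (nat_lit 11801157418) (nat_lit 380) (nat_lit 6329351627) (nat_lit 145) (nat_lit 5) (nat_lit 149) (nat_lit 5) (nat_lit 150) (nat_lit 5) (nat_lit 493) (nat_lit 430) (nat_lit 277)) (XT.lf (nat_lit 0) (nat_lit 4214789857) (nat_lit 456)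 (nat_lit 20642290250) (nat_lit 76) (nat_lit 4278794173) (nat_lit 139) (nat_lit 5) (nat_lit 145) (nat_lit 5) (nat_lit 140) (nat_lit 5) (nat_lit 494) (nat_lit 430) (nat_lit 276)))) (XT.nd (nat_lit 156) (nat_lit 380) (nat_lit 0) (XT.nd (nat_lit 78) (nat_lit 304) (nat_lit 0) (XT.lf (nat_lit 0) (nat_lit 6429657001) (nat_lit 304) (nat_lit 8794139038) (nat_lit 380) (nat_lit 14453625318) (nat_lit 135) (nat_lit 5) (nat_lit 139) (nat_lit 5) (nat_lit 140) (nat_lit 5) (nat_lit 495) (nat_lit 430) (nat_lit 275)) (XT.lf (nat_lit 0) (nat_lit 4353163011) (nat_lit 304) (nat_lit 22419157412) (nat_lit 380) (nat_lit 3458709601) (nat_lit 131) (nat_lit 5) (nat_lit 135) (nat_lit 5) (nat_lit 136) (nat_lit 5) (nat_lit 496) (nat_lit 430) (nat_lit 274))) (XT.nd (nat_lit 78) (nat_lit 0) (nat_lit 0) (XT.lf (nat_lit 0) (nat_lit 2203773528) (nat_lit 304) (nat_lit 5780791703) (nat_lit 380) (nat_lit 22811226894) (nat_lit 126) (nat_lit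 5) (nat_lit 130) (nat_lit 5) (nat_lit 131) (nat_lit 5) (nat_lit 497) (nat_lit 430) (nat_lit 273)) (XT.lf (nat_lit 0) (nat_lit 19964794979) (nat_lit 380) (nat_lit 6266887) (nat_lit 76) (nat_lit 11401165171) (nat_lit 126) (nat_lit 5) (nat_lit 131) (nat_lit 5) (nat_lit 127) (nat_lit 5) (nat_lit 498) (nat_lit 430) (nat_lit 272)))))) (XT.nd (nat_lit 546) (nat_lit 988) (nat_lit 0) (XT.nd (nat_lit 234) (nat_lit 1216) (nat_lit 0) (XT.nd (nat_lit 78) (nat_lit 608) (nat_lit 0) (XT.lf (nat_lit 0) (nat_lit 557888343) (nat_lit 380) (nat_lit 2192158902) (nat_lit 76) (nat_lit 29211386903) (nat_lit 121) (nat_lit 5) (nat_lit 126) (nat_lit 5) (nat_lit 122) (nat_lit 5) (nat_lit 499) (nat_lit 430) (nat_lit 271)) (XT.nd (nat_lit 78) (nat_lit 304) (nat_lit 0) (XT.lf (nat_lit 0) (nat_lit 13000374687) (nat_lit 380) (nat_lit 4515318067) (nat_lit 76) (nat_lit 15045653003) (nat_lit 117) (nat_lit 5) (nat_lit 122) (nat_lit 5) (nat_lit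 118) (nat_lit 5) (nat_lit 500) (nat_lit 430) (nat_lit 270)) (XT.lf (nat_lit 0) (nat_lit 26013475973) (nat_lit 380) (nat_lit 6823638782) (nat_lit 76) (nat_lit 338193266) (nat_lit 113) (nat_lit 5) (nat_lit 118) (nat_lit 5) (nat_lit 114) (nat_lit 5) (nat_lit 501) (nat_lit 430) (nat_lit 269)))) (XT.nd (nat_lit 156) (nat_lit 608) (nat_lit 0) (XT.nd (nat_lit 78) (nat_lit 304) (nat_lit 0) (XT.lf (nat_lit 0) (nat_lit 5836069858) (nat_lit 304) (nat_lit 9251077100) (nat_lit 76) (nat_lit 18713806815) (nat_lit 109) (nat_lit 5) (nat_lit 113) (nat_lit 5) (nat_lit 110) (nat_lit 5) (nat_lit 502) (nat_lit 430) (nat_lit 268)) (XT.lf (nat_lit 0) (nat_lit 19334618943) (nat_lit 380) (nat_lit 11714689497) (nat_lit 76) (nat_lit 3390953542) (nat_lit 105) (nat_lit 5) (nat_lit 110) (nat_lit 5) (nat_lit 106) (nat_lit 5) (nat_lit 503) (nat_lit 430) (nat_lit 267))) (XT.nd (nat_lit 78) (nat_lit 380) (nat_lit 0) (XT.lf (nat_lit 0)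 (nat_lit 20847499458) (nat_lit 228) (nat_lit 12681010287) (nat_lit 304) (nat_lit 1564432091) (nat_lit 102) (nat_lit 5) (nat_lit 105) (nat_lit 5) (nat_lit 106) (nat_lit 5) (nat_lit 504) (nat_lit 430) (nat_lit 266)) (XT.lf (nat_lit 0) (nat_lit 12456935629) (nat_lit 380) (nat_lit 16866477759) (nat_lit 76) (nat_lit 6435454303) (nat_lit 97) (nat_lit 5) (nat_lit 102) (nat_lit 5) (nat_lit 98) (nat_lit 5) (nat_lit 505) (nat_lit 430) (nat_lit 265))))) (XT.nd (nat_lit 56628) (nat_lit 0) (nat_lit 33820) (XT.nd (nat_lit 156) (nat_lit 456) (nat_lit 0) (XT.nd (nat_lit 78) (nat_lit 304) (nat_lit 0) (XT.lf (nat_lit 0) (nat_lit 16887057980) (nat_lit 228) (nat_lit 10273627700) (nat_lit 304) (nat_lit 9278219004) (nat_lit 94) (nat_lit 5) (nat_lit 97) (nat_lit 5) (nat_lit 98) (nat_lit 5) (nat_lit 506) (nat_lit 430) (nat_lit 264)) (XT.lf (nat_lit 0) (nat_lit 5363830300) (nat_lit 304) (nat_lit 22303739576) (nat_lit 76) (nat_lit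 9465794541) (nat_lit 90) (nat_lit 5) (nat_lit 94) (nat_lit 5) (nat_lit 91) (nat_lit 5) (nat_lit 507) (nat_lit 430) (nat_lit 263))) (XT.nd (nat_lit 78) (nat_lit 228) (nat_lit 0) (XT.lf (nat_lit 0) (nat_lit 12684102616) (nat_lit 228) (nat_lit 7911603591) (nat_lit 304) (nat_lit 17246192849) (nat_lit 87) (nat_lit 5) (nat_lit 90) (nat_lit 5) (nat_lit 91) (nat_lit 5) (nat_lit 508) (nat_lit 430) (nat_lit 262)) (XT.lf (nat_lit 0) (nat_lit 10499491387) (nat_lit 228) (nat_lit 26077694420) (nat_lit 304) (nat_lit 1988651064) (nat_lit 84) (nat_lit 5) (nat_lit 87) (nat_lit 5) (nat_lit 88) (nat_lit 5) (nat_lit 509) (nat_lit 430) (nat_lit 261)))) (XT.nd (nat_lit 156) (nat_lit 0) (nat_lit 76) (XT.nd (nat_lit 78) (nat_lit 0) (nat_lit 76) (XT.lf (nat_lit 0) (nat_lit 985770931) (nat_lit 1748) (nat_lit 2151463854) (nat_lit 1748) (nat_lit 2151463854) (nat_lit 529) (nat_lit 3) (nat_lit 552) (nat_lit 3) (nat_lit 552) (nat_lit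 5) (nat_lit 431) (nat_lit 431) (nat_lit 338)) (XT.lf (nat_lit 0) (nat_lit 2963562892) (nat_lit 1672) (nat_lit 7077024718) (nat_lit 1748) (nat_lit 676191666) (nat_lit 530) (nat_lit 5) (nat_lit 552) (nat_lit 5) (nat_lit 553) (nat_lit 5) (nat_lit 432) (nat_lit 431) (nat_lit 337))) (XT.nd (nat_lit 78) (nat_lit 0) (nat_lit 76) (XT.lf (nat_lit 76) (nat_lit 970742290) (nat_lit 0) (nat_lit 3055744457) (nat_lit 1748) (nat_lit 6833034308) (nat_lit 531) (nat_lit 5) (nat_lit 530) (nat_lit 5) (nat_lit 553) (nat_lit 5) (nat_lit 433) (nat_lit 431) (nat_lit 336)) (XT.lf (nat_lit 0) (nat_lit 5161012559) (nat_lit 1672) (nat_lit 1696150712) (nat_lit 1748) (nat_lit 4148588670) (nat_lit 531) (nat_lit 5) (nat_lit 553) (nat_lit 5) (nat_lit 554) (nat_lit 5) (nat_lit 434) (nat_lit 431) (nat_lit 335))))))) (XT.nd (nat_lit 1170) (nat_lit 11020) (nat_lit 0) (XT.nd (nat_lit 546) (nat_lit 3192) (nat_lit 0) (XT.nd (nat_lit 234) (nat_lit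 1596) (nat_lit 0) (XT.nd (nat_lit 78) (nat_lit 0) (nat_lit 0) (XT.lf (nat_lit 0) (nat_lit 6362506560) (nat_lit 1672) (nat_lit 4367282364) (nat_lit 1748) (nat_lit 425923286) (nat_lit 532) (nat_lit 5) (nat_lit 554) (nat_lit 5) (nat_lit 555) (nat_lit 5) (nat_lit 435) (nat_lit 431) (nat_lit 334)) (XT.nd (nat_lit 78) (nat_lit 0) (nat_lit 76) (XT.lf (nat_lit 76) (nat_lit 4230324101) (nat_lit 0) (nat_lit 3421184763) (nat_lit 1748) (nat_lit 3657634223) (nat_lit 533) (nat_lit 5) (nat_lit 532) (nat_lit 5) (nat_lit 555) (nat_lit 5) (nat_lit 436) (nat_lit 431) (nat_lit 333)) (XT.lf (nat_lit 76) (nat_lit 1653420544) (nat_lit 0) (nat_lit 7360449014) (nat_lit 1748) (nat_lit 2452614608) (nat_lit 534) (nat_lit 5) (nat_lit 533) (nat_lit 5) (nat_lit 556) (nat_lit 5) (nat_lit 437) (nat_lit 431) (nat_lit 332)))) (XT.nd (nat_lit 156) (nat_lit 0) (nat_lit 76) (XT.nd (nat_lit 78) (nat_lit 1748) (nat_lit 0) (XT.lf (nat_lit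 0) (nat_lit 10457704994) (nat_lit 1672) (nat_lit 928144340) (nat_lit 1748) (nat_lit 241885076) (nat_lit 534) (nat_lit 5) (nat_lit 556) (nat_lit 5) (nat_lit 557) (nat_lit 5) (nat_lit 438) (nat_lit 431) (nat_lit 331)) (XT.lf (nat_lit 0) (nat_lit 221707492) (nat_lit 1748) (nat_lit 3531607421) (nat_lit 1824) (nat_lit 8039035496) (nat_lit 511) (nat_lit 5) (nat_lit 534) (nat_lit 5) (nat_lit 535) (nat_lit 5) (nat_lit 439) (nat_lit 431) (nat_lit 330))) (XT.nd (nat_lit 78) (nat_lit 0) (nat_lit 76) (XT.lf (nat_lit 0) (nat_lit 1680496278) (nat_lit 1748) (nat_lit 6164107917) (nat_lit 1824) (nat_lit 4116323032) (nat_lit 512) (nat_lit 5) (nat_lit 535) (nat_lit 5) (nat_lit 536) (nat_lit 5) (nat_lit 440) (nat_lit 431) (nat_lit 329)) (XT.lf (nat_lit 0) (nat_lit 3225061031) (nat_lit 1748) (nat_lit 8817356118) (nat_lit 1824) (nat_lit 91304860) (nat_lit 513) (nat_lit 5) (nat_lit 536) (nat_lit 5) (nat_lit 537) (nat_lit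 5) (nat_lit 441) (nat_lit 431) (nat_lit 328))))) (XT.nd (nat_lit 312) (nat_lit 3344) (nat_lit 0) (XT.nd (nat_lit 156) (nat_lit 0) (nat_lit 76) (XT.nd (nat_lit 78) (nat_lit 0) (nat_lit 76) (XT.lf (nat_lit 76) (nat_lit 791492575) (nat_lit 0) (nat_lit 4095577694) (nat_lit 1824) (nat_lit 7423209096) (nat_lit 514) (nat_lit 5) (nat_lit 513) (nat_lit 5) (nat_lit 537) (nat_lit 5) (nat_lit 442) (nat_lit 431) (nat_lit 327)) (XT.lf (nat_lit 0) (nat_lit 6657844023) (nat_lit 1748) (nat_lit 1729767384) (nat_lit 1824) (nat_lit 4103344803) (nat_lit 514) (nat_lit 5) (nat_lit 537) (nat_lit 5) (nat_lit 538) (nat_lit 5) (nat_lit 443) (nat_lit 431) (nat_lit 326))) (XT.nd (nat_lit 78) (nat_lit 0) (nat_lit 76) (XT.lf (nat_lit 76) (nat_lit 8415338749) (nat_lit 0) (nat_lit 121445191) (nat_lit 1824) (nat_lit 4139169391) (nat_lit 515) (nat_lit 5) (nat_lit 514) (nat_lit 5) (nat_lit 538) (nat_lit 5) (nat_lit 444) (nat_lit 431)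 (nat_lit 325)) (XT.lf (nat_lit 76) (nat_lit 6025874276) (nat_lit 0) (nat_lit 4525342083) (nat_lit 1824) (nat_lit 2313702326) (nat_lit 516) (nat_lit 5) (nat_lit 515) (nat_lit 5) (nat_lit 539) (nat_lit 5) (nat_lit 445) (nat_lit 431) (nat_lit 324)))) (XT.nd (nat_lit 156) (nat_lit 1748) (nat_lit 0) (XT.nd (nat_lit 78) (nat_lit 1824) (nat_lit 0) (XT.lf (nat_lit 76) (nat_lit 3619845067) (nat_lit 0) (nat_lit 9059912079) (nat_lit 1824) (nat_lit 378723129) (nat_lit 517) (nat_lit 5) (nat_lit 516) (nat_lit 5) (nat_lit 540) (nat_lit 5) (nat_lit 446) (nat_lit 431) (nat_lit 323)) (XT.lf (nat_lit 76) (nat_lit 1182651225) (nat_lit 0) (nat_lit 469896882) (nat_lit 1900) (nat_lit 11603903433) (nat_lit 493) (nat_lit 5) (nat_lit 492) (nat_lit 5) (nat_lit 517) (nat_lit 5) (nat_lit 447) (nat_lit 431) (nat_lit 322))) (XT.nd (nat_lit 78) (nat_lit 1824) (nat_lit 0) (XT.lf (nat_lit 0) (nat_lit 3833865769) (nat_lit 1824) (nat_lit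 1285838334) (nat_lit 76) (nat_lit 8338723424) (nat_lit 493) (nat_lit 5) (nat_lit 517) (nat_lit 5) (nat_lit 494) (nat_lit 5) (nat_lit 448) (nat_lit 431) (nat_lit 321)) (XT.lf (nat_lit 0) (nat_lit 6149138406) (nat_lit 1900) (nat_lit 3757988704) (nat_lit 76) (nat_lit 3757966076) (nat_lit 469) (nat_lit 5) (nat_lit 494) (nat_lit 5) (nat_lit 470) (nat_lit 5) (nat_lit 449) (nat_lit 431) (nat_lit 320)))))) (XT.nd (nat_lit 546) (nat_lit 5396) (nat_lit 0) (XT.nd (nat_lit 234) (nat_lit 2660) (nat_lit 0) (XT.nd (nat_lit 78) (nat_lit 1824) (nat_lit 0) (XT.lf (nat_lit 0) (nat_lit 7620587491) (nat_lit 1140) (nat_lit 982513414) (nat_lit 1216) (nat_lit 5273473957) (nat_lit 454) (nat_lit 5) (nat_lit 469) (nat_lit 5) (nat_lit 470) (nat_lit 5) (nat_lit 450) (nat_lit 431) (nat_lit 319)) (XT.nd (nat_lit 78) (nat_lit 912) (nat_lit 0) (XT.lf (nat_lit 0) (nat_lit 5293169564) (nat_lit 912) (nat_lit 5928122415) (nat_lit 988)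 (nat_lit 2871297475) (nat_lit 442) (nat_lit 5) (nat_lit 454) (nat_lit 5) (nat_lit 455) (nat_lit 5) (nat_lit 451) (nat_lit 431) (nat_lit 318)) (XT.lf (nat_lit 0) (nat_lit 2949963704) (nat_lit 912) (nat_lit 11035413046) (nat_lit 988) (nat_lit 328361419) (nat_lit 430) (nat_lit 5) (nat_lit 442) (nat_lit 5) (nat_lit 443) (nat_lit 5) (nat_lit 452) (nat_lit 431) (nat_lit 317)))) (XT.nd (nat_lit 156) (nat_lit 1748) (nat_lit 0) (XT.nd (nat_lit 78) (nat_lit 0) (nat_lit 0) (XT.lf (nat_lit 0) (nat_lit 563511024) (nat_lit 836) (nat_lit 1778843136) (nat_lit 912) (nat_lit 12197239588) (nat_lit 418) (nat_lit 5) (nat_lit 429) (nat_lit 5) (nat_lit 430) (nat_lit 5) (nat_lit 453) (nat_lit 431) (nat_lit 316)) (XT.lf (nat_lit 0) (nat_lit 5195340312) (nat_lit 912) (nat_lit 1840586281) (nat_lit 76) (nat_lit 7734123382) (nat_lit 418) (nat_lit 5) (nat_lit 430) (nat_lit 5) (nat_lit 419) (nat_lit 5) (nat_lit 454) (nat_lit 431)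 (nat_lit 315))) (XT.nd (nat_lit 78) (nat_lit 836) (nat_lit 0) (XT.lf (nat_lit 0) (nat_lit 8211765852) (nat_lit 988) (nat_lit 4254994537) (nat_lit 76) (nat_lit 2539103079) (nat_lit 406) (nat_lit 5) (nat_lit 419) (nat_lit 5) (nat_lit 407) (nat_lit 5) (nat_lit 455) (nat_lit 431) (nat_lit 314)) (XT.lf (nat_lit 0) (nat_lit 8541175327) (nat_lit 836) (nat_lit 2872380428) (nat_lit 912) (nat_lit 3833298738) (nat_lit 395) (nat_lit 5) (nat_lit 406) (nat_lit 5) (nat_lit 407) (nat_lit 5) (nat_lit 456) (nat_lit 431) (nat_lit 313))))) (XT.nd (nat_lit 312) (nat_lit 2964) (nat_lit 0) (XT.nd (nat_lit 156) (nat_lit 760) (nat_lit 0) (XT.nd (nat_lit 78) (nat_lit 836) (nat_lit 0) (XT.lf (nat_lit 0) (nat_lit 6301385735) (nat_lit 836) (nat_lit 8505726992) (nat_lit 912) (nat_lit 686048796) (nat_lit 384) (nat_lit 5) (nat_lit 395) (nat_lit 5) (nat_lit 396) (nat_lit 5) (nat_lit 457) (nat_lit 431) (nat_lit 312)) (XT.lf (nat_lit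 0) (nat_lit 2603262114) (nat_lit 836) (nat_lit 11713544309) (nat_lit 76) (nat_lit 1428096786) (nat_lit 373) (nat_lit 5) (nat_lit 384) (nat_lit 5) (nat_lit 374) (nat_lit 5) (nat_lit 458) (nat_lit 431) (nat_lit 311))) (XT.nd (nat_lit 78) (nat_lit 0) (nat_lit 0) (XT.lf (nat_lit 0) (nat_lit 1714158310) (nat_lit 760) (nat_lit 4379543368) (nat_lit 836) (nat_lit 9908169873) (nat_lit 363) (nat_lit 5) (nat_lit 373) (nat_lit 5) (nat_lit 374) (nat_lit 5) (nat_lit 459) (nat_lit 431) (nat_lit 310)) (XT.lf (nat_lit 0) (nat_lit 9788193710) (nat_lit 836) (nat_lit 619003181) (nat_lit 76) (nat_lit 5857365754) (nat_lit 363) (nat_lit 5) (nat_lit 374) (nat_lit 5) (nat_lit 364) (nat_lit 5) (nat_lit 460) (nat_lit 431) (nat_lit 309)))) (XT.nd (nat_lit 156) (nat_lit 1368) (nat_lit 0) (XT.nd (nat_lit 78) (nat_lit 836) (nat_lit 0) (XT.lf (nat_lit 0) (nat_lit 13588772298) (nat_lit 760) (nat_lit 104223631) (nat_lit 836) (nat_lit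 2840149506) (nat_lit 353) (nat_lit 5) (nat_lit 363) (nat_lit 5) (nat_lit 364) (nat_lit 5) (nat_lit 461) (nat_lit 431) (nat_lit 308)) (XT.lf (nat_lit 0) (nat_lit 1023494728) (nat_lit 836) (nat_lit 5329962072) (nat_lit 76) (nat_lit 10453607632) (nat_lit 342) (nat_lit 5) (nat_lit 353) (nat_lit 5) (nat_lit 343) (nat_lit 5) (nat_lit 462) (nat_lit 431) (nat_lit 307))) (XT.nd (nat_lit 78) (nat_lit 684) (nat_lit 0) (XT.lf (nat_lit 0) (nat_lit 5057048629) (nat_lit 760) (nat_lit 7749812300) (nat_lit 76) (nat_lit 4280113302) (nat_lit 333) (nat_lit 5) (nat_lit 343) (nat_lit 5) (nat_lit 334) (nat_lit 5) (nat_lit 463) (nat_lit 431) (nat_lit 306)) (XT.lf (nat_lit 0) (nat_lit 7174207243) (nat_lit 684) (nat_lit 2145807354) (nat_lit 760) (nat_lit 8053099042) (nat_lit 324) (nat_lit 5) (nat_lit 333) (nat_lit 5) (nat_lit 334) (nat_lit 5) (nat_lit 464) (nat_lit 431) (nat_lit 305))))))))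
noncomputable def xc77 : XT := (XT.nd (nat_lit 2262) (nat_lit 4940) (nat_lit 0) (XT.nd (nat_lit 1092) (nat_lit 6004) (nat_lit 0) (XT.nd (nat_lit 546) (nat_lit 3344) (nat_lit 0) (XT.nd (nat_lit 234) (nat_lit 1900) (nat_lit 0) (XT.nd (nat_lit 78) (nat_lit 1368) (nat_lit 0) (XT.lf (nat_lit 0) (nat_lit 4972903811) (nat_lit 684) (nat_lit 8863810113) (nat_lit 760) (nat_lit 3828606831) (nat_lit 315) (nat_lit 5) (nat_lit 324) (nat_lit 5) (nat_lit 325) (nat_lit 5) (nat_lit 465) (nat_lit 431) (nat_lit 304)) (XT.nd (nat_lit 78) (nat_lit 608) (nat_lit 0) (XT.lf (nat_lit 0) (nat_lit 615369996) (nat_lit 760) (nat_lit 15205632149) (nat_lit 76) (nat_lit 2143232384) (nat_lit 305) (nat_lit 5) (nat_lit 315) (nat_lit 5) (nat_lit 306) (nat_lit 5) (nat_lit 466) (nat_lit 431) (nat_lit 303)) (XT.lf (nat_lit 0) (nat_lit 477583667) (nat_lit 608) (nat_lit 4796229133) (nat_lit 684) (nat_lit 12995133907) (nat_lit 297) (nat_lit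 5) (nat_lit 305) (nat_lit 5) (nat_lit 306) (nat_lit 5) (nat_lit 467) (nat_lit 431) (nat_lit 302)))) (XT.nd (nat_lit 156) (nat_lit 1292) (nat_lit 0) (XT.nd (nat_lit 78) (nat_lit 608) (nat_lit 0) (XT.lf (nat_lit 0) (nat_lit 10202547036) (nat_lit 684) (nat_lit 1804270665) (nat_lit 76) (nat_lit 6573372157) (nat_lit 297) (nat_lit 5) (nat_lit 306) (nat_lit 5) (nat_lit 298) (nat_lit 5) (nat_lit 468) (nat_lit 431) (nat_lit 301)) (XT.lf (nat_lit 0) (nat_lit 14805414663) (nat_lit 608) (nat_lit 586619395) (nat_lit 684) (nat_lit 3506478787) (nat_lit 289) (nat_lit 5) (nat_lit 297) (nat_lit 5) (nat_lit 298) (nat_lit 5) (nat_lit 469) (nat_lit 431) (nat_lit 300))) (XT.nd (nat_lit 78) (nat_lit 608) (nat_lit 0) (XT.lf (nat_lit 0) (nat_lit 1644904513) (nat_lit 684) (nat_lit 6446217337) (nat_lit 76) (nat_lit 11131989849) (nat_lit 280) (nat_lit 5) (nat_lit 289) (nat_lit 5) (nat_lit 281) (nat_lit 5) (nat_lit 470) (nat_lit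 431) (nat_lit 299)) (XT.lf (nat_lit 0) (nat_lit 7014672348) (nat_lit 684) (nat_lit 8833098238) (nat_lit 76) (nat_lit 3706985060) (nat_lit 272) (nat_lit 5) (nat_lit 281) (nat_lit 5) (nat_lit 273) (nat_lit 5) (nat_lit 471) (nat_lit 431) (nat_lit 298))))) (XT.nd (nat_lit 234) (nat_lit 1596) (nat_lit 0) (XT.nd (nat_lit 78) (nat_lit 1216) (nat_lit 0) (XT.lf (nat_lit 0) (nat_lit 8637282939) (nat_lit 532) (nat_lit 4047897904) (nat_lit 608) (nat_lit 7208375439) (nat_lit 265) (nat_lit 5) (nat_lit 272) (nat_lit 5) (nat_lit 273) (nat_lit 5) (nat_lit 472) (nat_lit 431) (nat_lit 297)) (XT.nd (nat_lit 78) (nat_lit 608) (nat_lit 0) (XT.lf (nat_lit 0) (nat_lit 6525034740) (nat_lit 608) (nat_lit 12141778268) (nat_lit 684) (nat_lit 1572888074) (nat_lit 257) (nat_lit 5) (nat_lit 265) (nat_lit 5) (nat_lit 266) (nat_lit 5) (nat_lit 473) (nat_lit 431) (nat_lit 296)) (XT.lf (nat_lit 0) (nat_lit 4295009750) (nat_lit 608) (nat_lit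 16211060591) (nat_lit 76) (nat_lit 87233788) (nat_lit 249) (nat_lit 5) (nat_lit 257) (nat_lit 5) (nat_lit 250) (nat_lit 5) (nat_lit 474) (nat_lit 431) (nat_lit 295)))) (XT.nd (nat_lit 156) (nat_lit 1064) (nat_lit 0) (XT.nd (nat_lit 78) (nat_lit 0) (nat_lit 0) (XT.lf (nat_lit 0) (nat_lit 2171583815) (nat_lit 532) (nat_lit 8321182220) (nat_lit 608) (nat_lit 10461037768) (nat_lit 242) (nat_lit 5) (nat_lit 249) (nat_lit 5) (nat_lit 250) (nat_lit 5) (nat_lit 475) (nat_lit 431) (nat_lit 294)) (XT.lf (nat_lit 0) (nat_lit 17000964859) (nat_lit 608) (nat_lit 42134028) (nat_lit 76) (nat_lit 4279529664) (nat_lit 242) (nat_lit 5) (nat_lit 250) (nat_lit 5) (nat_lit 243) (nat_lit 5) (nat_lit 476) (nat_lit 431) (nat_lit 293))) (XT.nd (nat_lit 78) (nat_lit 532) (nat_lit 0) (XT.lf (nat_lit 0) (nat_lit 2145493508) (nat_lit 532) (nat_lit 2271864529) (nat_lit 76) (nat_lit 17281503177) (nat_lit 235) (nat_lit 5) (nat_lit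 242) (nat_lit 5) (nat_lit 236) (nat_lit 5) (nat_lit 477) (nat_lit 431) (nat_lit 292)) (XT.lf (nat_lit 0) (nat_lit 8906419116) (nat_lit 608) (nat_lit 4562373466) (nat_lit 76) (nat_lit 8613847848) (nat_lit 228) (nat_lit 5) (nat_lit 236) (nat_lit 5) (nat_lit 229) (nat_lit 5) (nat_lit 478) (nat_lit 431) (nat_lit 291)))))) (XT.nd (nat_lit 546) (nat_lit 2812) (nat_lit 0) (XT.nd (nat_lit 234) (nat_lit 1748) (nat_lit 0) (XT.nd (nat_lit 78) (nat_lit 988) (nat_lit 0) (XT.lf (nat_lit 0) (nat_lit 15616911321) (nat_lit 456) (nat_lit 386971791) (nat_lit 532) (nat_lit 6471375949) (nat_lit 222) (nat_lit 5) (nat_lit 228) (nat_lit 5) (nat_lit 229) (nat_lit 5) (nat_lit 479) (nat_lit 431) (nat_lit 290)) (XT.nd (nat_lit 78) (nat_lit 456) (nat_lit 0) (XT.lf (nat_lit 0) (nat_lit 622477937) (nat_lit 532) (nat_lit 9218751631) (nat_lit 76) (nat_lit 13034499222) (nat_lit 215) (nat_lit 5) (nat_lit 222) (nat_lit 5) (nat_lit 216)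 (nat_lit 5) (nat_lit 480) (nat_lit 431) (nat_lit 289)) (XT.lf (nat_lit 0) (nat_lit 7978837438) (nat_lit 532) (nat_lit 11625582890) (nat_lit 76) (nat_lit 3680184787) (nat_lit 209) (nat_lit 5) (nat_lit 216) (nat_lit 5) (nat_lit 210) (nat_lit 5) (nat_lit 481) (nat_lit 431) (nat_lit 288)))) (XT.nd (nat_lit 156) (nat_lit 912) (nat_lit 0) (XT.nd (nat_lit 78) (nat_lit 380) (nat_lit 0) (XT.lf (nat_lit 0) (nat_lit 9627234969) (nat_lit 456) (nat_lit 6107735491) (nat_lit 532) (nat_lit 7967195842) (nat_lit 203) (nat_lit 5) (nat_lit 209) (nat_lit 5) (nat_lit 210) (nat_lit 5) (nat_lit 482) (nat_lit 431) (nat_lit 287)) (XT.lf (nat_lit 0) (nat_lit 7576801214) (nat_lit 380) (nat_lit 16314168873) (nat_lit 456) (nat_lit 237940803) (nat_lit 198) (nat_lit 5) (nat_lit 203) (nat_lit 5) (nat_lit 204) (nat_lit 5) (nat_lit 483) (nat_lit 431) (nat_lit 286))) (XT.nd (nat_lit 78) (nat_lit 380) (nat_lit 0) (XT.lf (nat_lit 0) (nat_lit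 5466864689) (nat_lit 456) (nat_lit 2315626867) (nat_lit 532) (nat_lit 16781751773) (nat_lit 191) (nat_lit 5) (nat_lit 197) (nat_lit 5) (nat_lit 198) (nat_lit 5) (nat_lit 484) (nat_lit 431) (nat_lit 285)) (XT.lf (nat_lit 0) (nat_lit 3307730667) (nat_lit 380) (nat_lit 12933991071) (nat_lit 456) (nat_lit 8766854399) (nat_lit 186) (nat_lit 5) (nat_lit 191) (nat_lit 5) (nat_lit 192) (nat_lit 5) (nat_lit 485) (nat_lit 431) (nat_lit 284))))) (XT.nd (nat_lit 312) (nat_lit 1520) (nat_lit 0) (XT.nd (nat_lit 156) (nat_lit 836) (nat_lit 0) (XT.nd (nat_lit 78) (nat_lit 76) (nat_lit 0) (XT.lf (nat_lit 0) (nat_lit 1155348341) (nat_lit 380) (nat_lit 23950244091) (nat_lit 456) (nat_lit 357629421) (nat_lit 181) (nat_lit 5) (nat_lit 186) (nat_lit 5) (nat_lit 187) (nat_lit 5) (nat_lit 486) (nat_lit 431) (nat_lit 283)) (XT.lf (nat_lit 0) (nat_lit 8418260871) (nat_lit 456) (nat_lit 1092776099) (nat_lit 76) (nat_lit 16414925966)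 (nat_lit 180) (nat_lit 5) (nat_lit 186) (nat_lit 5) (nat_lit 181) (nat_lit 5) (nat_lit 487) (nat_lit 431) (nat_lit 282))) (XT.nd (nat_lit 78) (nat_lit 456) (nat_lit 0) (XT.lf (nat_lit 0) (nat_lit 17627478285) (nat_lit 456) (nat_lit 3332759790) (nat_lit 76) (nat_lit 5438802896) (nat_lit 175) (nat_lit 5) (nat_lit 181) (nat_lit 5) (nat_lit 176) (nat_lit 5) (nat_lit 488) (nat_lit 431) (nat_lit 281)) (XT.lf (nat_lit 0) (nat_lit 423486730) (nat_lit 456) (nat_lit 5607323466) (nat_lit 76) (nat_lit 20851475922) (nat_lit 169) (nat_lit 5) (nat_lit 175) (nat_lit 5) (nat_lit 170) (nat_lit 5) (nat_lit 489) (nat_lit 431) (nat_lit 280)))) (XT.nd (nat_lit 156) (nat_lit 760) (nat_lit 0) (XT.nd (nat_lit 78) (nat_lit 380) (nat_lit 0) (XT.lf (nat_lit 0) (nat_lit 9976457681) (nat_lit 456) (nat_lit 7971024602) (nat_lit 76) (nat_lit 9427362077) (nat_lit 164) (nat_lit 5) (nat_lit 170) (nat_lit 5) (nat_lit 165) (nat_lit 5) (nat_lit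 490) (nat_lit 431) (nat_lit 279)) (XT.lf (nat_lit 0) (nat_lit 17533720292) (nat_lit 380) (nat_lit 2464297000) (nat_lit 456) (nat_lit 7880522231) (nat_lit 159) (nat_lit 5) (nat_lit 164) (nat_lit 5) (nat_lit 165) (nat_lit 5) (nat_lit 491) (nat_lit 431) (nat_lit 278))) (XT.nd (nat_lit 78) (nat_lit 380) (nat_lit 0) (XT.lf (nat_lit 0) (nat_lit 2132256033) (nat_lit 380) (nat_lit 12789530066) (nat_lit 76) (nat_lit 13470617969) (nat_lit 154) (nat_lit 5) (nat_lit 159) (nat_lit 5) (nat_lit 155) (nat_lit 5) (nat_lit 492) (nat_lit 431) (nat_lit 277)) (XT.lf (nat_lit 0) (nat_lit 12511855126) (nat_lit 456) (nat_lit 15281168360) (nat_lit 76) (nat_lit 1124149353) (nat_lit 149) (nat_lit 5) (nat_lit 155) (nat_lit 5) (nat_lit 150) (nat_lit 5) (nat_lit 493) (nat_lit 431) (nat_lit 276))))))) (XT.nd (nat_lit 1170) (nat_lit 456) (nat_lit 0) (XT.nd (nat_lit 546) (nat_lit 2356) (nat_lit 0) (XT.nd (nat_lit 234) (nat_lit 1064)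 (nat_lit 0) (XT.nd (nat_lit 78) (nat_lit 760) (nat_lit 0) (XT.lf (nat_lit 0) (nat_lit 11609352938) (nat_lit 304) (nat_lit 11845917744) (nat_lit 380) (nat_lit 5997365566) (nat_lit 145) (nat_lit 5) (nat_lit 149) (nat_lit 5) (nat_lit 150) (nat_lit 5) (nat_lit 494) (nat_lit 431) (nat_lit 275)) (XT.nd (nat_lit 78) (nat_lit 304) (nat_lit 0) (XT.lf (nat_lit 0) (nat_lit 4848548596) (nat_lit 456) (nat_lit 20439128649) (nat_lit 76) (nat_lit 4712119897) (nat_lit 139) (nat_lit 5) (nat_lit 145) (nat_lit 5) (nat_lit 140) (nat_lit 5) (nat_lit 495) (nat_lit 431) (nat_lit 274)) (XT.lf (nat_lit 0) (nat_lit 7431634065) (nat_lit 304) (nat_lit 8746667864) (nat_lit 380) (nat_lit 14379479369) (nat_lit 135) (nat_lit 5) (nat_lit 139) (nat_lit 5) (nat_lit 140) (nat_lit 5) (nat_lit 496) (nat_lit 431) (nat_lit 273)))) (XT.nd (nat_lit 156) (nat_lit 380) (nat_lit 0) (XT.nd (nat_lit 78) (nat_lit 380) (nat_lit 0) (XT.lf (nat_lit 0)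 (nat_lit 5287531497) (nat_lit 304) (nat_lit 22778432651) (nat_lit 380) (nat_lit 3062180636) (nat_lit 131) (nat_lit 5) (nat_lit 135) (nat_lit 5) (nat_lit 136) (nat_lit 5) (nat_lit 497) (nat_lit 431) (nat_lit 272)) (XT.lf (nat_lit 0) (nat_lit 3067081427) (nat_lit 304) (nat_lit 5641545083) (nat_lit 380) (nat_lit 23001342553) (nat_lit 126) (nat_lit 5) (nat_lit 130) (nat_lit 5) (nat_lit 131) (nat_lit 5) (nat_lit 498) (nat_lit 431) (nat_lit 271))) (XT.nd (nat_lit 78) (nat_lit 76) (nat_lit 0) (XT.lf (nat_lit 0) (nat_lit 785262857) (nat_lit 304) (nat_lit 20255957316) (nat_lit 380) (nat_lit 11262617893) (nat_lit 122) (nat_lit 5) (nat_lit 126) (nat_lit 5) (nat_lit 127) (nat_lit 5) (nat_lit 499) (nat_lit 431) (nat_lit 270)) (XT.lf (nat_lit 0) (nat_lit 1041316542) (nat_lit 380) (nat_lit 1482974430) (nat_lit 76) (nat_lit 30386646511) (nat_lit 121) (nat_lit 5) (nat_lit 126) (nat_lit 5) (nat_lit 122) (nat_lit 5) (nat_lit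 500) (nat_lit 431) (nat_lit 269))))) (XT.nd (nat_lit 312) (nat_lit 1140) (nat_lit 0) (XT.nd (nat_lit 156) (nat_lit 608) (nat_lit 0) (XT.nd (nat_lit 78) (nat_lit 304) (nat_lit 0) (XT.lf (nat_lit 0) (nat_lit 13850410273) (nat_lit 380) (nat_lit 3881210245) (nat_lit 76) (nat_lit 15797359437) (nat_lit 117) (nat_lit 5) (nat_lit 122) (nat_lit 5) (nat_lit 118) (nat_lit 5) (nat_lit 501) (nat_lit 431) (nat_lit 268)) (XT.lf (nat_lit 0) (nat_lit 27247405085) (nat_lit 380) (nat_lit 6264213329) (nat_lit 76) (nat_lit 649872830) (nat_lit 113) (nat_lit 5) (nat_lit 118) (nat_lit 5) (nat_lit 114) (nat_lit 5) (nat_lit 502) (nat_lit 431) (nat_lit 267))) (XT.nd (nat_lit 78) (nat_lit 304) (nat_lit 0) (XT.lf (nat_lit 0) (nat_lit 6459301713) (nat_lit 304) (nat_lit 8770911042) (nat_lit 76) (nat_lit 19575801380) (nat_lit 109) (nat_lit 5) (nat_lit 113) (nat_lit 5) (nat_lit 110) (nat_lit 5) (nat_lit 503) (nat_lit 431) (nat_lit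 266)) (XT.lf (nat_lit 0) (nat_lit 20356577340) (nat_lit 380) (nat_lit 11313904041) (nat_lit 76) (nat_lit 3794144960) (nat_lit 105) (nat_lit 5) (nat_lit 110) (nat_lit 5) (nat_lit 106) (nat_lit 5) (nat_lit 504) (nat_lit 431) (nat_lit 265)))) (XT.nd (nat_lit 156) (nat_lit 532) (nat_lit 0) (XT.nd (nat_lit 78) (nat_lit 380) (nat_lit 0) (XT.lf (nat_lit 0) (nat_lit 22212946606) (nat_lit 228) (nat_lit 12755271524) (nat_lit 304) (nat_lit 1168829945) (nat_lit 102) (nat_lit 5) (nat_lit 105) (nat_lit 5) (nat_lit 106) (nat_lit 5) (nat_lit 505) (nat_lit 431) (nat_lit 264)) (XT.lf (nat_lit 0) (nat_lit 13261398397) (nat_lit 380) (nat_lit 16632141129) (nat_lit 76) (nat_lit 6929474386) (nat_lit 97) (nat_lit 5) (nat_lit 102) (nat_lit 5) (nat_lit 98) (nat_lit 5) (nat_lit 506) (nat_lit 431) (nat_lit 263))) (XT.nd (nat_lit 78) (nat_lit 304) (nat_lit 0) (XT.lf (nat_lit 0) (nat_lit 18121989691) (nat_lit 228) (nat_lit 10276453741)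 (nat_lit 304) (nat_lit 9125165070) (nat_lit 94) (nat_lit 5) (nat_lit 97) (nat_lit 5) (nat_lit 98) (nat_lit 5) (nat_lit 507) (nat_lit 431) (nat_lit 262)) (XT.lf (nat_lit 0) (nat_lit 5944749787) (nat_lit 304) (nat_lit 22244386485) (nat_lit 76) (nat_lit 10049824628) (nat_lit 90) (nat_lit 5) (nat_lit 94) (nat_lit 5) (nat_lit 91) (nat_lit 5) (nat_lit 508) (nat_lit 431) (nat_lit 261)))))) (XT.nd (nat_lit 56862) (nat_lit 0) (nat_lit 32376) (XT.nd (nat_lit 56550) (nat_lit 0) (nat_lit 33820) (XT.nd (nat_lit 78) (nat_lit 228) (nat_lit 0) (XT.lf (nat_lit 0) (nat_lit 13781272488) (nat_lit 228) (nat_lit 7844729286) (nat_lit 304) (nat_lit 17342901534) (nat_lit 87) (nat_lit 5) (nat_lit 90) (nat_lit 5) (nat_lit 91) (nat_lit 5) (nat_lit 509) (nat_lit 431) (nat_lit 260)) (XT.nd (nat_lit 56394) (nat_lit 0) (nat_lit 33820) (XT.lf (nat_lit 0) (nat_lit 11525671840) (nat_lit 228) (nat_lit 26555776800) (nat_lit 304) (nat_lit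 1633220285) (nat_lit 84) (nat_lit 5) (nat_lit 87) (nat_lit 5) (nat_lit 88) (nat_lit 5) (nat_lit 510) (nat_lit 431) (nat_lit 259)) (XT.lf (nat_lit 0) (nat_lit 1940700739) (nat_lit 1748) (nat_lit 1744061004) (nat_lit 1748) (nat_lit 1744061004) (nat_lit 529) (nat_lit 3) (nat_lit 552) (nat_lit 3) (nat_lit 552) (nat_lit 5) (nat_lit 432) (nat_lit 432) (nat_lit 336)))) (XT.nd (nat_lit 156) (nat_lit 0) (nat_lit 152) (XT.nd (nat_lit 78) (nat_lit 0) (nat_lit 76) (XT.lf (nat_lit 76) (nat_lit 4682200907) (nat_lit 0) (nat_lit 168524828) (nat_lit 1748) (nat_lit 6151534093) (nat_lit 530) (nat_lit 5) (nat_lit 529) (nat_lit 3) (nat_lit 552) (nat_lit 5) (nat_lit 433) (nat_lit 432) (nat_lit 335)) (XT.lf (nat_lit 76) (nat_lit 1954492161) (nat_lit 0) (nat_lit 3943804528) (nat_lit 1748) (nat_lit 5251933665) (nat_lit 531) (nat_lit 5) (nat_lit 530) (nat_lit 5) (nat_lit 553) (nat_lit 5) (nat_lit 434) (nat_lit 432) (nat_lit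 334))) (XT.nd (nat_lit 78) (nat_lit 0) (nat_lit 0) (XT.lf (nat_lit 0) (nat_lit 7010837753) (nat_lit 1672) (nat_lit 781137551) (nat_lit 1748) (nat_lit 3509994905) (nat_lit 531) (nat_lit 5) (nat_lit 553) (nat_lit 5) (nat_lit 554) (nat_lit 5) (nat_lit 435) (nat_lit 432) (nat_lit 333)) (XT.lf (nat_lit 76) (nat_lit 7945253796) (nat_lit 0) (nat_lit 257037310) (nat_lit 1748) (nat_lit 3255061472) (nat_lit 532) (nat_lit 5) (nat_lit 531) (nat_lit 5) (nat_lit 554) (nat_lit 5) (nat_lit 436) (nat_lit 432) (nat_lit 332))))) (XT.nd (nat_lit 312) (nat_lit 0) (nat_lit 152) (XT.nd (nat_lit 156) (nat_lit 1672) (nat_lit 0) (XT.nd (nat_lit 78) (nat_lit 0) (nat_lit 76) (XT.lf (nat_lit 76) (nat_lit 5329077701) (nat_lit 0) (nat_lit 4157548899) (nat_lit 1748) (nat_lit 2129628058) (nat_lit 533) (nat_lit 5) (nat_lit 532) (nat_lit 5) (nat_lit 555) (nat_lit 5) (nat_lit 437) (nat_lit 432) (nat_lit 331)) (XT.lf (nat_lit 76) (nat_lit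 2694788777) (nat_lit 0) (nat_lit 8150749547) (nat_lit 1748) (nat_lit 933665534) (nat_lit 534) (nat_lit 5) (nat_lit 533) (nat_lit 5) (nat_lit 556) (nat_lit 5) (nat_lit 438) (nat_lit 432) (nat_lit 330))) (XT.nd (nat_lit 78) (nat_lit 0) (nat_lit 76) (XT.lf (nat_lit 76) (nat_lit 37177942) (nat_lit 0) (nat_lit 297953967) (nat_lit 1824) (nat_lit 11611054506) (nat_lit 511) (nat_lit 5) (nat_lit 510) (nat_lit 5) (nat_lit 534) (nat_lit 5) (nat_lit 439) (nat_lit 432) (nat_lit 329)) (XT.lf (nat_lit 0) (nat_lit 1712682255) (nat_lit 1748) (nat_lit 2637123245) (nat_lit 1824) (nat_lit 7766582949) (nat_lit 511) (nat_lit 5) (nat_lit 534) (nat_lit 5) (nat_lit 535) (nat_lit 5) (nat_lit 440) (nat_lit 432) (nat_lit 328)))) (XT.nd (nat_lit 156) (nat_lit 0) (nat_lit 76) (XT.nd (nat_lit 78) (nat_lit 0) (nat_lit 0) (XT.lf (nat_lit 0) (nat_lit 3175384153) (nat_lit 1748) (nat_lit 5332827386) (nat_lit 1824) (nat_lit 3782609383)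 (nat_lit 512) (nat_lit 5) (nat_lit 535) (nat_lit 5) (nat_lit 536) (nat_lit 5) (nat_lit 441) (nat_lit 432) (nat_lit 327)) (XT.lf (nat_lit 76) (nat_lit 4416205023) (nat_lit 0) (nat_lit 313880913) (nat_lit 1824) (nat_lit 7739438912) (nat_lit 513) (nat_lit 5) (nat_lit 512) (nat_lit 5) (nat_lit 536) (nat_lit 5) (nat_lit 442) (nat_lit 432) (nat_lit 326))) (XT.nd (nat_lit 78) (nat_lit 0) (nat_lit 76) (XT.lf (nat_lit 76) (nat_lit 1829112075) (nat_lit 0) (nat_lit 4576429895) (nat_lit 1824) (nat_lit 6246566486) (nat_lit 514) (nat_lit 5) (nat_lit 513) (nat_lit 5) (nat_lit 537) (nat_lit 5) (nat_lit 443) (nat_lit 432) (nat_lit 325)) (XT.lf (nat_lit 0) (nat_lit 8187225283) (nat_lit 1748) (nat_lit 768380515) (nat_lit 1824) (nat_lit 3883445308) (nat_lit 514) (nat_lit 5) (nat_lit 537) (nat_lit 5) (nat_lit 538) (nat_lit 5) (nat_lit 444) (nat_lit 432) (nat_lit 324))))))))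
noncomputable def xc78 : XT := (XT.nd (nat_lit 2262) (nat_lit 11552) (nat_lit 0) (XT.nd (nat_lit 1092) (nat_lit 8968) (nat_lit 0) (XT.nd (nat_lit 546) (nat_lit 5396) (nat_lit 0) (XT.nd (nat_lit 234) (nat_lit 2888) (nat_lit 0) (XT.nd (nat_lit 78) (nat_lit 1672) (nat_lit 0) (XT.lf (nat_lit 76) (nat_lit 9664639539) (nat_lit 0) (nat_lit 425638457) (nat_lit 1824) (nat_lit 2939966443) (nat_lit 515) (nat_lit 5) (nat_lit 514) (nat_lit 5) (nat_lit 538) (nat_lit 5) (nat_lit 445) (nat_lit 432) (nat_lit 323)) (XT.nd (nat_lit 78) (nat_lit 1748) (nat_lit 0) (XT.lf (nat_lit 76) (nat_lit 7214804164) (nat_lit 0) (nat_lit 4917202219) (nat_lit 1824) (nat_lit 1093536267) (nat_lit 516) (nat_lit 5) (nat_lit 515) (nat_lit 5) (nat_lit 539) (nat_lit 5) (nat_lit 446) (nat_lit 432) (nat_lit 322)) (XT.lf (nat_lit 0) (nat_lit 855657950) (nat_lit 1824) (nat_lit 8684391519) (nat_lit 1900) (nat_lit 3885386662) (nat_lit 492) (nat_lit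 5) (nat_lit 516) (nat_lit 5) (nat_lit 517) (nat_lit 5) (nat_lit 447) (nat_lit 432) (nat_lit 321)))) (XT.nd (nat_lit 156) (nat_lit 2888) (nat_lit 0) (XT.nd (nat_lit 78) (nat_lit 0) (nat_lit 76) (XT.lf (nat_lit 76) (nat_lit 2236211280) (nat_lit 0) (nat_lit 677015306) (nat_lit 1900) (nat_lit 10716660858) (nat_lit 493) (nat_lit 5) (nat_lit 492) (nat_lit 5) (nat_lit 517) (nat_lit 5) (nat_lit 448) (nat_lit 432) (nat_lit 320)) (XT.lf (nat_lit 0) (nat_lit 5123492240) (nat_lit 1824) (nat_lit 311217964) (nat_lit 76) (nat_lit 8403943374) (nat_lit 493) (nat_lit 5) (nat_lit 517) (nat_lit 5) (nat_lit 494) (nat_lit 5) (nat_lit 449) (nat_lit 432) (nat_lit 319))) (XT.nd (nat_lit 78) (nat_lit 1140) (nat_lit 0) (XT.lf (nat_lit 0) (nat_lit 7479508081) (nat_lit 1900) (nat_lit 2850025148) (nat_lit 76) (nat_lit 3722561284) (nat_lit 469) (nat_lit 5) (nat_lit 494) (nat_lit 5) (nat_lit 470) (nat_lit 5) (nat_lit 450) (nat_lit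 432) (nat_lit 318)) (XT.lf (nat_lit 0) (nat_lit 8853348636) (nat_lit 1140) (nat_lit 1126884786) (nat_lit 1216) (nat_lit 4290225314) (nat_lit 454) (nat_lit 5) (nat_lit 469) (nat_lit 5) (nat_lit 470) (nat_lit 5) (nat_lit 451) (nat_lit 432) (nat_lit 317))))) (XT.nd (nat_lit 234) (nat_lit 2660) (nat_lit 0) (XT.nd (nat_lit 78) (nat_lit 1824) (nat_lit 0) (XT.lf (nat_lit 0) (nat_lit 6462600755) (nat_lit 912) (nat_lit 6187613558) (nat_lit 988) (nat_lit 1843275522) (nat_lit 442) (nat_lit 5) (nat_lit 454) (nat_lit 5) (nat_lit 455) (nat_lit 5) (nat_lit 452) (nat_lit 432) (nat_lit 316)) (XT.nd (nat_lit 78) (nat_lit 836) (nat_lit 0) (XT.lf (nat_lit 0) (nat_lit 739870234) (nat_lit 988) (nat_lit 10671909879) (nat_lit 76) (nat_lit 3309911075) (nat_lit 429) (nat_lit 5) (nat_lit 442) (nat_lit 5) (nat_lit 430) (nat_lit 5) (nat_lit 453) (nat_lit 432) (nat_lit 315)) (XT.lf (nat_lit 0) (nat_lit 1594278309) (nat_lit 836)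 (nat_lit 1867304656) (nat_lit 912) (nat_lit 11493190201) (nat_lit 418) (nat_lit 5) (nat_lit 429) (nat_lit 5) (nat_lit 430) (nat_lit 5) (nat_lit 454) (nat_lit 432) (nat_lit 314)))) (XT.nd (nat_lit 156) (nat_lit 1748) (nat_lit 0) (XT.nd (nat_lit 78) (nat_lit 912) (nat_lit 0) (XT.lf (nat_lit 0) (nat_lit 6369385290) (nat_lit 912) (nat_lit 890854144) (nat_lit 76) (nat_lit 7932519965) (nat_lit 418) (nat_lit 5) (nat_lit 430) (nat_lit 5) (nat_lit 419) (nat_lit 5) (nat_lit 455) (nat_lit 432) (nat_lit 313)) (XT.lf (nat_lit 0) (nat_lit 9453025754) (nat_lit 988) (nat_lit 3374031334) (nat_lit 76) (nat_lit 2609056592) (nat_lit 406) (nat_lit 5) (nat_lit 419) (nat_lit 5) (nat_lit 407) (nat_lit 5) (nat_lit 456) (nat_lit 432) (nat_lit 312))) (XT.nd (nat_lit 78) (nat_lit 912) (nat_lit 0) (XT.lf (nat_lit 0) (nat_lit 9789660078) (nat_lit 836) (nat_lit 2938673747) (nat_lit 912) (nat_lit 2956452124) (nat_lit 395) (nat_lit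 5) (nat_lit 406) (nat_lit 5) (nat_lit 407) (nat_lit 5) (nat_lit 457) (nat_lit 432) (nat_lit 311)) (XT.lf (nat_lit 0) (nat_lit 259595148) (nat_lit 912) (nat_lit 8455015534) (nat_lit 76) (nat_lit 7224272826) (nat_lit 383) (nat_lit 5) (nat_lit 395) (nat_lit 5) (nat_lit 384) (nat_lit 5) (nat_lit 458) (nat_lit 432) (nat_lit 310)))))) (XT.nd (nat_lit 546) (nat_lit 4484) (nat_lit 0) (XT.nd (nat_lit 234) (nat_lit 2204) (nat_lit 0) (XT.nd (nat_lit 78) (nat_lit 1520) (nat_lit 0) (XT.lf (nat_lit 0) (nat_lit 3617247110) (nat_lit 836) (nat_lit 11055006147) (nat_lit 76) (nat_lit 1526254585) (nat_lit 373) (nat_lit 5) (nat_lit 384) (nat_lit 5) (nat_lit 374) (nat_lit 5) (nat_lit 459) (nat_lit 432) (nat_lit 309)) (XT.nd (nat_lit 78) (nat_lit 760) (nat_lit 0) (XT.lf (nat_lit 0) (nat_lit 2759142402) (nat_lit 760) (nat_lit 4432449458) (nat_lit 836) (nat_lit 9272010254) (nat_lit 363) (nat_lit 5) (nat_lit 373) (nat_lit 5)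 (nat_lit 374) (nat_lit 5) (nat_lit 460) (nat_lit 432) (nat_lit 308)) (XT.lf (nat_lit 0) (nat_lit 348920726) (nat_lit 760) (nat_lit 10624105265) (nat_lit 836) (nat_lit 5761626502) (nat_lit 353) (nat_lit 5) (nat_lit 363) (nat_lit 5) (nat_lit 364) (nat_lit 5) (nat_lit 461) (nat_lit 432) (nat_lit 307)))) (XT.nd (nat_lit 156) (nat_lit 1368) (nat_lit 0) (XT.nd (nat_lit 78) (nat_lit 836) (nat_lit 0) (XT.lf (nat_lit 0) (nat_lit 14962422861) (nat_lit 760) (nat_lit 10664918) (nat_lit 836) (nat_lit 2038643357) (nat_lit 353) (nat_lit 5) (nat_lit 363) (nat_lit 5) (nat_lit 364) (nat_lit 5) (nat_lit 462) (nat_lit 432) (nat_lit 306)) (XT.lf (nat_lit 0) (nat_lit 1910725364) (nat_lit 836) (nat_lit 4511632560) (nat_lit 76) (nat_lit 10871766391) (nat_lit 342) (nat_lit 5) (nat_lit 353) (nat_lit 5) (nat_lit 343) (nat_lit 5) (nat_lit 463) (nat_lit 432) (nat_lit 305))) (XT.nd (nat_lit 78) (nat_lit 684) (nat_lit 0) (XT.lf (nat_lit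 0) (nat_lit 6047395332) (nat_lit 760) (nat_lit 7003979986) (nat_lit 76) (nat_lit 4531414528) (nat_lit 333) (nat_lit 5) (nat_lit 343) (nat_lit 5) (nat_lit 334) (nat_lit 5) (nat_lit 464) (nat_lit 432) (nat_lit 304)) (XT.lf (nat_lit 0) (nat_lit 8351887955) (nat_lit 684) (nat_lit 2068184948) (nat_lit 760) (nat_lit 7457804691) (nat_lit 324) (nat_lit 5) (nat_lit 333) (nat_lit 5) (nat_lit 334) (nat_lit 5) (nat_lit 465) (nat_lit 432) (nat_lit 303))))) (XT.nd (nat_lit 312) (nat_lit 2432) (nat_lit 0) (XT.nd (nat_lit 156) (nat_lit 608) (nat_lit 0) (XT.nd (nat_lit 78) (nat_lit 760) (nat_lit 0) (XT.lf (nat_lit 0) (nat_lit 6084186666) (nat_lit 684) (nat_lit 8971331359) (nat_lit 760) (nat_lit 3123668592) (nat_lit 315) (nat_lit 5) (nat_lit 324) (nat_lit 5) (nat_lit 325) (nat_lit 5) (nat_lit 466) (nat_lit 432) (nat_lit 302)) (XT.lf (nat_lit 0) (nat_lit 1426599188) (nat_lit 760) (nat_lit 14689939055) (nat_lit 76) (nat_lit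 2370749202) (nat_lit 305) (nat_lit 5) (nat_lit 315) (nat_lit 5) (nat_lit 306) (nat_lit 5) (nat_lit 467) (nat_lit 432) (nat_lit 301))) (XT.nd (nat_lit 78) (nat_lit 0) (nat_lit 0) (XT.lf (nat_lit 0) (nat_lit 1448005928) (nat_lit 608) (nat_lit 4759906617) (nat_lit 684) (nat_lit 12593566646) (nat_lit 297) (nat_lit 5) (nat_lit 305) (nat_lit 5) (nat_lit 306) (nat_lit 5) (nat_lit 468) (nat_lit 432) (nat_lit 300)) (XT.lf (nat_lit 0) (nat_lit 11263046165) (nat_lit 684) (nat_lit 916203998) (nat_lit 76) (nat_lit 6943239255) (nat_lit 297) (nat_lit 5) (nat_lit 306) (nat_lit 5) (nat_lit 298) (nat_lit 5) (nat_lit 469) (nat_lit 432) (nat_lit 299)))) (XT.nd (nat_lit 156) (nat_lit 1140) (nat_lit 0) (XT.nd (nat_lit 78) (nat_lit 684) (nat_lit 0) (XT.lf (nat_lit 0) (nat_lit 16176485898) (nat_lit 608) (nat_lit 415776530) (nat_lit 684) (nat_lit 2858419290) (nat_lit 289) (nat_lit 5) (nat_lit 297) (nat_lit 5) (nat_lit 298)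 (nat_lit 5) (nat_lit 470) (nat_lit 432) (nat_lit 298)) (XT.lf (nat_lit 0) (nat_lit 2423217357) (nat_lit 684) (nat_lit 5704686165) (nat_lit 76) (nat_lit 11657305875) (nat_lit 280) (nat_lit 5) (nat_lit 289) (nat_lit 5) (nat_lit 281) (nat_lit 5) (nat_lit 471) (nat_lit 432) (nat_lit 297))) (XT.nd (nat_lit 78) (nat_lit 532) (nat_lit 0) (XT.lf (nat_lit 0) (nat_lit 7940155619) (nat_lit 684) (nat_lit 8165389230) (nat_lit 76) (nat_lit 4021536742) (nat_lit 272) (nat_lit 5) (nat_lit 281) (nat_lit 5) (nat_lit 273) (nat_lit 5) (nat_lit 472) (nat_lit 432) (nat_lit 296)) (XT.lf (nat_lit 0) (nat_lit 9813971402) (nat_lit 532) (nat_lit 3951938942) (nat_lit 608) (nat_lit 6710433744) (nat_lit 265) (nat_lit 5) (nat_lit 272) (nat_lit 5) (nat_lit 273) (nat_lit 5) (nat_lit 473) (nat_lit 432) (nat_lit 295))))))) (XT.nd (nat_lit 1170) (nat_lit 5092) (nat_lit 0) (XT.nd (nat_lit 546) (nat_lit 3192) (nat_lit 0) (XT.nd (nat_lit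 234) (nat_lit 1520) (nat_lit 0) (XT.nd (nat_lit 78) (nat_lit 1140) (nat_lit 0) (XT.lf (nat_lit 0) (nat_lit 7635872138) (nat_lit 608) (nat_lit 12278037631) (nat_lit 684) (nat_lit 919225546) (nat_lit 257) (nat_lit 5) (nat_lit 265) (nat_lit 5) (nat_lit 266) (nat_lit 5) (nat_lit 474) (nat_lit 432) (nat_lit 294)) (XT.nd (nat_lit 78) (nat_lit 532) (nat_lit 0) (XT.lf (nat_lit 0) (nat_lit 5102781377) (nat_lit 608) (nat_lit 15776038163) (nat_lit 76) (nat_lit 318691054) (nat_lit 249) (nat_lit 5) (nat_lit 257) (nat_lit 5) (nat_lit 250) (nat_lit 5) (nat_lit 475) (nat_lit 432) (nat_lit 293)) (XT.lf (nat_lit 0) (nat_lit 3143137697) (nat_lit 532) (nat_lit 8329443237) (nat_lit 608) (nat_lit 10096522527) (nat_lit 242) (nat_lit 5) (nat_lit 249) (nat_lit 5) (nat_lit 250) (nat_lit 5) (nat_lit 476) (nat_lit 432) (nat_lit 292)))) (XT.nd (nat_lit 156) (nat_lit 988) (nat_lit 0) (XT.nd (nat_lit 78) (nat_lit 76) (nat_lit 0)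 (XT.lf (nat_lit 0) (nat_lit 859282921) (nat_lit 456) (nat_lit 17304473492) (nat_lit 532) (nat_lit 3785482327) (nat_lit 236) (nat_lit 5) (nat_lit 242) (nat_lit 5) (nat_lit 243) (nat_lit 5) (nat_lit 477) (nat_lit 432) (nat_lit 291)) (XT.lf (nat_lit 0) (nat_lit 2848097326) (nat_lit 532) (nat_lit 1454576604) (nat_lit 76) (nat_lit 18034375571) (nat_lit 235) (nat_lit 5) (nat_lit 242) (nat_lit 5) (nat_lit 236) (nat_lit 5) (nat_lit 478) (nat_lit 432) (nat_lit 290))) (XT.nd (nat_lit 78) (nat_lit 456) (nat_lit 0) (XT.lf (nat_lit 0) (nat_lit 9800512561) (nat_lit 608) (nat_lit 3817243308) (nat_lit 76) (nat_lit 9114813360) (nat_lit 228) (nat_lit 5) (nat_lit 236) (nat_lit 5) (nat_lit 229) (nat_lit 5) (nat_lit 479) (nat_lit 432) (nat_lit 289)) (XT.lf (nat_lit 0) (nat_lit 16953110599) (nat_lit 456) (nat_lit 145164261) (nat_lit 532) (nat_lit 6038944432) (nat_lit 222) (nat_lit 5) (nat_lit 228) (nat_lit 5) (nat_lit 229)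 (nat_lit 5) (nat_lit 480) (nat_lit 432) (nat_lit 288))))) (XT.nd (nat_lit 312) (nat_lit 1292) (nat_lit 0) (XT.nd (nat_lit 156) (nat_lit 912) (nat_lit 0) (XT.nd (nat_lit 78) (nat_lit 456) (nat_lit 0) (XT.lf (nat_lit 0) (nat_lit 1248752541) (nat_lit 532) (nat_lit 8623133997) (nat_lit 76) (nat_lit 13677950655) (nat_lit 215) (nat_lit 5) (nat_lit 222) (nat_lit 5) (nat_lit 216) (nat_lit 5) (nat_lit 481) (nat_lit 432) (nat_lit 287)) (XT.lf (nat_lit 0) (nat_lit 8815381321) (nat_lit 532) (nat_lit 11106104364) (nat_lit 76) (nat_lit 4049702886) (nat_lit 209) (nat_lit 5) (nat_lit 216) (nat_lit 5) (nat_lit 210) (nat_lit 5) (nat_lit 482) (nat_lit 432) (nat_lit 286))) (XT.nd (nat_lit 78) (nat_lit 456) (nat_lit 0) (XT.lf (nat_lit 0) (nat_lit 10770211770) (nat_lit 456) (nat_lit 6022138778) (nat_lit 532) (nat_lit 7609163324) (nat_lit 203) (nat_lit 5) (nat_lit 209) (nat_lit 5) (nat_lit 210) (nat_lit 5) (nat_lit 483) (nat_lit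 432) (nat_lit 285)) (XT.lf (nat_lit 0) (nat_lit 337453380) (nat_lit 456) (nat_lit 16189260395) (nat_lit 76) (nat_lit 8314499626) (nat_lit 197) (nat_lit 5) (nat_lit 203) (nat_lit 5) (nat_lit 198) (nat_lit 5) (nat_lit 484) (nat_lit 432) (nat_lit 284)))) (XT.nd (nat_lit 156) (nat_lit 456) (nat_lit 0) (XT.nd (nat_lit 78) (nat_lit 380) (nat_lit 0) (XT.lf (nat_lit 0) (nat_lit 6474774854) (nat_lit 456) (nat_lit 2109115443) (nat_lit 532) (nat_lit 16705911873) (nat_lit 191) (nat_lit 5) (nat_lit 197) (nat_lit 5) (nat_lit 198) (nat_lit 5) (nat_lit 485) (nat_lit 432) (nat_lit 283)) (XT.lf (nat_lit 0) (nat_lit 4246596711) (nat_lit 380) (nat_lit 13040950316) (nat_lit 456) (nat_lit 8460105232) (nat_lit 186) (nat_lit 5) (nat_lit 191) (nat_lit 5) (nat_lit 192) (nat_lit 5) (nat_lit 486) (nat_lit 432) (nat_lit 282))) (XT.nd (nat_lit 78) (nat_lit 0) (nat_lit 0) (XT.lf (nat_lit 0) (nat_lit 189620093) (nat_lit 456) (nat_lit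 24192141241) (nat_lit 76) (nat_lit 1834332840) (nat_lit 180) (nat_lit 5) (nat_lit 186) (nat_lit 5) (nat_lit 181) (nat_lit 5) (nat_lit 487) (nat_lit 432) (nat_lit 281)) (XT.lf (nat_lit 0) (nat_lit 9207844922) (nat_lit 456) (nat_lit 307523604) (nat_lit 76) (nat_lit 17177623621) (nat_lit 180) (nat_lit 5) (nat_lit 186) (nat_lit 5) (nat_lit 181) (nat_lit 5) (nat_lit 488) (nat_lit 432) (nat_lit 280)))))) (XT.nd (nat_lit 546) (nat_lit 2432) (nat_lit 0) (XT.nd (nat_lit 234) (nat_lit 1444) (nat_lit 0) (XT.nd (nat_lit 78) (nat_lit 836) (nat_lit 0) (XT.lf (nat_lit 0) (nat_lit 18684727990) (nat_lit 456) (nat_lit 2619243283) (nat_lit 76) (nat_lit 5876463729) (nat_lit 175) (nat_lit 5) (nat_lit 181) (nat_lit 5) (nat_lit 176) (nat_lit 5) (nat_lit 489) (nat_lit 432) (nat_lit 279)) (XT.nd (nat_lit 78) (nat_lit 380) (nat_lit 0) (XT.lf (nat_lit 0) (nat_lit 957862062) (nat_lit 456) (nat_lit 4968300924) (nat_lit 76) (nat_lit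 21752150026) (nat_lit 169) (nat_lit 5) (nat_lit 175) (nat_lit 5) (nat_lit 170) (nat_lit 5) (nat_lit 490) (nat_lit 432) (nat_lit 278)) (XT.lf (nat_lit 0) (nat_lit 10789218232) (nat_lit 456) (nat_lit 7407603220) (nat_lit 76) (nat_lit 9988990870) (nat_lit 164) (nat_lit 5) (nat_lit 170) (nat_lit 5) (nat_lit 165) (nat_lit 5) (nat_lit 491) (nat_lit 432) (nat_lit 277)))) (XT.nd (nat_lit 156) (nat_lit 684) (nat_lit 0) (XT.nd (nat_lit 78) (nat_lit 380) (nat_lit 0) (XT.lf (nat_lit 0) (nat_lit 18849263566) (nat_lit 380) (nat_lit 2252331885) (nat_lit 456) (nat_lit 7603219707) (nat_lit 159) (nat_lit 5) (nat_lit 164) (nat_lit 5) (nat_lit 165) (nat_lit 5) (nat_lit 492) (nat_lit 432) (nat_lit 276)) (XT.lf (nat_lit 0) (nat_lit 2695381330) (nat_lit 380) (nat_lit 12381761643) (nat_lit 76) (nat_lit 14157042643) (nat_lit 154) (nat_lit 5) (nat_lit 159) (nat_lit 5) (nat_lit 155) (nat_lit 5) (nat_lit 493) (nat_lit 432) (nat_lit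 275))) (XT.nd (nat_lit 78) (nat_lit 304) (nat_lit 0) (XT.lf (nat_lit 0) (nat_lit 13378761089) (nat_lit 456) (nat_lit 14953064785) (nat_lit 76) (nat_lit 1443023937) (nat_lit 149) (nat_lit 5) (nat_lit 155) (nat_lit 5) (nat_lit 150) (nat_lit 5) (nat_lit 494) (nat_lit 432) (nat_lit 274)) (XT.lf (nat_lit 0) (nat_lit 12731411497) (nat_lit 304) (nat_lit 11909774496) (nat_lit 380) (nat_lit 5685377202) (nat_lit 145) (nat_lit 5) (nat_lit 149) (nat_lit 5) (nat_lit 150) (nat_lit 5) (nat_lit 495) (nat_lit 432) (nat_lit 273))))) (XT.nd (nat_lit 312) (nat_lit 988) (nat_lit 0) (XT.nd (nat_lit 156) (nat_lit 684) (nat_lit 0) (XT.nd (nat_lit 78) (nat_lit 304) (nat_lit 0) (XT.lf (nat_lit 0) (nat_lit 5472198138) (nat_lit 456) (nat_lit 20277083064) (nat_lit 76) (nat_lit 5140939333) (nat_lit 139) (nat_lit 5) (nat_lit 145) (nat_lit 5) (nat_lit 140) (nat_lit 5) (nat_lit 496) (nat_lit 432) (nat_lit 272)) (XT.lf (nat_lit 0) (nat_lit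 8417225517) (nat_lit 304) (nat_lit 8715642180) (nat_lit 380) (nat_lit 14332256239) (nat_lit 135) (nat_lit 5) (nat_lit 139) (nat_lit 5) (nat_lit 140) (nat_lit 5) (nat_lit 497) (nat_lit 432) (nat_lit 271))) (XT.nd (nat_lit 78) (nat_lit 380) (nat_lit 0) (XT.lf (nat_lit 0) (nat_lit 6203791144) (nat_lit 304) (nat_lit 23166470819) (nat_lit 380) (nat_lit 2682474508) (nat_lit 131) (nat_lit 5) (nat_lit 135) (nat_lit 5) (nat_lit 136) (nat_lit 5) (nat_lit 498) (nat_lit 432) (nat_lit 270)) (XT.lf (nat_lit 0) (nat_lit 3910526326) (nat_lit 304) (nat_lit 5516069623) (nat_lit 380) (nat_lit 23225531998) (nat_lit 126) (nat_lit 5) (nat_lit 130) (nat_lit 5) (nat_lit 131) (nat_lit 5) (nat_lit 499) (nat_lit 432) (nat_lit 269)))) (XT.nd (nat_lit 156) (nat_lit 608) (nat_lit 0) (XT.nd (nat_lit 78) (nat_lit 76) (nat_lit 0) (XT.lf (nat_lit 0) (nat_lit 1555171515) (nat_lit 304) (nat_lit 20567397255) (nat_lit 380) (nat_lit 11141376397)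 (nat_lit 122) (nat_lit 5) (nat_lit 126) (nat_lit 5) (nat_lit 127) (nat_lit 5) (nat_lit 500) (nat_lit 432) (nat_lit 268)) (XT.lf (nat_lit 0) (nat_lit 1512457583) (nat_lit 380) (nat_lit 796999681) (nat_lit 76) (nat_lit 31580004791) (nat_lit 121) (nat_lit 5) (nat_lit 126) (nat_lit 5) (nat_lit 122) (nat_lit 5) (nat_lit 501) (nat_lit 432) (nat_lit 267))) (XT.nd (nat_lit 78) (nat_lit 304) (nat_lit 0) (XT.lf (nat_lit 0) (nat_lit 14699539648) (nat_lit 380) (nat_lit 3272255502) (nat_lit 76) (nat_lit 16554376501) (nat_lit 117) (nat_lit 5) (nat_lit 122) (nat_lit 5) (nat_lit 118) (nat_lit 5) (nat_lit 502) (nat_lit 432) (nat_lit 266)) (XT.lf (nat_lit 0) (nat_lit 28492317889) (nat_lit 380) (nat_lit 5731869566) (nat_lit 76) (nat_lit 953593509) (nat_lit 113) (nat_lit 5) (nat_lit 118) (nat_lit 5) (nat_lit 114) (nat_lit 5) (nat_lit 503) (nat_lit 432) (nat_lit 265))))))))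
noncomputable def xc79 : XT := (XT.nd (nat_lit 58656) (nat_lit 0) (nat_lit 8816) (XT.nd (nat_lit 57486) (nat_lit 0) (nat_lit 25992) (XT.nd (nat_lit 56940) (nat_lit 0) (nat_lit 32148) (XT.nd (nat_lit 234) (nat_lit 1140) (nat_lit 0) (XT.nd (nat_lit 78) (nat_lit 532) (nat_lit 0) (XT.lf (nat_lit 0) (nat_lit 7075504894) (nat_lit 304) (nat_lit 8319834989) (nat_lit 76) (nat_lit 20446401239) (nat_lit 109) (nat_lit 5) (nat_lit 113) (nat_lit 5) (nat_lit 110) (nat_lit 5) (nat_lit 504) (nat_lit 432) (nat_lit 264)) (XT.nd (nat_lit 78) (nat_lit 228) (nat_lit 0) (XT.lf (nat_lit 0) (nat_lit 21383826483) (nat_lit 380) (nat_lit 10944275880) (nat_lit 76) (nat_lit 4192126922) (nat_lit 105) (nat_lit 5) (nat_lit 110) (nat_lit 5) (nat_lit 106) (nat_lit 5) (nat_lit 505) (nat_lit 432) (nat_lit 263)) (XT.lf (nat_lit 0) (nat_lit 23576876870) (nat_lit 228) (nat_lit 12849335954) (nat_lit 304) (nat_lit 786763060) (nat_lit 102) (nat_lit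 5) (nat_lit 105) (nat_lit 5) (nat_lit 106) (nat_lit 5) (nat_lit 506) (nat_lit 432) (nat_lit 262)))) (XT.nd (nat_lit 156) (nat_lit 532) (nat_lit 0) (XT.nd (nat_lit 78) (nat_lit 228) (nat_lit 0) (XT.lf (nat_lit 0) (nat_lit 14065267965) (nat_lit 380) (nat_lit 16433272427) (nat_lit 76) (nat_lit 7421038940) (nat_lit 97) (nat_lit 5) (nat_lit 102) (nat_lit 5) (nat_lit 98) (nat_lit 5) (nat_lit 507) (nat_lit 432) (nat_lit 261)) (XT.lf (nat_lit 0) (nat_lit 19352160807) (nat_lit 228) (nat_lit 10296894785) (nat_lit 304) (nat_lit 8992283672) (nat_lit 94) (nat_lit 5) (nat_lit 97) (nat_lit 5) (nat_lit 98) (nat_lit 5) (nat_lit 508) (nat_lit 432) (nat_lit 260))) (XT.nd (nat_lit 78) (nat_lit 228) (nat_lit 0) (XT.lf (nat_lit 0) (nat_lit 6518986878) (nat_lit 304) (nat_lit 22225069689) (nat_lit 76) (nat_lit 10634151160) (nat_lit 90) (nat_lit 5) (nat_lit 94) (nat_lit 5) (nat_lit 91) (nat_lit 5) (nat_lit 509) (nat_lit 432)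 (nat_lit 259)) (XT.lf (nat_lit 0) (nat_lit 14870219000) (nat_lit 228) (nat_lit 7793312363) (nat_lit 304) (nat_lit 17466660066) (nat_lit 87) (nat_lit 5) (nat_lit 90) (nat_lit 5) (nat_lit 91) (nat_lit 5) (nat_lit 510) (nat_lit 432) (nat_lit 258))))) (XT.nd (nat_lit 234) (nat_lit 1444) (nat_lit 0) (XT.nd (nat_lit 78) (nat_lit 0) (nat_lit 0) (XT.lf (nat_lit 0) (nat_lit 2871159182) (nat_lit 1748) (nat_lit 1351527742) (nat_lit 1748) (nat_lit 1351527742) (nat_lit 529) (nat_lit 3) (nat_lit 552) (nat_lit 3) (nat_lit 552) (nat_lit 5) (nat_lit 433) (nat_lit 433) (nat_lit 334)) (XT.nd (nat_lit 78) (nat_lit 0) (nat_lit 76) (XT.lf (nat_lit 76) (nat_lit 5697942626) (nat_lit 0) (nat_lit 997652646) (nat_lit 1748) (nat_lit 4602691000) (nat_lit 530) (nat_lit 5) (nat_lit 529) (nat_lit 3) (nat_lit 552) (nat_lit 5) (nat_lit 434) (nat_lit 433) (nat_lit 333)) (XT.lf (nat_lit 76) (nat_lit 2912954997) (nat_lit 0) (nat_lit 4812790487)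 (nat_lit 1748) (nat_lit 3725928971) (nat_lit 531) (nat_lit 5) (nat_lit 530) (nat_lit 5) (nat_lit 553) (nat_lit 5) (nat_lit 435) (nat_lit 433) (nat_lit 332)))) (XT.nd (nat_lit 156) (nat_lit 1596) (nat_lit 0) (XT.nd (nat_lit 78) (nat_lit 0) (nat_lit 0) (XT.lf (nat_lit 76) (nat_lit 107286609) (nat_lit 0) (nat_lit 8712268032) (nat_lit 1748) (nat_lit 2789455566) (nat_lit 532) (nat_lit 5) (nat_lit 531) (nat_lit 5) (nat_lit 554) (nat_lit 5) (nat_lit 436) (nat_lit 433) (nat_lit 331)) (XT.lf (nat_lit 76) (nat_lit 9079291625) (nat_lit 0) (nat_lit 926043934) (nat_lit 1748) (nat_lit 1764548303) (nat_lit 532) (nat_lit 5) (nat_lit 531) (nat_lit 5) (nat_lit 554) (nat_lit 5) (nat_lit 437) (nat_lit 433) (nat_lit 330))) (XT.nd (nat_lit 78) (nat_lit 1672) (nat_lit 0) (XT.lf (nat_lit 76) (nat_lit 6405006095) (nat_lit 0) (nat_lit 4879625345) (nat_lit 1748) (nat_lit 649794408) (nat_lit 533) (nat_lit 5) (nat_lit 532) (nat_lit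 5) (nat_lit 555) (nat_lit 5) (nat_lit 438) (nat_lit 433) (nat_lit 329)) (XT.lf (nat_lit 0) (nat_lit 532359637) (nat_lit 1748) (nat_lit 8396136158) (nat_lit 1824) (nat_lit 3174534603) (nat_lit 510) (nat_lit 5) (nat_lit 533) (nat_lit 5) (nat_lit 534) (nat_lit 5) (nat_lit 439) (nat_lit 433) (nat_lit 328)))))) (XT.nd (nat_lit 546) (nat_lit 6156) (nat_lit 0) (XT.nd (nat_lit 234) (nat_lit 0) (nat_lit 152) (XT.nd (nat_lit 78) (nat_lit 0) (nat_lit 76) (XT.lf (nat_lit 76) (nat_lit 977374098) (nat_lit 0) (nat_lit 812183265) (nat_lit 1824) (nat_lit 10486082554) (nat_lit 511) (nat_lit 5) (nat_lit 510) (nat_lit 5) (nat_lit 534) (nat_lit 5) (nat_lit 440) (nat_lit 433) (nat_lit 327)) (XT.nd (nat_lit 78) (nat_lit 0) (nat_lit 76) (XT.lf (nat_lit 0) (nat_lit 3163180018) (nat_lit 1748) (nat_lit 1773233456) (nat_lit 1824) (nat_lit 7515440921) (nat_lit 511) (nat_lit 5) (nat_lit 534) (nat_lit 5) (nat_lit 535) (nat_lit 5)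 (nat_lit 441) (nat_lit 433) (nat_lit 326)) (XT.lf (nat_lit 0) (nat_lit 4632200006) (nat_lit 1748) (nat_lit 4534942693) (nat_lit 1824) (nat_lit 3465129667) (nat_lit 512) (nat_lit 5) (nat_lit 535) (nat_lit 5) (nat_lit 536) (nat_lit 5) (nat_lit 442) (nat_lit 433) (nat_lit 325)))) (XT.nd (nat_lit 156) (nat_lit 0) (nat_lit 152) (XT.nd (nat_lit 78) (nat_lit 0) (nat_lit 76) (XT.lf (nat_lit 76) (nat_lit 5491020393) (nat_lit 0) (nat_lit 708983753) (nat_lit 1824) (nat_lit 6617005262) (nat_lit 513) (nat_lit 5) (nat_lit 512) (nat_lit 5) (nat_lit 536) (nat_lit 5) (nat_lit 443) (nat_lit 433) (nat_lit 324)) (XT.lf (nat_lit 76) (nat_lit 2839659602) (nat_lit 0) (nat_lit 5051157866) (nat_lit 1824) (nat_lit 5114952375) (nat_lit 514) (nat_lit 5) (nat_lit 513) (nat_lit 5) (nat_lit 537) (nat_lit 5) (nat_lit 444) (nat_lit 433) (nat_lit 323))) (XT.nd (nat_lit 78) (nat_lit 0) (nat_lit 0) (XT.lf (nat_lit 76) (nat_lit 165856790)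 (nat_lit 0) (nat_lit 9521380927) (nat_lit 1824) (nat_lit 3511858484) (nat_lit 515) (nat_lit 5) (nat_lit 514) (nat_lit 5) (nat_lit 538) (nat_lit 5) (nat_lit 445) (nat_lit 433) (nat_lit 322)) (XT.lf (nat_lit 76) (nat_lit 10894196623) (nat_lit 0) (nat_lit 721704726) (nat_lit 1824) (nat_lit 1780754719) (nat_lit 515) (nat_lit 5) (nat_lit 514) (nat_lit 5) (nat_lit 538) (nat_lit 5) (nat_lit 446) (nat_lit 433) (nat_lit 321))))) (XT.nd (nat_lit 312) (nat_lit 3040) (nat_lit 0) (XT.nd (nat_lit 156) (nat_lit 1672) (nat_lit 0) (XT.nd (nat_lit 78) (nat_lit 0) (nat_lit 76) (XT.lf (nat_lit 0) (nat_lit 88037795) (nat_lit 1824) (nat_lit 5217488403) (nat_lit 1900) (nat_lit 8292901229) (nat_lit 491) (nat_lit 5) (nat_lit 515) (nat_lit 5) (nat_lit 516) (nat_lit 5) (nat_lit 447) (nat_lit 433) (nat_lit 320)) (XT.lf (nat_lit 0) (nat_lit 2050737379) (nat_lit 1824) (nat_lit 7969458984) (nat_lit 1900) (nat_lit 3784580093) (nat_lit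 492) (nat_lit 5) (nat_lit 516) (nat_lit 5) (nat_lit 517) (nat_lit 5) (nat_lit 448) (nat_lit 433) (nat_lit 319))) (XT.nd (nat_lit 78) (nat_lit 1748) (nat_lit 0) (XT.lf (nat_lit 76) (nat_lit 3262936151) (nat_lit 0) (nat_lit 879267057) (nat_lit 1900) (nat_lit 9873715705) (nat_lit 493) (nat_lit 5) (nat_lit 492) (nat_lit 5) (nat_lit 517) (nat_lit 5) (nat_lit 449) (nat_lit 433) (nat_lit 318)) (XT.lf (nat_lit 0) (nat_lit 642911345) (nat_lit 1824) (nat_lit 5745642917) (nat_lit 1900) (nat_lit 7842999197) (nat_lit 469) (nat_lit 5) (nat_lit 493) (nat_lit 5) (nat_lit 494) (nat_lit 5) (nat_lit 450) (nat_lit 433) (nat_lit 317)))) (XT.nd (nat_lit 156) (nat_lit 1900) (nat_lit 0) (XT.nd (nat_lit 78) (nat_lit 1140) (nat_lit 0) (XT.lf (nat_lit 0) (nat_lit 8784009755) (nat_lit 1900) (nat_lit 1973415225) (nat_lit 76) (nat_lit 3694598408) (nat_lit 469) (nat_lit 5) (nat_lit 494) (nat_lit 5) (nat_lit 470) (nat_lit 5) (nat_lit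 451) (nat_lit 433) (nat_lit 316)) (XT.lf (nat_lit 0) (nat_lit 10065450669) (nat_lit 1140) (nat_lit 1268991801) (nat_lit 1216) (nat_lit 3343003276) (nat_lit 454) (nat_lit 5) (nat_lit 469) (nat_lit 5) (nat_lit 470) (nat_lit 5) (nat_lit 452) (nat_lit 433) (nat_lit 315))) (XT.nd (nat_lit 78) (nat_lit 988) (nat_lit 0) (XT.lf (nat_lit 0) (nat_lit 7609100234) (nat_lit 912) (nat_lit 6450202537) (nat_lit 988) (nat_lit 848370303) (nat_lit 442) (nat_lit 5) (nat_lit 454) (nat_lit 5) (nat_lit 455) (nat_lit 5) (nat_lit 453) (nat_lit 433) (nat_lit 314)) (XT.lf (nat_lit 0) (nat_lit 1774081404) (nat_lit 988) (nat_lit 10020644872) (nat_lit 76) (nat_lit 3348346965) (nat_lit 429) (nat_lit 5) (nat_lit 442) (nat_lit 5) (nat_lit 430) (nat_lit 5) (nat_lit 454) (nat_lit 433) (nat_lit 313))))))) (XT.nd (nat_lit 1170) (nat_lit 7144) (nat_lit 0) (XT.nd (nat_lit 546) (nat_lit 5016) (nat_lit 0) (XT.nd (nat_lit 234) (nat_lit 3268)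 (nat_lit 0) (XT.nd (nat_lit 78) (nat_lit 912) (nat_lit 0) (XT.lf (nat_lit 0) (nat_lit 2597768789) (nat_lit 836) (nat_lit 1956405354) (nat_lit 912) (nat_lit 10829439790) (nat_lit 418) (nat_lit 5) (nat_lit 429) (nat_lit 5) (nat_lit 430) (nat_lit 5) (nat_lit 455) (nat_lit 433) (nat_lit 312)) (XT.nd (nat_lit 78) (nat_lit 0) (nat_lit 0) (XT.lf (nat_lit 0) (nat_lit 30076186) (nat_lit 912) (nat_lit 7490322735) (nat_lit 988) (nat_lit 8108917867) (nat_lit 406) (nat_lit 5) (nat_lit 418) (nat_lit 5) (nat_lit 419) (nat_lit 5) (nat_lit 456) (nat_lit 433) (nat_lit 311)) (XT.lf (nat_lit 0) (nat_lit 10674411726) (nat_lit 988) (nat_lit 2524537749) (nat_lit 76) (nat_lit 2681465739) (nat_lit 406) (nat_lit 5) (nat_lit 419) (nat_lit 5) (nat_lit 407) (nat_lit 5) (nat_lit 457) (nat_lit 433) (nat_lit 310)))) (XT.nd (nat_lit 156) (nat_lit 1520) (nat_lit 0) (XT.nd (nat_lit 78) (nat_lit 912) (nat_lit 0) (XT.lf (nat_lit 0) (nat_lit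 11018640191) (nat_lit 836) (nat_lit 3008096949) (nat_lit 912) (nat_lit 2110236105) (nat_lit 395) (nat_lit 5) (nat_lit 406) (nat_lit 5) (nat_lit 407) (nat_lit 5) (nat_lit 458) (nat_lit 433) (nat_lit 309)) (XT.lf (nat_lit 0) (nat_lit 1169407535) (nat_lit 912) (nat_lit 7758599438) (nat_lit 76) (nat_lit 7470978549) (nat_lit 383) (nat_lit 5) (nat_lit 395) (nat_lit 5) (nat_lit 384) (nat_lit 5) (nat_lit 459) (nat_lit 433) (nat_lit 308))) (XT.nd (nat_lit 78) (nat_lit 760) (nat_lit 0) (XT.lf (nat_lit 0) (nat_lit 4607927907) (nat_lit 836) (nat_lit 10434686785) (nat_lit 76) (nat_lit 1624181816) (nat_lit 373) (nat_lit 5) (nat_lit 384) (nat_lit 5) (nat_lit 374) (nat_lit 5) (nat_lit 460) (nat_lit 433) (nat_lit 307)) (XT.lf (nat_lit 0) (nat_lit 3778441645) (nat_lit 760) (nat_lit 4491447816) (nat_lit 836) (nat_lit 8670347096) (nat_lit 363) (nat_lit 5) (nat_lit 373) (nat_lit 5) (nat_lit 374) (nat_lit 5) (nat_lit 461)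 (nat_lit 433) (nat_lit 306))))) (XT.nd (nat_lit 312) (nat_lit 2736) (nat_lit 0) (XT.nd (nat_lit 156) (nat_lit 1520) (nat_lit 0) (XT.nd (nat_lit 78) (nat_lit 0) (nat_lit 0) (XT.lf (nat_lit 0) (nat_lit 1297240187) (nat_lit 760) (nat_lit 10848959081) (nat_lit 836) (nat_lit 5073591186) (nat_lit 353) (nat_lit 5) (nat_lit 363) (nat_lit 5) (nat_lit 364) (nat_lit 5) (nat_lit 462) (nat_lit 433) (nat_lit 305)) (XT.lf (nat_lit 0) (nat_lit 16242201285) (nat_lit 836) (nat_lit 1184362812) (nat_lit 76) (nat_lit 79099230) (nat_lit 353) (nat_lit 5) (nat_lit 364) (nat_lit 5) (nat_lit 354) (nat_lit 5) (nat_lit 463) (nat_lit 433) (nat_lit 304))) (XT.nd (nat_lit 78) (nat_lit 684) (nat_lit 0) (XT.lf (nat_lit 0) (nat_lit 2775404834) (nat_lit 836) (nat_lit 3724907474) (nat_lit 76) (nat_lit 11296468285) (nat_lit 342) (nat_lit 5) (nat_lit 353) (nat_lit 5) (nat_lit 343) (nat_lit 5) (nat_lit 464) (nat_lit 433) (nat_lit 303)) (XT.lf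 (nat_lit 0) (nat_lit 7019311342) (nat_lit 760) (nat_lit 6291932657) (nat_lit 76) (nat_lit 4783199953) (nat_lit 333) (nat_lit 5) (nat_lit 343) (nat_lit 5) (nat_lit 334) (nat_lit 5) (nat_lit 465) (nat_lit 433) (nat_lit 302)))) (XT.nd (nat_lit 156) (nat_lit 1368) (nat_lit 0) (XT.nd (nat_lit 78) (nat_lit 684) (nat_lit 0) (XT.lf (nat_lit 0) (nat_lit 9509650262) (nat_lit 684) (nat_lit 1996385057) (nat_lit 760) (nat_lit 6892692265) (nat_lit 324) (nat_lit 5) (nat_lit 333) (nat_lit 5) (nat_lit 334) (nat_lit 5) (nat_lit 466) (nat_lit 433) (nat_lit 301)) (XT.lf (nat_lit 0) (nat_lit 7173579776) (nat_lit 684) (nat_lit 9091170652) (nat_lit 760) (nat_lit 2444641875) (nat_lit 315) (nat_lit 5) (nat_lit 324) (nat_lit 5) (nat_lit 325) (nat_lit 5) (nat_lit 467) (nat_lit 433) (nat_lit 300))) (XT.nd (nat_lit 78) (nat_lit 608) (nat_lit 0) (XT.lf (nat_lit 0) (nat_lit 2216657125) (nat_lit 760) (nat_lit 14214564027) (nat_lit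 76) (nat_lit 2595722038) (nat_lit 305) (nat_lit 5) (nat_lit 315) (nat_lit 5) (nat_lit 306) (nat_lit 5) (nat_lit 468) (nat_lit 433) (nat_lit 299)) (XT.lf (nat_lit 0) (nat_lit 2392657106) (nat_lit 608) (nat_lit 4732839182) (nat_lit 684) (nat_lit 12225383185) (nat_lit 297) (nat_lit 5) (nat_lit 305) (nat_lit 5) (nat_lit 306) (nat_lit 5) (nat_lit 469) (nat_lit 433) (nat_lit 298)))))) (XT.nd (nat_lit 546) (nat_lit 3496) (nat_lit 0) (XT.nd (nat_lit 234) (nat_lit 2356) (nat_lit 0) (XT.nd (nat_lit 78) (nat_lit 1292) (nat_lit 0) (XT.lf (nat_lit 0) (nat_lit 12312053318) (nat_lit 684) (nat_lit 55581167) (nat_lit 76) (nat_lit 7314290635) (nat_lit 297) (nat_lit 5) (nat_lit 306) (nat_lit 5) (nat_lit 298) (nat_lit 5) (nat_lit 470) (nat_lit 433) (nat_lit 297)) (XT.nd (nat_lit 78) (nat_lit 684) (nat_lit 0) (XT.lf (nat_lit 0) (nat_lit 17535480913) (nat_lit 608) (nat_lit 250625688) (nat_lit 684) (nat_lit 2234157862) (nat_lit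 289) (nat_lit 5) (nat_lit 297) (nat_lit 5) (nat_lit 298) (nat_lit 5) (nat_lit 471) (nat_lit 433) (nat_lit 296)) (XT.lf (nat_lit 0) (nat_lit 3183033972) (nat_lit 684) (nat_lit 4994577158) (nat_lit 76) (nat_lit 12187396746) (nat_lit 280) (nat_lit 5) (nat_lit 289) (nat_lit 5) (nat_lit 281) (nat_lit 5) (nat_lit 472) (nat_lit 433) (nat_lit 295)))) (XT.nd (nat_lit 156) (nat_lit 1216) (nat_lit 0) (XT.nd (nat_lit 78) (nat_lit 532) (nat_lit 0) (XT.lf (nat_lit 0) (nat_lit 8852356989) (nat_lit 684) (nat_lit 7531189859) (nat_lit 76) (nat_lit 4333852305) (nat_lit 272) (nat_lit 5) (nat_lit 281) (nat_lit 5) (nat_lit 273) (nat_lit 5) (nat_lit 473) (nat_lit 433) (nat_lit 294)) (XT.lf (nat_lit 0) (nat_lit 10973288248) (nat_lit 532) (nat_lit 3865580626) (nat_lit 608) (nat_lit 6238551397) (nat_lit 265) (nat_lit 5) (nat_lit 272) (nat_lit 5) (nat_lit 273) (nat_lit 5) (nat_lit 474) (nat_lit 433) (nat_lit 293))) (XT.nd (nat_lit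 78) (nat_lit 608) (nat_lit 0) (XT.lf (nat_lit 0) (nat_lit 8727504957) (nat_lit 608) (nat_lit 12431472562) (nat_lit 684) (nat_lit 286184751) (nat_lit 257) (nat_lit 5) (nat_lit 265) (nat_lit 5) (nat_lit 266) (nat_lit 5) (nat_lit 475) (nat_lit 433) (nat_lit 292)) (XT.lf (nat_lit 0) (nat_lit 5895813291) (nat_lit 608) (nat_lit 15380854566) (nat_lit 76) (nat_lit 543955671) (nat_lit 249) (nat_lit 5) (nat_lit 257) (nat_lit 5) (nat_lit 250) (nat_lit 5) (nat_lit 476) (nat_lit 433) (nat_lit 291))))) (XT.nd (nat_lit 312) (nat_lit 1900) (nat_lit 0) (XT.nd (nat_lit 156) (nat_lit 608) (nat_lit 0) (XT.nd (nat_lit 78) (nat_lit 456) (nat_lit 0) (XT.lf (nat_lit 0) (nat_lit 4091806762) (nat_lit 532) (nat_lit 8351807966) (nat_lit 608) (nat_lit 9760011686) (nat_lit 242) (nat_lit 5) (nat_lit 249) (nat_lit 5) (nat_lit 250) (nat_lit 5) (nat_lit 477) (nat_lit 433) (nat_lit 290)) (XT.lf (nat_lit 0) (nat_lit 1736468430) (nat_lit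 456) (nat_lit 17587761164) (nat_lit 532) (nat_lit 3271162454) (nat_lit 236) (nat_lit 5) (nat_lit 242) (nat_lit 5) (nat_lit 243) (nat_lit 5) (nat_lit 478) (nat_lit 433) (nat_lit 289))) (XT.nd (nat_lit 78) (nat_lit 532) (nat_lit 0) (XT.lf (nat_lit 0) (nat_lit 3535141729) (nat_lit 532) (nat_lit 663598141) (nat_lit 76) (nat_lit 18796377051) (nat_lit 235) (nat_lit 5) (nat_lit 242) (nat_lit 5) (nat_lit 236) (nat_lit 5) (nat_lit 479) (nat_lit 433) (nat_lit 288)) (XT.lf (nat_lit 0) (nat_lit 10685442135) (nat_lit 608) (nat_lit 3100389731) (nat_lit 76) (nat_lit 9616884470) (nat_lit 228) (nat_lit 5) (nat_lit 236) (nat_lit 5) (nat_lit 229) (nat_lit 5) (nat_lit 480) (nat_lit 433) (nat_lit 287)))) (XT.nd (nat_lit 156) (nat_lit 912) (nat_lit 0) (XT.nd (nat_lit 78) (nat_lit 532) (nat_lit 0) (XT.lf (nat_lit 0) (nat_lit 18190816569) (nat_lit 532) (nat_lit 5540737593) (nat_lit 76) (nat_lit 88178494) (nat_lit 222) (nat_lit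 5) (nat_lit 229) (nat_lit 5) (nat_lit 223) (nat_lit 5) (nat_lit 481) (nat_lit 433) (nat_lit 286)) (XT.lf (nat_lit 0) (nat_lit 1858936643) (nat_lit 532) (nat_lit 8059714543) (nat_lit 76) (nat_lit 14326215893) (nat_lit 215) (nat_lit 5) (nat_lit 222) (nat_lit 5) (nat_lit 216) (nat_lit 5) (nat_lit 482) (nat_lit 433) (nat_lit 285))) (XT.nd (nat_lit 78) (nat_lit 456) (nat_lit 0) (XT.lf (nat_lit 0) (nat_lit 9642741017) (nat_lit 532) (nat_lit 10620882356) (nat_lit 76) (nat_lit 4415432407) (nat_lit 209) (nat_lit 5) (nat_lit 216) (nat_lit 5) (nat_lit 210) (nat_lit 5) (nat_lit 483) (nat_lit 433) (nat_lit 284)) (XT.lf (nat_lit 0) (nat_lit 11898445612) (nat_lit 456) (nat_lit 5949406036) (nat_lit 532) (nat_lit 7274662851) (nat_lit 203) (nat_lit 5) (nat_lit 209) (nat_lit 5) (nat_lit 210) (nat_lit 5) (nat_lit 484) (nat_lit 433) (nat_lit 283))))))))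
noncomputable def xc80 : XT := (XT.nd (nat_lit 58734) (nat_lit 0) (nat_lit 19152) (XT.nd (nat_lit 1092) (nat_lit 3420) (nat_lit 0) (XT.nd (nat_lit 546) (nat_lit 2584) (nat_lit 0) (XT.nd (nat_lit 234) (nat_lit 1292) (nat_lit 0) (XT.nd (nat_lit 78) (nat_lit 836) (nat_lit 0) (XT.lf (nat_lit 0) (nat_lit 893639902) (nat_lit 456) (nat_lit 15866359305) (nat_lit 76) (nat_lit 8815519648) (nat_lit 197) (nat_lit 5) (nat_lit 203) (nat_lit 5) (nat_lit 198) (nat_lit 5) (nat_lit 485) (nat_lit 433) (nat_lit 282)) (XT.nd (nat_lit 78) (nat_lit 380) (nat_lit 0) (XT.lf (nat_lit 0) (nat_lit 7464478769) (nat_lit 456) (nat_lit 1912251070) (nat_lit 532) (nat_lit 16661050532) (nat_lit 191) (nat_lit 5) (nat_lit 197) (nat_lit 5) (nat_lit 198) (nat_lit 5) (nat_lit 486) (nat_lit 433) (nat_lit 281)) (XT.lf (nat_lit 0) (nat_lit 5165430303) (nat_lit 380) (nat_lit 13167252361) (nat_lit 456) (nat_lit 8176859847) (nat_lit 186) (nat_lit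 5) (nat_lit 191) (nat_lit 5) (nat_lit 192) (nat_lit 5) (nat_lit 487) (nat_lit 433) (nat_lit 280)))) (XT.nd (nat_lit 156) (nat_lit 456) (nat_lit 0) (XT.nd (nat_lit 78) (nat_lit 380) (nat_lit 0) (XT.lf (nat_lit 0) (nat_lit 716703089) (nat_lit 456) (nat_lit 24123695984) (nat_lit 76) (nat_lit 2151741345) (nat_lit 180) (nat_lit 5) (nat_lit 186) (nat_lit 5) (nat_lit 181) (nat_lit 5) (nat_lit 488) (nat_lit 433) (nat_lit 279)) (XT.lf (nat_lit 0) (nat_lit 460365643) (nat_lit 380) (nat_lit 9532911775) (nat_lit 456) (nat_lit 17490312112) (nat_lit 175) (nat_lit 5) (nat_lit 180) (nat_lit 5) (nat_lit 181) (nat_lit 5) (nat_lit 489) (nat_lit 433) (nat_lit 278))) (XT.nd (nat_lit 78) (nat_lit 456) (nat_lit 0) (XT.lf (nat_lit 0) (nat_lit 19743361408) (nat_lit 456) (nat_lit 1931019467) (nat_lit 76) (nat_lit 6311497151) (nat_lit 175) (nat_lit 5) (nat_lit 181) (nat_lit 5) (nat_lit 176) (nat_lit 5) (nat_lit 490) (nat_lit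 433) (nat_lit 277)) (XT.lf (nat_lit 0) (nat_lit 1478322621) (nat_lit 456) (nat_lit 4356446714) (nat_lit 76) (nat_lit 22664050775) (nat_lit 169) (nat_lit 5) (nat_lit 175) (nat_lit 5) (nat_lit 170) (nat_lit 5) (nat_lit 491) (nat_lit 433) (nat_lit 276))))) (XT.nd (nat_lit 234) (nat_lit 1444) (nat_lit 0) (XT.nd (nat_lit 78) (nat_lit 760) (nat_lit 0) (XT.lf (nat_lit 0) (nat_lit 11596886504) (nat_lit 456) (nat_lit 6873348971) (nat_lit 76) (nat_lit 10551463810) (nat_lit 164) (nat_lit 5) (nat_lit 170) (nat_lit 5) (nat_lit 165) (nat_lit 5) (nat_lit 492) (nat_lit 433) (nat_lit 275)) (XT.nd (nat_lit 78) (nat_lit 380) (nat_lit 0) (XT.lf (nat_lit 0) (nat_lit 20158950791) (nat_lit 380) (nat_lit 2050419302) (nat_lit 456) (nat_lit 7347087632) (nat_lit 159) (nat_lit 5) (nat_lit 164) (nat_lit 5) (nat_lit 165) (nat_lit 5) (nat_lit 493) (nat_lit 433) (nat_lit 274)) (XT.lf (nat_lit 0) (nat_lit 3246746696) (nat_lit 380)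 (nat_lit 12007192883) (nat_lit 76) (nat_lit 14847854530) (nat_lit 154) (nat_lit 5) (nat_lit 159) (nat_lit 5) (nat_lit 155) (nat_lit 5) (nat_lit 494) (nat_lit 433) (nat_lit 273)))) (XT.nd (nat_lit 156) (nat_lit 760) (nat_lit 0) (XT.nd (nat_lit 78) (nat_lit 304) (nat_lit 0) (XT.lf (nat_lit 0) (nat_lit 14243457233) (nat_lit 456) (nat_lit 14660268638) (nat_lit 76) (nat_lit 1755095975) (nat_lit 149) (nat_lit 5) (nat_lit 155) (nat_lit 5) (nat_lit 150) (nat_lit 5) (nat_lit 495) (nat_lit 433) (nat_lit 272)) (XT.lf (nat_lit 0) (nat_lit 13842713791) (nat_lit 304) (nat_lit 11992281436) (nat_lit 380) (nat_lit 5392266796) (nat_lit 145) (nat_lit 5) (nat_lit 149) (nat_lit 5) (nat_lit 150) (nat_lit 5) (nat_lit 496) (nat_lit 433) (nat_lit 271))) (XT.nd (nat_lit 78) (nat_lit 304) (nat_lit 0) (XT.lf (nat_lit 0) (nat_lit 6087106927) (nat_lit 456) (nat_lit 20154676879) (nat_lit 76) (nat_lit 5566122210) (nat_lit 139) (nat_lit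 5) (nat_lit 145) (nat_lit 5) (nat_lit 140) (nat_lit 5) (nat_lit 497) (nat_lit 433) (nat_lit 270)) (XT.lf (nat_lit 0) (nat_lit 9388605917) (nat_lit 304) (nat_lit 8700529563) (nat_lit 380) (nat_lit 14311090444) (nat_lit 135) (nat_lit 5) (nat_lit 139) (nat_lit 5) (nat_lit 140) (nat_lit 5) (nat_lit 498) (nat_lit 433) (nat_lit 269)))))) (XT.nd (nat_lit 546) (nat_lit 1444) (nat_lit 0) (XT.nd (nat_lit 234) (nat_lit 988) (nat_lit 0) (XT.nd (nat_lit 78) (nat_lit 684) (nat_lit 0) (XT.lf (nat_lit 0) (nat_lit 7104047307) (nat_lit 304) (nat_lit 23583102410) (nat_lit 380) (nat_lit 2318447333) (nat_lit 131) (nat_lit 5) (nat_lit 135) (nat_lit 5) (nat_lit 136) (nat_lit 5) (nat_lit 499) (nat_lit 433) (nat_lit 268)) (XT.nd (nat_lit 78) (nat_lit 304) (nat_lit 0) (XT.lf (nat_lit 0) (nat_lit 4736139275) (nat_lit 304) (nat_lit 5403748137) (nat_lit 380) (nat_lit 23483188870) (nat_lit 126) (nat_lit 5) (nat_lit 130) (nat_lit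 5) (nat_lit 131) (nat_lit 5) (nat_lit 500) (nat_lit 433) (nat_lit 267)) (XT.lf (nat_lit 0) (nat_lit 2305333845) (nat_lit 304) (nat_lit 20905185710) (nat_lit 380) (nat_lit 11042853024) (nat_lit 122) (nat_lit 5) (nat_lit 126) (nat_lit 5) (nat_lit 127) (nat_lit 5) (nat_lit 501) (nat_lit 433) (nat_lit 266)))) (XT.nd (nat_lit 156) (nat_lit 608) (nat_lit 0) (XT.nd (nat_lit 78) (nat_lit 304) (nat_lit 0) (XT.lf (nat_lit 0) (nat_lit 1972480707) (nat_lit 380) (nat_lit 132377310) (nat_lit 76) (nat_lit 32792989707) (nat_lit 121) (nat_lit 5) (nat_lit 126) (nat_lit 5) (nat_lit 122) (nat_lit 5) (nat_lit 502) (nat_lit 433) (nat_lit 265)) (XT.lf (nat_lit 0) (nat_lit 15549251511) (nat_lit 380) (nat_lit 2686672532) (nat_lit 76) (nat_lit 17317853191) (nat_lit 117) (nat_lit 5) (nat_lit 122) (nat_lit 5) (nat_lit 118) (nat_lit 5) (nat_lit 503) (nat_lit 433) (nat_lit 264))) (XT.nd (nat_lit 78) (nat_lit 304) (nat_lit 0) (XT.lf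 (nat_lit 0) (nat_lit 29750038365) (nat_lit 380) (nat_lit 5224901943) (nat_lit 76) (nat_lit 1250110160) (nat_lit 113) (nat_lit 5) (nat_lit 118) (nat_lit 5) (nat_lit 114) (nat_lit 5) (nat_lit 504) (nat_lit 433) (nat_lit 263)) (XT.lf (nat_lit 0) (nat_lit 7685945297) (nat_lit 304) (nat_lit 7896224850) (nat_lit 76) (nat_lit 21326855034) (nat_lit 109) (nat_lit 5) (nat_lit 113) (nat_lit 5) (nat_lit 110) (nat_lit 5) (nat_lit 505) (nat_lit 433) (nat_lit 262))))) (XT.nd (nat_lit 312) (nat_lit 304) (nat_lit 0) (XT.nd (nat_lit 156) (nat_lit 608) (nat_lit 0) (XT.nd (nat_lit 78) (nat_lit 228) (nat_lit 0) (XT.lf (nat_lit 0) (nat_lit 22417981322) (nat_lit 380) (nat_lit 10604260974) (nat_lit 76) (nat_lit 4585736534) (nat_lit 105) (nat_lit 5) (nat_lit 110) (nat_lit 5) (nat_lit 106) (nat_lit 5) (nat_lit 506) (nat_lit 433) (nat_lit 261)) (XT.lf (nat_lit 0) (nat_lit 24941683285) (nat_lit 228) (nat_lit 12962788777) (nat_lit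 304) (nat_lit 417179240) (nat_lit 102) (nat_lit 5) (nat_lit 105) (nat_lit 5) (nat_lit 106) (nat_lit 5) (nat_lit 507) (nat_lit 433) (nat_lit 260))) (XT.nd (nat_lit 78) (nat_lit 228) (nat_lit 0) (XT.lf (nat_lit 0) (nat_lit 14869945975) (nat_lit 380) (nat_lit 16268496129) (nat_lit 76) (nat_lit 7911066019) (nat_lit 97) (nat_lit 5) (nat_lit 102) (nat_lit 5) (nat_lit 98) (nat_lit 5) (nat_lit 508) (nat_lit 433) (nat_lit 259)) (XT.lf (nat_lit 0) (nat_lit 20579828493) (nat_lit 228) (nat_lit 10334472975) (nat_lit 304) (nat_lit 8878758423) (nat_lit 94) (nat_lit 5) (nat_lit 97) (nat_lit 5) (nat_lit 98) (nat_lit 5) (nat_lit 509) (nat_lit 433) (nat_lit 258)))) (XT.nd (nat_lit 56628) (nat_lit 0) (nat_lit 33364) (XT.nd (nat_lit 56550) (nat_lit 0) (nat_lit 33364) (XT.lf (nat_lit 0) (nat_lit 7087725112) (nat_lit 304) (nat_lit 22244589815) (nat_lit 76) (nat_lit 11219771787) (nat_lit 90) (nat_lit 5) (nat_lit 94) (nat_lit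 5) (nat_lit 91) (nat_lit 5) (nat_lit 510) (nat_lit 433) (nat_lit 257)) (XT.lf (nat_lit 0) (nat_lit 3779461383) (nat_lit 1748) (nat_lit 972754985) (nat_lit 1748) (nat_lit 972754985) (nat_lit 529) (nat_lit 3) (nat_lit 552) (nat_lit 3) (nat_lit 552) (nat_lit 5) (nat_lit 434) (nat_lit 434) (nat_lit 332))) (XT.nd (nat_lit 78) (nat_lit 0) (nat_lit 76) (XT.lf (nat_lit 76) (nat_lit 6693912191) (nat_lit 0) (nat_lit 1804349190) (nat_lit 1748) (nat_lit 3106886240) (nat_lit 530) (nat_lit 5) (nat_lit 529) (nat_lit 3) (nat_lit 552) (nat_lit 5) (nat_lit 435) (nat_lit 434) (nat_lit 331)) (XT.lf (nat_lit 76) (nat_lit 3848517907) (nat_lit 0) (nat_lit 5664754391) (nat_lit 1748) (nat_lit 2250787523) (nat_lit 531) (nat_lit 5) (nat_lit 530) (nat_lit 5) (nat_lit 553) (nat_lit 5) (nat_lit 436) (nat_lit 434) (nat_lit 330))))))) (XT.nd (nat_lit 1092) (nat_lit 11324) (nat_lit 0) (XT.nd (nat_lit 546) (nat_lit 1368) (nat_lit 0)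 (XT.nd (nat_lit 234) (nat_lit 0) (nat_lit 76) (XT.nd (nat_lit 78) (nat_lit 1672) (nat_lit 0) (XT.lf (nat_lit 76) (nat_lit 980097649) (nat_lit 0) (nat_lit 9615670544) (nat_lit 1748) (nat_lit 1331231453) (nat_lit 532) (nat_lit 5) (nat_lit 531) (nat_lit 5) (nat_lit 554) (nat_lit 5) (nat_lit 437) (nat_lit 434) (nat_lit 329)) (XT.nd (nat_lit 78) (nat_lit 1672) (nat_lit 0) (XT.lf (nat_lit 76) (nat_lit 10195934880) (nat_lit 0) (nat_lit 1577159689) (nat_lit 1748) (nat_lit 320486908) (nat_lit 532) (nat_lit 5) (nat_lit 531) (nat_lit 5) (nat_lit 554) (nat_lit 5) (nat_lit 438) (nat_lit 434) (nat_lit 328)) (XT.lf (nat_lit 0) (nat_lit 775512117) (nat_lit 1748) (nat_lit 4808357540) (nat_lit 1824) (nat_lit 6679910764) (nat_lit 509) (nat_lit 5) (nat_lit 532) (nat_lit 5) (nat_lit 533) (nat_lit 5) (nat_lit 439) (nat_lit 434) (nat_lit 327)))) (XT.nd (nat_lit 156) (nat_lit 0) (nat_lit 76) (XT.nd (nat_lit 78) (nat_lit 0)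 (nat_lit 0) (XT.lf (nat_lit 0) (nat_lit 1944713301) (nat_lit 1748) (nat_lit 7748248783) (nat_lit 1824) (nat_lit 2745188207) (nat_lit 510) (nat_lit 5) (nat_lit 533) (nat_lit 5) (nat_lit 534) (nat_lit 5) (nat_lit 440) (nat_lit 434) (nat_lit 326)) (XT.lf (nat_lit 76) (nat_lit 1891869057) (nat_lit 0) (nat_lit 1312833690) (nat_lit 1824) (nat_lit 9411935095) (nat_lit 511) (nat_lit 5) (nat_lit 510) (nat_lit 5) (nat_lit 534) (nat_lit 5) (nat_lit 441) (nat_lit 434) (nat_lit 325))) (XT.nd (nat_lit 78) (nat_lit 0) (nat_lit 76) (XT.lf (nat_lit 0) (nat_lit 4576877658) (nat_lit 1748) (nat_lit 937559231) (nat_lit 1824) (nat_lit 7284556222) (nat_lit 511) (nat_lit 5) (nat_lit 534) (nat_lit 5) (nat_lit 535) (nat_lit 5) (nat_lit 442) (nat_lit 434) (nat_lit 324)) (XT.lf (nat_lit 0) (nat_lit 6054561546) (nat_lit 1748) (nat_lit 3768107088) (nat_lit 1824) (nat_lit 3162864311) (nat_lit 512) (nat_lit 5) (nat_lit 535) (nat_lit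 5) (nat_lit 536) (nat_lit 5) (nat_lit 443) (nat_lit 434) (nat_lit 323))))) (XT.nd (nat_lit 234) (nat_lit 1596) (nat_lit 0) (XT.nd (nat_lit 78) (nat_lit 0) (nat_lit 76) (XT.lf (nat_lit 76) (nat_lit 6543986673) (nat_lit 0) (nat_lit 1093799700) (nat_lit 1824) (nat_lit 5538659150) (nat_lit 513) (nat_lit 5) (nat_lit 512) (nat_lit 5) (nat_lit 536) (nat_lit 5) (nat_lit 444) (nat_lit 434) (nat_lit 322)) (XT.nd (nat_lit 78) (nat_lit 0) (nat_lit 76) (XT.lf (nat_lit 76) (nat_lit 3825663949) (nat_lit 0) (nat_lit 5520757523) (nat_lit 1824) (nat_lit 4025106473) (nat_lit 514) (nat_lit 5) (nat_lit 513) (nat_lit 5) (nat_lit 537) (nat_lit 5) (nat_lit 445) (nat_lit 434) (nat_lit 321)) (XT.lf (nat_lit 76) (nat_lit 1083082880) (nat_lit 0) (nat_lit 10082068098) (nat_lit 1824) (nat_lit 2406135872) (nat_lit 515) (nat_lit 5) (nat_lit 514) (nat_lit 5) (nat_lit 538) (nat_lit 5) (nat_lit 446) (nat_lit 434) (nat_lit 320)))) (XT.nd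 (nat_lit 156) (nat_lit 0) (nat_lit 76) (XT.nd (nat_lit 78) (nat_lit 1748) (nat_lit 0) (XT.lf (nat_lit 76) (nat_lit 12106702509) (nat_lit 0) (nat_lit 1010390571) (nat_lit 1824) (nat_lit 658373121) (nat_lit 515) (nat_lit 5) (nat_lit 514) (nat_lit 5) (nat_lit 538) (nat_lit 5) (nat_lit 447) (nat_lit 434) (nat_lit 319)) (XT.lf (nat_lit 0) (nat_lit 1221424492) (nat_lit 1824) (nat_lit 4463221015) (nat_lit 1900) (nat_lit 8299086274) (nat_lit 491) (nat_lit 5) (nat_lit 515) (nat_lit 5) (nat_lit 516) (nat_lit 5) (nat_lit 448) (nat_lit 434) (nat_lit 318))) (XT.nd (nat_lit 78) (nat_lit 0) (nat_lit 0) (XT.lf (nat_lit 0) (nat_lit 3214540292) (nat_lit 1824) (nat_lit 7289074112) (nat_lit 1900) (nat_lit 3693227149) (nat_lit 492) (nat_lit 5) (nat_lit 516) (nat_lit 5) (nat_lit 517) (nat_lit 5) (nat_lit 449) (nat_lit 434) (nat_lit 317)) (XT.lf (nat_lit 76) (nat_lit 4265375590) (nat_lit 0) (nat_lit 1077142187) (nat_lit 1900)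 (nat_lit 9072326102) (nat_lit 493) (nat_lit 5) (nat_lit 492) (nat_lit 5) (nat_lit 517) (nat_lit 5) (nat_lit 450) (nat_lit 434) (nat_lit 316)))))) (XT.nd (nat_lit 546) (nat_lit 4864) (nat_lit 0) (XT.nd (nat_lit 234) (nat_lit 3648) (nat_lit 0) (XT.nd (nat_lit 78) (nat_lit 1140) (nat_lit 0) (XT.lf (nat_lit 0) (nat_lit 1574373113) (nat_lit 1824) (nat_lit 6055386431) (nat_lit 1900) (nat_lit 7007718834) (nat_lit 469) (nat_lit 5) (nat_lit 493) (nat_lit 5) (nat_lit 494) (nat_lit 5) (nat_lit 451) (nat_lit 434) (nat_lit 315)) (XT.nd (nat_lit 78) (nat_lit 1140) (nat_lit 0) (XT.lf (nat_lit 0) (nat_lit 10065643377) (nat_lit 1900) (nat_lit 1125736093) (nat_lit 76) (nat_lit 3673812536) (nat_lit 469) (nat_lit 5) (nat_lit 494) (nat_lit 5) (nat_lit 470) (nat_lit 5) (nat_lit 452) (nat_lit 434) (nat_lit 314)) (XT.lf (nat_lit 0) (nat_lit 11259582702) (nat_lit 1140) (nat_lit 1409145137) (nat_lit 1216) (nat_lit 2429127292)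 (nat_lit 454) (nat_lit 5) (nat_lit 469) (nat_lit 5) (nat_lit 470) (nat_lit 5) (nat_lit 453) (nat_lit 434) (nat_lit 313)))) (XT.nd (nat_lit 156) (nat_lit 1748) (nat_lit 0) (XT.nd (nat_lit 78) (nat_lit 912) (nat_lit 0) (XT.lf (nat_lit 0) (nat_lit 114573474) (nat_lit 988) (nat_lit 6600909009) (nat_lit 76) (nat_lit 8619968006) (nat_lit 441) (nat_lit 5) (nat_lit 454) (nat_lit 5) (nat_lit 442) (nat_lit 5) (nat_lit 454) (nat_lit 434) (nat_lit 312)) (XT.lf (nat_lit 0) (nat_lit 2781225106) (nat_lit 988) (nat_lit 9405605529) (nat_lit 76) (nat_lit 3391429628) (nat_lit 429) (nat_lit 5) (nat_lit 442) (nat_lit 5) (nat_lit 430) (nat_lit 5) (nat_lit 455) (nat_lit 434) (nat_lit 311))) (XT.nd (nat_lit 78) (nat_lit 912) (nat_lit 0) (XT.lf (nat_lit 0) (nat_lit 3576505068) (nat_lit 836) (nat_lit 2046280057) (nat_lit 912) (nat_lit 10203671540) (nat_lit 418) (nat_lit 5) (nat_lit 429) (nat_lit 5) (nat_lit 430) (nat_lit 5)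 (nat_lit 456) (nat_lit 434) (nat_lit 310)) (XT.lf (nat_lit 0) (nat_lit 935729256) (nat_lit 912) (nat_lit 7720799854) (nat_lit 988) (nat_lit 7423431601) (nat_lit 406) (nat_lit 5) (nat_lit 418) (nat_lit 5) (nat_lit 419) (nat_lit 5) (nat_lit 457) (nat_lit 434) (nat_lit 309))))) (XT.nd (nat_lit 312) (nat_lit 2356) (nat_lit 0) (XT.nd (nat_lit 156) (nat_lit 1672) (nat_lit 0) (XT.nd (nat_lit 78) (nat_lit 836) (nat_lit 0) (XT.lf (nat_lit 0) (nat_lit 11878605996) (nat_lit 988) (nat_lit 1704134260) (nat_lit 76) (nat_lit 2756383695) (nat_lit 406) (nat_lit 5) (nat_lit 419) (nat_lit 5) (nat_lit 407) (nat_lit 5) (nat_lit 458) (nat_lit 434) (nat_lit 308)) (XT.lf (nat_lit 0) (nat_lit 12230800218) (nat_lit 836) (nat_lit 3080678428) (nat_lit 912) (nat_lit 1292301241) (nat_lit 395) (nat_lit 5) (nat_lit 406) (nat_lit 5) (nat_lit 407) (nat_lit 5) (nat_lit 459) (nat_lit 434) (nat_lit 307))) (XT.nd (nat_lit 78) (nat_lit 760)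 (nat_lit 0) (XT.lf (nat_lit 0) (nat_lit 2054734395) (nat_lit 912) (nat_lit 7095828567) (nat_lit 76) (nat_lit 7723364610) (nat_lit 383) (nat_lit 5) (nat_lit 395) (nat_lit 5) (nat_lit 384) (nat_lit 5) (nat_lit 460) (nat_lit 434) (nat_lit 306)) (XT.lf (nat_lit 0) (nat_lit 5577689340) (nat_lit 836) (nat_lit 9850404789) (nat_lit 76) (nat_lit 1722053838) (nat_lit 373) (nat_lit 5) (nat_lit 384) (nat_lit 5) (nat_lit 374) (nat_lit 5) (nat_lit 461) (nat_lit 434) (nat_lit 305)))) (XT.nd (nat_lit 156) (nat_lit 836) (nat_lit 0) (XT.nd (nat_lit 78) (nat_lit 760) (nat_lit 0) (XT.lf (nat_lit 0) (nat_lit 4774559501) (nat_lit 760) (nat_lit 4556462599) (nat_lit 836) (nat_lit 8101139510) (nat_lit 363) (nat_lit 5) (nat_lit 373) (nat_lit 5) (nat_lit 374) (nat_lit 5) (nat_lit 462) (nat_lit 434) (nat_lit 304)) (XT.lf (nat_lit 0) (nat_lit 2220172699) (nat_lit 760) (nat_lit 11085946995) (nat_lit 836) (nat_lit 4414333080) (nat_lit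 353) (nat_lit 5) (nat_lit 363) (nat_lit 5) (nat_lit 364) (nat_lit 5) (nat_lit 463) (nat_lit 434) (nat_lit 303))) (XT.nd (nat_lit 78) (nat_lit 836) (nat_lit 0) (XT.lf (nat_lit 0) (nat_lit 17502388611) (nat_lit 836) (nat_lit 346716781) (nat_lit 76) (nat_lit 166249310) (nat_lit 353) (nat_lit 5) (nat_lit 364) (nat_lit 5) (nat_lit 354) (nat_lit 5) (nat_lit 464) (nat_lit 434) (nat_lit 302)) (XT.lf (nat_lit 0) (nat_lit 3619679053) (nat_lit 836) (nat_lit 2967511459) (nat_lit 76) (nat_lit 11728254125) (nat_lit 342) (nat_lit 5) (nat_lit 353) (nat_lit 5) (nat_lit 343) (nat_lit 5) (nat_lit 465) (nat_lit 434) (nat_lit 301))))))))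
noncomputable def xc81 : XT := (XT.nd (nat_lit 2262) (nat_lit 4940) (nat_lit 0) (XT.nd (nat_lit 1092) (nat_lit 5852) (nat_lit 0) (XT.nd (nat_lit 546) (nat_lit 4028) (nat_lit 0) (XT.nd (nat_lit 234) (nat_lit 1976) (nat_lit 0) (XT.nd (nat_lit 78) (nat_lit 1368) (nat_lit 0) (XT.lf (nat_lit 0) (nat_lit 7975007235) (nat_lit 760) (nat_lit 5611460051) (nat_lit 76) (nat_lit 5035889080) (nat_lit 333) (nat_lit 5) (nat_lit 343) (nat_lit 5) (nat_lit 334) (nat_lit 5) (nat_lit 466) (nat_lit 434) (nat_lit 300)) (XT.nd (nat_lit 78) (nat_lit 684) (nat_lit 0) (XT.lf (nat_lit 0) (nat_lit 10650068122) (nat_lit 684) (nat_lit 1930114446) (nat_lit 760) (nat_lit 6355909486) (nat_lit 324) (nat_lit 5) (nat_lit 333) (nat_lit 5) (nat_lit 334) (nat_lit 5) (nat_lit 467) (nat_lit 434) (nat_lit 299)) (XT.lf (nat_lit 0) (nat_lit 8243596774) (nat_lit 684) (nat_lit 9223175592) (nat_lit 760) (nat_lit 1789602609) (nat_lit 315) (nat_lit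 5) (nat_lit 324) (nat_lit 5) (nat_lit 325) (nat_lit 5) (nat_lit 468) (nat_lit 434) (nat_lit 298)))) (XT.nd (nat_lit 156) (nat_lit 608) (nat_lit 0) (XT.nd (nat_lit 78) (nat_lit 608) (nat_lit 0) (XT.lf (nat_lit 0) (nat_lit 2987521021) (nat_lit 760) (nat_lit 13777514097) (nat_lit 76) (nat_lit 2818612419) (nat_lit 305) (nat_lit 5) (nat_lit 315) (nat_lit 5) (nat_lit 306) (nat_lit 5) (nat_lit 469) (nat_lit 434) (nat_lit 297)) (XT.lf (nat_lit 0) (nat_lit 3313914622) (nat_lit 608) (nat_lit 4714710648) (nat_lit 684) (nat_lit 11888977125) (nat_lit 297) (nat_lit 5) (nat_lit 305) (nat_lit 5) (nat_lit 306) (nat_lit 5) (nat_lit 470) (nat_lit 434) (nat_lit 296))) (XT.nd (nat_lit 78) (nat_lit 0) (nat_lit 0) (XT.lf (nat_lit 0) (nat_lit 790243446) (nat_lit 608) (nat_lit 12566597069) (nat_lit 684) (nat_lit 6902018137) (nat_lit 289) (nat_lit 5) (nat_lit 297) (nat_lit 5) (nat_lit 298) (nat_lit 5) (nat_lit 471) (nat_lit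 434) (nat_lit 295)) (XT.lf (nat_lit 0) (nat_lit 18885091800) (nat_lit 608) (nat_lit 90716673) (nat_lit 684) (nat_lit 1631926299) (nat_lit 289) (nat_lit 5) (nat_lit 297) (nat_lit 5) (nat_lit 298) (nat_lit 5) (nat_lit 472) (nat_lit 434) (nat_lit 294))))) (XT.nd (nat_lit 234) (nat_lit 2204) (nat_lit 0) (XT.nd (nat_lit 78) (nat_lit 1140) (nat_lit 0) (XT.lf (nat_lit 0) (nat_lit 3926201582) (nat_lit 684) (nat_lit 4313752212) (nat_lit 76) (nat_lit 12723036269) (nat_lit 280) (nat_lit 5) (nat_lit 289) (nat_lit 5) (nat_lit 281) (nat_lit 5) (nat_lit 473) (nat_lit 434) (nat_lit 293)) (XT.nd (nat_lit 78) (nat_lit 532) (nat_lit 0) (XT.lf (nat_lit 0) (nat_lit 9753234232) (nat_lit 684) (nat_lit 6928431948) (nat_lit 76) (nat_lit 4644534723) (nat_lit 272) (nat_lit 5) (nat_lit 281) (nat_lit 5) (nat_lit 273) (nat_lit 5) (nat_lit 474) (nat_lit 434) (nat_lit 292)) (XT.lf (nat_lit 0) (nat_lit 12117735933) (nat_lit 532) (nat_lit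 3788394604) (nat_lit 608) (nat_lit 5791156746) (nat_lit 265) (nat_lit 5) (nat_lit 272) (nat_lit 5) (nat_lit 273) (nat_lit 5) (nat_lit 475) (nat_lit 434) (nat_lit 291)))) (XT.nd (nat_lit 156) (nat_lit 988) (nat_lit 0) (XT.nd (nat_lit 78) (nat_lit 532) (nat_lit 0) (XT.lf (nat_lit 0) (nat_lit 323624319) (nat_lit 684) (nat_lit 12276051028) (nat_lit 76) (nat_lit 9476576472) (nat_lit 256) (nat_lit 5) (nat_lit 265) (nat_lit 5) (nat_lit 257) (nat_lit 5) (nat_lit 476) (nat_lit 434) (nat_lit 290)) (XT.lf (nat_lit 0) (nat_lit 6675900502) (nat_lit 608) (nat_lit 15023668889) (nat_lit 76) (nat_lit 763595941) (nat_lit 249) (nat_lit 5) (nat_lit 257) (nat_lit 5) (nat_lit 250) (nat_lit 5) (nat_lit 477) (nat_lit 434) (nat_lit 289))) (XT.nd (nat_lit 78) (nat_lit 456) (nat_lit 0) (XT.lf (nat_lit 0) (nat_lit 5019891283) (nat_lit 532) (nat_lit 8387904133) (nat_lit 608) (nat_lit 9450110069) (nat_lit 242) (nat_lit 5) (nat_lit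 249) (nat_lit 5) (nat_lit 250) (nat_lit 5) (nat_lit 478) (nat_lit 434) (nat_lit 288)) (XT.lf (nat_lit 0) (nat_lit 2591095257) (nat_lit 456) (nat_lit 17893086023) (nat_lit 532) (nat_lit 2777456114) (nat_lit 236) (nat_lit 5) (nat_lit 242) (nat_lit 5) (nat_lit 243) (nat_lit 5) (nat_lit 479) (nat_lit 434) (nat_lit 287)))))) (XT.nd (nat_lit 546) (nat_lit 2888) (nat_lit 0) (XT.nd (nat_lit 234) (nat_lit 1900) (nat_lit 0) (XT.nd (nat_lit 78) (nat_lit 456) (nat_lit 0) (XT.lf (nat_lit 0) (nat_lit 104570780) (nat_lit 532) (nat_lit 4104371240) (nat_lit 608) (nat_lit 19464662143) (nat_lit 228) (nat_lit 5) (nat_lit 235) (nat_lit 5) (nat_lit 236) (nat_lit 5) (nat_lit 480) (nat_lit 434) (nat_lit 286)) (XT.nd (nat_lit 78) (nat_lit 456) (nat_lit 0) (XT.lf (nat_lit 0) (nat_lit 11562998703) (nat_lit 608) (nat_lit 2409754637) (nat_lit 76) (nat_lit 10120893605) (nat_lit 228) (nat_lit 5) (nat_lit 236) (nat_lit 5) (nat_lit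 229) (nat_lit 5) (nat_lit 481) (nat_lit 434) (nat_lit 285)) (XT.lf (nat_lit 0) (nat_lit 19283778545) (nat_lit 532) (nat_lit 4926562338) (nat_lit 76) (nat_lit 313028309) (nat_lit 222) (nat_lit 5) (nat_lit 229) (nat_lit 5) (nat_lit 223) (nat_lit 5) (nat_lit 482) (nat_lit 434) (nat_lit 284)))) (XT.nd (nat_lit 156) (nat_lit 912) (nat_lit 0) (XT.nd (nat_lit 78) (nat_lit 456) (nat_lit 0) (XT.lf (nat_lit 0) (nat_lit 2454549709) (nat_lit 532) (nat_lit 7526585183) (nat_lit 76) (nat_lit 14980271121) (nat_lit 215) (nat_lit 5) (nat_lit 222) (nat_lit 5) (nat_lit 216) (nat_lit 5) (nat_lit 483) (nat_lit 434) (nat_lit 283)) (XT.lf (nat_lit 0) (nat_lit 10462608840) (nat_lit 532) (nat_lit 10168083490) (nat_lit 76) (nat_lit 4778113528) (nat_lit 209) (nat_lit 5) (nat_lit 216) (nat_lit 5) (nat_lit 210) (nat_lit 5) (nat_lit 484) (nat_lit 434) (nat_lit 282))) (XT.nd (nat_lit 78) (nat_lit 456) (nat_lit 0) (XT.lf (nat_lit 0)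 (nat_lit 13014308857) (nat_lit 456) (nat_lit 5889037330) (nat_lit 532) (nat_lit 6962432972) (nat_lit 203) (nat_lit 5) (nat_lit 209) (nat_lit 5) (nat_lit 210) (nat_lit 5) (nat_lit 485) (nat_lit 434) (nat_lit 281)) (XT.lf (nat_lit 0) (nat_lit 1435165774) (nat_lit 456) (nat_lit 15580186919) (nat_lit 76) (nat_lit 9317128262) (nat_lit 197) (nat_lit 5) (nat_lit 203) (nat_lit 5) (nat_lit 198) (nat_lit 5) (nat_lit 486) (nat_lit 434) (nat_lit 280))))) (XT.nd (nat_lit 312) (nat_lit 1216) (nat_lit 0) (XT.nd (nat_lit 156) (nat_lit 836) (nat_lit 0) (XT.nd (nat_lit 78) (nat_lit 380) (nat_lit 0) (XT.lf (nat_lit 0) (nat_lit 8438211105) (nat_lit 456) (nat_lit 1724413742) (nat_lit 532) (nat_lit 16646188206) (nat_lit 191) (nat_lit 5) (nat_lit 197) (nat_lit 5) (nat_lit 198) (nat_lit 5) (nat_lit 487) (nat_lit 434) (nat_lit 279)) (XT.lf (nat_lit 0) (nat_lit 6066397256) (nat_lit 380) (nat_lit 13312551329) (nat_lit 456) (nat_lit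 7915945883) (nat_lit 186) (nat_lit 5) (nat_lit 191) (nat_lit 5) (nat_lit 192) (nat_lit 5) (nat_lit 488) (nat_lit 434) (nat_lit 278))) (XT.nd (nat_lit 78) (nat_lit 380) (nat_lit 0) (XT.lf (nat_lit 0) (nat_lit 1229668404) (nat_lit 456) (nat_lit 24098788244) (nat_lit 76) (nat_lit 2463610504) (nat_lit 180) (nat_lit 5) (nat_lit 186) (nat_lit 5) (nat_lit 181) (nat_lit 5) (nat_lit 489) (nat_lit 434) (nat_lit 277)) (XT.lf (nat_lit 0) (nat_lit 1210649784) (nat_lit 380) (nat_lit 9564357359) (nat_lit 456) (nat_lit 17523443489) (nat_lit 175) (nat_lit 5) (nat_lit 180) (nat_lit 5) (nat_lit 181) (nat_lit 5) (nat_lit 490) (nat_lit 434) (nat_lit 276)))) (XT.nd (nat_lit 156) (nat_lit 760) (nat_lit 0) (XT.nd (nat_lit 78) (nat_lit 456) (nat_lit 0) (XT.lf (nat_lit 0) (nat_lit 20805161334) (nat_lit 456) (nat_lit 1266166458) (nat_lit 76) (nat_lit 6744728870) (nat_lit 175) (nat_lit 5) (nat_lit 181) (nat_lit 5) (nat_lit 176)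 (nat_lit 5) (nat_lit 491) (nat_lit 434) (nat_lit 275)) (XT.lf (nat_lit 0) (nat_lit 1986169986) (nat_lit 456) (nat_lit 3769915836) (nat_lit 76) (nat_lit 23588421586) (nat_lit 169) (nat_lit 5) (nat_lit 175) (nat_lit 5) (nat_lit 170) (nat_lit 5) (nat_lit 492) (nat_lit 434) (nat_lit 274))) (XT.nd (nat_lit 78) (nat_lit 380) (nat_lit 0) (XT.lf (nat_lit 0) (nat_lit 12401001719) (nat_lit 456) (nat_lit 6366492276) (nat_lit 76) (nat_lit 11115724959) (nat_lit 164) (nat_lit 5) (nat_lit 170) (nat_lit 5) (nat_lit 165) (nat_lit 5) (nat_lit 493) (nat_lit 434) (nat_lit 273)) (XT.lf (nat_lit 0) (nat_lit 21465207974) (nat_lit 380) (nat_lit 1857918742) (nat_lit 456) (nat_lit 7111068302) (nat_lit 159) (nat_lit 5) (nat_lit 164) (nat_lit 5) (nat_lit 165) (nat_lit 5) (nat_lit 494) (nat_lit 434) (nat_lit 272))))))) (XT.nd (nat_lit 1170) (nat_lit 228) (nat_lit 0) (XT.nd (nat_lit 546) (nat_lit 2204) (nat_lit 0) (XT.nd (nat_lit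 234) (nat_lit 1444) (nat_lit 0) (XT.nd (nat_lit 78) (nat_lit 684) (nat_lit 0) (XT.lf (nat_lit 0) (nat_lit 3787644173) (nat_lit 380) (nat_lit 11664211752) (nat_lit 76) (nat_lit 15544115510) (nat_lit 154) (nat_lit 5) (nat_lit 159) (nat_lit 5) (nat_lit 155) (nat_lit 5) (nat_lit 495) (nat_lit 434) (nat_lit 271)) (XT.nd (nat_lit 78) (nat_lit 304) (nat_lit 0) (XT.lf (nat_lit 0) (nat_lit 15107497033) (nat_lit 456) (nat_lit 14401247316) (nat_lit 76) (nat_lit 2061101027) (nat_lit 149) (nat_lit 5) (nat_lit 155) (nat_lit 5) (nat_lit 150) (nat_lit 5) (nat_lit 496) (nat_lit 434) (nat_lit 270)) (XT.lf (nat_lit 0) (nat_lit 14945486910) (nat_lit 304) (nat_lit 12093037441) (nat_lit 380) (nat_lit 5116979730) (nat_lit 145) (nat_lit 5) (nat_lit 149) (nat_lit 5) (nat_lit 150) (nat_lit 5) (nat_lit 497) (nat_lit 434) (nat_lit 269)))) (XT.nd (nat_lit 156) (nat_lit 684) (nat_lit 0) (XT.nd (nat_lit 78) (nat_lit 304) (nat_lit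 0) (XT.lf (nat_lit 0) (nat_lit 6694588497) (nat_lit 456) (nat_lit 20070544749) (nat_lit 76) (nat_lit 5988506666) (nat_lit 139) (nat_lit 5) (nat_lit 145) (nat_lit 5) (nat_lit 140) (nat_lit 5) (nat_lit 498) (nat_lit 434) (nat_lit 268)) (XT.lf (nat_lit 0) (nat_lit 10347862016) (nat_lit 304) (nat_lit 8700840499) (nat_lit 380) (nat_lit 14315186583) (nat_lit 135) (nat_lit 5) (nat_lit 139) (nat_lit 5) (nat_lit 140) (nat_lit 5) (nat_lit 499) (nat_lit 434) (nat_lit 267))) (XT.nd (nat_lit 78) (nat_lit 380) (nat_lit 0) (XT.lf (nat_lit 0) (nat_lit 7990316458) (nat_lit 304) (nat_lit 24028212097) (nat_lit 380) (nat_lit 1969015541) (nat_lit 131) (nat_lit 5) (nat_lit 135) (nat_lit 5) (nat_lit 136) (nat_lit 5) (nat_lit 500) (nat_lit 434) (nat_lit 266)) (XT.lf (nat_lit 0) (nat_lit 5545861458) (nat_lit 304) (nat_lit 5304004067) (nat_lit 380) (nat_lit 23773782106) (nat_lit 126) (nat_lit 5) (nat_lit 130) (nat_lit 5) (nat_lit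 131) (nat_lit 5) (nat_lit 501) (nat_lit 434) (nat_lit 265))))) (XT.nd (nat_lit 312) (nat_lit 1216) (nat_lit 0) (XT.nd (nat_lit 156) (nat_lit 304) (nat_lit 0) (XT.nd (nat_lit 78) (nat_lit 380) (nat_lit 0) (XT.lf (nat_lit 0) (nat_lit 3037616855) (nat_lit 304) (nat_lit 21269136962) (nat_lit 380) (nat_lit 10966216413) (nat_lit 122) (nat_lit 5) (nat_lit 126) (nat_lit 5) (nat_lit 127) (nat_lit 5) (nat_lit 502) (nat_lit 434) (nat_lit 264)) (XT.lf (nat_lit 0) (nat_lit 519472127) (nat_lit 304) (nat_lit 1906402582) (nat_lit 380) (nat_lit 33511019148) (nat_lit 117) (nat_lit 5) (nat_lit 121) (nat_lit 5) (nat_lit 122) (nat_lit 5) (nat_lit 503) (nat_lit 434) (nat_lit 263))) (XT.nd (nat_lit 78) (nat_lit 304) (nat_lit 0) (XT.lf (nat_lit 0) (nat_lit 16400992203) (nat_lit 380) (nat_lit 2122772156) (nat_lit 76) (nat_lit 18088916166) (nat_lit 117) (nat_lit 5) (nat_lit 122) (nat_lit 5) (nat_lit 118) (nat_lit 5) (nat_lit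 504) (nat_lit 434) (nat_lit 262)) (XT.lf (nat_lit 0) (nat_lit 31022359423) (nat_lit 380) (nat_lit 4741698290) (nat_lit 76) (nat_lit 1540143246) (nat_lit 113) (nat_lit 5) (nat_lit 118) (nat_lit 5) (nat_lit 114) (nat_lit 5) (nat_lit 505) (nat_lit 434) (nat_lit 261)))) (XT.nd (nat_lit 156) (nat_lit 608) (nat_lit 0) (XT.nd (nat_lit 78) (nat_lit 304) (nat_lit 0) (XT.lf (nat_lit 0) (nat_lit 8291842024) (nat_lit 304) (nat_lit 7498551139) (nat_lit 76) (nat_lit 22218392005) (nat_lit 109) (nat_lit 5) (nat_lit 113) (nat_lit 5) (nat_lit 110) (nat_lit 5) (nat_lit 506) (nat_lit 434) (nat_lit 260)) (XT.lf (nat_lit 0) (nat_lit 23460621661) (nat_lit 380) (nat_lit 10292411253) (nat_lit 76) (nat_lit 4975778989) (nat_lit 105) (nat_lit 5) (nat_lit 110) (nat_lit 5) (nat_lit 106) (nat_lit 5) (nat_lit 507) (nat_lit 434) (nat_lit 259))) (XT.nd (nat_lit 78) (nat_lit 380) (nat_lit 0) (XT.lf (nat_lit 0) (nat_lit 26309690696) (nat_lit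 228) (nat_lit 13095260663) (nat_lit 304) (nat_lit 59078431) (nat_lit 102) (nat_lit 5) (nat_lit 105) (nat_lit 5) (nat_lit 106) (nat_lit 5) (nat_lit 508) (nat_lit 434) (nat_lit 258)) (XT.lf (nat_lit 0) (nat_lit 15676794633) (nat_lit 380) (nat_lit 16136535487) (nat_lit 76) (nat_lit 8400444292) (nat_lit 97) (nat_lit 5) (nat_lit 102) (nat_lit 5) (nat_lit 98) (nat_lit 5) (nat_lit 509) (nat_lit 434) (nat_lit 257)))))) (XT.nd (nat_lit 57096) (nat_lit 0) (nat_lit 30096) (XT.nd (nat_lit 56784) (nat_lit 0) (nat_lit 31464) (XT.nd (nat_lit 56628) (nat_lit 0) (nat_lit 33060) (XT.lf (nat_lit 0) (nat_lit 21807179858) (nat_lit 228) (nat_lit 10388753885) (nat_lit 304) (nat_lit 8783830045) (nat_lit 94) (nat_lit 5) (nat_lit 97) (nat_lit 5) (nat_lit 98) (nat_lit 5) (nat_lit 510) (nat_lit 434) (nat_lit 256)) (XT.nd (nat_lit 78) (nat_lit 0) (nat_lit 0) (XT.lf (nat_lit 0) (nat_lit 4667816875) (nat_lit 1748) (nat_lit 606689648)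 (nat_lit 1748) (nat_lit 606689648) (nat_lit 529) (nat_lit 3) (nat_lit 552) (nat_lit 3) (nat_lit 552) (nat_lit 5) (nat_lit 435) (nat_lit 435) (nat_lit 330)) (XT.lf (nat_lit 76) (nat_lit 7672400673) (nat_lit 0) (nat_lit 2590657030) (nat_lit 1748) (nat_lit 1659999049) (nat_lit 530) (nat_lit 5) (nat_lit 529) (nat_lit 3) (nat_lit 552) (nat_lit 5) (nat_lit 436) (nat_lit 435) (nat_lit 329)))) (XT.nd (nat_lit 156) (nat_lit 0) (nat_lit 0) (XT.nd (nat_lit 78) (nat_lit 1672) (nat_lit 0) (XT.lf (nat_lit 76) (nat_lit 4763459032) (nat_lit 0) (nat_lit 6501659215) (nat_lit 1748) (nat_lit 822487492) (nat_lit 531) (nat_lit 5) (nat_lit 530) (nat_lit 5) (nat_lit 553) (nat_lit 5) (nat_lit 437) (nat_lit 435) (nat_lit 328)) (XT.lf (nat_lit 0) (nat_lit 81149138) (nat_lit 1748) (nat_lit 10427626033) (nat_lit 1824) (nat_lit 1747481164) (nat_lit 508) (nat_lit 5) (nat_lit 531) (nat_lit 5) (nat_lit 532) (nat_lit 5) (nat_lit 438)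 (nat_lit 435) (nat_lit 327))) (XT.nd (nat_lit 78) (nat_lit 0) (nat_lit 76) (XT.lf (nat_lit 0) (nat_lit 1066785510) (nat_lit 1748) (nat_lit 1138082768) (nat_lit 1824) (nat_lit 10223668994) (nat_lit 508) (nat_lit 5) (nat_lit 531) (nat_lit 5) (nat_lit 532) (nat_lit 5) (nat_lit 439) (nat_lit 435) (nat_lit 326)) (XT.lf (nat_lit 0) (nat_lit 2152366435) (nat_lit 1748) (nat_lit 4120673737) (nat_lit 1824) (nat_lit 6331539784) (nat_lit 509) (nat_lit 5) (nat_lit 532) (nat_lit 5) (nat_lit 533) (nat_lit 5) (nat_lit 440) (nat_lit 435) (nat_lit 325))))) (XT.nd (nat_lit 312) (nat_lit 1520) (nat_lit 0) (XT.nd (nat_lit 156) (nat_lit 0) (nat_lit 76) (XT.nd (nat_lit 78) (nat_lit 0) (nat_lit 0) (XT.lf (nat_lit 0) (nat_lit 3319279485) (nat_lit 1748) (nat_lit 7132575349) (nat_lit 1824) (nat_lit 2333074598) (nat_lit 510) (nat_lit 5) (nat_lit 533) (nat_lit 5) (nat_lit 534) (nat_lit 5) (nat_lit 441) (nat_lit 435) (nat_lit 324))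 (XT.lf (nat_lit 76) (nat_lit 2782986272) (nat_lit 0) (nat_lit 1801162925) (nat_lit 1824) (nat_lit 8385281993) (nat_lit 511) (nat_lit 5) (nat_lit 510) (nat_lit 5) (nat_lit 534) (nat_lit 5) (nat_lit 442) (nat_lit 435) (nat_lit 323))) (XT.nd (nat_lit 78) (nat_lit 0) (nat_lit 76) (XT.lf (nat_lit 0) (nat_lit 5957281583) (nat_lit 1748) (nat_lit 127839624) (nat_lit 1824) (nat_lit 7072941220) (nat_lit 511) (nat_lit 5) (nat_lit 534) (nat_lit 5) (nat_lit 535) (nat_lit 5) (nat_lit 443) (nat_lit 435) (nat_lit 322)) (XT.lf (nat_lit 0) (nat_lit 7445921778) (nat_lit 1748) (nat_lit 3030095643) (nat_lit 1824) (nat_lit 2874849641) (nat_lit 512) (nat_lit 5) (nat_lit 535) (nat_lit 5) (nat_lit 536) (nat_lit 5) (nat_lit 444) (nat_lit 435) (nat_lit 321)))) (XT.nd (nat_lit 156) (nat_lit 1672) (nat_lit 0) (XT.nd (nat_lit 78) (nat_lit 0) (nat_lit 76) (XT.lf (nat_lit 76) (nat_lit 7577553580) (nat_lit 0) (nat_lit 1469291073) (nat_lit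 1824) (nat_lit 4501259428) (nat_lit 513) (nat_lit 5) (nat_lit 512) (nat_lit 5) (nat_lit 536) (nat_lit 5) (nat_lit 445) (nat_lit 435) (nat_lit 320)) (XT.lf (nat_lit 76) (nat_lit 4789537985) (nat_lit 0) (nat_lit 5986186942) (nat_lit 1824) (nat_lit 2973935384) (nat_lit 514) (nat_lit 5) (nat_lit 513) (nat_lit 5) (nat_lit 537) (nat_lit 5) (nat_lit 446) (nat_lit 435) (nat_lit 319))) (XT.nd (nat_lit 78) (nat_lit 1824) (nat_lit 0) (XT.lf (nat_lit 76) (nat_lit 1975458848) (nat_lit 0) (nat_lit 10643787133) (nat_lit 1824) (nat_lit 1336762434) (nat_lit 515) (nat_lit 5) (nat_lit 514) (nat_lit 5) (nat_lit 538) (nat_lit 5) (nat_lit 447) (nat_lit 435) (nat_lit 318)) (XT.lf (nat_lit 0) (nat_lit 424542010) (nat_lit 1824) (nat_lit 865017195) (nat_lit 1900) (nat_lit 12877351005) (nat_lit 490) (nat_lit 5) (nat_lit 514) (nat_lit 5) (nat_lit 515) (nat_lit 5) (nat_lit 448) (nat_lit 435) (nat_lit 317))))))))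
noncomputable def xc82 : XT := (XT.nd (nat_lit 2262) (nat_lit 11172) (nat_lit 0) (XT.nd (nat_lit 1092) (nat_lit 8892) (nat_lit 0) (XT.nd (nat_lit 546) (nat_lit 5168) (nat_lit 0) (XT.nd (nat_lit 234) (nat_lit 3800) (nat_lit 0) (XT.nd (nat_lit 78) (nat_lit 0) (nat_lit 76) (XT.lf (nat_lit 0) (nat_lit 2323903369) (nat_lit 1824) (nat_lit 3738608793) (nat_lit 1900) (nat_lit 8319383216) (nat_lit 491) (nat_lit 5) (nat_lit 515) (nat_lit 5) (nat_lit 516) (nat_lit 5) (nat_lit 449) (nat_lit 435) (nat_lit 316)) (XT.nd (nat_lit 78) (nat_lit 0) (nat_lit 0) (XT.lf (nat_lit 0) (nat_lit 4349981864) (nat_lit 1824) (nat_lit 6641058956) (nat_lit 1900) (nat_lit 3610895161) (nat_lit 492) (nat_lit 5) (nat_lit 516) (nat_lit 5) (nat_lit 517) (nat_lit 5) (nat_lit 450) (nat_lit 435) (nat_lit 315)) (XT.lf (nat_lit 76) (nat_lit 5245963264) (nat_lit 0) (nat_lit 1271108934) (nat_lit 1900) (nat_lit 8309901603) (nat_lit 493) (nat_lit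 5) (nat_lit 492) (nat_lit 5) (nat_lit 517) (nat_lit 5) (nat_lit 451) (nat_lit 435) (nat_lit 314)))) (XT.nd (nat_lit 156) (nat_lit 2128) (nat_lit 0) (XT.nd (nat_lit 78) (nat_lit 0) (nat_lit 0) (XT.lf (nat_lit 0) (nat_lit 2481416191) (nat_lit 1824) (nat_lit 6366536408) (nat_lit 1900) (nat_lit 6208835178) (nat_lit 469) (nat_lit 5) (nat_lit 493) (nat_lit 5) (nat_lit 494) (nat_lit 5) (nat_lit 452) (nat_lit 435) (nat_lit 313)) (XT.lf (nat_lit 0) (nat_lit 11327282138) (nat_lit 1900) (nat_lit 304685301) (nat_lit 76) (nat_lit 3659958833) (nat_lit 469) (nat_lit 5) (nat_lit 494) (nat_lit 5) (nat_lit 470) (nat_lit 5) (nat_lit 453) (nat_lit 435) (nat_lit 312))) (XT.nd (nat_lit 78) (nat_lit 988) (nat_lit 0) (XT.lf (nat_lit 0) (nat_lit 12438324572) (nat_lit 1140) (nat_lit 1547643057) (nat_lit 1216) (nat_lit 1546052310) (nat_lit 454) (nat_lit 5) (nat_lit 469) (nat_lit 5) (nat_lit 470) (nat_lit 5) (nat_lit 454) (nat_lit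 435) (nat_lit 311)) (XT.lf (nat_lit 0) (nat_lit 1038865201) (nat_lit 988) (nat_lit 5940280810) (nat_lit 76) (nat_lit 8797924931) (nat_lit 441) (nat_lit 5) (nat_lit 454) (nat_lit 5) (nat_lit 442) (nat_lit 5) (nat_lit 455) (nat_lit 435) (nat_lit 310))))) (XT.nd (nat_lit 234) (nat_lit 2508) (nat_lit 0) (XT.nd (nat_lit 78) (nat_lit 1748) (nat_lit 0) (XT.lf (nat_lit 0) (nat_lit 3763824135) (nat_lit 988) (nat_lit 8824677560) (nat_lit 76) (nat_lit 3439097915) (nat_lit 429) (nat_lit 5) (nat_lit 442) (nat_lit 5) (nat_lit 430) (nat_lit 5) (nat_lit 456) (nat_lit 435) (nat_lit 309)) (XT.nd (nat_lit 78) (nat_lit 912) (nat_lit 0) (XT.lf (nat_lit 0) (nat_lit 4532893645) (nat_lit 836) (nat_lit 2137060995) (nat_lit 912) (nat_lit 9613701524) (nat_lit 418) (nat_lit 5) (nat_lit 429) (nat_lit 5) (nat_lit 430) (nat_lit 5) (nat_lit 457) (nat_lit 435) (nat_lit 308)) (XT.lf (nat_lit 0) (nat_lit 1816615522) (nat_lit 912) (nat_lit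 7957860213) (nat_lit 988) (nat_lit 6770695015) (nat_lit 406) (nat_lit 5) (nat_lit 418) (nat_lit 5) (nat_lit 419) (nat_lit 5) (nat_lit 458) (nat_lit 435) (nat_lit 307)))) (XT.nd (nat_lit 156) (nat_lit 1672) (nat_lit 0) (XT.nd (nat_lit 78) (nat_lit 836) (nat_lit 0) (XT.lf (nat_lit 0) (nat_lit 13068183064) (nat_lit 988) (nat_lit 910560747) (nat_lit 76) (nat_lit 2833866406) (nat_lit 406) (nat_lit 5) (nat_lit 419) (nat_lit 5) (nat_lit 407) (nat_lit 5) (nat_lit 459) (nat_lit 435) (nat_lit 306)) (XT.lf (nat_lit 0) (nat_lit 13428717552) (nat_lit 836) (nat_lit 3156451191) (nat_lit 912) (nat_lit 500415223) (nat_lit 395) (nat_lit 5) (nat_lit 406) (nat_lit 5) (nat_lit 407) (nat_lit 5) (nat_lit 460) (nat_lit 435) (nat_lit 305))) (XT.nd (nat_lit 78) (nat_lit 760) (nat_lit 0) (XT.lf (nat_lit 0) (nat_lit 2917813541) (nat_lit 912) (nat_lit 6464581588) (nat_lit 76) (nat_lit 7981700203) (nat_lit 383) (nat_lit 5) (nat_lit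 395) (nat_lit 5) (nat_lit 384) (nat_lit 5) (nat_lit 461) (nat_lit 435) (nat_lit 304)) (XT.lf (nat_lit 0) (nat_lit 6528810761) (nat_lit 836) (nat_lit 9300104320) (nat_lit 76) (nat_lit 1820040807) (nat_lit 373) (nat_lit 5) (nat_lit 384) (nat_lit 5) (nat_lit 374) (nat_lit 5) (nat_lit 462) (nat_lit 435) (nat_lit 303)))))) (XT.nd (nat_lit 546) (nat_lit 4484) (nat_lit 0) (XT.nd (nat_lit 234) (nat_lit 2052) (nat_lit 0) (XT.nd (nat_lit 78) (nat_lit 1596) (nat_lit 0) (XT.lf (nat_lit 0) (nat_lit 5749886594) (nat_lit 760) (nat_lit 4627430536) (nat_lit 836) (nat_lit 7562461942) (nat_lit 363) (nat_lit 5) (nat_lit 373) (nat_lit 5) (nat_lit 374) (nat_lit 5) (nat_lit 463) (nat_lit 435) (nat_lit 302)) (XT.nd (nat_lit 78) (nat_lit 836) (nat_lit 0) (XT.lf (nat_lit 0) (nat_lit 3120047092) (nat_lit 760) (nat_lit 11335123710) (nat_lit 836) (nat_lit 3781878690) (nat_lit 353) (nat_lit 5) (nat_lit 363) (nat_lit 5) (nat_lit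 364) (nat_lit 5) (nat_lit 464) (nat_lit 435) (nat_lit 301)) (XT.lf (nat_lit 0) (nat_lit 215056049) (nat_lit 836) (nat_lit 18070452153) (nat_lit 76) (nat_lit 255627541) (nat_lit 342) (nat_lit 5) (nat_lit 353) (nat_lit 5) (nat_lit 343) (nat_lit 5) (nat_lit 465) (nat_lit 435) (nat_lit 300)))) (XT.nd (nat_lit 156) (nat_lit 1368) (nat_lit 0) (XT.nd (nat_lit 78) (nat_lit 684) (nat_lit 0) (XT.lf (nat_lit 0) (nat_lit 4445596292) (nat_lit 836) (nat_lit 2237285941) (nat_lit 76) (nat_lit 12167661172) (nat_lit 342) (nat_lit 5) (nat_lit 353) (nat_lit 5) (nat_lit 343) (nat_lit 5) (nat_lit 466) (nat_lit 435) (nat_lit 299)) (XT.lf (nat_lit 0) (nat_lit 8916601266) (nat_lit 760) (nat_lit 4960470658) (nat_lit 76) (nat_lit 5289890747) (nat_lit 333) (nat_lit 5) (nat_lit 343) (nat_lit 5) (nat_lit 334) (nat_lit 5) (nat_lit 467) (nat_lit 435) (nat_lit 298))) (XT.nd (nat_lit 78) (nat_lit 684) (nat_lit 0) (XT.lf (nat_lit 0)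 (nat_lit 11775610653) (nat_lit 684) (nat_lit 1869097940) (nat_lit 760) (nat_lit 5845706814) (nat_lit 324) (nat_lit 5) (nat_lit 333) (nat_lit 5) (nat_lit 334) (nat_lit 5) (nat_lit 468) (nat_lit 435) (nat_lit 297)) (XT.lf (nat_lit 0) (nat_lit 9296644714) (nat_lit 684) (nat_lit 9367219169) (nat_lit 760) (nat_lit 1156724072) (nat_lit 315) (nat_lit 5) (nat_lit 324) (nat_lit 5) (nat_lit 325) (nat_lit 5) (nat_lit 469) (nat_lit 435) (nat_lit 296))))) (XT.nd (nat_lit 312) (nat_lit 2508) (nat_lit 0) (XT.nd (nat_lit 156) (nat_lit 608) (nat_lit 0) (XT.nd (nat_lit 78) (nat_lit 608) (nat_lit 0) (XT.lf (nat_lit 0) (nat_lit 3741077448) (nat_lit 760) (nat_lit 13376920346) (nat_lit 76) (nat_lit 3039864843) (nat_lit 305) (nat_lit 5) (nat_lit 315) (nat_lit 5) (nat_lit 306) (nat_lit 5) (nat_lit 470) (nat_lit 435) (nat_lit 295)) (XT.lf (nat_lit 0) (nat_lit 4214046362) (nat_lit 608) (nat_lit 4705229441) (nat_lit 684) (nat_lit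 11582843577) (nat_lit 297) (nat_lit 5) (nat_lit 305) (nat_lit 5) (nat_lit 306) (nat_lit 5) (nat_lit 471) (nat_lit 435) (nat_lit 294))) (XT.nd (nat_lit 78) (nat_lit 0) (nat_lit 0) (XT.lf (nat_lit 0) (nat_lit 1613510419) (nat_lit 608) (nat_lit 12781043733) (nat_lit 684) (nat_lit 6459315284) (nat_lit 289) (nat_lit 5) (nat_lit 297) (nat_lit 5) (nat_lit 298) (nat_lit 5) (nat_lit 472) (nat_lit 435) (nat_lit 293)) (XT.lf (nat_lit 0) (nat_lit 20163955494) (nat_lit 684) (nat_lit 986085256) (nat_lit 76) (nat_lit 63534235) (nat_lit 289) (nat_lit 5) (nat_lit 298) (nat_lit 5) (nat_lit 290) (nat_lit 5) (nat_lit 473) (nat_lit 435) (nat_lit 292)))) (XT.nd (nat_lit 156) (nat_lit 1216) (nat_lit 0) (XT.nd (nat_lit 78) (nat_lit 608) (nat_lit 0) (XT.lf (nat_lit 0) (nat_lit 4654484934) (nat_lit 684) (nat_lit 3660185930) (nat_lit 76) (nat_lit 13264985272) (nat_lit 280) (nat_lit 5) (nat_lit 289) (nat_lit 5) (nat_lit 281) (nat_lit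 5) (nat_lit 474) (nat_lit 435) (nat_lit 291)) (XT.lf (nat_lit 0) (nat_lit 10644668598) (nat_lit 684) (nat_lit 6355161702) (nat_lit 76) (nat_lit 4954166597) (nat_lit 272) (nat_lit 5) (nat_lit 281) (nat_lit 5) (nat_lit 273) (nat_lit 5) (nat_lit 475) (nat_lit 435) (nat_lit 290))) (XT.nd (nat_lit 78) (nat_lit 684) (nat_lit 0) (XT.lf (nat_lit 0) (nat_lit 13249718419) (nat_lit 532) (nat_lit 3719980799) (nat_lit 608) (nat_lit 5366766090) (nat_lit 265) (nat_lit 5) (nat_lit 272) (nat_lit 5) (nat_lit 273) (nat_lit 5) (nat_lit 476) (nat_lit 435) (nat_lit 289)) (XT.lf (nat_lit 0) (nat_lit 912585238) (nat_lit 684) (nat_lit 11870251909) (nat_lit 76) (nat_lit 9944104905) (nat_lit 256) (nat_lit 5) (nat_lit 265) (nat_lit 5) (nat_lit 257) (nat_lit 5) (nat_lit 477) (nat_lit 435) (nat_lit 288))))))) (XT.nd (nat_lit 1170) (nat_lit 5016) (nat_lit 0) (XT.nd (nat_lit 546) (nat_lit 3040) (nat_lit 0) (XT.nd (nat_lit 234) (nat_lit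 1596) (nat_lit 0) (XT.nd (nat_lit 78) (nat_lit 988) (nat_lit 0) (XT.lf (nat_lit 0) (nat_lit 7444763446) (nat_lit 608) (nat_lit 14702759280) (nat_lit 76) (nat_lit 978153928) (nat_lit 249) (nat_lit 5) (nat_lit 257) (nat_lit 5) (nat_lit 250) (nat_lit 5) (nat_lit 478) (nat_lit 435) (nat_lit 287)) (XT.nd (nat_lit 78) (nat_lit 456) (nat_lit 0) (XT.lf (nat_lit 0) (nat_lit 5929589084) (nat_lit 532) (nat_lit 8437393956) (nat_lit 608) (nat_lit 9165508962) (nat_lit 242) (nat_lit 5) (nat_lit 249) (nat_lit 5) (nat_lit 250) (nat_lit 5) (nat_lit 479) (nat_lit 435) (nat_lit 286)) (XT.lf (nat_lit 0) (nat_lit 3425292225) (nat_lit 456) (nat_lit 18220332015) (nat_lit 532) (nat_lit 2302912691) (nat_lit 236) (nat_lit 5) (nat_lit 242) (nat_lit 5) (nat_lit 243) (nat_lit 5) (nat_lit 480) (nat_lit 435) (nat_lit 285)))) (XT.nd (nat_lit 156) (nat_lit 988) (nat_lit 0) (XT.nd (nat_lit 78) (nat_lit 0) (nat_lit 0) (XT.lf (nat_lit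 0) (nat_lit 859107944) (nat_lit 532) (nat_lit 4015496049) (nat_lit 608) (nat_lit 19498409727) (nat_lit 228) (nat_lit 5) (nat_lit 235) (nat_lit 5) (nat_lit 236) (nat_lit 5) (nat_lit 481) (nat_lit 435) (nat_lit 284)) (XT.lf (nat_lit 0) (nat_lit 12434908274) (nat_lit 608) (nat_lit 1743385021) (nat_lit 76) (nat_lit 10627652283) (nat_lit 228) (nat_lit 5) (nat_lit 236) (nat_lit 5) (nat_lit 229) (nat_lit 5) (nat_lit 482) (nat_lit 435) (nat_lit 283))) (XT.nd (nat_lit 78) (nat_lit 532) (nat_lit 0) (XT.lf (nat_lit 0) (nat_lit 20378115710) (nat_lit 532) (nat_lit 4338759828) (nat_lit 76) (nat_lit 531868174) (nat_lit 222) (nat_lit 5) (nat_lit 229) (nat_lit 5) (nat_lit 223) (nat_lit 5) (nat_lit 483) (nat_lit 435) (nat_lit 282)) (XT.lf (nat_lit 0) (nat_lit 3037041858) (nat_lit 532) (nat_lit 7021945566) (nat_lit 76) (nat_lit 15641074062) (nat_lit 215) (nat_lit 5) (nat_lit 222) (nat_lit 5) (nat_lit 216) (nat_lit 5)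 (nat_lit 484) (nat_lit 435) (nat_lit 281))))) (XT.nd (nat_lit 312) (nat_lit 1216) (nat_lit 0) (XT.nd (nat_lit 156) (nat_lit 912) (nat_lit 0) (XT.nd (nat_lit 78) (nat_lit 456) (nat_lit 0) (XT.lf (nat_lit 0) (nat_lit 11276614915) (nat_lit 532) (nat_lit 9745983628) (nat_lit 76) (nat_lit 5138459620) (nat_lit 209) (nat_lit 5) (nat_lit 216) (nat_lit 5) (nat_lit 210) (nat_lit 5) (nat_lit 485) (nat_lit 435) (nat_lit 280)) (XT.lf (nat_lit 0) (nat_lit 14120083468) (nat_lit 456) (nat_lit 5840568581) (nat_lit 532) (nat_lit 6671287331) (nat_lit 203) (nat_lit 5) (nat_lit 209) (nat_lit 5) (nat_lit 210) (nat_lit 5) (nat_lit 486) (nat_lit 435) (nat_lit 279))) (XT.nd (nat_lit 78) (nat_lit 456) (nat_lit 0) (XT.lf (nat_lit 0) (nat_lit 1963390579) (nat_lit 456) (nat_lit 15329180645) (nat_lit 76) (nat_lit 9820172154) (nat_lit 197) (nat_lit 5) (nat_lit 203) (nat_lit 5) (nat_lit 198) (nat_lit 5) (nat_lit 487) (nat_lit 435)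 (nat_lit 278)) (XT.lf (nat_lit 0) (nat_lit 9398113941) (nat_lit 456) (nat_lit 1545017057) (nat_lit 532) (nat_lit 16660425543) (nat_lit 191) (nat_lit 5) (nat_lit 197) (nat_lit 5) (nat_lit 198) (nat_lit 5) (nat_lit 488) (nat_lit 435) (nat_lit 277)))) (XT.nd (nat_lit 156) (nat_lit 380) (nat_lit 0) (XT.nd (nat_lit 78) (nat_lit 456) (nat_lit 0) (XT.lf (nat_lit 0) (nat_lit 6951569534) (nat_lit 380) (nat_lit 13476544136) (nat_lit 456) (nat_lit 7676263586) (nat_lit 186) (nat_lit 5) (nat_lit 191) (nat_lit 5) (nat_lit 192) (nat_lit 5) (nat_lit 489) (nat_lit 435) (nat_lit 276)) (XT.lf (nat_lit 0) (nat_lit 1729810621) (nat_lit 456) (nat_lit 24116107044) (nat_lit 76) (nat_lit 2770638736) (nat_lit 180) (nat_lit 5) (nat_lit 186) (nat_lit 5) (nat_lit 181) (nat_lit 5) (nat_lit 490) (nat_lit 435) (nat_lit 275))) (XT.nd (nat_lit 78) (nat_lit 0) (nat_lit 0) (XT.lf (nat_lit 0) (nat_lit 1941165876) (nat_lit 380) (nat_lit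 9611358050) (nat_lit 456) (nat_lit 17585787396) (nat_lit 175) (nat_lit 5) (nat_lit 180) (nat_lit 5) (nat_lit 181) (nat_lit 5) (nat_lit 491) (nat_lit 435) (nat_lit 274)) (XT.lf (nat_lit 0) (nat_lit 21871864090) (nat_lit 456) (nat_lit 622858594) (nat_lit 76) (nat_lit 7176957439) (nat_lit 175) (nat_lit 5) (nat_lit 181) (nat_lit 5) (nat_lit 176) (nat_lit 5) (nat_lit 492) (nat_lit 435) (nat_lit 273)))))) (XT.nd (nat_lit 546) (nat_lit 2280) (nat_lit 0) (XT.nd (nat_lit 234) (nat_lit 1520) (nat_lit 0) (XT.nd (nat_lit 78) (nat_lit 760) (nat_lit 0) (XT.lf (nat_lit 0) (nat_lit 2482646110) (nat_lit 456) (nat_lit 3206960640) (nat_lit 76) (nat_lit 24526491131) (nat_lit 169) (nat_lit 5) (nat_lit 175) (nat_lit 5) (nat_lit 170) (nat_lit 5) (nat_lit 493) (nat_lit 435) (nat_lit 272)) (XT.nd (nat_lit 78) (nat_lit 380) (nat_lit 0) (XT.lf (nat_lit 0) (nat_lit 13203052149) (nat_lit 456) (nat_lit 5885362279) (nat_lit 76) (nat_lit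 11682693960) (nat_lit 164) (nat_lit 5) (nat_lit 170) (nat_lit 5) (nat_lit 165) (nat_lit 5) (nat_lit 494) (nat_lit 435) (nat_lit 271)) (XT.lf (nat_lit 0) (nat_lit 22770384553) (nat_lit 380) (nat_lit 1674224558) (nat_lit 456) (nat_lit 6894169453) (nat_lit 159) (nat_lit 5) (nat_lit 164) (nat_lit 5) (nat_lit 165) (nat_lit 5) (nat_lit 495) (nat_lit 435) (nat_lit 270)))) (XT.nd (nat_lit 156) (nat_lit 760) (nat_lit 0) (XT.nd (nat_lit 78) (nat_lit 380) (nat_lit 0) (XT.lf (nat_lit 0) (nat_lit 4319310142) (nat_lit 380) (nat_lit 11351307567) (nat_lit 76) (nat_lit 16246865919) (nat_lit 154) (nat_lit 5) (nat_lit 159) (nat_lit 5) (nat_lit 155) (nat_lit 5) (nat_lit 496) (nat_lit 435) (nat_lit 269)) (XT.lf (nat_lit 0) (nat_lit 15972387589) (nat_lit 456) (nat_lit 14174571019) (nat_lit 76) (nat_lit 2361742780) (nat_lit 149) (nat_lit 5) (nat_lit 155) (nat_lit 5) (nat_lit 150) (nat_lit 5) (nat_lit 497) (nat_lit 435) (nat_lit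 268))) (XT.nd (nat_lit 78) (nat_lit 456) (nat_lit 0) (XT.lf (nat_lit 0) (nat_lit 16041878386) (nat_lit 304) (nat_lit 12211684500) (nat_lit 380) (nat_lit 4858522802) (nat_lit 145) (nat_lit 5) (nat_lit 149) (nat_lit 5) (nat_lit 150) (nat_lit 5) (nat_lit 498) (nat_lit 435) (nat_lit 267)) (XT.lf (nat_lit 0) (nat_lit 7295905331) (nat_lit 456) (nat_lit 20023427011) (nat_lit 76) (nat_lit 6408901606) (nat_lit 139) (nat_lit 5) (nat_lit 145) (nat_lit 5) (nat_lit 140) (nat_lit 5) (nat_lit 499) (nat_lit 435) (nat_lit 266))))) (XT.nd (nat_lit 312) (nat_lit 988) (nat_lit 0) (XT.nd (nat_lit 156) (nat_lit 684) (nat_lit 0) (XT.nd (nat_lit 78) (nat_lit 304) (nat_lit 0) (XT.lf (nat_lit 0) (nat_lit 11296998905) (nat_lit 304) (nat_lit 8716126293) (nat_lit 380) (nat_lit 14343815924) (nat_lit 135) (nat_lit 5) (nat_lit 139) (nat_lit 5) (nat_lit 140) (nat_lit 5) (nat_lit 500) (nat_lit 435) (nat_lit 265)) (XT.lf (nat_lit 0)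 (nat_lit 8864532250) (nat_lit 304) (nat_lit 24501736955) (nat_lit 380) (nat_lit 1633152262) (nat_lit 131) (nat_lit 5) (nat_lit 135) (nat_lit 5) (nat_lit 136) (nat_lit 5) (nat_lit 501) (nat_lit 435) (nat_lit 264))) (XT.nd (nat_lit 78) (nat_lit 304) (nat_lit 0) (XT.lf (nat_lit 0) (nat_lit 6341550154) (nat_lit 304) (nat_lit 5216299311) (nat_lit 380) (nat_lit 24096852831) (nat_lit 126) (nat_lit 5) (nat_lit 130) (nat_lit 5) (nat_lit 131) (nat_lit 5) (nat_lit 502) (nat_lit 435) (nat_lit 263)) (XT.lf (nat_lit 0) (nat_lit 3753802382) (nat_lit 304) (nat_lit 21659115755) (nat_lit 380) (nat_lit 10910697106) (nat_lit 122) (nat_lit 5) (nat_lit 126) (nat_lit 5) (nat_lit 127) (nat_lit 5) (nat_lit 503) (nat_lit 435) (nat_lit 262)))) (XT.nd (nat_lit 156) (nat_lit 608) (nat_lit 0) (XT.nd (nat_lit 78) (nat_lit 0) (nat_lit 0) (XT.lf (nat_lit 0) (nat_lit 1154938240) (nat_lit 304) (nat_lit 1716148014) (nat_lit 380) (nat_lit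 34136461088) (nat_lit 117) (nat_lit 5) (nat_lit 121) (nat_lit 5) (nat_lit 122) (nat_lit 5) (nat_lit 504) (nat_lit 435) (nat_lit 261)) (XT.lf (nat_lit 0) (nat_lit 17256169436) (nat_lit 380) (nat_lit 1578951736) (nat_lit 76) (nat_lit 18868672328) (nat_lit 117) (nat_lit 5) (nat_lit 122) (nat_lit 5) (nat_lit 118) (nat_lit 5) (nat_lit 505) (nat_lit 435) (nat_lit 260))) (XT.nd (nat_lit 78) (nat_lit 304) (nat_lit 0) (XT.lf (nat_lit 0) (nat_lit 32311046896) (nat_lit 380) (nat_lit 4280734316) (nat_lit 76) (nat_lit 1824381082) (nat_lit 113) (nat_lit 5) (nat_lit 118) (nat_lit 5) (nat_lit 114) (nat_lit 5) (nat_lit 506) (nat_lit 435) (nat_lit 259)) (XT.lf (nat_lit 0) (nat_lit 8894370842) (nat_lit 304) (nat_lit 7125373582) (nat_lit 76) (nat_lit 23122224677) (nat_lit 109) (nat_lit 5) (nat_lit 113) (nat_lit 5) (nat_lit 110) (nat_lit 5) (nat_lit 507) (nat_lit 435) (nat_lit 258))))))))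
noncomputable def xc83 : XT := (XT.nd (nat_lit 58890) (nat_lit 0) (nat_lit 6308) (XT.nd (nat_lit 57720) (nat_lit 0) (nat_lit 22572) (XT.nd (nat_lit 57174) (nat_lit 0) (nat_lit 31236) (XT.nd (nat_lit 56862) (nat_lit 0) (nat_lit 31160) (XT.nd (nat_lit 78) (nat_lit 608) (nat_lit 0) (XT.lf (nat_lit 0) (nat_lit 24513295905) (nat_lit 380) (nat_lit 10007369329) (nat_lit 76) (nat_lit 5363029886) (nat_lit 105) (nat_lit 5) (nat_lit 110) (nat_lit 5) (nat_lit 106) (nat_lit 5) (nat_lit 508) (nat_lit 435) (nat_lit 257)) (XT.nd (nat_lit 78) (nat_lit 304) (nat_lit 0) (XT.lf (nat_lit 0) (nat_lit 284706912) (nat_lit 304) (nat_lit 12959808344) (nat_lit 76) (nat_lit 27396544302) (nat_lit 101) (nat_lit 5) (nat_lit 105) (nat_lit 5) (nat_lit 102) (nat_lit 5) (nat_lit 509) (nat_lit 435) (nat_lit 256)) (XT.lf (nat_lit 0) (nat_lit 16487140208) (nat_lit 380) (nat_lit 16036207454) (nat_lit 76) (nat_lit 8890035424) (nat_lit 97)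 (nat_lit 5) (nat_lit 102) (nat_lit 5) (nat_lit 98) (nat_lit 5) (nat_lit 510) (nat_lit 435) (nat_lit 255)))) (XT.nd (nat_lit 156) (nat_lit 1672) (nat_lit 0) (XT.nd (nat_lit 78) (nat_lit 0) (nat_lit 0) (XT.lf (nat_lit 0) (nat_lit 5538336490) (nat_lit 1748) (nat_lit 252331202) (nat_lit 1748) (nat_lit 252331202) (nat_lit 529) (nat_lit 3) (nat_lit 552) (nat_lit 3) (nat_lit 552) (nat_lit 5) (nat_lit 436) (nat_lit 436) (nat_lit 328)) (XT.lf (nat_lit 76) (nat_lit 8635602306) (nat_lit 0) (nat_lit 3358524128) (nat_lit 1748) (nat_lit 258112925) (nat_lit 530) (nat_lit 5) (nat_lit 529) (nat_lit 3) (nat_lit 552) (nat_lit 5) (nat_lit 437) (nat_lit 436) (nat_lit 327))) (XT.nd (nat_lit 78) (nat_lit 0) (nat_lit 76) (XT.lf (nat_lit 0) (nat_lit 555413983) (nat_lit 1748) (nat_lit 6766243722) (nat_lit 1824) (nat_lit 5100813544) (nat_lit 507) (nat_lit 5) (nat_lit 530) (nat_lit 5) (nat_lit 531) (nat_lit 5) (nat_lit 438) (nat_lit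 436) (nat_lit 326)) (XT.lf (nat_lit 0) (nat_lit 1435581365) (nat_lit 1748) (nat_lit 9949823756) (nat_lit 1824) (nat_lit 1211456851) (nat_lit 508) (nat_lit 5) (nat_lit 531) (nat_lit 5) (nat_lit 532) (nat_lit 5) (nat_lit 439) (nat_lit 436) (nat_lit 325))))) (XT.nd (nat_lit 234) (nat_lit 0) (nat_lit 152) (XT.nd (nat_lit 78) (nat_lit 0) (nat_lit 76) (XT.lf (nat_lit 0) (nat_lit 2411408252) (nat_lit 1748) (nat_lit 404622282) (nat_lit 1824) (nat_lit 9959069600) (nat_lit 508) (nat_lit 5) (nat_lit 531) (nat_lit 5) (nat_lit 532) (nat_lit 5) (nat_lit 440) (nat_lit 436) (nat_lit 324)) (XT.nd (nat_lit 78) (nat_lit 0) (nat_lit 76) (XT.lf (nat_lit 0) (nat_lit 3492824840) (nat_lit 1748) (nat_lit 3460115864) (nat_lit 1824) (nat_lit 6004219221) (nat_lit 509) (nat_lit 5) (nat_lit 532) (nat_lit 5) (nat_lit 533) (nat_lit 5) (nat_lit 441) (nat_lit 436) (nat_lit 323)) (XT.lf (nat_lit 0) (nat_lit 4659525968) (nat_lit 1748)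 (nat_lit 6547117322) (nat_lit 1824) (nat_lit 1936982138) (nat_lit 510) (nat_lit 5) (nat_lit 533) (nat_lit 5) (nat_lit 534) (nat_lit 5) (nat_lit 442) (nat_lit 436) (nat_lit 322)))) (XT.nd (nat_lit 156) (nat_lit 0) (nat_lit 152) (XT.nd (nat_lit 78) (nat_lit 0) (nat_lit 76) (XT.lf (nat_lit 76) (nat_lit 3652941260) (nat_lit 0) (nat_lit 2278370802) (nat_lit 1824) (nat_lit 7402971892) (nat_lit 511) (nat_lit 5) (nat_lit 510) (nat_lit 5) (nat_lit 534) (nat_lit 5) (nat_lit 443) (nat_lit 436) (nat_lit 321)) (XT.lf (nat_lit 76) (nat_lit 666821241) (nat_lit 0) (nat_lit 6645246943) (nat_lit 1824) (nat_lit 6217178439) (nat_lit 512) (nat_lit 5) (nat_lit 511) (nat_lit 5) (nat_lit 535) (nat_lit 5) (nat_lit 444) (nat_lit 436) (nat_lit 320))) (XT.nd (nat_lit 78) (nat_lit 0) (nat_lit 0) (XT.lf (nat_lit 0) (nat_lit 8809579745) (nat_lit 1748) (nat_lit 2318797873) (nat_lit 1824) (nat_lit 2600174592) (nat_lit 512) (nat_lit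 5) (nat_lit 535) (nat_lit 5) (nat_lit 536) (nat_lit 5) (nat_lit 445) (nat_lit 436) (nat_lit 319)) (XT.lf (nat_lit 76) (nat_lit 8594066074) (nat_lit 0) (nat_lit 1836376103) (nat_lit 1824) (nat_lit 3501826953) (nat_lit 513) (nat_lit 5) (nat_lit 512) (nat_lit 5) (nat_lit 536) (nat_lit 5) (nat_lit 446) (nat_lit 436) (nat_lit 318)))))) (XT.nd (nat_lit 546) (nat_lit 5700) (nat_lit 0) (XT.nd (nat_lit 234) (nat_lit 1596) (nat_lit 0) (XT.nd (nat_lit 78) (nat_lit 1748) (nat_lit 0) (XT.lf (nat_lit 76) (nat_lit 5733586193) (nat_lit 0) (nat_lit 6448369113) (nat_lit 1824) (nat_lit 1958502410) (nat_lit 514) (nat_lit 5) (nat_lit 513) (nat_lit 5) (nat_lit 537) (nat_lit 5) (nat_lit 447) (nat_lit 436) (nat_lit 317)) (XT.nd (nat_lit 78) (nat_lit 1824) (nat_lit 0) (XT.lf (nat_lit 76) (nat_lit 2845245266) (nat_lit 0) (nat_lit 11207475328) (nat_lit 1824) (nat_lit 300837864) (nat_lit 515) (nat_lit 5) (nat_lit 514) (nat_lit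 5) (nat_lit 538) (nat_lit 5) (nat_lit 448) (nat_lit 436) (nat_lit 316)) (XT.lf (nat_lit 0) (nat_lit 1468263853) (nat_lit 1824) (nat_lit 90320547) (nat_lit 1900) (nat_lit 13012682694) (nat_lit 490) (nat_lit 5) (nat_lit 514) (nat_lit 5) (nat_lit 515) (nat_lit 5) (nat_lit 449) (nat_lit 436) (nat_lit 315)))) (XT.nd (nat_lit 156) (nat_lit 1672) (nat_lit 0) (XT.nd (nat_lit 78) (nat_lit 0) (nat_lit 76) (XT.lf (nat_lit 0) (nat_lit 3398273258) (nat_lit 1824) (nat_lit 3041540126) (nat_lit 1900) (nat_lit 8353415985) (nat_lit 491) (nat_lit 5) (nat_lit 515) (nat_lit 5) (nat_lit 516) (nat_lit 5) (nat_lit 450) (nat_lit 436) (nat_lit 314)) (XT.lf (nat_lit 0) (nat_lit 5459843526) (nat_lit 1824) (nat_lit 6023354747) (nat_lit 1900) (nat_lit 3537179596) (nat_lit 492) (nat_lit 5) (nat_lit 516) (nat_lit 5) (nat_lit 517) (nat_lit 5) (nat_lit 451) (nat_lit 436) (nat_lit 313))) (XT.nd (nat_lit 78) (nat_lit 1748) (nat_lit 0)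 (XT.lf (nat_lit 76) (nat_lit 6207024324) (nat_lit 0) (nat_lit 1461615170) (nat_lit 1900) (nat_lit 7583994313) (nat_lit 493) (nat_lit 5) (nat_lit 492) (nat_lit 5) (nat_lit 517) (nat_lit 5) (nat_lit 452) (nat_lit 436) (nat_lit 312)) (XT.lf (nat_lit 0) (nat_lit 3366313841) (nat_lit 1824) (nat_lit 6679587722) (nat_lit 1900) (nat_lit 5443912354) (nat_lit 469) (nat_lit 5) (nat_lit 493) (nat_lit 5) (nat_lit 494) (nat_lit 5) (nat_lit 453) (nat_lit 436) (nat_lit 311))))) (XT.nd (nat_lit 312) (nat_lit 2660) (nat_lit 0) (XT.nd (nat_lit 156) (nat_lit 1900) (nat_lit 0) (XT.nd (nat_lit 78) (nat_lit 0) (nat_lit 0) (XT.lf (nat_lit 0) (nat_lit 498464131) (nat_lit 1140) (nat_lit 12076453337) (nat_lit 1216) (nat_lit 3157583763) (nat_lit 454) (nat_lit 5) (nat_lit 469) (nat_lit 5) (nat_lit 470) (nat_lit 5) (nat_lit 454) (nat_lit 436) (nat_lit 310)) (XT.lf (nat_lit 0) (nat_lit 13604154477) (nat_lit 1140) (nat_lit 1684772288)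 (nat_lit 1216) (nat_lit 691360450) (nat_lit 454) (nat_lit 5) (nat_lit 469) (nat_lit 5) (nat_lit 470) (nat_lit 5) (nat_lit 455) (nat_lit 436) (nat_lit 309))) (XT.nd (nat_lit 78) (nat_lit 912) (nat_lit 0) (XT.lf (nat_lit 0) (nat_lit 1938024863) (nat_lit 988) (nat_lit 5309124101) (nat_lit 76) (nat_lit 8985849751) (nat_lit 441) (nat_lit 5) (nat_lit 454) (nat_lit 5) (nat_lit 442) (nat_lit 5) (nat_lit 456) (nat_lit 436) (nat_lit 308)) (XT.lf (nat_lit 0) (nat_lit 4724285543) (nat_lit 988) (nat_lit 8275867001) (nat_lit 76) (nat_lit 3491300353) (nat_lit 429) (nat_lit 5) (nat_lit 442) (nat_lit 5) (nat_lit 430) (nat_lit 5) (nat_lit 457) (nat_lit 436) (nat_lit 307)))) (XT.nd (nat_lit 156) (nat_lit 912) (nat_lit 0) (XT.nd (nat_lit 78) (nat_lit 912) (nat_lit 0) (XT.lf (nat_lit 0) (nat_lit 5469232444) (nat_lit 836) (nat_lit 2228878109) (nat_lit 912) (nat_lit 9057471075) (nat_lit 418) (nat_lit 5) (nat_lit 429) (nat_lit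 5) (nat_lit 430) (nat_lit 5) (nat_lit 458) (nat_lit 436) (nat_lit 306)) (XT.lf (nat_lit 0) (nat_lit 2674973341) (nat_lit 912) (nat_lit 8201720313) (nat_lit 988) (nat_lit 6148630142) (nat_lit 406) (nat_lit 5) (nat_lit 418) (nat_lit 5) (nat_lit 419) (nat_lit 5) (nat_lit 459) (nat_lit 436) (nat_lit 305))) (XT.nd (nat_lit 78) (nat_lit 912) (nat_lit 0) (XT.lf (nat_lit 0) (nat_lit 14245617271) (nat_lit 988) (nat_lit 141669122) (nat_lit 76) (nat_lit 2913972605) (nat_lit 406) (nat_lit 5) (nat_lit 419) (nat_lit 5) (nat_lit 407) (nat_lit 5) (nat_lit 460) (nat_lit 436) (nat_lit 304)) (XT.lf (nat_lit 0) (nat_lit 264035483) (nat_lit 912) (nat_lit 2969645475) (nat_lit 76) (nat_lit 14349062689) (nat_lit 394) (nat_lit 5) (nat_lit 406) (nat_lit 5) (nat_lit 395) (nat_lit 5) (nat_lit 461) (nat_lit 436) (nat_lit 303))))))) (XT.nd (nat_lit 1170) (nat_lit 6992) (nat_lit 0) (XT.nd (nat_lit 546) (nat_lit 4636) (nat_lit 0)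 (XT.nd (nat_lit 234) (nat_lit 2280) (nat_lit 0) (XT.nd (nat_lit 78) (nat_lit 1520) (nat_lit 0) (XT.lf (nat_lit 0) (nat_lit 3760779293) (nat_lit 912) (nat_lit 5862853247) (nat_lit 76) (nat_lit 8246256925) (nat_lit 383) (nat_lit 5) (nat_lit 395) (nat_lit 5) (nat_lit 384) (nat_lit 5) (nat_lit 462) (nat_lit 436) (nat_lit 302)) (XT.nd (nat_lit 78) (nat_lit 760) (nat_lit 0) (XT.lf (nat_lit 0) (nat_lit 7463473029) (nat_lit 836) (nat_lit 8781847942) (nat_lit 76) (nat_lit 1918308120) (nat_lit 373) (nat_lit 5) (nat_lit 384) (nat_lit 5) (nat_lit 374) (nat_lit 5) (nat_lit 463) (nat_lit 436) (nat_lit 301)) (XT.lf (nat_lit 0) (nat_lit 6706708111) (nat_lit 760) (nat_lit 4704300448) (nat_lit 836) (nat_lit 7052497499) (nat_lit 363) (nat_lit 5) (nat_lit 373) (nat_lit 5) (nat_lit 374) (nat_lit 5) (nat_lit 464) (nat_lit 436) (nat_lit 300)))) (XT.nd (nat_lit 156) (nat_lit 684) (nat_lit 0) (XT.nd (nat_lit 78) (nat_lit 836)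 (nat_lit 0) (XT.lf (nat_lit 0) (nat_lit 3999084656) (nat_lit 760) (nat_lit 11596563325) (nat_lit 836) (nat_lit 3174358160) (nat_lit 353) (nat_lit 5) (nat_lit 363) (nat_lit 5) (nat_lit 364) (nat_lit 5) (nat_lit 465) (nat_lit 436) (nat_lit 299)) (XT.lf (nat_lit 0) (nat_lit 917941582) (nat_lit 836) (nat_lit 17817176531) (nat_lit 76) (nat_lit 348305516) (nat_lit 342) (nat_lit 5) (nat_lit 353) (nat_lit 5) (nat_lit 343) (nat_lit 5) (nat_lit 466) (nat_lit 436) (nat_lit 298))) (XT.nd (nat_lit 78) (nat_lit 684) (nat_lit 0) (XT.lf (nat_lit 0) (nat_lit 5255113552) (nat_lit 836) (nat_lit 1532182008) (nat_lit 76) (nat_lit 12615224161) (nat_lit 342) (nat_lit 5) (nat_lit 353) (nat_lit 5) (nat_lit 343) (nat_lit 5) (nat_lit 467) (nat_lit 436) (nat_lit 297)) (XT.lf (nat_lit 0) (nat_lit 9846125710) (nat_lit 760) (nat_lit 4336984660) (nat_lit 76) (nat_lit 5545604150) (nat_lit 333) (nat_lit 5) (nat_lit 343) (nat_lit 5)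 (nat_lit 334) (nat_lit 5) (nat_lit 468) (nat_lit 436) (nat_lit 296))))) (XT.nd (nat_lit 312) (nat_lit 1900) (nat_lit 0) (XT.nd (nat_lit 156) (nat_lit 1368) (nat_lit 0) (XT.nd (nat_lit 78) (nat_lit 684) (nat_lit 0) (XT.lf (nat_lit 0) (nat_lit 12888649438) (nat_lit 684) (nat_lit 1813077430) (nat_lit 760) (nat_lit 5360431438) (nat_lit 324) (nat_lit 5) (nat_lit 333) (nat_lit 5) (nat_lit 334) (nat_lit 5) (nat_lit 469) (nat_lit 436) (nat_lit 295)) (XT.lf (nat_lit 0) (nat_lit 10335031317) (nat_lit 684) (nat_lit 9523198802) (nat_lit 760) (nat_lit 544270911) (nat_lit 315) (nat_lit 5) (nat_lit 324) (nat_lit 5) (nat_lit 325) (nat_lit 5) (nat_lit 470) (nat_lit 436) (nat_lit 294))) (XT.nd (nat_lit 78) (nat_lit 608) (nat_lit 0) (XT.lf (nat_lit 0) (nat_lit 4479128224) (nat_lit 760) (nat_lit 13011031074) (nat_lit 76) (nat_lit 3259908042) (nat_lit 305) (nat_lit 5) (nat_lit 315) (nat_lit 5) (nat_lit 306) (nat_lit 5)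 (nat_lit 471) (nat_lit 436) (nat_lit 293)) (XT.lf (nat_lit 0) (nat_lit 5095217778) (nat_lit 608) (nat_lit 4704127368) (nat_lit 684) (nat_lit 11305573619) (nat_lit 297) (nat_lit 5) (nat_lit 305) (nat_lit 5) (nat_lit 306) (nat_lit 5) (nat_lit 472) (nat_lit 436) (nat_lit 292)))) (XT.nd (nat_lit 156) (nat_lit 1292) (nat_lit 0) (XT.nd (nat_lit 78) (nat_lit 0) (nat_lit 0) (XT.lf (nat_lit 0) (nat_lit 2415577405) (nat_lit 608) (nat_lit 13011254904) (nat_lit 684) (nat_lit 6040630423) (nat_lit 289) (nat_lit 5) (nat_lit 297) (nat_lit 5) (nat_lit 298) (nat_lit 5) (nat_lit 473) (nat_lit 436) (nat_lit 291)) (XT.lf (nat_lit 0) (nat_lit 21352792934) (nat_lit 684) (nat_lit 273250673) (nat_lit 76) (nat_lit 212246700) (nat_lit 289) (nat_lit 5) (nat_lit 298) (nat_lit 5) (nat_lit 290) (nat_lit 5) (nat_lit 474) (nat_lit 436) (nat_lit 290))) (XT.nd (nat_lit 78) (nat_lit 608) (nat_lit 0) (XT.lf (nat_lit 0) (nat_lit 5369571744)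 (nat_lit 684) (nat_lit 3031958849) (nat_lit 76) (nat_lit 13813993284) (nat_lit 280) (nat_lit 5) (nat_lit 289) (nat_lit 5) (nat_lit 281) (nat_lit 5) (nat_lit 475) (nat_lit 436) (nat_lit 289)) (XT.lf (nat_lit 0) (nat_lit 11528470283) (nat_lit 684) (nat_lit 5809533017) (nat_lit 76) (nat_lit 5263311751) (nat_lit 272) (nat_lit 5) (nat_lit 281) (nat_lit 5) (nat_lit 273) (nat_lit 5) (nat_lit 476) (nat_lit 436) (nat_lit 288)))))) (XT.nd (nat_lit 546) (nat_lit 3648) (nat_lit 0) (XT.nd (nat_lit 234) (nat_lit 1596) (nat_lit 0) (XT.nd (nat_lit 78) (nat_lit 1216) (nat_lit 0) (XT.lf (nat_lit 0) (nat_lit 14371548183) (nat_lit 532) (nat_lit 3659965893) (nat_lit 608) (nat_lit 4963978557) (nat_lit 265) (nat_lit 5) (nat_lit 272) (nat_lit 5) (nat_lit 273) (nat_lit 5) (nat_lit 477) (nat_lit 436) (nat_lit 287)) (XT.nd (nat_lit 78) (nat_lit 532) (nat_lit 0) (XT.lf (nat_lit 0) (nat_lit 1485963539) (nat_lit 684) (nat_lit 11496714213)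 (nat_lit 76) (nat_lit 10415140975) (nat_lit 256) (nat_lit 5) (nat_lit 265) (nat_lit 5) (nat_lit 257) (nat_lit 5) (nat_lit 478) (nat_lit 436) (nat_lit 286)) (XT.lf (nat_lit 0) (nat_lit 8204053121) (nat_lit 608) (nat_lit 14416516509) (nat_lit 76) (nat_lit 1188147154) (nat_lit 249) (nat_lit 5) (nat_lit 257) (nat_lit 5) (nat_lit 250) (nat_lit 5) (nat_lit 479) (nat_lit 436) (nat_lit 285)))) (XT.nd (nat_lit 156) (nat_lit 608) (nat_lit 0) (XT.nd (nat_lit 78) (nat_lit 456) (nat_lit 0) (XT.lf (nat_lit 0) (nat_lit 6823002313) (nat_lit 532) (nat_lit 8499972555) (nat_lit 608) (nat_lit 8904981339) (nat_lit 242) (nat_lit 5) (nat_lit 249) (nat_lit 5) (nat_lit 250) (nat_lit 5) (nat_lit 480) (nat_lit 436) (nat_lit 284)) (XT.lf (nat_lit 0) (nat_lit 4241090967) (nat_lit 456) (nat_lit 18569424217) (nat_lit 532) (nat_lit 1846156819) (nat_lit 236) (nat_lit 5) (nat_lit 242) (nat_lit 5) (nat_lit 243) (nat_lit 5) (nat_lit 481)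 (nat_lit 436) (nat_lit 283))) (XT.nd (nat_lit 78) (nat_lit 0) (nat_lit 0) (XT.lf (nat_lit 0) (nat_lit 1593147786) (nat_lit 532) (nat_lit 3936124634) (nat_lit 608) (nat_lit 19564753025) (nat_lit 228) (nat_lit 5) (nat_lit 235) (nat_lit 5) (nat_lit 236) (nat_lit 5) (nat_lit 482) (nat_lit 436) (nat_lit 282)) (XT.lf (nat_lit 0) (nat_lit 13302836859) (nat_lit 608) (nat_lit 1099426552) (nat_lit 76) (nat_lit 11137953122) (nat_lit 228) (nat_lit 5) (nat_lit 236) (nat_lit 5) (nat_lit 229) (nat_lit 5) (nat_lit 483) (nat_lit 436) (nat_lit 281))))) (XT.nd (nat_lit 312) (nat_lit 1748) (nat_lit 0) (XT.nd (nat_lit 156) (nat_lit 912) (nat_lit 0) (XT.nd (nat_lit 78) (nat_lit 532) (nat_lit 0) (XT.lf (nat_lit 0) (nat_lit 21475672593) (nat_lit 532) (nat_lit 3775549656) (nat_lit 76) (nat_lit 745250005) (nat_lit 222) (nat_lit 5) (nat_lit 229) (nat_lit 5) (nat_lit 223) (nat_lit 5) (nat_lit 484) (nat_lit 436) (nat_lit 280))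 (XT.lf (nat_lit 0) (nat_lit 3607798375) (nat_lit 532) (nat_lit 6544096842) (nat_lit 76) (nat_lit 16309566165) (nat_lit 215) (nat_lit 5) (nat_lit 222) (nat_lit 5) (nat_lit 216) (nat_lit 5) (nat_lit 485) (nat_lit 436) (nat_lit 279))) (XT.nd (nat_lit 78) (nat_lit 456) (nat_lit 0) (XT.lf (nat_lit 0) (nat_lit 12086331790) (nat_lit 532) (nat_lit 9352961717) (nat_lit 76) (nat_lit 5497159252) (nat_lit 209) (nat_lit 5) (nat_lit 216) (nat_lit 5) (nat_lit 210) (nat_lit 5) (nat_lit 486) (nat_lit 436) (nat_lit 278)) (XT.lf (nat_lit 0) (nat_lit 15217967569) (nat_lit 456) (nat_lit 5803569719) (nat_lit 532) (nat_lit 6400110436) (nat_lit 203) (nat_lit 5) (nat_lit 209) (nat_lit 5) (nat_lit 210) (nat_lit 5) (nat_lit 487) (nat_lit 436) (nat_lit 277)))) (XT.nd (nat_lit 156) (nat_lit 836) (nat_lit 0) (XT.nd (nat_lit 78) (nat_lit 456) (nat_lit 0) (XT.lf (nat_lit 0) (nat_lit 2479611396) (nat_lit 456) (nat_lit 15111883964)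 (nat_lit 76) (nat_lit 10325475824) (nat_lit 197) (nat_lit 5) (nat_lit 203) (nat_lit 5) (nat_lit 198) (nat_lit 5) (nat_lit 488) (nat_lit 436) (nat_lit 276)) (XT.lf (nat_lit 0) (nat_lit 10346243147) (nat_lit 456) (nat_lit 1373506226) (nat_lit 532) (nat_lit 16702939497) (nat_lit 191) (nat_lit 5) (nat_lit 197) (nat_lit 5) (nat_lit 198) (nat_lit 5) (nat_lit 489) (nat_lit 436) (nat_lit 275))) (XT.nd (nat_lit 78) (nat_lit 456) (nat_lit 0) (XT.lf (nat_lit 0) (nat_lit 7822931552) (nat_lit 380) (nat_lit 13658968716) (nat_lit 456) (nat_lit 7456781794) (nat_lit 186) (nat_lit 5) (nat_lit 191) (nat_lit 5) (nat_lit 192) (nat_lit 5) (nat_lit 490) (nat_lit 436) (nat_lit 274)) (XT.lf (nat_lit 0) (nat_lit 2218364536) (nat_lit 456) (nat_lit 24174452308) (nat_lit 76) (nat_lit 3073495777) (nat_lit 180) (nat_lit 5) (nat_lit 186) (nat_lit 5) (nat_lit 181) (nat_lit 5) (nat_lit 491) (nat_lit 436) (nat_lit 273))))))))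
noncomputable def xc84 : XT := (XT.nd (nat_lit 58890) (nat_lit 0) (nat_lit 14592) (XT.nd (nat_lit 1092) (nat_lit 1520) (nat_lit 0) (XT.nd (nat_lit 546) (nat_lit 2432) (nat_lit 0) (XT.nd (nat_lit 234) (nat_lit 1520) (nat_lit 0) (XT.nd (nat_lit 78) (nat_lit 456) (nat_lit 0) (XT.lf (nat_lit 0) (nat_lit 2653747727) (nat_lit 380) (nat_lit 9673541726) (nat_lit 456) (nat_lit 17676600344) (nat_lit 175) (nat_lit 5) (nat_lit 180) (nat_lit 5) (nat_lit 181) (nat_lit 5) (nat_lit 492) (nat_lit 436) (nat_lit 272)) (XT.nd (nat_lit 78) (nat_lit 76) (nat_lit 0) (XT.lf (nat_lit 0) (nat_lit 648006) (nat_lit 380) (nat_lit 22944520069) (nat_lit 456) (nat_lit 7608312629) (nat_lit 170) (nat_lit 5) (nat_lit 175) (nat_lit 5) (nat_lit 176) (nat_lit 5) (nat_lit 493) (nat_lit 436) (nat_lit 271)) (XT.lf (nat_lit 0) (nat_lit 2968937185) (nat_lit 456) (nat_lit 2665924976) (nat_lit 76) (nat_lit 25479475891) (nat_lit 169) (nat_lit 5)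 (nat_lit 175) (nat_lit 5) (nat_lit 170) (nat_lit 5) (nat_lit 494) (nat_lit 436) (nat_lit 270)))) (XT.nd (nat_lit 156) (nat_lit 760) (nat_lit 0) (XT.nd (nat_lit 78) (nat_lit 380) (nat_lit 0) (XT.lf (nat_lit 0) (nat_lit 14004479163) (nat_lit 456) (nat_lit 5428381093) (nat_lit 76) (nat_lit 12253268334) (nat_lit 164) (nat_lit 5) (nat_lit 170) (nat_lit 5) (nat_lit 165) (nat_lit 5) (nat_lit 495) (nat_lit 436) (nat_lit 269)) (XT.lf (nat_lit 0) (nat_lit 24076759677) (nat_lit 380) (nat_lit 1498763911) (nat_lit 456) (nat_lit 6695460653) (nat_lit 159) (nat_lit 5) (nat_lit 164) (nat_lit 5) (nat_lit 165) (nat_lit 5) (nat_lit 496) (nat_lit 436) (nat_lit 268))) (XT.nd (nat_lit 78) (nat_lit 380) (nat_lit 0) (XT.lf (nat_lit 0) (nat_lit 4842929077) (nat_lit 380) (nat_lit 11067065441) (nat_lit 76) (nat_lit 16957126966) (nat_lit 154) (nat_lit 5) (nat_lit 159) (nat_lit 5) (nat_lit 155) (nat_lit 5) (nat_lit 497) (nat_lit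 436) (nat_lit 267)) (XT.lf (nat_lit 0) (nat_lit 16839593570) (nat_lit 456) (nat_lit 13978907296) (nat_lit 76) (nat_lit 2657695187) (nat_lit 149) (nat_lit 5) (nat_lit 155) (nat_lit 5) (nat_lit 150) (nat_lit 5) (nat_lit 498) (nat_lit 436) (nat_lit 266))))) (XT.nd (nat_lit 234) (nat_lit 1368) (nat_lit 0) (XT.nd (nat_lit 78) (nat_lit 760) (nat_lit 0) (XT.lf (nat_lit 0) (nat_lit 17133962213) (nat_lit 304) (nat_lit 12347905838) (nat_lit 380) (nat_lit 4615960717) (nat_lit 145) (nat_lit 5) (nat_lit 149) (nat_lit 5) (nat_lit 150) (nat_lit 5) (nat_lit 499) (nat_lit 436) (nat_lit 265)) (XT.nd (nat_lit 78) (nat_lit 304) (nat_lit 0) (XT.lf (nat_lit 0) (nat_lit 7892272528) (nat_lit 456) (nat_lit 20012164433) (nat_lit 76) (nat_lit 6828088947) (nat_lit 139) (nat_lit 5) (nat_lit 145) (nat_lit 5) (nat_lit 140) (nat_lit 5) (nat_lit 500) (nat_lit 436) (nat_lit 264)) (XT.lf (nat_lit 0) (nat_lit 12237945850) (nat_lit 304)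 (nat_lit 8745977109) (nat_lit 380) (nat_lit 14396313213) (nat_lit 135) (nat_lit 5) (nat_lit 139) (nat_lit 5) (nat_lit 140) (nat_lit 5) (nat_lit 501) (nat_lit 436) (nat_lit 263)))) (XT.nd (nat_lit 156) (nat_lit 684) (nat_lit 0) (XT.nd (nat_lit 78) (nat_lit 380) (nat_lit 0) (XT.lf (nat_lit 0) (nat_lit 9728551258) (nat_lit 304) (nat_lit 25003664824) (nat_lit 380) (nat_lit 1309883896) (nat_lit 131) (nat_lit 5) (nat_lit 135) (nat_lit 5) (nat_lit 136) (nat_lit 5) (nat_lit 502) (nat_lit 436) (nat_lit 262)) (XT.lf (nat_lit 0) (nat_lit 7124984378) (nat_lit 304) (nat_lit 5140132170) (nat_lit 380) (nat_lit 24452011468) (nat_lit 126) (nat_lit 5) (nat_lit 130) (nat_lit 5) (nat_lit 131) (nat_lit 5) (nat_lit 503) (nat_lit 436) (nat_lit 261))) (XT.nd (nat_lit 78) (nat_lit 380) (nat_lit 0) (XT.lf (nat_lit 0) (nat_lit 4455592645) (nat_lit 304) (nat_lit 22075035599) (nat_lit 380) (nat_lit 10875584425) (nat_lit 122) (nat_lit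 5) (nat_lit 126) (nat_lit 5) (nat_lit 127) (nat_lit 5) (nat_lit 504) (nat_lit 436) (nat_lit 260)) (XT.lf (nat_lit 0) (nat_lit 1773884576) (nat_lit 304) (nat_lit 1534390259) (nat_lit 380) (nat_lit 34802473449) (nat_lit 117) (nat_lit 5) (nat_lit 121) (nat_lit 5) (nat_lit 122) (nat_lit 5) (nat_lit 505) (nat_lit 436) (nat_lit 259)))))) (XT.nd (nat_lit 57174) (nat_lit 0) (nat_lit 31084) (XT.nd (nat_lit 234) (nat_lit 912) (nat_lit 0) (XT.nd (nat_lit 78) (nat_lit 608) (nat_lit 0) (XT.lf (nat_lit 0) (nat_lit 18116155836) (nat_lit 380) (nat_lit 1053689896) (nat_lit 76) (nat_lit 19658211316) (nat_lit 117) (nat_lit 5) (nat_lit 122) (nat_lit 5) (nat_lit 118) (nat_lit 5) (nat_lit 506) (nat_lit 436) (nat_lit 258)) (XT.nd (nat_lit 78) (nat_lit 304) (nat_lit 0) (XT.lf (nat_lit 0) (nat_lit 33617843371) (nat_lit 380) (nat_lit 3840568427) (nat_lit 76) (nat_lit 2103481955) (nat_lit 113) (nat_lit 5) (nat_lit 118) (nat_lit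 5) (nat_lit 114) (nat_lit 5) (nat_lit 507) (nat_lit 436) (nat_lit 257)) (XT.lf (nat_lit 0) (nat_lit 9494667476) (nat_lit 304) (nat_lit 6775336042) (nat_lit 76) (nat_lit 24039551435) (nat_lit 109) (nat_lit 5) (nat_lit 113) (nat_lit 5) (nat_lit 110) (nat_lit 5) (nat_lit 508) (nat_lit 436) (nat_lit 256)))) (XT.nd (nat_lit 156) (nat_lit 304) (nat_lit 0) (XT.nd (nat_lit 78) (nat_lit 304) (nat_lit 0) (XT.lf (nat_lit 0) (nat_lit 25577524638) (nat_lit 380) (nat_lit 9747863515) (nat_lit 76) (nat_lit 5748237426) (nat_lit 105) (nat_lit 5) (nat_lit 110) (nat_lit 5) (nat_lit 106) (nat_lit 5) (nat_lit 509) (nat_lit 436) (nat_lit 255)) (XT.lf (nat_lit 0) (nat_lit 618217133) (nat_lit 304) (nat_lit 12793634323) (nat_lit 76) (nat_lit 28441936893) (nat_lit 101) (nat_lit 5) (nat_lit 105) (nat_lit 5) (nat_lit 102) (nat_lit 5) (nat_lit 510) (nat_lit 436) (nat_lit 254))) (XT.nd (nat_lit 56706) (nat_lit 0) (nat_lit 31084)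 (XT.lf (nat_lit 0) (nat_lit 17302276365) (nat_lit 380) (nat_lit 15966417914) (nat_lit 76) (nat_lit 9380676353) (nat_lit 97) (nat_lit 5) (nat_lit 102) (nat_lit 5) (nat_lit 98) (nat_lit 5) (nat_lit 511) (nat_lit 436) (nat_lit 253)) (XT.lf (nat_lit 0) (nat_lit 90671107) (nat_lit 0) (nat_lit 90671107) (nat_lit 1748) (nat_lit 6029105919) (nat_lit 506) (nat_lit 5) (nat_lit 506) (nat_lit 3) (nat_lit 529) (nat_lit 3) (nat_lit 437) (nat_lit 437) (nat_lit 326))))) (XT.nd (nat_lit 312) (nat_lit 0) (nat_lit 228) (XT.nd (nat_lit 156) (nat_lit 0) (nat_lit 152) (XT.nd (nat_lit 78) (nat_lit 0) (nat_lit 76) (XT.lf (nat_lit 0) (nat_lit 1088037613) (nat_lit 1748) (nat_lit 3014471037) (nat_lit 1824) (nat_lit 8490282170) (nat_lit 506) (nat_lit 5) (nat_lit 529) (nat_lit 3) (nat_lit 530) (nat_lit 5) (nat_lit 438) (nat_lit 437) (nat_lit 325)) (XT.lf (nat_lit 0) (nat_lit 1883666011) (nat_lit 1748) (nat_lit 6241427237) (nat_lit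 1824) (nat_lit 4643779473) (nat_lit 507) (nat_lit 5) (nat_lit 530) (nat_lit 5) (nat_lit 531) (nat_lit 5) (nat_lit 439) (nat_lit 437) (nat_lit 324))) (XT.nd (nat_lit 78) (nat_lit 0) (nat_lit 0) (XT.lf (nat_lit 0) (nat_lit 2753036357) (nat_lit 1748) (nat_lit 9503072868) (nat_lit 1824) (nat_lit 693131175) (nat_lit 508) (nat_lit 5) (nat_lit 531) (nat_lit 5) (nat_lit 532) (nat_lit 5) (nat_lit 440) (nat_lit 437) (nat_lit 323)) (XT.lf (nat_lit 76) (nat_lit 310855391) (nat_lit 0) (nat_lit 3412182855) (nat_lit 1824) (nat_lit 9410490613) (nat_lit 509) (nat_lit 5) (nat_lit 508) (nat_lit 5) (nat_lit 532) (nat_lit 5) (nat_lit 441) (nat_lit 437) (nat_lit 322)))) (XT.nd (nat_lit 156) (nat_lit 0) (nat_lit 76) (XT.nd (nat_lit 78) (nat_lit 0) (nat_lit 76) (XT.lf (nat_lit 0) (nat_lit 4800255840) (nat_lit 1748) (nat_lit 2824756286) (nat_lit 1824) (nat_lit 5696772269) (nat_lit 509) (nat_lit 5) (nat_lit 532) (nat_lit 5)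 (nat_lit 533) (nat_lit 5) (nat_lit 442) (nat_lit 437) (nat_lit 321)) (XT.lf (nat_lit 0) (nat_lit 5968760421) (nat_lit 1748) (nat_lit 5989986410) (nat_lit 1824) (nat_lit 1555762073) (nat_lit 510) (nat_lit 5) (nat_lit 533) (nat_lit 5) (nat_lit 534) (nat_lit 5) (nat_lit 443) (nat_lit 437) (nat_lit 320))) (XT.nd (nat_lit 78) (nat_lit 0) (nat_lit 76) (XT.lf (nat_lit 76) (nat_lit 4503848567) (nat_lit 0) (nat_lit 2745603054) (nat_lit 1824) (nat_lit 6462021592) (nat_lit 511) (nat_lit 5) (nat_lit 510) (nat_lit 5) (nat_lit 534) (nat_lit 5) (nat_lit 444) (nat_lit 437) (nat_lit 319)) (XT.lf (nat_lit 76) (nat_lit 1441134431) (nat_lit 0) (nat_lit 7199669382) (nat_lit 1824) (nat_lit 5272098507) (nat_lit 512) (nat_lit 5) (nat_lit 511) (nat_lit 5) (nat_lit 535) (nat_lit 5) (nat_lit 445) (nat_lit 437) (nat_lit 318))))))) (XT.nd (nat_lit 1092) (nat_lit 9804) (nat_lit 0) (XT.nd (nat_lit 546) (nat_lit 5472) (nat_lit 0)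 (XT.nd (nat_lit 234) (nat_lit 1672) (nat_lit 0) (XT.nd (nat_lit 78) (nat_lit 0) (nat_lit 0) (XT.lf (nat_lit 0) (nat_lit 10148690698) (nat_lit 1748) (nat_lit 1632210769) (nat_lit 1824) (nat_lit 2337977606) (nat_lit 512) (nat_lit 5) (nat_lit 535) (nat_lit 5) (nat_lit 536) (nat_lit 5) (nat_lit 446) (nat_lit 437) (nat_lit 317)) (XT.nd (nat_lit 78) (nat_lit 0) (nat_lit 76) (XT.lf (nat_lit 76) (nat_lit 9595771444) (nat_lit 0) (nat_lit 2195931802) (nat_lit 1824) (nat_lit 2537534737) (nat_lit 513) (nat_lit 5) (nat_lit 512) (nat_lit 5) (nat_lit 536) (nat_lit 5) (nat_lit 447) (nat_lit 437) (nat_lit 316)) (XT.lf (nat_lit 76) (nat_lit 6660011790) (nat_lit 0) (nat_lit 6908194550) (nat_lit 1824) (nat_lit 976017935) (nat_lit 514) (nat_lit 5) (nat_lit 513) (nat_lit 5) (nat_lit 537) (nat_lit 5) (nat_lit 448) (nat_lit 437) (nat_lit 315)))) (XT.nd (nat_lit 156) (nat_lit 0) (nat_lit 76) (XT.nd (nat_lit 78) (nat_lit 0)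 (nat_lit 0) (XT.lf (nat_lit 0) (nat_lit 695157783) (nat_lit 1824) (nat_lit 11074223410) (nat_lit 1900) (nat_lit 2994775303) (nat_lit 490) (nat_lit 5) (nat_lit 514) (nat_lit 5) (nat_lit 515) (nat_lit 5) (nat_lit 449) (nat_lit 437) (nat_lit 314)) (XT.lf (nat_lit 76) (nat_lit 670449644) (nat_lit 0) (nat_lit 1818017919) (nat_lit 1900) (nat_lit 12500385480) (nat_lit 491) (nat_lit 5) (nat_lit 490) (nat_lit 5) (nat_lit 515) (nat_lit 5) (nat_lit 450) (nat_lit 437) (nat_lit 313))) (XT.nd (nat_lit 78) (nat_lit 0) (nat_lit 76) (XT.lf (nat_lit 0) (nat_lit 4447203063) (nat_lit 1824) (nat_lit 2370012334) (nat_lit 1900) (nat_lit 8400843116) (nat_lit 491) (nat_lit 5) (nat_lit 515) (nat_lit 5) (nat_lit 516) (nat_lit 5) (nat_lit 451) (nat_lit 437) (nat_lit 312)) (XT.lf (nat_lit 0) (nat_lit 6546781641) (nat_lit 1824) (nat_lit 5434014878) (nat_lit 1900) (nat_lit 3471702545) (nat_lit 492) (nat_lit 5) (nat_lit 516) (nat_lit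 5) (nat_lit 517) (nat_lit 5) (nat_lit 452) (nat_lit 437) (nat_lit 311))))) (XT.nd (nat_lit 234) (nat_lit 2736) (nat_lit 0) (XT.nd (nat_lit 78) (nat_lit 2888) (nat_lit 0) (XT.lf (nat_lit 76) (nat_lit 7150782573) (nat_lit 0) (nat_lit 1649089762) (nat_lit 1900) (nat_lit 6892290523) (nat_lit 493) (nat_lit 5) (nat_lit 492) (nat_lit 5) (nat_lit 517) (nat_lit 5) (nat_lit 453) (nat_lit 437) (nat_lit 310)) (XT.nd (nat_lit 78) (nat_lit 1140) (nat_lit 0) (XT.lf (nat_lit 0) (nat_lit 4231234979) (nat_lit 1824) (nat_lit 6995024105) (nat_lit 1900) (nat_lit 4710643921) (nat_lit 469) (nat_lit 5) (nat_lit 493) (nat_lit 5) (nat_lit 494) (nat_lit 5) (nat_lit 454) (nat_lit 437) (nat_lit 309)) (XT.lf (nat_lit 0) (nat_lit 1283010451) (nat_lit 1140) (nat_lit 12526805132) (nat_lit 1216) (nat_lit 2377482704) (nat_lit 454) (nat_lit 5) (nat_lit 469) (nat_lit 5) (nat_lit 470) (nat_lit 5) (nat_lit 455) (nat_lit 437) (nat_lit 308))))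 (XT.nd (nat_lit 156) (nat_lit 1748) (nat_lit 0) (XT.nd (nat_lit 78) (nat_lit 912) (nat_lit 0) (XT.lf (nat_lit 0) (nat_lit 135446847) (nat_lit 1216) (nat_lit 1684453082) (nat_lit 76) (nat_lit 14623100428) (nat_lit 453) (nat_lit 5) (nat_lit 469) (nat_lit 5) (nat_lit 454) (nat_lit 5) (nat_lit 456) (nat_lit 437) (nat_lit 307)) (XT.lf (nat_lit 0) (nat_lit 2814332924) (nat_lit 988) (nat_lit 4705493561) (nat_lit 76) (nat_lit 9183775769) (nat_lit 441) (nat_lit 5) (nat_lit 454) (nat_lit 5) (nat_lit 442) (nat_lit 5) (nat_lit 457) (nat_lit 437) (nat_lit 306))) (XT.nd (nat_lit 78) (nat_lit 836) (nat_lit 0) (XT.lf (nat_lit 0) (nat_lit 5664908146) (nat_lit 988) (nat_lit 7757293275) (nat_lit 76) (nat_lit 3547994779) (nat_lit 429) (nat_lit 5) (nat_lit 442) (nat_lit 5) (nat_lit 430) (nat_lit 5) (nat_lit 458) (nat_lit 437) (nat_lit 305)) (XT.lf (nat_lit 0) (nat_lit 6387717928) (nat_lit 836) (nat_lit 2321859341) (nat_lit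 912) (nat_lit 8533039590) (nat_lit 418) (nat_lit 5) (nat_lit 429) (nat_lit 5) (nat_lit 430) (nat_lit 5) (nat_lit 459) (nat_lit 437) (nat_lit 304)))))) (XT.nd (nat_lit 546) (nat_lit 4864) (nat_lit 0) (XT.nd (nat_lit 234) (nat_lit 3116) (nat_lit 0) (XT.nd (nat_lit 78) (nat_lit 912) (nat_lit 0) (XT.lf (nat_lit 0) (nat_lit 3512937080) (nat_lit 912) (nat_lit 8452602060) (nat_lit 988) (nat_lit 5555272359) (nat_lit 406) (nat_lit 5) (nat_lit 418) (nat_lit 5) (nat_lit 419) (nat_lit 5) (nat_lit 460) (nat_lit 437) (nat_lit 303)) (XT.nd (nat_lit 78) (nat_lit 76) (nat_lit 0) (XT.lf (nat_lit 0) (nat_lit 612618226) (nat_lit 836) (nat_lit 14804649276) (nat_lit 912) (nat_lit 2388123129) (nat_lit 395) (nat_lit 5) (nat_lit 406) (nat_lit 5) (nat_lit 407) (nat_lit 5) (nat_lit 461) (nat_lit 437) (nat_lit 302)) (XT.lf (nat_lit 0) (nat_lit 1000303458) (nat_lit 912) (nat_lit 2310709169) (nat_lit 76) (nat_lit 14784626876) (nat_lit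 394) (nat_lit 5) (nat_lit 406) (nat_lit 5) (nat_lit 395) (nat_lit 5) (nat_lit 462) (nat_lit 437) (nat_lit 301)))) (XT.nd (nat_lit 156) (nat_lit 1520) (nat_lit 0) (XT.nd (nat_lit 78) (nat_lit 760) (nat_lit 0) (XT.lf (nat_lit 0) (nat_lit 4585669167) (nat_lit 912) (nat_lit 5288747528) (nat_lit 76) (nat_lit 8517309178) (nat_lit 383) (nat_lit 5) (nat_lit 395) (nat_lit 5) (nat_lit 384) (nat_lit 5) (nat_lit 463) (nat_lit 437) (nat_lit 300)) (XT.lf (nat_lit 0) (nat_lit 8383765141) (nat_lit 836) (nat_lit 8293809830) (nat_lit 76) (nat_lit 2017016840) (nat_lit 373) (nat_lit 5) (nat_lit 384) (nat_lit 5) (nat_lit 374) (nat_lit 5) (nat_lit 464) (nat_lit 437) (nat_lit 299))) (XT.nd (nat_lit 78) (nat_lit 760) (nat_lit 0) (XT.lf (nat_lit 0) (nat_lit 7647210815) (nat_lit 760) (nat_lit 4787032814) (nat_lit 836) (nat_lit 6569531656) (nat_lit 363) (nat_lit 5) (nat_lit 373) (nat_lit 5) (nat_lit 374) (nat_lit 5) (nat_lit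 465) (nat_lit 437) (nat_lit 298)) (XT.lf (nat_lit 0) (nat_lit 4859406098) (nat_lit 760) (nat_lit 11870358900) (nat_lit 836) (nat_lit 2589999038) (nat_lit 353) (nat_lit 5) (nat_lit 363) (nat_lit 5) (nat_lit 364) (nat_lit 5) (nat_lit 466) (nat_lit 437) (nat_lit 297))))) (XT.nd (nat_lit 312) (nat_lit 2660) (nat_lit 0) (XT.nd (nat_lit 156) (nat_lit 1368) (nat_lit 0) (XT.nd (nat_lit 78) (nat_lit 0) (nat_lit 0) (XT.lf (nat_lit 0) (nat_lit 1601935530) (nat_lit 836) (nat_lit 17601961234) (nat_lit 76) (nat_lit 438883957) (nat_lit 342) (nat_lit 5) (nat_lit 353) (nat_lit 5) (nat_lit 343) (nat_lit 5) (nat_lit 467) (nat_lit 437) (nat_lit 296)) (XT.lf (nat_lit 0) (nat_lit 6050102590) (nat_lit 836) (nat_lit 850253688) (nat_lit 76) (nat_lit 13071476300) (nat_lit 342) (nat_lit 5) (nat_lit 353) (nat_lit 5) (nat_lit 343) (nat_lit 5) (nat_lit 468) (nat_lit 437) (nat_lit 295))) (XT.nd (nat_lit 78) (nat_lit 684) (nat_lit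 0) (XT.lf (nat_lit 0) (nat_lit 10765532863) (nat_lit 760) (nat_lit 3739127269) (nat_lit 76) (nat_lit 5803419799) (nat_lit 333) (nat_lit 5) (nat_lit 343) (nat_lit 5) (nat_lit 334) (nat_lit 5) (nat_lit 469) (nat_lit 437) (nat_lit 294)) (XT.lf (nat_lit 0) (nat_lit 13991465454) (nat_lit 684) (nat_lit 1761810927) (nat_lit 760) (nat_lit 4898521617) (nat_lit 324) (nat_lit 5) (nat_lit 333) (nat_lit 5) (nat_lit 334) (nat_lit 5) (nat_lit 470) (nat_lit 437) (nat_lit 293)))) (XT.nd (nat_lit 156) (nat_lit 1216) (nat_lit 0) (XT.nd (nat_lit 78) (nat_lit 684) (nat_lit 0) (XT.lf (nat_lit 0) (nat_lit 48758531) (nat_lit 760) (nat_lit 9641949729) (nat_lit 76) (nat_lit 11311886116) (nat_lit 314) (nat_lit 5) (nat_lit 324) (nat_lit 5) (nat_lit 315) (nat_lit 5) (nat_lit 471) (nat_lit 437) (nat_lit 292)) (XT.lf (nat_lit 0) (nat_lit 5203395985) (nat_lit 760) (nat_lit 12678205362) (nat_lit 76) (nat_lit 3479156178) (nat_lit 305)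 (nat_lit 5) (nat_lit 315) (nat_lit 5) (nat_lit 306) (nat_lit 5) (nat_lit 472) (nat_lit 437) (nat_lit 291))) (XT.nd (nat_lit 78) (nat_lit 608) (nat_lit 0) (XT.lf (nat_lit 0) (nat_lit 5959498598) (nat_lit 608) (nat_lit 4711158478) (nat_lit 684) (nat_lit 11055849069) (nat_lit 297) (nat_lit 5) (nat_lit 305) (nat_lit 5) (nat_lit 306) (nat_lit 5) (nat_lit 473) (nat_lit 437) (nat_lit 290)) (XT.lf (nat_lit 0) (nat_lit 3198443137) (nat_lit 608) (nat_lit 13257167872) (nat_lit 684) (nat_lit 5644542974) (nat_lit 289) (nat_lit 5) (nat_lit 297) (nat_lit 5) (nat_lit 298) (nat_lit 5) (nat_lit 474) (nat_lit 437) (nat_lit 289))))))))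
noncomputable def xc85 : XT := (XT.nd (nat_lit 2262) (nat_lit 2280) (nat_lit 0) (XT.nd (nat_lit 1092) (nat_lit 5472) (nat_lit 0) (XT.nd (nat_lit 546) (nat_lit 2964) (nat_lit 0) (XT.nd (nat_lit 234) (nat_lit 2280) (nat_lit 0) (XT.nd (nat_lit 78) (nat_lit 608) (nat_lit 0) (XT.lf (nat_lit 0) (nat_lit 63323732) (nat_lit 684) (nat_lit 22058868982) (nat_lit 76) (nat_lit 360162163) (nat_lit 280) (nat_lit 5) (nat_lit 289) (nat_lit 5) (nat_lit 281) (nat_lit 5) (nat_lit 475) (nat_lit 437) (nat_lit 288)) (XT.nd (nat_lit 78) (nat_lit 608) (nat_lit 0) (XT.lf (nat_lit 0) (nat_lit 6073077844) (nat_lit 684) (nat_lit 2427251048) (nat_lit 76) (nat_lit 14370800164) (nat_lit 280) (nat_lit 5) (nat_lit 289) (nat_lit 5) (nat_lit 281) (nat_lit 5) (nat_lit 476) (nat_lit 437) (nat_lit 287)) (XT.lf (nat_lit 0) (nat_lit 12406383611) (nat_lit 684) (nat_lit 5289801158) (nat_lit 76) (nat_lit 5572516745) (nat_lit 272) (nat_lit 5)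 (nat_lit 281) (nat_lit 5) (nat_lit 273) (nat_lit 5) (nat_lit 477) (nat_lit 437) (nat_lit 286)))) (XT.nd (nat_lit 156) (nat_lit 1064) (nat_lit 0) (XT.nd (nat_lit 78) (nat_lit 684) (nat_lit 0) (XT.lf (nat_lit 0) (nat_lit 15485452863) (nat_lit 532) (nat_lit 3608001904) (nat_lit 608) (nat_lit 4581471280) (nat_lit 265) (nat_lit 5) (nat_lit 272) (nat_lit 5) (nat_lit 273) (nat_lit 5) (nat_lit 478) (nat_lit 437) (nat_lit 285)) (XT.lf (nat_lit 0) (nat_lit 2045200513) (nat_lit 684) (nat_lit 11153855008) (nat_lit 76) (nat_lit 10890393698) (nat_lit 256) (nat_lit 5) (nat_lit 265) (nat_lit 5) (nat_lit 257) (nat_lit 5) (nat_lit 479) (nat_lit 437) (nat_lit 284))) (XT.nd (nat_lit 78) (nat_lit 532) (nat_lit 0) (XT.lf (nat_lit 0) (nat_lit 8955355948) (nat_lit 608) (nat_lit 14163437917) (nat_lit 76) (nat_lit 1394070208) (nat_lit 249) (nat_lit 5) (nat_lit 257) (nat_lit 5) (nat_lit 250) (nat_lit 5) (nat_lit 480) (nat_lit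 437) (nat_lit 283)) (XT.lf (nat_lit 0) (nat_lit 7702143845) (nat_lit 532) (nat_lit 8575366473) (nat_lit 608) (nat_lit 8667377370) (nat_lit 242) (nat_lit 5) (nat_lit 249) (nat_lit 5) (nat_lit 250) (nat_lit 5) (nat_lit 481) (nat_lit 437) (nat_lit 282))))) (XT.nd (nat_lit 234) (nat_lit 1900) (nat_lit 0) (XT.nd (nat_lit 78) (nat_lit 608) (nat_lit 0) (XT.lf (nat_lit 0) (nat_lit 5040432261) (nat_lit 456) (nat_lit 18940327514) (nat_lit 532) (nat_lit 1405883825) (nat_lit 236) (nat_lit 5) (nat_lit 242) (nat_lit 5) (nat_lit 243) (nat_lit 5) (nat_lit 482) (nat_lit 437) (nat_lit 281)) (XT.nd (nat_lit 78) (nat_lit 0) (nat_lit 0) (XT.lf (nat_lit 0) (nat_lit 2308551423) (nat_lit 532) (nat_lit 3865843497) (nat_lit 608) (nat_lit 19662856901) (nat_lit 228) (nat_lit 5) (nat_lit 235) (nat_lit 5) (nat_lit 236) (nat_lit 5) (nat_lit 483) (nat_lit 437) (nat_lit 280)) (XT.lf (nat_lit 0) (nat_lit 14168395089) (nat_lit 608) (nat_lit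 476117502) (nat_lit 76) (nat_lit 11652571751) (nat_lit 228) (nat_lit 5) (nat_lit 236) (nat_lit 5) (nat_lit 229) (nat_lit 5) (nat_lit 484) (nat_lit 437) (nat_lit 279)))) (XT.nd (nat_lit 156) (nat_lit 912) (nat_lit 0) (XT.nd (nat_lit 78) (nat_lit 532) (nat_lit 0) (XT.lf (nat_lit 0) (nat_lit 22578245544) (nat_lit 532) (nat_lit 3235245624) (nat_lit 76) (nat_lit 953700242) (nat_lit 222) (nat_lit 5) (nat_lit 229) (nat_lit 5) (nat_lit 223) (nat_lit 5) (nat_lit 485) (nat_lit 437) (nat_lit 278)) (XT.lf (nat_lit 0) (nat_lit 4168143987) (nat_lit 532) (nat_lit 6091435780) (nat_lit 76) (nat_lit 16986674698) (nat_lit 215) (nat_lit 5) (nat_lit 222) (nat_lit 5) (nat_lit 216) (nat_lit 5) (nat_lit 486) (nat_lit 437) (nat_lit 277))) (XT.nd (nat_lit 78) (nat_lit 456) (nat_lit 0) (XT.lf (nat_lit 0) (nat_lit 12893278825) (nat_lit 532) (nat_lit 8987493994) (nat_lit 76) (nat_lit 5854878105) (nat_lit 209) (nat_lit 5) (nat_lit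 216) (nat_lit 5) (nat_lit 210) (nat_lit 5) (nat_lit 487) (nat_lit 437) (nat_lit 276)) (XT.lf (nat_lit 0) (nat_lit 16310081670) (nat_lit 456) (nat_lit 5777642954) (nat_lit 532) (nat_lit 6147853672) (nat_lit 203) (nat_lit 5) (nat_lit 209) (nat_lit 5) (nat_lit 210) (nat_lit 5) (nat_lit 488) (nat_lit 437) (nat_lit 275)))))) (XT.nd (nat_lit 546) (nat_lit 2888) (nat_lit 0) (XT.nd (nat_lit 234) (nat_lit 1292) (nat_lit 0) (XT.nd (nat_lit 78) (nat_lit 836) (nat_lit 0) (XT.lf (nat_lit 0) (nat_lit 2985066850) (nat_lit 456) (nat_lit 14926940831) (nat_lit 76) (nat_lit 10833843648) (nat_lit 197) (nat_lit 5) (nat_lit 203) (nat_lit 5) (nat_lit 198) (nat_lit 5) (nat_lit 489) (nat_lit 437) (nat_lit 274)) (XT.nd (nat_lit 78) (nat_lit 380) (nat_lit 0) (XT.lf (nat_lit 0) (nat_lit 11284574439) (nat_lit 456) (nat_lit 1209356203) (nat_lit 532) (nat_lit 16772979693) (nat_lit 191) (nat_lit 5) (nat_lit 197) (nat_lit 5) (nat_lit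 198) (nat_lit 5) (nat_lit 490) (nat_lit 437) (nat_lit 273)) (XT.lf (nat_lit 0) (nat_lit 8682386141) (nat_lit 380) (nat_lit 13859602380) (nat_lit 456) (nat_lit 7256534169) (nat_lit 186) (nat_lit 5) (nat_lit 191) (nat_lit 5) (nat_lit 192) (nat_lit 5) (nat_lit 491) (nat_lit 437) (nat_lit 272)))) (XT.nd (nat_lit 156) (nat_lit 456) (nat_lit 0) (XT.nd (nat_lit 78) (nat_lit 380) (nat_lit 0) (XT.lf (nat_lit 0) (nat_lit 2696509021) (nat_lit 456) (nat_lit 24272729569) (nat_lit 76) (nat_lit 3372824677) (nat_lit 180) (nat_lit 5) (nat_lit 186) (nat_lit 5) (nat_lit 181) (nat_lit 5) (nat_lit 492) (nat_lit 437) (nat_lit 271)) (XT.lf (nat_lit 0) (nat_lit 3350144845) (nat_lit 380) (nat_lit 9750573254) (nat_lit 456) (nat_lit 17795209531) (nat_lit 175) (nat_lit 5) (nat_lit 180) (nat_lit 5) (nat_lit 181) (nat_lit 5) (nat_lit 493) (nat_lit 437) (nat_lit 270))) (XT.nd (nat_lit 78) (nat_lit 76) (nat_lit 0) (XT.lf (nat_lit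 0) (nat_lit 614031709) (nat_lit 380) (nat_lit 23416671867) (nat_lit 456) (nat_lit 7431431472) (nat_lit 170) (nat_lit 5) (nat_lit 175) (nat_lit 5) (nat_lit 176) (nat_lit 5) (nat_lit 494) (nat_lit 437) (nat_lit 269)) (XT.lf (nat_lit 0) (nat_lit 3446177317) (nat_lit 456) (nat_lit 2145238683) (nat_lit 76) (nat_lit 26448582597) (nat_lit 169) (nat_lit 5) (nat_lit 175) (nat_lit 5) (nat_lit 170) (nat_lit 5) (nat_lit 495) (nat_lit 437) (nat_lit 268))))) (XT.nd (nat_lit 312) (nat_lit 1368) (nat_lit 0) (XT.nd (nat_lit 156) (nat_lit 760) (nat_lit 0) (XT.nd (nat_lit 78) (nat_lit 380) (nat_lit 0) (XT.lf (nat_lit 0) (nat_lit 14806681075) (nat_lit 456) (nat_lit 4994058376) (nat_lit 76) (nat_lit 12828325668) (nat_lit 164) (nat_lit 5) (nat_lit 170) (nat_lit 5) (nat_lit 165) (nat_lit 5) (nat_lit 496) (nat_lit 437) (nat_lit 267)) (XT.lf (nat_lit 0) (nat_lit 25386548175) (nat_lit 380) (nat_lit 1330994824) (nat_lit 456)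 (nat_lit 6514069892) (nat_lit 159) (nat_lit 5) (nat_lit 164) (nat_lit 5) (nat_lit 165) (nat_lit 5) (nat_lit 497) (nat_lit 437) (nat_lit 266))) (XT.nd (nat_lit 78) (nat_lit 380) (nat_lit 0) (XT.lf (nat_lit 0) (nat_lit 5359637094) (nat_lit 380) (nat_lit 10810161057) (nat_lit 76) (nat_lit 17675903052) (nat_lit 154) (nat_lit 5) (nat_lit 159) (nat_lit 5) (nat_lit 155) (nat_lit 5) (nat_lit 498) (nat_lit 437) (nat_lit 265)) (XT.lf (nat_lit 0) (nat_lit 17710540972) (nat_lit 456) (nat_lit 13813015910) (nat_lit 76) (nat_lit 2949604499) (nat_lit 149) (nat_lit 5) (nat_lit 155) (nat_lit 5) (nat_lit 150) (nat_lit 5) (nat_lit 499) (nat_lit 437) (nat_lit 264)))) (XT.nd (nat_lit 156) (nat_lit 608) (nat_lit 0) (XT.nd (nat_lit 78) (nat_lit 456) (nat_lit 0) (XT.lf (nat_lit 0) (nat_lit 18223744558) (nat_lit 304) (nat_lit 12501424175) (nat_lit 380) (nat_lit 4388412799) (nat_lit 145) (nat_lit 5) (nat_lit 149) (nat_lit 5)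 (nat_lit 150) (nat_lit 5) (nat_lit 500) (nat_lit 437) (nat_lit 263)) (XT.lf (nat_lit 0) (nat_lit 8484861268) (nat_lit 456) (nat_lit 20035693295) (nat_lit 76) (nat_lit 7246825756) (nat_lit 139) (nat_lit 5) (nat_lit 145) (nat_lit 5) (nat_lit 140) (nat_lit 5) (nat_lit 501) (nat_lit 437) (nat_lit 262))) (XT.nd (nat_lit 78) (nat_lit 304) (nat_lit 0) (XT.lf (nat_lit 0) (nat_lit 13172561817) (nat_lit 304) (nat_lit 8790020130) (nat_lit 380) (nat_lit 14472073673) (nat_lit 135) (nat_lit 5) (nat_lit 139) (nat_lit 5) (nat_lit 140) (nat_lit 5) (nat_lit 502) (nat_lit 437) (nat_lit 261)) (XT.lf (nat_lit 0) (nat_lit 10584158424) (nat_lit 304) (nat_lit 25534032815) (nat_lit 380) (nat_lit 998286895) (nat_lit 131) (nat_lit 5) (nat_lit 135) (nat_lit 5) (nat_lit 136) (nat_lit 5) (nat_lit 503) (nat_lit 437) (nat_lit 260))))))) (XT.nd (nat_lit 57876) (nat_lit 0) (nat_lit 24928) (XT.nd (nat_lit 546) (nat_lit 304) (nat_lit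 0) (XT.nd (nat_lit 234) (nat_lit 912) (nat_lit 0) (XT.nd (nat_lit 78) (nat_lit 684) (nat_lit 0) (XT.lf (nat_lit 0) (nat_lit 7897870227) (nat_lit 304) (nat_lit 5075035428) (nat_lit 380) (nat_lit 24838935043) (nat_lit 126) (nat_lit 5) (nat_lit 130) (nat_lit 5) (nat_lit 131) (nat_lit 5) (nat_lit 504) (nat_lit 437) (nat_lit 259)) (XT.nd (nat_lit 78) (nat_lit 380) (nat_lit 0) (XT.lf (nat_lit 0) (nat_lit 5144615493) (nat_lit 304) (nat_lit 22516857193) (nat_lit 380) (nat_lit 10860223535) (nat_lit 122) (nat_lit 5) (nat_lit 126) (nat_lit 5) (nat_lit 127) (nat_lit 5) (nat_lit 505) (nat_lit 437) (nat_lit 258)) (XT.lf (nat_lit 0) (nat_lit 2377858195) (nat_lit 304) (nat_lit 1360568827) (nat_lit 380) (nat_lit 35509021522) (nat_lit 117) (nat_lit 5) (nat_lit 121) (nat_lit 5) (nat_lit 122) (nat_lit 5) (nat_lit 506) (nat_lit 437) (nat_lit 257)))) (XT.nd (nat_lit 156) (nat_lit 608) (nat_lit 0) (XT.nd (nat_lit 78) (nat_lit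 304) (nat_lit 0) (XT.lf (nat_lit 0) (nat_lit 18982292332) (nat_lit 380) (nat_lit 545541527) (nat_lit 76) (nat_lit 20458607875) (nat_lit 117) (nat_lit 5) (nat_lit 122) (nat_lit 5) (nat_lit 118) (nat_lit 5) (nat_lit 507) (nat_lit 437) (nat_lit 256)) (XT.lf (nat_lit 0) (nat_lit 34944471865) (nat_lit 380) (nat_lit 3419836834) (nat_lit 76) (nat_lit 2378076130) (nat_lit 113) (nat_lit 5) (nat_lit 118) (nat_lit 5) (nat_lit 114) (nat_lit 5) (nat_lit 508) (nat_lit 437) (nat_lit 255))) (XT.nd (nat_lit 78) (nat_lit 304) (nat_lit 0) (XT.lf (nat_lit 0) (nat_lit 10093830725) (nat_lit 304) (nat_lit 6447161731) (nat_lit 76) (nat_lit 24971558995) (nat_lit 109) (nat_lit 5) (nat_lit 113) (nat_lit 5) (nat_lit 110) (nat_lit 5) (nat_lit 509) (nat_lit 437) (nat_lit 254)) (XT.lf (nat_lit 0) (nat_lit 26654804053) (nat_lit 380) (nat_lit 9512703141) (nat_lit 76) (nat_lit 6132124500) (nat_lit 105) (nat_lit 5) (nat_lit 110) (nat_lit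 5) (nat_lit 106) (nat_lit 5) (nat_lit 510) (nat_lit 437) (nat_lit 253))))) (XT.nd (nat_lit 57018) (nat_lit 0) (nat_lit 30932) (XT.nd (nat_lit 56862) (nat_lit 0) (nat_lit 30780) (XT.nd (nat_lit 56784) (nat_lit 0) (nat_lit 30780) (XT.lf (nat_lit 0) (nat_lit 943078111) (nat_lit 304) (nat_lit 12654332531) (nat_lit 76) (nat_lit 29505861663) (nat_lit 101) (nat_lit 5) (nat_lit 105) (nat_lit 5) (nat_lit 102) (nat_lit 5) (nat_lit 511) (nat_lit 437) (nat_lit 252)) (XT.lf (nat_lit 0) (nat_lit 422227484) (nat_lit 0) (nat_lit 422227484) (nat_lit 1748) (nat_lit 5539132725) (nat_lit 506) (nat_lit 5) (nat_lit 506) (nat_lit 3) (nat_lit 529) (nat_lit 3) (nat_lit 438) (nat_lit 438) (nat_lit 324))) (XT.nd (nat_lit 78) (nat_lit 0) (nat_lit 76) (XT.lf (nat_lit 0) (nat_lit 2393567020) (nat_lit 1748) (nat_lit 2436662156) (nat_lit 1824) (nat_lit 8114847923) (nat_lit 506) (nat_lit 5) (nat_lit 529) (nat_lit 3) (nat_lit 530) (nat_lit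 5) (nat_lit 439) (nat_lit 438) (nat_lit 323)) (XT.lf (nat_lit 0) (nat_lit 3176474992) (nat_lit 1748) (nat_lit 5742645172) (nat_lit 1824) (nat_lit 4208054233) (nat_lit 507) (nat_lit 5) (nat_lit 530) (nat_lit 5) (nat_lit 531) (nat_lit 5) (nat_lit 440) (nat_lit 438) (nat_lit 322)))) (XT.nd (nat_lit 156) (nat_lit 0) (nat_lit 76) (XT.nd (nat_lit 78) (nat_lit 0) (nat_lit 0) (XT.lf (nat_lit 0) (nat_lit 4036859940) (nat_lit 1748) (nat_lit 9085699600) (nat_lit 1824) (nat_lit 191096019) (nat_lit 508) (nat_lit 5) (nat_lit 531) (nat_lit 5) (nat_lit 532) (nat_lit 5) (nat_lit 441) (nat_lit 438) (nat_lit 321)) (XT.lf (nat_lit 76) (nat_lit 1011249840) (nat_lit 0) (nat_lit 3994211568) (nat_lit 1824) (nat_lit 8498622362) (nat_lit 509) (nat_lit 5) (nat_lit 508) (nat_lit 5) (nat_lit 532) (nat_lit 5) (nat_lit 442) (nat_lit 438) (nat_lit 320))) (XT.nd (nat_lit 78) (nat_lit 0) (nat_lit 76) (XT.lf (nat_lit 0) (nat_lit 6077872955)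 (nat_lit 1748) (nat_lit 2212766903) (nat_lit 1824) (nat_lit 5408090623) (nat_lit 509) (nat_lit 5) (nat_lit 532) (nat_lit 5) (nat_lit 533) (nat_lit 5) (nat_lit 443) (nat_lit 438) (nat_lit 319)) (XT.lf (nat_lit 0) (nat_lit 7250140769) (nat_lit 1748) (nat_lit 5459398103) (nat_lit 1824) (nat_lit 1188324718) (nat_lit 510) (nat_lit 5) (nat_lit 533) (nat_lit 5) (nat_lit 534) (nat_lit 5) (nat_lit 444) (nat_lit 438) (nat_lit 318)))))) (XT.nd (nat_lit 546) (nat_lit 4636) (nat_lit 0) (XT.nd (nat_lit 234) (nat_lit 1520) (nat_lit 0) (XT.nd (nat_lit 78) (nat_lit 0) (nat_lit 76) (XT.lf (nat_lit 76) (nat_lit 5337728346) (nat_lit 0) (nat_lit 3203954865) (nat_lit 1824) (nat_lit 5559606005) (nat_lit 511) (nat_lit 5) (nat_lit 510) (nat_lit 5) (nat_lit 534) (nat_lit 5) (nat_lit 445) (nat_lit 438) (nat_lit 317)) (XT.nd (nat_lit 78) (nat_lit 0) (nat_lit 76) (XT.lf (nat_lit 76) (nat_lit 2195376620) (nat_lit 0) (nat_lit 7750342310)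 (nat_lit 1824) (nat_lit 4363624375) (nat_lit 512) (nat_lit 5) (nat_lit 511) (nat_lit 5) (nat_lit 535) (nat_lit 5) (nat_lit 446) (nat_lit 438) (nat_lit 316)) (XT.lf (nat_lit 0) (nat_lit 11466275709) (nat_lit 1748) (nat_lit 968432215) (nat_lit 1824) (nat_lit 2087443711) (nat_lit 512) (nat_lit 5) (nat_lit 535) (nat_lit 5) (nat_lit 536) (nat_lit 5) (nat_lit 447) (nat_lit 438) (nat_lit 315)))) (XT.nd (nat_lit 156) (nat_lit 1672) (nat_lit 0) (XT.nd (nat_lit 78) (nat_lit 0) (nat_lit 76) (XT.lf (nat_lit 76) (nat_lit 10584826026) (nat_lit 0) (nat_lit 2548796668) (nat_lit 1824) (nat_lit 1605698649) (nat_lit 513) (nat_lit 5) (nat_lit 512) (nat_lit 5) (nat_lit 536) (nat_lit 5) (nat_lit 448) (nat_lit 438) (nat_lit 314)) (XT.lf (nat_lit 76) (nat_lit 7570923474) (nat_lit 0) (nat_lit 7366523772) (nat_lit 1824) (nat_lit 23830335) (nat_lit 514) (nat_lit 5) (nat_lit 513) (nat_lit 5) (nat_lit 537) (nat_lit 5) (nat_lit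 449) (nat_lit 438) (nat_lit 313))) (XT.nd (nat_lit 78) (nat_lit 0) (nat_lit 0) (XT.lf (nat_lit 0) (nat_lit 1659510373) (nat_lit 1824) (nat_lit 10673744538) (nat_lit 1900) (nat_lit 2854928218) (nat_lit 490) (nat_lit 5) (nat_lit 514) (nat_lit 5) (nat_lit 515) (nat_lit 5) (nat_lit 450) (nat_lit 438) (nat_lit 312)) (XT.lf (nat_lit 76) (nat_lit 1411381429) (nat_lit 0) (nat_lit 2072437527) (nat_lit 1900) (nat_lit 11936258445) (nat_lit 491) (nat_lit 5) (nat_lit 490) (nat_lit 5) (nat_lit 515) (nat_lit 5) (nat_lit 451) (nat_lit 438) (nat_lit 311))))) (XT.nd (nat_lit 312) (nat_lit 3040) (nat_lit 0) (XT.nd (nat_lit 156) (nat_lit 1672) (nat_lit 0) (XT.nd (nat_lit 78) (nat_lit 0) (nat_lit 76) (XT.lf (nat_lit 0) (nat_lit 5473240144) (nat_lit 1824) (nat_lit 1722125057) (nat_lit 1900) (nat_lit 8461356156) (nat_lit 491) (nat_lit 5) (nat_lit 515) (nat_lit 5) (nat_lit 516) (nat_lit 5) (nat_lit 452) (nat_lit 438) (nat_lit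 310)) (XT.lf (nat_lit 0) (nat_lit 7613335725) (nat_lit 1824) (nat_lit 4871198289) (nat_lit 1900) (nat_lit 3414111289) (nat_lit 492) (nat_lit 5) (nat_lit 516) (nat_lit 5) (nat_lit 517) (nat_lit 5) (nat_lit 453) (nat_lit 438) (nat_lit 309))) (XT.nd (nat_lit 78) (nat_lit 1748) (nat_lit 0) (XT.lf (nat_lit 76) (nat_lit 8079367242) (nat_lit 0) (nat_lit 1833943863) (nat_lit 1900) (nat_lit 6232602815) (nat_lit 493) (nat_lit 5) (nat_lit 492) (nat_lit 5) (nat_lit 517) (nat_lit 5) (nat_lit 454) (nat_lit 438) (nat_lit 308)) (XT.lf (nat_lit 0) (nat_lit 5078250945) (nat_lit 1824) (nat_lit 7313319312) (nat_lit 1900) (nat_lit 4006845128) (nat_lit 469) (nat_lit 5) (nat_lit 493) (nat_lit 5) (nat_lit 494) (nat_lit 5) (nat_lit 455) (nat_lit 438) (nat_lit 307)))) (XT.nd (nat_lit 156) (nat_lit 1824) (nat_lit 0) (XT.nd (nat_lit 78) (nat_lit 76) (nat_lit 0) (XT.lf (nat_lit 0) (nat_lit 2046915408) (nat_lit 1140) (nat_lit 12985612579)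 (nat_lit 1216) (nat_lit 1624197352) (nat_lit 454) (nat_lit 5) (nat_lit 469) (nat_lit 5) (nat_lit 470) (nat_lit 5) (nat_lit 456) (nat_lit 438) (nat_lit 306)) (XT.lf (nat_lit 0) (nat_lit 929602414) (nat_lit 1216) (nat_lit 1020178300) (nat_lit 76) (nat_lit 14970685407) (nat_lit 453) (nat_lit 5) (nat_lit 469) (nat_lit 5) (nat_lit 454) (nat_lit 5) (nat_lit 457) (nat_lit 438) (nat_lit 305))) (XT.nd (nat_lit 78) (nat_lit 912) (nat_lit 0) (XT.lf (nat_lit 0) (nat_lit 3669964077) (nat_lit 988) (nat_lit 4127547930) (nat_lit 76) (nat_lit 9391752540) (nat_lit 441) (nat_lit 5) (nat_lit 454) (nat_lit 5) (nat_lit 442) (nat_lit 5) (nat_lit 458) (nat_lit 438) (nat_lit 304)) (XT.lf (nat_lit 0) (nat_lit 6587889641) (nat_lit 988) (nat_lit 7267182648) (nat_lit 76) (nat_lit 3609147994) (nat_lit 429) (nat_lit 5) (nat_lit 442) (nat_lit 5) (nat_lit 430) (nat_lit 5) (nat_lit 459) (nat_lit 438) (nat_lit 303))))))))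
noncomputable def xc86 : XT := (XT.nd (nat_lit 2262) (nat_lit 7904) (nat_lit 0) (XT.nd (nat_lit 1092) (nat_lit 7296) (nat_lit 0) (XT.nd (nat_lit 546) (nat_lit 4408) (nat_lit 0) (XT.nd (nat_lit 234) (nat_lit 2432) (nat_lit 0) (XT.nd (nat_lit 78) (nat_lit 1748) (nat_lit 0) (XT.lf (nat_lit 0) (nat_lit 7290451842) (nat_lit 836) (nat_lit 2416130907) (nat_lit 912) (nat_lit 8038577749) (nat_lit 418) (nat_lit 5) (nat_lit 429) (nat_lit 5) (nat_lit 430) (nat_lit 5) (nat_lit 460) (nat_lit 438) (nat_lit 302)) (XT.nd (nat_lit 78) (nat_lit 836) (nat_lit 0) (XT.lf (nat_lit 0) (nat_lit 4332543816) (nat_lit 912) (nat_lit 8710732990) (nat_lit 988) (nat_lit 4988763703) (nat_lit 406) (nat_lit 5) (nat_lit 418) (nat_lit 5) (nat_lit 419) (nat_lit 5) (nat_lit 461) (nat_lit 438) (nat_lit 301)) (XT.lf (nat_lit 0) (nat_lit 1347818917) (nat_lit 836) (nat_lit 15234428396) (nat_lit 912) (nat_lit 1743236476) (nat_lit 395) (nat_lit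 5) (nat_lit 406) (nat_lit 5) (nat_lit 407) (nat_lit 5) (nat_lit 462) (nat_lit 438) (nat_lit 300)))) (XT.nd (nat_lit 156) (nat_lit 1520) (nat_lit 0) (XT.nd (nat_lit 78) (nat_lit 836) (nat_lit 0) (XT.lf (nat_lit 0) (nat_lit 1716849380) (nat_lit 912) (nat_lit 1674944507) (nat_lit 76) (nat_lit 15232965670) (nat_lit 394) (nat_lit 5) (nat_lit 406) (nat_lit 5) (nat_lit 395) (nat_lit 5) (nat_lit 463) (nat_lit 438) (nat_lit 299)) (XT.lf (nat_lit 0) (nat_lit 5394430208) (nat_lit 912) (nat_lit 4740471206) (nat_lit 76) (nat_lit 8795134557) (nat_lit 383) (nat_lit 5) (nat_lit 395) (nat_lit 5) (nat_lit 384) (nat_lit 5) (nat_lit 464) (nat_lit 438) (nat_lit 298))) (XT.nd (nat_lit 78) (nat_lit 760) (nat_lit 0) (XT.lf (nat_lit 0) (nat_lit 9291690500) (nat_lit 836) (nat_lit 7834269378) (nat_lit 76) (nat_lit 2116324100) (nat_lit 373) (nat_lit 5) (nat_lit 384) (nat_lit 5) (nat_lit 374) (nat_lit 5) (nat_lit 465) (nat_lit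 438) (nat_lit 297)) (XT.lf (nat_lit 0) (nat_lit 8573489672) (nat_lit 760) (nat_lit 4875599358) (nat_lit 836) (nat_lit 6111946319) (nat_lit 363) (nat_lit 5) (nat_lit 373) (nat_lit 5) (nat_lit 374) (nat_lit 5) (nat_lit 466) (nat_lit 438) (nat_lit 296))))) (XT.nd (nat_lit 234) (nat_lit 2812) (nat_lit 0) (XT.nd (nat_lit 78) (nat_lit 836) (nat_lit 0) (XT.lf (nat_lit 0) (nat_lit 5703038127) (nat_lit 760) (nat_lit 12156622060) (nat_lit 836) (nat_lit 2027120381) (nat_lit 353) (nat_lit 5) (nat_lit 363) (nat_lit 5) (nat_lit 364) (nat_lit 5) (nat_lit 467) (nat_lit 438) (nat_lit 295)) (XT.nd (nat_lit 78) (nat_lit 0) (nat_lit 0) (XT.lf (nat_lit 0) (nat_lit 2268766053) (nat_lit 836) (nat_lit 17423327080) (nat_lit 76) (nat_lit 527580003) (nat_lit 342) (nat_lit 5) (nat_lit 353) (nat_lit 5) (nat_lit 343) (nat_lit 5) (nat_lit 468) (nat_lit 438) (nat_lit 294)) (XT.lf (nat_lit 0) (nat_lit 6832355626) (nat_lit 836) (nat_lit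 189651599) (nat_lit 76) (nat_lit 13536950227) (nat_lit 342) (nat_lit 5) (nat_lit 353) (nat_lit 5) (nat_lit 343) (nat_lit 5) (nat_lit 469) (nat_lit 438) (nat_lit 293)))) (XT.nd (nat_lit 156) (nat_lit 1444) (nat_lit 0) (XT.nd (nat_lit 78) (nat_lit 684) (nat_lit 0) (XT.lf (nat_lit 0) (nat_lit 11676700736) (nat_lit 760) (nat_lit 3165122436) (nat_lit 76) (nat_lit 6063720457) (nat_lit 333) (nat_lit 5) (nat_lit 343) (nat_lit 5) (nat_lit 334) (nat_lit 5) (nat_lit 470) (nat_lit 438) (nat_lit 292)) (XT.lf (nat_lit 0) (nat_lit 15086255635) (nat_lit 684) (nat_lit 1715071678) (nat_lit 760) (nat_lit 4458501335) (nat_lit 324) (nat_lit 5) (nat_lit 333) (nat_lit 5) (nat_lit 334) (nat_lit 5) (nat_lit 471) (nat_lit 438) (nat_lit 291))) (XT.nd (nat_lit 78) (nat_lit 684) (nat_lit 0) (XT.lf (nat_lit 0) (nat_lit 617668938) (nat_lit 760) (nat_lit 9248858994) (nat_lit 76) (nat_lit 11754781772) (nat_lit 314) (nat_lit 5) (nat_lit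 324) (nat_lit 5) (nat_lit 315) (nat_lit 5) (nat_lit 472) (nat_lit 438) (nat_lit 290)) (XT.lf (nat_lit 0) (nat_lit 5915529454) (nat_lit 760) (nat_lit 12376907029) (nat_lit 76) (nat_lit 3698009980) (nat_lit 305) (nat_lit 5) (nat_lit 315) (nat_lit 5) (nat_lit 306) (nat_lit 5) (nat_lit 473) (nat_lit 438) (nat_lit 289)))))) (XT.nd (nat_lit 546) (nat_lit 3572) (nat_lit 0) (XT.nd (nat_lit 234) (nat_lit 1824) (nat_lit 0) (XT.nd (nat_lit 78) (nat_lit 1292) (nat_lit 0) (XT.lf (nat_lit 0) (nat_lit 6808869177) (nat_lit 608) (nat_lit 4726097992) (nat_lit 684) (nat_lit 10832437580) (nat_lit 297) (nat_lit 5) (nat_lit 305) (nat_lit 5) (nat_lit 306) (nat_lit 5) (nat_lit 474) (nat_lit 438) (nat_lit 288)) (XT.nd (nat_lit 78) (nat_lit 684) (nat_lit 0) (XT.lf (nat_lit 0) (nat_lit 3964015066) (nat_lit 608) (nat_lit 13518748798) (nat_lit 684) (nat_lit 5269712648) (nat_lit 289) (nat_lit 5) (nat_lit 297) (nat_lit 5) (nat_lit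 298) (nat_lit 5) (nat_lit 475) (nat_lit 438) (nat_lit 287)) (XT.lf (nat_lit 0) (nat_lit 591843782) (nat_lit 684) (nat_lit 22045230619) (nat_lit 76) (nat_lit 509206913) (nat_lit 280) (nat_lit 5) (nat_lit 289) (nat_lit 5) (nat_lit 281) (nat_lit 5) (nat_lit 476) (nat_lit 438) (nat_lit 286)))) (XT.nd (nat_lit 156) (nat_lit 1216) (nat_lit 0) (XT.nd (nat_lit 78) (nat_lit 608) (nat_lit 0) (XT.lf (nat_lit 0) (nat_lit 6766552061) (nat_lit 684) (nat_lit 1844336121) (nat_lit 76) (nat_lit 14936137649) (nat_lit 280) (nat_lit 5) (nat_lit 289) (nat_lit 5) (nat_lit 281) (nat_lit 5) (nat_lit 477) (nat_lit 438) (nat_lit 285)) (XT.lf (nat_lit 0) (nat_lit 13280091964) (nat_lit 684) (nat_lit 4794316807) (nat_lit 76) (nat_lit 5882312326) (nat_lit 272) (nat_lit 5) (nat_lit 281) (nat_lit 5) (nat_lit 273) (nat_lit 5) (nat_lit 478) (nat_lit 438) (nat_lit 284))) (XT.nd (nat_lit 78) (nat_lit 684) (nat_lit 0) (XT.lf (nat_lit 0)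 (nat_lit 16593581567) (nat_lit 532) (nat_lit 3563764851) (nat_lit 608) (nat_lit 4217994847) (nat_lit 265) (nat_lit 5) (nat_lit 272) (nat_lit 5) (nat_lit 273) (nat_lit 5) (nat_lit 479) (nat_lit 438) (nat_lit 283)) (XT.lf (nat_lit 0) (nat_lit 2591671118) (nat_lit 684) (nat_lit 10840190301) (nat_lit 76) (nat_lit 11370558704) (nat_lit 256) (nat_lit 5) (nat_lit 265) (nat_lit 5) (nat_lit 257) (nat_lit 5) (nat_lit 480) (nat_lit 438) (nat_lit 282))))) (XT.nd (nat_lit 312) (nat_lit 1444) (nat_lit 0) (XT.nd (nat_lit 156) (nat_lit 1064) (nat_lit 0) (XT.nd (nat_lit 78) (nat_lit 532) (nat_lit 0) (XT.lf (nat_lit 0) (nat_lit 9700198391) (nat_lit 608) (nat_lit 13942121724) (nat_lit 76) (nat_lit 1596396262) (nat_lit 249) (nat_lit 5) (nat_lit 257) (nat_lit 5) (nat_lit 250) (nat_lit 5) (nat_lit 481) (nat_lit 438) (nat_lit 281)) (XT.lf (nat_lit 0) (nat_lit 8568943350) (nat_lit 532) (nat_lit 8663332285) (nat_lit 608) (nat_lit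 8451620193) (nat_lit 242) (nat_lit 5) (nat_lit 249) (nat_lit 5) (nat_lit 250) (nat_lit 5) (nat_lit 482) (nat_lit 438) (nat_lit 280))) (XT.nd (nat_lit 78) (nat_lit 608) (nat_lit 0) (XT.lf (nat_lit 0) (nat_lit 5825172012) (nat_lit 456) (nat_lit 19333045370) (nat_lit 532) (nat_lit 980855421) (nat_lit 236) (nat_lit 5) (nat_lit 242) (nat_lit 5) (nat_lit 243) (nat_lit 5) (nat_lit 483) (nat_lit 438) (nat_lit 279)) (XT.lf (nat_lit 0) (nat_lit 3007093670) (nat_lit 532) (nat_lit 3804266840) (nat_lit 608) (nat_lit 19791965234) (nat_lit 228) (nat_lit 5) (nat_lit 235) (nat_lit 5) (nat_lit 236) (nat_lit 5) (nat_lit 484) (nat_lit 438) (nat_lit 278)))) (XT.nd (nat_lit 156) (nat_lit 988) (nat_lit 0) (XT.nd (nat_lit 78) (nat_lit 0) (nat_lit 0) (XT.lf (nat_lit 0) (nat_lit 129920917) (nat_lit 456) (nat_lit 14904065214) (nat_lit 532) (nat_lit 12043191262) (nat_lit 222) (nat_lit 5) (nat_lit 228) (nat_lit 5) (nat_lit 229)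 (nat_lit 5) (nat_lit 485) (nat_lit 438) (nat_lit 277)) (XT.lf (nat_lit 0) (nat_lit 23687587229) (nat_lit 532) (nat_lit 2716250092) (nat_lit 76) (nat_lit 1157721503) (nat_lit 222) (nat_lit 5) (nat_lit 229) (nat_lit 5) (nat_lit 223) (nat_lit 5) (nat_lit 486) (nat_lit 438) (nat_lit 276))) (XT.nd (nat_lit 78) (nat_lit 456) (nat_lit 0) (XT.lf (nat_lit 0) (nat_lit 4719346909) (nat_lit 532) (nat_lit 5662449221) (nat_lit 76) (nat_lit 17673314763) (nat_lit 215) (nat_lit 5) (nat_lit 222) (nat_lit 5) (nat_lit 216) (nat_lit 5) (nat_lit 487) (nat_lit 438) (nat_lit 275)) (XT.lf (nat_lit 0) (nat_lit 13698926357) (nat_lit 532) (nat_lit 8648148529) (nat_lit 76) (nat_lit 6212260781) (nat_lit 209) (nat_lit 5) (nat_lit 216) (nat_lit 5) (nat_lit 210) (nat_lit 5) (nat_lit 488) (nat_lit 438) (nat_lit 274))))))) (XT.nd (nat_lit 1170) (nat_lit 2280) (nat_lit 0) (XT.nd (nat_lit 546) (nat_lit 2660) (nat_lit 0) (XT.nd (nat_lit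 234) (nat_lit 1596) (nat_lit 0) (XT.nd (nat_lit 78) (nat_lit 912) (nat_lit 0) (XT.lf (nat_lit 0) (nat_lit 17398474585) (nat_lit 456) (nat_lit 5762421147) (nat_lit 532) (nat_lit 5913531552) (nat_lit 203) (nat_lit 5) (nat_lit 209) (nat_lit 5) (nat_lit 210) (nat_lit 5) (nat_lit 489) (nat_lit 438) (nat_lit 273)) (XT.nd (nat_lit 78) (nat_lit 456) (nat_lit 0) (XT.lf (nat_lit 0) (nat_lit 3480940951) (nat_lit 456) (nat_lit 14773090416) (nat_lit 76) (nat_lit 11346061850) (nat_lit 197) (nat_lit 5) (nat_lit 203) (nat_lit 5) (nat_lit 198) (nat_lit 5) (nat_lit 490) (nat_lit 438) (nat_lit 272)) (XT.lf (nat_lit 0) (nat_lit 12215009116) (nat_lit 456) (nat_lit 1052069908) (nat_lit 532) (nat_lit 16869865012) (nat_lit 191) (nat_lit 5) (nat_lit 197) (nat_lit 5) (nat_lit 198) (nat_lit 5) (nat_lit 491) (nat_lit 438) (nat_lit 271)))) (XT.nd (nat_lit 156) (nat_lit 760) (nat_lit 0) (XT.nd (nat_lit 78) (nat_lit 456) (nat_lit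 0) (XT.lf (nat_lit 0) (nat_lit 9531760206) (nat_lit 380) (nat_lit 14078260281) (nat_lit 456) (nat_lit 7074615642) (nat_lit 186) (nat_lit 5) (nat_lit 191) (nat_lit 5) (nat_lit 192) (nat_lit 5) (nat_lit 492) (nat_lit 438) (nat_lit 270)) (XT.lf (nat_lit 0) (nat_lit 3165370687) (nat_lit 456) (nat_lit 24409945005) (nat_lit 76) (nat_lit 3669243677) (nat_lit 180) (nat_lit 5) (nat_lit 186) (nat_lit 5) (nat_lit 181) (nat_lit 5) (nat_lit 493) (nat_lit 438) (nat_lit 269))) (XT.nd (nat_lit 78) (nat_lit 380) (nat_lit 0) (XT.lf (nat_lit 0) (nat_lit 4032027913) (nat_lit 380) (nat_lit 9842152828) (nat_lit 456) (nat_lit 17941009615) (nat_lit 175) (nat_lit 5) (nat_lit 180) (nat_lit 5) (nat_lit 181) (nat_lit 5) (nat_lit 494) (nat_lit 438) (nat_lit 268)) (XT.lf (nat_lit 0) (nat_lit 1210607305) (nat_lit 380) (nat_lit 23915398055) (nat_lit 456) (nat_lit 7272500030) (nat_lit 170) (nat_lit 5) (nat_lit 175) (nat_lit 5) (nat_lit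 176) (nat_lit 5) (nat_lit 495) (nat_lit 438) (nat_lit 267))))) (XT.nd (nat_lit 312) (nat_lit 1444) (nat_lit 0) (XT.nd (nat_lit 156) (nat_lit 760) (nat_lit 0) (XT.nd (nat_lit 78) (nat_lit 380) (nat_lit 0) (XT.lf (nat_lit 0) (nat_lit 3915451991) (nat_lit 456) (nat_lit 1643412374) (nat_lit 76) (nat_lit 27435010599) (nat_lit 169) (nat_lit 5) (nat_lit 175) (nat_lit 5) (nat_lit 170) (nat_lit 5) (nat_lit 496) (nat_lit 438) (nat_lit 266)) (XT.lf (nat_lit 0) (nat_lit 15611016804) (nat_lit 456) (nat_lit 4580986218) (nat_lit 76) (nat_lit 13408725711) (nat_lit 164) (nat_lit 5) (nat_lit 170) (nat_lit 5) (nat_lit 165) (nat_lit 5) (nat_lit 497) (nat_lit 438) (nat_lit 265))) (XT.nd (nat_lit 78) (nat_lit 380) (nat_lit 0) (XT.lf (nat_lit 0) (nat_lit 26701906245) (nat_lit 380) (nat_lit 1170404351) (nat_lit 456) (nat_lit 6349180386) (nat_lit 159) (nat_lit 5) (nat_lit 164) (nat_lit 5) (nat_lit 165) (nat_lit 5) (nat_lit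 498) (nat_lit 438) (nat_lit 264)) (XT.lf (nat_lit 0) (nat_lit 5870525315) (nat_lit 380) (nat_lit 10579355748) (nat_lit 76) (nat_lit 18404183986) (nat_lit 154) (nat_lit 5) (nat_lit 159) (nat_lit 5) (nat_lit 155) (nat_lit 5) (nat_lit 499) (nat_lit 438) (nat_lit 263)))) (XT.nd (nat_lit 156) (nat_lit 760) (nat_lit 0) (XT.nd (nat_lit 78) (nat_lit 304) (nat_lit 0) (XT.lf (nat_lit 0) (nat_lit 18586620698) (nat_lit 456) (nat_lit 13675744020) (nat_lit 76) (nat_lit 3238091179) (nat_lit 149) (nat_lit 5) (nat_lit 155) (nat_lit 5) (nat_lit 150) (nat_lit 5) (nat_lit 500) (nat_lit 438) (nat_lit 262)) (XT.lf (nat_lit 0) (nat_lit 19313169195) (nat_lit 304) (nat_lit 12672000090) (nat_lit 380) (nat_lit 4175049876) (nat_lit 145) (nat_lit 5) (nat_lit 149) (nat_lit 5) (nat_lit 150) (nat_lit 5) (nat_lit 501) (nat_lit 438) (nat_lit 261))) (XT.nd (nat_lit 78) (nat_lit 304) (nat_lit 0) (XT.lf (nat_lit 0) (nat_lit 9074802114)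 (nat_lit 456) (nat_lit 20093040772) (nat_lit 76) (nat_lit 7665846270) (nat_lit 139) (nat_lit 5) (nat_lit 145) (nat_lit 5) (nat_lit 140) (nat_lit 5) (nat_lit 502) (nat_lit 438) (nat_lit 260)) (XT.lf (nat_lit 0) (nat_lit 14102640727) (nat_lit 304) (nat_lit 8847917838) (nat_lit 380) (nat_lit 14570550204) (nat_lit 135) (nat_lit 5) (nat_lit 139) (nat_lit 5) (nat_lit 140) (nat_lit 5) (nat_lit 503) (nat_lit 438) (nat_lit 259)))))) (XT.nd (nat_lit 546) (nat_lit 304) (nat_lit 0) (XT.nd (nat_lit 234) (nat_lit 988) (nat_lit 0) (XT.nd (nat_lit 78) (nat_lit 684) (nat_lit 0) (XT.lf (nat_lit 0) (nat_lit 11433072212) (nat_lit 304) (nat_lit 26092925932) (nat_lit 380) (nat_lit 697484707) (nat_lit 131) (nat_lit 5) (nat_lit 135) (nat_lit 5) (nat_lit 136) (nat_lit 5) (nat_lit 504) (nat_lit 438) (nat_lit 258)) (XT.nd (nat_lit 78) (nat_lit 304) (nat_lit 0) (XT.lf (nat_lit 0) (nat_lit 8661845940) (nat_lit 304) (nat_lit 5020574541)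 (nat_lit 380) (nat_lit 25257364693) (nat_lit 126) (nat_lit 5) (nat_lit 130) (nat_lit 5) (nat_lit 131) (nat_lit 5) (nat_lit 505) (nat_lit 438) (nat_lit 257)) (XT.lf (nat_lit 0) (nat_lit 5822429373) (nat_lit 304) (nat_lit 22984586988) (nat_lit 380) (nat_lit 10864012688) (nat_lit 122) (nat_lit 5) (nat_lit 126) (nat_lit 5) (nat_lit 127) (nat_lit 5) (nat_lit 506) (nat_lit 438) (nat_lit 256)))) (XT.nd (nat_lit 156) (nat_lit 608) (nat_lit 0) (XT.nd (nat_lit 78) (nat_lit 0) (nat_lit 0) (XT.lf (nat_lit 0) (nat_lit 2968335314) (nat_lit 304) (nat_lit 1194153222) (nat_lit 380) (nat_lit 36256141417) (nat_lit 117) (nat_lit 5) (nat_lit 121) (nat_lit 5) (nat_lit 122) (nat_lit 5) (nat_lit 507) (nat_lit 438) (nat_lit 255)) (XT.lf (nat_lit 0) (nat_lit 19855891388) (nat_lit 380) (nat_lit 53133085) (nat_lit 76) (nat_lit 21270924147) (nat_lit 117) (nat_lit 5) (nat_lit 122) (nat_lit 5) (nat_lit 118) (nat_lit 5) (nat_lit 508)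 (nat_lit 438) (nat_lit 254))) (XT.nd (nat_lit 78) (nat_lit 304) (nat_lit 0) (XT.lf (nat_lit 0) (nat_lit 36292639362) (nat_lit 380) (nat_lit 3017248938) (nat_lit 76) (nat_lit 2648767756) (nat_lit 113) (nat_lit 5) (nat_lit 118) (nat_lit 5) (nat_lit 114) (nat_lit 5) (nat_lit 509) (nat_lit 438) (nat_lit 253)) (XT.lf (nat_lit 0) (nat_lit 10692925432) (nat_lit 304) (nat_lit 6139648699) (nat_lit 76) (nat_lit 25919424793) (nat_lit 109) (nat_lit 5) (nat_lit 113) (nat_lit 5) (nat_lit 110) (nat_lit 5) (nat_lit 510) (nat_lit 438) (nat_lit 252))))) (XT.nd (nat_lit 57096) (nat_lit 0) (nat_lit 30552) (XT.nd (nat_lit 56940) (nat_lit 0) (nat_lit 30476) (XT.nd (nat_lit 56862) (nat_lit 0) (nat_lit 30476) (XT.lf (nat_lit 0) (nat_lit 27746609243) (nat_lit 380) (nat_lit 9300774139) (nat_lit 76) (nat_lit 6515390667) (nat_lit 105) (nat_lit 5) (nat_lit 110) (nat_lit 5) (nat_lit 106) (nat_lit 5) (nat_lit 511) (nat_lit 438) (nat_lit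 251)) (XT.lf (nat_lit 0) (nat_lit 744854006) (nat_lit 0) (nat_lit 744854006) (nat_lit 1748) (nat_lit 5072969661) (nat_lit 506) (nat_lit 5) (nat_lit 506) (nat_lit 3) (nat_lit 529) (nat_lit 3) (nat_lit 439) (nat_lit 439) (nat_lit 322))) (XT.nd (nat_lit 78) (nat_lit 0) (nat_lit 76) (XT.lf (nat_lit 0) (nat_lit 3665193314) (nat_lit 1748) (nat_lit 1879878890) (nat_lit 1824) (nat_lit 7764323418) (nat_lit 506) (nat_lit 5) (nat_lit 529) (nat_lit 3) (nat_lit 530) (nat_lit 5) (nat_lit 440) (nat_lit 439) (nat_lit 321)) (XT.lf (nat_lit 0) (nat_lit 4437099622) (nat_lit 1748) (nat_lit 5268280281) (nat_lit 1824) (nat_lit 3792266805) (nat_lit 507) (nat_lit 5) (nat_lit 530) (nat_lit 5) (nat_lit 531) (nat_lit 5) (nat_lit 441) (nat_lit 439) (nat_lit 320)))) (XT.nd (nat_lit 156) (nat_lit 0) (nat_lit 152) (XT.nd (nat_lit 78) (nat_lit 0) (nat_lit 76) (XT.lf (nat_lit 76) (nat_lit 4992268676) (nat_lit 0) (nat_lit 299921182)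 (nat_lit 1824) (nat_lit 8398155629) (nat_lit 508) (nat_lit 5) (nat_lit 507) (nat_lit 5) (nat_lit 531) (nat_lit 5) (nat_lit 442) (nat_lit 439) (nat_lit 319)) (XT.lf (nat_lit 76) (nat_lit 1692985947) (nat_lit 0) (nat_lit 4566166511) (nat_lit 1824) (nat_lit 7627949051) (nat_lit 509) (nat_lit 5) (nat_lit 508) (nat_lit 5) (nat_lit 532) (nat_lit 5) (nat_lit 443) (nat_lit 439) (nat_lit 318))) (XT.nd (nat_lit 78) (nat_lit 0) (nat_lit 76) (XT.lf (nat_lit 0) (nat_lit 7328744764) (nat_lit 1748) (nat_lit 1622413110) (nat_lit 1824) (nat_lit 5137130576) (nat_lit 509) (nat_lit 5) (nat_lit 532) (nat_lit 5) (nat_lit 533) (nat_lit 5) (nat_lit 444) (nat_lit 439) (nat_lit 317)) (XT.lf (nat_lit 0) (nat_lit 8506684992) (nat_lit 1748) (nat_lit 4953665578) (nat_lit 1824) (nat_lit 833635863) (nat_lit 510) (nat_lit 5) (nat_lit 533) (nat_lit 5) (nat_lit 534) (nat_lit 5) (nat_lit 445) (nat_lit 439) (nat_lit 316))))))))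
noncomputable def xc87 : XT := (XT.nd (nat_lit 2262) (nat_lit 12920) (nat_lit 0) (XT.nd (nat_lit 1092) (nat_lit 10336) (nat_lit 0) (XT.nd (nat_lit 546) (nat_lit 3648) (nat_lit 0) (XT.nd (nat_lit 234) (nat_lit 1596) (nat_lit 0) (XT.nd (nat_lit 78) (nat_lit 0) (nat_lit 76) (XT.lf (nat_lit 76) (nat_lit 6156512587) (nat_lit 0) (nat_lit 3654474227) (nat_lit 1824) (nat_lit 4693048691) (nat_lit 511) (nat_lit 5) (nat_lit 510) (nat_lit 5) (nat_lit 534) (nat_lit 5) (nat_lit 446) (nat_lit 439) (nat_lit 315)) (XT.nd (nat_lit 78) (nat_lit 0) (nat_lit 76) (XT.lf (nat_lit 76) (nat_lit 2931431297) (nat_lit 0) (nat_lit 8298323261) (nat_lit 1824) (nat_lit 3489125352) (nat_lit 512) (nat_lit 5) (nat_lit 511) (nat_lit 5) (nat_lit 535) (nat_lit 5) (nat_lit 447) (nat_lit 439) (nat_lit 314)) (XT.lf (nat_lit 0) (nat_lit 12765230792) (nat_lit 1748) (nat_lit 325654776) (nat_lit 1824) (nat_lit 1847801753) (nat_lit 512) (nat_lit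 5) (nat_lit 535) (nat_lit 5) (nat_lit 536) (nat_lit 5) (nat_lit 448) (nat_lit 439) (nat_lit 313)))) (XT.nd (nat_lit 156) (nat_lit 0) (nat_lit 76) (XT.nd (nat_lit 78) (nat_lit 1748) (nat_lit 0) (XT.lf (nat_lit 76) (nat_lit 11563301562) (nat_lit 0) (nat_lit 2895773258) (nat_lit 1824) (nat_lit 703768628) (nat_lit 513) (nat_lit 5) (nat_lit 512) (nat_lit 5) (nat_lit 536) (nat_lit 5) (nat_lit 449) (nat_lit 439) (nat_lit 312)) (XT.lf (nat_lit 0) (nat_lit 888771303) (nat_lit 1824) (nat_lit 6929454231) (nat_lit 1900) (nat_lit 7573606384) (nat_lit 489) (nat_lit 5) (nat_lit 513) (nat_lit 5) (nat_lit 514) (nat_lit 5) (nat_lit 450) (nat_lit 439) (nat_lit 311))) (XT.nd (nat_lit 78) (nat_lit 0) (nat_lit 0) (XT.lf (nat_lit 0) (nat_lit 2598632903) (nat_lit 1824) (nat_lit 10303311598) (nat_lit 1900) (nat_lit 2724070885) (nat_lit 490) (nat_lit 5) (nat_lit 514) (nat_lit 5) (nat_lit 515) (nat_lit 5) (nat_lit 451) (nat_lit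 439) (nat_lit 310)) (XT.lf (nat_lit 76) (nat_lit 2133163249) (nat_lit 0) (nat_lit 2323015847) (nat_lit 1900) (nat_lit 11409117996) (nat_lit 491) (nat_lit 5) (nat_lit 490) (nat_lit 5) (nat_lit 515) (nat_lit 5) (nat_lit 452) (nat_lit 439) (nat_lit 309))))) (XT.nd (nat_lit 234) (nat_lit 3800) (nat_lit 0) (XT.nd (nat_lit 78) (nat_lit 0) (nat_lit 76) (XT.lf (nat_lit 0) (nat_lit 6478818241) (nat_lit 1824) (nat_lit 1096073993) (nat_lit 1900) (nat_lit 8534678175) (nat_lit 491) (nat_lit 5) (nat_lit 515) (nat_lit 5) (nat_lit 516) (nat_lit 5) (nat_lit 453) (nat_lit 439) (nat_lit 308)) (XT.nd (nat_lit 78) (nat_lit 0) (nat_lit 0) (XT.lf (nat_lit 0) (nat_lit 8661936226) (nat_lit 1824) (nat_lit 4333163217) (nat_lit 1900) (nat_lit 3364076968) (nat_lit 492) (nat_lit 5) (nat_lit 516) (nat_lit 5) (nat_lit 517) (nat_lit 5) (nat_lit 454) (nat_lit 439) (nat_lit 307)) (XT.lf (nat_lit 76) (nat_lit 8994819418) (nat_lit 0) (nat_lit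 2016572141) (nat_lit 1900) (nat_lit 5602862620) (nat_lit 493) (nat_lit 5) (nat_lit 492) (nat_lit 5) (nat_lit 517) (nat_lit 5) (nat_lit 455) (nat_lit 439) (nat_lit 306)))) (XT.nd (nat_lit 156) (nat_lit 988) (nat_lit 0) (XT.nd (nat_lit 78) (nat_lit 1140) (nat_lit 0) (XT.lf (nat_lit 0) (nat_lit 5909341914) (nat_lit 1824) (nat_lit 7634938217) (nat_lit 1900) (nat_lit 3330445608) (nat_lit 469) (nat_lit 5) (nat_lit 493) (nat_lit 5) (nat_lit 494) (nat_lit 5) (nat_lit 456) (nat_lit 439) (nat_lit 305)) (XT.lf (nat_lit 0) (nat_lit 2792095746) (nat_lit 1140) (nat_lit 13453419521) (nat_lit 1216) (nat_lit 895649418) (nat_lit 454) (nat_lit 5) (nat_lit 469) (nat_lit 5) (nat_lit 470) (nat_lit 5) (nat_lit 457) (nat_lit 439) (nat_lit 304))) (XT.nd (nat_lit 78) (nat_lit 912) (nat_lit 0) (XT.lf (nat_lit 0) (nat_lit 1702228126) (nat_lit 1216) (nat_lit 377008200) (nat_lit 76) (nat_lit 15333927909) (nat_lit 453) (nat_lit 5)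 (nat_lit 469) (nat_lit 5) (nat_lit 454) (nat_lit 5) (nat_lit 458) (nat_lit 439) (nat_lit 303)) (XT.lf (nat_lit 0) (nat_lit 4506994063) (nat_lit 988) (nat_lit 3573543811) (nat_lit 76) (nat_lit 9609845486) (nat_lit 441) (nat_lit 5) (nat_lit 454) (nat_lit 5) (nat_lit 442) (nat_lit 5) (nat_lit 459) (nat_lit 439) (nat_lit 302)))))) (XT.nd (nat_lit 546) (nat_lit 5168) (nat_lit 0) (XT.nd (nat_lit 234) (nat_lit 2508) (nat_lit 0) (XT.nd (nat_lit 78) (nat_lit 1748) (nat_lit 0) (XT.lf (nat_lit 0) (nat_lit 7495333334) (nat_lit 988) (nat_lit 6803862069) (nat_lit 76) (nat_lit 3674735443) (nat_lit 429) (nat_lit 5) (nat_lit 442) (nat_lit 5) (nat_lit 430) (nat_lit 5) (nat_lit 460) (nat_lit 439) (nat_lit 301)) (XT.nd (nat_lit 78) (nat_lit 912) (nat_lit 0) (XT.lf (nat_lit 0) (nat_lit 8179447588) (nat_lit 836) (nat_lit 2511817574) (nat_lit 912) (nat_lit 7572361127) (nat_lit 418) (nat_lit 5) (nat_lit 429) (nat_lit 5) (nat_lit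 430) (nat_lit 5) (nat_lit 461) (nat_lit 439) (nat_lit 300)) (XT.lf (nat_lit 0) (nat_lit 5135739684) (nat_lit 912) (nat_lit 8976346495) (nat_lit 988) (nat_lit 4447346562) (nat_lit 406) (nat_lit 5) (nat_lit 418) (nat_lit 5) (nat_lit 419) (nat_lit 5) (nat_lit 462) (nat_lit 439) (nat_lit 299)))) (XT.nd (nat_lit 156) (nat_lit 1596) (nat_lit 0) (XT.nd (nat_lit 78) (nat_lit 76) (nat_lit 0) (XT.lf (nat_lit 0) (nat_lit 2063927105) (nat_lit 836) (nat_lit 15677925233) (nat_lit 912) (nat_lit 1120134996) (nat_lit 395) (nat_lit 5) (nat_lit 406) (nat_lit 5) (nat_lit 407) (nat_lit 5) (nat_lit 463) (nat_lit 439) (nat_lit 298)) (XT.lf (nat_lit 0) (nat_lit 2415481657) (nat_lit 912) (nat_lit 1060581723) (nat_lit 76) (nat_lit 15694479088) (nat_lit 394) (nat_lit 5) (nat_lit 406) (nat_lit 5) (nat_lit 395) (nat_lit 5) (nat_lit 464) (nat_lit 439) (nat_lit 297))) (XT.nd (nat_lit 78) (nat_lit 760) (nat_lit 0) (XT.lf (nat_lit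 0) (nat_lit 6188924972) (nat_lit 912) (nat_lit 4216327770) (nat_lit 76) (nat_lit 9080014236) (nat_lit 383) (nat_lit 5) (nat_lit 395) (nat_lit 5) (nat_lit 384) (nat_lit 5) (nat_lit 465) (nat_lit 439) (nat_lit 296)) (XT.lf (nat_lit 0) (nat_lit 10189172863) (nat_lit 836) (nat_lit 7401605173) (nat_lit 76) (nat_lit 2216383484) (nat_lit 373) (nat_lit 5) (nat_lit 384) (nat_lit 5) (nat_lit 374) (nat_lit 5) (nat_lit 466) (nat_lit 439) (nat_lit 295))))) (XT.nd (nat_lit 312) (nat_lit 2128) (nat_lit 0) (XT.nd (nat_lit 156) (nat_lit 1520) (nat_lit 0) (XT.nd (nat_lit 78) (nat_lit 760) (nat_lit 0) (XT.lf (nat_lit 0) (nat_lit 9487554134) (nat_lit 760) (nat_lit 4969982673) (nat_lit 836) (nat_lit 5678214231) (nat_lit 363) (nat_lit 5) (nat_lit 373) (nat_lit 5) (nat_lit 374) (nat_lit 5) (nat_lit 467) (nat_lit 439) (nat_lit 294)) (XT.lf (nat_lit 0) (nat_lit 6531919682) (nat_lit 760) (nat_lit 12455482654) (nat_lit 836) (nat_lit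 1484127198) (nat_lit 353) (nat_lit 5) (nat_lit 363) (nat_lit 5) (nat_lit 364) (nat_lit 5) (nat_lit 468) (nat_lit 439) (nat_lit 293))) (XT.nd (nat_lit 78) (nat_lit 684) (nat_lit 0) (XT.lf (nat_lit 0) (nat_lit 2920081422) (nat_lit 836) (nat_lit 17279900971) (nat_lit 76) (nat_lit 614601227) (nat_lit 342) (nat_lit 5) (nat_lit 353) (nat_lit 5) (nat_lit 343) (nat_lit 5) (nat_lit 469) (nat_lit 439) (nat_lit 292)) (XT.lf (nat_lit 0) (nat_lit 457381691) (nat_lit 684) (nat_lit 7149178682) (nat_lit 760) (nat_lit 13557766885) (nat_lit 333) (nat_lit 5) (nat_lit 342) (nat_lit 5) (nat_lit 343) (nat_lit 5) (nat_lit 470) (nat_lit 439) (nat_lit 291)))) (XT.nd (nat_lit 156) (nat_lit 1444) (nat_lit 0) (XT.nd (nat_lit 78) (nat_lit 684) (nat_lit 0) (XT.lf (nat_lit 0) (nat_lit 12581438450) (nat_lit 760) (nat_lit 2613286919) (nat_lit 76) (nat_lit 6326882012) (nat_lit 333) (nat_lit 5) (nat_lit 343) (nat_lit 5) (nat_lit 334)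 (nat_lit 5) (nat_lit 471) (nat_lit 439) (nat_lit 290)) (XT.lf (nat_lit 0) (nat_lit 16175139108) (nat_lit 684) (nat_lit 1672647330) (nat_lit 760) (nat_lit 4038975265) (nat_lit 324) (nat_lit 5) (nat_lit 333) (nat_lit 5) (nat_lit 334) (nat_lit 5) (nat_lit 472) (nat_lit 439) (nat_lit 289))) (XT.nd (nat_lit 78) (nat_lit 684) (nat_lit 0) (XT.lf (nat_lit 0) (nat_lit 1171072841) (nat_lit 760) (nat_lit 8883145174) (nat_lit 76) (nat_lit 12205020731) (nat_lit 314) (nat_lit 5) (nat_lit 324) (nat_lit 5) (nat_lit 315) (nat_lit 5) (nat_lit 473) (nat_lit 439) (nat_lit 288)) (XT.lf (nat_lit 0) (nat_lit 6617108439) (nat_lit 760) (nat_lit 12105698929) (nat_lit 76) (nat_lit 3916857826) (nat_lit 305) (nat_lit 5) (nat_lit 315) (nat_lit 5) (nat_lit 306) (nat_lit 5) (nat_lit 474) (nat_lit 439) (nat_lit 287))))))) (XT.nd (nat_lit 1170) (nat_lit 5624) (nat_lit 0) (XT.nd (nat_lit 546) (nat_lit 3572) (nat_lit 0) (XT.nd (nat_lit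 234) (nat_lit 1824) (nat_lit 0) (XT.nd (nat_lit 78) (nat_lit 1292) (nat_lit 0) (XT.lf (nat_lit 0) (nat_lit 7645226517) (nat_lit 608) (nat_lit 4748741296) (nat_lit 684) (nat_lit 10634188008) (nat_lit 297) (nat_lit 5) (nat_lit 305) (nat_lit 5) (nat_lit 306) (nat_lit 5) (nat_lit 475) (nat_lit 439) (nat_lit 286)) (XT.nd (nat_lit 78) (nat_lit 684) (nat_lit 0) (XT.lf (nat_lit 0) (nat_lit 4714115304) (nat_lit 608) (nat_lit 13795991805) (nat_lit 684) (nat_lit 4914874802) (nat_lit 289) (nat_lit 5) (nat_lit 297) (nat_lit 5) (nat_lit 298) (nat_lit 5) (nat_lit 476) (nat_lit 439) (nat_lit 285)) (XT.lf (nat_lit 0) (nat_lit 1105989271) (nat_lit 684) (nat_lit 22069954082) (nat_lit 76) (nat_lit 654787470) (nat_lit 280) (nat_lit 5) (nat_lit 289) (nat_lit 5) (nat_lit 281) (nat_lit 5) (nat_lit 477) (nat_lit 439) (nat_lit 284)))) (XT.nd (nat_lit 156) (nat_lit 1216) (nat_lit 0) (XT.nd (nat_lit 78) (nat_lit 608) (nat_lit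 0) (XT.lf (nat_lit 0) (nat_lit 7451480833) (nat_lit 684) (nat_lit 1281575471) (nat_lit 76) (nat_lit 15510730856) (nat_lit 280) (nat_lit 5) (nat_lit 289) (nat_lit 5) (nat_lit 281) (nat_lit 5) (nat_lit 478) (nat_lit 439) (nat_lit 283)) (XT.lf (nat_lit 0) (nat_lit 14151222448) (nat_lit 684) (nat_lit 4321520441) (nat_lit 76) (nat_lit 6193214799) (nat_lit 272) (nat_lit 5) (nat_lit 281) (nat_lit 5) (nat_lit 273) (nat_lit 5) (nat_lit 479) (nat_lit 439) (nat_lit 282))) (XT.nd (nat_lit 78) (nat_lit 684) (nat_lit 0) (XT.lf (nat_lit 0) (nat_lit 17698010862) (nat_lit 532) (nat_lit 3526953497) (nat_lit 608) (nat_lit 3872369012) (nat_lit 265) (nat_lit 5) (nat_lit 272) (nat_lit 5) (nat_lit 273) (nat_lit 5) (nat_lit 480) (nat_lit 439) (nat_lit 281)) (XT.lf (nat_lit 0) (nat_lit 3126688279) (nat_lit 684) (nat_lit 10554329597) (nat_lit 76) (nat_lit 11856319819) (nat_lit 256) (nat_lit 5) (nat_lit 265) (nat_lit 5) (nat_lit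 257) (nat_lit 5) (nat_lit 481) (nat_lit 439) (nat_lit 280))))) (XT.nd (nat_lit 312) (nat_lit 1444) (nat_lit 0) (XT.nd (nat_lit 156) (nat_lit 1064) (nat_lit 0) (XT.nd (nat_lit 78) (nat_lit 532) (nat_lit 0) (XT.lf (nat_lit 0) (nat_lit 10440051326) (nat_lit 608) (nat_lit 13751261679) (nat_lit 76) (nat_lit 1795578516) (nat_lit 249) (nat_lit 5) (nat_lit 257) (nat_lit 5) (nat_lit 250) (nat_lit 5) (nat_lit 482) (nat_lit 439) (nat_lit 279)) (XT.lf (nat_lit 0) (nat_lit 9425253039) (nat_lit 532) (nat_lit 8763655307) (nat_lit 608) (nat_lit 8256701932) (nat_lit 242) (nat_lit 5) (nat_lit 249) (nat_lit 5) (nat_lit 250) (nat_lit 5) (nat_lit 483) (nat_lit 439) (nat_lit 278))) (XT.nd (nat_lit 78) (nat_lit 608) (nat_lit 0) (XT.lf (nat_lit 0) (nat_lit 6597086926) (nat_lit 456) (nat_lit 19747618718) (nat_lit 532) (nat_lit 569895638) (nat_lit 236) (nat_lit 5) (nat_lit 242) (nat_lit 5) (nat_lit 243) (nat_lit 5) (nat_lit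 484) (nat_lit 439) (nat_lit 277)) (XT.lf (nat_lit 0) (nat_lit 3690468610) (nat_lit 532) (nat_lit 3751035093) (nat_lit 608) (nat_lit 19951397324) (nat_lit 228) (nat_lit 5) (nat_lit 235) (nat_lit 5) (nat_lit 236) (nat_lit 5) (nat_lit 485) (nat_lit 439) (nat_lit 276)))) (XT.nd (nat_lit 156) (nat_lit 988) (nat_lit 0) (XT.nd (nat_lit 78) (nat_lit 0) (nat_lit 0) (XT.lf (nat_lit 0) (nat_lit 724674532) (nat_lit 456) (nat_lit 15178622741) (nat_lit 532) (nat_lit 11977821415) (nat_lit 222) (nat_lit 5) (nat_lit 228) (nat_lit 5) (nat_lit 229) (nat_lit 5) (nat_lit 486) (nat_lit 439) (nat_lit 275)) (XT.lf (nat_lit 0) (nat_lit 24805410924) (nat_lit 532) (nat_lit 2217048652) (nat_lit 76) (nat_lit 1357794135) (nat_lit 222) (nat_lit 5) (nat_lit 229) (nat_lit 5) (nat_lit 223) (nat_lit 5) (nat_lit 487) (nat_lit 439) (nat_lit 274))) (XT.nd (nat_lit 78) (nat_lit 456) (nat_lit 0) (XT.lf (nat_lit 0) (nat_lit 5262622671) (nat_lit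 532) (nat_lit 5255708848) (nat_lit 76) (nat_lit 18370391219) (nat_lit 215) (nat_lit 5) (nat_lit 222) (nat_lit 5) (nat_lit 216) (nat_lit 5) (nat_lit 488) (nat_lit 439) (nat_lit 273)) (XT.lf (nat_lit 0) (nat_lit 14504699659) (nat_lit 532) (nat_lit 8333580086) (nat_lit 76) (nat_lit 6569932528) (nat_lit 209) (nat_lit 5) (nat_lit 216) (nat_lit 5) (nat_lit 210) (nat_lit 5) (nat_lit 489) (nat_lit 439) (nat_lit 272)))))) (XT.nd (nat_lit 546) (nat_lit 2660) (nat_lit 0) (XT.nd (nat_lit 234) (nat_lit 1596) (nat_lit 0) (XT.nd (nat_lit 78) (nat_lit 912) (nat_lit 0) (XT.lf (nat_lit 0) (nat_lit 18485129044) (nat_lit 456) (nat_lit 5757566290) (nat_lit 532) (nat_lit 5696218175) (nat_lit 203) (nat_lit 5) (nat_lit 209) (nat_lit 5) (nat_lit 210) (nat_lit 5) (nat_lit 490) (nat_lit 439) (nat_lit 271)) (XT.nd (nat_lit 78) (nat_lit 456) (nat_lit 0) (XT.lf (nat_lit 0) (nat_lit 3968366726) (nat_lit 456) (nat_lit 14649162155)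 (nat_lit 76) (nat_lit 11862900387) (nat_lit 197) (nat_lit 5) (nat_lit 203) (nat_lit 5) (nat_lit 198) (nat_lit 5) (nat_lit 491) (nat_lit 439) (nat_lit 270)) (XT.lf (nat_lit 0) (nat_lit 13139379499) (nat_lit 456) (nat_lit 901176561) (nat_lit 532) (nat_lit 16992980407) (nat_lit 191) (nat_lit 5) (nat_lit 197) (nat_lit 5) (nat_lit 198) (nat_lit 5) (nat_lit 492) (nat_lit 439) (nat_lit 269)))) (XT.nd (nat_lit 156) (nat_lit 760) (nat_lit 0) (XT.nd (nat_lit 78) (nat_lit 456) (nat_lit 0) (XT.lf (nat_lit 0) (nat_lit 10372810082) (nat_lit 380) (nat_lit 14314793997) (nat_lit 456) (nat_lit 6910179069) (nat_lit 186) (nat_lit 5) (nat_lit 191) (nat_lit 5) (nat_lit 192) (nat_lit 5) (nat_lit 493) (nat_lit 439) (nat_lit 268)) (XT.lf (nat_lit 0) (nat_lit 3626027345) (nat_lit 456) (nat_lit 24585200796) (nat_lit 76) (nat_lit 3963348002) (nat_lit 180) (nat_lit 5) (nat_lit 186) (nat_lit 5) (nat_lit 181) (nat_lit 5) (nat_lit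 494) (nat_lit 439) (nat_lit 267))) (XT.nd (nat_lit 78) (nat_lit 380) (nat_lit 0) (XT.lf (nat_lit 0) (nat_lit 4700993956) (nat_lit 380) (nat_lit 9948014432) (nat_lit 456) (nat_lit 18113459716) (nat_lit 175) (nat_lit 5) (nat_lit 180) (nat_lit 5) (nat_lit 181) (nat_lit 5) (nat_lit 495) (nat_lit 439) (nat_lit 266)) (XT.lf (nat_lit 0) (nat_lit 1791891727) (nat_lit 380) (nat_lit 24440783487) (nat_lit 456) (nat_lit 7130721796) (nat_lit 170) (nat_lit 5) (nat_lit 175) (nat_lit 5) (nat_lit 176) (nat_lit 5) (nat_lit 496) (nat_lit 439) (nat_lit 265))))) (XT.nd (nat_lit 312) (nat_lit 1444) (nat_lit 0) (XT.nd (nat_lit 156) (nat_lit 760) (nat_lit 0) (XT.nd (nat_lit 78) (nat_lit 380) (nat_lit 0) (XT.lf (nat_lit 0) (nat_lit 4377801359) (nat_lit 456) (nat_lit 1159032523) (nat_lit 76) (nat_lit 28439954144) (nat_lit 169) (nat_lit 5) (nat_lit 175) (nat_lit 5) (nat_lit 170) (nat_lit 5) (nat_lit 497) (nat_lit 439) (nat_lit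 264)) (XT.lf (nat_lit 0) (nat_lit 16418809366) (nat_lit 456) (nat_lit 4187834308) (nat_lit 76) (nat_lit 13995312369) (nat_lit 164) (nat_lit 5) (nat_lit 170) (nat_lit 5) (nat_lit 165) (nat_lit 5) (nat_lit 498) (nat_lit 439) (nat_lit 263))) (XT.nd (nat_lit 78) (nat_lit 380) (nat_lit 0) (XT.lf (nat_lit 0) (nat_lit 28024936875) (nat_lit 380) (nat_lit 1016506850) (nat_lit 456) (nat_lit 6200027554) (nat_lit 159) (nat_lit 5) (nat_lit 164) (nat_lit 5) (nat_lit 165) (nat_lit 5) (nat_lit 499) (nat_lit 439) (nat_lit 262)) (XT.lf (nat_lit 0) (nat_lit 6376643062) (nat_lit 380) (nat_lit 10373491874) (nat_lit 76) (nat_lit 19142947118) (nat_lit 154) (nat_lit 5) (nat_lit 159) (nat_lit 5) (nat_lit 155) (nat_lit 5) (nat_lit 500) (nat_lit 439) (nat_lit 261)))) (XT.nd (nat_lit 156) (nat_lit 760) (nat_lit 0) (XT.nd (nat_lit 78) (nat_lit 304) (nat_lit 0) (XT.lf (nat_lit 0) (nat_lit 19469191981) (nat_lit 456) (nat_lit 13566021651)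 (nat_lit 76) (nat_lit 3523751725) (nat_lit 149) (nat_lit 5) (nat_lit 155) (nat_lit 5) (nat_lit 150) (nat_lit 5) (nat_lit 501) (nat_lit 439) (nat_lit 260)) (XT.lf (nat_lit 0) (nat_lit 20404122665) (nat_lit 304) (nat_lit 12859430514) (nat_lit 380) (nat_lit 3975091354) (nat_lit 145) (nat_lit 5) (nat_lit 149) (nat_lit 5) (nat_lit 150) (nat_lit 5) (nat_lit 502) (nat_lit 439) (nat_lit 259))) (XT.nd (nat_lit 78) (nat_lit 304) (nat_lit 0) (XT.lf (nat_lit 0) (nat_lit 9663188140) (nat_lit 456) (nat_lit 20183320617) (nat_lit 76) (nat_lit 8085863832) (nat_lit 139) (nat_lit 5) (nat_lit 145) (nat_lit 5) (nat_lit 140) (nat_lit 5) (nat_lit 503) (nat_lit 439) (nat_lit 258)) (XT.lf (nat_lit 0) (nat_lit 15029916439) (nat_lit 304) (nat_lit 8919366406) (nat_lit 380) (nat_lit 14691250763) (nat_lit 135) (nat_lit 5) (nat_lit 139) (nat_lit 5) (nat_lit 140) (nat_lit 5) (nat_lit 504) (nat_lit 439) (nat_lit 257))))))))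
noncomputable def xc88 : XT := (XT.nd (nat_lit 59124) (nat_lit 0) (nat_lit 7600) (XT.nd (nat_lit 57954) (nat_lit 0) (nat_lit 24320) (XT.nd (nat_lit 57408) (nat_lit 0) (nat_lit 30172) (XT.nd (nat_lit 234) (nat_lit 988) (nat_lit 0) (XT.nd (nat_lit 78) (nat_lit 684) (nat_lit 0) (XT.lf (nat_lit 0) (nat_lit 12276949509) (nat_lit 304) (nat_lit 26680475830) (nat_lit 380) (nat_lit 406644902) (nat_lit 131) (nat_lit 5) (nat_lit 135) (nat_lit 5) (nat_lit 136) (nat_lit 5) (nat_lit 505) (nat_lit 439) (nat_lit 256)) (XT.nd (nat_lit 78) (nat_lit 304) (nat_lit 0) (XT.lf (nat_lit 0) (nat_lit 9418486695) (nat_lit 304) (nat_lit 4976345939) (nat_lit 380) (nat_lit 25707103354) (nat_lit 126) (nat_lit 5) (nat_lit 130) (nat_lit 5) (nat_lit 131) (nat_lit 5) (nat_lit 506) (nat_lit 439) (nat_lit 255)) (XT.lf (nat_lit 0) (nat_lit 6490528039) (nat_lit 304) (nat_lit 23478275865) (nat_lit 380) (nat_lit 10886400640) (nat_lit 122)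 (nat_lit 5) (nat_lit 126) (nat_lit 5) (nat_lit 127) (nat_lit 5) (nat_lit 507) (nat_lit 439) (nat_lit 254)))) (XT.nd (nat_lit 156) (nat_lit 304) (nat_lit 0) (XT.nd (nat_lit 78) (nat_lit 304) (nat_lit 0) (XT.lf (nat_lit 0) (nat_lit 3546725908) (nat_lit 304) (nat_lit 1034641152) (nat_lit 380) (nat_lit 37043938065) (nat_lit 117) (nat_lit 5) (nat_lit 121) (nat_lit 5) (nat_lit 122) (nat_lit 5) (nat_lit 508) (nat_lit 439) (nat_lit 253)) (XT.lf (nat_lit 0) (nat_lit 430487785) (nat_lit 304) (nat_lit 20310547320) (nat_lit 380) (nat_lit 21668519089) (nat_lit 113) (nat_lit 5) (nat_lit 117) (nat_lit 5) (nat_lit 118) (nat_lit 5) (nat_lit 509) (nat_lit 439) (nat_lit 252))) (XT.nd (nat_lit 78) (nat_lit 304) (nat_lit 0) (XT.lf (nat_lit 0) (nat_lit 37664040225) (nat_lit 380) (nat_lit 2631582976) (nat_lit 76) (nat_lit 2916136662) (nat_lit 113) (nat_lit 5) (nat_lit 118) (nat_lit 5) (nat_lit 114) (nat_lit 5) (nat_lit 510)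 (nat_lit 439) (nat_lit 251)) (XT.lf (nat_lit 0) (nat_lit 11292985308) (nat_lit 304) (nat_lit 5851665585) (nat_lit 76) (nat_lit 26884319281) (nat_lit 109) (nat_lit 5) (nat_lit 113) (nat_lit 5) (nat_lit 110) (nat_lit 5) (nat_lit 511) (nat_lit 439) (nat_lit 250))))) (XT.nd (nat_lit 234) (nat_lit 0) (nat_lit 76) (XT.nd (nat_lit 78) (nat_lit 0) (nat_lit 0) (XT.lf (nat_lit 0) (nat_lit 1059366369) (nat_lit 0) (nat_lit 1059366369) (nat_lit 1748) (nat_lit 4629120438) (nat_lit 506) (nat_lit 5) (nat_lit 506) (nat_lit 3) (nat_lit 529) (nat_lit 3) (nat_lit 440) (nat_lit 440) (nat_lit 320)) (XT.nd (nat_lit 78) (nat_lit 0) (nat_lit 76) (XT.lf (nat_lit 0) (nat_lit 4906093862) (nat_lit 1748) (nat_lit 1342549995) (nat_lit 1824) (nat_lit 7437379483) (nat_lit 506) (nat_lit 5) (nat_lit 529) (nat_lit 3) (nat_lit 530) (nat_lit 5) (nat_lit 441) (nat_lit 440) (nat_lit 319)) (XT.lf (nat_lit 0) (nat_lit 5668648260) (nat_lit 1748)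 (nat_lit 4816804467) (nat_lit 1824) (nat_lit 3395120440) (nat_lit 507) (nat_lit 5) (nat_lit 530) (nat_lit 5) (nat_lit 531) (nat_lit 5) (nat_lit 442) (nat_lit 440) (nat_lit 318)))) (XT.nd (nat_lit 156) (nat_lit 0) (nat_lit 152) (XT.nd (nat_lit 78) (nat_lit 0) (nat_lit 76) (XT.lf (nat_lit 76) (nat_lit 5741672151) (nat_lit 0) (nat_lit 779619010) (nat_lit 1824) (nat_lit 7558324744) (nat_lit 508) (nat_lit 5) (nat_lit 507) (nat_lit 5) (nat_lit 531) (nat_lit 5) (nat_lit 443) (nat_lit 440) (nat_lit 317)) (XT.lf (nat_lit 76) (nat_lit 2357781192) (nat_lit 0) (nat_lit 5129326072) (nat_lit 1824) (nat_lit 6795771421) (nat_lit 509) (nat_lit 5) (nat_lit 508) (nat_lit 5) (nat_lit 532) (nat_lit 5) (nat_lit 444) (nat_lit 440) (nat_lit 316))) (XT.nd (nat_lit 78) (nat_lit 0) (nat_lit 76) (XT.lf (nat_lit 0) (nat_lit 8555804412) (nat_lit 1748) (nat_lit 1052048082) (nat_lit 1824) (nat_lit 4882909339) (nat_lit 509) (nat_lit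 5) (nat_lit 532) (nat_lit 5) (nat_lit 533) (nat_lit 5) (nat_lit 445) (nat_lit 440) (nat_lit 315)) (XT.lf (nat_lit 0) (nat_lit 9741280395) (nat_lit 1748) (nat_lit 4471193947) (nat_lit 1824) (nat_lit 490713375) (nat_lit 510) (nat_lit 5) (nat_lit 533) (nat_lit 5) (nat_lit 534) (nat_lit 5) (nat_lit 446) (nat_lit 440) (nat_lit 314)))))) (XT.nd (nat_lit 546) (nat_lit 4484) (nat_lit 0) (XT.nd (nat_lit 234) (nat_lit 1672) (nat_lit 0) (XT.nd (nat_lit 78) (nat_lit 0) (nat_lit 76) (XT.lf (nat_lit 76) (nat_lit 6962051014) (nat_lit 0) (nat_lit 4098165119) (nat_lit 1824) (nat_lit 3859812916) (nat_lit 511) (nat_lit 5) (nat_lit 510) (nat_lit 5) (nat_lit 534) (nat_lit 5) (nat_lit 447) (nat_lit 440) (nat_lit 313)) (XT.nd (nat_lit 78) (nat_lit 0) (nat_lit 76) (XT.lf (nat_lit 76) (nat_lit 3651095774) (nat_lit 0) (nat_lit 8844634333) (nat_lit 1824) (nat_lit 2646105876) (nat_lit 512) (nat_lit 5) (nat_lit 511) (nat_lit 5)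 (nat_lit 535) (nat_lit 5) (nat_lit 448) (nat_lit 440) (nat_lit 312)) (XT.lf (nat_lit 76) (nat_lit 301798311) (nat_lit 0) (nat_lit 13748496689) (nat_lit 1824) (nat_lit 1318482963) (nat_lit 513) (nat_lit 5) (nat_lit 512) (nat_lit 5) (nat_lit 536) (nat_lit 5) (nat_lit 449) (nat_lit 440) (nat_lit 311)))) (XT.nd (nat_lit 156) (nat_lit 0) (nat_lit 152) (XT.nd (nat_lit 78) (nat_lit 0) (nat_lit 76) (XT.lf (nat_lit 0) (nat_lit 168441116) (nat_lit 1824) (nat_lit 3068059165) (nat_lit 1900) (nat_lit 12363619790) (nat_lit 488) (nat_lit 5) (nat_lit 512) (nat_lit 5) (nat_lit 513) (nat_lit 5) (nat_lit 450) (nat_lit 440) (nat_lit 310)) (XT.lf (nat_lit 0) (nat_lit 1776019448) (nat_lit 1824) (nat_lit 6494062210) (nat_lit 1900) (nat_lit 7566267798) (nat_lit 489) (nat_lit 5) (nat_lit 513) (nat_lit 5) (nat_lit 514) (nat_lit 5) (nat_lit 451) (nat_lit 440) (nat_lit 309))) (XT.nd (nat_lit 78) (nat_lit 0) (nat_lit 0) (XT.lf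 (nat_lit 0) (nat_lit 3514877515) (nat_lit 1824) (nat_lit 9961411534) (nat_lit 1900) (nat_lit 2601716116) (nat_lit 490) (nat_lit 5) (nat_lit 514) (nat_lit 5) (nat_lit 515) (nat_lit 5) (nat_lit 452) (nat_lit 440) (nat_lit 308)) (XT.lf (nat_lit 76) (nat_lit 2837595867) (nat_lit 0) (nat_lit 2570296288) (nat_lit 1900) (nat_lit 10916979053) (nat_lit 491) (nat_lit 5) (nat_lit 490) (nat_lit 5) (nat_lit 515) (nat_lit 5) (nat_lit 453) (nat_lit 440) (nat_lit 307))))) (XT.nd (nat_lit 312) (nat_lit 3040) (nat_lit 0) (XT.nd (nat_lit 156) (nat_lit 1672) (nat_lit 0) (XT.nd (nat_lit 78) (nat_lit 0) (nat_lit 76) (XT.lf (nat_lit 0) (nat_lit 7466264976) (nat_lit 1824) (nat_lit 490145001) (nat_lit 1900) (nat_lit 8620562364) (nat_lit 491) (nat_lit 5) (nat_lit 515) (nat_lit 5) (nat_lit 516) (nat_lit 5) (nat_lit 454) (nat_lit 440) (nat_lit 306)) (XT.lf (nat_lit 0) (nat_lit 9694911881) (nat_lit 1824) (nat_lit 3818261308) (nat_lit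 1900) (nat_lit 3321293310) (nat_lit 492) (nat_lit 5) (nat_lit 516) (nat_lit 5) (nat_lit 517) (nat_lit 5) (nat_lit 455) (nat_lit 440) (nat_lit 305))) (XT.nd (nat_lit 78) (nat_lit 1748) (nat_lit 0) (XT.lf (nat_lit 76) (nat_lit 9899098121) (nat_lit 0) (nat_lit 2197353933) (nat_lit 1900) (nat_lit 5001113189) (nat_lit 493) (nat_lit 5) (nat_lit 492) (nat_lit 5) (nat_lit 517) (nat_lit 5) (nat_lit 456) (nat_lit 440) (nat_lit 304)) (XT.lf (nat_lit 0) (nat_lit 6726402963) (nat_lit 1824) (nat_lit 7960337882) (nat_lit 1900) (nat_lit 2679482480) (nat_lit 469) (nat_lit 5) (nat_lit 493) (nat_lit 5) (nat_lit 494) (nat_lit 5) (nat_lit 457) (nat_lit 440) (nat_lit 303)))) (XT.nd (nat_lit 156) (nat_lit 912) (nat_lit 0) (XT.nd (nat_lit 78) (nat_lit 988) (nat_lit 0) (XT.lf (nat_lit 0) (nat_lit 3520380134) (nat_lit 1140) (nat_lit 13930769458) (nat_lit 1216) (nat_lit 189863744) (nat_lit 454) (nat_lit 5) (nat_lit 469) (nat_lit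 5) (nat_lit 470) (nat_lit 5) (nat_lit 458) (nat_lit 440) (nat_lit 302)) (XT.lf (nat_lit 0) (nat_lit 250059106) (nat_lit 912) (nat_lit 2206846066) (nat_lit 988) (nat_lit 15464561881) (nat_lit 441) (nat_lit 5) (nat_lit 453) (nat_lit 5) (nat_lit 454) (nat_lit 5) (nat_lit 459) (nat_lit 440) (nat_lit 301))) (XT.nd (nat_lit 78) (nat_lit 912) (nat_lit 0) (XT.lf (nat_lit 0) (nat_lit 5327406131) (nat_lit 988) (nat_lit 3041829816) (nat_lit 76) (nat_lit 9838135544) (nat_lit 441) (nat_lit 5) (nat_lit 454) (nat_lit 5) (nat_lit 442) (nat_lit 5) (nat_lit 460) (nat_lit 440) (nat_lit 300)) (XT.lf (nat_lit 0) (nat_lit 8389254513) (nat_lit 988) (nat_lit 6365753349) (nat_lit 76) (nat_lit 3744740924) (nat_lit 429) (nat_lit 5) (nat_lit 442) (nat_lit 5) (nat_lit 430) (nat_lit 5) (nat_lit 461) (nat_lit 440) (nat_lit 299))))))) (XT.nd (nat_lit 1092) (nat_lit 7296) (nat_lit 0) (XT.nd (nat_lit 546) (nat_lit 4408) (nat_lit 0)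 (XT.nd (nat_lit 234) (nat_lit 2432) (nat_lit 0) (XT.nd (nat_lit 78) (nat_lit 1748) (nat_lit 0) (XT.lf (nat_lit 0) (nat_lit 9056636266) (nat_lit 836) (nat_lit 2609042909) (nat_lit 912) (nat_lit 7132764165) (nat_lit 418) (nat_lit 5) (nat_lit 429) (nat_lit 5) (nat_lit 430) (nat_lit 5) (nat_lit 462) (nat_lit 440) (nat_lit 298)) (XT.nd (nat_lit 78) (nat_lit 836) (nat_lit 0) (XT.lf (nat_lit 0) (nat_lit 5924385871) (nat_lit 912) (nat_lit 9249682055) (nat_lit 988) (nat_lit 3929357728) (nat_lit 406) (nat_lit 5) (nat_lit 418) (nat_lit 5) (nat_lit 419) (nat_lit 5) (nat_lit 463) (nat_lit 440) (nat_lit 297)) (XT.lf (nat_lit 0) (nat_lit 2762732109) (nat_lit 836) (nat_lit 16135503998) (nat_lit 912) (nat_lit 517111113) (nat_lit 395) (nat_lit 5) (nat_lit 406) (nat_lit 5) (nat_lit 407) (nat_lit 5) (nat_lit 464) (nat_lit 440) (nat_lit 296)))) (XT.nd (nat_lit 156) (nat_lit 1520) (nat_lit 0) (XT.nd (nat_lit 78) (nat_lit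 836) (nat_lit 0) (XT.lf (nat_lit 0) (nat_lit 3097925178) (nat_lit 912) (nat_lit 465939452) (nat_lit 76) (nat_lit 16169578188) (nat_lit 394) (nat_lit 5) (nat_lit 406) (nat_lit 5) (nat_lit 395) (nat_lit 5) (nat_lit 465) (nat_lit 440) (nat_lit 295)) (XT.lf (nat_lit 0) (nat_lit 6970937201) (nat_lit 912) (nat_lit 3714711683) (nat_lit 76) (nat_lit 9372233347) (nat_lit 383) (nat_lit 5) (nat_lit 395) (nat_lit 5) (nat_lit 384) (nat_lit 5) (nat_lit 466) (nat_lit 440) (nat_lit 294))) (XT.nd (nat_lit 78) (nat_lit 760) (nat_lit 0) (XT.lf (nat_lit 0) (nat_lit 11078061969) (nat_lit 836) (nat_lit 6994289310) (nat_lit 76) (nat_lit 2317345403) (nat_lit 373) (nat_lit 5) (nat_lit 384) (nat_lit 5) (nat_lit 374) (nat_lit 5) (nat_lit 467) (nat_lit 440) (nat_lit 293)) (XT.lf (nat_lit 0) (nat_lit 10391334093) (nat_lit 760) (nat_lit 5070175881) (nat_lit 836) (nat_lit 5266893699) (nat_lit 363) (nat_lit 5) (nat_lit 373) (nat_lit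 5) (nat_lit 374) (nat_lit 5) (nat_lit 468) (nat_lit 440) (nat_lit 292))))) (XT.nd (nat_lit 234) (nat_lit 2128) (nat_lit 0) (XT.nd (nat_lit 78) (nat_lit 1520) (nat_lit 0) (XT.lf (nat_lit 0) (nat_lit 7347907822) (nat_lit 760) (nat_lit 12767088440) (nat_lit 836) (nat_lit 959505199) (nat_lit 353) (nat_lit 5) (nat_lit 363) (nat_lit 5) (nat_lit 364) (nat_lit 5) (nat_lit 469) (nat_lit 440) (nat_lit 291)) (XT.nd (nat_lit 78) (nat_lit 684) (nat_lit 0) (XT.lf (nat_lit 0) (nat_lit 3557455178) (nat_lit 836) (nat_lit 17170410432) (nat_lit 76) (nat_lit 700146271) (nat_lit 342) (nat_lit 5) (nat_lit 353) (nat_lit 5) (nat_lit 343) (nat_lit 5) (nat_lit 470) (nat_lit 440) (nat_lit 290)) (XT.lf (nat_lit 0) (nat_lit 1088803981) (nat_lit 684) (nat_lit 7283722285) (nat_lit 760) (nat_lit 13415962010) (nat_lit 333) (nat_lit 5) (nat_lit 342) (nat_lit 5) (nat_lit 343) (nat_lit 5) (nat_lit 471) (nat_lit 440) (nat_lit 289)))) (XT.nd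 (nat_lit 156) (nat_lit 1444) (nat_lit 0) (XT.nd (nat_lit 78) (nat_lit 684) (nat_lit 0) (XT.lf (nat_lit 0) (nat_lit 13481491362) (nat_lit 760) (nat_lit 2082024683) (nat_lit 76) (nat_lit 6593274335) (nat_lit 333) (nat_lit 5) (nat_lit 343) (nat_lit 5) (nat_lit 334) (nat_lit 5) (nat_lit 472) (nat_lit 440) (nat_lit 288)) (XT.lf (nat_lit 0) (nat_lit 17260163102) (nat_lit 684) (nat_lit 1634339146) (nat_lit 760) (nat_lit 3638624012) (nat_lit 324) (nat_lit 5) (nat_lit 333) (nat_lit 5) (nat_lit 334) (nat_lit 5) (nat_lit 473) (nat_lit 440) (nat_lit 287))) (XT.nd (nat_lit 78) (nat_lit 684) (nat_lit 0) (XT.lf (nat_lit 0) (nat_lit 1710374914) (nat_lit 760) (nat_lit 8543381079) (nat_lit 76) (nat_lit 12663164477) (nat_lit 314) (nat_lit 5) (nat_lit 324) (nat_lit 5) (nat_lit 315) (nat_lit 5) (nat_lit 474) (nat_lit 440) (nat_lit 286)) (XT.lf (nat_lit 0) (nat_lit 7309648558) (nat_lit 760) (nat_lit 11863237593) (nat_lit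 76) (nat_lit 4136076774) (nat_lit 305) (nat_lit 5) (nat_lit 315) (nat_lit 5) (nat_lit 306) (nat_lit 5) (nat_lit 475) (nat_lit 440) (nat_lit 285)))))) (XT.nd (nat_lit 546) (nat_lit 3572) (nat_lit 0) (XT.nd (nat_lit 234) (nat_lit 1824) (nat_lit 0) (XT.nd (nat_lit 78) (nat_lit 1292) (nat_lit 0) (XT.lf (nat_lit 0) (nat_lit 8470389951) (nat_lit 608) (nat_lit 4778903001) (nat_lit 684) (nat_lit 10460026072) (nat_lit 297) (nat_lit 5) (nat_lit 305) (nat_lit 5) (nat_lit 306) (nat_lit 5) (nat_lit 476) (nat_lit 440) (nat_lit 284)) (XT.nd (nat_lit 78) (nat_lit 684) (nat_lit 0) (XT.lf (nat_lit 0) (nat_lit 5450486248) (nat_lit 608) (nat_lit 14088918165) (nat_lit 684) (nat_lit 4578836056) (nat_lit 289) (nat_lit 5) (nat_lit 297) (nat_lit 5) (nat_lit 298) (nat_lit 5) (nat_lit 477) (nat_lit 440) (nat_lit 283)) (XT.lf (nat_lit 0) (nat_lit 1607064299) (nat_lit 684) (nat_lit 22131964614) (nat_lit 76) (nat_lit 797255441)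 (nat_lit 280) (nat_lit 5) (nat_lit 289) (nat_lit 5) (nat_lit 281) (nat_lit 5) (nat_lit 478) (nat_lit 440) (nat_lit 282)))) (XT.nd (nat_lit 156) (nat_lit 1216) (nat_lit 0) (XT.nd (nat_lit 78) (nat_lit 608) (nat_lit 0) (XT.lf (nat_lit 0) (nat_lit 8129292587) (nat_lit 684) (nat_lit 737412939) (nat_lit 76) (nat_lit 16095299721) (nat_lit 280) (nat_lit 5) (nat_lit 289) (nat_lit 5) (nat_lit 281) (nat_lit 5) (nat_lit 479) (nat_lit 440) (nat_lit 281)) (XT.lf (nat_lit 0) (nat_lit 15021350342) (nat_lit 684) (nat_lit 3869937031) (nat_lit 76) (nat_lit 6505727336) (nat_lit 272) (nat_lit 5) (nat_lit 281) (nat_lit 5) (nat_lit 273) (nat_lit 5) (nat_lit 480) (nat_lit 440) (nat_lit 280))) (XT.nd (nat_lit 78) (nat_lit 684) (nat_lit 0) (XT.lf (nat_lit 0) (nat_lit 18800750461) (nat_lit 532) (nat_lit 3497288165) (nat_lit 608) (nat_lit 3543478643) (nat_lit 265) (nat_lit 5) (nat_lit 272) (nat_lit 5) (nat_lit 273) (nat_lit 5)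 (nat_lit 481) (nat_lit 440) (nat_lit 279)) (XT.lf (nat_lit 0) (nat_lit 3651506957) (nat_lit 684) (nat_lit 10294970784) (nat_lit 76) (nat_lit 12348350589) (nat_lit 256) (nat_lit 5) (nat_lit 265) (nat_lit 5) (nat_lit 257) (nat_lit 5) (nat_lit 482) (nat_lit 440) (nat_lit 278))))) (XT.nd (nat_lit 312) (nat_lit 1444) (nat_lit 0) (XT.nd (nat_lit 156) (nat_lit 1064) (nat_lit 0) (XT.nd (nat_lit 78) (nat_lit 532) (nat_lit 0) (XT.lf (nat_lit 0) (nat_lit 11176334195) (nat_lit 608) (nat_lit 13589642024) (nat_lit 76) (nat_lit 1992051551) (nat_lit 249) (nat_lit 5) (nat_lit 257) (nat_lit 5) (nat_lit 250) (nat_lit 5) (nat_lit 483) (nat_lit 440) (nat_lit 277)) (XT.lf (nat_lit 0) (nat_lit 10272853112) (nat_lit 532) (nat_lit 8876148389) (nat_lit 608) (nat_lit 8081679956) (nat_lit 242) (nat_lit 5) (nat_lit 249) (nat_lit 5) (nat_lit 250) (nat_lit 5) (nat_lit 484) (nat_lit 440) (nat_lit 276))) (XT.nd (nat_lit 78) (nat_lit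 608) (nat_lit 0) (XT.lf (nat_lit 0) (nat_lit 7357879875) (nat_lit 456) (nat_lit 20184124938) (nat_lit 532) (nat_lit 171886988) (nat_lit 236) (nat_lit 5) (nat_lit 242) (nat_lit 5) (nat_lit 243) (nat_lit 5) (nat_lit 485) (nat_lit 440) (nat_lit 275)) (XT.lf (nat_lit 0) (nat_lit 4360294866) (nat_lit 532) (nat_lit 3705813528) (nat_lit 608) (nat_lit 20140544516) (nat_lit 228) (nat_lit 5) (nat_lit 235) (nat_lit 5) (nat_lit 236) (nat_lit 5) (nat_lit 486) (nat_lit 440) (nat_lit 274)))) (XT.nd (nat_lit 156) (nat_lit 988) (nat_lit 0) (XT.nd (nat_lit 78) (nat_lit 0) (nat_lit 0) (XT.lf (nat_lit 0) (nat_lit 1303353205) (nat_lit 456) (nat_lit 15471322897) (nat_lit 532) (nat_lit 11934982823) (nat_lit 222) (nat_lit 5) (nat_lit 228) (nat_lit 5) (nat_lit 229) (nat_lit 5) (nat_lit 487) (nat_lit 440) (nat_lit 273)) (XT.lf (nat_lit 0) (nat_lit 25933394609) (nat_lit 532) (nat_lit 1736205088) (nat_lit 76) (nat_lit 1554377697)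 (nat_lit 222) (nat_lit 5) (nat_lit 229) (nat_lit 5) (nat_lit 223) (nat_lit 5) (nat_lit 488) (nat_lit 440) (nat_lit 272))) (XT.nd (nat_lit 78) (nat_lit 456) (nat_lit 0) (XT.lf (nat_lit 0) (nat_lit 5799137750) (nat_lit 532) (nat_lit 4869866258) (nat_lit 76) (nat_lit 19078800545) (nat_lit 215) (nat_lit 5) (nat_lit 222) (nat_lit 5) (nat_lit 216) (nat_lit 5) (nat_lit 489) (nat_lit 440) (nat_lit 271)) (XT.lf (nat_lit 0) (nat_lit 15311982708) (nat_lit 532) (nat_lit 8042525279) (nat_lit 76) (nat_lit 6928500882) (nat_lit 209) (nat_lit 5) (nat_lit 216) (nat_lit 5) (nat_lit 210) (nat_lit 5) (nat_lit 490) (nat_lit 440) (nat_lit 270))))))))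
noncomputable def xc89 : XT := (XT.nd (nat_lit 59202) (nat_lit 0) (nat_lit 13376) (XT.nd (nat_lit 1092) (nat_lit 1976) (nat_lit 0) (XT.nd (nat_lit 546) (nat_lit 2356) (nat_lit 0) (XT.nd (nat_lit 234) (nat_lit 1596) (nat_lit 0) (XT.nd (nat_lit 78) (nat_lit 912) (nat_lit 0) (XT.lf (nat_lit 0) (nat_lit 19571967034) (nat_lit 456) (nat_lit 5762768072) (nat_lit 532) (nat_lit 5495043900) (nat_lit 203) (nat_lit 5) (nat_lit 209) (nat_lit 5) (nat_lit 210) (nat_lit 5) (nat_lit 491) (nat_lit 440) (nat_lit 269)) (XT.nd (nat_lit 78) (nat_lit 456) (nat_lit 0) (XT.lf (nat_lit 0) (nat_lit 4448429648) (nat_lit 456) (nat_lit 14554071110) (nat_lit 76) (nat_lit 12385114744) (nat_lit 197) (nat_lit 5) (nat_lit 203) (nat_lit 5) (nat_lit 198) (nat_lit 5) (nat_lit 492) (nat_lit 440) (nat_lit 268)) (XT.lf (nat_lit 0) (nat_lit 14059454096) (nat_lit 456) (nat_lit 756230103) (nat_lit 532) (nat_lit 17141773914) (nat_lit 191) (nat_lit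 5) (nat_lit 197) (nat_lit 5) (nat_lit 198) (nat_lit 5) (nat_lit 493) (nat_lit 440) (nat_lit 267)))) (XT.nd (nat_lit 156) (nat_lit 760) (nat_lit 0) (XT.nd (nat_lit 78) (nat_lit 456) (nat_lit 0) (XT.lf (nat_lit 0) (nat_lit 11207226612) (nat_lit 380) (nat_lit 14569090213) (nat_lit 456) (nat_lit 6762432087) (nat_lit 186) (nat_lit 5) (nat_lit 191) (nat_lit 5) (nat_lit 192) (nat_lit 5) (nat_lit 494) (nat_lit 440) (nat_lit 266)) (XT.lf (nat_lit 0) (nat_lit 4079511283) (nat_lit 456) (nat_lit 24797690782) (nat_lit 76) (nat_lit 4255711553) (nat_lit 180) (nat_lit 5) (nat_lit 186) (nat_lit 5) (nat_lit 181) (nat_lit 5) (nat_lit 495) (nat_lit 440) (nat_lit 265))) (XT.nd (nat_lit 78) (nat_lit 380) (nat_lit 0) (XT.lf (nat_lit 0) (nat_lit 5358571240) (nat_lit 380) (nat_lit 10067924389) (nat_lit 456) (nat_lit 18312080599) (nat_lit 175) (nat_lit 5) (nat_lit 180) (nat_lit 5) (nat_lit 181) (nat_lit 5) (nat_lit 496) (nat_lit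 440) (nat_lit 264)) (XT.lf (nat_lit 0) (nat_lit 2359331393) (nat_lit 380) (nat_lit 24992956459) (nat_lit 456) (nat_lit 7005353004) (nat_lit 170) (nat_lit 5) (nat_lit 175) (nat_lit 5) (nat_lit 176) (nat_lit 5) (nat_lit 497) (nat_lit 440) (nat_lit 263))))) (XT.nd (nat_lit 234) (nat_lit 1520) (nat_lit 0) (XT.nd (nat_lit 78) (nat_lit 760) (nat_lit 0) (XT.lf (nat_lit 0) (nat_lit 4834223352) (nat_lit 456) (nat_lit 690756820) (nat_lit 76) (nat_lit 29464604581) (nat_lit 169) (nat_lit 5) (nat_lit 175) (nat_lit 5) (nat_lit 170) (nat_lit 5) (nat_lit 498) (nat_lit 440) (nat_lit 262)) (XT.nd (nat_lit 78) (nat_lit 380) (nat_lit 0) (XT.lf (nat_lit 0) (nat_lit 17231349194) (nat_lit 456) (nat_lit 3813345388) (nat_lit 76) (nat_lit 14588915625) (nat_lit 164) (nat_lit 5) (nat_lit 170) (nat_lit 5) (nat_lit 165) (nat_lit 5) (nat_lit 499) (nat_lit 440) (nat_lit 261)) (XT.lf (nat_lit 0) (nat_lit 29357695013) (nat_lit 380)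 (nat_lit 868842351) (nat_lit 456) (nat_lit 6065896188) (nat_lit 159) (nat_lit 5) (nat_lit 164) (nat_lit 5) (nat_lit 165) (nat_lit 5) (nat_lit 500) (nat_lit 440) (nat_lit 260)))) (XT.nd (nat_lit 156) (nat_lit 760) (nat_lit 0) (XT.nd (nat_lit 78) (nat_lit 380) (nat_lit 0) (XT.lf (nat_lit 0) (nat_lit 6879000877) (nat_lit 380) (nat_lit 10191488460) (nat_lit 76) (nat_lit 19893159382) (nat_lit 154) (nat_lit 5) (nat_lit 159) (nat_lit 5) (nat_lit 155) (nat_lit 5) (nat_lit 501) (nat_lit 440) (nat_lit 259)) (XT.lf (nat_lit 0) (nat_lit 20359585642) (nat_lit 456) (nat_lit 13482857433) (nat_lit 76) (nat_lit 3807160393) (nat_lit 149) (nat_lit 5) (nat_lit 155) (nat_lit 5) (nat_lit 150) (nat_lit 5) (nat_lit 502) (nat_lit 440) (nat_lit 258))) (XT.nd (nat_lit 78) (nat_lit 456) (nat_lit 0) (XT.lf (nat_lit 0) (nat_lit 21498439195) (nat_lit 304) (nat_lit 13063547316) (nat_lit 380) (nat_lit 3787802463) (nat_lit 145) (nat_lit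 5) (nat_lit 149) (nat_lit 5) (nat_lit 150) (nat_lit 5) (nat_lit 503) (nat_lit 440) (nat_lit 257)) (XT.lf (nat_lit 0) (nat_lit 10251077905) (nat_lit 456) (nat_lit 20305729107) (nat_lit 76) (nat_lit 8507572722) (nat_lit 139) (nat_lit 5) (nat_lit 145) (nat_lit 5) (nat_lit 140) (nat_lit 5) (nat_lit 504) (nat_lit 440) (nat_lit 256)))))) (XT.nd (nat_lit 57486) (nat_lit 0) (nat_lit 29868) (XT.nd (nat_lit 234) (nat_lit 988) (nat_lit 0) (XT.nd (nat_lit 78) (nat_lit 684) (nat_lit 0) (XT.lf (nat_lit 0) (nat_lit 15956067481) (nat_lit 304) (nat_lit 9004094191) (nat_lit 380) (nat_lit 14833735908) (nat_lit 135) (nat_lit 5) (nat_lit 139) (nat_lit 5) (nat_lit 140) (nat_lit 5) (nat_lit 505) (nat_lit 440) (nat_lit 255)) (XT.nd (nat_lit 78) (nat_lit 380) (nat_lit 0) (XT.lf (nat_lit 0) (nat_lit 13117390270) (nat_lit 304) (nat_lit 27296859677) (nat_lit 380) (nat_lit 124976452) (nat_lit 131) (nat_lit 5) (nat_lit 135) (nat_lit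 5) (nat_lit 136) (nat_lit 5) (nat_lit 506) (nat_lit 440) (nat_lit 254)) (XT.lf (nat_lit 0) (nat_lit 10169309160) (nat_lit 304) (nat_lit 4941975427) (nat_lit 380) (nat_lit 26188013618) (nat_lit 126) (nat_lit 5) (nat_lit 130) (nat_lit 5) (nat_lit 131) (nat_lit 5) (nat_lit 507) (nat_lit 440) (nat_lit 253)))) (XT.nd (nat_lit 156) (nat_lit 304) (nat_lit 0) (XT.nd (nat_lit 78) (nat_lit 380) (nat_lit 0) (XT.lf (nat_lit 0) (nat_lit 7150345006) (nat_lit 304) (nat_lit 23998017927) (nat_lit 380) (nat_lit 10926884233) (nat_lit 122) (nat_lit 5) (nat_lit 126) (nat_lit 5) (nat_lit 127) (nat_lit 5) (nat_lit 508) (nat_lit 440) (nat_lit 252)) (XT.lf (nat_lit 0) (nat_lit 4114378071) (nat_lit 304) (nat_lit 881556843) (nat_lit 380) (nat_lit 37872583386) (nat_lit 117) (nat_lit 5) (nat_lit 121) (nat_lit 5) (nat_lit 122) (nat_lit 5) (nat_lit 509) (nat_lit 440) (nat_lit 251))) (XT.nd (nat_lit 78) (nat_lit 0) (nat_lit 0) (XT.lf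 (nat_lit 0) (nat_lit 901449509) (nat_lit 304) (nat_lit 20735006415) (nat_lit 380) (nat_lit 22039917760) (nat_lit 113) (nat_lit 5) (nat_lit 117) (nat_lit 5) (nat_lit 118) (nat_lit 5) (nat_lit 510) (nat_lit 440) (nat_lit 250)) (XT.lf (nat_lit 0) (nat_lit 39060359473) (nat_lit 380) (nat_lit 2261681912) (nat_lit 76) (nat_lit 3180740070) (nat_lit 113) (nat_lit 5) (nat_lit 118) (nat_lit 5) (nat_lit 114) (nat_lit 5) (nat_lit 511) (nat_lit 440) (nat_lit 249))))) (XT.nd (nat_lit 312) (nat_lit 0) (nat_lit 152) (XT.nd (nat_lit 156) (nat_lit 0) (nat_lit 76) (XT.nd (nat_lit 78) (nat_lit 0) (nat_lit 0) (XT.lf (nat_lit 0) (nat_lit 1366542536) (nat_lit 0) (nat_lit 1366542536) (nat_lit 1748) (nat_lit 4206170777) (nat_lit 506) (nat_lit 5) (nat_lit 506) (nat_lit 3) (nat_lit 529) (nat_lit 3) (nat_lit 441) (nat_lit 441) (nat_lit 318)) (XT.lf (nat_lit 0) (nat_lit 6119300571) (nat_lit 1748) (nat_lit 823183491) (nat_lit 1824)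 (nat_lit 7132766267) (nat_lit 506) (nat_lit 5) (nat_lit 529) (nat_lit 3) (nat_lit 530) (nat_lit 5) (nat_lit 442) (nat_lit 441) (nat_lit 317))) (XT.nd (nat_lit 78) (nat_lit 0) (nat_lit 0) (XT.lf (nat_lit 0) (nat_lit 6874088657) (nat_lit 1748) (nat_lit 4386773563) (nat_lit 1824) (nat_lit 3015388258) (nat_lit 507) (nat_lit 5) (nat_lit 530) (nat_lit 5) (nat_lit 531) (nat_lit 5) (nat_lit 443) (nat_lit 441) (nat_lit 316)) (XT.lf (nat_lit 76) (nat_lit 6479136205) (nat_lit 0) (nat_lit 1246687657) (nat_lit 1824) (nat_lit 6755971316) (nat_lit 508) (nat_lit 5) (nat_lit 507) (nat_lit 5) (nat_lit 531) (nat_lit 5) (nat_lit 444) (nat_lit 441) (nat_lit 315)))) (XT.nd (nat_lit 156) (nat_lit 0) (nat_lit 152) (XT.nd (nat_lit 78) (nat_lit 0) (nat_lit 76) (XT.lf (nat_lit 76) (nat_lit 3007273857) (nat_lit 0) (nat_lit 5684916255) (nat_lit 1824) (nat_lit 5999535128) (nat_lit 509) (nat_lit 5) (nat_lit 508) (nat_lit 5) (nat_lit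 532) (nat_lit 5) (nat_lit 445) (nat_lit 441) (nat_lit 314)) (XT.lf (nat_lit 0) (nat_lit 9761858603) (nat_lit 1748) (nat_lit 500107384) (nat_lit 1824) (nat_lit 4644501573) (nat_lit 509) (nat_lit 5) (nat_lit 532) (nat_lit 5) (nat_lit 533) (nat_lit 5) (nat_lit 446) (nat_lit 441) (nat_lit 313))) (XT.nd (nat_lit 78) (nat_lit 0) (nat_lit 0) (XT.lf (nat_lit 0) (nat_lit 10956692389) (nat_lit 1748) (nat_lit 4010474832) (nat_lit 1824) (nat_lit 158623989) (nat_lit 510) (nat_lit 5) (nat_lit 533) (nat_lit 5) (nat_lit 534) (nat_lit 5) (nat_lit 447) (nat_lit 441) (nat_lit 312)) (XT.lf (nat_lit 76) (nat_lit 7756116663) (nat_lit 0) (nat_lit 4535990518) (nat_lit 1824) (nat_lit 3057493216) (nat_lit 511) (nat_lit 5) (nat_lit 510) (nat_lit 5) (nat_lit 534) (nat_lit 5) (nat_lit 448) (nat_lit 441) (nat_lit 311))))))) (XT.nd (nat_lit 1170) (nat_lit 9804) (nat_lit 0) (XT.nd (nat_lit 546) (nat_lit 5320) (nat_lit 0) (XT.nd (nat_lit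 234) (nat_lit 0) (nat_lit 76) (XT.nd (nat_lit 78) (nat_lit 1748) (nat_lit 0) (XT.lf (nat_lit 76) (nat_lit 4356086784) (nat_lit 0) (nat_lit 9390264978) (nat_lit 1824) (nat_lit 1832197284) (nat_lit 512) (nat_lit 5) (nat_lit 511) (nat_lit 5) (nat_lit 535) (nat_lit 5) (nat_lit 449) (nat_lit 441) (nat_lit 310)) (XT.nd (nat_lit 78) (nat_lit 1824) (nat_lit 0) (XT.lf (nat_lit 76) (nat_lit 915697529) (nat_lit 0) (nat_lit 14408509021) (nat_lit 1824) (nat_lit 488560464) (nat_lit 513) (nat_lit 5) (nat_lit 512) (nat_lit 5) (nat_lit 536) (nat_lit 5) (nat_lit 450) (nat_lit 441) (nat_lit 309)) (XT.lf (nat_lit 0) (nat_lit 1006575554) (nat_lit 1824) (nat_lit 2561776343) (nat_lit 1900) (nat_lit 12483085181) (nat_lit 488) (nat_lit 5) (nat_lit 512) (nat_lit 5) (nat_lit 513) (nat_lit 5) (nat_lit 451) (nat_lit 441) (nat_lit 308)))) (XT.nd (nat_lit 156) (nat_lit 0) (nat_lit 76) (XT.nd (nat_lit 78) (nat_lit 0) (nat_lit 76)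 (XT.lf (nat_lit 0) (nat_lit 2640483938) (nat_lit 1824) (nat_lit 6082535081) (nat_lit 1900) (nat_lit 7572172999) (nat_lit 489) (nat_lit 5) (nat_lit 513) (nat_lit 5) (nat_lit 514) (nat_lit 5) (nat_lit 452) (nat_lit 441) (nat_lit 307)) (XT.lf (nat_lit 0) (nat_lit 4410488442) (nat_lit 1824) (nat_lit 9646624498) (nat_lit 1900) (nat_lit 2487405552) (nat_lit 490) (nat_lit 5) (nat_lit 514) (nat_lit 5) (nat_lit 515) (nat_lit 5) (nat_lit 453) (nat_lit 441) (nat_lit 306))) (XT.nd (nat_lit 78) (nat_lit 0) (nat_lit 76) (XT.lf (nat_lit 76) (nat_lit 3526397718) (nat_lit 0) (nat_lit 2814800751) (nat_lit 1900) (nat_lit 10457974633) (nat_lit 491) (nat_lit 5) (nat_lit 490) (nat_lit 5) (nat_lit 515) (nat_lit 5) (nat_lit 454) (nat_lit 441) (nat_lit 305)) (XT.lf (nat_lit 76) (nat_lit 98584437) (nat_lit 0) (nat_lit 8339864590) (nat_lit 1900) (nat_lit 8620846377) (nat_lit 492) (nat_lit 5) (nat_lit 491) (nat_lit 5) (nat_lit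 516) (nat_lit 5) (nat_lit 455) (nat_lit 441) (nat_lit 304))))) (XT.nd (nat_lit 312) (nat_lit 2660) (nat_lit 0) (XT.nd (nat_lit 156) (nat_lit 2964) (nat_lit 0) (XT.nd (nat_lit 78) (nat_lit 0) (nat_lit 0) (XT.lf (nat_lit 0) (nat_lit 10714496696) (nat_lit 1824) (nat_lit 3324932057) (nat_lit 1900) (nat_lit 3285475453) (nat_lit 492) (nat_lit 5) (nat_lit 516) (nat_lit 5) (nat_lit 517) (nat_lit 5) (nat_lit 456) (nat_lit 441) (nat_lit 303)) (XT.lf (nat_lit 76) (nat_lit 10794086071) (nat_lit 0) (nat_lit 2376654350) (nat_lit 1900) (nat_lit 4425502971) (nat_lit 493) (nat_lit 5) (nat_lit 492) (nat_lit 5) (nat_lit 517) (nat_lit 5) (nat_lit 457) (nat_lit 441) (nat_lit 302))) (XT.nd (nat_lit 78) (nat_lit 1216) (nat_lit 0) (XT.lf (nat_lit 0) (nat_lit 7531249808) (nat_lit 1824) (nat_lit 8289968566) (nat_lit 1900) (nat_lit 2052093842) (nat_lit 469) (nat_lit 5) (nat_lit 493) (nat_lit 5) (nat_lit 494) (nat_lit 5) (nat_lit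 458) (nat_lit 441) (nat_lit 301)) (XT.lf (nat_lit 0) (nat_lit 488545582) (nat_lit 1216) (nat_lit 13926382512) (nat_lit 76) (nat_lit 3741690901) (nat_lit 453) (nat_lit 5) (nat_lit 469) (nat_lit 5) (nat_lit 454) (nat_lit 5) (nat_lit 459) (nat_lit 441) (nat_lit 300)))) (XT.nd (nat_lit 156) (nat_lit 1748) (nat_lit 0) (XT.nd (nat_lit 78) (nat_lit 0) (nat_lit 0) (XT.lf (nat_lit 0) (nat_lit 864157260) (nat_lit 912) (nat_lit 2332083240) (nat_lit 988) (nat_lit 15249539238) (nat_lit 441) (nat_lit 5) (nat_lit 453) (nat_lit 5) (nat_lit 454) (nat_lit 5) (nat_lit 460) (nat_lit 441) (nat_lit 299)) (XT.lf (nat_lit 0) (nat_lit 6133097150) (nat_lit 988) (nat_lit 2530841040) (nat_lit 76) (nat_lit 10076718853) (nat_lit 441) (nat_lit 5) (nat_lit 454) (nat_lit 5) (nat_lit 442) (nat_lit 5) (nat_lit 461) (nat_lit 441) (nat_lit 298))) (XT.nd (nat_lit 78) (nat_lit 836) (nat_lit 0) (XT.lf (nat_lit 0) (nat_lit 9271586478) (nat_lit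 988) (nat_lit 5951367686) (nat_lit 76) (nat_lit 3819156313) (nat_lit 429) (nat_lit 5) (nat_lit 442) (nat_lit 5) (nat_lit 430) (nat_lit 5) (nat_lit 462) (nat_lit 441) (nat_lit 297)) (XT.lf (nat_lit 0) (nat_lit 9923872399) (nat_lit 836) (nat_lit 2707929530) (nat_lit 912) (nat_lit 6718254494) (nat_lit 418) (nat_lit 5) (nat_lit 429) (nat_lit 5) (nat_lit 430) (nat_lit 5) (nat_lit 463) (nat_lit 441) (nat_lit 296)))))) (XT.nd (nat_lit 546) (nat_lit 4864) (nat_lit 0) (XT.nd (nat_lit 234) (nat_lit 2280) (nat_lit 0) (XT.nd (nat_lit 78) (nat_lit 1748) (nat_lit 0) (XT.lf (nat_lit 0) (nat_lit 6700264301) (nat_lit 912) (nat_lit 9530985472) (nat_lit 988) (nat_lit 3433222785) (nat_lit 406) (nat_lit 5) (nat_lit 418) (nat_lit 5) (nat_lit 419) (nat_lit 5) (nat_lit 464) (nat_lit 441) (nat_lit 295)) (XT.nd (nat_lit 78) (nat_lit 836) (nat_lit 0) (XT.lf (nat_lit 0) (nat_lit 66573708) (nat_lit 912) (nat_lit 16540522091) (nat_lit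 76) (nat_lit 3378920879) (nat_lit 394) (nat_lit 5) (nat_lit 406) (nat_lit 5) (nat_lit 395) (nat_lit 5) (nat_lit 465) (nat_lit 441) (nat_lit 294)) (XT.lf (nat_lit 0) (nat_lit 112050295) (nat_lit 836) (nat_lit 3654503920) (nat_lit 912) (nat_lit 16547362657) (nat_lit 383) (nat_lit 5) (nat_lit 394) (nat_lit 5) (nat_lit 395) (nat_lit 5) (nat_lit 466) (nat_lit 441) (nat_lit 293)))) (XT.nd (nat_lit 156) (nat_lit 1520) (nat_lit 0) (XT.nd (nat_lit 78) (nat_lit 760) (nat_lit 0) (XT.lf (nat_lit 0) (nat_lit 7742177184) (nat_lit 912) (nat_lit 3234102961) (nat_lit 76) (nat_lit 9672081358) (nat_lit 383) (nat_lit 5) (nat_lit 395) (nat_lit 5) (nat_lit 384) (nat_lit 5) (nat_lit 467) (nat_lit 441) (nat_lit 292)) (XT.lf (nat_lit 0) (nat_lit 11960138884) (nat_lit 836) (nat_lit 6610882041) (nat_lit 76) (nat_lit 2419357436) (nat_lit 373) (nat_lit 5) (nat_lit 384) (nat_lit 5) (nat_lit 374) (nat_lit 5) (nat_lit 468) (nat_lit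 441) (nat_lit 291))) (XT.nd (nat_lit 78) (nat_lit 760) (nat_lit 0) (XT.lf (nat_lit 0) (nat_lit 11286685515) (nat_lit 760) (nat_lit 5176182304) (nat_lit 836) (nat_lit 4876623614) (nat_lit 363) (nat_lit 5) (nat_lit 373) (nat_lit 5) (nat_lit 374) (nat_lit 5) (nat_lit 469) (nat_lit 441) (nat_lit 290)) (XT.lf (nat_lit 0) (nat_lit 8152783317) (nat_lit 760) (nat_lit 13091604823) (nat_lit 836) (nat_lit 451815838) (nat_lit 353) (nat_lit 5) (nat_lit 363) (nat_lit 5) (nat_lit 364) (nat_lit 5) (nat_lit 470) (nat_lit 441) (nat_lit 289))))) (XT.nd (nat_lit 312) (nat_lit 2660) (nat_lit 0) (XT.nd (nat_lit 156) (nat_lit 684) (nat_lit 0) (XT.nd (nat_lit 78) (nat_lit 684) (nat_lit 0) (XT.lf (nat_lit 0) (nat_lit 4182391025) (nat_lit 836) (nat_lit 17093678491) (nat_lit 76) (nat_lit 784405449) (nat_lit 342) (nat_lit 5) (nat_lit 353) (nat_lit 5) (nat_lit 343) (nat_lit 5) (nat_lit 471) (nat_lit 441) (nat_lit 288)) (XT.lf (nat_lit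 0) (nat_lit 1703710384) (nat_lit 684) (nat_lit 7426890605) (nat_lit 760) (nat_lit 13301391307) (nat_lit 333) (nat_lit 5) (nat_lit 342) (nat_lit 5) (nat_lit 343) (nat_lit 5) (nat_lit 472) (nat_lit 441) (nat_lit 287))) (XT.nd (nat_lit 78) (nat_lit 684) (nat_lit 0) (XT.lf (nat_lit 0) (nat_lit 14378545923) (nat_lit 760) (nat_lit 1569821606) (nat_lit 76) (nat_lit 6863262086) (nat_lit 333) (nat_lit 5) (nat_lit 343) (nat_lit 5) (nat_lit 334) (nat_lit 5) (nat_lit 473) (nat_lit 441) (nat_lit 286)) (XT.lf (nat_lit 0) (nat_lit 18343308575) (nat_lit 684) (nat_lit 1599961268) (nat_lit 760) (nat_lit 3256199632) (nat_lit 324) (nat_lit 5) (nat_lit 333) (nat_lit 5) (nat_lit 334) (nat_lit 5) (nat_lit 474) (nat_lit 441) (nat_lit 285)))) (XT.nd (nat_lit 156) (nat_lit 1216) (nat_lit 0) (XT.nd (nat_lit 78) (nat_lit 684) (nat_lit 0) (XT.lf (nat_lit 0) (nat_lit 2236914636) (nat_lit 760) (nat_lit 8228225777) (nat_lit 76) (nat_lit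 13129771754) (nat_lit 314) (nat_lit 5) (nat_lit 324) (nat_lit 5) (nat_lit 315) (nat_lit 5) (nat_lit 475) (nat_lit 441) (nat_lit 284)) (XT.lf (nat_lit 0) (nat_lit 7994605717) (nat_lit 760) (nat_lit 11648268188) (nat_lit 76) (nat_lit 4356033534) (nat_lit 305) (nat_lit 5) (nat_lit 315) (nat_lit 5) (nat_lit 306) (nat_lit 5) (nat_lit 476) (nat_lit 441) (nat_lit 283))) (XT.nd (nat_lit 78) (nat_lit 608) (nat_lit 0) (XT.lf (nat_lit 0) (nat_lit 9286106551) (nat_lit 608) (nat_lit 4816416067) (nat_lit 684) (nat_lit 10308950262) (nat_lit 297) (nat_lit 5) (nat_lit 305) (nat_lit 5) (nat_lit 306) (nat_lit 5) (nat_lit 477) (nat_lit 441) (nat_lit 282)) (XT.lf (nat_lit 0) (nat_lit 6174795900) (nat_lit 608) (nat_lit 14397575535) (nat_lit 684) (nat_lit 4260470165) (nat_lit 289) (nat_lit 5) (nat_lit 297) (nat_lit 5) (nat_lit 298) (nat_lit 5) (nat_lit 478) (nat_lit 441) (nat_lit 281))))))))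
noncomputable def xc90 : XT := (XT.nd (nat_lit 2262) (nat_lit 1292) (nat_lit 0) (XT.nd (nat_lit 1092) (nat_lit 5548) (nat_lit 0) (XT.nd (nat_lit 546) (nat_lit 2964) (nat_lit 0) (XT.nd (nat_lit 234) (nat_lit 2280) (nat_lit 0) (XT.nd (nat_lit 78) (nat_lit 608) (nat_lit 0) (XT.lf (nat_lit 0) (nat_lit 2096312470) (nat_lit 684) (nat_lit 22230282973) (nat_lit 76) (nat_lit 936946832) (nat_lit 280) (nat_lit 5) (nat_lit 289) (nat_lit 5) (nat_lit 281) (nat_lit 5) (nat_lit 479) (nat_lit 441) (nat_lit 280)) (XT.nd (nat_lit 78) (nat_lit 608) (nat_lit 0) (XT.lf (nat_lit 0) (nat_lit 8801361891) (nat_lit 684) (nat_lit 210369716) (nat_lit 76) (nat_lit 16690560389) (nat_lit 280) (nat_lit 5) (nat_lit 289) (nat_lit 5) (nat_lit 281) (nat_lit 5) (nat_lit 480) (nat_lit 441) (nat_lit 279)) (XT.lf (nat_lit 0) (nat_lit 15892003314) (nat_lit 684) (nat_lit 3438171043) (nat_lit 76) (nat_lit 6820341227) (nat_lit 272) (nat_lit 5)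 (nat_lit 281) (nat_lit 5) (nat_lit 273) (nat_lit 5) (nat_lit 481) (nat_lit 441) (nat_lit 278)))) (XT.nd (nat_lit 156) (nat_lit 1064) (nat_lit 0) (XT.nd (nat_lit 78) (nat_lit 684) (nat_lit 0) (XT.lf (nat_lit 0) (nat_lit 19903748630) (nat_lit 532) (nat_lit 3474509631) (nat_lit 608) (nat_lit 3230269910) (nat_lit 265) (nat_lit 5) (nat_lit 272) (nat_lit 5) (nat_lit 273) (nat_lit 5) (nat_lit 482) (nat_lit 441) (nat_lit 277)) (XT.lf (nat_lit 0) (nat_lit 4167327997) (nat_lit 684) (nat_lit 10060895314) (nat_lit 76) (nat_lit 12847315742) (nat_lit 256) (nat_lit 5) (nat_lit 265) (nat_lit 5) (nat_lit 257) (nat_lit 5) (nat_lit 483) (nat_lit 441) (nat_lit 276))) (XT.nd (nat_lit 78) (nat_lit 532) (nat_lit 0) (XT.lf (nat_lit 0) (nat_lit 11910418952) (nat_lit 608) (nat_lit 13456132769) (nat_lit 76) (nat_lit 2186232627) (nat_lit 249) (nat_lit 5) (nat_lit 257) (nat_lit 5) (nat_lit 250) (nat_lit 5) (nat_lit 484) (nat_lit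 441) (nat_lit 275)) (XT.lf (nat_lit 0) (nat_lit 11113456918) (nat_lit 532) (nat_lit 9000650791) (nat_lit 608) (nat_lit 7925673353) (nat_lit 242) (nat_lit 5) (nat_lit 249) (nat_lit 5) (nat_lit 250) (nat_lit 5) (nat_lit 485) (nat_lit 441) (nat_lit 274))))) (XT.nd (nat_lit 234) (nat_lit 1444) (nat_lit 0) (XT.nd (nat_lit 78) (nat_lit 988) (nat_lit 0) (XT.lf (nat_lit 0) (nat_lit 211423459) (nat_lit 532) (nat_lit 20429834702) (nat_lit 76) (nat_lit 7896342756) (nat_lit 235) (nat_lit 5) (nat_lit 242) (nat_lit 5) (nat_lit 236) (nat_lit 5) (nat_lit 486) (nat_lit 441) (nat_lit 273)) (XT.nd (nat_lit 78) (nat_lit 456) (nat_lit 0) (XT.lf (nat_lit 0) (nat_lit 5018120582) (nat_lit 532) (nat_lit 3668290961) (nat_lit 608) (nat_lit 20358867055) (nat_lit 228) (nat_lit 5) (nat_lit 235) (nat_lit 5) (nat_lit 236) (nat_lit 5) (nat_lit 487) (nat_lit 441) (nat_lit 272)) (XT.lf (nat_lit 0) (nat_lit 1867421694) (nat_lit 456) (nat_lit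 15782141323) (nat_lit 532) (nat_lit 11913945462) (nat_lit 222) (nat_lit 5) (nat_lit 228) (nat_lit 5) (nat_lit 229) (nat_lit 5) (nat_lit 488) (nat_lit 441) (nat_lit 271)))) (XT.nd (nat_lit 156) (nat_lit 912) (nat_lit 0) (XT.nd (nat_lit 78) (nat_lit 532) (nat_lit 0) (XT.lf (nat_lit 0) (nat_lit 27073184889) (nat_lit 532) (nat_lit 1272356636) (nat_lit 76) (nat_lit 1747912353) (nat_lit 222) (nat_lit 5) (nat_lit 229) (nat_lit 5) (nat_lit 223) (nat_lit 5) (nat_lit 489) (nat_lit 441) (nat_lit 270)) (XT.lf (nat_lit 0) (nat_lit 6330013003) (nat_lit 532) (nat_lit 4503648309) (nat_lit 76) (nat_lit 19799432626) (nat_lit 215) (nat_lit 5) (nat_lit 222) (nat_lit 5) (nat_lit 216) (nat_lit 5) (nat_lit 490) (nat_lit 441) (nat_lit 269))) (XT.nd (nat_lit 78) (nat_lit 456) (nat_lit 0) (XT.lf (nat_lit 0) (nat_lit 16122121773) (nat_lit 532) (nat_lit 7773798011) (nat_lit 76) (nat_lit 7288557226) (nat_lit 209) (nat_lit 5) (nat_lit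 216) (nat_lit 5) (nat_lit 210) (nat_lit 5) (nat_lit 491) (nat_lit 441) (nat_lit 268)) (XT.lf (nat_lit 0) (nat_lit 20660854878) (nat_lit 456) (nat_lit 5777742540) (nat_lit 532) (nat_lit 5309192210) (nat_lit 203) (nat_lit 5) (nat_lit 209) (nat_lit 5) (nat_lit 210) (nat_lit 5) (nat_lit 492) (nat_lit 441) (nat_lit 267)))))) (XT.nd (nat_lit 546) (nat_lit 2964) (nat_lit 0) (XT.nd (nat_lit 234) (nat_lit 1292) (nat_lit 0) (XT.nd (nat_lit 78) (nat_lit 836) (nat_lit 0) (XT.lf (nat_lit 0) (nat_lit 4922170896) (nat_lit 456) (nat_lit 14486813604) (nat_lit 76) (nat_lit 12913447662) (nat_lit 197) (nat_lit 5) (nat_lit 203) (nat_lit 5) (nat_lit 198) (nat_lit 5) (nat_lit 493) (nat_lit 441) (nat_lit 266)) (XT.nd (nat_lit 78) (nat_lit 380) (nat_lit 0) (XT.lf (nat_lit 0) (nat_lit 14976942510) (nat_lit 456) (nat_lit 616807707) (nat_lit 532) (nat_lit 17315753868) (nat_lit 191) (nat_lit 5) (nat_lit 197) (nat_lit 5) (nat_lit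 198) (nat_lit 5) (nat_lit 494) (nat_lit 441) (nat_lit 265)) (XT.lf (nat_lit 0) (nat_lit 12036639968) (nat_lit 380) (nat_lit 14841069505) (nat_lit 456) (nat_lit 6630634154) (nat_lit 186) (nat_lit 5) (nat_lit 191) (nat_lit 5) (nat_lit 192) (nat_lit 5) (nat_lit 495) (nat_lit 441) (nat_lit 264)))) (XT.nd (nat_lit 156) (nat_lit 456) (nat_lit 0) (XT.nd (nat_lit 78) (nat_lit 380) (nat_lit 0) (XT.lf (nat_lit 0) (nat_lit 4526812370) (nat_lit 456) (nat_lit 25046696406) (nat_lit 76) (nat_lit 4546888518) (nat_lit 180) (nat_lit 5) (nat_lit 186) (nat_lit 5) (nat_lit 181) (nat_lit 5) (nat_lit 496) (nat_lit 441) (nat_lit 263)) (XT.lf (nat_lit 0) (nat_lit 6006223904) (nat_lit 380) (nat_lit 10201680025) (nat_lit 456) (nat_lit 18536452057) (nat_lit 175) (nat_lit 5) (nat_lit 180) (nat_lit 5) (nat_lit 181) (nat_lit 5) (nat_lit 497) (nat_lit 441) (nat_lit 262))) (XT.nd (nat_lit 78) (nat_lit 76) (nat_lit 0) (XT.lf (nat_lit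 0) (nat_lit 2914306748) (nat_lit 380) (nat_lit 25572087662) (nat_lit 456) (nat_lit 6895699808) (nat_lit 170) (nat_lit 5) (nat_lit 175) (nat_lit 5) (nat_lit 176) (nat_lit 5) (nat_lit 498) (nat_lit 441) (nat_lit 261)) (XT.lf (nat_lit 0) (nat_lit 5285676627) (nat_lit 456) (nat_lit 237309783) (nat_lit 76) (nat_lit 30510152494) (nat_lit 169) (nat_lit 5) (nat_lit 175) (nat_lit 5) (nat_lit 170) (nat_lit 5) (nat_lit 499) (nat_lit 441) (nat_lit 260))))) (XT.nd (nat_lit 312) (nat_lit 1444) (nat_lit 0) (XT.nd (nat_lit 156) (nat_lit 760) (nat_lit 0) (XT.nd (nat_lit 78) (nat_lit 380) (nat_lit 0) (XT.lf (nat_lit 0) (nat_lit 18049897312) (nat_lit 456) (nat_lit 3456330962) (nat_lit 76) (nat_lit 15190353368) (nat_lit 164) (nat_lit 5) (nat_lit 170) (nat_lit 5) (nat_lit 165) (nat_lit 5) (nat_lit 500) (nat_lit 441) (nat_lit 259)) (XT.lf (nat_lit 0) (nat_lit 30702192506) (nat_lit 380) (nat_lit 726975012) (nat_lit 456) (nat_lit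 5946117778) (nat_lit 159) (nat_lit 5) (nat_lit 164) (nat_lit 5) (nat_lit 165) (nat_lit 5) (nat_lit 501) (nat_lit 441) (nat_lit 258))) (XT.nd (nat_lit 78) (nat_lit 380) (nat_lit 0) (XT.lf (nat_lit 0) (nat_lit 7378573395) (nat_lit 380) (nat_lit 10032337111) (nat_lit 76) (nat_lit 20655779264) (nat_lit 154) (nat_lit 5) (nat_lit 159) (nat_lit 5) (nat_lit 155) (nat_lit 5) (nat_lit 502) (nat_lit 441) (nat_lit 257)) (XT.lf (nat_lit 0) (nat_lit 21259107213) (nat_lit 456) (nat_lit 13425334608) (nat_lit 76) (nat_lit 4088870837) (nat_lit 149) (nat_lit 5) (nat_lit 155) (nat_lit 5) (nat_lit 150) (nat_lit 5) (nat_lit 503) (nat_lit 441) (nat_lit 256)))) (XT.nd (nat_lit 156) (nat_lit 684) (nat_lit 0) (XT.nd (nat_lit 78) (nat_lit 456) (nat_lit 0) (XT.lf (nat_lit 0) (nat_lit 22597905378) (nat_lit 304) (nat_lit 13284216001) (nat_lit 380) (nat_lit 3612491648) (nat_lit 145) (nat_lit 5) (nat_lit 149) (nat_lit 5) (nat_lit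 150) (nat_lit 5) (nat_lit 504) (nat_lit 441) (nat_lit 255)) (XT.lf (nat_lit 0) (nat_lit 10839498281) (nat_lit 456) (nat_lit 20459541259) (nat_lit 76) (nat_lit 8931649913) (nat_lit 139) (nat_lit 5) (nat_lit 145) (nat_lit 5) (nat_lit 140) (nat_lit 5) (nat_lit 505) (nat_lit 441) (nat_lit 254))) (XT.nd (nat_lit 78) (nat_lit 380) (nat_lit 0) (XT.lf (nat_lit 0) (nat_lit 16882721557) (nat_lit 304) (nat_lit 9101860331) (nat_lit 380) (nat_lit 14997616514) (nat_lit 135) (nat_lit 5) (nat_lit 139) (nat_lit 5) (nat_lit 140) (nat_lit 5) (nat_lit 506) (nat_lit 441) (nat_lit 253)) (XT.lf (nat_lit 0) (nat_lit 146328212) (nat_lit 380) (nat_lit 27794988987) (nat_lit 76) (nat_lit 13808631777) (nat_lit 130) (nat_lit 5) (nat_lit 135) (nat_lit 5) (nat_lit 131) (nat_lit 5) (nat_lit 507) (nat_lit 441) (nat_lit 252))))))) (XT.nd (nat_lit 58188) (nat_lit 0) (nat_lit 20520) (XT.nd (nat_lit 57564) (nat_lit 0) (nat_lit 28500) (XT.nd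 (nat_lit 234) (nat_lit 304) (nat_lit 0) (XT.nd (nat_lit 78) (nat_lit 684) (nat_lit 0) (XT.lf (nat_lit 0) (nat_lit 10915775807) (nat_lit 304) (nat_lit 4917116686) (nat_lit 380) (nat_lit 26700015760) (nat_lit 126) (nat_lit 5) (nat_lit 130) (nat_lit 5) (nat_lit 131) (nat_lit 5) (nat_lit 508) (nat_lit 441) (nat_lit 251)) (XT.nd (nat_lit 78) (nat_lit 380) (nat_lit 0) (XT.lf (nat_lit 0) (nat_lit 7803257775) (nat_lit 304) (nat_lit 24543949403) (nat_lit 380) (nat_lit 10985006129) (nat_lit 122) (nat_lit 5) (nat_lit 126) (nat_lit 5) (nat_lit 127) (nat_lit 5) (nat_lit 509) (nat_lit 441) (nat_lit 250)) (XT.lf (nat_lit 0) (nat_lit 4672582140) (nat_lit 304) (nat_lit 734449450) (nat_lit 380) (nat_lit 38742314643) (nat_lit 117) (nat_lit 5) (nat_lit 121) (nat_lit 5) (nat_lit 122) (nat_lit 5) (nat_lit 510) (nat_lit 441) (nat_lit 249)))) (XT.nd (nat_lit 57174) (nat_lit 0) (nat_lit 29868) (XT.nd (nat_lit 57096) (nat_lit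 0) (nat_lit 29868) (XT.lf (nat_lit 0) (nat_lit 1360246307) (nat_lit 304) (nat_lit 21182810850) (nat_lit 380) (nat_lit 22438454437) (nat_lit 113) (nat_lit 5) (nat_lit 117) (nat_lit 5) (nat_lit 118) (nat_lit 5) (nat_lit 511) (nat_lit 441) (nat_lit 248)) (XT.lf (nat_lit 0) (nat_lit 1667125179) (nat_lit 0) (nat_lit 1667125179) (nat_lit 1748) (nat_lit 3802783579) (nat_lit 506) (nat_lit 5) (nat_lit 506) (nat_lit 3) (nat_lit 529) (nat_lit 3) (nat_lit 442) (nat_lit 442) (nat_lit 316))) (XT.nd (nat_lit 78) (nat_lit 0) (nat_lit 76) (XT.lf (nat_lit 0) (nat_lit 7307709349) (nat_lit 1748) (nat_lit 320361791) (nat_lit 1824) (nat_lit 6849308779) (nat_lit 506) (nat_lit 5) (nat_lit 529) (nat_lit 3) (nat_lit 530) (nat_lit 5) (nat_lit 443) (nat_lit 442) (nat_lit 315)) (XT.lf (nat_lit 0) (nat_lit 8056257163) (nat_lit 1748) (nat_lit 3976822394) (nat_lit 1824) (nat_lit 2651909106) (nat_lit 507) (nat_lit 5) (nat_lit 530)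 (nat_lit 5) (nat_lit 531) (nat_lit 5) (nat_lit 444) (nat_lit 442) (nat_lit 314))))) (XT.nd (nat_lit 312) (nat_lit 1444) (nat_lit 0) (XT.nd (nat_lit 156) (nat_lit 0) (nat_lit 152) (XT.nd (nat_lit 78) (nat_lit 0) (nat_lit 76) (XT.lf (nat_lit 76) (nat_lit 7206278592) (nat_lit 0) (nat_lit 1702299312) (nat_lit 1824) (nat_lit 5988622017) (nat_lit 508) (nat_lit 5) (nat_lit 507) (nat_lit 5) (nat_lit 531) (nat_lit 5) (nat_lit 445) (nat_lit 442) (nat_lit 313)) (XT.lf (nat_lit 76) (nat_lit 3643028155) (nat_lit 0) (nat_lit 6234114324) (nat_lit 1824) (nat_lit 5236822118) (nat_lit 509) (nat_lit 5) (nat_lit 508) (nat_lit 5) (nat_lit 532) (nat_lit 5) (nat_lit 446) (nat_lit 442) (nat_lit 312))) (XT.nd (nat_lit 78) (nat_lit 0) (nat_lit 0) (XT.lf (nat_lit 76) (nat_lit 35359876) (nat_lit 0) (nat_lit 10914465825) (nat_lit 1824) (nat_lit 4385905828) (nat_lit 510) (nat_lit 5) (nat_lit 509) (nat_lit 5) (nat_lit 533) (nat_lit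 5) (nat_lit 447) (nat_lit 442) (nat_lit 311)) (XT.lf (nat_lit 76) (nat_lit 11990955779) (nat_lit 0) (nat_lit 165692811) (nat_lit 1824) (nat_lit 3405464227) (nat_lit 510) (nat_lit 5) (nat_lit 509) (nat_lit 5) (nat_lit 533) (nat_lit 5) (nat_lit 448) (nat_lit 442) (nat_lit 310)))) (XT.nd (nat_lit 156) (nat_lit 1672) (nat_lit 0) (XT.nd (nat_lit 78) (nat_lit 0) (nat_lit 76) (XT.lf (nat_lit 76) (nat_lit 8540411171) (nat_lit 0) (nat_lit 4968875254) (nat_lit 1824) (nat_lit 2283807430) (nat_lit 511) (nat_lit 5) (nat_lit 510) (nat_lit 5) (nat_lit 534) (nat_lit 5) (nat_lit 449) (nat_lit 442) (nat_lit 309)) (XT.lf (nat_lit 76) (nat_lit 5048045792) (nat_lit 0) (nat_lit 9936174656) (nat_lit 1824) (nat_lit 1045150037) (nat_lit 512) (nat_lit 5) (nat_lit 511) (nat_lit 5) (nat_lit 535) (nat_lit 5) (nat_lit 450) (nat_lit 442) (nat_lit 308))) (XT.nd (nat_lit 78) (nat_lit 0) (nat_lit 0) (XT.lf (nat_lit 0) (nat_lit 312199210)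 (nat_lit 1824) (nat_lit 14759816683) (nat_lit 1900) (nat_lit 1198998898) (nat_lit 488) (nat_lit 5) (nat_lit 512) (nat_lit 5) (nat_lit 513) (nat_lit 5) (nat_lit 451) (nat_lit 442) (nat_lit 307)) (XT.lf (nat_lit 0) (nat_lit 1822031757) (nat_lit 1824) (nat_lit 2074651316) (nat_lit 1900) (nat_lit 12620568403) (nat_lit 488) (nat_lit 5) (nat_lit 512) (nat_lit 5) (nat_lit 513) (nat_lit 5) (nat_lit 452) (nat_lit 442) (nat_lit 306)))))) (XT.nd (nat_lit 546) (nat_lit 6536) (nat_lit 0) (XT.nd (nat_lit 234) (nat_lit 1520) (nat_lit 0) (XT.nd (nat_lit 78) (nat_lit 0) (nat_lit 76) (XT.lf (nat_lit 0) (nat_lit 3484317088) (nat_lit 1824) (nat_lit 5693469051) (nat_lit 1900) (nat_lit 7590946415) (nat_lit 489) (nat_lit 5) (nat_lit 513) (nat_lit 5) (nat_lit 514) (nat_lit 5) (nat_lit 453) (nat_lit 442) (nat_lit 305)) (XT.nd (nat_lit 78) (nat_lit 0) (nat_lit 0) (XT.lf (nat_lit 0) (nat_lit 5287609015) (nat_lit 1824) (nat_lit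 9357618687) (nat_lit 1900) (nat_lit 2380708040) (nat_lit 490) (nat_lit 5) (nat_lit 514) (nat_lit 5) (nat_lit 515) (nat_lit 5) (nat_lit 454) (nat_lit 442) (nat_lit 304)) (XT.lf (nat_lit 76) (nat_lit 4201210268) (nat_lit 0) (nat_lit 3057031158) (nat_lit 1900) (nat_lit 10030349189) (nat_lit 491) (nat_lit 5) (nat_lit 490) (nat_lit 5) (nat_lit 515) (nat_lit 5) (nat_lit 455) (nat_lit 442) (nat_lit 303)))) (XT.nd (nat_lit 156) (nat_lit 1672) (nat_lit 0) (XT.nd (nat_lit 78) (nat_lit 0) (nat_lit 76) (XT.lf (nat_lit 76) (nat_lit 676660238) (nat_lit 0) (nat_lit 8723319561) (nat_lit 1900) (nat_lit 8156906008) (nat_lit 492) (nat_lit 5) (nat_lit 491) (nat_lit 5) (nat_lit 516) (nat_lit 5) (nat_lit 456) (nat_lit 442) (nat_lit 302)) (XT.lf (nat_lit 0) (nat_lit 11722836543) (nat_lit 1824) (nat_lit 2851697560) (nat_lit 1900) (nat_lit 3256358826) (nat_lit 492) (nat_lit 5) (nat_lit 516) (nat_lit 5) (nat_lit 517) (nat_lit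 5) (nat_lit 457) (nat_lit 442) (nat_lit 301))) (XT.nd (nat_lit 78) (nat_lit 1748) (nat_lit 0) (XT.lf (nat_lit 76) (nat_lit 11681595152) (nat_lit 0) (nat_lit 2554825314) (nat_lit 1900) (nat_lit 3874279358) (nat_lit 493) (nat_lit 5) (nat_lit 492) (nat_lit 5) (nat_lit 517) (nat_lit 5) (nat_lit 458) (nat_lit 442) (nat_lit 300)) (XT.lf (nat_lit 0) (nat_lit 8325624248) (nat_lit 1824) (nat_lit 8624274699) (nat_lit 1900) (nat_lit 1446512616) (nat_lit 469) (nat_lit 5) (nat_lit 493) (nat_lit 5) (nat_lit 494) (nat_lit 5) (nat_lit 459) (nat_lit 442) (nat_lit 299))))) (XT.nd (nat_lit 312) (nat_lit 3496) (nat_lit 0) (XT.nd (nat_lit 156) (nat_lit 912) (nat_lit 0) (XT.nd (nat_lit 78) (nat_lit 912) (nat_lit 0) (XT.lf (nat_lit 0) (nat_lit 1145619180) (nat_lit 1216) (nat_lit 13762969366) (nat_lit 76) (nat_lit 3779862459) (nat_lit 453) (nat_lit 5) (nat_lit 469) (nat_lit 5) (nat_lit 454) (nat_lit 5) (nat_lit 460) (nat_lit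 442) (nat_lit 298)) (XT.lf (nat_lit 0) (nat_lit 1461857245) (nat_lit 912) (nat_lit 2457688863) (nat_lit 988) (nat_lit 15067040969) (nat_lit 441) (nat_lit 5) (nat_lit 453) (nat_lit 5) (nat_lit 454) (nat_lit 5) (nat_lit 461) (nat_lit 442) (nat_lit 297))) (XT.nd (nat_lit 78) (nat_lit 912) (nat_lit 0) (XT.lf (nat_lit 0) (nat_lit 6925883386) (nat_lit 988) (nat_lit 2039093851) (nat_lit 76) (nat_lit 10325706481) (nat_lit 441) (nat_lit 5) (nat_lit 454) (nat_lit 5) (nat_lit 442) (nat_lit 5) (nat_lit 462) (nat_lit 442) (nat_lit 296)) (XT.lf (nat_lit 0) (nat_lit 10144186264) (nat_lit 988) (nat_lit 5559300494) (nat_lit 76) (nat_lit 3897981320) (nat_lit 429) (nat_lit 5) (nat_lit 442) (nat_lit 5) (nat_lit 430) (nat_lit 5) (nat_lit 463) (nat_lit 442) (nat_lit 295)))) (XT.nd (nat_lit 156) (nat_lit 1748) (nat_lit 0) (XT.nd (nat_lit 78) (nat_lit 912) (nat_lit 0) (XT.lf (nat_lit 0) (nat_lit 10782939354) (nat_lit 836)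 (nat_lit 2808599345) (nat_lit 912) (nat_lit 6327387578) (nat_lit 418) (nat_lit 5) (nat_lit 429) (nat_lit 5) (nat_lit 430) (nat_lit 5) (nat_lit 464) (nat_lit 442) (nat_lit 294)) (XT.lf (nat_lit 0) (nat_lit 7465083007) (nat_lit 912) (nat_lit 9820509112) (nat_lit 988) (nat_lit 2957450804) (nat_lit 406) (nat_lit 5) (nat_lit 418) (nat_lit 5) (nat_lit 419) (nat_lit 5) (nat_lit 465) (nat_lit 442) (nat_lit 293))) (XT.nd (nat_lit 78) (nat_lit 836) (nat_lit 0) (XT.lf (nat_lit 0) (nat_lit 626788179) (nat_lit 912) (nat_lit 16463438364) (nat_lit 76) (nat_lit 3484191334) (nat_lit 394) (nat_lit 5) (nat_lit 406) (nat_lit 5) (nat_lit 395) (nat_lit 5) (nat_lit 466) (nat_lit 442) (nat_lit 292)) (XT.lf (nat_lit 0) (nat_lit 679410092) (nat_lit 836) (nat_lit 3745761104) (nat_lit 912) (nat_lit 16487236254) (nat_lit 383) (nat_lit 5) (nat_lit 394) (nat_lit 5) (nat_lit 395) (nat_lit 5) (nat_lit 467) (nat_lit 442) (nat_lit 291))))))))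
noncomputable def xc91 : XT := (XT.nd (nat_lit 2262) (nat_lit 5244) (nat_lit 0) (XT.nd (nat_lit 1092) (nat_lit 6536) (nat_lit 0) (XT.nd (nat_lit 546) (nat_lit 4636) (nat_lit 0) (XT.nd (nat_lit 234) (nat_lit 2280) (nat_lit 0) (XT.nd (nat_lit 78) (nat_lit 1520) (nat_lit 0) (XT.lf (nat_lit 0) (nat_lit 8504286846) (nat_lit 912) (nat_lit 2773062075) (nat_lit 76) (nat_lit 9979852444) (nat_lit 383) (nat_lit 5) (nat_lit 395) (nat_lit 5) (nat_lit 384) (nat_lit 5) (nat_lit 468) (nat_lit 442) (nat_lit 290)) (XT.nd (nat_lit 78) (nat_lit 760) (nat_lit 0) (XT.lf (nat_lit 0) (nat_lit 12837121065) (nat_lit 836) (nat_lit 6250026724) (nat_lit 76) (nat_lit 2522564675) (nat_lit 373) (nat_lit 5) (nat_lit 384) (nat_lit 5) (nat_lit 374) (nat_lit 5) (nat_lit 469) (nat_lit 442) (nat_lit 289)) (XT.lf (nat_lit 0) (nat_lit 12175395799) (nat_lit 760) (nat_lit 5288015183) (nat_lit 836) (nat_lit 4506118763) (nat_lit 363) (nat_lit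 5) (nat_lit 373) (nat_lit 5) (nat_lit 374) (nat_lit 5) (nat_lit 470) (nat_lit 442) (nat_lit 288)))) (XT.nd (nat_lit 156) (nat_lit 684) (nat_lit 0) (XT.nd (nat_lit 78) (nat_lit 760) (nat_lit 0) (XT.lf (nat_lit 0) (nat_lit 39779719) (nat_lit 836) (nat_lit 13389167960) (nat_lit 76) (nat_lit 8908209267) (nat_lit 352) (nat_lit 5) (nat_lit 363) (nat_lit 5) (nat_lit 353) (nat_lit 5) (nat_lit 471) (nat_lit 442) (nat_lit 287)) (XT.lf (nat_lit 0) (nat_lit 4796327448) (nat_lit 836) (nat_lit 17048618873) (nat_lit 76) (nat_lit 867561319) (nat_lit 342) (nat_lit 5) (nat_lit 353) (nat_lit 5) (nat_lit 343) (nat_lit 5) (nat_lit 472) (nat_lit 442) (nat_lit 286))) (XT.nd (nat_lit 78) (nat_lit 0) (nat_lit 0) (XT.lf (nat_lit 0) (nat_lit 2303640890) (nat_lit 684) (nat_lit 7578678991) (nat_lit 760) (nat_lit 13213064243) (nat_lit 333) (nat_lit 5) (nat_lit 342) (nat_lit 5) (nat_lit 343) (nat_lit 5) (nat_lit 473) (nat_lit 442)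 (nat_lit 285)) (XT.lf (nat_lit 0) (nat_lit 15274234301) (nat_lit 760) (nat_lit 1075240490) (nat_lit 76) (nat_lit 7137205496) (nat_lit 333) (nat_lit 5) (nat_lit 343) (nat_lit 5) (nat_lit 334) (nat_lit 5) (nat_lit 474) (nat_lit 442) (nat_lit 284))))) (XT.nd (nat_lit 234) (nat_lit 2508) (nat_lit 0) (XT.nd (nat_lit 78) (nat_lit 1444) (nat_lit 0) (XT.lf (nat_lit 0) (nat_lit 19426495551) (nat_lit 684) (nat_lit 1569340017) (nat_lit 760) (nat_lit 2890521401) (nat_lit 324) (nat_lit 5) (nat_lit 333) (nat_lit 5) (nat_lit 334) (nat_lit 5) (nat_lit 475) (nat_lit 442) (nat_lit 283)) (XT.nd (nat_lit 78) (nat_lit 684) (nat_lit 0) (XT.lf (nat_lit 0) (nat_lit 2751970491) (nat_lit 760) (nat_lit 7936419769) (nat_lit 76) (nat_lit 13605399607) (nat_lit 314) (nat_lit 5) (nat_lit 324) (nat_lit 5) (nat_lit 315) (nat_lit 5) (nat_lit 476) (nat_lit 442) (nat_lit 282)) (XT.lf (nat_lit 0) (nat_lit 8673380360) (nat_lit 760) (nat_lit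 11459619776) (nat_lit 76) (nat_lit 4577085412) (nat_lit 305) (nat_lit 5) (nat_lit 315) (nat_lit 5) (nat_lit 306) (nat_lit 5) (nat_lit 477) (nat_lit 442) (nat_lit 281)))) (XT.nd (nat_lit 156) (nat_lit 1292) (nat_lit 0) (XT.nd (nat_lit 78) (nat_lit 608) (nat_lit 0) (XT.lf (nat_lit 0) (nat_lit 10094056230) (nat_lit 608) (nat_lit 4861130979) (nat_lit 684) (nat_lit 10180027997) (nat_lit 297) (nat_lit 5) (nat_lit 305) (nat_lit 5) (nat_lit 306) (nat_lit 5) (nat_lit 478) (nat_lit 442) (nat_lit 280)) (XT.lf (nat_lit 0) (nat_lit 6888642911) (nat_lit 608) (nat_lit 14722037277) (nat_lit 684) (nat_lit 3958714119) (nat_lit 289) (nat_lit 5) (nat_lit 297) (nat_lit 5) (nat_lit 298) (nat_lit 5) (nat_lit 479) (nat_lit 442) (nat_lit 279))) (XT.nd (nat_lit 78) (nat_lit 608) (nat_lit 0) (XT.lf (nat_lit 0) (nat_lit 2574920802) (nat_lit 684) (nat_lit 22364020966) (nat_lit 76) (nat_lit 1074183078) (nat_lit 280) (nat_lit 5)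 (nat_lit 289) (nat_lit 5) (nat_lit 281) (nat_lit 5) (nat_lit 480) (nat_lit 442) (nat_lit 278)) (XT.lf (nat_lit 0) (nat_lit 304960056) (nat_lit 608) (nat_lit 9166033333) (nat_lit 684) (nat_lit 16994246508) (nat_lit 272) (nat_lit 5) (nat_lit 280) (nat_lit 5) (nat_lit 281) (nat_lit 5) (nat_lit 481) (nat_lit 442) (nat_lit 277)))))) (XT.nd (nat_lit 546) (nat_lit 3192) (nat_lit 0) (XT.nd (nat_lit 234) (nat_lit 2128) (nat_lit 0) (XT.nd (nat_lit 78) (nat_lit 1216) (nat_lit 0) (XT.lf (nat_lit 0) (nat_lit 16764665441) (nat_lit 684) (nat_lit 3024901716) (nat_lit 76) (nat_lit 7137537071) (nat_lit 272) (nat_lit 5) (nat_lit 281) (nat_lit 5) (nat_lit 273) (nat_lit 5) (nat_lit 482) (nat_lit 442) (nat_lit 276)) (XT.nd (nat_lit 78) (nat_lit 684) (nat_lit 0) (XT.lf (nat_lit 0) (nat_lit 21008897336) (nat_lit 532) (nat_lit 3458378081) (nat_lit 608) (nat_lit 2931746683) (nat_lit 265) (nat_lit 5) (nat_lit 272) (nat_lit 5)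 (nat_lit 273) (nat_lit 5) (nat_lit 483) (nat_lit 442) (nat_lit 275)) (XT.lf (nat_lit 0) (nat_lit 4675301774) (nat_lit 684) (nat_lit 9850963673) (nat_lit 76) (nat_lit 13353872583) (nat_lit 256) (nat_lit 5) (nat_lit 265) (nat_lit 5) (nat_lit 257) (nat_lit 5) (nat_lit 484) (nat_lit 442) (nat_lit 274)))) (XT.nd (nat_lit 156) (nat_lit 1064) (nat_lit 0) (XT.nd (nat_lit 78) (nat_lit 532) (nat_lit 0) (XT.lf (nat_lit 0) (nat_lit 12643633803) (nat_lit 608) (nat_lit 13349685245) (nat_lit 76) (nat_lit 2378522905) (nat_lit 249) (nat_lit 5) (nat_lit 257) (nat_lit 5) (nat_lit 250) (nat_lit 5) (nat_lit 485) (nat_lit 442) (nat_lit 273)) (XT.lf (nat_lit 0) (nat_lit 11948715855) (nat_lit 532) (nat_lit 9137027134) (nat_lit 608) (nat_lit 7787859613) (nat_lit 242) (nat_lit 5) (nat_lit 249) (nat_lit 5) (nat_lit 250) (nat_lit 5) (nat_lit 486) (nat_lit 442) (nat_lit 272))) (XT.nd (nat_lit 78) (nat_lit 532) (nat_lit 0) (XT.lf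 (nat_lit 0) (nat_lit 581744954) (nat_lit 532) (nat_lit 20537773482) (nat_lit 76) (nat_lit 8266923651) (nat_lit 235) (nat_lit 5) (nat_lit 242) (nat_lit 5) (nat_lit 236) (nat_lit 5) (nat_lit 487) (nat_lit 442) (nat_lit 271)) (XT.lf (nat_lit 0) (nat_lit 5665428146) (nat_lit 532) (nat_lit 3638178532) (nat_lit 608) (nat_lit 20605891153) (nat_lit 228) (nat_lit 5) (nat_lit 235) (nat_lit 5) (nat_lit 236) (nat_lit 5) (nat_lit 488) (nat_lit 442) (nat_lit 270))))) (XT.nd (nat_lit 312) (nat_lit 1748) (nat_lit 0) (XT.nd (nat_lit 156) (nat_lit 988) (nat_lit 0) (XT.nd (nat_lit 78) (nat_lit 0) (nat_lit 0) (XT.lf (nat_lit 0) (nat_lit 2418276932) (nat_lit 456) (nat_lit 16111085569) (nat_lit 532) (nat_lit 11914038116) (nat_lit 222) (nat_lit 5) (nat_lit 228) (nat_lit 5) (nat_lit 229) (nat_lit 5) (nat_lit 489) (nat_lit 442) (nat_lit 269)) (XT.lf (nat_lit 0) (nat_lit 28226400740) (nat_lit 532) (nat_lit 824209486) (nat_lit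 76) (nat_lit 1938820198) (nat_lit 222) (nat_lit 5) (nat_lit 229) (nat_lit 5) (nat_lit 223) (nat_lit 5) (nat_lit 490) (nat_lit 442) (nat_lit 268))) (XT.nd (nat_lit 78) (nat_lit 456) (nat_lit 0) (XT.lf (nat_lit 0) (nat_lit 6856326928) (nat_lit 532) (nat_lit 4155852737) (nat_lit 76) (nat_lit 20533172477) (nat_lit 215) (nat_lit 5) (nat_lit 222) (nat_lit 5) (nat_lit 216) (nat_lit 5) (nat_lit 491) (nat_lit 442) (nat_lit 267)) (XT.lf (nat_lit 0) (nat_lit 16936428826) (nat_lit 532) (nat_lit 7526285186) (nat_lit 76) (nat_lit 7650678282) (nat_lit 209) (nat_lit 5) (nat_lit 216) (nat_lit 5) (nat_lit 210) (nat_lit 5) (nat_lit 492) (nat_lit 442) (nat_lit 266)))) (XT.nd (nat_lit 156) (nat_lit 836) (nat_lit 0) (XT.nd (nat_lit 78) (nat_lit 456) (nat_lit 0) (XT.lf (nat_lit 0) (nat_lit 21753608069) (nat_lit 456) (nat_lit 5802230841) (nat_lit 532) (nat_lit 5137896757) (nat_lit 203) (nat_lit 5) (nat_lit 209) (nat_lit 5)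 (nat_lit 210) (nat_lit 5) (nat_lit 493) (nat_lit 442) (nat_lit 265)) (XT.lf (nat_lit 0) (nat_lit 5390590438) (nat_lit 456) (nat_lit 14446463126) (nat_lit 76) (nat_lit 13448630785) (nat_lit 197) (nat_lit 5) (nat_lit 203) (nat_lit 5) (nat_lit 198) (nat_lit 5) (nat_lit 494) (nat_lit 442) (nat_lit 264))) (XT.nd (nat_lit 78) (nat_lit 380) (nat_lit 0) (XT.lf (nat_lit 0) (nat_lit 15893500093) (nat_lit 456) (nat_lit 482508376) (nat_lit 532) (nat_lit 17514486298) (nat_lit 191) (nat_lit 5) (nat_lit 197) (nat_lit 5) (nat_lit 198) (nat_lit 5) (nat_lit 495) (nat_lit 442) (nat_lit 263)) (XT.lf (nat_lit 0) (nat_lit 12862624224) (nat_lit 380) (nat_lit 15130685213) (nat_lit 456) (nat_lit 6514093760) (nat_lit 186) (nat_lit 5) (nat_lit 191) (nat_lit 5) (nat_lit 192) (nat_lit 5) (nat_lit 496) (nat_lit 442) (nat_lit 262))))))) (XT.nd (nat_lit 58266) (nat_lit 0) (nat_lit 28196) (XT.nd (nat_lit 546) (nat_lit 2812) (nat_lit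 0) (XT.nd (nat_lit 234) (nat_lit 1216) (nat_lit 0) (XT.nd (nat_lit 78) (nat_lit 760) (nat_lit 0) (XT.lf (nat_lit 0) (nat_lit 4968880996) (nat_lit 456) (nat_lit 25331582925) (nat_lit 76) (nat_lit 4837414901) (nat_lit 180) (nat_lit 5) (nat_lit 186) (nat_lit 5) (nat_lit 181) (nat_lit 5) (nat_lit 497) (nat_lit 442) (nat_lit 261)) (XT.nd (nat_lit 78) (nat_lit 380) (nat_lit 0) (XT.lf (nat_lit 0) (nat_lit 6645356354) (nat_lit 380) (nat_lit 10349108411) (nat_lit 456) (nat_lit 18786210470) (nat_lit 175) (nat_lit 5) (nat_lit 180) (nat_lit 5) (nat_lit 181) (nat_lit 5) (nat_lit 498) (nat_lit 442) (nat_lit 260)) (XT.lf (nat_lit 0) (nat_lit 3458136566) (nat_lit 380) (nat_lit 26178389240) (nat_lit 456) (nat_lit 6801115635) (nat_lit 170) (nat_lit 5) (nat_lit 175) (nat_lit 5) (nat_lit 176) (nat_lit 5) (nat_lit 499) (nat_lit 442) (nat_lit 259)))) (XT.nd (nat_lit 156) (nat_lit 760) (nat_lit 0) (XT.nd (nat_lit 78) (nat_lit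 0) (nat_lit 0) (XT.lf (nat_lit 0) (nat_lit 205212784) (nat_lit 380) (nat_lit 5529202954) (nat_lit 456) (nat_lit 31373909376) (nat_lit 164) (nat_lit 5) (nat_lit 169) (nat_lit 5) (nat_lit 170) (nat_lit 5) (nat_lit 500) (nat_lit 442) (nat_lit 258)) (XT.lf (nat_lit 0) (nat_lit 18875688360) (nat_lit 456) (nat_lit 3115667241) (nat_lit 76) (nat_lit 15800433161) (nat_lit 164) (nat_lit 5) (nat_lit 170) (nat_lit 5) (nat_lit 165) (nat_lit 5) (nat_lit 501) (nat_lit 442) (nat_lit 257))) (XT.nd (nat_lit 78) (nat_lit 380) (nat_lit 0) (XT.lf (nat_lit 0) (nat_lit 32060402822) (nat_lit 380) (nat_lit 590491672) (nat_lit 456) (nat_lit 5840068004) (nat_lit 159) (nat_lit 5) (nat_lit 164) (nat_lit 5) (nat_lit 165) (nat_lit 5) (nat_lit 502) (nat_lit 442) (nat_lit 256)) (XT.lf (nat_lit 0) (nat_lit 7876302065) (nat_lit 380) (nat_lit 9895098154) (nat_lit 76) (nat_lit 21431758704) (nat_lit 154) (nat_lit 5) (nat_lit 159) (nat_lit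 5) (nat_lit 155) (nat_lit 5) (nat_lit 503) (nat_lit 442) (nat_lit 255))))) (XT.nd (nat_lit 312) (nat_lit 1368) (nat_lit 0) (XT.nd (nat_lit 156) (nat_lit 760) (nat_lit 0) (XT.nd (nat_lit 78) (nat_lit 304) (nat_lit 0) (XT.lf (nat_lit 0) (nat_lit 22169039917) (nat_lit 456) (nat_lit 13392607280) (nat_lit 76) (nat_lit 4369417661) (nat_lit 149) (nat_lit 5) (nat_lit 155) (nat_lit 5) (nat_lit 150) (nat_lit 5) (nat_lit 504) (nat_lit 442) (nat_lit 254)) (XT.lf (nat_lit 0) (nat_lit 23704264641) (nat_lit 304) (nat_lit 13521334493) (nat_lit 380) (nat_lit 3448508128) (nat_lit 145) (nat_lit 5) (nat_lit 149) (nat_lit 5) (nat_lit 150) (nat_lit 5) (nat_lit 505) (nat_lit 442) (nat_lit 253))) (XT.nd (nat_lit 78) (nat_lit 304) (nat_lit 0) (XT.lf (nat_lit 0) (nat_lit 11429447146) (nat_lit 456) (nat_lit 20644107286) (nat_lit 76) (nat_lit 9358756738) (nat_lit 139) (nat_lit 5) (nat_lit 145) (nat_lit 5) (nat_lit 140) (nat_lit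 5) (nat_lit 506) (nat_lit 442) (nat_lit 252)) (XT.lf (nat_lit 0) (nat_lit 17811459826) (nat_lit 304) (nat_lit 9212453435) (nat_lit 380) (nat_lit 15182551634) (nat_lit 135) (nat_lit 5) (nat_lit 139) (nat_lit 5) (nat_lit 140) (nat_lit 5) (nat_lit 507) (nat_lit 442) (nat_lit 251)))) (XT.nd (nat_lit 156) (nat_lit 684) (nat_lit 0) (XT.nd (nat_lit 78) (nat_lit 304) (nat_lit 0) (XT.lf (nat_lit 0) (nat_lit 408391447) (nat_lit 380) (nat_lit 28205927494) (nat_lit 76) (nat_lit 14382971630) (nat_lit 130) (nat_lit 5) (nat_lit 135) (nat_lit 5) (nat_lit 131) (nat_lit 5) (nat_lit 508) (nat_lit 442) (nat_lit 250)) (XT.lf (nat_lit 0) (nat_lit 11659299013) (nat_lit 304) (nat_lit 4901449865) (nat_lit 380) (nat_lit 27243085922) (nat_lit 126) (nat_lit 5) (nat_lit 130) (nat_lit 5) (nat_lit 131) (nat_lit 5) (nat_lit 509) (nat_lit 442) (nat_lit 249))) (XT.nd (nat_lit 78) (nat_lit 380) (nat_lit 0) (XT.lf (nat_lit 0) (nat_lit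 8450591835) (nat_lit 304) (nat_lit 25116247654) (nat_lit 380) (nat_lit 11060352682) (nat_lit 122) (nat_lit 5) (nat_lit 126) (nat_lit 5) (nat_lit 127) (nat_lit 5) (nat_lit 510) (nat_lit 442) (nat_lit 248)) (XT.lf (nat_lit 0) (nat_lit 5222574598) (nat_lit 304) (nat_lit 592891550) (nat_lit 380) (nat_lit 39653432943) (nat_lit 117) (nat_lit 5) (nat_lit 121) (nat_lit 5) (nat_lit 122) (nat_lit 5) (nat_lit 511) (nat_lit 442) (nat_lit 247)))))) (XT.nd (nat_lit 546) (nat_lit 1368) (nat_lit 0) (XT.nd (nat_lit 234) (nat_lit 0) (nat_lit 76) (XT.nd (nat_lit 78) (nat_lit 0) (nat_lit 0) (XT.lf (nat_lit 0) (nat_lit 1961823982) (nat_lit 0) (nat_lit 1961823982) (nat_lit 1748) (nat_lit 3417694384) (nat_lit 506) (nat_lit 5) (nat_lit 506) (nat_lit 3) (nat_lit 529) (nat_lit 3) (nat_lit 443) (nat_lit 443) (nat_lit 314)) (XT.nd (nat_lit 78) (nat_lit 0) (nat_lit 76) (XT.lf (nat_lit 76) (nat_lit 169485750) (nat_lit 0) (nat_lit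 8305703714) (nat_lit 1824) (nat_lit 6417517348) (nat_lit 507) (nat_lit 5) (nat_lit 506) (nat_lit 5) (nat_lit 530) (nat_lit 5) (nat_lit 444) (nat_lit 443) (nat_lit 313)) (XT.lf (nat_lit 0) (nat_lit 9217867441) (nat_lit 1748) (nat_lit 3585660126) (nat_lit 1824) (nat_lit 2303583638) (nat_lit 507) (nat_lit 5) (nat_lit 530) (nat_lit 5) (nat_lit 531) (nat_lit 5) (nat_lit 445) (nat_lit 443) (nat_lit 312)))) (XT.nd (nat_lit 156) (nat_lit 0) (nat_lit 152) (XT.nd (nat_lit 78) (nat_lit 0) (nat_lit 76) (XT.lf (nat_lit 76) (nat_lit 7924652170) (nat_lit 0) (nat_lit 2147572293) (nat_lit 1824) (nat_lit 5253935840) (nat_lit 508) (nat_lit 5) (nat_lit 507) (nat_lit 5) (nat_lit 531) (nat_lit 5) (nat_lit 446) (nat_lit 443) (nat_lit 311)) (XT.lf (nat_lit 76) (nat_lit 4266539079) (nat_lit 0) (nat_lit 6778052243) (nat_lit 1824) (nat_lit 4505342501) (nat_lit 509) (nat_lit 5) (nat_lit 508) (nat_lit 5) (nat_lit 532) (nat_lit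 5) (nat_lit 447) (nat_lit 443) (nat_lit 310))) (XT.nd (nat_lit 78) (nat_lit 0) (nat_lit 0) (XT.lf (nat_lit 76) (nat_lit 561744483) (nat_lit 0) (nat_lit 11563498625) (nat_lit 1824) (nat_lit 3653595680) (nat_lit 510) (nat_lit 5) (nat_lit 509) (nat_lit 5) (nat_lit 533) (nat_lit 5) (nat_lit 448) (nat_lit 443) (nat_lit 309)) (XT.lf (nat_lit 76) (nat_lit 12860707569) (nat_lit 0) (nat_lit 482895465) (nat_lit 1824) (nat_lit 2668902597) (nat_lit 510) (nat_lit 5) (nat_lit 509) (nat_lit 5) (nat_lit 533) (nat_lit 5) (nat_lit 449) (nat_lit 443) (nat_lit 308))))) (XT.nd (nat_lit 312) (nat_lit 0) (nat_lit 76) (XT.nd (nat_lit 156) (nat_lit 1672) (nat_lit 0) (XT.nd (nat_lit 78) (nat_lit 0) (nat_lit 76) (XT.lf (nat_lit 76) (nat_lit 9316569786) (nat_lit 0) (nat_lit 5397708709) (nat_lit 1824) (nat_lit 1536589177) (nat_lit 511) (nat_lit 5) (nat_lit 510) (nat_lit 5) (nat_lit 534) (nat_lit 5) (nat_lit 450) (nat_lit 443) (nat_lit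 307)) (XT.lf (nat_lit 76) (nat_lit 5728544008) (nat_lit 0) (nat_lit 10483295365) (nat_lit 1824) (nat_lit 282826372) (nat_lit 512) (nat_lit 5) (nat_lit 511) (nat_lit 5) (nat_lit 535) (nat_lit 5) (nat_lit 451) (nat_lit 443) (nat_lit 306))) (XT.nd (nat_lit 78) (nat_lit 0) (nat_lit 0) (XT.lf (nat_lit 0) (nat_lit 1083952502) (nat_lit 1824) (nat_lit 14655059419) (nat_lit 1900) (nat_lit 1004862716) (nat_lit 488) (nat_lit 5) (nat_lit 512) (nat_lit 5) (nat_lit 513) (nat_lit 5) (nat_lit 452) (nat_lit 443) (nat_lit 305)) (XT.lf (nat_lit 0) (nat_lit 2616874570) (nat_lit 1824) (nat_lit 1605287200) (nat_lit 1900) (nat_lit 12775781426) (nat_lit 488) (nat_lit 5) (nat_lit 512) (nat_lit 5) (nat_lit 513) (nat_lit 5) (nat_lit 453) (nat_lit 443) (nat_lit 304)))) (XT.nd (nat_lit 156) (nat_lit 0) (nat_lit 76) (XT.nd (nat_lit 78) (nat_lit 0) (nat_lit 76) (XT.lf (nat_lit 0) (nat_lit 4309572995) (nat_lit 1824) (nat_lit 5325539894)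 (nat_lit 1900) (nat_lit 7622245573) (nat_lit 489) (nat_lit 5) (nat_lit 513) (nat_lit 5) (nat_lit 514) (nat_lit 5) (nat_lit 454) (nat_lit 443) (nat_lit 303)) (XT.lf (nat_lit 0) (nat_lit 6148288299) (nat_lit 1824) (nat_lit 9093145489) (nat_lit 1900) (nat_lit 2281218094) (nat_lit 490) (nat_lit 5) (nat_lit 514) (nat_lit 5) (nat_lit 515) (nat_lit 5) (nat_lit 455) (nat_lit 443) (nat_lit 302))) (XT.nd (nat_lit 78) (nat_lit 0) (nat_lit 76) (XT.lf (nat_lit 76) (nat_lit 4863603084) (nat_lit 0) (nat_lit 3297470892) (nat_lit 1900) (nat_lit 9632452347) (nat_lit 491) (nat_lit 5) (nat_lit 490) (nat_lit 5) (nat_lit 515) (nat_lit 5) (nat_lit 456) (nat_lit 443) (nat_lit 301)) (XT.lf (nat_lit 76) (nat_lit 1239064171) (nat_lit 0) (nat_lit 9110628567) (nat_lit 1900) (nat_lit 7720525660) (nat_lit 492) (nat_lit 5) (nat_lit 491) (nat_lit 5) (nat_lit 516) (nat_lit 5) (nat_lit 457) (nat_lit 443) (nat_lit 300))))))))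
noncomputable def xc92 : XT := (XT.nd (nat_lit 2262) (nat_lit 9652) (nat_lit 0) (XT.nd (nat_lit 1092) (nat_lit 8664) (nat_lit 0) (XT.nd (nat_lit 546) (nat_lit 5016) (nat_lit 0) (XT.nd (nat_lit 234) (nat_lit 3040) (nat_lit 0) (XT.nd (nat_lit 78) (nat_lit 1748) (nat_lit 0) (XT.lf (nat_lit 0) (nat_lit 12721995432) (nat_lit 1824) (nat_lit 2397157566) (nat_lit 1900) (nat_lit 3233698106) (nat_lit 492) (nat_lit 5) (nat_lit 516) (nat_lit 5) (nat_lit 517) (nat_lit 5) (nat_lit 458) (nat_lit 443) (nat_lit 299)) (XT.nd (nat_lit 78) (nat_lit 1748) (nat_lit 0) (XT.lf (nat_lit 76) (nat_lit 12563371595) (nat_lit 0) (nat_lit 2732206556) (nat_lit 1900) (nat_lit 3345782787) (nat_lit 493) (nat_lit 5) (nat_lit 492) (nat_lit 5) (nat_lit 517) (nat_lit 5) (nat_lit 459) (nat_lit 443) (nat_lit 298)) (XT.lf (nat_lit 0) (nat_lit 9111199316) (nat_lit 1824) (nat_lit 8963695820) (nat_lit 1900) (nat_lit 861060751) (nat_lit 469) (nat_lit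 5) (nat_lit 493) (nat_lit 5) (nat_lit 494) (nat_lit 5) (nat_lit 460) (nat_lit 443) (nat_lit 297)))) (XT.nd (nat_lit 156) (nat_lit 912) (nat_lit 0) (XT.nd (nat_lit 78) (nat_lit 912) (nat_lit 0) (XT.lf (nat_lit 0) (nat_lit 1785527608) (nat_lit 1216) (nat_lit 13628017348) (nat_lit 76) (nat_lit 3823431611) (nat_lit 453) (nat_lit 5) (nat_lit 469) (nat_lit 5) (nat_lit 454) (nat_lit 5) (nat_lit 461) (nat_lit 443) (nat_lit 296)) (XT.lf (nat_lit 0) (nat_lit 2044665990) (nat_lit 912) (nat_lit 2583868512) (nat_lit 988) (nat_lit 14915805477) (nat_lit 441) (nat_lit 5) (nat_lit 453) (nat_lit 5) (nat_lit 454) (nat_lit 5) (nat_lit 462) (nat_lit 443) (nat_lit 295))) (XT.nd (nat_lit 78) (nat_lit 912) (nat_lit 0) (XT.lf (nat_lit 0) (nat_lit 7707505981) (nat_lit 988) (nat_lit 1565180966) (nat_lit 76) (nat_lit 10585224175) (nat_lit 441) (nat_lit 5) (nat_lit 454) (nat_lit 5) (nat_lit 442) (nat_lit 5) (nat_lit 463) (nat_lit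 443) (nat_lit 294)) (XT.lf (nat_lit 0) (nat_lit 11008840055) (nat_lit 988) (nat_lit 5188226532) (nat_lit 76) (nat_lit 3981223254) (nat_lit 429) (nat_lit 5) (nat_lit 442) (nat_lit 5) (nat_lit 430) (nat_lit 5) (nat_lit 464) (nat_lit 443) (nat_lit 293))))) (XT.nd (nat_lit 234) (nat_lit 2356) (nat_lit 0) (XT.nd (nat_lit 78) (nat_lit 1824) (nat_lit 0) (XT.lf (nat_lit 0) (nat_lit 11635554485) (nat_lit 836) (nat_lit 2911173782) (nat_lit 912) (nat_lit 5958801674) (nat_lit 418) (nat_lit 5) (nat_lit 429) (nat_lit 5) (nat_lit 430) (nat_lit 5) (nat_lit 465) (nat_lit 443) (nat_lit 292)) (XT.nd (nat_lit 78) (nat_lit 912) (nat_lit 0) (XT.lf (nat_lit 0) (nat_lit 8220481229) (nat_lit 912) (nat_lit 10118512147) (nat_lit 988) (nat_lit 2500629354) (nat_lit 406) (nat_lit 5) (nat_lit 418) (nat_lit 5) (nat_lit 419) (nat_lit 5) (nat_lit 466) (nat_lit 443) (nat_lit 291)) (XT.lf (nat_lit 0) (nat_lit 1171765129) (nat_lit 912)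 (nat_lit 16416951855) (nat_lit 76) (nat_lit 3592395865) (nat_lit 394) (nat_lit 5) (nat_lit 406) (nat_lit 5) (nat_lit 395) (nat_lit 5) (nat_lit 467) (nat_lit 443) (nat_lit 290)))) (XT.nd (nat_lit 156) (nat_lit 1520) (nat_lit 0) (XT.nd (nat_lit 78) (nat_lit 0) (nat_lit 0) (XT.lf (nat_lit 0) (nat_lit 1231414874) (nat_lit 836) (nat_lit 3840810972) (nat_lit 912) (nat_lit 16457254149) (nat_lit 383) (nat_lit 5) (nat_lit 394) (nat_lit 5) (nat_lit 395) (nat_lit 5) (nat_lit 468) (nat_lit 443) (nat_lit 289)) (XT.lf (nat_lit 0) (nat_lit 9258844565) (nat_lit 912) (nat_lit 2330225117) (nat_lit 76) (nat_lit 10295845853) (nat_lit 383) (nat_lit 5) (nat_lit 395) (nat_lit 5) (nat_lit 384) (nat_lit 5) (nat_lit 469) (nat_lit 443) (nat_lit 288))) (XT.nd (nat_lit 78) (nat_lit 760) (nat_lit 0) (XT.lf (nat_lit 0) (nat_lit 13710667173) (nat_lit 836) (nat_lit 5910445070) (nat_lit 76) (nat_lit 2627110044) (nat_lit 373) (nat_lit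 5) (nat_lit 384) (nat_lit 5) (nat_lit 374) (nat_lit 5) (nat_lit 470) (nat_lit 443) (nat_lit 287)) (XT.lf (nat_lit 0) (nat_lit 13059188843) (nat_lit 760) (nat_lit 5405697405) (nat_lit 836) (nat_lit 4154165406) (nat_lit 363) (nat_lit 5) (nat_lit 373) (nat_lit 5) (nat_lit 374) (nat_lit 5) (nat_lit 471) (nat_lit 443) (nat_lit 286)))))) (XT.nd (nat_lit 546) (nat_lit 4256) (nat_lit 0) (XT.nd (nat_lit 234) (nat_lit 2128) (nat_lit 0) (XT.nd (nat_lit 78) (nat_lit 1444) (nat_lit 0) (XT.lf (nat_lit 0) (nat_lit 511372411) (nat_lit 836) (nat_lit 13265313893) (nat_lit 76) (nat_lit 9221165443) (nat_lit 352) (nat_lit 5) (nat_lit 363) (nat_lit 5) (nat_lit 353) (nat_lit 5) (nat_lit 472) (nat_lit 443) (nat_lit 285)) (XT.nd (nat_lit 78) (nat_lit 684) (nat_lit 0) (XT.lf (nat_lit 0) (nat_lit 5400642092) (nat_lit 836) (nat_lit 17034231486) (nat_lit 76) (nat_lit 949789221) (nat_lit 342) (nat_lit 5) (nat_lit 353) (nat_lit 5)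 (nat_lit 343) (nat_lit 5) (nat_lit 473) (nat_lit 443) (nat_lit 284)) (XT.lf (nat_lit 0) (nat_lit 2890064845) (nat_lit 684) (nat_lit 7739097772) (nat_lit 760) (nat_lit 13150064330) (nat_lit 333) (nat_lit 5) (nat_lit 342) (nat_lit 5) (nat_lit 343) (nat_lit 5) (nat_lit 474) (nat_lit 443) (nat_lit 283)))) (XT.nd (nat_lit 156) (nat_lit 1444) (nat_lit 0) (XT.nd (nat_lit 78) (nat_lit 684) (nat_lit 0) (XT.lf (nat_lit 0) (nat_lit 16170138775) (nat_lit 760) (nat_lit 596916346) (nat_lit 76) (nat_lit 7415461116) (nat_lit 333) (nat_lit 5) (nat_lit 343) (nat_lit 5) (nat_lit 334) (nat_lit 5) (nat_lit 475) (nat_lit 443) (nat_lit 282)) (XT.lf (nat_lit 0) (nat_lit 20511588200) (nat_lit 684) (nat_lit 1542313243) (nat_lit 760) (nat_lit 2540471825) (nat_lit 324) (nat_lit 5) (nat_lit 333) (nat_lit 5) (nat_lit 334) (nat_lit 5) (nat_lit 476) (nat_lit 443) (nat_lit 281))) (XT.nd (nat_lit 78) (nat_lit 684) (nat_lit 0) (XT.lf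 (nat_lit 0) (nat_lit 3256763950) (nat_lit 760) (nat_lit 7666780455) (nat_lit 76) (nat_lit 14090604388) (nat_lit 314) (nat_lit 5) (nat_lit 324) (nat_lit 5) (nat_lit 315) (nat_lit 5) (nat_lit 477) (nat_lit 443) (nat_lit 280)) (XT.lf (nat_lit 0) (nat_lit 9347321493) (nat_lit 760) (nat_lit 11296200849) (nat_lit 76) (nat_lit 4799581188) (nat_lit 305) (nat_lit 5) (nat_lit 315) (nat_lit 5) (nat_lit 306) (nat_lit 5) (nat_lit 478) (nat_lit 443) (nat_lit 279))))) (XT.nd (nat_lit 312) (nat_lit 1748) (nat_lit 0) (XT.nd (nat_lit 156) (nat_lit 1292) (nat_lit 0) (XT.nd (nat_lit 78) (nat_lit 608) (nat_lit 0) (XT.lf (nat_lit 0) (nat_lit 10895856597) (nat_lit 608) (nat_lit 4912914979) (nat_lit 684) (nat_lit 10072392006) (nat_lit 297) (nat_lit 5) (nat_lit 305) (nat_lit 5) (nat_lit 306) (nat_lit 5) (nat_lit 479) (nat_lit 443) (nat_lit 278)) (XT.lf (nat_lit 0) (nat_lit 7593561350) (nat_lit 608) (nat_lit 15062401831) (nat_lit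 684) (nat_lit 3672564475) (nat_lit 289) (nat_lit 5) (nat_lit 297) (nat_lit 5) (nat_lit 298) (nat_lit 5) (nat_lit 480) (nat_lit 443) (nat_lit 277))) (XT.nd (nat_lit 78) (nat_lit 608) (nat_lit 0) (XT.lf (nat_lit 0) (nat_lit 3044023415) (nat_lit 684) (nat_lit 22532377267) (nat_lit 76) (nat_lit 1209272027) (nat_lit 280) (nat_lit 5) (nat_lit 289) (nat_lit 5) (nat_lit 281) (nat_lit 5) (nat_lit 481) (nat_lit 443) (nat_lit 276)) (XT.lf (nat_lit 0) (nat_lit 808519677) (nat_lit 608) (nat_lit 9330255294) (nat_lit 684) (nat_lit 17112740561) (nat_lit 272) (nat_lit 5) (nat_lit 280) (nat_lit 5) (nat_lit 281) (nat_lit 5) (nat_lit 482) (nat_lit 443) (nat_lit 275)))) (XT.nd (nat_lit 156) (nat_lit 1216) (nat_lit 0) (XT.nd (nat_lit 78) (nat_lit 532) (nat_lit 0) (XT.lf (nat_lit 0) (nat_lit 17640781036) (nat_lit 684) (nat_lit 2628878611) (nat_lit 76) (nat_lit 7457785916) (nat_lit 272) (nat_lit 5) (nat_lit 281) (nat_lit 5)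 (nat_lit 273) (nat_lit 5) (nat_lit 483) (nat_lit 443) (nat_lit 274)) (XT.lf (nat_lit 0) (nat_lit 22118037145) (nat_lit 532) (nat_lit 3448672134) (nat_lit 608) (nat_lit 2646967135) (nat_lit 265) (nat_lit 5) (nat_lit 272) (nat_lit 5) (nat_lit 273) (nat_lit 5) (nat_lit 484) (nat_lit 443) (nat_lit 273))) (XT.nd (nat_lit 78) (nat_lit 532) (nat_lit 0) (XT.lf (nat_lit 0) (nat_lit 5176531641) (nat_lit 684) (nat_lit 9664111114) (nat_lit 76) (nat_lit 13868672349) (nat_lit 256) (nat_lit 5) (nat_lit 265) (nat_lit 5) (nat_lit 257) (nat_lit 5) (nat_lit 485) (nat_lit 443) (nat_lit 272)) (XT.lf (nat_lit 0) (nat_lit 13377266770) (nat_lit 608) (nat_lit 13269327931) (nat_lit 76) (nat_lit 2569308604) (nat_lit 249) (nat_lit 5) (nat_lit 257) (nat_lit 5) (nat_lit 250) (nat_lit 5) (nat_lit 486) (nat_lit 443) (nat_lit 271))))))) (XT.nd (nat_lit 1170) (nat_lit 3192) (nat_lit 0) (XT.nd (nat_lit 546) (nat_lit 3420) (nat_lit 0)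 (XT.nd (nat_lit 234) (nat_lit 1444) (nat_lit 0) (XT.nd (nat_lit 78) (nat_lit 1064) (nat_lit 0) (XT.lf (nat_lit 0) (nat_lit 12780224016) (nat_lit 532) (nat_lit 9285166433) (nat_lit 608) (nat_lit 7667471516) (nat_lit 242) (nat_lit 5) (nat_lit 249) (nat_lit 5) (nat_lit 250) (nat_lit 5) (nat_lit 487) (nat_lit 443) (nat_lit 270)) (XT.nd (nat_lit 78) (nat_lit 532) (nat_lit 0) (XT.lf (nat_lit 0) (nat_lit 942282222) (nat_lit 532) (nat_lit 20677936980) (nat_lit 76) (nat_lit 8640947586) (nat_lit 235) (nat_lit 5) (nat_lit 242) (nat_lit 5) (nat_lit 236) (nat_lit 5) (nat_lit 488) (nat_lit 443) (nat_lit 269)) (XT.lf (nat_lit 0) (nat_lit 6303638653) (nat_lit 532) (nat_lit 3615208554) (nat_lit 608) (nat_lit 20881206248) (nat_lit 228) (nat_lit 5) (nat_lit 235) (nat_lit 5) (nat_lit 236) (nat_lit 5) (nat_lit 489) (nat_lit 443) (nat_lit 268)))) (XT.nd (nat_lit 156) (nat_lit 988) (nat_lit 0) (XT.nd (nat_lit 78) (nat_lit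 0) (nat_lit 0) (XT.lf (nat_lit 0) (nat_lit 2957252413) (nat_lit 456) (nat_lit 16458194181) (nat_lit 532) (nat_lit 11934645508) (nat_lit 222) (nat_lit 5) (nat_lit 228) (nat_lit 5) (nat_lit 229) (nat_lit 5) (nat_lit 490) (nat_lit 443) (nat_lit 267)) (XT.lf (nat_lit 0) (nat_lit 29394637106) (nat_lit 532) (nat_lit 390534557) (nat_lit 76) (nat_lit 2127506505) (nat_lit 222) (nat_lit 5) (nat_lit 229) (nat_lit 5) (nat_lit 223) (nat_lit 5) (nat_lit 491) (nat_lit 443) (nat_lit 266))) (XT.nd (nat_lit 78) (nat_lit 456) (nat_lit 0) (XT.lf (nat_lit 0) (nat_lit 7379118759) (nat_lit 532) (nat_lit 3825344022) (nat_lit 76) (nat_lit 21280901906) (nat_lit 215) (nat_lit 5) (nat_lit 222) (nat_lit 5) (nat_lit 216) (nat_lit 5) (nat_lit 492) (nat_lit 443) (nat_lit 265)) (XT.lf (nat_lit 0) (nat_lit 17756184807) (nat_lit 532) (nat_lit 7298942659) (nat_lit 76) (nat_lit 8015427530) (nat_lit 209) (nat_lit 5) (nat_lit 216) (nat_lit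 5) (nat_lit 210) (nat_lit 5) (nat_lit 493) (nat_lit 443) (nat_lit 264))))) (XT.nd (nat_lit 312) (nat_lit 1672) (nat_lit 0) (XT.nd (nat_lit 156) (nat_lit 836) (nat_lit 0) (XT.nd (nat_lit 78) (nat_lit 456) (nat_lit 0) (XT.lf (nat_lit 0) (nat_lit 22851995881) (nat_lit 456) (nat_lit 5835998043) (nat_lit 532) (nat_lit 4980438580) (nat_lit 203) (nat_lit 5) (nat_lit 209) (nat_lit 5) (nat_lit 210) (nat_lit 5) (nat_lit 494) (nat_lit 443) (nat_lit 263)) (XT.lf (nat_lit 0) (nat_lit 5854649950) (nat_lit 456) (nat_lit 14432166486) (nat_lit 76) (nat_lit 13991386242) (nat_lit 197) (nat_lit 5) (nat_lit 203) (nat_lit 5) (nat_lit 198) (nat_lit 5) (nat_lit 495) (nat_lit 443) (nat_lit 262))) (XT.nd (nat_lit 78) (nat_lit 380) (nat_lit 0) (XT.lf (nat_lit 0) (nat_lit 16810732382) (nat_lit 456) (nat_lit 352951615) (nat_lit 532) (nat_lit 17737592500) (nat_lit 191) (nat_lit 5) (nat_lit 197) (nat_lit 5) (nat_lit 198) (nat_lit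 5) (nat_lit 496) (nat_lit 443) (nat_lit 261)) (XT.lf (nat_lit 0) (nat_lit 13686701703) (nat_lit 380) (nat_lit 15437922409) (nat_lit 456) (nat_lit 6412165817) (nat_lit 186) (nat_lit 5) (nat_lit 191) (nat_lit 5) (nat_lit 192) (nat_lit 5) (nat_lit 497) (nat_lit 443) (nat_lit 260)))) (XT.nd (nat_lit 156) (nat_lit 836) (nat_lit 0) (XT.nd (nat_lit 78) (nat_lit 380) (nat_lit 0) (XT.lf (nat_lit 0) (nat_lit 5406630860) (nat_lit 456) (nat_lit 25651795872) (nat_lit 76) (nat_lit 5127809973) (nat_lit 180) (nat_lit 5) (nat_lit 186) (nat_lit 5) (nat_lit 181) (nat_lit 5) (nat_lit 498) (nat_lit 443) (nat_lit 259)) (XT.lf (nat_lit 0) (nat_lit 7277317414) (nat_lit 380) (nat_lit 10510065201) (nat_lit 456) (nat_lit 19061046527) (nat_lit 175) (nat_lit 5) (nat_lit 180) (nat_lit 5) (nat_lit 181) (nat_lit 5) (nat_lit 499) (nat_lit 443) (nat_lit 258))) (XT.nd (nat_lit 78) (nat_lit 456) (nat_lit 0) (XT.lf (nat_lit 0) (nat_lit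 3992082016) (nat_lit 380) (nat_lit 26812113947) (nat_lit 456) (nat_lit 6720998697) (nat_lit 170) (nat_lit 5) (nat_lit 175) (nat_lit 5) (nat_lit 176) (nat_lit 5) (nat_lit 500) (nat_lit 443) (nat_lit 257)) (XT.lf (nat_lit 0) (nat_lit 638261613) (nat_lit 380) (nat_lit 5543214308) (nat_lit 456) (nat_lit 32034594074) (nat_lit 164) (nat_lit 5) (nat_lit 169) (nat_lit 5) (nat_lit 170) (nat_lit 5) (nat_lit 501) (nat_lit 443) (nat_lit 256)))))) (XT.nd (nat_lit 546) (nat_lit 988) (nat_lit 0) (XT.nd (nat_lit 234) (nat_lit 1444) (nat_lit 0) (XT.nd (nat_lit 78) (nat_lit 760) (nat_lit 0) (XT.lf (nat_lit 0) (nat_lit 19709933494) (nat_lit 456) (nat_lit 2790291325) (nat_lit 76) (nat_lit 16419953923) (nat_lit 164) (nat_lit 5) (nat_lit 170) (nat_lit 5) (nat_lit 165) (nat_lit 5) (nat_lit 502) (nat_lit 443) (nat_lit 255)) (XT.nd (nat_lit 78) (nat_lit 380) (nat_lit 0) (XT.lf (nat_lit 0) (nat_lit 33434265562) (nat_lit 380)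 (nat_lit 459000474) (nat_lit 456) (nat_lit 5747164373) (nat_lit 159) (nat_lit 5) (nat_lit 164) (nat_lit 5) (nat_lit 165) (nat_lit 5) (nat_lit 503) (nat_lit 443) (nat_lit 254)) (XT.lf (nat_lit 0) (nat_lit 8373097744) (nat_lit 380) (nat_lit 9778897021) (nat_lit 76) (nat_lit 22222044920) (nat_lit 154) (nat_lit 5) (nat_lit 159) (nat_lit 5) (nat_lit 155) (nat_lit 5) (nat_lit 504) (nat_lit 443) (nat_lit 253)))) (XT.nd (nat_lit 156) (nat_lit 760) (nat_lit 0) (XT.nd (nat_lit 78) (nat_lit 304) (nat_lit 0) (XT.lf (nat_lit 0) (nat_lit 23090647535) (nat_lit 456) (nat_lit 13383896888) (nat_lit 76) (nat_lit 4649317891) (nat_lit 149) (nat_lit 5) (nat_lit 155) (nat_lit 5) (nat_lit 150) (nat_lit 5) (nat_lit 505) (nat_lit 443) (nat_lit 252)) (XT.lf (nat_lit 0) (nat_lit 24819221501) (nat_lit 304) (nat_lit 13774832019) (nat_lit 380) (nat_lit 3295239581) (nat_lit 145) (nat_lit 5) (nat_lit 149) (nat_lit 5) (nat_lit 150)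 (nat_lit 5) (nat_lit 506) (nat_lit 443) (nat_lit 251))) (XT.nd (nat_lit 78) (nat_lit 304) (nat_lit 0) (XT.lf (nat_lit 0) (nat_lit 12021895945) (nat_lit 456) (nat_lit 20858849290) (nat_lit 76) (nat_lit 9789540487) (nat_lit 139) (nat_lit 5) (nat_lit 145) (nat_lit 5) (nat_lit 140) (nat_lit 5) (nat_lit 507) (nat_lit 443) (nat_lit 250)) (XT.lf (nat_lit 0) (nat_lit 18743820986) (nat_lit 304) (nat_lit 9335690355) (nat_lit 380) (nat_lit 15388246512) (nat_lit 135) (nat_lit 5) (nat_lit 139) (nat_lit 5) (nat_lit 140) (nat_lit 5) (nat_lit 508) (nat_lit 443) (nat_lit 249))))) (XT.nd (nat_lit 57486) (nat_lit 0) (nat_lit 29184) (XT.nd (nat_lit 156) (nat_lit 304) (nat_lit 0) (XT.nd (nat_lit 78) (nat_lit 304) (nat_lit 0) (XT.lf (nat_lit 0) (nat_lit 663525072) (nat_lit 380) (nat_lit 28653470987) (nat_lit 76) (nat_lit 14965352380) (nat_lit 130) (nat_lit 5) (nat_lit 135) (nat_lit 5) (nat_lit 131) (nat_lit 5) (nat_lit 509)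 (nat_lit 443) (nat_lit 248)) (XT.lf (nat_lit 0) (nat_lit 12401244948) (nat_lit 304) (nat_lit 4894680257) (nat_lit 380) (nat_lit 27817254444) (nat_lit 126) (nat_lit 5) (nat_lit 130) (nat_lit 5) (nat_lit 131) (nat_lit 5) (nat_lit 510) (nat_lit 443) (nat_lit 247))) (XT.nd (nat_lit 57252) (nat_lit 0) (nat_lit 29184) (XT.lf (nat_lit 0) (nat_lit 9093624461) (nat_lit 304) (nat_lit 25715130286) (nat_lit 380) (nat_lit 11152551960) (nat_lit 122) (nat_lit 5) (nat_lit 126) (nat_lit 5) (nat_lit 127) (nat_lit 5) (nat_lit 511) (nat_lit 443) (nat_lit 246)) (XT.lf (nat_lit 0) (nat_lit 2251317826) (nat_lit 0) (nat_lit 2251317826) (nat_lit 1748) (nat_lit 3049707067) (nat_lit 506) (nat_lit 5) (nat_lit 506) (nat_lit 3) (nat_lit 529) (nat_lit 3) (nat_lit 444) (nat_lit 444) (nat_lit 312)))) (XT.nd (nat_lit 156) (nat_lit 0) (nat_lit 76) (XT.nd (nat_lit 78) (nat_lit 0) (nat_lit 76) (XT.lf (nat_lit 76) (nat_lit 649491200) (nat_lit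 0) (nat_lit 8975815678) (nat_lit 1824) (nat_lit 5696236073) (nat_lit 507) (nat_lit 5) (nat_lit 506) (nat_lit 5) (nat_lit 530) (nat_lit 5) (nat_lit 445) (nat_lit 444) (nat_lit 311)) (XT.lf (nat_lit 0) (nat_lit 10361518709) (nat_lit 1748) (nat_lit 3212065880) (nat_lit 1824) (nat_lit 1969370625) (nat_lit 507) (nat_lit 5) (nat_lit 530) (nat_lit 5) (nat_lit 531) (nat_lit 5) (nat_lit 446) (nat_lit 444) (nat_lit 310))) (XT.nd (nat_lit 78) (nat_lit 0) (nat_lit 76) (XT.lf (nat_lit 76) (nat_lit 8635749469) (nat_lit 0) (nat_lit 2583574541) (nat_lit 1824) (nat_lit 4549696212) (nat_lit 508) (nat_lit 5) (nat_lit 507) (nat_lit 5) (nat_lit 531) (nat_lit 5) (nat_lit 447) (nat_lit 444) (nat_lit 309)) (XT.lf (nat_lit 76) (nat_lit 4879236995) (nat_lit 0) (nat_lit 7317819947) (nat_lit 1824) (nat_lit 3802926868) (nat_lit 509) (nat_lit 5) (nat_lit 508) (nat_lit 5) (nat_lit 532) (nat_lit 5) (nat_lit 448) (nat_lit 444) (nat_lit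 308))))))))
noncomputable def xc93 : XT := (XT.nd (nat_lit 2262) (nat_lit 13604) (nat_lit 0) (XT.nd (nat_lit 1092) (nat_lit 9804) (nat_lit 0) (XT.nd (nat_lit 546) (nat_lit 2584) (nat_lit 0) (XT.nd (nat_lit 234) (nat_lit 1672) (nat_lit 0) (XT.nd (nat_lit 78) (nat_lit 0) (nat_lit 0) (XT.lf (nat_lit 76) (nat_lit 1073764892) (nat_lit 0) (nat_lit 12213541322) (nat_lit 1824) (nat_lit 2948906893) (nat_lit 510) (nat_lit 5) (nat_lit 509) (nat_lit 5) (nat_lit 533) (nat_lit 5) (nat_lit 449) (nat_lit 444) (nat_lit 307)) (XT.nd (nat_lit 78) (nat_lit 0) (nat_lit 76) (XT.lf (nat_lit 76) (nat_lit 13727274500) (nat_lit 0) (nat_lit 791690812) (nat_lit 1824) (nat_lit 1958390396) (nat_lit 510) (nat_lit 5) (nat_lit 509) (nat_lit 5) (nat_lit 533) (nat_lit 5) (nat_lit 450) (nat_lit 444) (nat_lit 306)) (XT.lf (nat_lit 76) (nat_lit 10086166116) (nat_lit 0) (nat_lit 5823347387) (nat_lit 1824) (nat_lit 813780758) (nat_lit 511)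 (nat_lit 5) (nat_lit 510) (nat_lit 5) (nat_lit 534) (nat_lit 5) (nat_lit 451) (nat_lit 444) (nat_lit 305)))) (XT.nd (nat_lit 156) (nat_lit 0) (nat_lit 76) (XT.nd (nat_lit 78) (nat_lit 0) (nat_lit 76) (XT.lf (nat_lit 0) (nat_lit 450815527) (nat_lit 1824) (nat_lit 10578693304) (nat_lit 1900) (nat_lit 5945246406) (nat_lit 487) (nat_lit 5) (nat_lit 511) (nat_lit 5) (nat_lit 512) (nat_lit 5) (nat_lit 452) (nat_lit 444) (nat_lit 304)) (XT.lf (nat_lit 0) (nat_lit 1835094243) (nat_lit 1824) (nat_lit 14578591148) (nat_lit 1900) (nat_lit 818111482) (nat_lit 488) (nat_lit 5) (nat_lit 512) (nat_lit 5) (nat_lit 513) (nat_lit 5) (nat_lit 453) (nat_lit 444) (nat_lit 303))) (XT.nd (nat_lit 78) (nat_lit 0) (nat_lit 76) (XT.lf (nat_lit 0) (nat_lit 3393073200) (nat_lit 1824) (nat_lit 1152358386) (nat_lit 1900) (nat_lit 12948475146) (nat_lit 488) (nat_lit 5) (nat_lit 512) (nat_lit 5) (nat_lit 513) (nat_lit 5) (nat_lit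 454) (nat_lit 444) (nat_lit 302)) (XT.lf (nat_lit 0) (nat_lit 5118213936) (nat_lit 1824) (nat_lit 4977498354) (nat_lit 1900) (nat_lit 7665759549) (nat_lit 489) (nat_lit 5) (nat_lit 513) (nat_lit 5) (nat_lit 514) (nat_lit 5) (nat_lit 455) (nat_lit 444) (nat_lit 301))))) (XT.nd (nat_lit 234) (nat_lit 2812) (nat_lit 0) (XT.nd (nat_lit 78) (nat_lit 0) (nat_lit 0) (XT.lf (nat_lit 0) (nat_lit 6994487361) (nat_lit 1824) (nat_lit 8852034906) (nat_lit 1900) (nat_lit 2188554450) (nat_lit 490) (nat_lit 5) (nat_lit 514) (nat_lit 5) (nat_lit 515) (nat_lit 5) (nat_lit 456) (nat_lit 444) (nat_lit 300)) (XT.nd (nat_lit 78) (nat_lit 0) (nat_lit 76) (XT.lf (nat_lit 76) (nat_lit 5515078627) (nat_lit 0) (nat_lit 3536586178) (nat_lit 1900) (nat_lit 9262732999) (nat_lit 491) (nat_lit 5) (nat_lit 490) (nat_lit 5) (nat_lit 515) (nat_lit 5) (nat_lit 457) (nat_lit 444) (nat_lit 299)) (XT.lf (nat_lit 76) (nat_lit 1787221228)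 (nat_lit 0) (nat_lit 9502346349) (nat_lit 1900) (nat_lit 7310151111) (nat_lit 492) (nat_lit 5) (nat_lit 491) (nat_lit 5) (nat_lit 516) (nat_lit 5) (nat_lit 458) (nat_lit 444) (nat_lit 298)))) (XT.nd (nat_lit 156) (nat_lit 2964) (nat_lit 0) (XT.nd (nat_lit 78) (nat_lit 0) (nat_lit 0) (XT.lf (nat_lit 0) (nat_lit 13713961443) (nat_lit 1824) (nat_lit 1959984799) (nat_lit 1900) (nat_lit 3217266232) (nat_lit 492) (nat_lit 5) (nat_lit 516) (nat_lit 5) (nat_lit 517) (nat_lit 5) (nat_lit 459) (nat_lit 444) (nat_lit 297)) (XT.lf (nat_lit 76) (nat_lit 13441100896) (nat_lit 0) (nat_lit 2909126549) (nat_lit 1900) (nat_lit 2838441168) (nat_lit 493) (nat_lit 5) (nat_lit 492) (nat_lit 5) (nat_lit 517) (nat_lit 5) (nat_lit 460) (nat_lit 444) (nat_lit 296))) (XT.nd (nat_lit 78) (nat_lit 1216) (nat_lit 0) (XT.lf (nat_lit 0) (nat_lit 9889584159) (nat_lit 1824) (nat_lit 9308667474) (nat_lit 1900) (nat_lit 294143734) (nat_lit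 469) (nat_lit 5) (nat_lit 493) (nat_lit 5) (nat_lit 494) (nat_lit 5) (nat_lit 461) (nat_lit 444) (nat_lit 295)) (XT.lf (nat_lit 0) (nat_lit 2409872825) (nat_lit 1216) (nat_lit 13520465090) (nat_lit 76) (nat_lit 3872316177) (nat_lit 453) (nat_lit 5) (nat_lit 469) (nat_lit 5) (nat_lit 454) (nat_lit 5) (nat_lit 462) (nat_lit 444) (nat_lit 294)))))) (XT.nd (nat_lit 546) (nat_lit 4484) (nat_lit 0) (XT.nd (nat_lit 234) (nat_lit 3496) (nat_lit 0) (XT.nd (nat_lit 78) (nat_lit 912) (nat_lit 0) (XT.lf (nat_lit 0) (nat_lit 2614020889) (nat_lit 912) (nat_lit 2710822764) (nat_lit 988) (nat_lit 14794661750) (nat_lit 441) (nat_lit 5) (nat_lit 453) (nat_lit 5) (nat_lit 454) (nat_lit 5) (nat_lit 463) (nat_lit 444) (nat_lit 293)) (XT.nd (nat_lit 78) (nat_lit 912) (nat_lit 0) (XT.lf (nat_lit 0) (nat_lit 8479636141) (nat_lit 988) (nat_lit 1107766802) (nat_lit 76) (nat_lit 10855412157) (nat_lit 441) (nat_lit 5) (nat_lit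 454) (nat_lit 5) (nat_lit 442) (nat_lit 5) (nat_lit 464) (nat_lit 444) (nat_lit 292)) (XT.lf (nat_lit 0) (nat_lit 11867268330) (nat_lit 988) (nat_lit 4836895313) (nat_lit 76) (nat_lit 4068896822) (nat_lit 429) (nat_lit 5) (nat_lit 442) (nat_lit 5) (nat_lit 430) (nat_lit 5) (nat_lit 465) (nat_lit 444) (nat_lit 291)))) (XT.nd (nat_lit 156) (nat_lit 1748) (nat_lit 0) (XT.nd (nat_lit 78) (nat_lit 912) (nat_lit 0) (XT.lf (nat_lit 0) (nat_lit 12483374019) (nat_lit 836) (nat_lit 3015774013) (nat_lit 912) (nat_lit 5611213069) (nat_lit 418) (nat_lit 5) (nat_lit 429) (nat_lit 5) (nat_lit 430) (nat_lit 5) (nat_lit 466) (nat_lit 444) (nat_lit 290)) (XT.lf (nat_lit 0) (nat_lit 8968034239) (nat_lit 912) (nat_lit 10425260802) (nat_lit 988) (nat_lit 2061419773) (nat_lit 406) (nat_lit 5) (nat_lit 418) (nat_lit 5) (nat_lit 419) (nat_lit 5) (nat_lit 467) (nat_lit 444) (nat_lit 289))) (XT.nd (nat_lit 78) (nat_lit 836)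 (nat_lit 0) (XT.lf (nat_lit 0) (nat_lit 1702886887) (nat_lit 912) (nat_lit 16400091328) (nat_lit 76) (nat_lit 3703635354) (nat_lit 394) (nat_lit 5) (nat_lit 406) (nat_lit 5) (nat_lit 395) (nat_lit 5) (nat_lit 468) (nat_lit 444) (nat_lit 288)) (XT.lf (nat_lit 0) (nat_lit 1769462495) (nat_lit 836) (nat_lit 3939706746) (nat_lit 912) (nat_lit 16456486721) (nat_lit 383) (nat_lit 5) (nat_lit 394) (nat_lit 5) (nat_lit 395) (nat_lit 5) (nat_lit 469) (nat_lit 444) (nat_lit 287))))) (XT.nd (nat_lit 312) (nat_lit 2128) (nat_lit 0) (XT.nd (nat_lit 156) (nat_lit 1596) (nat_lit 0) (XT.nd (nat_lit 78) (nat_lit 760) (nat_lit 0) (XT.lf (nat_lit 0) (nat_lit 10007369741) (nat_lit 912) (nat_lit 1904299256) (nat_lit 76) (nat_lit 10620366281) (nat_lit 383) (nat_lit 5) (nat_lit 395) (nat_lit 5) (nat_lit 384) (nat_lit 5) (nat_lit 470) (nat_lit 444) (nat_lit 286)) (XT.lf (nat_lit 0) (nat_lit 14582381643) (nat_lit 836) (nat_lit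 5590932655) (nat_lit 76) (nat_lit 2733134608) (nat_lit 373) (nat_lit 5) (nat_lit 384) (nat_lit 5) (nat_lit 374) (nat_lit 5) (nat_lit 471) (nat_lit 444) (nat_lit 285))) (XT.nd (nat_lit 78) (nat_lit 836) (nat_lit 0) (XT.lf (nat_lit 0) (nat_lit 13939729868) (nat_lit 760) (nat_lit 5529261263) (nat_lit 836) (nat_lit 3819617099) (nat_lit 363) (nat_lit 5) (nat_lit 373) (nat_lit 5) (nat_lit 374) (nat_lit 5) (nat_lit 472) (nat_lit 444) (nat_lit 284)) (XT.lf (nat_lit 0) (nat_lit 970110039) (nat_lit 836) (nat_lit 13167911724) (nat_lit 76) (nat_lit 9540886368) (nat_lit 352) (nat_lit 5) (nat_lit 363) (nat_lit 5) (nat_lit 353) (nat_lit 5) (nat_lit 473) (nat_lit 444) (nat_lit 283)))) (XT.nd (nat_lit 156) (nat_lit 684) (nat_lit 0) (XT.nd (nat_lit 78) (nat_lit 684) (nat_lit 0) (XT.lf (nat_lit 0) (nat_lit 5996655906) (nat_lit 836) (nat_lit 17049598185) (nat_lit 76) (nat_lit 1031257788) (nat_lit 342) (nat_lit 5) (nat_lit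 353) (nat_lit 5) (nat_lit 343) (nat_lit 5) (nat_lit 474) (nat_lit 444) (nat_lit 282)) (XT.lf (nat_lit 0) (nat_lit 3464385537) (nat_lit 684) (nat_lit 7908171837) (nat_lit 760) (nat_lit 13111545391) (nat_lit 333) (nat_lit 5) (nat_lit 342) (nat_lit 5) (nat_lit 343) (nat_lit 5) (nat_lit 475) (nat_lit 444) (nat_lit 281))) (XT.nd (nat_lit 78) (nat_lit 684) (nat_lit 0) (XT.lf (nat_lit 0) (nat_lit 17067795908) (nat_lit 760) (nat_lit 133551936) (nat_lit 76) (nat_lit 7698382536) (nat_lit 333) (nat_lit 5) (nat_lit 343) (nat_lit 5) (nat_lit 334) (nat_lit 5) (nat_lit 476) (nat_lit 444) (nat_lit 280)) (XT.lf (nat_lit 0) (nat_lit 21600399682) (nat_lit 684) (nat_lit 1518729709) (nat_lit 760) (nat_lit 2204992873) (nat_lit 324) (nat_lit 5) (nat_lit 333) (nat_lit 5) (nat_lit 334) (nat_lit 5) (nat_lit 477) (nat_lit 444) (nat_lit 279))))))) (XT.nd (nat_lit 1170) (nat_lit 5396) (nat_lit 0) (XT.nd (nat_lit 546) (nat_lit 4256)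 (nat_lit 0) (XT.nd (nat_lit 234) (nat_lit 1900) (nat_lit 0) (XT.nd (nat_lit 78) (nat_lit 1292) (nat_lit 0) (XT.lf (nat_lit 0) (nat_lit 3752463234) (nat_lit 760) (nat_lit 7418197850) (nat_lit 76) (nat_lit 14585942742) (nat_lit 314) (nat_lit 5) (nat_lit 324) (nat_lit 5) (nat_lit 315) (nat_lit 5) (nat_lit 478) (nat_lit 444) (nat_lit 278)) (XT.nd (nat_lit 78) (nat_lit 608) (nat_lit 0) (XT.lf (nat_lit 0) (nat_lit 10017730508) (nat_lit 760) (nat_lit 11156995141) (nat_lit 76) (nat_lit 5023861973) (nat_lit 305) (nat_lit 5) (nat_lit 315) (nat_lit 5) (nat_lit 306) (nat_lit 5) (nat_lit 479) (nat_lit 444) (nat_lit 277)) (XT.lf (nat_lit 0) (nat_lit 11693067558) (nat_lit 608) (nat_lit 4971651350) (nat_lit 684) (nat_lit 9985236940) (nat_lit 297) (nat_lit 5) (nat_lit 305) (nat_lit 5) (nat_lit 306) (nat_lit 5) (nat_lit 480) (nat_lit 444) (nat_lit 276)))) (XT.nd (nat_lit 156) (nat_lit 608) (nat_lit 0) (XT.nd (nat_lit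 78) (nat_lit 684) (nat_lit 0) (XT.lf (nat_lit 0) (nat_lit 8291025229) (nat_lit 608) (nat_lit 15418792160) (nat_lit 684) (nat_lit 3401073894) (nat_lit 289) (nat_lit 5) (nat_lit 297) (nat_lit 5) (nat_lit 298) (nat_lit 5) (nat_lit 481) (nat_lit 444) (nat_lit 275)) (XT.lf (nat_lit 0) (nat_lit 3504705027) (nat_lit 684) (nat_lit 22734633504) (nat_lit 76) (nat_lit 1342508862) (nat_lit 280) (nat_lit 5) (nat_lit 289) (nat_lit 5) (nat_lit 281) (nat_lit 5) (nat_lit 482) (nat_lit 444) (nat_lit 274))) (XT.nd (nat_lit 78) (nat_lit 0) (nat_lit 0) (XT.lf (nat_lit 0) (nat_lit 1298804883) (nat_lit 608) (nat_lit 9505761935) (nat_lit 684) (nat_lit 17257253570) (nat_lit 272) (nat_lit 5) (nat_lit 280) (nat_lit 5) (nat_lit 281) (nat_lit 5) (nat_lit 483) (nat_lit 444) (nat_lit 273)) (XT.lf (nat_lit 0) (nat_lit 18521758291) (nat_lit 684) (nat_lit 2248917412) (nat_lit 76) (nat_lit 7781550347) (nat_lit 272) (nat_lit 5) (nat_lit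 281) (nat_lit 5) (nat_lit 273) (nat_lit 5) (nat_lit 484) (nat_lit 444) (nat_lit 272))))) (XT.nd (nat_lit 312) (nat_lit 1976) (nat_lit 0) (XT.nd (nat_lit 156) (nat_lit 1064) (nat_lit 0) (XT.nd (nat_lit 78) (nat_lit 684) (nat_lit 0) (XT.lf (nat_lit 0) (nat_lit 23232961885) (nat_lit 532) (nat_lit 3445187921) (nat_lit 608) (nat_lit 2375040538) (nat_lit 265) (nat_lit 5) (nat_lit 272) (nat_lit 5) (nat_lit 273) (nat_lit 5) (nat_lit 485) (nat_lit 444) (nat_lit 271)) (XT.lf (nat_lit 0) (nat_lit 5672077203) (nat_lit 684) (nat_lit 9499343648) (nat_lit 76) (nat_lit 14392361503) (nat_lit 256) (nat_lit 5) (nat_lit 265) (nat_lit 5) (nat_lit 257) (nat_lit 5) (nat_lit 486) (nat_lit 444) (nat_lit 270))) (XT.nd (nat_lit 78) (nat_lit 532) (nat_lit 0) (XT.lf (nat_lit 0) (nat_lit 14112569082) (nat_lit 608) (nat_lit 13214162533) (nat_lit 76) (nat_lit 2758962102) (nat_lit 249) (nat_lit 5) (nat_lit 257) (nat_lit 5) (nat_lit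 250) (nat_lit 5) (nat_lit 487) (nat_lit 444) (nat_lit 269)) (XT.lf (nat_lit 0) (nat_lit 13609522608) (nat_lit 532) (nat_lit 9444981192) (nat_lit 608) (nat_lit 7563794195) (nat_lit 242) (nat_lit 5) (nat_lit 249) (nat_lit 5) (nat_lit 250) (nat_lit 5) (nat_lit 488) (nat_lit 444) (nat_lit 268)))) (XT.nd (nat_lit 156) (nat_lit 912) (nat_lit 0) (XT.nd (nat_lit 78) (nat_lit 532) (nat_lit 0) (XT.lf (nat_lit 0) (nat_lit 1293941130) (nat_lit 532) (nat_lit 20849627992) (nat_lit 76) (nat_lit 9018958391) (nat_lit 235) (nat_lit 5) (nat_lit 242) (nat_lit 5) (nat_lit 236) (nat_lit 5) (nat_lit 489) (nat_lit 444) (nat_lit 267)) (XT.lf (nat_lit 0) (nat_lit 6934116145) (nat_lit 532) (nat_lit 3599133437) (nat_lit 608) (nat_lit 21184462457) (nat_lit 228) (nat_lit 5) (nat_lit 235) (nat_lit 5) (nat_lit 236) (nat_lit 5) (nat_lit 490) (nat_lit 444) (nat_lit 266))) (XT.nd (nat_lit 78) (nat_lit 456) (nat_lit 0) (XT.lf (nat_lit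 0) (nat_lit 3485622330) (nat_lit 456) (nat_lit 16823535864) (nat_lit 532) (nat_lit 11975205608) (nat_lit 222) (nat_lit 5) (nat_lit 228) (nat_lit 5) (nat_lit 229) (nat_lit 5) (nat_lit 491) (nat_lit 444) (nat_lit 265)) (XT.lf (nat_lit 0) (nat_lit 30233027) (nat_lit 456) (nat_lit 30549431609) (nat_lit 532) (nat_lit 2284324189) (nat_lit 216) (nat_lit 5) (nat_lit 222) (nat_lit 5) (nat_lit 223) (nat_lit 5) (nat_lit 492) (nat_lit 444) (nat_lit 264)))))) (XT.nd (nat_lit 546) (nat_lit 2660) (nat_lit 0) (XT.nd (nat_lit 234) (nat_lit 1748) (nat_lit 0) (XT.nd (nat_lit 78) (nat_lit 912) (nat_lit 0) (XT.lf (nat_lit 0) (nat_lit 7899391391) (nat_lit 532) (nat_lit 3511049486) (nat_lit 76) (nat_lit 22043501133) (nat_lit 215) (nat_lit 5) (nat_lit 222) (nat_lit 5) (nat_lit 216) (nat_lit 5) (nat_lit 493) (nat_lit 444) (nat_lit 263)) (XT.nd (nat_lit 78) (nat_lit 456) (nat_lit 0) (XT.lf (nat_lit 0) (nat_lit 18582642730) (nat_lit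 532) (nat_lit 7090791433) (nat_lit 76) (nat_lit 8383356563) (nat_lit 209) (nat_lit 5) (nat_lit 216) (nat_lit 5) (nat_lit 210) (nat_lit 5) (nat_lit 494) (nat_lit 444) (nat_lit 262)) (XT.lf (nat_lit 0) (nat_lit 23957745756) (nat_lit 456) (nat_lit 5878832039) (nat_lit 532) (nat_lit 4836143491) (nat_lit 203) (nat_lit 5) (nat_lit 209) (nat_lit 5) (nat_lit 210) (nat_lit 5) (nat_lit 495) (nat_lit 444) (nat_lit 261)))) (XT.nd (nat_lit 156) (nat_lit 836) (nat_lit 0) (XT.nd (nat_lit 78) (nat_lit 456) (nat_lit 0) (XT.lf (nat_lit 0) (nat_lit 6315275592) (nat_lit 456) (nat_lit 14443140216) (nat_lit 76) (nat_lit 14542428172) (nat_lit 197) (nat_lit 5) (nat_lit 203) (nat_lit 5) (nat_lit 198) (nat_lit 5) (nat_lit 496) (nat_lit 444) (nat_lit 260)) (XT.lf (nat_lit 0) (nat_lit 17730199312) (nat_lit 456) (nat_lit 227776177) (nat_lit 532) (nat_lit 17984746774) (nat_lit 191) (nat_lit 5) (nat_lit 197) (nat_lit 5) (nat_lit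 198) (nat_lit 5) (nat_lit 497) (nat_lit 444) (nat_lit 259))) (XT.nd (nat_lit 78) (nat_lit 456) (nat_lit 0) (XT.lf (nat_lit 0) (nat_lit 14510347106) (nat_lit 380) (nat_lit 15762796946) (nat_lit 456) (nat_lit 6324249184) (nat_lit 186) (nat_lit 5) (nat_lit 191) (nat_lit 5) (nat_lit 192) (nat_lit 5) (nat_lit 498) (nat_lit 444) (nat_lit 258)) (XT.lf (nat_lit 0) (nat_lit 5840941609) (nat_lit 456) (nat_lit 26006857770) (nat_lit 76) (nat_lit 5418577654) (nat_lit 180) (nat_lit 5) (nat_lit 186) (nat_lit 5) (nat_lit 181) (nat_lit 5) (nat_lit 499) (nat_lit 444) (nat_lit 257))))) (XT.nd (nat_lit 312) (nat_lit 1444) (nat_lit 0) (XT.nd (nat_lit 156) (nat_lit 456) (nat_lit 0) (XT.nd (nat_lit 78) (nat_lit 380) (nat_lit 0) (XT.lf (nat_lit 0) (nat_lit 7903404275) (nat_lit 380) (nat_lit 10684433551) (nat_lit 456) (nat_lit 19360703110) (nat_lit 175) (nat_lit 5) (nat_lit 180) (nat_lit 5) (nat_lit 181) (nat_lit 5) (nat_lit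 500) (nat_lit 444) (nat_lit 256)) (XT.lf (nat_lit 0) (nat_lit 4517350512) (nat_lit 380) (nat_lit 27473554403) (nat_lit 456) (nat_lit 6654789647) (nat_lit 170) (nat_lit 5) (nat_lit 175) (nat_lit 5) (nat_lit 176) (nat_lit 5) (nat_lit 501) (nat_lit 444) (nat_lit 255))) (XT.nd (nat_lit 78) (nat_lit 0) (nat_lit 0) (XT.lf (nat_lit 0) (nat_lit 1059796534) (nat_lit 380) (nat_lit 5566363660) (nat_lit 456) (nat_lit 32731203031) (nat_lit 164) (nat_lit 5) (nat_lit 169) (nat_lit 5) (nat_lit 170) (nat_lit 5) (nat_lit 502) (nat_lit 444) (nat_lit 254)) (XT.lf (nat_lit 0) (nat_lit 20553823151) (nat_lit 456) (nat_lit 2479197602) (nat_lit 76) (nat_lit 17049707568) (nat_lit 164) (nat_lit 5) (nat_lit 170) (nat_lit 5) (nat_lit 165) (nat_lit 5) (nat_lit 503) (nat_lit 444) (nat_lit 253)))) (XT.nd (nat_lit 156) (nat_lit 684) (nat_lit 0) (XT.nd (nat_lit 78) (nat_lit 380) (nat_lit 0) (XT.lf (nat_lit 0) (nat_lit 34825690791) (nat_lit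 380) (nat_lit 332129572) (nat_lit 456) (nat_lit 5666863994) (nat_lit 159) (nat_lit 5) (nat_lit 164) (nat_lit 5) (nat_lit 165) (nat_lit 5) (nat_lit 504) (nat_lit 444) (nat_lit 252)) (XT.lf (nat_lit 0) (nat_lit 8869843147) (nat_lit 380) (nat_lit 9682920848) (nat_lit 76) (nat_lit 23027582179) (nat_lit 154) (nat_lit 5) (nat_lit 159) (nat_lit 5) (nat_lit 155) (nat_lit 5) (nat_lit 505) (nat_lit 444) (nat_lit 251))) (XT.nd (nat_lit 78) (nat_lit 304) (nat_lit 0) (XT.lf (nat_lit 0) (nat_lit 24025177142) (nat_lit 456) (nat_lit 13398488910) (nat_lit 76) (nat_lit 4929072383) (nat_lit 149) (nat_lit 5) (nat_lit 155) (nat_lit 5) (nat_lit 150) (nat_lit 5) (nat_lit 506) (nat_lit 444) (nat_lit 250)) (XT.lf (nat_lit 0) (nat_lit 25944445634) (nat_lit 304) (nat_lit 14044668072) (nat_lit 380) (nat_lit 3152109973) (nat_lit 145) (nat_lit 5) (nat_lit 149) (nat_lit 5) (nat_lit 150) (nat_lit 5) (nat_lit 507) (nat_lit 444) (nat_lit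 249))))))))
noncomputable def xc94 : XT := (XT.nd (nat_lit 59514) (nat_lit 0) (nat_lit 4560) (XT.nd (nat_lit 58344) (nat_lit 0) (nat_lit 20368) (XT.nd (nat_lit 57798) (nat_lit 0) (nat_lit 27436) (XT.nd (nat_lit 234) (nat_lit 304) (nat_lit 0) (XT.nd (nat_lit 78) (nat_lit 684) (nat_lit 0) (XT.lf (nat_lit 0) (nat_lit 12617792134) (nat_lit 456) (nat_lit 21103258171) (nat_lit 76) (nat_lit 10224635926) (nat_lit 139) (nat_lit 5) (nat_lit 145) (nat_lit 5) (nat_lit 140) (nat_lit 5) (nat_lit 508) (nat_lit 444) (nat_lit 248)) (XT.nd (nat_lit 78) (nat_lit 380) (nat_lit 0) (XT.lf (nat_lit 0) (nat_lit 19681305156) (nat_lit 304) (nat_lit 9471415055) (nat_lit 380) (nat_lit 15614450727) (nat_lit 135) (nat_lit 5) (nat_lit 139) (nat_lit 5) (nat_lit 140) (nat_lit 5) (nat_lit 509) (nat_lit 444) (nat_lit 247)) (XT.lf (nat_lit 0) (nat_lit 912370292) (nat_lit 380) (nat_lit 29137324025) (nat_lit 76) (nat_lit 15556542758) (nat_lit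 130) (nat_lit 5) (nat_lit 135) (nat_lit 5) (nat_lit 131) (nat_lit 5) (nat_lit 510) (nat_lit 444) (nat_lit 246)))) (XT.nd (nat_lit 57408) (nat_lit 0) (nat_lit 28880) (XT.nd (nat_lit 57330) (nat_lit 0) (nat_lit 28880) (XT.lf (nat_lit 0) (nat_lit 13142937272) (nat_lit 304) (nat_lit 4896537062) (nat_lit 380) (nat_lit 28422604337) (nat_lit 126) (nat_lit 5) (nat_lit 130) (nat_lit 5) (nat_lit 131) (nat_lit 5) (nat_lit 511) (nat_lit 444) (nat_lit 245)) (XT.lf (nat_lit 0) (nat_lit 2536256857) (nat_lit 0) (nat_lit 2536256857) (nat_lit 1748) (nat_lit 2697689798) (nat_lit 506) (nat_lit 5) (nat_lit 506) (nat_lit 3) (nat_lit 529) (nat_lit 3) (nat_lit 445) (nat_lit 445) (nat_lit 310))) (XT.nd (nat_lit 78) (nat_lit 0) (nat_lit 76) (XT.lf (nat_lit 76) (nat_lit 1116634412) (nat_lit 0) (nat_lit 9641867273) (nat_lit 1824) (nat_lit 5005772608) (nat_lit 507) (nat_lit 5) (nat_lit 506) (nat_lit 5) (nat_lit 530) (nat_lit 5)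 (nat_lit 446) (nat_lit 445) (nat_lit 309)) (XT.lf (nat_lit 0) (nat_lit 11489703553) (nat_lit 1748) (nat_lit 2854884592) (nat_lit 1824) (nat_lit 1648283471) (nat_lit 507) (nat_lit 5) (nat_lit 530) (nat_lit 5) (nat_lit 531) (nat_lit 5) (nat_lit 447) (nat_lit 445) (nat_lit 308))))) (XT.nd (nat_lit 234) (nat_lit 1520) (nat_lit 0) (XT.nd (nat_lit 78) (nat_lit 0) (nat_lit 76) (XT.lf (nat_lit 76) (nat_lit 9341007017) (nat_lit 0) (nat_lit 3011326926) (nat_lit 1824) (nat_lit 3873803553) (nat_lit 508) (nat_lit 5) (nat_lit 507) (nat_lit 5) (nat_lit 531) (nat_lit 5) (nat_lit 448) (nat_lit 445) (nat_lit 307)) (XT.nd (nat_lit 78) (nat_lit 0) (nat_lit 76) (XT.lf (nat_lit 76) (nat_lit 5482491985) (nat_lit 0) (nat_lit 7854468446) (nat_lit 1824) (nat_lit 3127519050) (nat_lit 509) (nat_lit 5) (nat_lit 508) (nat_lit 5) (nat_lit 532) (nat_lit 5) (nat_lit 449) (nat_lit 445) (nat_lit 306)) (XT.lf (nat_lit 76) (nat_lit 1572721241)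 (nat_lit 0) (nat_lit 12865683953) (nat_lit 1824) (nat_lit 2269821402) (nat_lit 510) (nat_lit 5) (nat_lit 509) (nat_lit 5) (nat_lit 533) (nat_lit 5) (nat_lit 450) (nat_lit 445) (nat_lit 305)))) (XT.nd (nat_lit 156) (nat_lit 1672) (nat_lit 0) (XT.nd (nat_lit 78) (nat_lit 0) (nat_lit 76) (XT.lf (nat_lit 76) (nat_lit 14592241669) (nat_lit 0) (nat_lit 1092855509) (nat_lit 1824) (nat_lit 1271945314) (nat_lit 510) (nat_lit 5) (nat_lit 509) (nat_lit 5) (nat_lit 533) (nat_lit 5) (nat_lit 451) (nat_lit 445) (nat_lit 304)) (XT.lf (nat_lit 76) (nat_lit 10850716634) (nat_lit 0) (nat_lit 6246617340) (nat_lit 1824) (nat_lit 113426442) (nat_lit 511) (nat_lit 5) (nat_lit 510) (nat_lit 5) (nat_lit 534) (nat_lit 5) (nat_lit 452) (nat_lit 445) (nat_lit 303))) (XT.nd (nat_lit 78) (nat_lit 0) (nat_lit 76) (XT.lf (nat_lit 0) (nat_lit 1160264295) (nat_lit 1824) (nat_lit 10416724571) (nat_lit 1900) (nat_lit 5893069630) (nat_lit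 487) (nat_lit 5) (nat_lit 511) (nat_lit 5) (nat_lit 512) (nat_lit 5) (nat_lit 453) (nat_lit 445) (nat_lit 302)) (XT.lf (nat_lit 0) (nat_lit 2567518326) (nat_lit 1824) (nat_lit 14529456231) (nat_lit 1900) (nat_lit 638208493) (nat_lit 488) (nat_lit 5) (nat_lit 512) (nat_lit 5) (nat_lit 513) (nat_lit 5) (nat_lit 454) (nat_lit 445) (nat_lit 301)))))) (XT.nd (nat_lit 546) (nat_lit 7144) (nat_lit 0) (XT.nd (nat_lit 234) (nat_lit 0) (nat_lit 152) (XT.nd (nat_lit 78) (nat_lit 0) (nat_lit 76) (XT.lf (nat_lit 0) (nat_lit 4152507392) (nat_lit 1824) (nat_lit 714606176) (nat_lit 1900) (nat_lit 13138437814) (nat_lit 488) (nat_lit 5) (nat_lit 512) (nat_lit 5) (nat_lit 513) (nat_lit 5) (nat_lit 455) (nat_lit 445) (nat_lit 300)) (XT.nd (nat_lit 78) (nat_lit 0) (nat_lit 76) (XT.lf (nat_lit 0) (nat_lit 5912116421) (nat_lit 1824) (nat_lit 4648165809) (nat_lit 1900) (nat_lit 7721207505) (nat_lit 489) (nat_lit 5) (nat_lit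 513) (nat_lit 5) (nat_lit 514) (nat_lit 5) (nat_lit 456) (nat_lit 445) (nat_lit 299)) (XT.lf (nat_lit 0) (nat_lit 7828085214) (nat_lit 1824) (nat_lit 8633191252) (nat_lit 1900) (nat_lit 2102358708) (nat_lit 490) (nat_lit 5) (nat_lit 514) (nat_lit 5) (nat_lit 515) (nat_lit 5) (nat_lit 457) (nat_lit 445) (nat_lit 298)))) (XT.nd (nat_lit 156) (nat_lit 0) (nat_lit 152) (XT.nd (nat_lit 78) (nat_lit 0) (nat_lit 76) (XT.lf (nat_lit 76) (nat_lit 6157076796) (nat_lit 0) (nat_lit 3774827376) (nat_lit 1900) (nat_lit 8919733738) (nat_lit 491) (nat_lit 5) (nat_lit 490) (nat_lit 5) (nat_lit 515) (nat_lit 5) (nat_lit 458) (nat_lit 445) (nat_lit 297)) (XT.lf (nat_lit 76) (nat_lit 2322490360) (nat_lit 0) (nat_lit 9899019082) (nat_lit 1900) (nat_lit 6924318196) (nat_lit 492) (nat_lit 5) (nat_lit 491) (nat_lit 5) (nat_lit 516) (nat_lit 5) (nat_lit 459) (nat_lit 445) (nat_lit 296))) (XT.nd (nat_lit 78) (nat_lit 0) (nat_lit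 0) (XT.lf (nat_lit 0) (nat_lit 14700652365) (nat_lit 1824) (nat_lit 1538920555) (nat_lit 1900) (nat_lit 3206853484) (nat_lit 492) (nat_lit 5) (nat_lit 516) (nat_lit 5) (nat_lit 517) (nat_lit 5) (nat_lit 460) (nat_lit 445) (nat_lit 295)) (XT.lf (nat_lit 76) (nat_lit 14316412492) (nat_lit 0) (nat_lit 3085903405) (nat_lit 1900) (nat_lit 2350764634) (nat_lit 493) (nat_lit 5) (nat_lit 492) (nat_lit 5) (nat_lit 517) (nat_lit 5) (nat_lit 461) (nat_lit 445) (nat_lit 294))))) (XT.nd (nat_lit 312) (nat_lit 3572) (nat_lit 0) (XT.nd (nat_lit 156) (nat_lit 912) (nat_lit 0) (XT.nd (nat_lit 78) (nat_lit 1140) (nat_lit 0) (XT.lf (nat_lit 0) (nat_lit 252400317) (nat_lit 1900) (nat_lit 9405528020) (nat_lit 76) (nat_lit 10408234621) (nat_lit 468) (nat_lit 5) (nat_lit 493) (nat_lit 5) (nat_lit 469) (nat_lit 5) (nat_lit 462) (nat_lit 445) (nat_lit 293)) (XT.lf (nat_lit 0) (nat_lit 3020183326) (nat_lit 1216) (nat_lit 13439329322)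 (nat_lit 76) (nat_lit 3926445524) (nat_lit 453) (nat_lit 5) (nat_lit 469) (nat_lit 5) (nat_lit 454) (nat_lit 5) (nat_lit 463) (nat_lit 445) (nat_lit 292))) (XT.nd (nat_lit 78) (nat_lit 0) (nat_lit 0) (XT.lf (nat_lit 0) (nat_lit 3171294300) (nat_lit 912) (nat_lit 2838747688) (nat_lit 988) (nat_lit 14702524704) (nat_lit 441) (nat_lit 5) (nat_lit 453) (nat_lit 5) (nat_lit 454) (nat_lit 5) (nat_lit 464) (nat_lit 445) (nat_lit 291)) (XT.lf (nat_lit 0) (nat_lit 9243880048) (nat_lit 988) (nat_lit 665583092) (nat_lit 76) (nat_lit 11136424938) (nat_lit 441) (nat_lit 5) (nat_lit 454) (nat_lit 5) (nat_lit 442) (nat_lit 5) (nat_lit 465) (nat_lit 445) (nat_lit 290)))) (XT.nd (nat_lit 156) (nat_lit 1824) (nat_lit 0) (XT.nd (nat_lit 78) (nat_lit 836) (nat_lit 0) (XT.lf (nat_lit 0) (nat_lit 12721130731) (nat_lit 988) (nat_lit 4504126769) (nat_lit 76) (nat_lit 4161023930) (nat_lit 429) (nat_lit 5) (nat_lit 442) (nat_lit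 5) (nat_lit 430) (nat_lit 5) (nat_lit 466) (nat_lit 445) (nat_lit 289)) (XT.lf (nat_lit 0) (nat_lit 13327997682) (nat_lit 836) (nat_lit 3122521168) (nat_lit 912) (nat_lit 5283411601) (nat_lit 418) (nat_lit 5) (nat_lit 429) (nat_lit 5) (nat_lit 430) (nat_lit 5) (nat_lit 467) (nat_lit 445) (nat_lit 288))) (XT.nd (nat_lit 78) (nat_lit 912) (nat_lit 0) (XT.lf (nat_lit 0) (nat_lit 9709257916) (nat_lit 912) (nat_lit 10741028608) (nat_lit 988) (nat_lit 1638552722) (nat_lit 406) (nat_lit 5) (nat_lit 418) (nat_lit 5) (nat_lit 419) (nat_lit 5) (nat_lit 468) (nat_lit 445) (nat_lit 287)) (XT.lf (nat_lit 0) (nat_lit 2221471660) (nat_lit 912) (nat_lit 16411964855) (nat_lit 76) (nat_lit 3818012973) (nat_lit 394) (nat_lit 5) (nat_lit 406) (nat_lit 5) (nat_lit 395) (nat_lit 5) (nat_lit 469) (nat_lit 445) (nat_lit 286))))))) (XT.nd (nat_lit 1170) (nat_lit 6536) (nat_lit 0) (XT.nd (nat_lit 546) (nat_lit 4636) (nat_lit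 0) (XT.nd (nat_lit 234) (nat_lit 3040) (nat_lit 0) (XT.nd (nat_lit 78) (nat_lit 760) (nat_lit 0) (XT.lf (nat_lit 0) (nat_lit 2294886057) (nat_lit 836) (nat_lit 4042506718) (nat_lit 912) (nat_lit 16484081735) (nat_lit 383) (nat_lit 5) (nat_lit 394) (nat_lit 5) (nat_lit 395) (nat_lit 5) (nat_lit 470) (nat_lit 445) (nat_lit 285)) (XT.nd (nat_lit 78) (nat_lit 760) (nat_lit 0) (XT.lf (nat_lit 0) (nat_lit 10751327131) (nat_lit 912) (nat_lit 1494058440) (nat_lit 76) (nat_lit 10953724232) (nat_lit 383) (nat_lit 5) (nat_lit 395) (nat_lit 5) (nat_lit 384) (nat_lit 5) (nat_lit 471) (nat_lit 445) (nat_lit 284)) (XT.lf (nat_lit 0) (nat_lit 15453819021) (nat_lit 836) (nat_lit 5290354698) (nat_lit 76) (nat_lit 2840777872) (nat_lit 373) (nat_lit 5) (nat_lit 384) (nat_lit 5) (nat_lit 374) (nat_lit 5) (nat_lit 472) (nat_lit 445) (nat_lit 283)))) (XT.nd (nat_lit 156) (nat_lit 1444) (nat_lit 0) (XT.nd (nat_lit 78) (nat_lit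 836) (nat_lit 0) (XT.lf (nat_lit 0) (nat_lit 14818629992) (nat_lit 760) (nat_lit 5658748241) (nat_lit 836) (nat_lit 3501390767) (nat_lit 363) (nat_lit 5) (nat_lit 373) (nat_lit 5) (nat_lit 374) (nat_lit 5) (nat_lit 473) (nat_lit 445) (nat_lit 282)) (XT.lf (nat_lit 0) (nat_lit 1417157026) (nat_lit 836) (nat_lit 13096023271) (nat_lit 76) (nat_lit 9867725611) (nat_lit 352) (nat_lit 5) (nat_lit 363) (nat_lit 5) (nat_lit 353) (nat_lit 5) (nat_lit 474) (nat_lit 445) (nat_lit 281))) (XT.nd (nat_lit 78) (nat_lit 684) (nat_lit 0) (XT.lf (nat_lit 0) (nat_lit 6585637073) (nat_lit 836) (nat_lit 17093878812) (nat_lit 76) (nat_lit 1112129437) (nat_lit 342) (nat_lit 5) (nat_lit 353) (nat_lit 5) (nat_lit 343) (nat_lit 5) (nat_lit 475) (nat_lit 445) (nat_lit 280)) (XT.lf (nat_lit 0) (nat_lit 4027944538) (nat_lit 684) (nat_lit 8085940258) (nat_lit 760) (nat_lit 13096728053) (nat_lit 333) (nat_lit 5) (nat_lit 342) (nat_lit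 5) (nat_lit 343) (nat_lit 5) (nat_lit 476) (nat_lit 445) (nat_lit 279))))) (XT.nd (nat_lit 312) (nat_lit 2508) (nat_lit 0) (XT.nd (nat_lit 156) (nat_lit 1444) (nat_lit 0) (XT.nd (nat_lit 78) (nat_lit 0) (nat_lit 0) (XT.lf (nat_lit 0) (nat_lit 320287052) (nat_lit 684) (nat_lit 17650492990) (nat_lit 760) (nat_lit 7668113551) (nat_lit 324) (nat_lit 5) (nat_lit 333) (nat_lit 5) (nat_lit 334) (nat_lit 5) (nat_lit 477) (nat_lit 445) (nat_lit 278)) (XT.lf (nat_lit 0) (nat_lit 22694696746) (nat_lit 684) (nat_lit 1498448513) (nat_lit 760) (nat_lit 1883082420) (nat_lit 324) (nat_lit 5) (nat_lit 333) (nat_lit 5) (nat_lit 334) (nat_lit 5) (nat_lit 478) (nat_lit 445) (nat_lit 277))) (XT.nd (nat_lit 78) (nat_lit 684) (nat_lit 0) (XT.lf (nat_lit 0) (nat_lit 4240186877) (nat_lit 760) (nat_lit 7189630561) (nat_lit 76) (nat_lit 15091972549) (nat_lit 314) (nat_lit 5) (nat_lit 324) (nat_lit 5) (nat_lit 315) (nat_lit 5)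 (nat_lit 479) (nat_lit 445) (nat_lit 276)) (XT.lf (nat_lit 0) (nat_lit 10685864808) (nat_lit 760) (nat_lit 11041057684) (nat_lit 76) (nat_lit 5250262015) (nat_lit 305) (nat_lit 5) (nat_lit 315) (nat_lit 5) (nat_lit 306) (nat_lit 5) (nat_lit 480) (nat_lit 445) (nat_lit 275)))) (XT.nd (nat_lit 156) (nat_lit 1292) (nat_lit 0) (XT.nd (nat_lit 78) (nat_lit 608) (nat_lit 0) (XT.lf (nat_lit 0) (nat_lit 12487195680) (nat_lit 608) (nat_lit 5037238747) (nat_lit 684) (nat_lit 9917816174) (nat_lit 297) (nat_lit 5) (nat_lit 305) (nat_lit 5) (nat_lit 306) (nat_lit 5) (nat_lit 481) (nat_lit 445) (nat_lit 274)) (XT.lf (nat_lit 0) (nat_lit 8982452789) (nat_lit 608) (nat_lit 15791355240) (nat_lit 684) (nat_lit 3143347872) (nat_lit 289) (nat_lit 5) (nat_lit 297) (nat_lit 5) (nat_lit 298) (nat_lit 5) (nat_lit 482) (nat_lit 445) (nat_lit 273))) (XT.nd (nat_lit 78) (nat_lit 608) (nat_lit 0) (XT.lf (nat_lit 0) (nat_lit 3958004260)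 (nat_lit 684) (nat_lit 22970150613) (nat_lit 76) (nat_lit 1474176977) (nat_lit 280) (nat_lit 5) (nat_lit 289) (nat_lit 5) (nat_lit 281) (nat_lit 5) (nat_lit 483) (nat_lit 445) (nat_lit 272)) (XT.lf (nat_lit 0) (nat_lit 1777046639) (nat_lit 608) (nat_lit 9692526821) (nat_lit 684) (nat_lit 17427276571) (nat_lit 272) (nat_lit 5) (nat_lit 280) (nat_lit 5) (nat_lit 281) (nat_lit 5) (nat_lit 484) (nat_lit 445) (nat_lit 271)))))) (XT.nd (nat_lit 546) (nat_lit 3192) (nat_lit 0) (XT.nd (nat_lit 234) (nat_lit 2128) (nat_lit 0) (XT.nd (nat_lit 78) (nat_lit 1216) (nat_lit 0) (XT.lf (nat_lit 0) (nat_lit 19408972756) (nat_lit 684) (nat_lit 1883895955) (nat_lit 76) (nat_lit 8109285531) (nat_lit 272) (nat_lit 5) (nat_lit 281) (nat_lit 5) (nat_lit 273) (nat_lit 5) (nat_lit 485) (nat_lit 445) (nat_lit 270)) (XT.nd (nat_lit 78) (nat_lit 684) (nat_lit 0) (XT.lf (nat_lit 0) (nat_lit 24355423101) (nat_lit 532) (nat_lit 3447738227)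 (nat_lit 608) (nat_lit 2115124246) (nat_lit 265) (nat_lit 5) (nat_lit 272) (nat_lit 5) (nat_lit 273) (nat_lit 5) (nat_lit 486) (nat_lit 445) (nat_lit 269)) (XT.lf (nat_lit 0) (nat_lit 6162957412) (nat_lit 684) (nat_lit 9355734269) (nat_lit 76) (nat_lit 14925582987) (nat_lit 256) (nat_lit 5) (nat_lit 265) (nat_lit 5) (nat_lit 257) (nat_lit 5) (nat_lit 487) (nat_lit 445) (nat_lit 268)))) (XT.nd (nat_lit 156) (nat_lit 1064) (nat_lit 0) (XT.nd (nat_lit 78) (nat_lit 532) (nat_lit 0) (XT.lf (nat_lit 0) (nat_lit 14850758398) (nat_lit 608) (nat_lit 13183360303) (nat_lit 76) (nat_lit 2947842984) (nat_lit 249) (nat_lit 5) (nat_lit 257) (nat_lit 5) (nat_lit 250) (nat_lit 5) (nat_lit 488) (nat_lit 445) (nat_lit 267)) (XT.lf (nat_lit 0) (nat_lit 14438104140) (nat_lit 532) (nat_lit 9616406568) (nat_lit 608) (nat_lit 7476162384) (nat_lit 242) (nat_lit 5) (nat_lit 249) (nat_lit 5) (nat_lit 250) (nat_lit 5) (nat_lit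 489) (nat_lit 445) (nat_lit 266))) (XT.nd (nat_lit 78) (nat_lit 532) (nat_lit 0) (XT.lf (nat_lit 0) (nat_lit 1637585871) (nat_lit 532) (nat_lit 21052223913) (nat_lit 76) (nat_lit 9401490926) (nat_lit 235) (nat_lit 5) (nat_lit 242) (nat_lit 5) (nat_lit 236) (nat_lit 5) (nat_lit 490) (nat_lit 445) (nat_lit 265)) (XT.lf (nat_lit 0) (nat_lit 7558171613) (nat_lit 532) (nat_lit 3589724677) (nat_lit 608) (nat_lit 21515368204) (nat_lit 228) (nat_lit 5) (nat_lit 235) (nat_lit 5) (nat_lit 236) (nat_lit 5) (nat_lit 491) (nat_lit 445) (nat_lit 264))))) (XT.nd (nat_lit 312) (nat_lit 1748) (nat_lit 0) (XT.nd (nat_lit 156) (nat_lit 532) (nat_lit 0) (XT.nd (nat_lit 78) (nat_lit 456) (nat_lit 0) (XT.lf (nat_lit 0) (nat_lit 4004605502) (nat_lit 456) (nat_lit 17207208721) (nat_lit 532) (nat_lit 12035207119) (nat_lit 222) (nat_lit 5) (nat_lit 228) (nat_lit 5) (nat_lit 229) (nat_lit 5) (nat_lit 492) (nat_lit 445) (nat_lit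 263)) (XT.lf (nat_lit 0) (nat_lit 443836143) (nat_lit 456) (nat_lit 31341497064) (nat_lit 532) (nat_lit 2058804127) (nat_lit 216) (nat_lit 5) (nat_lit 222) (nat_lit 5) (nat_lit 223) (nat_lit 5) (nat_lit 493) (nat_lit 445) (nat_lit 262))) (XT.nd (nat_lit 78) (nat_lit 456) (nat_lit 0) (XT.lf (nat_lit 0) (nat_lit 8418114173) (nat_lit 532) (nat_lit 3211955618) (nat_lit 76) (nat_lit 22821850347) (nat_lit 215) (nat_lit 5) (nat_lit 222) (nat_lit 5) (nat_lit 216) (nat_lit 5) (nat_lit 494) (nat_lit 445) (nat_lit 261)) (XT.lf (nat_lit 0) (nat_lit 19417030654) (nat_lit 532) (nat_lit 6900914078) (nat_lit 76) (nat_lit 8755006386) (nat_lit 209) (nat_lit 5) (nat_lit 216) (nat_lit 5) (nat_lit 210) (nat_lit 5) (nat_lit 495) (nat_lit 445) (nat_lit 260)))) (XT.nd (nat_lit 156) (nat_lit 836) (nat_lit 0) (XT.nd (nat_lit 78) (nat_lit 456) (nat_lit 0) (XT.lf (nat_lit 0) (nat_lit 25072547502) (nat_lit 456) (nat_lit 5930542514)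 (nat_lit 532) (nat_lit 4704379604) (nat_lit 203) (nat_lit 5) (nat_lit 209) (nat_lit 5) (nat_lit 210) (nat_lit 5) (nat_lit 496) (nat_lit 445) (nat_lit 259)) (XT.lf (nat_lit 0) (nat_lit 6773360633) (nat_lit 456) (nat_lit 14478667182) (nat_lit 76) (nat_lit 15102464183) (nat_lit 197) (nat_lit 5) (nat_lit 203) (nat_lit 5) (nat_lit 198) (nat_lit 5) (nat_lit 497) (nat_lit 445) (nat_lit 258))) (XT.nd (nat_lit 78) (nat_lit 380) (nat_lit 0) (XT.lf (nat_lit 0) (nat_lit 18653419231) (nat_lit 456) (nat_lit 106638885) (nat_lit 532) (nat_lit 18255674321) (nat_lit 191) (nat_lit 5) (nat_lit 197) (nat_lit 5) (nat_lit 198) (nat_lit 5) (nat_lit 498) (nat_lit 445) (nat_lit 257)) (XT.lf (nat_lit 0) (nat_lit 15334991436) (nat_lit 380) (nat_lit 16105354588) (nat_lit 456) (nat_lit 6249784364) (nat_lit 186) (nat_lit 5) (nat_lit 191) (nat_lit 5) (nat_lit 192) (nat_lit 5) (nat_lit 499) (nat_lit 445) (nat_lit 256))))))))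
noncomputable def xc95 : XT := (XT.nd (nat_lit 59592) (nat_lit 0) (nat_lit 7448) (XT.nd (nat_lit 58422) (nat_lit 0) (nat_lit 27056) (XT.nd (nat_lit 546) (nat_lit 1824) (nat_lit 0) (XT.nd (nat_lit 234) (nat_lit 1216) (nat_lit 0) (XT.nd (nat_lit 78) (nat_lit 760) (nat_lit 0) (XT.lf (nat_lit 0) (nat_lit 6272661350) (nat_lit 456) (nat_lit 26396365060) (nat_lit 76) (nat_lit 5710207829) (nat_lit 180) (nat_lit 5) (nat_lit 186) (nat_lit 5) (nat_lit 181) (nat_lit 5) (nat_lit 500) (nat_lit 445) (nat_lit 255)) (XT.nd (nat_lit 78) (nat_lit 380) (nat_lit 0) (XT.lf (nat_lit 0) (nat_lit 8524866229) (nat_lit 380) (nat_lit 10872123117) (nat_lit 456) (nat_lit 19684973339) (nat_lit 175) (nat_lit 5) (nat_lit 180) (nat_lit 5) (nat_lit 181) (nat_lit 5) (nat_lit 501) (nat_lit 445) (nat_lit 254)) (XT.lf (nat_lit 0) (nat_lit 5035099357) (nat_lit 380) (nat_lit 28163042436) (nat_lit 456) (nat_lit 6601969380) (nat_lit 170) (nat_lit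 5) (nat_lit 175) (nat_lit 5) (nat_lit 176) (nat_lit 5) (nat_lit 502) (nat_lit 445) (nat_lit 253)))) (XT.nd (nat_lit 156) (nat_lit 760) (nat_lit 0) (XT.nd (nat_lit 78) (nat_lit 0) (nat_lit 0) (XT.lf (nat_lit 0) (nat_lit 1470878839) (nat_lit 380) (nat_lit 5598424720) (nat_lit 456) (nat_lit 33463889555) (nat_lit 164) (nat_lit 5) (nat_lit 169) (nat_lit 5) (nat_lit 170) (nat_lit 5) (nat_lit 503) (nat_lit 445) (nat_lit 252)) (XT.lf (nat_lit 0) (nat_lit 21408529703) (nat_lit 456) (nat_lit 2181434343) (nat_lit 76) (nat_lit 17690480562) (nat_lit 164) (nat_lit 5) (nat_lit 170) (nat_lit 5) (nat_lit 165) (nat_lit 5) (nat_lit 504) (nat_lit 445) (nat_lit 251))) (XT.nd (nat_lit 78) (nat_lit 380) (nat_lit 0) (XT.lf (nat_lit 0) (nat_lit 36236563185) (nat_lit 380) (nat_lit 209525907) (nat_lit 456) (nat_lit 5598661498) (nat_lit 159) (nat_lit 5) (nat_lit 164) (nat_lit 5) (nat_lit 165) (nat_lit 5) (nat_lit 505) (nat_lit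 445) (nat_lit 250)) (XT.lf (nat_lit 0) (nat_lit 9367395195) (nat_lit 380) (nat_lit 9606415276) (nat_lit 76) (nat_lit 23849313511) (nat_lit 154) (nat_lit 5) (nat_lit 159) (nat_lit 5) (nat_lit 155) (nat_lit 5) (nat_lit 506) (nat_lit 445) (nat_lit 249))))) (XT.nd (nat_lit 234) (nat_lit 684) (nat_lit 0) (XT.nd (nat_lit 78) (nat_lit 760) (nat_lit 0) (XT.lf (nat_lit 0) (nat_lit 24973861743) (nat_lit 456) (nat_lit 13435729764) (nat_lit 76) (nat_lit 5209167154) (nat_lit 149) (nat_lit 5) (nat_lit 155) (nat_lit 5) (nat_lit 150) (nat_lit 5) (nat_lit 507) (nat_lit 445) (nat_lit 248)) (XT.nd (nat_lit 78) (nat_lit 456) (nat_lit 0) (XT.lf (nat_lit 0) (nat_lit 27081575768) (nat_lit 304) (nat_lit 14330831466) (nat_lit 380) (nat_lit 3018577509) (nat_lit 145) (nat_lit 5) (nat_lit 149) (nat_lit 5) (nat_lit 150) (nat_lit 5) (nat_lit 508) (nat_lit 445) (nat_lit 247)) (XT.lf (nat_lit 0) (nat_lit 13218061510) (nat_lit 456)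 (nat_lit 21376890747) (nat_lit 76) (nat_lit 10664666761) (nat_lit 139) (nat_lit 5) (nat_lit 145) (nat_lit 5) (nat_lit 140) (nat_lit 5) (nat_lit 509) (nat_lit 445) (nat_lit 246)))) (XT.nd (nat_lit 57486) (nat_lit 0) (nat_lit 28576) (XT.nd (nat_lit 78) (nat_lit 380) (nat_lit 0) (XT.lf (nat_lit 0) (nat_lit 20625377585) (nat_lit 304) (nat_lit 9619497548) (nat_lit 380) (nat_lit 15860956469) (nat_lit 135) (nat_lit 5) (nat_lit 139) (nat_lit 5) (nat_lit 140) (nat_lit 5) (nat_lit 510) (nat_lit 445) (nat_lit 245)) (XT.lf (nat_lit 0) (nat_lit 1155538806) (nat_lit 380) (nat_lit 29657262305) (nat_lit 76) (nat_lit 16157304273) (nat_lit 130) (nat_lit 5) (nat_lit 135) (nat_lit 5) (nat_lit 131) (nat_lit 5) (nat_lit 511) (nat_lit 445) (nat_lit 244))) (XT.nd (nat_lit 78) (nat_lit 0) (nat_lit 0) (XT.lf (nat_lit 0) (nat_lit 2817264438) (nat_lit 0) (nat_lit 2817264438) (nat_lit 1748) (nat_lit 2360571212) (nat_lit 506) (nat_lit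 5) (nat_lit 506) (nat_lit 3) (nat_lit 529) (nat_lit 3) (nat_lit 446) (nat_lit 446) (nat_lit 308)) (XT.lf (nat_lit 76) (nat_lit 1572094493) (nat_lit 0) (nat_lit 10305123787) (nat_lit 1824) (nat_lit 4344040284) (nat_lit 507) (nat_lit 5) (nat_lit 506) (nat_lit 5) (nat_lit 530) (nat_lit 5) (nat_lit 447) (nat_lit 446) (nat_lit 307)))))) (XT.nd (nat_lit 546) (nat_lit 0) (nat_lit 152) (XT.nd (nat_lit 234) (nat_lit 1596) (nat_lit 0) (XT.nd (nat_lit 78) (nat_lit 0) (nat_lit 0) (XT.lf (nat_lit 0) (nat_lit 12604815324) (nat_lit 1748) (nat_lit 2513023104) (nat_lit 1824) (nat_lit 1339386915) (nat_lit 507) (nat_lit 5) (nat_lit 530) (nat_lit 5) (nat_lit 531) (nat_lit 5) (nat_lit 448) (nat_lit 446) (nat_lit 306)) (XT.nd (nat_lit 78) (nat_lit 0) (nat_lit 76) (XT.lf (nat_lit 76) (nat_lit 10041809443) (nat_lit 0) (nat_lit 3431806379) (nat_lit 1824) (nat_lit 3224268252) (nat_lit 508) (nat_lit 5) (nat_lit 507) (nat_lit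 5) (nat_lit 531) (nat_lit 5) (nat_lit 449) (nat_lit 446) (nat_lit 305)) (XT.lf (nat_lit 76) (nat_lit 6077617965) (nat_lit 0) (nat_lit 8389012765) (nat_lit 1824) (nat_lit 2477169275) (nat_lit 509) (nat_lit 5) (nat_lit 508) (nat_lit 5) (nat_lit 532) (nat_lit 5) (nat_lit 450) (nat_lit 446) (nat_lit 304)))) (XT.nd (nat_lit 156) (nat_lit 1748) (nat_lit 0) (XT.nd (nat_lit 78) (nat_lit 0) (nat_lit 0) (XT.lf (nat_lit 76) (nat_lit 2059853300) (nat_lit 0) (nat_lit 13520988425) (nat_lit 1824) (nat_lit 1614424011) (nat_lit 510) (nat_lit 5) (nat_lit 509) (nat_lit 5) (nat_lit 533) (nat_lit 5) (nat_lit 451) (nat_lit 446) (nat_lit 303)) (XT.lf (nat_lit 76) (nat_lit 15457145251) (nat_lit 0) (nat_lit 1387130449) (nat_lit 1824) (nat_lit 607684224) (nat_lit 510) (nat_lit 5) (nat_lit 509) (nat_lit 5) (nat_lit 533) (nat_lit 5) (nat_lit 452) (nat_lit 446) (nat_lit 302))) (XT.nd (nat_lit 78) (nat_lit 0) (nat_lit 76) (XT.lf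 (nat_lit 0) (nat_lit 558906298) (nat_lit 1824) (nat_lit 6105659630) (nat_lit 1900) (nat_lit 11049028103) (nat_lit 486) (nat_lit 5) (nat_lit 510) (nat_lit 5) (nat_lit 511) (nat_lit 5) (nat_lit 453) (nat_lit 446) (nat_lit 301)) (XT.lf (nat_lit 0) (nat_lit 1851047625) (nat_lit 1824) (nat_lit 10277412252) (nat_lit 1900) (nat_lit 5852561154) (nat_lit 487) (nat_lit 5) (nat_lit 511) (nat_lit 5) (nat_lit 512) (nat_lit 5) (nat_lit 454) (nat_lit 446) (nat_lit 300))))) (XT.nd (nat_lit 312) (nat_lit 0) (nat_lit 152) (XT.nd (nat_lit 156) (nat_lit 0) (nat_lit 76) (XT.nd (nat_lit 78) (nat_lit 0) (nat_lit 0) (XT.lf (nat_lit 0) (nat_lit 3283031251) (nat_lit 1824) (nat_lit 14506773936) (nat_lit 1900) (nat_lit 464644471) (nat_lit 488) (nat_lit 5) (nat_lit 512) (nat_lit 5) (nat_lit 513) (nat_lit 5) (nat_lit 455) (nat_lit 446) (nat_lit 299)) (XT.lf (nat_lit 0) (nat_lit 4896973269) (nat_lit 1824) (nat_lit 290834669) (nat_lit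 1900) (nat_lit 13345493592) (nat_lit 488) (nat_lit 5) (nat_lit 512) (nat_lit 5) (nat_lit 513) (nat_lit 5) (nat_lit 456) (nat_lit 446) (nat_lit 298))) (XT.nd (nat_lit 78) (nat_lit 0) (nat_lit 76) (XT.lf (nat_lit 0) (nat_lit 6693076922) (nat_lit 1824) (nat_lit 4336430186) (nat_lit 1900) (nat_lit 7788337339) (nat_lit 489) (nat_lit 5) (nat_lit 513) (nat_lit 5) (nat_lit 514) (nat_lit 5) (nat_lit 457) (nat_lit 446) (nat_lit 297)) (XT.lf (nat_lit 0) (nat_lit 8650884442) (nat_lit 1824) (nat_lit 8435589100) (nat_lit 1900) (nat_lit 2022294040) (nat_lit 490) (nat_lit 5) (nat_lit 514) (nat_lit 5) (nat_lit 515) (nat_lit 5) (nat_lit 458) (nat_lit 446) (nat_lit 296)))) (XT.nd (nat_lit 156) (nat_lit 0) (nat_lit 152) (XT.nd (nat_lit 78) (nat_lit 0) (nat_lit 76) (XT.lf (nat_lit 76) (nat_lit 6790979231) (nat_lit 0) (nat_lit 4012630225) (nat_lit 1900) (nat_lit 8602085624) (nat_lit 491) (nat_lit 5) (nat_lit 490) (nat_lit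 5) (nat_lit 515) (nat_lit 5) (nat_lit 459) (nat_lit 446) (nat_lit 295)) (XT.lf (nat_lit 76) (nat_lit 2846168743) (nat_lit 0) (nat_lit 10301185566) (nat_lit 1900) (nat_lit 6561647659) (nat_lit 492) (nat_lit 5) (nat_lit 491) (nat_lit 5) (nat_lit 516) (nat_lit 5) (nat_lit 460) (nat_lit 446) (nat_lit 294))) (XT.nd (nat_lit 78) (nat_lit 0) (nat_lit 0) (XT.lf (nat_lit 0) (nat_lit 15683921044) (nat_lit 1824) (nat_lit 1132770528) (nat_lit 1900) (nat_lit 3202266614) (nat_lit 492) (nat_lit 5) (nat_lit 516) (nat_lit 5) (nat_lit 517) (nat_lit 5) (nat_lit 461) (nat_lit 446) (nat_lit 293)) (XT.lf (nat_lit 76) (nat_lit 15190884194) (nat_lit 0) (nat_lit 3262845725) (nat_lit 1900) (nat_lit 1881340576) (nat_lit 493) (nat_lit 5) (nat_lit 492) (nat_lit 5) (nat_lit 517) (nat_lit 5) (nat_lit 462) (nat_lit 446) (nat_lit 292))))))) (XT.nd (nat_lit 1170) (nat_lit 7980) (nat_lit 0) (XT.nd (nat_lit 546) (nat_lit 5548) (nat_lit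 0) (XT.nd (nat_lit 234) (nat_lit 2660) (nat_lit 0) (XT.nd (nat_lit 78) (nat_lit 2052) (nat_lit 0) (XT.lf (nat_lit 0) (nat_lit 779714887) (nat_lit 1900) (nat_lit 9232042570) (nat_lit 76) (nat_lit 10645980727) (nat_lit 468) (nat_lit 5) (nat_lit 493) (nat_lit 5) (nat_lit 469) (nat_lit 5) (nat_lit 463) (nat_lit 446) (nat_lit 291)) (XT.nd (nat_lit 78) (nat_lit 912) (nat_lit 0) (XT.lf (nat_lit 0) (nat_lit 3617918920) (nat_lit 1216) (nat_lit 13383700907) (nat_lit 76) (nat_lit 3985760110) (nat_lit 453) (nat_lit 5) (nat_lit 469) (nat_lit 5) (nat_lit 454) (nat_lit 5) (nat_lit 464) (nat_lit 446) (nat_lit 290)) (XT.lf (nat_lit 0) (nat_lit 3717797805) (nat_lit 912) (nat_lit 2967835316) (nat_lit 988) (nat_lit 14638390813) (nat_lit 441) (nat_lit 5) (nat_lit 453) (nat_lit 5) (nat_lit 454) (nat_lit 5) (nat_lit 465) (nat_lit 446) (nat_lit 289)))) (XT.nd (nat_lit 156) (nat_lit 1748) (nat_lit 0) (XT.nd (nat_lit 78) (nat_lit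 912) (nat_lit 0) (XT.lf (nat_lit 0) (nat_lit 10001783519) (nat_lit 988) (nat_lit 237424734) (nat_lit 76) (nat_lit 11428431171) (nat_lit 441) (nat_lit 5) (nat_lit 454) (nat_lit 5) (nat_lit 442) (nat_lit 5) (nat_lit 466) (nat_lit 446) (nat_lit 288)) (XT.lf (nat_lit 0) (nat_lit 13572030702) (nat_lit 988) (nat_lit 4188807172) (nat_lit 76) (nat_lit 4257633519) (nat_lit 429) (nat_lit 5) (nat_lit 442) (nat_lit 5) (nat_lit 430) (nat_lit 5) (nat_lit 467) (nat_lit 446) (nat_lit 287))) (XT.nd (nat_lit 78) (nat_lit 912) (nat_lit 0) (XT.lf (nat_lit 0) (nat_lit 14170973104) (nat_lit 836) (nat_lit 3231536548) (nat_lit 912) (nat_lit 4974256433) (nat_lit 418) (nat_lit 5) (nat_lit 429) (nat_lit 5) (nat_lit 430) (nat_lit 5) (nat_lit 468) (nat_lit 446) (nat_lit 286)) (XT.lf (nat_lit 0) (nat_lit 10445613087) (nat_lit 912) (nat_lit 11066096664) (nat_lit 988) (nat_lit 1230823976) (nat_lit 406) (nat_lit 5) (nat_lit 418) (nat_lit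 5) (nat_lit 419) (nat_lit 5) (nat_lit 469) (nat_lit 446) (nat_lit 285))))) (XT.nd (nat_lit 312) (nat_lit 3040) (nat_lit 0) (XT.nd (nat_lit 156) (nat_lit 760) (nat_lit 0) (XT.nd (nat_lit 78) (nat_lit 836) (nat_lit 0) (XT.lf (nat_lit 0) (nat_lit 2728777669) (nat_lit 912) (nat_lit 16451755968) (nat_lit 76) (nat_lit 3935634291) (nat_lit 394) (nat_lit 5) (nat_lit 406) (nat_lit 5) (nat_lit 395) (nat_lit 5) (nat_lit 470) (nat_lit 446) (nat_lit 284)) (XT.lf (nat_lit 0) (nat_lit 2808958096) (nat_lit 836) (nat_lit 4149274209) (nat_lit 912) (nat_lit 16539260623) (nat_lit 383) (nat_lit 5) (nat_lit 394) (nat_lit 5) (nat_lit 395) (nat_lit 5) (nat_lit 471) (nat_lit 446) (nat_lit 283))) (XT.nd (nat_lit 78) (nat_lit 760) (nat_lit 0) (XT.lf (nat_lit 0) (nat_lit 11492130965) (nat_lit 912) (nat_lit 1098339338) (nat_lit 76) (nat_lit 11296236385) (nat_lit 383) (nat_lit 5) (nat_lit 395) (nat_lit 5) (nat_lit 384) (nat_lit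 5) (nat_lit 472) (nat_lit 446) (nat_lit 282)) (XT.lf (nat_lit 0) (nat_lit 16326488101) (nat_lit 836) (nat_lit 5007642080) (nat_lit 76) (nat_lit 2950178062) (nat_lit 373) (nat_lit 5) (nat_lit 384) (nat_lit 5) (nat_lit 374) (nat_lit 5) (nat_lit 473) (nat_lit 446) (nat_lit 281)))) (XT.nd (nat_lit 156) (nat_lit 1444) (nat_lit 0) (XT.nd (nat_lit 78) (nat_lit 836) (nat_lit 0) (XT.lf (nat_lit 0) (nat_lit 15697450583) (nat_lit 760) (nat_lit 5794208813) (nat_lit 836) (nat_lit 3198462988) (nat_lit 363) (nat_lit 5) (nat_lit 373) (nat_lit 5) (nat_lit 374) (nat_lit 5) (nat_lit 474) (nat_lit 446) (nat_lit 280)) (XT.lf (nat_lit 0) (nat_lit 1853623745) (nat_lit 836) (nat_lit 13048781617) (nat_lit 76) (nat_lit 10202038698) (nat_lit 352) (nat_lit 5) (nat_lit 363) (nat_lit 5) (nat_lit 353) (nat_lit 5) (nat_lit 475) (nat_lit 446) (nat_lit 279))) (XT.nd (nat_lit 78) (nat_lit 684) (nat_lit 0) (XT.lf (nat_lit 0) (nat_lit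 7168804724) (nat_lit 836) (nat_lit 17166307468) (nat_lit 76) (nat_lit 1192560825) (nat_lit 342) (nat_lit 5) (nat_lit 353) (nat_lit 5) (nat_lit 343) (nat_lit 5) (nat_lit 476) (nat_lit 446) (nat_lit 278)) (XT.lf (nat_lit 0) (nat_lit 4582025815) (nat_lit 684) (nat_lit 8272455939) (nat_lit 760) (nat_lit 13104896461) (nat_lit 333) (nat_lit 5) (nat_lit 342) (nat_lit 5) (nat_lit 343) (nat_lit 5) (nat_lit 477) (nat_lit 446) (nat_lit 277)))))) (XT.nd (nat_lit 546) (nat_lit 3952) (nat_lit 0) (XT.nd (nat_lit 234) (nat_lit 2584) (nat_lit 0) (XT.nd (nat_lit 78) (nat_lit 760) (nat_lit 0) (XT.lf (nat_lit 0) (nat_lit 763182143) (nat_lit 684) (nat_lit 18116082452) (nat_lit 760) (nat_lit 7521399444) (nat_lit 324) (nat_lit 5) (nat_lit 333) (nat_lit 5) (nat_lit 334) (nat_lit 5) (nat_lit 478) (nat_lit 446) (nat_lit 276)) (XT.nd (nat_lit 78) (nat_lit 760) (nat_lit 0) (XT.lf (nat_lit 0) (nat_lit 23796204134) (nat_lit 684)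 (nat_lit 1481338544) (nat_lit 760) (nat_lit 1573790899) (nat_lit 324) (nat_lit 5) (nat_lit 333) (nat_lit 5) (nat_lit 334) (nat_lit 5) (nat_lit 479) (nat_lit 446) (nat_lit 275)) (XT.lf (nat_lit 0) (nat_lit 4721007099) (nat_lit 760) (nat_lit 6980101999) (nat_lit 76) (nat_lit 15609253852) (nat_lit 314) (nat_lit 5) (nat_lit 324) (nat_lit 5) (nat_lit 315) (nat_lit 5) (nat_lit 480) (nat_lit 446) (nat_lit 274)))) (XT.nd (nat_lit 156) (nat_lit 1292) (nat_lit 0) (XT.nd (nat_lit 78) (nat_lit 608) (nat_lit 0) (XT.lf (nat_lit 0) (nat_lit 11352941256) (nat_lit 760) (nat_lit 10947511101) (nat_lit 76) (nat_lit 5479109476) (nat_lit 305) (nat_lit 5) (nat_lit 315) (nat_lit 5) (nat_lit 306) (nat_lit 5) (nat_lit 481) (nat_lit 446) (nat_lit 273)) (XT.lf (nat_lit 0) (nat_lit 13279698340) (nat_lit 608) (nat_lit 5109590574) (nat_lit 684) (nat_lit 9869438816) (nat_lit 297) (nat_lit 5) (nat_lit 305) (nat_lit 5) (nat_lit 306)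 (nat_lit 5) (nat_lit 482) (nat_lit 446) (nat_lit 272))) (XT.nd (nat_lit 78) (nat_lit 684) (nat_lit 0) (XT.lf (nat_lit 0) (nat_lit 9669210568) (nat_lit 608) (nat_lit 16180261619) (nat_lit 684) (nat_lit 2898541664) (nat_lit 289) (nat_lit 5) (nat_lit 297) (nat_lit 5) (nat_lit 298) (nat_lit 5) (nat_lit 483) (nat_lit 446) (nat_lit 271)) (XT.lf (nat_lit 0) (nat_lit 4404916772) (nat_lit 684) (nat_lit 23238365418) (nat_lit 76) (nat_lit 1604548812) (nat_lit 280) (nat_lit 5) (nat_lit 289) (nat_lit 5) (nat_lit 281) (nat_lit 5) (nat_lit 484) (nat_lit 446) (nat_lit 270))))) (XT.nd (nat_lit 312) (nat_lit 2128) (nat_lit 0) (XT.nd (nat_lit 156) (nat_lit 1216) (nat_lit 0) (XT.nd (nat_lit 78) (nat_lit 0) (nat_lit 0) (XT.lf (nat_lit 0) (nat_lit 2244419316) (nat_lit 608) (nat_lit 9890543674) (nat_lit 684) (nat_lit 17622359355) (nat_lit 272) (nat_lit 5) (nat_lit 280) (nat_lit 5) (nat_lit 281) (nat_lit 5) (nat_lit 485) (nat_lit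 446) (nat_lit 269)) (XT.lf (nat_lit 0) (nat_lit 20303770655) (nat_lit 684) (nat_lit 1532750491) (nat_lit 76) (nat_lit 8441440215) (nat_lit 272) (nat_lit 5) (nat_lit 281) (nat_lit 5) (nat_lit 273) (nat_lit 5) (nat_lit 486) (nat_lit 446) (nat_lit 268))) (XT.nd (nat_lit 78) (nat_lit 684) (nat_lit 0) (XT.lf (nat_lit 0) (nat_lit 25487134299) (nat_lit 532) (nat_lit 3456151680) (nat_lit 608) (nat_lit 1866420834) (nat_lit 265) (nat_lit 5) (nat_lit 272) (nat_lit 5) (nat_lit 273) (nat_lit 5) (nat_lit 487) (nat_lit 446) (nat_lit 267)) (XT.lf (nat_lit 0) (nat_lit 6650153508) (nat_lit 684) (nat_lit 9232419411) (nat_lit 76) (nat_lit 15468977434) (nat_lit 256) (nat_lit 5) (nat_lit 265) (nat_lit 5) (nat_lit 257) (nat_lit 5) (nat_lit 488) (nat_lit 446) (nat_lit 266)))) (XT.nd (nat_lit 156) (nat_lit 1064) (nat_lit 0) (XT.nd (nat_lit 78) (nat_lit 532) (nat_lit 0) (XT.lf (nat_lit 0) (nat_lit 15593021882) (nat_lit 608)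 (nat_lit 13176158590) (nat_lit 76) (nat_lit 3136299028) (nat_lit 249) (nat_lit 5) (nat_lit 257) (nat_lit 5) (nat_lit 250) (nat_lit 5) (nat_lit 489) (nat_lit 446) (nat_lit 265)) (XT.lf (nat_lit 0) (nat_lit 15267416416) (nat_lit 532) (nat_lit 9799399604) (nat_lit 608) (nat_lit 7403957825) (nat_lit 242) (nat_lit 5) (nat_lit 249) (nat_lit 5) (nat_lit 250) (nat_lit 5) (nat_lit 490) (nat_lit 446) (nat_lit 264))) (XT.nd (nat_lit 78) (nat_lit 532) (nat_lit 0) (XT.lf (nat_lit 0) (nat_lit 1974041665) (nat_lit 532) (nat_lit 21285173494) (nat_lit 76) (nat_lit 9789072258) (nat_lit 235) (nat_lit 5) (nat_lit 242) (nat_lit 5) (nat_lit 236) (nat_lit 5) (nat_lit 491) (nat_lit 446) (nat_lit 263)) (XT.lf (nat_lit 0) (nat_lit 8177066808) (nat_lit 532) (nat_lit 3586771905) (nat_lit 608) (nat_lit 21873688025) (nat_lit 228) (nat_lit 5) (nat_lit 235) (nat_lit 5) (nat_lit 236) (nat_lit 5) (nat_lit 492) (nat_lit 446) (nat_lit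 262))))))))
noncomputable def xc96 : XT := (XT.nd (nat_lit 59670) (nat_lit 0) (nat_lit 11020) (XT.nd (nat_lit 1092) (nat_lit 1824) (nat_lit 0) (XT.nd (nat_lit 546) (nat_lit 2432) (nat_lit 0) (XT.nd (nat_lit 234) (nat_lit 1824) (nat_lit 0) (XT.nd (nat_lit 78) (nat_lit 532) (nat_lit 0) (XT.lf (nat_lit 0) (nat_lit 4515369081) (nat_lit 456) (nat_lit 17609339565) (nat_lit 532) (nat_lit 12114187118) (nat_lit 222) (nat_lit 5) (nat_lit 228) (nat_lit 5) (nat_lit 229) (nat_lit 5) (nat_lit 493) (nat_lit 446) (nat_lit 261)) (XT.nd (nat_lit 78) (nat_lit 76) (nat_lit 0) (XT.lf (nat_lit 0) (nat_lit 846156907) (nat_lit 456) (nat_lit 32164466557) (nat_lit 532) (nat_lit 1843398125) (nat_lit 216) (nat_lit 5) (nat_lit 222) (nat_lit 5) (nat_lit 223) (nat_lit 5) (nat_lit 494) (nat_lit 446) (nat_lit 260)) (XT.lf (nat_lit 0) (nat_lit 8936225549) (nat_lit 532) (nat_lit 2927104604) (nat_lit 76) (nat_lit 23616831222) (nat_lit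 215) (nat_lit 5) (nat_lit 222) (nat_lit 5) (nat_lit 216) (nat_lit 5) (nat_lit 495) (nat_lit 446) (nat_lit 259)))) (XT.nd (nat_lit 156) (nat_lit 912) (nat_lit 0) (XT.nd (nat_lit 78) (nat_lit 456) (nat_lit 0) (XT.lf (nat_lit 0) (nat_lit 20260554527) (nat_lit 532) (nat_lit 6728451353) (nat_lit 76) (nat_lit 9130908652) (nat_lit 209) (nat_lit 5) (nat_lit 216) (nat_lit 5) (nat_lit 210) (nat_lit 5) (nat_lit 496) (nat_lit 446) (nat_lit 258)) (XT.lf (nat_lit 0) (nat_lit 26198057298) (nat_lit 456) (nat_lit 5990959980) (nat_lit 532) (nat_lit 4584555018) (nat_lit 203) (nat_lit 5) (nat_lit 209) (nat_lit 5) (nat_lit 210) (nat_lit 5) (nat_lit 497) (nat_lit 446) (nat_lit 257))) (XT.nd (nat_lit 78) (nat_lit 456) (nat_lit 0) (XT.lf (nat_lit 0) (nat_lit 7229767949) (nat_lit 456) (nat_lit 14538093424) (nat_lit 76) (nat_lit 15672196762) (nat_lit 197) (nat_lit 5) (nat_lit 203) (nat_lit 5) (nat_lit 198) (nat_lit 5) (nat_lit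 498) (nat_lit 446) (nat_lit 256)) (XT.lf (nat_lit 0) (nat_lit 19571156268) (nat_lit 532) (nat_lit 18539432828) (nat_lit 76) (nat_lit 10645024) (nat_lit 191) (nat_lit 5) (nat_lit 198) (nat_lit 5) (nat_lit 192) (nat_lit 5) (nat_lit 499) (nat_lit 446) (nat_lit 255))))) (XT.nd (nat_lit 234) (nat_lit 1216) (nat_lit 0) (XT.nd (nat_lit 78) (nat_lit 836) (nat_lit 0) (XT.lf (nat_lit 0) (nat_lit 16162025736) (nat_lit 380) (nat_lit 16465670221) (nat_lit 456) (nat_lit 6188251317) (nat_lit 186) (nat_lit 5) (nat_lit 191) (nat_lit 5) (nat_lit 192) (nat_lit 5) (nat_lit 500) (nat_lit 446) (nat_lit 254)) (XT.nd (nat_lit 78) (nat_lit 380) (nat_lit 0) (XT.lf (nat_lit 0) (nat_lit 6702609022) (nat_lit 456) (nat_lit 26819985257) (nat_lit 76) (nat_lit 6003177600) (nat_lit 180) (nat_lit 5) (nat_lit 186) (nat_lit 5) (nat_lit 181) (nat_lit 5) (nat_lit 501) (nat_lit 446) (nat_lit 253)) (XT.lf (nat_lit 0) (nat_lit 9142908215) (nat_lit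 380) (nat_lit 11073069127) (nat_lit 456) (nat_lit 20033698744) (nat_lit 175) (nat_lit 5) (nat_lit 180) (nat_lit 5) (nat_lit 181) (nat_lit 5) (nat_lit 502) (nat_lit 446) (nat_lit 252)))) (XT.nd (nat_lit 156) (nat_lit 380) (nat_lit 0) (XT.nd (nat_lit 78) (nat_lit 456) (nat_lit 0) (XT.lf (nat_lit 0) (nat_lit 5546439198) (nat_lit 380) (nat_lit 28880948509) (nat_lit 456) (nat_lit 6562056969) (nat_lit 170) (nat_lit 5) (nat_lit 175) (nat_lit 5) (nat_lit 176) (nat_lit 5) (nat_lit 503) (nat_lit 446) (nat_lit 251)) (XT.lf (nat_lit 0) (nat_lit 1872520906) (nat_lit 380) (nat_lit 5639193138) (nat_lit 456) (nat_lit 34232864619) (nat_lit 164) (nat_lit 5) (nat_lit 169) (nat_lit 5) (nat_lit 170) (nat_lit 5) (nat_lit 504) (nat_lit 446) (nat_lit 250))) (XT.nd (nat_lit 78) (nat_lit 380) (nat_lit 0) (XT.lf (nat_lit 0) (nat_lit 22275210005) (nat_lit 456) (nat_lit 1896100499) (nat_lit 76) (nat_lit 18343055444) (nat_lit 164)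 (nat_lit 5) (nat_lit 170) (nat_lit 5) (nat_lit 165) (nat_lit 5) (nat_lit 505) (nat_lit 446) (nat_lit 249)) (XT.lf (nat_lit 0) (nat_lit 37668746017) (nat_lit 380) (nat_lit 90854051) (nat_lit 456) (nat_lit 5542087063) (nat_lit 159) (nat_lit 5) (nat_lit 164) (nat_lit 5) (nat_lit 165) (nat_lit 5) (nat_lit 506) (nat_lit 446) (nat_lit 248)))))) (XT.nd (nat_lit 57954) (nat_lit 0) (nat_lit 26600) (XT.nd (nat_lit 234) (nat_lit 760) (nat_lit 0) (XT.nd (nat_lit 78) (nat_lit 684) (nat_lit 0) (XT.lf (nat_lit 0) (nat_lit 9866587241) (nat_lit 380) (nat_lit 9548681448) (nat_lit 76) (nat_lit 24688182365) (nat_lit 154) (nat_lit 5) (nat_lit 159) (nat_lit 5) (nat_lit 155) (nat_lit 5) (nat_lit 507) (nat_lit 446) (nat_lit 247)) (XT.nd (nat_lit 78) (nat_lit 304) (nat_lit 0) (XT.lf (nat_lit 0) (nat_lit 25937922808) (nat_lit 456) (nat_lit 13495023908) (nat_lit 76) (nat_lit 5490074649) (nat_lit 149) (nat_lit 5) (nat_lit 155)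 (nat_lit 5) (nat_lit 150) (nat_lit 5) (nat_lit 508) (nat_lit 446) (nat_lit 246)) (XT.lf (nat_lit 0) (nat_lit 28232223404) (nat_lit 304) (nat_lit 14633339453) (nat_lit 380) (nat_lit 2894132701) (nat_lit 145) (nat_lit 5) (nat_lit 149) (nat_lit 5) (nat_lit 150) (nat_lit 5) (nat_lit 509) (nat_lit 446) (nat_lit 245)))) (XT.nd (nat_lit 57564) (nat_lit 0) (nat_lit 28196) (XT.nd (nat_lit 78) (nat_lit 304) (nat_lit 0) (XT.lf (nat_lit 0) (nat_lit 13823610436) (nat_lit 456) (nat_lit 21679367071) (nat_lit 76) (nat_lit 11110247028) (nat_lit 139) (nat_lit 5) (nat_lit 145) (nat_lit 5) (nat_lit 140) (nat_lit 5) (nat_lit 510) (nat_lit 446) (nat_lit 244)) (XT.lf (nat_lit 0) (nat_lit 21577472189) (nat_lit 304) (nat_lit 9779832914) (nat_lit 380) (nat_lit 16127596946) (nat_lit 135) (nat_lit 5) (nat_lit 139) (nat_lit 5) (nat_lit 140) (nat_lit 5) (nat_lit 511) (nat_lit 446) (nat_lit 243))) (XT.nd (nat_lit 78) (nat_lit 0)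 (nat_lit 0) (XT.lf (nat_lit 0) (nat_lit 3094939007) (nat_lit 0) (nat_lit 3094939007) (nat_lit 1748) (nat_lit 2037336807) (nat_lit 506) (nat_lit 5) (nat_lit 506) (nat_lit 3) (nat_lit 529) (nat_lit 3) (nat_lit 447) (nat_lit 447) (nat_lit 306)) (XT.lf (nat_lit 76) (nat_lit 2016996085) (nat_lit 0) (nat_lit 10966808837) (nat_lit 1824) (nat_lit 3709062688) (nat_lit 507) (nat_lit 5) (nat_lit 506) (nat_lit 5) (nat_lit 530) (nat_lit 5) (nat_lit 448) (nat_lit 447) (nat_lit 305))))) (XT.nd (nat_lit 312) (nat_lit 1672) (nat_lit 0) (XT.nd (nat_lit 156) (nat_lit 0) (nat_lit 76) (XT.nd (nat_lit 78) (nat_lit 0) (nat_lit 0) (XT.lf (nat_lit 0) (nat_lit 13709155149) (nat_lit 1748) (nat_lit 2185446481) (nat_lit 1824) (nat_lit 1041793936) (nat_lit 507) (nat_lit 5) (nat_lit 530) (nat_lit 5) (nat_lit 531) (nat_lit 5) (nat_lit 449) (nat_lit 447) (nat_lit 304)) (XT.lf (nat_lit 76) (nat_lit 10739493377) (nat_lit 0) (nat_lit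 3845948849) (nat_lit 1824) (nat_lit 2599204042) (nat_lit 508) (nat_lit 5) (nat_lit 507) (nat_lit 5) (nat_lit 531) (nat_lit 5) (nat_lit 450) (nat_lit 447) (nat_lit 303))) (XT.nd (nat_lit 78) (nat_lit 0) (nat_lit 76) (XT.lf (nat_lit 76) (nat_lit 6665876583) (nat_lit 0) (nat_lit 8922434742) (nat_lit 1824) (nat_lit 1850027717) (nat_lit 509) (nat_lit 5) (nat_lit 508) (nat_lit 5) (nat_lit 532) (nat_lit 5) (nat_lit 451) (nat_lit 447) (nat_lit 302)) (XT.lf (nat_lit 76) (nat_lit 2536344366) (nat_lit 0) (nat_lit 14180491161) (nat_lit 1824) (nat_lit 980896101) (nat_lit 510) (nat_lit 5) (nat_lit 509) (nat_lit 5) (nat_lit 533) (nat_lit 5) (nat_lit 452) (nat_lit 447) (nat_lit 301)))) (XT.nd (nat_lit 156) (nat_lit 0) (nat_lit 152) (XT.nd (nat_lit 78) (nat_lit 0) (nat_lit 76) (XT.lf (nat_lit 0) (nat_lit 35708402) (nat_lit 1824) (nat_lit 1639275059) (nat_lit 1900) (nat_lit 16287528542) (nat_lit 485) (nat_lit 5) (nat_lit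 509) (nat_lit 5) (nat_lit 510) (nat_lit 5) (nat_lit 453) (nat_lit 447) (nat_lit 300)) (XT.lf (nat_lit 0) (nat_lit 1211174759) (nat_lit 1824) (nat_lit 5869914409) (nat_lit 1900) (nat_lit 11151183521) (nat_lit 486) (nat_lit 5) (nat_lit 510) (nat_lit 5) (nat_lit 511) (nat_lit 5) (nat_lit 454) (nat_lit 447) (nat_lit 299))) (XT.nd (nat_lit 78) (nat_lit 0) (nat_lit 76) (XT.lf (nat_lit 0) (nat_lit 2524898783) (nat_lit 1824) (nat_lit 10159856539) (nat_lit 1900) (nat_lit 5823311365) (nat_lit 487) (nat_lit 5) (nat_lit 511) (nat_lit 5) (nat_lit 512) (nat_lit 5) (nat_lit 455) (nat_lit 447) (nat_lit 298)) (XT.lf (nat_lit 0) (nat_lit 3983357776) (nat_lit 1824) (nat_lit 14509734735) (nat_lit 1900) (nat_lit 296935885) (nat_lit 488) (nat_lit 5) (nat_lit 512) (nat_lit 5) (nat_lit 513) (nat_lit 5) (nat_lit 456) (nat_lit 447) (nat_lit 297))))))) (XT.nd (nat_lit 1092) (nat_lit 9576) (nat_lit 0) (XT.nd (nat_lit 546) (nat_lit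 6232) (nat_lit 0) (XT.nd (nat_lit 234) (nat_lit 0) (nat_lit 152) (XT.nd (nat_lit 78) (nat_lit 0) (nat_lit 76) (XT.lf (nat_lit 76) (nat_lit 121689099) (nat_lit 0) (nat_lit 5507289850) (nat_lit 1900) (nat_lit 13448602184) (nat_lit 489) (nat_lit 5) (nat_lit 488) (nat_lit 5) (nat_lit 513) (nat_lit 5) (nat_lit 457) (nat_lit 447) (nat_lit 296)) (XT.nd (nat_lit 78) (nat_lit 0) (nat_lit 76) (XT.lf (nat_lit 0) (nat_lit 7462817301) (nat_lit 1824) (nat_lit 4041242106) (nat_lit 1900) (nat_lit 7866924409) (nat_lit 489) (nat_lit 5) (nat_lit 513) (nat_lit 5) (nat_lit 514) (nat_lit 5) (nat_lit 458) (nat_lit 447) (nat_lit 295)) (XT.lf (nat_lit 0) (nat_lit 9464616528) (nat_lit 1824) (nat_lit 8258269470) (nat_lit 1900) (nat_lit 1948043992) (nat_lit 490) (nat_lit 5) (nat_lit 514) (nat_lit 5) (nat_lit 515) (nat_lit 5) (nat_lit 459) (nat_lit 447) (nat_lit 294)))) (XT.nd (nat_lit 156) (nat_lit 0) (nat_lit 152) (XT.nd (nat_lit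 78) (nat_lit 0) (nat_lit 76) (XT.lf (nat_lit 76) (nat_lit 7418113389) (nat_lit 0) (nat_lit 4250417020) (nat_lit 1900) (nat_lit 8308503243) (nat_lit 491) (nat_lit 5) (nat_lit 490) (nat_lit 5) (nat_lit 515) (nat_lit 5) (nat_lit 460) (nat_lit 447) (nat_lit 293)) (XT.lf (nat_lit 76) (nat_lit 3359495808) (nat_lit 0) (nat_lit 10709378368) (nat_lit 1900) (nat_lit 6220840304) (nat_lit 492) (nat_lit 5) (nat_lit 491) (nat_lit 5) (nat_lit 516) (nat_lit 5) (nat_lit 461) (nat_lit 447) (nat_lit 292))) (XT.nd (nat_lit 78) (nat_lit 0) (nat_lit 0) (XT.lf (nat_lit 0) (nat_lit 16665560466) (nat_lit 1824) (nat_lit 740400883) (nat_lit 1900) (nat_lit 3203328039) (nat_lit 492) (nat_lit 5) (nat_lit 516) (nat_lit 5) (nat_lit 517) (nat_lit 5) (nat_lit 462) (nat_lit 447) (nat_lit 291)) (XT.lf (nat_lit 76) (nat_lit 16066046414) (nat_lit 0) (nat_lit 3440253406) (nat_lit 1900) (nat_lit 1428828962) (nat_lit 493) (nat_lit 5) (nat_lit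 492) (nat_lit 5) (nat_lit 517) (nat_lit 5) (nat_lit 463) (nat_lit 447) (nat_lit 290))))) (XT.nd (nat_lit 234) (nat_lit 2660) (nat_lit 0) (XT.nd (nat_lit 78) (nat_lit 2052) (nat_lit 0) (XT.lf (nat_lit 0) (nat_lit 1293013546) (nat_lit 1900) (nat_lit 9079508804) (nat_lit 76) (nat_lit 10895135874) (nat_lit 468) (nat_lit 5) (nat_lit 493) (nat_lit 5) (nat_lit 469) (nat_lit 5) (nat_lit 464) (nat_lit 447) (nat_lit 289)) (XT.nd (nat_lit 78) (nat_lit 912) (nat_lit 0) (XT.lf (nat_lit 0) (nat_lit 4204475239) (nat_lit 1216) (nat_lit 13352741112) (nat_lit 76) (nat_lit 4050211054) (nat_lit 453) (nat_lit 5) (nat_lit 469) (nat_lit 5) (nat_lit 454) (nat_lit 5) (nat_lit 465) (nat_lit 447) (nat_lit 288)) (XT.lf (nat_lit 0) (nat_lit 4254786236) (nat_lit 912) (nat_lit 3098274087) (nat_lit 988) (nat_lit 14601334005) (nat_lit 441) (nat_lit 5) (nat_lit 453) (nat_lit 5) (nat_lit 454) (nat_lit 5) (nat_lit 466) (nat_lit 447) (nat_lit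 287)))) (XT.nd (nat_lit 156) (nat_lit 1748) (nat_lit 0) (XT.nd (nat_lit 78) (nat_lit 0) (nat_lit 0) (XT.lf (nat_lit 0) (nat_lit 180217704) (nat_lit 912) (nat_lit 10575788819) (nat_lit 988) (nat_lit 11552565918) (nat_lit 429) (nat_lit 5) (nat_lit 441) (nat_lit 5) (nat_lit 442) (nat_lit 5) (nat_lit 467) (nat_lit 447) (nat_lit 286)) (XT.lf (nat_lit 0) (nat_lit 14421519882) (nat_lit 988) (nat_lit 3889885280) (nat_lit 76) (nat_lit 4358761403) (nat_lit 429) (nat_lit 5) (nat_lit 442) (nat_lit 5) (nat_lit 430) (nat_lit 5) (nat_lit 468) (nat_lit 447) (nat_lit 285))) (XT.nd (nat_lit 78) (nat_lit 912) (nat_lit 0) (XT.lf (nat_lit 0) (nat_lit 15013799998) (nat_lit 836) (nat_lit 3342941824) (nat_lit 912) (nat_lit 4682672064) (nat_lit 418) (nat_lit 5) (nat_lit 429) (nat_lit 5) (nat_lit 430) (nat_lit 5) (nat_lit 469) (nat_lit 447) (nat_lit 284)) (XT.lf (nat_lit 0) (nat_lit 11178509648) (nat_lit 912) (nat_lit 11400753894)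 (nat_lit 988) (nat_lit 837090454) (nat_lit 406) (nat_lit 5) (nat_lit 418) (nat_lit 5) (nat_lit 419) (nat_lit 5) (nat_lit 470) (nat_lit 447) (nat_lit 283)))))) (XT.nd (nat_lit 546) (nat_lit 4712) (nat_lit 0) (XT.nd (nat_lit 234) (nat_lit 3116) (nat_lit 0) (XT.nd (nat_lit 78) (nat_lit 836) (nat_lit 0) (XT.lf (nat_lit 0) (nat_lit 3226007065) (nat_lit 912) (nat_lit 16518720060) (nat_lit 76) (nat_lit 4056607391) (nat_lit 394) (nat_lit 5) (nat_lit 406) (nat_lit 5) (nat_lit 395) (nat_lit 5) (nat_lit 471) (nat_lit 447) (nat_lit 282)) (XT.nd (nat_lit 78) (nat_lit 0) (nat_lit 0) (XT.lf (nat_lit 0) (nat_lit 3312894533) (nat_lit 836) (nat_lit 4260077527) (nat_lit 912) (nat_lit 16621314995) (nat_lit 383) (nat_lit 5) (nat_lit 394) (nat_lit 5) (nat_lit 395) (nat_lit 5) (nat_lit 472) (nat_lit 447) (nat_lit 281)) (XT.lf (nat_lit 0) (nat_lit 12231148848) (nat_lit 912) (nat_lit 716037510) (nat_lit 76) (nat_lit 11648225961)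 (nat_lit 383) (nat_lit 5) (nat_lit 395) (nat_lit 5) (nat_lit 384) (nat_lit 5) (nat_lit 473) (nat_lit 447) (nat_lit 280)))) (XT.nd (nat_lit 156) (nat_lit 1596) (nat_lit 0) (XT.nd (nat_lit 78) (nat_lit 760) (nat_lit 0) (XT.lf (nat_lit 0) (nat_lit 17201855852) (nat_lit 836) (nat_lit 4741787584) (nat_lit 76) (nat_lit 3061472409) (nat_lit 373) (nat_lit 5) (nat_lit 384) (nat_lit 5) (nat_lit 374) (nat_lit 5) (nat_lit 474) (nat_lit 447) (nat_lit 279)) (XT.lf (nat_lit 0) (nat_lit 16577707394) (nat_lit 760) (nat_lit 5935702269) (nat_lit 836) (nat_lit 2909866494) (nat_lit 363) (nat_lit 5) (nat_lit 373) (nat_lit 5) (nat_lit 374) (nat_lit 5) (nat_lit 475) (nat_lit 447) (nat_lit 278))) (XT.nd (nat_lit 78) (nat_lit 760) (nat_lit 0) (XT.lf (nat_lit 0) (nat_lit 2280570009) (nat_lit 836) (nat_lit 13025387536) (nat_lit 76) (nat_lit 10544183674) (nat_lit 352) (nat_lit 5) (nat_lit 363) (nat_lit 5) (nat_lit 353) (nat_lit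 5) (nat_lit 476) (nat_lit 447) (nat_lit 277)) (XT.lf (nat_lit 0) (nat_lit 7747332470) (nat_lit 836) (nat_lit 17266189041) (nat_lit 76) (nat_lit 1272703287) (nat_lit 342) (nat_lit 5) (nat_lit 353) (nat_lit 5) (nat_lit 343) (nat_lit 5) (nat_lit 477) (nat_lit 447) (nat_lit 276))))) (XT.nd (nat_lit 312) (nat_lit 2584) (nat_lit 0) (XT.nd (nat_lit 156) (nat_lit 760) (nat_lit 0) (XT.nd (nat_lit 78) (nat_lit 684) (nat_lit 0) (XT.lf (nat_lit 0) (nat_lit 5127859612) (nat_lit 684) (nat_lit 8467785308) (nat_lit 760) (nat_lit 13135395195) (nat_lit 333) (nat_lit 5) (nat_lit 342) (nat_lit 5) (nat_lit 343) (nat_lit 5) (nat_lit 478) (nat_lit 447) (nat_lit 275)) (XT.lf (nat_lit 0) (nat_lit 1194491671) (nat_lit 684) (nat_lit 18599309174) (nat_lit 760) (nat_lit 7391911336) (nat_lit 324) (nat_lit 5) (nat_lit 333) (nat_lit 5) (nat_lit 334) (nat_lit 5) (nat_lit 479) (nat_lit 447) (nat_lit 274))) (XT.nd (nat_lit 78) (nat_lit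 760) (nat_lit 0) (XT.lf (nat_lit 0) (nat_lit 24906608767) (nat_lit 684) (nat_lit 1467277970) (nat_lit 760) (nat_lit 1276218130) (nat_lit 324) (nat_lit 5) (nat_lit 333) (nat_lit 5) (nat_lit 334) (nat_lit 5) (nat_lit 480) (nat_lit 447) (nat_lit 273)) (XT.lf (nat_lit 0) (nat_lit 5195953002) (nat_lit 760) (nat_lit 6788696803) (nat_lit 76) (nat_lit 16138349760) (nat_lit 314) (nat_lit 5) (nat_lit 324) (nat_lit 5) (nat_lit 315) (nat_lit 5) (nat_lit 481) (nat_lit 447) (nat_lit 272)))) (XT.nd (nat_lit 156) (nat_lit 1292) (nat_lit 0) (XT.nd (nat_lit 78) (nat_lit 608) (nat_lit 0) (XT.lf (nat_lit 0) (nat_lit 12020139451) (nat_lit 760) (nat_lit 10875542134) (nat_lit 76) (nat_lit 5710727176) (nat_lit 305) (nat_lit 5) (nat_lit 315) (nat_lit 5) (nat_lit 306) (nat_lit 5) (nat_lit 482) (nat_lit 447) (nat_lit 271)) (XT.lf (nat_lit 0) (nat_lit 14071987668) (nat_lit 608) (nat_lit 5188634409) (nat_lit 684) (nat_lit 9839466892)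 (nat_lit 297) (nat_lit 5) (nat_lit 305) (nat_lit 5) (nat_lit 306) (nat_lit 5) (nat_lit 483) (nat_lit 447) (nat_lit 270))) (XT.nd (nat_lit 78) (nat_lit 684) (nat_lit 0) (XT.lf (nat_lit 0) (nat_lit 10352617260) (nat_lit 608) (nat_lit 16585705025) (nat_lit 684) (nat_lit 2665857379) (nat_lit 289) (nat_lit 5) (nat_lit 297) (nat_lit 5) (nat_lit 298) (nat_lit 5) (nat_lit 484) (nat_lit 447) (nat_lit 269)) (XT.lf (nat_lit 0) (nat_lit 4846398221) (nat_lit 684) (nat_lit 23538787459) (nat_lit 76) (nat_lit 1733886639) (nat_lit 280) (nat_lit 5) (nat_lit 289) (nat_lit 5) (nat_lit 281) (nat_lit 5) (nat_lit 485) (nat_lit 447) (nat_lit 268))))))))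
noncomputable def xc97 : XT := (XT.nd (nat_lit 59748) (nat_lit 0) (nat_lit 14060) (XT.nd (nat_lit 1092) (nat_lit 4408) (nat_lit 0) (XT.nd (nat_lit 546) (nat_lit 2888) (nat_lit 0) (XT.nd (nat_lit 234) (nat_lit 2280) (nat_lit 0) (XT.nd (nat_lit 78) (nat_lit 532) (nat_lit 0) (XT.lf (nat_lit 0) (nat_lit 2702044361) (nat_lit 608) (nat_lit 10099825775) (nat_lit 684) (nat_lit 17842107981) (nat_lit 272) (nat_lit 5) (nat_lit 280) (nat_lit 5) (nat_lit 281) (nat_lit 5) (nat_lit 486) (nat_lit 447) (nat_lit 267)) (XT.nd (nat_lit 78) (nat_lit 532) (nat_lit 0) (XT.lf (nat_lit 0) (nat_lit 21207472065) (nat_lit 684) (nat_lit 1194472150) (nat_lit 76) (nat_lit 8778457687) (nat_lit 272) (nat_lit 5) (nat_lit 281) (nat_lit 5) (nat_lit 273) (nat_lit 5) (nat_lit 487) (nat_lit 447) (nat_lit 266)) (XT.lf (nat_lit 0) (nat_lit 26629775008) (nat_lit 532) (nat_lit 3470271998) (nat_lit 608) (nat_lit 1628175417) (nat_lit 265) (nat_lit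 5) (nat_lit 272) (nat_lit 5) (nat_lit 273) (nat_lit 5) (nat_lit 488) (nat_lit 447) (nat_lit 265)))) (XT.nd (nat_lit 156) (nat_lit 1064) (nat_lit 0) (XT.nd (nat_lit 78) (nat_lit 532) (nat_lit 0) (XT.lf (nat_lit 0) (nat_lit 7134611808) (nat_lit 684) (nat_lit 9128595608) (nat_lit 76) (nat_lit 16023184336) (nat_lit 256) (nat_lit 5) (nat_lit 265) (nat_lit 5) (nat_lit 257) (nat_lit 5) (nat_lit 489) (nat_lit 447) (nat_lit 264)) (XT.lf (nat_lit 0) (nat_lit 16340519139) (nat_lit 608) (nat_lit 13191857598) (nat_lit 76) (nat_lit 3324667152) (nat_lit 249) (nat_lit 5) (nat_lit 257) (nat_lit 5) (nat_lit 250) (nat_lit 5) (nat_lit 490) (nat_lit 447) (nat_lit 263))) (XT.nd (nat_lit 78) (nat_lit 532) (nat_lit 0) (XT.lf (nat_lit 0) (nat_lit 16098866331) (nat_lit 532) (nat_lit 9993938515) (nat_lit 608) (nat_lit 7346606835) (nat_lit 242) (nat_lit 5) (nat_lit 249) (nat_lit 5) (nat_lit 250) (nat_lit 5) (nat_lit 491) (nat_lit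 447) (nat_lit 262)) (XT.lf (nat_lit 0) (nat_lit 2304097319) (nat_lit 532) (nat_lit 21547993818) (nat_lit 76) (nat_lit 10182222797) (nat_lit 235) (nat_lit 5) (nat_lit 242) (nat_lit 5) (nat_lit 236) (nat_lit 5) (nat_lit 492) (nat_lit 447) (nat_lit 261))))) (XT.nd (nat_lit 234) (nat_lit 1444) (nat_lit 0) (XT.nd (nat_lit 78) (nat_lit 912) (nat_lit 0) (XT.lf (nat_lit 0) (nat_lit 8792017841) (nat_lit 532) (nat_lit 3590081997) (nat_lit 608) (nat_lit 22259240522) (nat_lit 228) (nat_lit 5) (nat_lit 235) (nat_lit 5) (nat_lit 236) (nat_lit 5) (nat_lit 493) (nat_lit 447) (nat_lit 260)) (XT.nd (nat_lit 78) (nat_lit 456) (nat_lit 0) (XT.lf (nat_lit 0) (nat_lit 5019032071) (nat_lit 456) (nat_lit 18030083304) (nat_lit 532) (nat_lit 12211728845) (nat_lit 222) (nat_lit 5) (nat_lit 228) (nat_lit 5) (nat_lit 229) (nat_lit 5) (nat_lit 494) (nat_lit 447) (nat_lit 259)) (XT.lf (nat_lit 0) (nat_lit 1238216777) (nat_lit 456)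 (nat_lit 33018857223) (nat_lit 532) (nat_lit 1637440641) (nat_lit 216) (nat_lit 5) (nat_lit 222) (nat_lit 5) (nat_lit 223) (nat_lit 5) (nat_lit 495) (nat_lit 447) (nat_lit 258)))) (XT.nd (nat_lit 156) (nat_lit 912) (nat_lit 0) (XT.nd (nat_lit 78) (nat_lit 456) (nat_lit 0) (XT.lf (nat_lit 0) (nat_lit 9454635581) (nat_lit 532) (nat_lit 2655591055) (nat_lit 76) (nat_lit 24429328396) (nat_lit 215) (nat_lit 5) (nat_lit 222) (nat_lit 5) (nat_lit 216) (nat_lit 5) (nat_lit 496) (nat_lit 447) (nat_lit 257)) (XT.lf (nat_lit 0) (nat_lit 21114400905) (nat_lit 532) (nat_lit 6572599032) (nat_lit 76) (nat_lit 9511586853) (nat_lit 209) (nat_lit 5) (nat_lit 216) (nat_lit 5) (nat_lit 210) (nat_lit 5) (nat_lit 497) (nat_lit 447) (nat_lit 256))) (XT.nd (nat_lit 78) (nat_lit 456) (nat_lit 0) (XT.lf (nat_lit 0) (nat_lit 27335901526) (nat_lit 456) (nat_lit 6059934883) (nat_lit 532) (nat_lit 4476115636) (nat_lit 203) (nat_lit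 5) (nat_lit 209) (nat_lit 5) (nat_lit 210) (nat_lit 5) (nat_lit 498) (nat_lit 447) (nat_lit 255)) (XT.lf (nat_lit 0) (nat_lit 7685332396) (nat_lit 456) (nat_lit 14620825186) (nat_lit 76) (nat_lit 16252324635) (nat_lit 197) (nat_lit 5) (nat_lit 203) (nat_lit 5) (nat_lit 198) (nat_lit 5) (nat_lit 499) (nat_lit 447) (nat_lit 254)))))) (XT.nd (nat_lit 546) (nat_lit 1900) (nat_lit 0) (XT.nd (nat_lit 234) (nat_lit 1216) (nat_lit 0) (XT.nd (nat_lit 78) (nat_lit 836) (nat_lit 0) (XT.lf (nat_lit 0) (nat_lit 20393006339) (nat_lit 532) (nat_lit 18743993009) (nat_lit 76) (nat_lit 123173376) (nat_lit 191) (nat_lit 5) (nat_lit 198) (nat_lit 5) (nat_lit 192) (nat_lit 5) (nat_lit 500) (nat_lit 447) (nat_lit 253)) (XT.nd (nat_lit 78) (nat_lit 456) (nat_lit 0) (XT.lf (nat_lit 0) (nat_lit 16992804650) (nat_lit 380) (nat_lit 16843847128) (nat_lit 456) (nat_lit 6139167423) (nat_lit 186) (nat_lit 5) (nat_lit 191) (nat_lit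 5) (nat_lit 192) (nat_lit 5) (nat_lit 501) (nat_lit 447) (nat_lit 252)) (XT.lf (nat_lit 0) (nat_lit 7131576661) (nat_lit 456) (nat_lit 27277454308) (nat_lit 76) (nat_lit 6297952480) (nat_lit 180) (nat_lit 5) (nat_lit 186) (nat_lit 5) (nat_lit 181) (nat_lit 5) (nat_lit 502) (nat_lit 447) (nat_lit 251)))) (XT.nd (nat_lit 156) (nat_lit 456) (nat_lit 0) (XT.nd (nat_lit 78) (nat_lit 380) (nat_lit 0) (XT.lf (nat_lit 0) (nat_lit 9758694188) (nat_lit 380) (nat_lit 11287231525) (nat_lit 456) (nat_lit 20406767587) (nat_lit 175) (nat_lit 5) (nat_lit 180) (nat_lit 5) (nat_lit 181) (nat_lit 5) (nat_lit 503) (nat_lit 447) (nat_lit 250)) (XT.lf (nat_lit 0) (nat_lit 6052437295) (nat_lit 380) (nat_lit 29627681234) (nat_lit 456) (nat_lit 6534607722) (nat_lit 170) (nat_lit 5) (nat_lit 175) (nat_lit 5) (nat_lit 176) (nat_lit 5) (nat_lit 504) (nat_lit 447) (nat_lit 249))) (XT.nd (nat_lit 78) (nat_lit 0) (nat_lit 0) (XT.lf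 (nat_lit 0) (nat_lit 2265689372) (nat_lit 380) (nat_lit 5688485508) (nat_lit 456) (nat_lit 35038395546) (nat_lit 164) (nat_lit 5) (nat_lit 169) (nat_lit 5) (nat_lit 170) (nat_lit 5) (nat_lit 505) (nat_lit 447) (nat_lit 248)) (XT.lf (nat_lit 0) (nat_lit 23155007836) (nat_lit 456) (nat_lit 1622342666) (nat_lit 76) (nat_lit 19008212283) (nat_lit 164) (nat_lit 5) (nat_lit 170) (nat_lit 5) (nat_lit 165) (nat_lit 5) (nat_lit 506) (nat_lit 447) (nat_lit 247))))) (XT.nd (nat_lit 312) (nat_lit 456) (nat_lit 0) (XT.nd (nat_lit 156) (nat_lit 684) (nat_lit 0) (XT.nd (nat_lit 78) (nat_lit 380) (nat_lit 0) (XT.lf (nat_lit 0) (nat_lit 39100037264) (nat_lit 456) (nat_lit 5472656856) (nat_lit 76) (nat_lit 23887428) (nat_lit 159) (nat_lit 5) (nat_lit 165) (nat_lit 5) (nat_lit 160) (nat_lit 5) (nat_lit 507) (nat_lit 447) (nat_lit 246)) (XT.lf (nat_lit 0) (nat_lit 10368231187) (nat_lit 380) (nat_lit 9509073188) (nat_lit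 76) (nat_lit 25545134226) (nat_lit 154) (nat_lit 5) (nat_lit 159) (nat_lit 5) (nat_lit 155) (nat_lit 5) (nat_lit 508) (nat_lit 447) (nat_lit 245))) (XT.nd (nat_lit 78) (nat_lit 304) (nat_lit 0) (XT.lf (nat_lit 0) (nat_lit 26918572711) (nat_lit 456) (nat_lit 13575831126) (nat_lit 76) (nat_lit 5772254956) (nat_lit 149) (nat_lit 5) (nat_lit 155) (nat_lit 5) (nat_lit 150) (nat_lit 5) (nat_lit 509) (nat_lit 447) (nat_lit 244)) (XT.lf (nat_lit 0) (nat_lit 29397976385) (nat_lit 304) (nat_lit 14952236935) (nat_lit 380) (nat_lit 2778296551) (nat_lit 145) (nat_lit 5) (nat_lit 149) (nat_lit 5) (nat_lit 150) (nat_lit 5) (nat_lit 510) (nat_lit 447) (nat_lit 243)))) (XT.nd (nat_lit 57642) (nat_lit 0) (nat_lit 27892) (XT.nd (nat_lit 57564) (nat_lit 0) (nat_lit 27892) (XT.lf (nat_lit 0) (nat_lit 14435327968) (nat_lit 456) (nat_lit 22010367936) (nat_lit 76) (nat_lit 11561982439) (nat_lit 139) (nat_lit 5) (nat_lit 145)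 (nat_lit 5) (nat_lit 140) (nat_lit 5) (nat_lit 511) (nat_lit 447) (nat_lit 242)) (XT.lf (nat_lit 0) (nat_lit 3369855832) (nat_lit 0) (nat_lit 3369855832) (nat_lit 1748) (nat_lit 1727025540) (nat_lit 506) (nat_lit 5) (nat_lit 506) (nat_lit 3) (nat_lit 529) (nat_lit 3) (nat_lit 448) (nat_lit 448) (nat_lit 304))) (XT.nd (nat_lit 78) (nat_lit 0) (nat_lit 76) (XT.lf (nat_lit 76) (nat_lit 2452412894) (nat_lit 0) (nat_lit 11628107698) (nat_lit 1824) (nat_lit 3098967046) (nat_lit 507) (nat_lit 5) (nat_lit 506) (nat_lit 5) (nat_lit 530) (nat_lit 5) (nat_lit 449) (nat_lit 448) (nat_lit 303)) (XT.lf (nat_lit 0) (nat_lit 14804938585) (nat_lit 1748) (nat_lit 1871174532) (nat_lit 1824) (nat_lit 754662810) (nat_lit 507) (nat_lit 5) (nat_lit 530) (nat_lit 5) (nat_lit 531) (nat_lit 5) (nat_lit 450) (nat_lit 448) (nat_lit 302))))))) (XT.nd (nat_lit 1170) (nat_lit 10944) (nat_lit 0) (XT.nd (nat_lit 546) (nat_lit 1292)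 (nat_lit 0) (XT.nd (nat_lit 234) (nat_lit 1672) (nat_lit 0) (XT.nd (nat_lit 78) (nat_lit 0) (nat_lit 76) (XT.lf (nat_lit 76) (nat_lit 11435351145) (nat_lit 0) (nat_lit 4254652113) (nat_lit 1824) (nat_lit 1996821733) (nat_lit 508) (nat_lit 5) (nat_lit 507) (nat_lit 5) (nat_lit 531) (nat_lit 5) (nat_lit 451) (nat_lit 448) (nat_lit 301)) (XT.nd (nat_lit 78) (nat_lit 0) (nat_lit 76) (XT.lf (nat_lit 76) (nat_lit 7248480913) (nat_lit 0) (nat_lit 9455685683) (nat_lit 1824) (nat_lit 1244338392) (nat_lit 509) (nat_lit 5) (nat_lit 508) (nat_lit 5) (nat_lit 532) (nat_lit 5) (nat_lit 452) (nat_lit 448) (nat_lit 300)) (XT.lf (nat_lit 76) (nat_lit 3003324948) (nat_lit 0) (nat_lit 14845205625) (nat_lit 1824) (nat_lit 367509683) (nat_lit 510) (nat_lit 5) (nat_lit 509) (nat_lit 5) (nat_lit 533) (nat_lit 5) (nat_lit 453) (nat_lit 448) (nat_lit 299)))) (XT.nd (nat_lit 156) (nat_lit 0) (nat_lit 152) (XT.nd (nat_lit 78)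 (nat_lit 0) (nat_lit 76) (XT.lf (nat_lit 0) (nat_lit 652685177) (nat_lit 1824) (nat_lit 1300744572) (nat_lit 1900) (nat_lit 16535620923) (nat_lit 485) (nat_lit 5) (nat_lit 509) (nat_lit 5) (nat_lit 510) (nat_lit 5) (nat_lit 454) (nat_lit 448) (nat_lit 298)) (XT.lf (nat_lit 0) (nat_lit 1846530900) (nat_lit 1824) (nat_lit 5651144267) (nat_lit 1900) (nat_lit 11269567245) (nat_lit 486) (nat_lit 5) (nat_lit 510) (nat_lit 5) (nat_lit 511) (nat_lit 5) (nat_lit 455) (nat_lit 448) (nat_lit 297))) (XT.nd (nat_lit 78) (nat_lit 0) (nat_lit 76) (XT.lf (nat_lit 0) (nat_lit 3183471394) (nat_lit 1824) (nat_lit 10063221298) (nat_lit 1900) (nat_lit 5804941969) (nat_lit 487) (nat_lit 5) (nat_lit 511) (nat_lit 5) (nat_lit 512) (nat_lit 5) (nat_lit 456) (nat_lit 448) (nat_lit 296)) (XT.lf (nat_lit 0) (nat_lit 4670146272) (nat_lit 1824) (nat_lit 14537596840) (nat_lit 1900) (nat_lit 134623376) (nat_lit 488) (nat_lit 5) (nat_lit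 512) (nat_lit 5) (nat_lit 513) (nat_lit 5) (nat_lit 457) (nat_lit 448) (nat_lit 295))))) (XT.nd (nat_lit 312) (nat_lit 1520) (nat_lit 0) (XT.nd (nat_lit 156) (nat_lit 0) (nat_lit 152) (XT.nd (nat_lit 78) (nat_lit 0) (nat_lit 76) (XT.lf (nat_lit 76) (nat_lit 526159641) (nat_lit 0) (nat_lit 5825055883) (nat_lit 1900) (nat_lit 13287609190) (nat_lit 489) (nat_lit 5) (nat_lit 488) (nat_lit 5) (nat_lit 513) (nat_lit 5) (nat_lit 458) (nat_lit 448) (nat_lit 294)) (XT.lf (nat_lit 0) (nat_lit 8222989945) (nat_lit 1824) (nat_lit 3761611252) (nat_lit 1900) (nat_lit 7956770344) (nat_lit 489) (nat_lit 5) (nat_lit 513) (nat_lit 5) (nat_lit 514) (nat_lit 5) (nat_lit 459) (nat_lit 448) (nat_lit 293))) (XT.nd (nat_lit 78) (nat_lit 0) (nat_lit 0) (XT.lf (nat_lit 0) (nat_lit 10270946911) (nat_lit 1824) (nat_lit 8100336243) (nat_lit 1900) (nat_lit 1879311337) (nat_lit 490) (nat_lit 5) (nat_lit 514) (nat_lit 5) (nat_lit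 515) (nat_lit 5) (nat_lit 460) (nat_lit 448) (nat_lit 292)) (XT.lf (nat_lit 76) (nat_lit 8039756404) (nat_lit 0) (nat_lit 4488597726) (nat_lit 1900) (nat_lit 8037780068) (nat_lit 491) (nat_lit 5) (nat_lit 490) (nat_lit 5) (nat_lit 515) (nat_lit 5) (nat_lit 461) (nat_lit 448) (nat_lit 291)))) (XT.nd (nat_lit 156) (nat_lit 1748) (nat_lit 0) (XT.nd (nat_lit 78) (nat_lit 0) (nat_lit 76) (XT.lf (nat_lit 76) (nat_lit 3863657064) (nat_lit 0) (nat_lit 11124124924) (nat_lit 1900) (nat_lit 5900672428) (nat_lit 492) (nat_lit 5) (nat_lit 491) (nat_lit 5) (nat_lit 516) (nat_lit 5) (nat_lit 462) (nat_lit 448) (nat_lit 290)) (XT.lf (nat_lit 0) (nat_lit 17647308589) (nat_lit 1824) (nat_lit 360734541) (nat_lit 1900) (nat_lit 3209875073) (nat_lit 492) (nat_lit 5) (nat_lit 516) (nat_lit 5) (nat_lit 517) (nat_lit 5) (nat_lit 463) (nat_lit 448) (nat_lit 289))) (XT.nd (nat_lit 78) (nat_lit 1824) (nat_lit 0) (XT.lf (nat_lit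 76) (nat_lit 16943386175) (nat_lit 0) (nat_lit 3618418412) (nat_lit 1900) (nat_lit 991957918) (nat_lit 493) (nat_lit 5) (nat_lit 492) (nat_lit 5) (nat_lit 517) (nat_lit 5) (nat_lit 464) (nat_lit 448) (nat_lit 288)) (XT.lf (nat_lit 0) (nat_lit 1793588487) (nat_lit 1900) (nat_lit 8947053798) (nat_lit 76) (nat_lit 11155796836) (nat_lit 468) (nat_lit 5) (nat_lit 493) (nat_lit 5) (nat_lit 469) (nat_lit 5) (nat_lit 465) (nat_lit 448) (nat_lit 287)))))) (XT.nd (nat_lit 546) (nat_lit 5320) (nat_lit 0) (XT.nd (nat_lit 234) (nat_lit 2660) (nat_lit 0) (XT.nd (nat_lit 78) (nat_lit 1824) (nat_lit 0) (XT.lf (nat_lit 0) (nat_lit 4781188016) (nat_lit 1216) (nat_lit 13345678117) (nat_lit 76) (nat_lit 4119759747) (nat_lit 453) (nat_lit 5) (nat_lit 469) (nat_lit 5) (nat_lit 454) (nat_lit 5) (nat_lit 466) (nat_lit 448) (nat_lit 286)) (XT.nd (nat_lit 78) (nat_lit 912) (nat_lit 0) (XT.lf (nat_lit 0) (nat_lit 4783461491)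 (nat_lit 912) (nat_lit 3230249279) (nat_lit 988) (nat_lit 14590501811) (nat_lit 441) (nat_lit 5) (nat_lit 453) (nat_lit 5) (nat_lit 454) (nat_lit 5) (nat_lit 467) (nat_lit 448) (nat_lit 285)) (XT.lf (nat_lit 0) (nat_lit 589069506) (nat_lit 912) (nat_lit 10919232033) (nat_lit 988) (nat_lit 11460923735) (nat_lit 429) (nat_lit 5) (nat_lit 441) (nat_lit 5) (nat_lit 442) (nat_lit 5) (nat_lit 468) (nat_lit 448) (nat_lit 284)))) (XT.nd (nat_lit 156) (nat_lit 1824) (nat_lit 0) (XT.nd (nat_lit 78) (nat_lit 836) (nat_lit 0) (XT.lf (nat_lit 0) (nat_lit 15271102285) (nat_lit 988) (nat_lit 3606368712) (nat_lit 76) (nat_lit 4464450137) (nat_lit 429) (nat_lit 5) (nat_lit 442) (nat_lit 5) (nat_lit 430) (nat_lit 5) (nat_lit 469) (nat_lit 448) (nat_lit 283)) (XT.lf (nat_lit 0) (nat_lit 15857934143) (nat_lit 836) (nat_lit 3456859243) (nat_lit 912) (nat_lit 4407644579) (nat_lit 418) (nat_lit 5) (nat_lit 429) (nat_lit 5)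 (nat_lit 430) (nat_lit 5) (nat_lit 470) (nat_lit 448) (nat_lit 282))) (XT.nd (nat_lit 78) (nat_lit 912) (nat_lit 0) (XT.lf (nat_lit 0) (nat_lit 11909310473) (nat_lit 912) (nat_lit 11745297324) (nat_lit 988) (nat_lit 456266471) (nat_lit 406) (nat_lit 5) (nat_lit 418) (nat_lit 5) (nat_lit 419) (nat_lit 5) (nat_lit 471) (nat_lit 448) (nat_lit 281)) (XT.lf (nat_lit 0) (nat_lit 3714309631) (nat_lit 912) (nat_lit 16612181004) (nat_lit 76) (nat_lit 4181042979) (nat_lit 394) (nat_lit 5) (nat_lit 406) (nat_lit 5) (nat_lit 395) (nat_lit 5) (nat_lit 472) (nat_lit 448) (nat_lit 280))))) (XT.nd (nat_lit 312) (nat_lit 2964) (nat_lit 0) (XT.nd (nat_lit 156) (nat_lit 1520) (nat_lit 0) (XT.nd (nat_lit 78) (nat_lit 0) (nat_lit 0) (XT.lf (nat_lit 0) (nat_lit 3807858421) (nat_lit 836) (nat_lit 4374989940) (nat_lit 912) (nat_lit 16729603378) (nat_lit 383) (nat_lit 5) (nat_lit 394) (nat_lit 5) (nat_lit 395) (nat_lit 5) (nat_lit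 473) (nat_lit 448) (nat_lit 279)) (XT.lf (nat_lit 0) (nat_lit 12969705478) (nat_lit 912) (nat_lit 346103791) (nat_lit 76) (nat_lit 12010023089) (nat_lit 383) (nat_lit 5) (nat_lit 395) (nat_lit 5) (nat_lit 384) (nat_lit 5) (nat_lit 474) (nat_lit 448) (nat_lit 278))) (XT.nd (nat_lit 78) (nat_lit 760) (nat_lit 0) (XT.lf (nat_lit 0) (nat_lit 18081351161) (nat_lit 836) (nat_lit 4491842363) (nat_lit 76) (nat_lit 3174797403) (nat_lit 373) (nat_lit 5) (nat_lit 384) (nat_lit 5) (nat_lit 374) (nat_lit 5) (nat_lit 475) (nat_lit 448) (nat_lit 277)) (XT.lf (nat_lit 0) (nat_lit 17460874504) (nat_lit 760) (nat_lit 6083296565) (nat_lit 836) (nat_lit 2634686871) (nat_lit 363) (nat_lit 5) (nat_lit 373) (nat_lit 5) (nat_lit 374) (nat_lit 5) (nat_lit 476) (nat_lit 448) (nat_lit 276)))) (XT.nd (nat_lit 156) (nat_lit 1368) (nat_lit 0) (XT.nd (nat_lit 78) (nat_lit 760) (nat_lit 0) (XT.lf (nat_lit 0) (nat_lit 2699008367) (nat_lit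 836) (nat_lit 13025106152) (nat_lit 76) (nat_lit 10894521640) (nat_lit 352) (nat_lit 5) (nat_lit 363) (nat_lit 5) (nat_lit 353) (nat_lit 5) (nat_lit 477) (nat_lit 448) (nat_lit 275)) (XT.lf (nat_lit 0) (nat_lit 8322351751) (nat_lit 836) (nat_lit 17392895937) (nat_lit 76) (nat_lit 1352703253) (nat_lit 342) (nat_lit 5) (nat_lit 353) (nat_lit 5) (nat_lit 343) (nat_lit 5) (nat_lit 478) (nat_lit 448) (nat_lit 274))) (XT.nd (nat_lit 78) (nat_lit 684) (nat_lit 0) (XT.lf (nat_lit 0) (nat_lit 5666626142) (nat_lit 684) (nat_lit 8672008039) (nat_lit 760) (nat_lit 13187626378) (nat_lit 333) (nat_lit 5) (nat_lit 342) (nat_lit 5) (nat_lit 343) (nat_lit 5) (nat_lit 479) (nat_lit 448) (nat_lit 273)) (XT.lf (nat_lit 0) (nat_lit 1615295847) (nat_lit 684) (nat_lit 19100491623) (nat_lit 760) (nat_lit 7278924505) (nat_lit 324) (nat_lit 5) (nat_lit 333) (nat_lit 5) (nat_lit 334) (nat_lit 5) (nat_lit 480) (nat_lit 448) (nat_lit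 272))))))))
noncomputable def xc98 : XT := (XT.nd (nat_lit 2262) (nat_lit 684) (nat_lit 0) (XT.nd (nat_lit 1092) (nat_lit 5624) (nat_lit 0) (XT.nd (nat_lit 546) (nat_lit 3344) (nat_lit 0) (XT.nd (nat_lit 234) (nat_lit 2508) (nat_lit 0) (XT.nd (nat_lit 78) (nat_lit 1444) (nat_lit 0) (XT.lf (nat_lit 0) (nat_lit 26027563753) (nat_lit 684) (nat_lit 1456153761) (nat_lit 760) (nat_lit 989510333) (nat_lit 324) (nat_lit 5) (nat_lit 333) (nat_lit 5) (nat_lit 334) (nat_lit 5) (nat_lit 481) (nat_lit 448) (nat_lit 271)) (XT.nd (nat_lit 78) (nat_lit 684) (nat_lit 0) (XT.lf (nat_lit 0) (nat_lit 5666013599) (nat_lit 760) (nat_lit 6614557484) (nat_lit 76) (nat_lit 16679827327) (nat_lit 314) (nat_lit 5) (nat_lit 324) (nat_lit 5) (nat_lit 315) (nat_lit 5) (nat_lit 482) (nat_lit 448) (nat_lit 270)) (XT.lf (nat_lit 0) (nat_lit 12688604844) (nat_lit 760) (nat_lit 10824398369) (nat_lit 76) (nat_lit 5945433302) (nat_lit 305)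 (nat_lit 5) (nat_lit 315) (nat_lit 5) (nat_lit 306) (nat_lit 5) (nat_lit 483) (nat_lit 448) (nat_lit 269)))) (XT.nd (nat_lit 156) (nat_lit 1292) (nat_lit 0) (XT.nd (nat_lit 78) (nat_lit 608) (nat_lit 0) (XT.lf (nat_lit 0) (nat_lit 14865434298) (nat_lit 608) (nat_lit 5274311461) (nat_lit 684) (nat_lit 9827312707) (nat_lit 297) (nat_lit 5) (nat_lit 305) (nat_lit 5) (nat_lit 306) (nat_lit 5) (nat_lit 484) (nat_lit 448) (nat_lit 268)) (XT.lf (nat_lit 0) (nat_lit 11033947381) (nat_lit 608) (nat_lit 17007902019) (nat_lit 684) (nat_lit 2444541239) (nat_lit 289) (nat_lit 5) (nat_lit 297) (nat_lit 5) (nat_lit 298) (nat_lit 5) (nat_lit 485) (nat_lit 448) (nat_lit 267))) (XT.nd (nat_lit 78) (nat_lit 608) (nat_lit 0) (XT.lf (nat_lit 0) (nat_lit 5283367081) (nat_lit 684) (nat_lit 23870996024) (nat_lit 76) (nat_lit 1862443311) (nat_lit 280) (nat_lit 5) (nat_lit 289) (nat_lit 5) (nat_lit 281) (nat_lit 5) (nat_lit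 486) (nat_lit 448) (nat_lit 266)) (XT.lf (nat_lit 0) (nat_lit 3150993774) (nat_lit 608) (nat_lit 10320405421) (nat_lit 684) (nat_lit 18086182462) (nat_lit 272) (nat_lit 5) (nat_lit 280) (nat_lit 5) (nat_lit 281) (nat_lit 5) (nat_lit 487) (nat_lit 448) (nat_lit 265))))) (XT.nd (nat_lit 234) (nat_lit 2128) (nat_lit 0) (XT.nd (nat_lit 78) (nat_lit 1216) (nat_lit 0) (XT.lf (nat_lit 0) (nat_lit 22121373943) (nat_lit 684) (nat_lit 868103603) (nat_lit 76) (nat_lit 9120776697) (nat_lit 272) (nat_lit 5) (nat_lit 281) (nat_lit 5) (nat_lit 273) (nat_lit 5) (nat_lit 488) (nat_lit 448) (nat_lit 264)) (XT.nd (nat_lit 78) (nat_lit 684) (nat_lit 0) (XT.lf (nat_lit 0) (nat_lit 27784994661) (nat_lit 532) (nat_lit 3489957280) (nat_lit 608) (nat_lit 1399673105) (nat_lit 265) (nat_lit 5) (nat_lit 272) (nat_lit 5) (nat_lit 273) (nat_lit 5) (nat_lit 489) (nat_lit 448) (nat_lit 263)) (XT.lf (nat_lit 0) (nat_lit 7617246348)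 (nat_lit 684) (nat_lit 9043516360) (nat_lit 76) (nat_lit 16588843180) (nat_lit 256) (nat_lit 5) (nat_lit 265) (nat_lit 5) (nat_lit 257) (nat_lit 5) (nat_lit 490) (nat_lit 448) (nat_lit 262)))) (XT.nd (nat_lit 156) (nat_lit 1064) (nat_lit 0) (XT.nd (nat_lit 78) (nat_lit 532) (nat_lit 0) (XT.lf (nat_lit 0) (nat_lit 17094385011) (nat_lit 608) (nat_lit 13229817351) (nat_lit 76) (nat_lit 3513274312) (nat_lit 249) (nat_lit 5) (nat_lit 257) (nat_lit 5) (nat_lit 250) (nat_lit 5) (nat_lit 491) (nat_lit 448) (nat_lit 261)) (XT.lf (nat_lit 0) (nat_lit 16933823481) (nat_lit 532) (nat_lit 10200022033) (nat_lit 608) (nat_lit 7303578021) (nat_lit 242) (nat_lit 5) (nat_lit 249) (nat_lit 5) (nat_lit 250) (nat_lit 5) (nat_lit 492) (nat_lit 448) (nat_lit 260))) (XT.nd (nat_lit 78) (nat_lit 532) (nat_lit 0) (XT.lf (nat_lit 0) (nat_lit 2628507639) (nat_lit 532) (nat_lit 21840267470) (nat_lit 76) (nat_lit 10581457387) (nat_lit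 235) (nat_lit 5) (nat_lit 242) (nat_lit 5) (nat_lit 236) (nat_lit 5) (nat_lit 493) (nat_lit 448) (nat_lit 259)) (XT.lf (nat_lit 0) (nat_lit 9404198613) (nat_lit 532) (nat_lit 3599478241) (nat_lit 608) (nat_lit 22671896477) (nat_lit 228) (nat_lit 5) (nat_lit 235) (nat_lit 5) (nat_lit 236) (nat_lit 5) (nat_lit 494) (nat_lit 448) (nat_lit 258)))))) (XT.nd (nat_lit 546) (nat_lit 2812) (nat_lit 0) (XT.nd (nat_lit 234) (nat_lit 1824) (nat_lit 0) (XT.nd (nat_lit 78) (nat_lit 532) (nat_lit 0) (XT.lf (nat_lit 0) (nat_lit 5516668654) (nat_lit 456) (nat_lit 18469622388) (nat_lit 532) (nat_lit 12327459647) (nat_lit 222) (nat_lit 5) (nat_lit 228) (nat_lit 5) (nat_lit 229) (nat_lit 5) (nat_lit 495) (nat_lit 448) (nat_lit 257)) (XT.nd (nat_lit 78) (nat_lit 76) (nat_lit 0) (XT.lf (nat_lit 0) (nat_lit 1620989788) (nat_lit 456) (nat_lit 33905225249) (nat_lit 532) (nat_lit 1440301793) (nat_lit 216) (nat_lit 5) (nat_lit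 222) (nat_lit 5) (nat_lit 223) (nat_lit 5) (nat_lit 496) (nat_lit 448) (nat_lit 256)) (XT.lf (nat_lit 0) (nat_lit 9974228334) (nat_lit 532) (nat_lit 2396558921) (nat_lit 76) (nat_lit 25260230906) (nat_lit 215) (nat_lit 5) (nat_lit 222) (nat_lit 5) (nat_lit 216) (nat_lit 5) (nat_lit 497) (nat_lit 448) (nat_lit 255)))) (XT.nd (nat_lit 156) (nat_lit 912) (nat_lit 0) (XT.nd (nat_lit 78) (nat_lit 456) (nat_lit 0) (XT.lf (nat_lit 0) (nat_lit 21979739561) (nat_lit 532) (nat_lit 6432604921) (nat_lit 76) (nat_lit 9897557460) (nat_lit 209) (nat_lit 5) (nat_lit 216) (nat_lit 5) (nat_lit 210) (nat_lit 5) (nat_lit 498) (nat_lit 448) (nat_lit 254)) (XT.lf (nat_lit 0) (nat_lit 28487680437) (nat_lit 456) (nat_lit 6137336759) (nat_lit 532) (nat_lit 4378543103) (nat_lit 203) (nat_lit 5) (nat_lit 209) (nat_lit 5) (nat_lit 210) (nat_lit 5) (nat_lit 499) (nat_lit 448) (nat_lit 253))) (XT.nd (nat_lit 78) (nat_lit 456) (nat_lit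 0) (XT.lf (nat_lit 0) (nat_lit 8140863061) (nat_lit 456) (nat_lit 14726326140) (nat_lit 76) (nat_lit 16843544077) (nat_lit 197) (nat_lit 5) (nat_lit 203) (nat_lit 5) (nat_lit 198) (nat_lit 5) (nat_lit 500) (nat_lit 448) (nat_lit 252)) (XT.lf (nat_lit 0) (nat_lit 21226038290) (nat_lit 532) (nat_lit 18974874582) (nat_lit 76) (nat_lit 232636324) (nat_lit 191) (nat_lit 5) (nat_lit 198) (nat_lit 5) (nat_lit 192) (nat_lit 5) (nat_lit 501) (nat_lit 448) (nat_lit 251))))) (XT.nd (nat_lit 312) (nat_lit 1216) (nat_lit 0) (XT.nd (nat_lit 156) (nat_lit 760) (nat_lit 0) (XT.nd (nat_lit 78) (nat_lit 456) (nat_lit 0) (XT.lf (nat_lit 0) (nat_lit 17828649815) (nat_lit 380) (nat_lit 17240016346) (nat_lit 456) (nat_lit 6102085557) (nat_lit 186) (nat_lit 5) (nat_lit 191) (nat_lit 5) (nat_lit 192) (nat_lit 5) (nat_lit 502) (nat_lit 448) (nat_lit 250)) (XT.lf (nat_lit 0) (nat_lit 7560331547) (nat_lit 456) (nat_lit 27768574141)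 (nat_lit 76) (nat_lit 6594987530) (nat_lit 180) (nat_lit 5) (nat_lit 186) (nat_lit 5) (nat_lit 181) (nat_lit 5) (nat_lit 503) (nat_lit 448) (nat_lit 249))) (XT.nd (nat_lit 78) (nat_lit 380) (nat_lit 0) (XT.lf (nat_lit 0) (nat_lit 10373350317) (nat_lit 380) (nat_lit 11514594180) (nat_lit 456) (nat_lit 20804113304) (nat_lit 175) (nat_lit 5) (nat_lit 180) (nat_lit 5) (nat_lit 181) (nat_lit 5) (nat_lit 504) (nat_lit 448) (nat_lit 248)) (XT.lf (nat_lit 0) (nat_lit 6554120623) (nat_lit 380) (nat_lit 30403686965) (nat_lit 456) (nat_lit 6519211365) (nat_lit 170) (nat_lit 5) (nat_lit 175) (nat_lit 5) (nat_lit 176) (nat_lit 5) (nat_lit 505) (nat_lit 448) (nat_lit 247)))) (XT.nd (nat_lit 156) (nat_lit 760) (nat_lit 0) (XT.nd (nat_lit 78) (nat_lit 0) (nat_lit 0) (XT.lf (nat_lit 0) (nat_lit 2651308124) (nat_lit 380) (nat_lit 5746138449) (nat_lit 456) (nat_lit 35880804824) (nat_lit 164) (nat_lit 5) (nat_lit 169)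 (nat_lit 5) (nat_lit 170) (nat_lit 5) (nat_lit 506) (nat_lit 448) (nat_lit 246)) (XT.lf (nat_lit 0) (nat_lit 24049056254) (nat_lit 456) (nat_lit 1359352236) (nat_lit 76) (nat_lit 19686730096) (nat_lit 164) (nat_lit 5) (nat_lit 170) (nat_lit 5) (nat_lit 165) (nat_lit 5) (nat_lit 507) (nat_lit 448) (nat_lit 245))) (XT.nd (nat_lit 78) (nat_lit 380) (nat_lit 0) (XT.lf (nat_lit 0) (nat_lit 40469340366) (nat_lit 456) (nat_lit 5327038362) (nat_lit 76) (nat_lit 134171199) (nat_lit 159) (nat_lit 5) (nat_lit 165) (nat_lit 5) (nat_lit 160) (nat_lit 5) (nat_lit 508) (nat_lit 448) (nat_lit 244)) (XT.lf (nat_lit 0) (nat_lit 10873119510) (nat_lit 380) (nat_lit 9486994358) (nat_lit 76) (nat_lit 26421118179) (nat_lit 154) (nat_lit 5) (nat_lit 159) (nat_lit 5) (nat_lit 155) (nat_lit 5) (nat_lit 509) (nat_lit 448) (nat_lit 243))))))) (XT.nd (nat_lit 58734) (nat_lit 0) (nat_lit 17328) (XT.nd (nat_lit 58110) (nat_lit 0)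 (nat_lit 25840) (XT.nd (nat_lit 57798) (nat_lit 0) (nat_lit 27436) (XT.nd (nat_lit 78) (nat_lit 304) (nat_lit 0) (XT.lf (nat_lit 0) (nat_lit 27917017082) (nat_lit 456) (nat_lit 13677663983) (nat_lit 76) (nat_lit 6056156949) (nat_lit 149) (nat_lit 5) (nat_lit 155) (nat_lit 5) (nat_lit 150) (nat_lit 5) (nat_lit 510) (nat_lit 448) (nat_lit 242)) (XT.nd (nat_lit 57642) (nat_lit 0) (nat_lit 27436) (XT.lf (nat_lit 0) (nat_lit 30580402319) (nat_lit 304) (nat_lit 15287595728) (nat_lit 380) (nat_lit 2670618837) (nat_lit 145) (nat_lit 5) (nat_lit 149) (nat_lit 5) (nat_lit 150) (nat_lit 5) (nat_lit 511) (nat_lit 448) (nat_lit 241)) (XT.lf (nat_lit 0) (nat_lit 3642568676) (nat_lit 0) (nat_lit 3642568676) (nat_lit 1748) (nat_lit 1428726615) (nat_lit 506) (nat_lit 5) (nat_lit 506) (nat_lit 3) (nat_lit 529) (nat_lit 3) (nat_lit 449) (nat_lit 449) (nat_lit 302)))) (XT.nd (nat_lit 156) (nat_lit 0) (nat_lit 76) (XT.nd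 (nat_lit 78) (nat_lit 0) (nat_lit 76) (XT.lf (nat_lit 76) (nat_lit 2879371015) (nat_lit 0) (nat_lit 12290170455) (nat_lit 1824) (nat_lit 2511977981) (nat_lit 507) (nat_lit 5) (nat_lit 506) (nat_lit 5) (nat_lit 530) (nat_lit 5) (nat_lit 450) (nat_lit 449) (nat_lit 301)) (XT.lf (nat_lit 0) (nat_lit 15894301920) (nat_lit 1748) (nat_lit 1569278527) (nat_lit 1824) (nat_lit 477194348) (nat_lit 507) (nat_lit 5) (nat_lit 530) (nat_lit 5) (nat_lit 531) (nat_lit 5) (nat_lit 451) (nat_lit 449) (nat_lit 300))) (XT.nd (nat_lit 78) (nat_lit 0) (nat_lit 76) (XT.lf (nat_lit 76) (nat_lit 12130634289) (nat_lit 0) (nat_lit 4658778432) (nat_lit 1824) (nat_lit 1415423312) (nat_lit 508) (nat_lit 5) (nat_lit 507) (nat_lit 5) (nat_lit 531) (nat_lit 5) (nat_lit 452) (nat_lit 449) (nat_lit 299)) (XT.lf (nat_lit 76) (nat_lit 7826598958) (nat_lit 0) (nat_lit 9989688895) (nat_lit 1824) (nat_lit 658433408) (nat_lit 509) (nat_lit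 5) (nat_lit 508) (nat_lit 5) (nat_lit 532) (nat_lit 5) (nat_lit 453) (nat_lit 449) (nat_lit 298))))) (XT.nd (nat_lit 312) (nat_lit 0) (nat_lit 152) (XT.nd (nat_lit 156) (nat_lit 0) (nat_lit 76) (XT.nd (nat_lit 78) (nat_lit 0) (nat_lit 0) (XT.lf (nat_lit 0) (nat_lit 224396107) (nat_lit 1824) (nat_lit 15290222816) (nat_lit 1900) (nat_lit 3235974325) (nat_lit 485) (nat_lit 5) (nat_lit 509) (nat_lit 5) (nat_lit 510) (nat_lit 5) (nat_lit 454) (nat_lit 449) (nat_lit 297)) (XT.lf (nat_lit 0) (nat_lit 1252815758) (nat_lit 1824) (nat_lit 974314239) (nat_lit 1900) (nat_lit 16804963682) (nat_lit 485) (nat_lit 5) (nat_lit 509) (nat_lit 5) (nat_lit 510) (nat_lit 5) (nat_lit 455) (nat_lit 449) (nat_lit 296))) (XT.nd (nat_lit 78) (nat_lit 0) (nat_lit 76) (XT.lf (nat_lit 0) (nat_lit 2466561475) (nat_lit 1824) (nat_lit 5448478034) (nat_lit 1900) (nat_lit 11403910478) (nat_lit 486) (nat_lit 5) (nat_lit 510) (nat_lit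 5) (nat_lit 511) (nat_lit 5) (nat_lit 456) (nat_lit 449) (nat_lit 295)) (XT.lf (nat_lit 0) (nat_lit 3828344607) (nat_lit 1824) (nat_lit 9986730778) (nat_lit 1900) (nat_lit 5797104426) (nat_lit 487) (nat_lit 5) (nat_lit 511) (nat_lit 5) (nat_lit 512) (nat_lit 5) (nat_lit 457) (nat_lit 449) (nat_lit 294)))) (XT.nd (nat_lit 156) (nat_lit 0) (nat_lit 152) (XT.nd (nat_lit 78) (nat_lit 0) (nat_lit 76) (XT.lf (nat_lit 76) (nat_lit 5322091510) (nat_lit 0) (nat_lit 23031811) (nat_lit 1900) (nat_lit 14566800681) (nat_lit 488) (nat_lit 5) (nat_lit 487) (nat_lit 5) (nat_lit 512) (nat_lit 5) (nat_lit 458) (nat_lit 449) (nat_lit 293)) (XT.lf (nat_lit 76) (nat_lit 919755600) (nat_lit 0) (nat_lit 6143598055) (nat_lit 1900) (nat_lit 13154188206) (nat_lit 489) (nat_lit 5) (nat_lit 488) (nat_lit 5) (nat_lit 513) (nat_lit 5) (nat_lit 459) (nat_lit 449) (nat_lit 292))) (XT.nd (nat_lit 78) (nat_lit 0) (nat_lit 76) (XT.lf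 (nat_lit 0) (nat_lit 8975182635) (nat_lit 1824) (nat_lit 3496602942) (nat_lit 1900) (nat_lit 8057701941) (nat_lit 489) (nat_lit 5) (nat_lit 513) (nat_lit 5) (nat_lit 514) (nat_lit 5) (nat_lit 460) (nat_lit 449) (nat_lit 291)) (XT.lf (nat_lit 0) (nat_lit 11071479774) (nat_lit 1824) (nat_lit 7960952786) (nat_lit 1900) (nat_lit 1815817009) (nat_lit 490) (nat_lit 5) (nat_lit 514) (nat_lit 5) (nat_lit 515) (nat_lit 5) (nat_lit 461) (nat_lit 449) (nat_lit 290)))))) (XT.nd (nat_lit 546) (nat_lit 5168) (nat_lit 0) (XT.nd (nat_lit 234) (nat_lit 3724) (nat_lit 0) (XT.nd (nat_lit 78) (nat_lit 0) (nat_lit 76) (XT.lf (nat_lit 76) (nat_lit 8657138759) (nat_lit 0) (nat_lit 4727571046) (nat_lit 1900) (nat_lit 7788784077) (nat_lit 491) (nat_lit 5) (nat_lit 490) (nat_lit 5) (nat_lit 515) (nat_lit 5) (nat_lit 462) (nat_lit 449) (nat_lit 289)) (XT.nd (nat_lit 78) (nat_lit 0) (nat_lit 76) (XT.lf (nat_lit 76) (nat_lit 4359787704)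 (nat_lit 0) (nat_lit 11545948591) (nat_lit 1900) (nat_lit 5599991511) (nat_lit 492) (nat_lit 5) (nat_lit 491) (nat_lit 5) (nat_lit 516) (nat_lit 5) (nat_lit 463) (nat_lit 449) (nat_lit 288)) (XT.lf (nat_lit 76) (nat_lit 7348707) (nat_lit 0) (nat_lit 18623551943) (nat_lit 1900) (nat_lit 3214458220) (nat_lit 493) (nat_lit 5) (nat_lit 492) (nat_lit 5) (nat_lit 517) (nat_lit 5) (nat_lit 464) (nat_lit 449) (nat_lit 287)))) (XT.nd (nat_lit 156) (nat_lit 2052) (nat_lit 0) (XT.nd (nat_lit 78) (nat_lit 1824) (nat_lit 0) (XT.lf (nat_lit 76) (nat_lit 17824350942) (nat_lit 0) (nat_lit 3797625506) (nat_lit 1900) (nat_lit 569519546) (nat_lit 493) (nat_lit 5) (nat_lit 492) (nat_lit 5) (nat_lit 517) (nat_lit 5) (nat_lit 465) (nat_lit 449) (nat_lit 286)) (XT.lf (nat_lit 0) (nat_lit 2282672354) (nat_lit 1900) (nat_lit 8833864629) (nat_lit 76) (nat_lit 11428077383) (nat_lit 468) (nat_lit 5) (nat_lit 493) (nat_lit 5) (nat_lit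 469) (nat_lit 5) (nat_lit 466) (nat_lit 449) (nat_lit 285))) (XT.nd (nat_lit 78) (nat_lit 912) (nat_lit 0) (XT.lf (nat_lit 0) (nat_lit 5349337126) (nat_lit 1216) (nat_lit 13361803737) (nat_lit 76) (nat_lit 4194377481) (nat_lit 453) (nat_lit 5) (nat_lit 469) (nat_lit 5) (nat_lit 454) (nat_lit 5) (nat_lit 467) (nat_lit 449) (nat_lit 284)) (XT.lf (nat_lit 0) (nat_lit 5304976146) (nat_lit 912) (nat_lit 3363943418) (nat_lit 988) (nat_lit 14605111753) (nat_lit 441) (nat_lit 5) (nat_lit 453) (nat_lit 5) (nat_lit 454) (nat_lit 5) (nat_lit 468) (nat_lit 449) (nat_lit 283))))) (XT.nd (nat_lit 312) (nat_lit 2508) (nat_lit 0) (XT.nd (nat_lit 156) (nat_lit 1748) (nat_lit 0) (XT.nd (nat_lit 78) (nat_lit 0) (nat_lit 0) (XT.lf (nat_lit 0) (nat_lit 987027454) (nat_lit 912) (nat_lit 11271476305) (nat_lit 988) (nat_lit 11391687859) (nat_lit 429) (nat_lit 5) (nat_lit 441) (nat_lit 5) (nat_lit 442) (nat_lit 5) (nat_lit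 469) (nat_lit 449) (nat_lit 282)) (XT.lf (nat_lit 0) (nat_lit 16122238282) (nat_lit 988) (nat_lit 3337320517) (nat_lit 76) (nat_lit 4574748889) (nat_lit 429) (nat_lit 5) (nat_lit 442) (nat_lit 5) (nat_lit 430) (nat_lit 5) (nat_lit 470) (nat_lit 449) (nat_lit 281))) (XT.nd (nat_lit 78) (nat_lit 912) (nat_lit 0) (XT.lf (nat_lit 0) (nat_lit 16704791165) (nat_lit 836) (nat_lit 3573411815) (nat_lit 912) (nat_lit 4148218109) (nat_lit 418) (nat_lit 5) (nat_lit 429) (nat_lit 5) (nat_lit 430) (nat_lit 5) (nat_lit 471) (nat_lit 449) (nat_lit 280)) (XT.lf (nat_lit 0) (nat_lit 12639335131) (nat_lit 912) (nat_lit 12100032351) (nat_lit 988) (nat_lit 87320196) (nat_lit 406) (nat_lit 5) (nat_lit 418) (nat_lit 5) (nat_lit 419) (nat_lit 5) (nat_lit 472) (nat_lit 449) (nat_lit 279)))) (XT.nd (nat_lit 156) (nat_lit 760) (nat_lit 0) (XT.nd (nat_lit 78) (nat_lit 836) (nat_lit 0) (XT.lf (nat_lit 0) (nat_lit 4194786290) (nat_lit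 912) (nat_lit 16731528000) (nat_lit 76) (nat_lit 4309054498) (nat_lit 394) (nat_lit 5) (nat_lit 406) (nat_lit 5) (nat_lit 395) (nat_lit 5) (nat_lit 473) (nat_lit 449) (nat_lit 278)) (XT.lf (nat_lit 0) (nat_lit 4294963484) (nat_lit 836) (nat_lit 4494089659) (nat_lit 912) (nat_lit 16863548161) (nat_lit 383) (nat_lit 5) (nat_lit 394) (nat_lit 5) (nat_lit 395) (nat_lit 5) (nat_lit 474) (nat_lit 449) (nat_lit 277))) (XT.nd (nat_lit 78) (nat_lit 0) (nat_lit 0) (XT.lf (nat_lit 0) (nat_lit 12624701) (nat_lit 760) (nat_lit 13696543440) (nat_lit 836) (nat_lit 12369422437) (nat_lit 373) (nat_lit 5) (nat_lit 383) (nat_lit 5) (nat_lit 384) (nat_lit 5) (nat_lit 475) (nat_lit 449) (nat_lit 276)) (XT.lf (nat_lit 0) (nat_lit 18966368408) (nat_lit 836) (nat_lit 4256912604) (nat_lit 76) (nat_lit 3290289060) (nat_lit 373) (nat_lit 5) (nat_lit 384) (nat_lit 5) (nat_lit 374) (nat_lit 5) (nat_lit 476) (nat_lit 449) (nat_lit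 275))))))))
noncomputable def xc99 : XT := (XT.nd (nat_lit 2262) (nat_lit 1976) (nat_lit 0) (XT.nd (nat_lit 1092) (nat_lit 6840) (nat_lit 0) (XT.nd (nat_lit 546) (nat_lit 3724) (nat_lit 0) (XT.nd (nat_lit 234) (nat_lit 2128) (nat_lit 0) (XT.nd (nat_lit 78) (nat_lit 1596) (nat_lit 0) (XT.lf (nat_lit 0) (nat_lit 18348388069) (nat_lit 760) (nat_lit 6237068181) (nat_lit 836) (nat_lit 2372059442) (nat_lit 363) (nat_lit 5) (nat_lit 373) (nat_lit 5) (nat_lit 374) (nat_lit 5) (nat_lit 477) (nat_lit 449) (nat_lit 274)) (XT.nd (nat_lit 78) (nat_lit 760) (nat_lit 0) (XT.lf (nat_lit 0) (nat_lit 3109907223) (nat_lit 836) (nat_lit 13047263795) (nat_lit 76) (nat_lit 11253417292) (nat_lit 352) (nat_lit 5) (nat_lit 363) (nat_lit 5) (nat_lit 353) (nat_lit 5) (nat_lit 478) (nat_lit 449) (nat_lit 273)) (XT.lf (nat_lit 0) (nat_lit 8894955009) (nat_lit 836) (nat_lit 17545865044) (nat_lit 76) (nat_lit 1432702645) (nat_lit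 342) (nat_lit 5) (nat_lit 353) (nat_lit 5) (nat_lit 343) (nat_lit 5) (nat_lit 479) (nat_lit 449) (nat_lit 272)))) (XT.nd (nat_lit 156) (nat_lit 760) (nat_lit 0) (XT.nd (nat_lit 78) (nat_lit 684) (nat_lit 0) (XT.lf (nat_lit 0) (nat_lit 6199459068) (nat_lit 684) (nat_lit 8885216796) (nat_lit 760) (nat_lit 13261046976) (nat_lit 333) (nat_lit 5) (nat_lit 342) (nat_lit 5) (nat_lit 343) (nat_lit 5) (nat_lit 480) (nat_lit 449) (nat_lit 271)) (XT.lf (nat_lit 0) (nat_lit 2026625328) (nat_lit 684) (nat_lit 19619969917) (nat_lit 760) (nat_lit 7181763754) (nat_lit 324) (nat_lit 5) (nat_lit 333) (nat_lit 5) (nat_lit 334) (nat_lit 5) (nat_lit 481) (nat_lit 449) (nat_lit 270))) (XT.nd (nat_lit 78) (nat_lit 760) (nat_lit 0) (XT.lf (nat_lit 0) (nat_lit 27160692225) (nat_lit 684) (nat_lit 1447861233) (nat_lit 760) (nat_lit 712857307) (nat_lit 324) (nat_lit 5) (nat_lit 333) (nat_lit 5) (nat_lit 334) (nat_lit 5) (nat_lit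 482) (nat_lit 449) (nat_lit 269)) (XT.lf (nat_lit 0) (nat_lit 6132140680) (nat_lit 760) (nat_lit 6456881264) (nat_lit 76) (nat_lit 17234258412) (nat_lit 314) (nat_lit 5) (nat_lit 324) (nat_lit 5) (nat_lit 315) (nat_lit 5) (nat_lit 483) (nat_lit 449) (nat_lit 268))))) (XT.nd (nat_lit 234) (nat_lit 1824) (nat_lit 0) (XT.nd (nat_lit 78) (nat_lit 1216) (nat_lit 0) (XT.lf (nat_lit 0) (nat_lit 13359451707) (nat_lit 760) (nat_lit 10793385171) (nat_lit 76) (nat_lit 6183542094) (nat_lit 305) (nat_lit 5) (nat_lit 315) (nat_lit 5) (nat_lit 306) (nat_lit 5) (nat_lit 484) (nat_lit 449) (nat_lit 267)) (XT.nd (nat_lit 78) (nat_lit 608) (nat_lit 0) (XT.lf (nat_lit 0) (nat_lit 15661370934) (nat_lit 608) (nat_lit 5366576077) (nat_lit 684) (nat_lit 9832436365) (nat_lit 297) (nat_lit 5) (nat_lit 305) (nat_lit 5) (nat_lit 306) (nat_lit 5) (nat_lit 485) (nat_lit 449) (nat_lit 266)) (XT.lf (nat_lit 0) (nat_lit 11714434747)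 (nat_lit 608) (nat_lit 17447091708) (nat_lit 684) (nat_lit 2233881001) (nat_lit 289) (nat_lit 5) (nat_lit 297) (nat_lit 5) (nat_lit 298) (nat_lit 5) (nat_lit 486) (nat_lit 449) (nat_lit 265)))) (XT.nd (nat_lit 156) (nat_lit 532) (nat_lit 0) (XT.nd (nat_lit 78) (nat_lit 608) (nat_lit 0) (XT.lf (nat_lit 0) (nat_lit 5716707298) (nat_lit 684) (nat_lit 24234637397) (nat_lit 76) (nat_lit 1990462970) (nat_lit 280) (nat_lit 5) (nat_lit 289) (nat_lit 5) (nat_lit 281) (nat_lit 5) (nat_lit 487) (nat_lit 449) (nat_lit 264)) (XT.lf (nat_lit 0) (nat_lit 3592293389) (nat_lit 608) (nat_lit 10552333422) (nat_lit 684) (nat_lit 18354294603) (nat_lit 272) (nat_lit 5) (nat_lit 280) (nat_lit 5) (nat_lit 281) (nat_lit 5) (nat_lit 488) (nat_lit 449) (nat_lit 263))) (XT.nd (nat_lit 78) (nat_lit 532) (nat_lit 0) (XT.lf (nat_lit 0) (nat_lit 23046753042) (nat_lit 684) (nat_lit 552735917) (nat_lit 76) (nat_lit 9468832348) (nat_lit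 272) (nat_lit 5) (nat_lit 281) (nat_lit 5) (nat_lit 273) (nat_lit 5) (nat_lit 489) (nat_lit 449) (nat_lit 262)) (XT.lf (nat_lit 0) (nat_lit 28954416310) (nat_lit 532) (nat_lit 3515079338) (nat_lit 608) (nat_lit 1180236608) (nat_lit 265) (nat_lit 5) (nat_lit 272) (nat_lit 5) (nat_lit 273) (nat_lit 5) (nat_lit 490) (nat_lit 449) (nat_lit 261)))))) (XT.nd (nat_lit 546) (nat_lit 3116) (nat_lit 0) (XT.nd (nat_lit 234) (nat_lit 1976) (nat_lit 0) (XT.nd (nat_lit 78) (nat_lit 1064) (nat_lit 0) (XT.lf (nat_lit 0) (nat_lit 8098941405) (nat_lit 684) (nat_lit 8976489194) (nat_lit 76) (nat_lit 17166594547) (nat_lit 256) (nat_lit 5) (nat_lit 265) (nat_lit 5) (nat_lit 257) (nat_lit 5) (nat_lit 491) (nat_lit 449) (nat_lit 260)) (XT.nd (nat_lit 78) (nat_lit 532) (nat_lit 0) (XT.lf (nat_lit 0) (nat_lit 17855732253) (nat_lit 608) (nat_lit 13289454849) (nat_lit 76) (nat_lit 3702438348) (nat_lit 249) (nat_lit 5) (nat_lit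 257) (nat_lit 5) (nat_lit 250) (nat_lit 5) (nat_lit 492) (nat_lit 449) (nat_lit 259)) (XT.lf (nat_lit 0) (nat_lit 17773623613) (nat_lit 532) (nat_lit 10417668808) (nat_lit 608) (nat_lit 7274380131) (nat_lit 242) (nat_lit 5) (nat_lit 249) (nat_lit 5) (nat_lit 250) (nat_lit 5) (nat_lit 493) (nat_lit 449) (nat_lit 258)))) (XT.nd (nat_lit 156) (nat_lit 912) (nat_lit 0) (XT.nd (nat_lit 78) (nat_lit 532) (nat_lit 0) (XT.lf (nat_lit 0) (nat_lit 2947995728) (nat_lit 532) (nat_lit 22161639919) (nat_lit 76) (nat_lit 10987286353) (nat_lit 235) (nat_lit 5) (nat_lit 242) (nat_lit 5) (nat_lit 236) (nat_lit 5) (nat_lit 494) (nat_lit 449) (nat_lit 257)) (XT.lf (nat_lit 0) (nat_lit 10014744061) (nat_lit 532) (nat_lit 3614799551) (nat_lit 608) (nat_lit 23111577116) (nat_lit 228) (nat_lit 5) (nat_lit 235) (nat_lit 5) (nat_lit 236) (nat_lit 5) (nat_lit 495) (nat_lit 449) (nat_lit 256))) (XT.nd (nat_lit 78) (nat_lit 456)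 (nat_lit 0) (XT.lf (nat_lit 0) (nat_lit 6009311348) (nat_lit 456) (nat_lit 18928166318) (nat_lit 532) (nat_lit 12461049047) (nat_lit 222) (nat_lit 5) (nat_lit 228) (nat_lit 5) (nat_lit 229) (nat_lit 5) (nat_lit 496) (nat_lit 449) (nat_lit 255)) (XT.lf (nat_lit 0) (nat_lit 1995405614) (nat_lit 456) (nat_lit 34824165689) (nat_lit 532) (nat_lit 1251385230) (nat_lit 216) (nat_lit 5) (nat_lit 222) (nat_lit 5) (nat_lit 223) (nat_lit 5) (nat_lit 497) (nat_lit 449) (nat_lit 254))))) (XT.nd (nat_lit 312) (nat_lit 1672) (nat_lit 0) (XT.nd (nat_lit 156) (nat_lit 912) (nat_lit 0) (XT.nd (nat_lit 78) (nat_lit 456) (nat_lit 0) (XT.lf (nat_lit 0) (nat_lit 10495864162) (nat_lit 532) (nat_lit 2149198580) (nat_lit 76) (nat_lit 26110433589) (nat_lit 215) (nat_lit 5) (nat_lit 222) (nat_lit 5) (nat_lit 216) (nat_lit 5) (nat_lit 498) (nat_lit 449) (nat_lit 253)) (XT.lf (nat_lit 0) (nat_lit 22857725987) (nat_lit 532) (nat_lit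 6307766045) (nat_lit 76) (nat_lit 10289331013) (nat_lit 209) (nat_lit 5) (nat_lit 216) (nat_lit 5) (nat_lit 210) (nat_lit 5) (nat_lit 499) (nat_lit 449) (nat_lit 252))) (XT.nd (nat_lit 78) (nat_lit 456) (nat_lit 0) (XT.lf (nat_lit 0) (nat_lit 29654971671) (nat_lit 456) (nat_lit 6223053459) (nat_lit 532) (nat_lit 4291352877) (nat_lit 203) (nat_lit 5) (nat_lit 209) (nat_lit 5) (nat_lit 210) (nat_lit 5) (nat_lit 500) (nat_lit 449) (nat_lit 251)) (XT.lf (nat_lit 0) (nat_lit 8597145407) (nat_lit 456) (nat_lit 14854114792) (nat_lit 76) (nat_lit 17446550185) (nat_lit 197) (nat_lit 5) (nat_lit 203) (nat_lit 5) (nat_lit 198) (nat_lit 5) (nat_lit 501) (nat_lit 449) (nat_lit 250)))) (XT.nd (nat_lit 156) (nat_lit 836) (nat_lit 0) (XT.nd (nat_lit 78) (nat_lit 380) (nat_lit 0) (XT.lf (nat_lit 0) (nat_lit 22071361016) (nat_lit 532) (nat_lit 19231708512) (nat_lit 76) (nat_lit 339311659) (nat_lit 191) (nat_lit 5) (nat_lit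 198) (nat_lit 5) (nat_lit 192) (nat_lit 5) (nat_lit 502) (nat_lit 449) (nat_lit 249)) (XT.lf (nat_lit 0) (nat_lit 18670853098) (nat_lit 380) (nat_lit 17654336079) (nat_lit 456) (nat_lit 6076592286) (nat_lit 186) (nat_lit 5) (nat_lit 191) (nat_lit 5) (nat_lit 192) (nat_lit 5) (nat_lit 503) (nat_lit 449) (nat_lit 248))) (XT.nd (nat_lit 78) (nat_lit 380) (nat_lit 0) (XT.lf (nat_lit 0) (nat_lit 7989618246) (nat_lit 456) (nat_lit 28293210407) (nat_lit 76) (nat_lit 6894728452) (nat_lit 180) (nat_lit 5) (nat_lit 186) (nat_lit 5) (nat_lit 181) (nat_lit 5) (nat_lit 504) (nat_lit 449) (nat_lit 247)) (XT.lf (nat_lit 0) (nat_lit 10987968022) (nat_lit 380) (nat_lit 11755164167) (nat_lit 456) (nat_lit 21225713082) (nat_lit 175) (nat_lit 5) (nat_lit 180) (nat_lit 5) (nat_lit 181) (nat_lit 5) (nat_lit 505) (nat_lit 449) (nat_lit 246))))))) (XT.nd (nat_lit 58812) (nat_lit 0) (nat_lit 19456) (XT.nd (nat_lit 58188) (nat_lit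 0) (nat_lit 25536) (XT.nd (nat_lit 234) (nat_lit 1140) (nat_lit 0) (XT.nd (nat_lit 78) (nat_lit 456) (nat_lit 0) (XT.lf (nat_lit 0) (nat_lit 7052478815) (nat_lit 380) (nat_lit 31209449468) (nat_lit 456) (nat_lit 6515490328) (nat_lit 170) (nat_lit 5) (nat_lit 175) (nat_lit 5) (nat_lit 176) (nat_lit 5) (nat_lit 506) (nat_lit 449) (nat_lit 245)) (XT.nd (nat_lit 78) (nat_lit 0) (nat_lit 0) (XT.lf (nat_lit 0) (nat_lit 3030261140) (nat_lit 380) (nat_lit 5812007733) (nat_lit 456) (nat_lit 36760469059) (nat_lit 164) (nat_lit 5) (nat_lit 169) (nat_lit 5) (nat_lit 170) (nat_lit 5) (nat_lit 507) (nat_lit 449) (nat_lit 244)) (XT.lf (nat_lit 0) (nat_lit 24958479852) (nat_lit 456) (nat_lit 1106362693) (nat_lit 76) (nat_lit 20379388220) (nat_lit 164) (nat_lit 5) (nat_lit 170) (nat_lit 5) (nat_lit 165) (nat_lit 5) (nat_lit 508) (nat_lit 449) (nat_lit 243)))) (XT.nd (nat_lit 156) (nat_lit 380) (nat_lit 0) (XT.nd (nat_lit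 78) (nat_lit 380) (nat_lit 0) (XT.lf (nat_lit 0) (nat_lit 41868454024) (nat_lit 456) (nat_lit 5194834996) (nat_lit 76) (nat_lit 241473881) (nat_lit 159) (nat_lit 5) (nat_lit 165) (nat_lit 5) (nat_lit 160) (nat_lit 5) (nat_lit 509) (nat_lit 449) (nat_lit 242)) (XT.lf (nat_lit 0) (nat_lit 11382027195) (nat_lit 380) (nat_lit 9481896370) (nat_lit 76) (nat_lit 27317088446) (nat_lit 154) (nat_lit 5) (nat_lit 159) (nat_lit 5) (nat_lit 155) (nat_lit 5) (nat_lit 510) (nat_lit 449) (nat_lit 241))) (XT.nd (nat_lit 57720) (nat_lit 0) (nat_lit 27132) (XT.lf (nat_lit 0) (nat_lit 28934457078) (nat_lit 456) (nat_lit 13800085450) (nat_lit 76) (nat_lit 6342219399) (nat_lit 149) (nat_lit 5) (nat_lit 155) (nat_lit 5) (nat_lit 150) (nat_lit 5) (nat_lit 511) (nat_lit 449) (nat_lit 240)) (XT.lf (nat_lit 0) (nat_lit 3913611378) (nat_lit 0) (nat_lit 3913611378) (nat_lit 1748) (nat_lit 1141576452) (nat_lit 506) (nat_lit 5) (nat_lit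 506) (nat_lit 3) (nat_lit 529) (nat_lit 3) (nat_lit 450) (nat_lit 450) (nat_lit 300))))) (XT.nd (nat_lit 312) (nat_lit 1596) (nat_lit 0) (XT.nd (nat_lit 156) (nat_lit 0) (nat_lit 76) (XT.nd (nat_lit 78) (nat_lit 0) (nat_lit 76) (XT.lf (nat_lit 76) (nat_lit 3298852094) (nat_lit 0) (nat_lit 12954115013) (nat_lit 1824) (nat_lit 1946411620) (nat_lit 507) (nat_lit 5) (nat_lit 506) (nat_lit 5) (nat_lit 530) (nat_lit 5) (nat_lit 451) (nat_lit 450) (nat_lit 299)) (XT.lf (nat_lit 0) (nat_lit 16979308164) (nat_lit 1748) (nat_lit 1278878100) (nat_lit 1824) (nat_lit 208629280) (nat_lit 507) (nat_lit 5) (nat_lit 530) (nat_lit 5) (nat_lit 531) (nat_lit 5) (nat_lit 452) (nat_lit 450) (nat_lit 298))) (XT.nd (nat_lit 78) (nat_lit 0) (nat_lit 76) (XT.lf (nat_lit 76) (nat_lit 12826556908) (nat_lit 0) (nat_lit 5059157069) (nat_lit 1824) (nat_lit 853396359) (nat_lit 508) (nat_lit 5) (nat_lit 507) (nat_lit 5) (nat_lit 531)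 (nat_lit 5) (nat_lit 453) (nat_lit 450) (nat_lit 297)) (XT.lf (nat_lit 76) (nat_lit 8401356977) (nat_lit 0) (nat_lit 10525342086) (nat_lit 1824) (nat_lit 90727520) (nat_lit 509) (nat_lit 5) (nat_lit 508) (nat_lit 5) (nat_lit 532) (nat_lit 5) (nat_lit 454) (nat_lit 450) (nat_lit 296)))) (XT.nd (nat_lit 156) (nat_lit 0) (nat_lit 76) (XT.nd (nat_lit 78) (nat_lit 0) (nat_lit 0) (XT.lf (nat_lit 0) (nat_lit 794768792) (nat_lit 1824) (nat_lit 15394121082) (nat_lit 1900) (nat_lit 3112931351) (nat_lit 485) (nat_lit 5) (nat_lit 509) (nat_lit 5) (nat_lit 510) (nat_lit 5) (nat_lit 455) (nat_lit 450) (nat_lit 295)) (XT.lf (nat_lit 0) (nat_lit 1837624311) (nat_lit 1824) (nat_lit 659069473) (nat_lit 1900) (nat_lit 17095401715) (nat_lit 485) (nat_lit 5) (nat_lit 509) (nat_lit 5) (nat_lit 510) (nat_lit 5) (nat_lit 456) (nat_lit 450) (nat_lit 294))) (XT.nd (nat_lit 78) (nat_lit 0) (nat_lit 76) (XT.lf (nat_lit 0) (nat_lit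 3072780629) (nat_lit 1824) (nat_lit 5261097650) (nat_lit 1900) (nat_lit 11553979734) (nat_lit 486) (nat_lit 5) (nat_lit 510) (nat_lit 5) (nat_lit 511) (nat_lit 5) (nat_lit 457) (nat_lit 450) (nat_lit 293)) (XT.lf (nat_lit 0) (nat_lit 4461027984) (nat_lit 1824) (nat_lit 9929666514) (nat_lit 1900) (nat_lit 5799478486) (nat_lit 487) (nat_lit 5) (nat_lit 511) (nat_lit 5) (nat_lit 512) (nat_lit 5) (nat_lit 458) (nat_lit 450) (nat_lit 292)))))) (XT.nd (nat_lit 546) (nat_lit 6232) (nat_lit 0) (XT.nd (nat_lit 234) (nat_lit 0) (nat_lit 228) (XT.nd (nat_lit 78) (nat_lit 0) (nat_lit 76) (XT.lf (nat_lit 76) (nat_lit 5832633959) (nat_lit 0) (nat_lit 177871730) (nat_lit 1900) (nat_lit 14488660353) (nat_lit 488) (nat_lit 5) (nat_lit 487) (nat_lit 5) (nat_lit 512) (nat_lit 5) (nat_lit 459) (nat_lit 450) (nat_lit 291)) (XT.nd (nat_lit 78) (nat_lit 0) (nat_lit 76) (XT.lf (nat_lit 76) (nat_lit 1303471530) (nat_lit 0)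 (nat_lit 6463442330) (nat_lit 1900) (nat_lit 13047306397) (nat_lit 489) (nat_lit 5) (nat_lit 488) (nat_lit 5) (nat_lit 513) (nat_lit 5) (nat_lit 460) (nat_lit 450) (nat_lit 290)) (XT.lf (nat_lit 0) (nat_lit 9720923167) (nat_lit 1824) (nat_lit 3245334900) (nat_lit 1900) (nat_lit 8169570136) (nat_lit 489) (nat_lit 5) (nat_lit 513) (nat_lit 5) (nat_lit 514) (nat_lit 5) (nat_lit 461) (nat_lit 450) (nat_lit 289)))) (XT.nd (nat_lit 156) (nat_lit 0) (nat_lit 76) (XT.nd (nat_lit 78) (nat_lit 0) (nat_lit 0) (XT.lf (nat_lit 0) (nat_lit 11867762593) (nat_lit 1824) (nat_lit 7839338780) (nat_lit 1900) (nat_lit 1757299090) (nat_lit 490) (nat_lit 5) (nat_lit 514) (nat_lit 5) (nat_lit 515) (nat_lit 5) (nat_lit 462) (nat_lit 450) (nat_lit 288)) (XT.lf (nat_lit 76) (nat_lit 9271447760) (nat_lit 0) (nat_lit 4967725435) (nat_lit 1900) (nat_lit 7560453639) (nat_lit 491) (nat_lit 5) (nat_lit 490) (nat_lit 5) (nat_lit 515)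 (nat_lit 5) (nat_lit 463) (nat_lit 450) (nat_lit 287))) (XT.nd (nat_lit 78) (nat_lit 0) (nat_lit 76) (XT.lf (nat_lit 76) (nat_lit 4848976025) (nat_lit 0) (nat_lit 11975369673) (nat_lit 1900) (nat_lit 5317712164) (nat_lit 492) (nat_lit 5) (nat_lit 491) (nat_lit 5) (nat_lit 516) (nat_lit 5) (nat_lit 464) (nat_lit 450) (nat_lit 286)) (XT.lf (nat_lit 76) (nat_lit 369378082) (nat_lit 0) (nat_lit 19250855144) (nat_lit 1900) (nat_lit 2871865647) (nat_lit 493) (nat_lit 5) (nat_lit 492) (nat_lit 5) (nat_lit 517) (nat_lit 5) (nat_lit 465) (nat_lit 450) (nat_lit 285))))) (XT.nd (nat_lit 312) (nat_lit 2736) (nat_lit 0) (XT.nd (nat_lit 156) (nat_lit 2052) (nat_lit 0) (XT.nd (nat_lit 78) (nat_lit 1824) (nat_lit 0) (XT.lf (nat_lit 76) (nat_lit 18710352260) (nat_lit 0) (nat_lit 3978152953) (nat_lit 1900) (nat_lit 160365986) (nat_lit 493) (nat_lit 5) (nat_lit 492) (nat_lit 5) (nat_lit 517) (nat_lit 5) (nat_lit 466)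 (nat_lit 450) (nat_lit 284)) (XT.lf (nat_lit 0) (nat_lit 2761442102) (nat_lit 1900) (nat_lit 8739185232) (nat_lit 76) (nat_lit 11712107980) (nat_lit 468) (nat_lit 5) (nat_lit 493) (nat_lit 5) (nat_lit 469) (nat_lit 5) (nat_lit 467) (nat_lit 450) (nat_lit 283))) (XT.nd (nat_lit 78) (nat_lit 912) (nat_lit 0) (XT.lf (nat_lit 0) (nat_lit 5910150419) (nat_lit 1216) (nat_lit 13400470344) (nat_lit 76) (nat_lit 4274045116) (nat_lit 453) (nat_lit 5) (nat_lit 469) (nat_lit 5) (nat_lit 454) (nat_lit 5) (nat_lit 468) (nat_lit 450) (nat_lit 282)) (XT.lf (nat_lit 0) (nat_lit 5820436874) (nat_lit 912) (nat_lit 3499536677) (nat_lit 988) (nat_lit 14644447957) (nat_lit 441) (nat_lit 5) (nat_lit 453) (nat_lit 5) (nat_lit 454) (nat_lit 5) (nat_lit 469) (nat_lit 450) (nat_lit 281)))) (XT.nd (nat_lit 156) (nat_lit 1824) (nat_lit 0) (XT.nd (nat_lit 78) (nat_lit 0) (nat_lit 0) (XT.lf (nat_lit 0) (nat_lit 1375094175) (nat_lit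 912) (nat_lit 11632871900) (nat_lit 988) (nat_lit 11344086447) (nat_lit 429) (nat_lit 5) (nat_lit 441) (nat_lit 5) (nat_lit 442) (nat_lit 5) (nat_lit 470) (nat_lit 450) (nat_lit 280)) (XT.lf (nat_lit 0) (nat_lit 16976348383) (nat_lit 988) (nat_lit 3081855953) (nat_lit 76) (nat_lit 4689713335) (nat_lit 429) (nat_lit 5) (nat_lit 442) (nat_lit 5) (nat_lit 430) (nat_lit 5) (nat_lit 471) (nat_lit 450) (nat_lit 279))) (XT.nd (nat_lit 78) (nat_lit 988) (nat_lit 0) (XT.lf (nat_lit 0) (nat_lit 17555750148) (nat_lit 836) (nat_lit 3692723505) (nat_lit 912) (nat_lit 3903491490) (nat_lit 418) (nat_lit 5) (nat_lit 429) (nat_lit 5) (nat_lit 430) (nat_lit 5) (nat_lit 472) (nat_lit 450) (nat_lit 278)) (XT.lf (nat_lit 0) (nat_lit 267179025) (nat_lit 988) (nat_lit 12196301094) (nat_lit 76) (nat_lit 13100891484) (nat_lit 405) (nat_lit 5) (nat_lit 418) (nat_lit 5) (nat_lit 406) (nat_lit 5) (nat_lit 473) (nat_lit 450) (nat_lit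 277))))))))
noncomputable def xc100 : XT := (XT.nd (nat_lit 2262) (nat_lit 3268) (nat_lit 0) (XT.nd (nat_lit 1092) (nat_lit 6992) (nat_lit 0) (XT.nd (nat_lit 546) (nat_lit 4028) (nat_lit 0) (XT.nd (nat_lit 234) (nat_lit 2356) (nat_lit 0) (XT.nd (nat_lit 78) (nat_lit 1596) (nat_lit 0) (XT.lf (nat_lit 0) (nat_lit 4668492419) (nat_lit 912) (nat_lit 16876212613) (nat_lit 76) (nat_lit 4440758247) (nat_lit 394) (nat_lit 5) (nat_lit 406) (nat_lit 5) (nat_lit 395) (nat_lit 5) (nat_lit 474) (nat_lit 450) (nat_lit 276)) (XT.nd (nat_lit 78) (nat_lit 760) (nat_lit 0) (XT.lf (nat_lit 0) (nat_lit 4775277476) (nat_lit 836) (nat_lit 4617459828) (nat_lit 912) (nat_lit 17022632738) (nat_lit 383) (nat_lit 5) (nat_lit 394) (nat_lit 5) (nat_lit 395) (nat_lit 5) (nat_lit 475) (nat_lit 450) (nat_lit 275)) (XT.lf (nat_lit 0) (nat_lit 365392102) (nat_lit 760) (nat_lit 14087520504) (nat_lit 836) (nat_lit 12401377516) (nat_lit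 373) (nat_lit 5) (nat_lit 383) (nat_lit 5) (nat_lit 384) (nat_lit 5) (nat_lit 476) (nat_lit 450) (nat_lit 274)))) (XT.nd (nat_lit 156) (nat_lit 1596) (nat_lit 0) (XT.nd (nat_lit 78) (nat_lit 760) (nat_lit 0) (XT.lf (nat_lit 0) (nat_lit 19858270867) (nat_lit 836) (nat_lit 4036156385) (nat_lit 76) (nat_lit 3408083164) (nat_lit 373) (nat_lit 5) (nat_lit 384) (nat_lit 5) (nat_lit 374) (nat_lit 5) (nat_lit 477) (nat_lit 450) (nat_lit 273)) (XT.lf (nat_lit 0) (nat_lit 19241649901) (nat_lit 760) (nat_lit 6397102008) (nat_lit 836) (nat_lit 2121166333) (nat_lit 363) (nat_lit 5) (nat_lit 373) (nat_lit 5) (nat_lit 374) (nat_lit 5) (nat_lit 478) (nat_lit 450) (nat_lit 272))) (XT.nd (nat_lit 78) (nat_lit 760) (nat_lit 0) (XT.lf (nat_lit 0) (nat_lit 3514193793) (nat_lit 836) (nat_lit 13091245060) (nat_lit 76) (nat_lit 11621239437) (nat_lit 352) (nat_lit 5) (nat_lit 363) (nat_lit 5) (nat_lit 353) (nat_lit 5) (nat_lit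 479) (nat_lit 450) (nat_lit 271)) (XT.lf (nat_lit 0) (nat_lit 9466198706) (nat_lit 836) (nat_lit 17724594872) (nat_lit 76) (nat_lit 1512839247) (nat_lit 342) (nat_lit 5) (nat_lit 353) (nat_lit 5) (nat_lit 343) (nat_lit 5) (nat_lit 480) (nat_lit 450) (nat_lit 270))))) (XT.nd (nat_lit 234) (nat_lit 2660) (nat_lit 0) (XT.nd (nat_lit 78) (nat_lit 684) (nat_lit 0) (XT.lf (nat_lit 0) (nat_lit 6727448818) (nat_lit 684) (nat_lit 9107517024) (nat_lit 760) (nat_lit 13355166260) (nat_lit 333) (nat_lit 5) (nat_lit 342) (nat_lit 5) (nat_lit 343) (nat_lit 5) (nat_lit 481) (nat_lit 450) (nat_lit 269)) (XT.nd (nat_lit 78) (nat_lit 0) (nat_lit 0) (XT.lf (nat_lit 0) (nat_lit 2429464436) (nat_lit 684) (nat_lit 20158105771) (nat_lit 760) (nat_lit 7099800807) (nat_lit 324) (nat_lit 5) (nat_lit 333) (nat_lit 5) (nat_lit 334) (nat_lit 5) (nat_lit 482) (nat_lit 450) (nat_lit 268)) (XT.lf (nat_lit 0) (nat_lit 28307591000) (nat_lit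 684) (nat_lit 1442303629) (nat_lit 760) (nat_lit 445489764) (nat_lit 324) (nat_lit 5) (nat_lit 333) (nat_lit 5) (nat_lit 334) (nat_lit 5) (nat_lit 483) (nat_lit 450) (nat_lit 267)))) (XT.nd (nat_lit 156) (nat_lit 1216) (nat_lit 0) (XT.nd (nat_lit 78) (nat_lit 684) (nat_lit 0) (XT.lf (nat_lit 0) (nat_lit 6595251544) (nat_lit 760) (nat_lit 6314917098) (nat_lit 76) (nat_lit 17802220527) (nat_lit 314) (nat_lit 5) (nat_lit 324) (nat_lit 5) (nat_lit 315) (nat_lit 5) (nat_lit 484) (nat_lit 450) (nat_lit 266)) (XT.lf (nat_lit 0) (nat_lit 14033765955) (nat_lit 760) (nat_lit 10781862803) (nat_lit 76) (nat_lit 6425364496) (nat_lit 305) (nat_lit 5) (nat_lit 315) (nat_lit 5) (nat_lit 306) (nat_lit 5) (nat_lit 485) (nat_lit 450) (nat_lit 265))) (XT.nd (nat_lit 78) (nat_lit 608) (nat_lit 0) (XT.lf (nat_lit 0) (nat_lit 16461095752) (nat_lit 608) (nat_lit 5465395277) (nat_lit 684) (nat_lit 9854343453) (nat_lit 297)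 (nat_lit 5) (nat_lit 305) (nat_lit 5) (nat_lit 306) (nat_lit 5) (nat_lit 486) (nat_lit 450) (nat_lit 264)) (XT.lf (nat_lit 0) (nat_lit 12395275786) (nat_lit 608) (nat_lit 17903535498) (nat_lit 684) (nat_lit 2033203514) (nat_lit 289) (nat_lit 5) (nat_lit 297) (nat_lit 5) (nat_lit 298) (nat_lit 5) (nat_lit 487) (nat_lit 450) (nat_lit 263)))))) (XT.nd (nat_lit 546) (nat_lit 3420) (nat_lit 0) (XT.nd (nat_lit 234) (nat_lit 2280) (nat_lit 0) (XT.nd (nat_lit 78) (nat_lit 608) (nat_lit 0) (XT.lf (nat_lit 0) (nat_lit 6147270828) (nat_lit 684) (nat_lit 24629422292) (nat_lit 76) (nat_lit 2118181722) (nat_lit 280) (nat_lit 5) (nat_lit 289) (nat_lit 5) (nat_lit 281) (nat_lit 5) (nat_lit 488) (nat_lit 450) (nat_lit 262)) (XT.nd (nat_lit 78) (nat_lit 0) (nat_lit 0) (XT.lf (nat_lit 0) (nat_lit 4026925986) (nat_lit 608) (nat_lit 10795678651) (nat_lit 684) (nat_lit 18646206001) (nat_lit 272) (nat_lit 5) (nat_lit 280)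 (nat_lit 5) (nat_lit 281) (nat_lit 5) (nat_lit 489) (nat_lit 450) (nat_lit 261)) (XT.lf (nat_lit 0) (nat_lit 23984868688) (nat_lit 684) (nat_lit 247505577) (nat_lit 76) (nat_lit 9823056947) (nat_lit 272) (nat_lit 5) (nat_lit 281) (nat_lit 5) (nat_lit 273) (nat_lit 5) (nat_lit 490) (nat_lit 450) (nat_lit 260)))) (XT.nd (nat_lit 156) (nat_lit 1064) (nat_lit 0) (XT.nd (nat_lit 78) (nat_lit 684) (nat_lit 0) (XT.lf (nat_lit 0) (nat_lit 30139640193) (nat_lit 532) (nat_lit 3545523084) (nat_lit 608) (nat_lit 969223978) (nat_lit 265) (nat_lit 5) (nat_lit 272) (nat_lit 5) (nat_lit 273) (nat_lit 5) (nat_lit 491) (nat_lit 450) (nat_lit 259)) (XT.lf (nat_lit 0) (nat_lit 8580553879) (nat_lit 684) (nat_lit 8926872891) (nat_lit 76) (nat_lit 17757081187) (nat_lit 256) (nat_lit 5) (nat_lit 265) (nat_lit 5) (nat_lit 257) (nat_lit 5) (nat_lit 492) (nat_lit 450) (nat_lit 258))) (XT.nd (nat_lit 78) (nat_lit 532) (nat_lit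 0) (XT.lf (nat_lit 0) (nat_lit 18625654095) (nat_lit 608) (nat_lit 13370241405) (nat_lit 76) (nat_lit 3892468806) (nat_lit 249) (nat_lit 5) (nat_lit 257) (nat_lit 5) (nat_lit 250) (nat_lit 5) (nat_lit 493) (nat_lit 450) (nat_lit 257)) (XT.lf (nat_lit 0) (nat_lit 18619571909) (nat_lit 532) (nat_lit 10646916861) (nat_lit 608) (nat_lit 7258560041) (nat_lit 242) (nat_lit 5) (nat_lit 249) (nat_lit 5) (nat_lit 250) (nat_lit 5) (nat_lit 494) (nat_lit 450) (nat_lit 256))))) (XT.nd (nat_lit 312) (nat_lit 1444) (nat_lit 0) (XT.nd (nat_lit 156) (nat_lit 912) (nat_lit 0) (XT.nd (nat_lit 78) (nat_lit 532) (nat_lit 0) (XT.lf (nat_lit 0) (nat_lit 3263255149) (nat_lit 532) (nat_lit 22511817069) (nat_lit 76) (nat_lit 11400216513) (nat_lit 235) (nat_lit 5) (nat_lit 242) (nat_lit 5) (nat_lit 236) (nat_lit 5) (nat_lit 495) (nat_lit 450) (nat_lit 255)) (XT.lf (nat_lit 0) (nat_lit 10624753251) (nat_lit 532) (nat_lit 3635899737)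 (nat_lit 608) (nat_lit 23578252495) (nat_lit 228) (nat_lit 5) (nat_lit 235) (nat_lit 5) (nat_lit 236) (nat_lit 5) (nat_lit 496) (nat_lit 450) (nat_lit 254))) (XT.nd (nat_lit 78) (nat_lit 456) (nat_lit 0) (XT.lf (nat_lit 0) (nat_lit 6497953998) (nat_lit 456) (nat_lit 19405951226) (nat_lit 532) (nat_lit 12612206949) (nat_lit 222) (nat_lit 5) (nat_lit 228) (nat_lit 5) (nat_lit 229) (nat_lit 5) (nat_lit 497) (nat_lit 450) (nat_lit 253)) (XT.lf (nat_lit 0) (nat_lit 2362352459) (nat_lit 456) (nat_lit 35776312361) (nat_lit 532) (nat_lit 1070126130) (nat_lit 216) (nat_lit 5) (nat_lit 222) (nat_lit 5) (nat_lit 223) (nat_lit 5) (nat_lit 498) (nat_lit 450) (nat_lit 252)))) (XT.nd (nat_lit 156) (nat_lit 912) (nat_lit 0) (XT.nd (nat_lit 78) (nat_lit 456) (nat_lit 0) (XT.lf (nat_lit 0) (nat_lit 11020381881) (nat_lit 532) (nat_lit 1912744094) (nat_lit 76) (nat_lit 26980838459) (nat_lit 215) (nat_lit 5) (nat_lit 222)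 (nat_lit 5) (nat_lit 216) (nat_lit 5) (nat_lit 499) (nat_lit 450) (nat_lit 251)) (XT.lf (nat_lit 0) (nat_lit 23749503802) (nat_lit 532) (nat_lit 6197425999) (nat_lit 76) (nat_lit 10687413177) (nat_lit 209) (nat_lit 5) (nat_lit 216) (nat_lit 5) (nat_lit 210) (nat_lit 5) (nat_lit 500) (nat_lit 450) (nat_lit 250))) (XT.nd (nat_lit 78) (nat_lit 456) (nat_lit 0) (XT.lf (nat_lit 0) (nat_lit 30839333632) (nat_lit 456) (nat_lit 6316990418) (nat_lit 532) (nat_lit 4214092408) (nat_lit 203) (nat_lit 5) (nat_lit 209) (nat_lit 5) (nat_lit 210) (nat_lit 5) (nat_lit 501) (nat_lit 450) (nat_lit 249)) (XT.lf (nat_lit 0) (nat_lit 9054943317) (nat_lit 456) (nat_lit 15003762052) (nat_lit 76) (nat_lit 18062038109) (nat_lit 197) (nat_lit 5) (nat_lit 203) (nat_lit 5) (nat_lit 198) (nat_lit 5) (nat_lit 502) (nat_lit 450) (nat_lit 248))))))) (XT.nd (nat_lit 58812) (nat_lit 0) (nat_lit 21812) (XT.nd (nat_lit 546) (nat_lit 760)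 (nat_lit 0) (XT.nd (nat_lit 234) (nat_lit 1216) (nat_lit 0) (XT.nd (nat_lit 78) (nat_lit 836) (nat_lit 0) (XT.lf (nat_lit 0) (nat_lit 22930072285) (nat_lit 532) (nat_lit 19514181205) (nat_lit 76) (nat_lit 443464282) (nat_lit 191) (nat_lit 5) (nat_lit 198) (nat_lit 5) (nat_lit 192) (nat_lit 5) (nat_lit 503) (nat_lit 450) (nat_lit 247)) (XT.nd (nat_lit 78) (nat_lit 456) (nat_lit 0) (XT.lf (nat_lit 0) (nat_lit 19520679689) (nat_lit 380) (nat_lit 18086991180) (nat_lit 456) (nat_lit 6062306175) (nat_lit 186) (nat_lit 5) (nat_lit 191) (nat_lit 5) (nat_lit 192) (nat_lit 5) (nat_lit 504) (nat_lit 450) (nat_lit 246)) (XT.lf (nat_lit 0) (nat_lit 8420160552) (nat_lit 456) (nat_lit 28851290384) (nat_lit 76) (nat_lit 7197612624) (nat_lit 180) (nat_lit 5) (nat_lit 186) (nat_lit 5) (nat_lit 181) (nat_lit 5) (nat_lit 505) (nat_lit 450) (nat_lit 245)))) (XT.nd (nat_lit 156) (nat_lit 456) (nat_lit 0) (XT.nd (nat_lit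 78) (nat_lit 380) (nat_lit 0) (XT.lf (nat_lit 0) (nat_lit 11603606870) (nat_lit 380) (nat_lit 12008971097) (nat_lit 456) (nat_lit 21671586538) (nat_lit 175) (nat_lit 5) (nat_lit 180) (nat_lit 5) (nat_lit 181) (nat_lit 5) (nat_lit 506) (nat_lit 450) (nat_lit 244)) (XT.lf (nat_lit 0) (nat_lit 7548466954) (nat_lit 380) (nat_lit 32045489662) (nat_lit 456) (nat_lit 6523098144) (nat_lit 170) (nat_lit 5) (nat_lit 175) (nat_lit 5) (nat_lit 176) (nat_lit 5) (nat_lit 507) (nat_lit 450) (nat_lit 243))) (XT.nd (nat_lit 78) (nat_lit 0) (nat_lit 0) (XT.lf (nat_lit 0) (nat_lit 3403395171) (nat_lit 380) (nat_lit 5885967485) (nat_lit 456) (nat_lit 37677818045) (nat_lit 164) (nat_lit 5) (nat_lit 169) (nat_lit 5) (nat_lit 170) (nat_lit 5) (nat_lit 508) (nat_lit 450) (nat_lit 242)) (XT.lf (nat_lit 0) (nat_lit 25884396950) (nat_lit 456) (nat_lit 862647069) (nat_lit 76) (nat_lit 21086967643) (nat_lit 164) (nat_lit 5) (nat_lit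 170) (nat_lit 5) (nat_lit 165) (nat_lit 5) (nat_lit 509) (nat_lit 450) (nat_lit 241))))) (XT.nd (nat_lit 57954) (nat_lit 0) (nat_lit 25080) (XT.nd (nat_lit 78) (nat_lit 380) (nat_lit 0) (XT.lf (nat_lit 0) (nat_lit 43298919415) (nat_lit 456) (nat_lit 5075428358) (nat_lit 76) (nat_lit 346067090) (nat_lit 159) (nat_lit 5) (nat_lit 165) (nat_lit 5) (nat_lit 160) (nat_lit 5) (nat_lit 510) (nat_lit 450) (nat_lit 240)) (XT.nd (nat_lit 57798) (nat_lit 0) (nat_lit 26752) (XT.lf (nat_lit 0) (nat_lit 11895713573) (nat_lit 380) (nat_lit 9493275856) (nat_lit 76) (nat_lit 28234005869) (nat_lit 154) (nat_lit 5) (nat_lit 159) (nat_lit 5) (nat_lit 155) (nat_lit 5) (nat_lit 511) (nat_lit 450) (nat_lit 239)) (XT.lf (nat_lit 0) (nat_lit 4183499351) (nat_lit 0) (nat_lit 4183499351) (nat_lit 1748) (nat_lit 864755820) (nat_lit 506) (nat_lit 5) (nat_lit 506) (nat_lit 3) (nat_lit 529) (nat_lit 3) (nat_lit 451) (nat_lit 451)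 (nat_lit 298)))) (XT.nd (nat_lit 156) (nat_lit 1672) (nat_lit 0) (XT.nd (nat_lit 78) (nat_lit 0) (nat_lit 0) (XT.lf (nat_lit 76) (nat_lit 3711796305) (nat_lit 0) (nat_lit 13621029956) (nat_lit 1824) (nat_lit 1400670025) (nat_lit 507) (nat_lit 5) (nat_lit 506) (nat_lit 5) (nat_lit 530) (nat_lit 5) (nat_lit 452) (nat_lit 451) (nat_lit 297)) (XT.lf (nat_lit 76) (nat_lit 18009851219) (nat_lit 0) (nat_lit 52442005) (nat_lit 1824) (nat_lit 947036805) (nat_lit 507) (nat_lit 5) (nat_lit 506) (nat_lit 5) (nat_lit 530) (nat_lit 5) (nat_lit 453) (nat_lit 451) (nat_lit 296))) (XT.nd (nat_lit 78) (nat_lit 1748) (nat_lit 0) (XT.lf (nat_lit 76) (nat_lit 13524298842) (nat_lit 0) (nat_lit 5456586683) (nat_lit 1824) (nat_lit 309208776) (nat_lit 508) (nat_lit 5) (nat_lit 507) (nat_lit 5) (nat_lit 531) (nat_lit 5) (nat_lit 454) (nat_lit 451) (nat_lit 295)) (XT.lf (nat_lit 0) (nat_lit 454250253) (nat_lit 1824) (nat_lit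 10606221146) (nat_lit 1900) (nat_lit 8516544128) (nat_lit 484) (nat_lit 5) (nat_lit 508) (nat_lit 5) (nat_lit 509) (nat_lit 5) (nat_lit 455) (nat_lit 451) (nat_lit 294)))))) (XT.nd (nat_lit 546) (nat_lit 3344) (nat_lit 0) (XT.nd (nat_lit 234) (nat_lit 0) (nat_lit 152) (XT.nd (nat_lit 78) (nat_lit 0) (nat_lit 0) (XT.lf (nat_lit 0) (nat_lit 1349897370) (nat_lit 1824) (nat_lit 15521503751) (nat_lit 1900) (nat_lit 2998833003) (nat_lit 485) (nat_lit 5) (nat_lit 509) (nat_lit 5) (nat_lit 510) (nat_lit 5) (nat_lit 456) (nat_lit 451) (nat_lit 293)) (XT.nd (nat_lit 78) (nat_lit 0) (nat_lit 76) (XT.lf (nat_lit 0) (nat_lit 2408564219) (nat_lit 1824) (nat_lit 354141592) (nat_lit 1900) (nat_lit 17406820768) (nat_lit 485) (nat_lit 5) (nat_lit 509) (nat_lit 5) (nat_lit 510) (nat_lit 5) (nat_lit 457) (nat_lit 451) (nat_lit 292)) (XT.lf (nat_lit 0) (nat_lit 3666634620) (nat_lit 1824) (nat_lit 5088235202) (nat_lit 1900)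 (nat_lit 11719575413) (nat_lit 486) (nat_lit 5) (nat_lit 510) (nat_lit 5) (nat_lit 511) (nat_lit 5) (nat_lit 458) (nat_lit 451) (nat_lit 291)))) (XT.nd (nat_lit 156) (nat_lit 0) (nat_lit 76) (XT.nd (nat_lit 78) (nat_lit 0) (nat_lit 0) (XT.lf (nat_lit 0) (nat_lit 5082966127) (nat_lit 1824) (nat_lit 9891364419) (nat_lit 1900) (nat_lit 5811770813) (nat_lit 487) (nat_lit 5) (nat_lit 511) (nat_lit 5) (nat_lit 512) (nat_lit 5) (nat_lit 459) (nat_lit 451) (nat_lit 290)) (XT.lf (nat_lit 76) (nat_lit 6338350750) (nat_lit 0) (nat_lit 328508064) (nat_lit 1900) (nat_lit 14437747209) (nat_lit 488) (nat_lit 5) (nat_lit 487) (nat_lit 5) (nat_lit 512) (nat_lit 5) (nat_lit 460) (nat_lit 451) (nat_lit 289))) (XT.nd (nat_lit 78) (nat_lit 0) (nat_lit 76) (XT.lf (nat_lit 76) (nat_lit 1678256007) (nat_lit 0) (nat_lit 6785101594) (nat_lit 1900) (nat_lit 12966006713) (nat_lit 489) (nat_lit 5) (nat_lit 488) (nat_lit 5) (nat_lit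 513) (nat_lit 5) (nat_lit 461) (nat_lit 451) (nat_lit 288)) (XT.lf (nat_lit 0) (nat_lit 10461683723) (nat_lit 1824) (nat_lit 3006974210) (nat_lit 1900) (nat_lit 8292249036) (nat_lit 489) (nat_lit 5) (nat_lit 513) (nat_lit 5) (nat_lit 514) (nat_lit 5) (nat_lit 462) (nat_lit 451) (nat_lit 287))))) (XT.nd (nat_lit 312) (nat_lit 3724) (nat_lit 0) (XT.nd (nat_lit 156) (nat_lit 0) (nat_lit 76) (XT.nd (nat_lit 78) (nat_lit 0) (nat_lit 0) (XT.lf (nat_lit 0) (nat_lit 12661290452) (nat_lit 1824) (nat_lit 7734767232) (nat_lit 1900) (nat_lit 1703511861) (nat_lit 490) (nat_lit 5) (nat_lit 514) (nat_lit 5) (nat_lit 515) (nat_lit 5) (nat_lit 463) (nat_lit 451) (nat_lit 286)) (XT.lf (nat_lit 76) (nat_lit 9883830836) (nat_lit 0) (nat_lit 5209440069) (nat_lit 1900) (nat_lit 7351793631) (nat_lit 491) (nat_lit 5) (nat_lit 490) (nat_lit 5) (nat_lit 515) (nat_lit 5) (nat_lit 464) (nat_lit 451) (nat_lit 285))) (XT.nd (nat_lit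 78) (nat_lit 0) (nat_lit 76) (XT.lf (nat_lit 76) (nat_lit 5332266675) (nat_lit 0) (nat_lit 12412906400) (nat_lit 1900) (nat_lit 5052812298) (nat_lit 492) (nat_lit 5) (nat_lit 491) (nat_lit 5) (nat_lit 516) (nat_lit 5) (nat_lit 465) (nat_lit 451) (nat_lit 284)) (XT.lf (nat_lit 76) (nat_lit 721499027) (nat_lit 0) (nat_lit 19893039713) (nat_lit 1900) (nat_lit 2544197203) (nat_lit 493) (nat_lit 5) (nat_lit 492) (nat_lit 5) (nat_lit 517) (nat_lit 5) (nat_lit 466) (nat_lit 451) (nat_lit 283)))) (XT.nd (nat_lit 156) (nat_lit 1976) (nat_lit 0) (XT.nd (nat_lit 78) (nat_lit 0) (nat_lit 76) (XT.lf (nat_lit 0) (nat_lit 233491331) (nat_lit 1900) (nat_lit 3925215006) (nat_lit 1976) (nat_lit 19367711056) (nat_lit 467) (nat_lit 5) (nat_lit 492) (nat_lit 5) (nat_lit 493) (nat_lit 5) (nat_lit 467) (nat_lit 451) (nat_lit 282)) (XT.lf (nat_lit 0) (nat_lit 3231022642) (nat_lit 1900) (nat_lit 8662313436) (nat_lit 76) (nat_lit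 12008035528) (nat_lit 468) (nat_lit 5) (nat_lit 493) (nat_lit 5) (nat_lit 469) (nat_lit 5) (nat_lit 468) (nat_lit 451) (nat_lit 281))) (XT.nd (nat_lit 78) (nat_lit 912) (nat_lit 0) (XT.lf (nat_lit 0) (nat_lit 6464807348) (nat_lit 1216) (nat_lit 13461087993) (nat_lit 76) (nat_lit 4358752765) (nat_lit 453) (nat_lit 5) (nat_lit 469) (nat_lit 5) (nat_lit 454) (nat_lit 5) (nat_lit 469) (nat_lit 451) (nat_lit 280)) (XT.lf (nat_lit 0) (nat_lit 6330907689) (nat_lit 912) (nat_lit 3637207250) (nat_lit 988) (nat_lit 14707857982) (nat_lit 441) (nat_lit 5) (nat_lit 453) (nat_lit 5) (nat_lit 454) (nat_lit 5) (nat_lit 470) (nat_lit 451) (nat_lit 279))))))))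
noncomputable def xc101 : XT := (XT.nd (nat_lit 2262) (nat_lit 4332) (nat_lit 0) (XT.nd (nat_lit 1092) (nat_lit 8208) (nat_lit 0) (XT.nd (nat_lit 546) (nat_lit 3724) (nat_lit 0) (XT.nd (nat_lit 234) (nat_lit 3420) (nat_lit 0) (XT.nd (nat_lit 78) (nat_lit 836) (nat_lit 0) (XT.lf (nat_lit 0) (nat_lit 1754226064) (nat_lit 912) (nat_lit 12003774643) (nat_lit 988) (nat_lit 11317407392) (nat_lit 429) (nat_lit 5) (nat_lit 441) (nat_lit 5) (nat_lit 442) (nat_lit 5) (nat_lit 471) (nat_lit 451) (nat_lit 278)) (XT.nd (nat_lit 78) (nat_lit 836) (nat_lit 0) (XT.lf (nat_lit 0) (nat_lit 17834816846) (nat_lit 988) (nat_lit 2839139438) (nat_lit 76) (nat_lit 4809405565) (nat_lit 429) (nat_lit 5) (nat_lit 442) (nat_lit 5) (nat_lit 430) (nat_lit 5) (nat_lit 472) (nat_lit 451) (nat_lit 277)) (XT.lf (nat_lit 0) (nat_lit 18412157075) (nat_lit 836) (nat_lit 3814919421) (nat_lit 912) (nat_lit 3672615122) (nat_lit 418) (nat_lit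 5) (nat_lit 429) (nat_lit 5) (nat_lit 430) (nat_lit 5) (nat_lit 473) (nat_lit 451) (nat_lit 276)))) (XT.nd (nat_lit 156) (nat_lit 1596) (nat_lit 0) (XT.nd (nat_lit 78) (nat_lit 836) (nat_lit 0) (XT.lf (nat_lit 0) (nat_lit 610701278) (nat_lit 988) (nat_lit 12226542958) (nat_lit 76) (nat_lit 13487339328) (nat_lit 405) (nat_lit 5) (nat_lit 418) (nat_lit 5) (nat_lit 406) (nat_lit 5) (nat_lit 474) (nat_lit 451) (nat_lit 275)) (XT.lf (nat_lit 0) (nat_lit 5136440999) (nat_lit 912) (nat_lit 17045746022) (nat_lit 76) (nat_lit 4576273495) (nat_lit 394) (nat_lit 5) (nat_lit 406) (nat_lit 5) (nat_lit 395) (nat_lit 5) (nat_lit 475) (nat_lit 451) (nat_lit 274))) (XT.nd (nat_lit 78) (nat_lit 760) (nat_lit 0) (XT.lf (nat_lit 0) (nat_lit 5249825354) (nat_lit 836) (nat_lit 4745188524) (nat_lit 912) (nat_lit 17206398848) (nat_lit 383) (nat_lit 5) (nat_lit 394) (nat_lit 5) (nat_lit 395) (nat_lit 5) (nat_lit 476) (nat_lit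 451) (nat_lit 273)) (XT.lf (nat_lit 0) (nat_lit 708513975) (nat_lit 760) (nat_lit 14491370325) (nat_lit 836) (nat_lit 12453758558) (nat_lit 373) (nat_lit 5) (nat_lit 383) (nat_lit 5) (nat_lit 384) (nat_lit 5) (nat_lit 477) (nat_lit 451) (nat_lit 272))))) (XT.nd (nat_lit 234) (nat_lit 2128) (nat_lit 0) (XT.nd (nat_lit 78) (nat_lit 1596) (nat_lit 0) (XT.lf (nat_lit 0) (nat_lit 20758393964) (nat_lit 836) (nat_lit 3828780715) (nat_lit 76) (nat_lit 3528315510) (nat_lit 373) (nat_lit 5) (nat_lit 384) (nat_lit 5) (nat_lit 374) (nat_lit 5) (nat_lit 478) (nat_lit 451) (nat_lit 271)) (XT.nd (nat_lit 78) (nat_lit 836) (nat_lit 0) (XT.lf (nat_lit 0) (nat_lit 20142030880) (nat_lit 760) (nat_lit 6563491252) (nat_lit 836) (nat_lit 1881233699) (nat_lit 363) (nat_lit 5) (nat_lit 373) (nat_lit 5) (nat_lit 374) (nat_lit 5) (nat_lit 479) (nat_lit 451) (nat_lit 270)) (XT.lf (nat_lit 0) (nat_lit 3912756899) (nat_lit 836)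 (nat_lit 13156490047) (nat_lit 76) (nat_lit 11998361517) (nat_lit 352) (nat_lit 5) (nat_lit 363) (nat_lit 5) (nat_lit 353) (nat_lit 5) (nat_lit 480) (nat_lit 451) (nat_lit 269)))) (XT.nd (nat_lit 156) (nat_lit 684) (nat_lit 0) (XT.nd (nat_lit 78) (nat_lit 684) (nat_lit 0) (XT.lf (nat_lit 0) (nat_lit 10037106193) (nat_lit 836) (nat_lit 17928642904) (nat_lit 76) (nat_lit 1593247068) (nat_lit 342) (nat_lit 5) (nat_lit 353) (nat_lit 5) (nat_lit 343) (nat_lit 5) (nat_lit 481) (nat_lit 451) (nat_lit 268)) (XT.lf (nat_lit 0) (nat_lit 7251645718) (nat_lit 684) (nat_lit 9339026749) (nat_lit 760) (nat_lit 13469543441) (nat_lit 333) (nat_lit 5) (nat_lit 342) (nat_lit 5) (nat_lit 343) (nat_lit 5) (nat_lit 482) (nat_lit 451) (nat_lit 267))) (XT.nd (nat_lit 78) (nat_lit 0) (nat_lit 0) (XT.lf (nat_lit 0) (nat_lit 2824754202) (nat_lit 684) (nat_lit 20715282497) (nat_lit 760) (nat_lit 7032451858) (nat_lit 324) (nat_lit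 5) (nat_lit 333) (nat_lit 5) (nat_lit 334) (nat_lit 5) (nat_lit 483) (nat_lit 451) (nat_lit 266)) (XT.lf (nat_lit 0) (nat_lit 29469834102) (nat_lit 684) (nat_lit 1439391722) (nat_lit 760) (nat_lit 186676813) (nat_lit 324) (nat_lit 5) (nat_lit 333) (nat_lit 5) (nat_lit 334) (nat_lit 5) (nat_lit 484) (nat_lit 451) (nat_lit 265)))))) (XT.nd (nat_lit 546) (nat_lit 3724) (nat_lit 0) (XT.nd (nat_lit 234) (nat_lit 2432) (nat_lit 0) (XT.nd (nat_lit 78) (nat_lit 1292) (nat_lit 0) (XT.lf (nat_lit 0) (nat_lit 7056231574) (nat_lit 760) (nat_lit 6187962872) (nat_lit 76) (nat_lit 18384297664) (nat_lit 314) (nat_lit 5) (nat_lit 324) (nat_lit 5) (nat_lit 315) (nat_lit 5) (nat_lit 485) (nat_lit 451) (nat_lit 264)) (XT.nd (nat_lit 78) (nat_lit 608) (nat_lit 0) (XT.lf (nat_lit 0) (nat_lit 14712607850) (nat_lit 760) (nat_lit 10789243730) (nat_lit 76) (nat_lit 6671208793) (nat_lit 305) (nat_lit 5) (nat_lit 315) (nat_lit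 5) (nat_lit 306) (nat_lit 5) (nat_lit 486) (nat_lit 451) (nat_lit 263)) (XT.lf (nat_lit 0) (nat_lit 17265875642) (nat_lit 608) (nat_lit 5570748328) (nat_lit 684) (nat_lit 9892582859) (nat_lit 297) (nat_lit 5) (nat_lit 305) (nat_lit 5) (nat_lit 306) (nat_lit 5) (nat_lit 487) (nat_lit 451) (nat_lit 262)))) (XT.nd (nat_lit 156) (nat_lit 1140) (nat_lit 0) (XT.nd (nat_lit 78) (nat_lit 684) (nat_lit 0) (XT.lf (nat_lit 0) (nat_lit 13077632690) (nat_lit 608) (nat_lit 18377516893) (nat_lit 684) (nat_lit 1841872430) (nat_lit 289) (nat_lit 5) (nat_lit 297) (nat_lit 5) (nat_lit 298) (nat_lit 5) (nat_lit 488) (nat_lit 451) (nat_lit 261)) (XT.lf (nat_lit 0) (nat_lit 6575880027) (nat_lit 684) (nat_lit 25055123487) (nat_lit 76) (nat_lit 2245828279) (nat_lit 280) (nat_lit 5) (nat_lit 289) (nat_lit 5) (nat_lit 281) (nat_lit 5) (nat_lit 489) (nat_lit 451) (nat_lit 260))) (XT.nd (nat_lit 78) (nat_lit 532) (nat_lit 0) (XT.lf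 (nat_lit 0) (nat_lit 4455834243) (nat_lit 608) (nat_lit 11050527639) (nat_lit 684) (nat_lit 18961726179) (nat_lit 272) (nat_lit 5) (nat_lit 280) (nat_lit 5) (nat_lit 281) (nat_lit 5) (nat_lit 490) (nat_lit 451) (nat_lit 259)) (XT.lf (nat_lit 0) (nat_lit 49051644) (nat_lit 532) (nat_lit 24888232296) (nat_lit 608) (nat_lit 10135147665) (nat_lit 265) (nat_lit 5) (nat_lit 272) (nat_lit 5) (nat_lit 273) (nat_lit 5) (nat_lit 491) (nat_lit 451) (nat_lit 258))))) (XT.nd (nat_lit 312) (nat_lit 1976) (nat_lit 0) (XT.nd (nat_lit 156) (nat_lit 1064) (nat_lit 0) (XT.nd (nat_lit 78) (nat_lit 684) (nat_lit 0) (XT.lf (nat_lit 0) (nat_lit 31342247151) (nat_lit 532) (nat_lit 3581185945) (nat_lit 608) (nat_lit 766026470) (nat_lit 265) (nat_lit 5) (nat_lit 272) (nat_lit 5) (nat_lit 273) (nat_lit 5) (nat_lit 492) (nat_lit 451) (nat_lit 257)) (XT.lf (nat_lit 0) (nat_lit 9062915573) (nat_lit 684) (nat_lit 8894074894) (nat_lit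 76) (nat_lit 18360949059) (nat_lit 256) (nat_lit 5) (nat_lit 265) (nat_lit 5) (nat_lit 257) (nat_lit 5) (nat_lit 493) (nat_lit 451) (nat_lit 256))) (XT.nd (nat_lit 78) (nat_lit 532) (nat_lit 0) (XT.lf (nat_lit 0) (nat_lit 19405226692) (nat_lit 608) (nat_lit 13471700151) (nat_lit 76) (nat_lit 4083667705) (nat_lit 249) (nat_lit 5) (nat_lit 257) (nat_lit 5) (nat_lit 250) (nat_lit 5) (nat_lit 494) (nat_lit 451) (nat_lit 255)) (XT.lf (nat_lit 0) (nat_lit 19472946121) (nat_lit 532) (nat_lit 10887823083) (nat_lit 608) (nat_lit 7255700861) (nat_lit 242) (nat_lit 5) (nat_lit 249) (nat_lit 5) (nat_lit 250) (nat_lit 5) (nat_lit 495) (nat_lit 451) (nat_lit 254)))) (XT.nd (nat_lit 156) (nat_lit 912) (nat_lit 0) (XT.nd (nat_lit 78) (nat_lit 532) (nat_lit 0) (XT.lf (nat_lit 0) (nat_lit 3574951982) (nat_lit 532) (nat_lit 22890562996) (nat_lit 76) (nat_lit 11820752154) (nat_lit 235) (nat_lit 5) (nat_lit 242) (nat_lit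 5) (nat_lit 236) (nat_lit 5) (nat_lit 496) (nat_lit 451) (nat_lit 253)) (XT.lf (nat_lit 0) (nat_lit 11235292312) (nat_lit 532) (nat_lit 3662646821) (nat_lit 608) (nat_lit 24071940031) (nat_lit 228) (nat_lit 5) (nat_lit 235) (nat_lit 5) (nat_lit 236) (nat_lit 5) (nat_lit 497) (nat_lit 451) (nat_lit 252))) (XT.nd (nat_lit 78) (nat_lit 456) (nat_lit 0) (XT.lf (nat_lit 0) (nat_lit 6983554611) (nat_lit 456) (nat_lit 19903239498) (nat_lit 532) (nat_lit 12780681963) (nat_lit 222) (nat_lit 5) (nat_lit 228) (nat_lit 5) (nat_lit 229) (nat_lit 5) (nat_lit 498) (nat_lit 451) (nat_lit 251)) (XT.lf (nat_lit 0) (nat_lit 2722679792) (nat_lit 456) (nat_lit 36762337806) (nat_lit 532) (nat_lit 895989309) (nat_lit 216) (nat_lit 5) (nat_lit 222) (nat_lit 5) (nat_lit 223) (nat_lit 5) (nat_lit 499) (nat_lit 451) (nat_lit 250))))))) (XT.nd (nat_lit 58968) (nat_lit 0) (nat_lit 23408) (XT.nd (nat_lit 546) (nat_lit 1596) (nat_lit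 0) (XT.nd (nat_lit 234) (nat_lit 1748) (nat_lit 0) (XT.nd (nat_lit 78) (nat_lit 912) (nat_lit 0) (XT.lf (nat_lit 0) (nat_lit 11548600834) (nat_lit 532) (nat_lit 1686470611) (nat_lit 76) (nat_lit 27872356045) (nat_lit 215) (nat_lit 5) (nat_lit 222) (nat_lit 5) (nat_lit 216) (nat_lit 5) (nat_lit 500) (nat_lit 451) (nat_lit 249)) (XT.nd (nat_lit 78) (nat_lit 456) (nat_lit 0) (XT.lf (nat_lit 0) (nat_lit 24656207067) (nat_lit 532) (nat_lit 6100972469) (nat_lit 76) (nat_lit 11092305751) (nat_lit 209) (nat_lit 5) (nat_lit 216) (nat_lit 5) (nat_lit 210) (nat_lit 5) (nat_lit 501) (nat_lit 451) (nat_lit 248)) (XT.lf (nat_lit 0) (nat_lit 32042308730) (nat_lit 456) (nat_lit 6419069982) (nat_lit 532) (nat_lit 4146339428) (nat_lit 203) (nat_lit 5) (nat_lit 209) (nat_lit 5) (nat_lit 210) (nat_lit 5) (nat_lit 502) (nat_lit 451) (nat_lit 247)))) (XT.nd (nat_lit 156) (nat_lit 836) (nat_lit 0) (XT.nd (nat_lit 78) (nat_lit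 456) (nat_lit 0) (XT.lf (nat_lit 0) (nat_lit 9515001030) (nat_lit 456) (nat_lit 15174888975) (nat_lit 76) (nat_lit 18690704247) (nat_lit 197) (nat_lit 5) (nat_lit 203) (nat_lit 5) (nat_lit 198) (nat_lit 5) (nat_lit 503) (nat_lit 451) (nat_lit 246)) (XT.lf (nat_lit 0) (nat_lit 23803260944) (nat_lit 532) (nat_lit 19822032352) (nat_lit 76) (nat_lit 545347033) (nat_lit 191) (nat_lit 5) (nat_lit 198) (nat_lit 5) (nat_lit 192) (nat_lit 5) (nat_lit 504) (nat_lit 451) (nat_lit 245))) (XT.nd (nat_lit 78) (nat_lit 456) (nat_lit 0) (XT.lf (nat_lit 0) (nat_lit 20379371055) (nat_lit 380) (nat_lit 18538192695) (nat_lit 456) (nat_lit 6058876199) (nat_lit 186) (nat_lit 5) (nat_lit 191) (nat_lit 5) (nat_lit 192) (nat_lit 5) (nat_lit 505) (nat_lit 451) (nat_lit 244)) (XT.lf (nat_lit 0) (nat_lit 8852663340) (nat_lit 456) (nat_lit 29442801069) (nat_lit 76) (nat_lit 7504070100) (nat_lit 180) (nat_lit 5) (nat_lit 186) (nat_lit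 5) (nat_lit 181) (nat_lit 5) (nat_lit 506) (nat_lit 451) (nat_lit 243))))) (XT.nd (nat_lit 312) (nat_lit 380) (nat_lit 0) (XT.nd (nat_lit 156) (nat_lit 456) (nat_lit 0) (XT.nd (nat_lit 78) (nat_lit 380) (nat_lit 0) (XT.lf (nat_lit 0) (nat_lit 12221297324) (nat_lit 380) (nat_lit 12276066513) (nat_lit 456) (nat_lit 22141794519) (nat_lit 175) (nat_lit 5) (nat_lit 180) (nat_lit 5) (nat_lit 181) (nat_lit 5) (nat_lit 507) (nat_lit 451) (nat_lit 242)) (XT.lf (nat_lit 0) (nat_lit 8043008223) (nat_lit 380) (nat_lit 32912365437) (nat_lit 456) (nat_lit 6541717949) (nat_lit 170) (nat_lit 5) (nat_lit 175) (nat_lit 5) (nat_lit 176) (nat_lit 5) (nat_lit 508) (nat_lit 451) (nat_lit 241))) (XT.nd (nat_lit 78) (nat_lit 0) (nat_lit 0) (XT.lf (nat_lit 0) (nat_lit 3771522285) (nat_lit 380) (nat_lit 5967909428) (nat_lit 456) (nat_lit 38633333955) (nat_lit 164) (nat_lit 5) (nat_lit 169) (nat_lit 5) (nat_lit 170) (nat_lit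 5) (nat_lit 509) (nat_lit 451) (nat_lit 240)) (XT.lf (nat_lit 0) (nat_lit 26827921697) (nat_lit 456) (nat_lit 627515543) (nat_lit 76) (nat_lit 21810252303) (nat_lit 164) (nat_lit 5) (nat_lit 170) (nat_lit 5) (nat_lit 165) (nat_lit 5) (nat_lit 510) (nat_lit 451) (nat_lit 239)))) (XT.nd (nat_lit 57954) (nat_lit 0) (nat_lit 26372) (XT.nd (nat_lit 57876) (nat_lit 0) (nat_lit 26372) (XT.lf (nat_lit 0) (nat_lit 44762286818) (nat_lit 456) (nat_lit 4968240093) (nat_lit 76) (nat_lit 448209864) (nat_lit 159) (nat_lit 5) (nat_lit 165) (nat_lit 5) (nat_lit 160) (nat_lit 5) (nat_lit 511) (nat_lit 451) (nat_lit 238)) (XT.lf (nat_lit 0) (nat_lit 4452731009) (nat_lit 0) (nat_lit 4452731009) (nat_lit 1748) (nat_lit 597487140) (nat_lit 506) (nat_lit 5) (nat_lit 506) (nat_lit 3) (nat_lit 529) (nat_lit 3) (nat_lit 452) (nat_lit 452) (nat_lit 296))) (XT.nd (nat_lit 78) (nat_lit 0) (nat_lit 0) (XT.lf (nat_lit 76) (nat_lit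 4119105183) (nat_lit 0) (nat_lit 14291977277) (nat_lit 1824) (nat_lit 873235942) (nat_lit 507) (nat_lit 5) (nat_lit 506) (nat_lit 5) (nat_lit 530) (nat_lit 5) (nat_lit 453) (nat_lit 452) (nat_lit 295)) (XT.lf (nat_lit 76) (nat_lit 18837481697) (nat_lit 0) (nat_lit 308691404) (nat_lit 1824) (nat_lit 422579769) (nat_lit 507) (nat_lit 5) (nat_lit 506) (nat_lit 5) (nat_lit 530) (nat_lit 5) (nat_lit 454) (nat_lit 452) (nat_lit 294)))))) (XT.nd (nat_lit 546) (nat_lit 1216) (nat_lit 0) (XT.nd (nat_lit 234) (nat_lit 0) (nat_lit 152) (XT.nd (nat_lit 78) (nat_lit 0) (nat_lit 76) (XT.lf (nat_lit 0) (nat_lit 215729259) (nat_lit 1824) (nat_lit 5634660671) (nat_lit 1900) (nat_lit 14007831781) (nat_lit 483) (nat_lit 5) (nat_lit 507) (nat_lit 5) (nat_lit 508) (nat_lit 5) (nat_lit 455) (nat_lit 452) (nat_lit 293)) (XT.nd (nat_lit 78) (nat_lit 0) (nat_lit 76) (XT.lf (nat_lit 0) (nat_lit 982981912) (nat_lit 1824) (nat_lit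 10615496655) (nat_lit 1900) (nat_lit 8555529782) (nat_lit 484) (nat_lit 5) (nat_lit 508) (nat_lit 5) (nat_lit 509) (nat_lit 5) (nat_lit 456) (nat_lit 452) (nat_lit 292)) (XT.lf (nat_lit 0) (nat_lit 1891181844) (nat_lit 1824) (nat_lit 15671906179) (nat_lit 1900) (nat_lit 2893222267) (nat_lit 485) (nat_lit 5) (nat_lit 509) (nat_lit 5) (nat_lit 510) (nat_lit 5) (nat_lit 457) (nat_lit 452) (nat_lit 291)))) (XT.nd (nat_lit 156) (nat_lit 0) (nat_lit 152) (XT.nd (nat_lit 78) (nat_lit 0) (nat_lit 76) (XT.lf (nat_lit 0) (nat_lit 2967022653) (nat_lit 1824) (nat_lit 58704981) (nat_lit 1900) (nat_lit 17739146045) (nat_lit 485) (nat_lit 5) (nat_lit 509) (nat_lit 5) (nat_lit 510) (nat_lit 5) (nat_lit 458) (nat_lit 452) (nat_lit 290)) (XT.lf (nat_lit 0) (nat_lit 4249506288) (nat_lit 1824) (nat_lit 4929170148) (nat_lit 1900) (nat_lit 11900530463) (nat_lit 486) (nat_lit 5) (nat_lit 510) (nat_lit 5) (nat_lit 511) (nat_lit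 5) (nat_lit 459) (nat_lit 452) (nat_lit 289))) (XT.nd (nat_lit 78) (nat_lit 0) (nat_lit 0) (XT.lf (nat_lit 0) (nat_lit 5695543059) (nat_lit 1824) (nat_lit 9871212063) (nat_lit 1900) (nat_lit 5833713693) (nat_lit 487) (nat_lit 5) (nat_lit 511) (nat_lit 5) (nat_lit 512) (nat_lit 5) (nat_lit 460) (nat_lit 452) (nat_lit 288)) (XT.lf (nat_lit 76) (nat_lit 6840253344) (nat_lit 0) (nat_lit 475322664) (nat_lit 1900) (nat_lit 14413180544) (nat_lit 488) (nat_lit 5) (nat_lit 487) (nat_lit 5) (nat_lit 512) (nat_lit 5) (nat_lit 461) (nat_lit 452) (nat_lit 287))))) (XT.nd (nat_lit 312) (nat_lit 1596) (nat_lit 0) (XT.nd (nat_lit 156) (nat_lit 0) (nat_lit 152) (XT.nd (nat_lit 78) (nat_lit 0) (nat_lit 76) (XT.lf (nat_lit 76) (nat_lit 2045014593) (nat_lit 0) (nat_lit 7109076918) (nat_lit 1900) (nat_lit 12909404036) (nat_lit 489) (nat_lit 5) (nat_lit 488) (nat_lit 5) (nat_lit 513) (nat_lit 5) (nat_lit 462) (nat_lit 452)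 (nat_lit 286)) (XT.lf (nat_lit 0) (nat_lit 11198885032) (nat_lit 1824) (nat_lit 2780734443) (nat_lit 1900) (nat_lit 8425635034) (nat_lit 489) (nat_lit 5) (nat_lit 513) (nat_lit 5) (nat_lit 514) (nat_lit 5) (nat_lit 463) (nat_lit 452) (nat_lit 285))) (XT.nd (nat_lit 78) (nat_lit 0) (nat_lit 0) (XT.lf (nat_lit 0) (nat_lit 13453510145) (nat_lit 1824) (nat_lit 7646561676) (nat_lit 1900) (nat_lit 1654224907) (nat_lit 490) (nat_lit 5) (nat_lit 514) (nat_lit 5) (nat_lit 515) (nat_lit 5) (nat_lit 464) (nat_lit 452) (nat_lit 284)) (XT.lf (nat_lit 76) (nat_lit 10495398681) (nat_lit 0) (nat_lit 5453085766) (nat_lit 1900) (nat_lit 7161871790) (nat_lit 491) (nat_lit 5) (nat_lit 490) (nat_lit 5) (nat_lit 515) (nat_lit 5) (nat_lit 465) (nat_lit 452) (nat_lit 283)))) (XT.nd (nat_lit 156) (nat_lit 1824) (nat_lit 0) (XT.nd (nat_lit 78) (nat_lit 0) (nat_lit 76) (XT.lf (nat_lit 76) (nat_lit 5810663716) (nat_lit 0) (nat_lit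 12859075888) (nat_lit 1900) (nat_lit 4804329525) (nat_lit 492) (nat_lit 5) (nat_lit 491) (nat_lit 5) (nat_lit 516) (nat_lit 5) (nat_lit 466) (nat_lit 452) (nat_lit 282)) (XT.lf (nat_lit 76) (nat_lit 1064606532) (nat_lit 0) (nat_lit 20550778133) (nat_lit 1900) (nat_lit 2230453920) (nat_lit 493) (nat_lit 5) (nat_lit 492) (nat_lit 5) (nat_lit 517) (nat_lit 5) (nat_lit 467) (nat_lit 452) (nat_lit 281))) (XT.nd (nat_lit 78) (nat_lit 0) (nat_lit 76) (XT.lf (nat_lit 0) (nat_lit 614237208) (nat_lit 1900) (nat_lit 3725894386) (nat_lit 1976) (nat_lit 19884592799) (nat_lit 467) (nat_lit 5) (nat_lit 492) (nat_lit 5) (nat_lit 493) (nat_lit 5) (nat_lit 468) (nat_lit 452) (nat_lit 280)) (XT.lf (nat_lit 0) (nat_lit 3692490297) (nat_lit 1900) (nat_lit 8602598191) (nat_lit 76) (nat_lit 12316023139) (nat_lit 468) (nat_lit 5) (nat_lit 493) (nat_lit 5) (nat_lit 469) (nat_lit 5) (nat_lit 469) (nat_lit 452) (nat_lit 279))))))))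
noncomputable def xc102 : XT := (XT.nd (nat_lit 2262) (nat_lit 4864) (nat_lit 0) (XT.nd (nat_lit 1092) (nat_lit 7980) (nat_lit 0) (XT.nd (nat_lit 546) (nat_lit 4636) (nat_lit 0) (XT.nd (nat_lit 234) (nat_lit 2660) (nat_lit 0) (XT.nd (nat_lit 78) (nat_lit 1824) (nat_lit 0) (XT.lf (nat_lit 0) (nat_lit 7014442413) (nat_lit 1216) (nat_lit 13543121726) (nat_lit 76) (nat_lit 4448499509) (nat_lit 453) (nat_lit 5) (nat_lit 469) (nat_lit 5) (nat_lit 454) (nat_lit 5) (nat_lit 470) (nat_lit 452) (nat_lit 278)) (XT.nd (nat_lit 78) (nat_lit 912) (nat_lit 0) (XT.lf (nat_lit 0) (nat_lit 6837413022) (nat_lit 912) (nat_lit 3777131717) (nat_lit 988) (nat_lit 14794749851) (nat_lit 441) (nat_lit 5) (nat_lit 453) (nat_lit 5) (nat_lit 454) (nat_lit 5) (nat_lit 471) (nat_lit 452) (nat_lit 277)) (XT.lf (nat_lit 0) (nat_lit 2125336268) (nat_lit 912) (nat_lit 12384546366) (nat_lit 988) (nat_lit 11310995362) (nat_lit 429) (nat_lit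 5) (nat_lit 441) (nat_lit 5) (nat_lit 442) (nat_lit 5) (nat_lit 472) (nat_lit 452) (nat_lit 276)))) (XT.nd (nat_lit 156) (nat_lit 1824) (nat_lit 0) (XT.nd (nat_lit 78) (nat_lit 836) (nat_lit 0) (XT.lf (nat_lit 0) (nat_lit 18698995117) (nat_lit 988) (nat_lit 2608381683) (nat_lit 76) (nat_lit 4933893999) (nat_lit 429) (nat_lit 5) (nat_lit 442) (nat_lit 5) (nat_lit 430) (nat_lit 5) (nat_lit 473) (nat_lit 452) (nat_lit 275)) (XT.lf (nat_lit 0) (nat_lit 19275328105) (nat_lit 836) (nat_lit 3940125992) (nat_lit 912) (nat_lit 3454788003) (nat_lit 418) (nat_lit 5) (nat_lit 429) (nat_lit 5) (nat_lit 430) (nat_lit 5) (nat_lit 474) (nat_lit 452) (nat_lit 274))) (XT.nd (nat_lit 78) (nat_lit 836) (nat_lit 0) (XT.lf (nat_lit 0) (nat_lit 945269731) (nat_lit 988) (nat_lit 12276959598) (nat_lit 76) (nat_lit 13885758264) (nat_lit 405) (nat_lit 5) (nat_lit 418) (nat_lit 5) (nat_lit 406) (nat_lit 5) (nat_lit 475) (nat_lit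 452) (nat_lit 273)) (XT.lf (nat_lit 0) (nat_lit 5599605591) (nat_lit 912) (nat_lit 17239696430) (nat_lit 76) (nat_lit 4715722602) (nat_lit 394) (nat_lit 5) (nat_lit 406) (nat_lit 5) (nat_lit 395) (nat_lit 5) (nat_lit 476) (nat_lit 452) (nat_lit 272))))) (XT.nd (nat_lit 234) (nat_lit 3040) (nat_lit 0) (XT.nd (nat_lit 78) (nat_lit 760) (nat_lit 0) (XT.lf (nat_lit 0) (nat_lit 5719592292) (nat_lit 836) (nat_lit 4877368764) (nat_lit 912) (nat_lit 17414444077) (nat_lit 383) (nat_lit 5) (nat_lit 394) (nat_lit 5) (nat_lit 395) (nat_lit 5) (nat_lit 477) (nat_lit 452) (nat_lit 271)) (XT.nd (nat_lit 78) (nat_lit 0) (nat_lit 0) (XT.lf (nat_lit 0) (nat_lit 1042862154) (nat_lit 760) (nat_lit 14908413448) (nat_lit 836) (nat_lit 12526060840) (nat_lit 373) (nat_lit 5) (nat_lit 383) (nat_lit 5) (nat_lit 384) (nat_lit 5) (nat_lit 478) (nat_lit 452) (nat_lit 270)) (XT.lf (nat_lit 0) (nat_lit 21668048386) (nat_lit 836)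 (nat_lit 3634038744) (nat_lit 76) (nat_lit 3651122134) (nat_lit 373) (nat_lit 5) (nat_lit 384) (nat_lit 5) (nat_lit 374) (nat_lit 5) (nat_lit 479) (nat_lit 452) (nat_lit 269)))) (XT.nd (nat_lit 156) (nat_lit 1444) (nat_lit 0) (XT.nd (nat_lit 78) (nat_lit 836) (nat_lit 0) (XT.lf (nat_lit 0) (nat_lit 21050874219) (nat_lit 760) (nat_lit 6736337344) (nat_lit 836) (nat_lit 1651529109) (nat_lit 363) (nat_lit 5) (nat_lit 373) (nat_lit 5) (nat_lit 374) (nat_lit 5) (nat_lit 480) (nat_lit 452) (nat_lit 268)) (XT.lf (nat_lit 0) (nat_lit 4306449618) (nat_lit 836) (nat_lit 13242491785) (nat_lit 76) (nat_lit 12385162110) (nat_lit 352) (nat_lit 5) (nat_lit 363) (nat_lit 5) (nat_lit 353) (nat_lit 5) (nat_lit 481) (nat_lit 452) (nat_lit 267))) (XT.nd (nat_lit 78) (nat_lit 684) (nat_lit 0) (XT.lf (nat_lit 0) (nat_lit 10608670436) (nat_lit 836) (nat_lit 18157623114) (nat_lit 76) (nat_lit 1674056681) (nat_lit 342) (nat_lit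 5) (nat_lit 353) (nat_lit 5) (nat_lit 343) (nat_lit 5) (nat_lit 482) (nat_lit 452) (nat_lit 266)) (XT.lf (nat_lit 0) (nat_lit 7773062971) (nat_lit 684) (nat_lit 9579876423) (nat_lit 760) (nat_lit 13603785454) (nat_lit 333) (nat_lit 5) (nat_lit 342) (nat_lit 5) (nat_lit 343) (nat_lit 5) (nat_lit 483) (nat_lit 452) (nat_lit 265)))))) (XT.nd (nat_lit 546) (nat_lit 3952) (nat_lit 0) (XT.nd (nat_lit 234) (nat_lit 2584) (nat_lit 0) (XT.nd (nat_lit 78) (nat_lit 760) (nat_lit 0) (XT.lf (nat_lit 0) (nat_lit 3213395248) (nat_lit 684) (nat_lit 21291905034) (nat_lit 760) (nat_lit 6979175274) (nat_lit 324) (nat_lit 5) (nat_lit 333) (nat_lit 5) (nat_lit 334) (nat_lit 5) (nat_lit 484) (nat_lit 452) (nat_lit 264)) (XT.nd (nat_lit 78) (nat_lit 684) (nat_lit 0) (XT.lf (nat_lit 0) (nat_lit 63433419) (nat_lit 760) (nat_lit 1375184345) (nat_lit 76) (nat_lit 30585117043) (nat_lit 323) (nat_lit 5) (nat_lit 333) (nat_lit 5)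 (nat_lit 324) (nat_lit 5) (nat_lit 485) (nat_lit 452) (nat_lit 263)) (XT.lf (nat_lit 0) (nat_lit 7515936698) (nat_lit 760) (nat_lit 6075362773) (nat_lit 76) (nat_lit 18981081116) (nat_lit 314) (nat_lit 5) (nat_lit 324) (nat_lit 5) (nat_lit 315) (nat_lit 5) (nat_lit 486) (nat_lit 452) (nat_lit 262)))) (XT.nd (nat_lit 156) (nat_lit 1292) (nat_lit 0) (XT.nd (nat_lit 78) (nat_lit 608) (nat_lit 0) (XT.lf (nat_lit 0) (nat_lit 15397014568) (nat_lit 760) (nat_lit 10814990079) (nat_lit 76) (nat_lit 6921381218) (nat_lit 305) (nat_lit 5) (nat_lit 315) (nat_lit 5) (nat_lit 306) (nat_lit 5) (nat_lit 487) (nat_lit 452) (nat_lit 261)) (XT.lf (nat_lit 0) (nat_lit 18076949298) (nat_lit 608) (nat_lit 5682626357) (nat_lit 684) (nat_lit 9946744738) (nat_lit 297) (nat_lit 5) (nat_lit 305) (nat_lit 5) (nat_lit 306) (nat_lit 5) (nat_lit 488) (nat_lit 452) (nat_lit 260))) (XT.nd (nat_lit 78) (nat_lit 684) (nat_lit 0) (XT.lf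 (nat_lit 0) (nat_lit 13762636410) (nat_lit 608) (nat_lit 18869341345) (nat_lit 684) (nat_lit 1659286025) (nat_lit 289) (nat_lit 5) (nat_lit 297) (nat_lit 5) (nat_lit 298) (nat_lit 5) (nat_lit 489) (nat_lit 452) (nat_lit 259)) (XT.lf (nat_lit 0) (nat_lit 7003329935) (nat_lit 684) (nat_lit 25511573615) (nat_lit 76) (nat_lit 2373624567) (nat_lit 280) (nat_lit 5) (nat_lit 289) (nat_lit 5) (nat_lit 281) (nat_lit 5) (nat_lit 490) (nat_lit 452) (nat_lit 258))))) (XT.nd (nat_lit 312) (nat_lit 2128) (nat_lit 0) (XT.nd (nat_lit 156) (nat_lit 684) (nat_lit 0) (XT.nd (nat_lit 78) (nat_lit 532) (nat_lit 0) (XT.lf (nat_lit 0) (nat_lit 4879923520) (nat_lit 608) (nat_lit 11316984206) (nat_lit 684) (nat_lit 19300710870) (nat_lit 272) (nat_lit 5) (nat_lit 280) (nat_lit 5) (nat_lit 281) (nat_lit 5) (nat_lit 491) (nat_lit 452) (nat_lit 257)) (XT.lf (nat_lit 0) (nat_lit 340249166) (nat_lit 532) (nat_lit 25566235739) (nat_lit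 608) (nat_lit 10213693136) (nat_lit 265) (nat_lit 5) (nat_lit 272) (nat_lit 5) (nat_lit 273) (nat_lit 5) (nat_lit 492) (nat_lit 452) (nat_lit 256))) (XT.nd (nat_lit 78) (nat_lit 684) (nat_lit 0) (XT.lf (nat_lit 0) (nat_lit 32563801918) (nat_lit 532) (nat_lit 3621977323) (nat_lit 608) (nat_lit 570066527) (nat_lit 265) (nat_lit 5) (nat_lit 272) (nat_lit 5) (nat_lit 273) (nat_lit 5) (nat_lit 493) (nat_lit 452) (nat_lit 255)) (XT.lf (nat_lit 0) (nat_lit 9546835350) (nat_lit 684) (nat_lit 8877548867) (nat_lit 76) (nat_lit 18978848355) (nat_lit 256) (nat_lit 5) (nat_lit 265) (nat_lit 5) (nat_lit 257) (nat_lit 5) (nat_lit 494) (nat_lit 452) (nat_lit 254)))) (XT.nd (nat_lit 156) (nat_lit 1064) (nat_lit 0) (XT.nd (nat_lit 78) (nat_lit 532) (nat_lit 0) (XT.lf (nat_lit 0) (nat_lit 20195511472) (nat_lit 608) (nat_lit 13593403708) (nat_lit 76) (nat_lit 4276330281) (nat_lit 249) (nat_lit 5) (nat_lit 257) (nat_lit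 5) (nat_lit 250) (nat_lit 5) (nat_lit 495) (nat_lit 452) (nat_lit 253)) (XT.lf (nat_lit 0) (nat_lit 20334999578) (nat_lit 532) (nat_lit 11140462787) (nat_lit 608) (nat_lit 7265420165) (nat_lit 242) (nat_lit 5) (nat_lit 249) (nat_lit 5) (nat_lit 250) (nat_lit 5) (nat_lit 496) (nat_lit 452) (nat_lit 252))) (XT.nd (nat_lit 78) (nat_lit 532) (nat_lit 0) (XT.lf (nat_lit 0) (nat_lit 3883726773) (nat_lit 532) (nat_lit 23297697847) (nat_lit 76) (nat_lit 12249395969) (nat_lit 235) (nat_lit 5) (nat_lit 242) (nat_lit 5) (nat_lit 236) (nat_lit 5) (nat_lit 497) (nat_lit 452) (nat_lit 251)) (XT.lf (nat_lit 0) (nat_lit 11847397233) (nat_lit 532) (nat_lit 3694922391) (nat_lit 608) (nat_lit 24592703154) (nat_lit 228) (nat_lit 5) (nat_lit 235) (nat_lit 5) (nat_lit 236) (nat_lit 5) (nat_lit 498) (nat_lit 452) (nat_lit 250))))))) (XT.nd (nat_lit 59046) (nat_lit 0) (nat_lit 23028) (XT.nd (nat_lit 546) (nat_lit 2052) (nat_lit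 0) (XT.nd (nat_lit 234) (nat_lit 1824) (nat_lit 0) (XT.nd (nat_lit 78) (nat_lit 532) (nat_lit 0) (XT.lf (nat_lit 0) (nat_lit 7467038056) (nat_lit 456) (nat_lit 20420319466) (nat_lit 532) (nat_lit 12966259840) (nat_lit 222) (nat_lit 5) (nat_lit 228) (nat_lit 5) (nat_lit 229) (nat_lit 5) (nat_lit 499) (nat_lit 452) (nat_lit 249)) (XT.nd (nat_lit 78) (nat_lit 76) (nat_lit 0) (XT.lf (nat_lit 0) (nat_lit 3077200942) (nat_lit 456) (nat_lit 37782953320) (nat_lit 532) (nat_lit 728467439) (nat_lit 216) (nat_lit 5) (nat_lit 222) (nat_lit 5) (nat_lit 223) (nat_lit 5) (nat_lit 500) (nat_lit 452) (nat_lit 248)) (XT.lf (nat_lit 0) (nat_lit 12081322877) (nat_lit 532) (nat_lit 1469691928) (nat_lit 76) (nat_lit 28785906718) (nat_lit 215) (nat_lit 5) (nat_lit 222) (nat_lit 5) (nat_lit 216) (nat_lit 5) (nat_lit 501) (nat_lit 452) (nat_lit 247)))) (XT.nd (nat_lit 156) (nat_lit 912) (nat_lit 0) (XT.nd (nat_lit 78) (nat_lit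 456) (nat_lit 0) (XT.lf (nat_lit 0) (nat_lit 25578962512) (nat_lit 532) (nat_lit 6017834888) (nat_lit 76) (nat_lit 11504507650) (nat_lit 209) (nat_lit 5) (nat_lit 216) (nat_lit 5) (nat_lit 210) (nat_lit 5) (nat_lit 502) (nat_lit 452) (nat_lit 246)) (XT.lf (nat_lit 0) (nat_lit 33265426508) (nat_lit 456) (nat_lit 6529230781) (nat_lit 532) (nat_lit 4087700342) (nat_lit 203) (nat_lit 5) (nat_lit 209) (nat_lit 5) (nat_lit 210) (nat_lit 5) (nat_lit 503) (nat_lit 452) (nat_lit 245))) (XT.nd (nat_lit 78) (nat_lit 456) (nat_lit 0) (XT.lf (nat_lit 0) (nat_lit 9978045004) (nat_lit 456) (nat_lit 15367164639) (nat_lit 76) (nat_lit 19333247407) (nat_lit 197) (nat_lit 5) (nat_lit 203) (nat_lit 5) (nat_lit 198) (nat_lit 5) (nat_lit 504) (nat_lit 452) (nat_lit 244)) (XT.lf (nat_lit 0) (nat_lit 24692009061) (nat_lit 532) (nat_lit 20155052934) (nat_lit 76) (nat_lit 645201479) (nat_lit 191) (nat_lit 5) (nat_lit 198) (nat_lit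 5) (nat_lit 192) (nat_lit 5) (nat_lit 505) (nat_lit 452) (nat_lit 243))))) (XT.nd (nat_lit 312) (nat_lit 456) (nat_lit 0) (XT.nd (nat_lit 156) (nat_lit 760) (nat_lit 0) (XT.nd (nat_lit 78) (nat_lit 456) (nat_lit 0) (XT.lf (nat_lit 0) (nat_lit 21248147772) (nat_lit 380) (nat_lit 19008177461) (nat_lit 456) (nat_lit 6065980254) (nat_lit 186) (nat_lit 5) (nat_lit 191) (nat_lit 5) (nat_lit 192) (nat_lit 5) (nat_lit 506) (nat_lit 452) (nat_lit 242)) (XT.lf (nat_lit 0) (nat_lit 9287814333) (nat_lit 456) (nat_lit 30067787403) (nat_lit 76) (nat_lit 7814524559) (nat_lit 180) (nat_lit 5) (nat_lit 186) (nat_lit 5) (nat_lit 181) (nat_lit 5) (nat_lit 507) (nat_lit 452) (nat_lit 241))) (XT.nd (nat_lit 78) (nat_lit 380) (nat_lit 0) (XT.lf (nat_lit 0) (nat_lit 12842043368) (nat_lit 380) (nat_lit 12556523345) (nat_lit 456) (nat_lit 22636438010) (nat_lit 175) (nat_lit 5) (nat_lit 180) (nat_lit 5) (nat_lit 181) (nat_lit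 5) (nat_lit 508) (nat_lit 452) (nat_lit 240)) (XT.lf (nat_lit 0) (nat_lit 8536996425) (nat_lit 380) (nat_lit 33810671535) (nat_lit 456) (nat_lit 6571061070) (nat_lit 170) (nat_lit 5) (nat_lit 175) (nat_lit 5) (nat_lit 176) (nat_lit 5) (nat_lit 509) (nat_lit 452) (nat_lit 239)))) (XT.nd (nat_lit 58032) (nat_lit 0) (nat_lit 25992) (XT.nd (nat_lit 78) (nat_lit 0) (nat_lit 0) (XT.lf (nat_lit 0) (nat_lit 4135422274) (nat_lit 380) (nat_lit 6057742185) (nat_lit 456) (nat_lit 39627550647) (nat_lit 164) (nat_lit 5) (nat_lit 169) (nat_lit 5) (nat_lit 170) (nat_lit 5) (nat_lit 510) (nat_lit 452) (nat_lit 238)) (XT.lf (nat_lit 0) (nat_lit 27790166114) (nat_lit 456) (nat_lit 400313167) (nat_lit 76) (nat_lit 22550030350) (nat_lit 164) (nat_lit 5) (nat_lit 170) (nat_lit 5) (nat_lit 165) (nat_lit 5) (nat_lit 511) (nat_lit 452) (nat_lit 237))) (XT.nd (nat_lit 78) (nat_lit 0) (nat_lit 0) (XT.lf (nat_lit 0) (nat_lit 4721789118)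 (nat_lit 0) (nat_lit 4721789118) (nat_lit 1748) (nat_lit 339031932) (nat_lit 506) (nat_lit 5) (nat_lit 506) (nat_lit 3) (nat_lit 529) (nat_lit 3) (nat_lit 453) (nat_lit 453) (nat_lit 294)) (XT.lf (nat_lit 76) (nat_lit 4521644301) (nat_lit 0) (nat_lit 14967994982) (nat_lit 1824) (nat_lit 362667836) (nat_lit 507) (nat_lit 5) (nat_lit 506) (nat_lit 5) (nat_lit 530) (nat_lit 5) (nat_lit 454) (nat_lit 453) (nat_lit 293)))))) (XT.nd (nat_lit 546) (nat_lit 1140) (nat_lit 0) (XT.nd (nat_lit 234) (nat_lit 0) (nat_lit 228) (XT.nd (nat_lit 78) (nat_lit 0) (nat_lit 76) (XT.lf (nat_lit 0) (nat_lit 84747829) (nat_lit 1824) (nat_lit 472692299) (nat_lit 1900) (nat_lit 19588130356) (nat_lit 482) (nat_lit 5) (nat_lit 506) (nat_lit 5) (nat_lit 507) (nat_lit 5) (nat_lit 455) (nat_lit 453) (nat_lit 292)) (XT.nd (nat_lit 78) (nat_lit 0) (nat_lit 76) (XT.lf (nat_lit 0) (nat_lit 721812137) (nat_lit 1824) (nat_lit 5518998036)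 (nat_lit 1900) (nat_lit 14203150862) (nat_lit 483) (nat_lit 5) (nat_lit 507) (nat_lit 5) (nat_lit 508) (nat_lit 5) (nat_lit 456) (nat_lit 453) (nat_lit 291)) (XT.lf (nat_lit 0) (nat_lit 1498006436) (nat_lit 1824) (nat_lit 10642783191) (nat_lit 1900) (nat_lit 8608113603) (nat_lit 484) (nat_lit 5) (nat_lit 508) (nat_lit 5) (nat_lit 509) (nat_lit 5) (nat_lit 457) (nat_lit 453) (nat_lit 290)))) (XT.nd (nat_lit 156) (nat_lit 0) (nat_lit 76) (XT.nd (nat_lit 78) (nat_lit 0) (nat_lit 0) (XT.lf (nat_lit 0) (nat_lit 2419957597) (nat_lit 1824) (nat_lit 15844916900) (nat_lit 1900) (nat_lit 2795670055) (nat_lit 485) (nat_lit 5) (nat_lit 509) (nat_lit 5) (nat_lit 510) (nat_lit 5) (nat_lit 458) (nat_lit 453) (nat_lit 289)) (XT.lf (nat_lit 76) (nat_lit 231055921) (nat_lit 0) (nat_lit 3284769131) (nat_lit 1900) (nat_lit 17862785177) (nat_lit 486) (nat_lit 5) (nat_lit 485) (nat_lit 5) (nat_lit 510) (nat_lit 5) (nat_lit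 459) (nat_lit 453) (nat_lit 288))) (XT.nd (nat_lit 78) (nat_lit 0) (nat_lit 76) (XT.lf (nat_lit 0) (nat_lit 4822719282) (nat_lit 1824) (nat_lit 4783226693) (nat_lit 1900) (nat_lit 12096709152) (nat_lit 486) (nat_lit 5) (nat_lit 510) (nat_lit 5) (nat_lit 511) (nat_lit 5) (nat_lit 460) (nat_lit 453) (nat_lit 287)) (XT.lf (nat_lit 0) (nat_lit 6300086369) (nat_lit 1824) (nat_lit 9868646108) (nat_lit 1900) (nat_lit 5865063831) (nat_lit 487) (nat_lit 5) (nat_lit 511) (nat_lit 5) (nat_lit 512) (nat_lit 5) (nat_lit 461) (nat_lit 453) (nat_lit 286))))) (XT.nd (nat_lit 312) (nat_lit 1520) (nat_lit 0) (XT.nd (nat_lit 156) (nat_lit 0) (nat_lit 152) (XT.nd (nat_lit 78) (nat_lit 0) (nat_lit 76) (XT.lf (nat_lit 76) (nat_lit 7339317172) (nat_lit 0) (nat_lit 618679675) (nat_lit 1900) (nat_lit 14414150679) (nat_lit 488) (nat_lit 5) (nat_lit 487) (nat_lit 5) (nat_lit 512) (nat_lit 5) (nat_lit 462) (nat_lit 453) (nat_lit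 285)) (XT.lf (nat_lit 76) (nat_lit 2404612657) (nat_lit 0) (nat_lit 7435858771) (nat_lit 1900) (nat_lit 12876681559) (nat_lit 489) (nat_lit 5) (nat_lit 488) (nat_lit 5) (nat_lit 513) (nat_lit 5) (nat_lit 463) (nat_lit 453) (nat_lit 284))) (XT.nd (nat_lit 78) (nat_lit 0) (nat_lit 76) (XT.lf (nat_lit 0) (nat_lit 11933900313) (nat_lit 1824) (nat_lit 2565872950) (nat_lit 1900) (nat_lit 8569645981) (nat_lit 489) (nat_lit 5) (nat_lit 513) (nat_lit 5) (nat_lit 514) (nat_lit 5) (nat_lit 464) (nat_lit 453) (nat_lit 283)) (XT.lf (nat_lit 0) (nat_lit 14245824074) (nat_lit 1824) (nat_lit 7574093531) (nat_lit 1900) (nat_lit 1609222273) (nat_lit 490) (nat_lit 5) (nat_lit 514) (nat_lit 5) (nat_lit 515) (nat_lit 5) (nat_lit 465) (nat_lit 453) (nat_lit 282)))) (XT.nd (nat_lit 156) (nat_lit 1748) (nat_lit 0) (XT.nd (nat_lit 78) (nat_lit 0) (nat_lit 76) (XT.lf (nat_lit 76) (nat_lit 11107228236) (nat_lit 0) (nat_lit 5699025870)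 (nat_lit 1900) (nat_lit 6989815276) (nat_lit 491) (nat_lit 5) (nat_lit 490) (nat_lit 5) (nat_lit 515) (nat_lit 5) (nat_lit 466) (nat_lit 453) (nat_lit 281)) (XT.lf (nat_lit 76) (nat_lit 6285133539) (nat_lit 0) (nat_lit 13314395055) (nat_lit 1900) (nat_lit 4571357760) (nat_lit 492) (nat_lit 5) (nat_lit 491) (nat_lit 5) (nat_lit 516) (nat_lit 5) (nat_lit 467) (nat_lit 453) (nat_lit 280))) (XT.nd (nat_lit 78) (nat_lit 1900) (nat_lit 0) (XT.lf (nat_lit 76) (nat_lit 1399553997) (nat_lit 0) (nat_lit 21224750085) (nat_lit 1900) (nat_lit 1929689906) (nat_lit 493) (nat_lit 5) (nat_lit 492) (nat_lit 5) (nat_lit 517) (nat_lit 5) (nat_lit 468) (nat_lit 453) (nat_lit 279)) (XT.lf (nat_lit 0) (nat_lit 984951192) (nat_lit 1900) (nat_lit 3538795668) (nat_lit 1976) (nat_lit 20420663442) (nat_lit 467) (nat_lit 5) (nat_lit 492) (nat_lit 5) (nat_lit 493) (nat_lit 5) (nat_lit 469) (nat_lit 453) (nat_lit 278))))))))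
noncomputable def xc103 : XT := (XT.nd (nat_lit 2262) (nat_lit 5396) (nat_lit 0) (XT.nd (nat_lit 1092) (nat_lit 8132) (nat_lit 0) (XT.nd (nat_lit 546) (nat_lit 4788) (nat_lit 0) (XT.nd (nat_lit 234) (nat_lit 2736) (nat_lit 0) (XT.nd (nat_lit 78) (nat_lit 2052) (nat_lit 0) (XT.lf (nat_lit 0) (nat_lit 4146876068) (nat_lit 1900) (nat_lit 8559436955) (nat_lit 76) (nat_lit 12636249939) (nat_lit 468) (nat_lit 5) (nat_lit 493) (nat_lit 5) (nat_lit 469) (nat_lit 5) (nat_lit 470) (nat_lit 453) (nat_lit 277)) (XT.nd (nat_lit 78) (nat_lit 912) (nat_lit 0) (XT.lf (nat_lit 0) (nat_lit 7560148421) (nat_lit 1216) (nat_lit 13646089044) (nat_lit 76) (nat_lit 4543293131) (nat_lit 453) (nat_lit 5) (nat_lit 469) (nat_lit 5) (nat_lit 454) (nat_lit 5) (nat_lit 471) (nat_lit 453) (nat_lit 276)) (XT.lf (nat_lit 0) (nat_lit 7340940636) (nat_lit 912) (nat_lit 3919485399) (nat_lit 988) (nat_lit 14904589263) (nat_lit 441) (nat_lit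 5) (nat_lit 453) (nat_lit 5) (nat_lit 454) (nat_lit 5) (nat_lit 472) (nat_lit 453) (nat_lit 275)))) (XT.nd (nat_lit 156) (nat_lit 1824) (nat_lit 0) (XT.nd (nat_lit 78) (nat_lit 0) (nat_lit 0) (XT.lf (nat_lit 0) (nat_lit 2489297528) (nat_lit 912) (nat_lit 12775555360) (nat_lit 988) (nat_lit 11324249013) (nat_lit 429) (nat_lit 5) (nat_lit 441) (nat_lit 5) (nat_lit 442) (nat_lit 5) (nat_lit 473) (nat_lit 453) (nat_lit 274)) (XT.lf (nat_lit 0) (nat_lit 19570205111) (nat_lit 988) (nat_lit 2388836982) (nat_lit 76) (nat_lit 5063253328) (nat_lit 429) (nat_lit 5) (nat_lit 442) (nat_lit 5) (nat_lit 430) (nat_lit 5) (nat_lit 474) (nat_lit 453) (nat_lit 273))) (XT.nd (nat_lit 78) (nat_lit 988) (nat_lit 0) (XT.lf (nat_lit 0) (nat_lit 20146552712) (nat_lit 836) (nat_lit 4068471149) (nat_lit 912) (nat_lit 3249254932) (nat_lit 418) (nat_lit 5) (nat_lit 429) (nat_lit 5) (nat_lit 430) (nat_lit 5) (nat_lit 475) (nat_lit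 453) (nat_lit 272)) (XT.lf (nat_lit 0) (nat_lit 1271721342) (nat_lit 988) (nat_lit 12347050224) (nat_lit 76) (nat_lit 14296485745) (nat_lit 405) (nat_lit 5) (nat_lit 418) (nat_lit 5) (nat_lit 406) (nat_lit 5) (nat_lit 476) (nat_lit 453) (nat_lit 271))))) (XT.nd (nat_lit 234) (nat_lit 2356) (nat_lit 0) (XT.nd (nat_lit 78) (nat_lit 1596) (nat_lit 0) (XT.lf (nat_lit 0) (nat_lit 6058923161) (nat_lit 912) (nat_lit 17457686671) (nat_lit 76) (nat_lit 4859231137) (nat_lit 394) (nat_lit 5) (nat_lit 406) (nat_lit 5) (nat_lit 395) (nat_lit 5) (nat_lit 477) (nat_lit 453) (nat_lit 270)) (XT.nd (nat_lit 78) (nat_lit 760) (nat_lit 0) (XT.lf (nat_lit 0) (nat_lit 6185526538) (nat_lit 836) (nat_lit 5014098521) (nat_lit 912) (nat_lit 17646419545) (nat_lit 383) (nat_lit 5) (nat_lit 394) (nat_lit 5) (nat_lit 395) (nat_lit 5) (nat_lit 478) (nat_lit 453) (nat_lit 269)) (XT.lf (nat_lit 0) (nat_lit 1369267974) (nat_lit 760)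 (nat_lit 15338983802) (nat_lit 836) (nat_lit 12617828644) (nat_lit 373) (nat_lit 5) (nat_lit 383) (nat_lit 5) (nat_lit 384) (nat_lit 5) (nat_lit 479) (nat_lit 453) (nat_lit 268)))) (XT.nd (nat_lit 156) (nat_lit 1596) (nat_lit 0) (XT.nd (nat_lit 78) (nat_lit 760) (nat_lit 0) (XT.lf (nat_lit 0) (nat_lit 22588523058) (nat_lit 836) (nat_lit 3451227129) (nat_lit 76) (nat_lit 3776639548) (nat_lit 373) (nat_lit 5) (nat_lit 384) (nat_lit 5) (nat_lit 374) (nat_lit 5) (nat_lit 480) (nat_lit 453) (nat_lit 267)) (XT.lf (nat_lit 0) (nat_lit 21969498582) (nat_lit 760) (nat_lit 6915749883) (nat_lit 836) (nat_lit 1431359081) (nat_lit 363) (nat_lit 5) (nat_lit 373) (nat_lit 5) (nat_lit 374) (nat_lit 5) (nat_lit 481) (nat_lit 453) (nat_lit 266))) (XT.nd (nat_lit 78) (nat_lit 760) (nat_lit 0) (XT.lf (nat_lit 0) (nat_lit 4696091794) (nat_lit 836) (nat_lit 13348793815) (nat_lit 76) (nat_lit 12782025435) (nat_lit 352) (nat_lit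 5) (nat_lit 363) (nat_lit 5) (nat_lit 353) (nat_lit 5) (nat_lit 482) (nat_lit 453) (nat_lit 265)) (XT.lf (nat_lit 0) (nat_lit 11181856609) (nat_lit 836) (nat_lit 18411203652) (nat_lit 76) (nat_lit 1755395546) (nat_lit 342) (nat_lit 5) (nat_lit 353) (nat_lit 5) (nat_lit 343) (nat_lit 5) (nat_lit 483) (nat_lit 453) (nat_lit 264)))))) (XT.nd (nat_lit 546) (nat_lit 4104) (nat_lit 0) (XT.nd (nat_lit 234) (nat_lit 2584) (nat_lit 0) (XT.nd (nat_lit 78) (nat_lit 760) (nat_lit 0) (XT.lf (nat_lit 0) (nat_lit 8292679483) (nat_lit 684) (nat_lit 9830208781) (nat_lit 760) (nat_lit 13757544895) (nat_lit 333) (nat_lit 5) (nat_lit 342) (nat_lit 5) (nat_lit 343) (nat_lit 5) (nat_lit 484) (nat_lit 453) (nat_lit 263)) (XT.nd (nat_lit 78) (nat_lit 76) (nat_lit 0) (XT.lf (nat_lit 0) (nat_lit 3596250512) (nat_lit 684) (nat_lit 21888400013) (nat_lit 760) (nat_lit 6939469431) (nat_lit 324) (nat_lit 5) (nat_lit 333) (nat_lit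 5) (nat_lit 334) (nat_lit 5) (nat_lit 485) (nat_lit 453) (nat_lit 262)) (XT.lf (nat_lit 0) (nat_lit 303991137) (nat_lit 760) (nat_lit 1135152426) (nat_lit 76) (nat_lit 31540524444) (nat_lit 323) (nat_lit 5) (nat_lit 333) (nat_lit 5) (nat_lit 324) (nat_lit 5) (nat_lit 486) (nat_lit 453) (nat_lit 261)))) (XT.nd (nat_lit 156) (nat_lit 1216) (nat_lit 0) (XT.nd (nat_lit 78) (nat_lit 684) (nat_lit 0) (XT.lf (nat_lit 0) (nat_lit 7975195718) (nat_lit 760) (nat_lit 5976504810) (nat_lit 76) (nat_lit 19593170276) (nat_lit 314) (nat_lit 5) (nat_lit 324) (nat_lit 5) (nat_lit 315) (nat_lit 5) (nat_lit 487) (nat_lit 453) (nat_lit 260)) (XT.lf (nat_lit 0) (nat_lit 16088002658) (nat_lit 760) (nat_lit 10858611276) (nat_lit 76) (nat_lit 7176186535) (nat_lit 305) (nat_lit 5) (nat_lit 315) (nat_lit 5) (nat_lit 306) (nat_lit 5) (nat_lit 488) (nat_lit 453) (nat_lit 259))) (XT.nd (nat_lit 78) (nat_lit 608) (nat_lit 0) (XT.lf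 (nat_lit 0) (nat_lit 18895530174) (nat_lit 608) (nat_lit 5801031982) (nat_lit 684) (nat_lit 10016458601) (nat_lit 297) (nat_lit 5) (nat_lit 305) (nat_lit 5) (nat_lit 306) (nat_lit 5) (nat_lit 489) (nat_lit 453) (nat_lit 258)) (XT.lf (nat_lit 0) (nat_lit 14451389514) (nat_lit 608) (nat_lit 19379336134) (nat_lit 684) (nat_lit 1484875165) (nat_lit 289) (nat_lit 5) (nat_lit 297) (nat_lit 5) (nat_lit 298) (nat_lit 5) (nat_lit 490) (nat_lit 453) (nat_lit 257))))) (XT.nd (nat_lit 312) (nat_lit 2280) (nat_lit 0) (XT.nd (nat_lit 156) (nat_lit 532) (nat_lit 0) (XT.nd (nat_lit 78) (nat_lit 608) (nat_lit 0) (XT.lf (nat_lit 0) (nat_lit 7430390440) (nat_lit 684) (nat_lit 25998663140) (nat_lit 76) (nat_lit 2501786306) (nat_lit 280) (nat_lit 5) (nat_lit 289) (nat_lit 5) (nat_lit 281) (nat_lit 5) (nat_lit 491) (nat_lit 453) (nat_lit 256)) (XT.lf (nat_lit 0) (nat_lit 5300064508) (nat_lit 608) (nat_lit 11595169137) (nat_lit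 684) (nat_lit 19663060412) (nat_lit 272) (nat_lit 5) (nat_lit 280) (nat_lit 5) (nat_lit 281) (nat_lit 5) (nat_lit 492) (nat_lit 453) (nat_lit 255))) (XT.nd (nat_lit 78) (nat_lit 0) (nat_lit 0) (XT.lf (nat_lit 0) (nat_lit 623551158) (nat_lit 532) (nat_lit 26268519705) (nat_lit 608) (nat_lit 10307540108) (nat_lit 265) (nat_lit 5) (nat_lit 272) (nat_lit 5) (nat_lit 273) (nat_lit 5) (nat_lit 493) (nat_lit 453) (nat_lit 254)) (XT.lf (nat_lit 0) (nat_lit 33805856284) (nat_lit 532) (nat_lit 3667818092) (nat_lit 608) (nat_lit 380795880) (nat_lit 265) (nat_lit 5) (nat_lit 272) (nat_lit 5) (nat_lit 273) (nat_lit 5) (nat_lit 494) (nat_lit 453) (nat_lit 253)))) (XT.nd (nat_lit 156) (nat_lit 1064) (nat_lit 0) (XT.nd (nat_lit 78) (nat_lit 532) (nat_lit 0) (XT.lf (nat_lit 0) (nat_lit 10033101198) (nat_lit 684) (nat_lit 8876792409) (nat_lit 76) (nat_lit 19611434490) (nat_lit 256) (nat_lit 5) (nat_lit 265) (nat_lit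 5) (nat_lit 257) (nat_lit 5) (nat_lit 495) (nat_lit 453) (nat_lit 252)) (XT.lf (nat_lit 0) (nat_lit 20997557398) (nat_lit 608) (nat_lit 13734972012) (nat_lit 76) (nat_lit 4470745691) (nat_lit 249) (nat_lit 5) (nat_lit 257) (nat_lit 5) (nat_lit 250) (nat_lit 5) (nat_lit 496) (nat_lit 453) (nat_lit 251))) (XT.nd (nat_lit 78) (nat_lit 532) (nat_lit 0) (XT.lf (nat_lit 0) (nat_lit 21206964045) (nat_lit 532) (nat_lit 11404929297) (nat_lit 608) (nat_lit 7287368328) (nat_lit 242) (nat_lit 5) (nat_lit 249) (nat_lit 5) (nat_lit 250) (nat_lit 5) (nat_lit 497) (nat_lit 453) (nat_lit 250)) (XT.lf (nat_lit 0) (nat_lit 4190196378) (nat_lit 532) (nat_lit 23733095896) (nat_lit 76) (nat_lit 12686649977) (nat_lit 235) (nat_lit 5) (nat_lit 242) (nat_lit 5) (nat_lit 236) (nat_lit 5) (nat_lit 498) (nat_lit 453) (nat_lit 249))))))) (XT.nd (nat_lit 59124) (nat_lit 0) (nat_lit 23028) (XT.nd (nat_lit 546) (nat_lit 2508) (nat_lit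 0) (XT.nd (nat_lit 234) (nat_lit 1444) (nat_lit 0) (XT.nd (nat_lit 78) (nat_lit 912) (nat_lit 0) (XT.lf (nat_lit 0) (nat_lit 12462076528) (nat_lit 532) (nat_lit 3732621005) (nat_lit 608) (nat_lit 25140650071) (nat_lit 228) (nat_lit 5) (nat_lit 235) (nat_lit 5) (nat_lit 236) (nat_lit 5) (nat_lit 499) (nat_lit 453) (nat_lit 248)) (XT.nd (nat_lit 78) (nat_lit 456) (nat_lit 0) (XT.lf (nat_lit 0) (nat_lit 7949298614) (nat_lit 456) (nat_lit 20957505149) (nat_lit 532) (nat_lit 13168762026) (nat_lit 222) (nat_lit 5) (nat_lit 228) (nat_lit 5) (nat_lit 229) (nat_lit 5) (nat_lit 500) (nat_lit 453) (nat_lit 247)) (XT.lf (nat_lit 0) (nat_lit 3426695552) (nat_lit 456) (nat_lit 38838909052) (nat_lit 532) (nat_lit 567079356) (nat_lit 216) (nat_lit 5) (nat_lit 222) (nat_lit 5) (nat_lit 223) (nat_lit 5) (nat_lit 501) (nat_lit 453) (nat_lit 246)))) (XT.nd (nat_lit 156) (nat_lit 912) (nat_lit 0) (XT.nd (nat_lit 78) (nat_lit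 456) (nat_lit 0) (XT.lf (nat_lit 0) (nat_lit 12619334265) (nat_lit 532) (nat_lit 1261758177) (nat_lit 76) (nat_lit 29722421982) (nat_lit 215) (nat_lit 5) (nat_lit 222) (nat_lit 5) (nat_lit 216) (nat_lit 5) (nat_lit 502) (nat_lit 453) (nat_lit 245)) (XT.lf (nat_lit 0) (nat_lit 26518891699) (nat_lit 532) (nat_lit 5947482241) (nat_lit 76) (nat_lit 11924515842) (nat_lit 209) (nat_lit 5) (nat_lit 216) (nat_lit 5) (nat_lit 210) (nat_lit 5) (nat_lit 503) (nat_lit 453) (nat_lit 244))) (XT.nd (nat_lit 78) (nat_lit 456) (nat_lit 0) (XT.lf (nat_lit 0) (nat_lit 34510206642) (nat_lit 456) (nat_lit 6647427149) (nat_lit 532) (nat_lit 4037808712) (nat_lit 203) (nat_lit 5) (nat_lit 209) (nat_lit 5) (nat_lit 210) (nat_lit 5) (nat_lit 504) (nat_lit 453) (nat_lit 243)) (XT.lf (nat_lit 0) (nat_lit 10444785677) (nat_lit 456) (nat_lit 15580304184) (nat_lit 76) (nat_lit 19990369942) (nat_lit 197) (nat_lit 5) (nat_lit 203)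 (nat_lit 5) (nat_lit 198) (nat_lit 5) (nat_lit 505) (nat_lit 453) (nat_lit 242))))) (XT.nd (nat_lit 312) (nat_lit 836) (nat_lit 0) (XT.nd (nat_lit 156) (nat_lit 836) (nat_lit 0) (XT.nd (nat_lit 78) (nat_lit 380) (nat_lit 0) (XT.lf (nat_lit 0) (nat_lit 25597393980) (nat_lit 532) (nat_lit 20513083362) (nat_lit 76) (nat_lit 743258660) (nat_lit 191) (nat_lit 5) (nat_lit 198) (nat_lit 5) (nat_lit 192) (nat_lit 5) (nat_lit 506) (nat_lit 453) (nat_lit 241)) (XT.lf (nat_lit 0) (nat_lit 22128212230) (nat_lit 380) (nat_lit 19497207764) (nat_lit 456) (nat_lit 6083323757) (nat_lit 186) (nat_lit 5) (nat_lit 191) (nat_lit 5) (nat_lit 192) (nat_lit 5) (nat_lit 507) (nat_lit 453) (nat_lit 240))) (XT.nd (nat_lit 78) (nat_lit 380) (nat_lit 0) (XT.lf (nat_lit 0) (nat_lit 9726285781) (nat_lit 456) (nat_lit 30726350672) (nat_lit 76) (nat_lit 8129394226) (nat_lit 180) (nat_lit 5) (nat_lit 186) (nat_lit 5) (nat_lit 181) (nat_lit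 5) (nat_lit 508) (nat_lit 453) (nat_lit 239)) (XT.lf (nat_lit 0) (nat_lit 13466825005) (nat_lit 380) (nat_lit 12850435405) (nat_lit 456) (nat_lit 23155657134) (nat_lit 175) (nat_lit 5) (nat_lit 180) (nat_lit 5) (nat_lit 181) (nat_lit 5) (nat_lit 509) (nat_lit 453) (nat_lit 238)))) (XT.nd (nat_lit 58110) (nat_lit 0) (nat_lit 24168) (XT.nd (nat_lit 78) (nat_lit 456) (nat_lit 0) (XT.lf (nat_lit 0) (nat_lit 9031298376) (nat_lit 380) (nat_lit 34741039504) (nat_lit 456) (nat_lit 6610865711) (nat_lit 170) (nat_lit 5) (nat_lit 175) (nat_lit 5) (nat_lit 176) (nat_lit 5) (nat_lit 510) (nat_lit 453) (nat_lit 237)) (XT.lf (nat_lit 0) (nat_lit 4495844938) (nat_lit 380) (nat_lit 6155390629) (nat_lit 456) (nat_lit 40661053077) (nat_lit 164) (nat_lit 5) (nat_lit 169) (nat_lit 5) (nat_lit 170) (nat_lit 5) (nat_lit 511) (nat_lit 453) (nat_lit 236))) (XT.nd (nat_lit 78) (nat_lit 1824) (nat_lit 0) (XT.lf (nat_lit 0) (nat_lit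 4991142083) (nat_lit 0) (nat_lit 4991142083) (nat_lit 1748) (nat_lit 88688399) (nat_lit 506) (nat_lit 5) (nat_lit 506) (nat_lit 3) (nat_lit 529) (nat_lit 3) (nat_lit 454) (nat_lit 454) (nat_lit 292)) (XT.lf (nat_lit 0) (nat_lit 130668282) (nat_lit 1824) (nat_lit 15518554440) (nat_lit 1900) (nat_lit 4788700670) (nat_lit 482) (nat_lit 5) (nat_lit 506) (nat_lit 5) (nat_lit 507) (nat_lit 5) (nat_lit 455) (nat_lit 454) (nat_lit 291)))))) (XT.nd (nat_lit 546) (nat_lit 1140) (nat_lit 0) (XT.nd (nat_lit 234) (nat_lit 0) (nat_lit 228) (XT.nd (nat_lit 78) (nat_lit 0) (nat_lit 76) (XT.lf (nat_lit 0) (nat_lit 572064057) (nat_lit 1824) (nat_lit 225122639) (nat_lit 1900) (nat_lit 19943040760) (nat_lit 482) (nat_lit 5) (nat_lit 506) (nat_lit 5) (nat_lit 507) (nat_lit 5) (nat_lit 456) (nat_lit 454) (nat_lit 290)) (XT.nd (nat_lit 78) (nat_lit 0) (nat_lit 76) (XT.lf (nat_lit 0) (nat_lit 1214397786) (nat_lit 1824) (nat_lit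 5416208608) (nat_lit 1900) (nat_lit 14417240607) (nat_lit 483) (nat_lit 5) (nat_lit 507) (nat_lit 5) (nat_lit 508) (nat_lit 5) (nat_lit 457) (nat_lit 454) (nat_lit 289)) (XT.lf (nat_lit 0) (nat_lit 2000609996) (nat_lit 1824) (nat_lit 10687603153) (nat_lit 1900) (nat_lit 8673990085) (nat_lit 484) (nat_lit 5) (nat_lit 508) (nat_lit 5) (nat_lit 509) (nat_lit 5) (nat_lit 458) (nat_lit 454) (nat_lit 288)))) (XT.nd (nat_lit 156) (nat_lit 0) (nat_lit 76) (XT.nd (nat_lit 78) (nat_lit 0) (nat_lit 0) (XT.lf (nat_lit 0) (nat_lit 2937499579) (nat_lit 1824) (nat_lit 16040175365) (nat_lit 1900) (nat_lit 2705773656) (nat_lit 485) (nat_lit 5) (nat_lit 509) (nat_lit 5) (nat_lit 510) (nat_lit 5) (nat_lit 459) (nat_lit 454) (nat_lit 287)) (XT.lf (nat_lit 76) (nat_lit 513532529) (nat_lit 0) (nat_lit 3541540037) (nat_lit 1900) (nat_lit 17956207483) (nat_lit 486) (nat_lit 5) (nat_lit 485) (nat_lit 5) (nat_lit 510) (nat_lit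 5) (nat_lit 460) (nat_lit 454) (nat_lit 286))) (XT.nd (nat_lit 78) (nat_lit 0) (nat_lit 76) (XT.lf (nat_lit 0) (nat_lit 5387542066) (nat_lit 1824) (nat_lit 4649771322) (nat_lit 1900) (nat_lit 12308005916) (nat_lit 486) (nat_lit 5) (nat_lit 510) (nat_lit 5) (nat_lit 511) (nat_lit 5) (nat_lit 461) (nat_lit 454) (nat_lit 285)) (XT.lf (nat_lit 0) (nat_lit 6897871142) (nat_lit 1824) (nat_lit 9883149909) (nat_lit 1900) (nat_lit 5905601219) (nat_lit 487) (nat_lit 5) (nat_lit 511) (nat_lit 5) (nat_lit 512) (nat_lit 5) (nat_lit 462) (nat_lit 454) (nat_lit 284))))) (XT.nd (nat_lit 312) (nat_lit 1520) (nat_lit 0) (XT.nd (nat_lit 156) (nat_lit 0) (nat_lit 152) (XT.nd (nat_lit 78) (nat_lit 0) (nat_lit 76) (XT.lf (nat_lit 76) (nat_lit 7836484364) (nat_lit 0) (nat_lit 758926681) (nat_lit 1900) (nat_lit 14439915495) (nat_lit 488) (nat_lit 5) (nat_lit 487) (nat_lit 5) (nat_lit 512) (nat_lit 5) (nat_lit 463) (nat_lit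 454) (nat_lit 283)) (XT.lf (nat_lit 76) (nat_lit 2757878028) (nat_lit 0) (nat_lit 7765928167) (nat_lit 1900) (nat_lit 12867087389) (nat_lit 489) (nat_lit 5) (nat_lit 488) (nat_lit 5) (nat_lit 513) (nat_lit 5) (nat_lit 464) (nat_lit 454) (nat_lit 282))) (XT.nd (nat_lit 78) (nat_lit 0) (nat_lit 76) (XT.lf (nat_lit 0) (nat_lit 12668059023) (nat_lit 1824) (nat_lit 2361688307) (nat_lit 1900) (nat_lit 8724220416) (nat_lit 489) (nat_lit 5) (nat_lit 513) (nat_lit 5) (nat_lit 514) (nat_lit 5) (nat_lit 465) (nat_lit 454) (nat_lit 281)) (XT.lf (nat_lit 0) (nat_lit 15039593955) (nat_lit 1824) (nat_lit 7516779628) (nat_lit 1900) (nat_lit 1568301674) (nat_lit 490) (nat_lit 5) (nat_lit 514) (nat_lit 5) (nat_lit 515) (nat_lit 5) (nat_lit 466) (nat_lit 454) (nat_lit 280)))) (XT.nd (nat_lit 156) (nat_lit 1748) (nat_lit 0) (XT.nd (nat_lit 78) (nat_lit 0) (nat_lit 76) (XT.lf (nat_lit 76) (nat_lit 11720365522) (nat_lit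 0) (nat_lit 5947617091) (nat_lit 1900) (nat_lit 6834807435) (nat_lit 491) (nat_lit 5) (nat_lit 490) (nat_lit 5) (nat_lit 515) (nat_lit 5) (nat_lit 467) (nat_lit 454) (nat_lit 279)) (XT.lf (nat_lit 76) (nat_lit 6756607624) (nat_lit 0) (nat_lit 13779381521) (nat_lit 1900) (nat_lit 4353044019) (nat_lit 492) (nat_lit 5) (nat_lit 491) (nat_lit 5) (nat_lit 516) (nat_lit 5) (nat_lit 468) (nat_lit 454) (nat_lit 278))) (XT.nd (nat_lit 78) (nat_lit 1900) (nat_lit 0) (XT.lf (nat_lit 76) (nat_lit 1727155914) (nat_lit 0) (nat_lit 21915643411) (nat_lit 1900) (nat_lit 1641009172) (nat_lit 493) (nat_lit 5) (nat_lit 492) (nat_lit 5) (nat_lit 517) (nat_lit 5) (nat_lit 469) (nat_lit 454) (nat_lit 277)) (XT.lf (nat_lit 0) (nat_lit 1346563887) (nat_lit 1900) (nat_lit 3363240667) (nat_lit 1976) (nat_lit 20976287266) (nat_lit 467) (nat_lit 5) (nat_lit 492) (nat_lit 5) (nat_lit 493) (nat_lit 5) (nat_lit 470) (nat_lit 454)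 (nat_lit 276))))))))
noncomputable def xc104 : XT := (XT.nd (nat_lit 2262) (nat_lit 4940) (nat_lit 0) (XT.nd (nat_lit 1092) (nat_lit 8132) (nat_lit 0) (XT.nd (nat_lit 546) (nat_lit 4788) (nat_lit 0) (XT.nd (nat_lit 234) (nat_lit 2736) (nat_lit 0) (XT.nd (nat_lit 78) (nat_lit 2052) (nat_lit 0) (XT.lf (nat_lit 0) (nat_lit 4595168731) (nat_lit 1900) (nat_lit 8532273244) (nat_lit 76) (nat_lit 12968910919) (nat_lit 468) (nat_lit 5) (nat_lit 493) (nat_lit 5) (nat_lit 469) (nat_lit 5) (nat_lit 471) (nat_lit 454) (nat_lit 275)) (XT.nd (nat_lit 78) (nat_lit 912) (nat_lit 0) (XT.lf (nat_lit 0) (nat_lit 8102979581) (nat_lit 1216) (nat_lit 13769557554) (nat_lit 76) (nat_lit 4643149882) (nat_lit 453) (nat_lit 5) (nat_lit 469) (nat_lit 5) (nat_lit 454) (nat_lit 5) (nat_lit 472) (nat_lit 454) (nat_lit 274)) (XT.lf (nat_lit 0) (nat_lit 7842444399) (nat_lit 912) (nat_lit 4064442691) (nat_lit 988) (nat_lit 15036897001)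 (nat_lit 441) (nat_lit 5) (nat_lit 453) (nat_lit 5) (nat_lit 454) (nat_lit 5) (nat_lit 473) (nat_lit 454) (nat_lit 273)))) (XT.nd (nat_lit 156) (nat_lit 1824) (nat_lit 0) (XT.nd (nat_lit 78) (nat_lit 0) (nat_lit 0) (XT.lf (nat_lit 0) (nat_lit 2846944849) (nat_lit 912) (nat_lit 13177176816) (nat_lit 988) (nat_lit 11356618381) (nat_lit 429) (nat_lit 5) (nat_lit 441) (nat_lit 5) (nat_lit 442) (nat_lit 5) (nat_lit 474) (nat_lit 454) (nat_lit 272)) (XT.lf (nat_lit 0) (nat_lit 20449742352) (nat_lit 988) (nat_lit 2179800656) (nat_lit 76) (nat_lit 5197564452) (nat_lit 429) (nat_lit 5) (nat_lit 442) (nat_lit 5) (nat_lit 430) (nat_lit 5) (nat_lit 475) (nat_lit 454) (nat_lit 271))) (XT.nd (nat_lit 78) (nat_lit 988) (nat_lit 0) (XT.lf (nat_lit 0) (nat_lit 21027096681) (nat_lit 836) (nat_lit 4200084506) (nat_lit 912) (nat_lit 3055303876) (nat_lit 418) (nat_lit 5) (nat_lit 429) (nat_lit 5) (nat_lit 430) (nat_lit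 5) (nat_lit 476) (nat_lit 454) (nat_lit 270)) (XT.lf (nat_lit 0) (nat_lit 1590854715) (nat_lit 988) (nat_lit 12436362511) (nat_lit 76) (nat_lit 14719870592) (nat_lit 405) (nat_lit 5) (nat_lit 418) (nat_lit 5) (nat_lit 406) (nat_lit 5) (nat_lit 477) (nat_lit 454) (nat_lit 269))))) (XT.nd (nat_lit 234) (nat_lit 2356) (nat_lit 0) (XT.nd (nat_lit 78) (nat_lit 1596) (nat_lit 0) (XT.lf (nat_lit 0) (nat_lit 6515296757) (nat_lit 912) (nat_lit 17699391960) (nat_lit 76) (nat_lit 5006928004) (nat_lit 394) (nat_lit 5) (nat_lit 406) (nat_lit 5) (nat_lit 395) (nat_lit 5) (nat_lit 478) (nat_lit 454) (nat_lit 268)) (XT.nd (nat_lit 78) (nat_lit 760) (nat_lit 0) (XT.lf (nat_lit 0) (nat_lit 6648542120) (nat_lit 836) (nat_lit 5155480751) (nat_lit 912) (nat_lit 17902027747) (nat_lit 383) (nat_lit 5) (nat_lit 394) (nat_lit 5) (nat_lit 395) (nat_lit 5) (nat_lit 479) (nat_lit 454) (nat_lit 267)) (XT.lf (nat_lit 0) (nat_lit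 1688524876) (nat_lit 760) (nat_lit 15783428885) (nat_lit 836) (nat_lit 12728653048) (nat_lit 373) (nat_lit 5) (nat_lit 383) (nat_lit 5) (nat_lit 384) (nat_lit 5) (nat_lit 480) (nat_lit 454) (nat_lit 266)))) (XT.nd (nat_lit 156) (nat_lit 1596) (nat_lit 0) (XT.nd (nat_lit 78) (nat_lit 760) (nat_lit 0) (XT.lf (nat_lit 0) (nat_lit 23521087996) (nat_lit 836) (nat_lit 3279683562) (nat_lit 76) (nat_lit 3905004951) (nat_lit 373) (nat_lit 5) (nat_lit 384) (nat_lit 5) (nat_lit 374) (nat_lit 5) (nat_lit 481) (nat_lit 454) (nat_lit 265)) (XT.lf (nat_lit 0) (nat_lit 22899201069) (nat_lit 760) (nat_lit 7101846584) (nat_lit 836) (nat_lit 1220066747) (nat_lit 363) (nat_lit 5) (nat_lit 373) (nat_lit 5) (nat_lit 374) (nat_lit 5) (nat_lit 482) (nat_lit 454) (nat_lit 264))) (XT.nd (nat_lit 78) (nat_lit 760) (nat_lit 0) (XT.lf (nat_lit 0) (nat_lit 5082472415) (nat_lit 836) (nat_lit 13474987930) (nat_lit 76) (nat_lit 13189341850)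 (nat_lit 352) (nat_lit 5) (nat_lit 363) (nat_lit 5) (nat_lit 353) (nat_lit 5) (nat_lit 483) (nat_lit 454) (nat_lit 263)) (XT.lf (nat_lit 0) (nat_lit 11757604568) (nat_lit 836) (nat_lit 18689104702) (nat_lit 76) (nat_lit 1837388325) (nat_lit 342) (nat_lit 5) (nat_lit 353) (nat_lit 5) (nat_lit 343) (nat_lit 5) (nat_lit 484) (nat_lit 454) (nat_lit 262)))))) (XT.nd (nat_lit 546) (nat_lit 4104) (nat_lit 0) (XT.nd (nat_lit 234) (nat_lit 2584) (nat_lit 0) (XT.nd (nat_lit 78) (nat_lit 760) (nat_lit 0) (XT.lf (nat_lit 0) (nat_lit 8811442544) (nat_lit 684) (nat_lit 10090178731) (nat_lit 760) (nat_lit 13930518085) (nat_lit 333) (nat_lit 5) (nat_lit 342) (nat_lit 5) (nat_lit 343) (nat_lit 5) (nat_lit 485) (nat_lit 454) (nat_lit 261)) (XT.nd (nat_lit 78) (nat_lit 76) (nat_lit 0) (XT.lf (nat_lit 0) (nat_lit 3974147837) (nat_lit 684) (nat_lit 22505215862) (nat_lit 760) (nat_lit 6912870688) (nat_lit 324) (nat_lit 5)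 (nat_lit 333) (nat_lit 5) (nat_lit 334) (nat_lit 5) (nat_lit 486) (nat_lit 454) (nat_lit 260)) (XT.lf (nat_lit 0) (nat_lit 538065830) (nat_lit 760) (nat_lit 904066600) (nat_lit 76) (nat_lit 32522421099) (nat_lit 323) (nat_lit 5) (nat_lit 333) (nat_lit 5) (nat_lit 324) (nat_lit 5) (nat_lit 487) (nat_lit 454) (nat_lit 259)))) (XT.nd (nat_lit 156) (nat_lit 1216) (nat_lit 0) (XT.nd (nat_lit 78) (nat_lit 684) (nat_lit 0) (XT.lf (nat_lit 0) (nat_lit 8434812528) (nat_lit 760) (nat_lit 5890818479) (nat_lit 76) (nat_lit 20221173441) (nat_lit 314) (nat_lit 5) (nat_lit 324) (nat_lit 5) (nat_lit 315) (nat_lit 5) (nat_lit 488) (nat_lit 454) (nat_lit 258)) (XT.lf (nat_lit 0) (nat_lit 16786570396) (nat_lit 760) (nat_lit 10919661813) (nat_lit 76) (nat_lit 7435928611) (nat_lit 305) (nat_lit 5) (nat_lit 315) (nat_lit 5) (nat_lit 306) (nat_lit 5) (nat_lit 489) (nat_lit 454) (nat_lit 257))) (XT.nd (nat_lit 78) (nat_lit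 608) (nat_lit 0) (XT.lf (nat_lit 0) (nat_lit 19722809311) (nat_lit 608) (nat_lit 5925978989) (nat_lit 684) (nat_lit 10101391535) (nat_lit 297) (nat_lit 5) (nat_lit 305) (nat_lit 5) (nat_lit 306) (nat_lit 5) (nat_lit 490) (nat_lit 454) (nat_lit 256)) (XT.lf (nat_lit 0) (nat_lit 15144968914) (nat_lit 608) (nat_lit 19907850301) (nat_lit 684) (nat_lit 1318101371) (nat_lit 289) (nat_lit 5) (nat_lit 297) (nat_lit 5) (nat_lit 298) (nat_lit 5) (nat_lit 491) (nat_lit 454) (nat_lit 255))))) (XT.nd (nat_lit 312) (nat_lit 2280) (nat_lit 0) (XT.nd (nat_lit 156) (nat_lit 532) (nat_lit 0) (XT.nd (nat_lit 78) (nat_lit 608) (nat_lit 0) (XT.lf (nat_lit 0) (nat_lit 7857808333) (nat_lit 684) (nat_lit 26516338480) (nat_lit 76) (nat_lit 2630523562) (nat_lit 280) (nat_lit 5) (nat_lit 289) (nat_lit 5) (nat_lit 281) (nat_lit 5) (nat_lit 492) (nat_lit 454) (nat_lit 254)) (XT.lf (nat_lit 0) (nat_lit 5717095743) (nat_lit 608)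 (nat_lit 11885219899) (nat_lit 684) (nat_lit 20048718288) (nat_lit 272) (nat_lit 5) (nat_lit 280) (nat_lit 5) (nat_lit 281) (nat_lit 5) (nat_lit 493) (nat_lit 454) (nat_lit 253))) (XT.nd (nat_lit 78) (nat_lit 0) (nat_lit 0) (XT.lf (nat_lit 0) (nat_lit 899675468) (nat_lit 532) (nat_lit 26995586412) (nat_lit 608) (nat_lit 10416404522) (nat_lit 265) (nat_lit 5) (nat_lit 272) (nat_lit 5) (nat_lit 273) (nat_lit 5) (nat_lit 494) (nat_lit 454) (nat_lit 252)) (XT.lf (nat_lit 0) (nat_lit 35069952142) (nat_lit 532) (nat_lit 3718640127) (nat_lit 608) (nat_lit 197693748) (nat_lit 265) (nat_lit 5) (nat_lit 272) (nat_lit 5) (nat_lit 273) (nat_lit 5) (nat_lit 495) (nat_lit 454) (nat_lit 251)))) (XT.nd (nat_lit 156) (nat_lit 1064) (nat_lit 0) (XT.nd (nat_lit 78) (nat_lit 532) (nat_lit 0) (XT.lf (nat_lit 0) (nat_lit 10522482195) (nat_lit 684) (nat_lit 8891344910) (nat_lit 76) (nat_lit 20259369084) (nat_lit 256) (nat_lit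 5) (nat_lit 265) (nat_lit 5) (nat_lit 257) (nat_lit 5) (nat_lit 496) (nat_lit 454) (nat_lit 250)) (XT.lf (nat_lit 0) (nat_lit 21812403134) (nat_lit 608) (nat_lit 13896070274) (nat_lit 76) (nat_lit 4667197689) (nat_lit 249) (nat_lit 5) (nat_lit 257) (nat_lit 5) (nat_lit 250) (nat_lit 5) (nat_lit 497) (nat_lit 454) (nat_lit 249))) (XT.nd (nat_lit 78) (nat_lit 532) (nat_lit 0) (XT.lf (nat_lit 0) (nat_lit 22090052485) (nat_lit 532) (nat_lit 11681333587) (nat_lit 608) (nat_lit 7321226967) (nat_lit 242) (nat_lit 5) (nat_lit 249) (nat_lit 5) (nat_lit 250) (nat_lit 5) (nat_lit 498) (nat_lit 454) (nat_lit 248)) (XT.lf (nat_lit 0) (nat_lit 4494955716) (nat_lit 532) (nat_lit 24196683753) (nat_lit 76) (nat_lit 13133016398) (nat_lit 235) (nat_lit 5) (nat_lit 242) (nat_lit 5) (nat_lit 236) (nat_lit 5) (nat_lit 499) (nat_lit 454) (nat_lit 247))))))) (XT.nd (nat_lit 59124) (nat_lit 0) (nat_lit 22572) (XT.nd (nat_lit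 546) (nat_lit 2052) (nat_lit 0) (XT.nd (nat_lit 234) (nat_lit 1444) (nat_lit 0) (XT.nd (nat_lit 78) (nat_lit 912) (nat_lit 0) (XT.lf (nat_lit 0) (nat_lit 13080313768) (nat_lit 532) (nat_lit 3775649633) (nat_lit 608) (nat_lit 25715932655) (nat_lit 228) (nat_lit 5) (nat_lit 235) (nat_lit 5) (nat_lit 236) (nat_lit 5) (nat_lit 500) (nat_lit 454) (nat_lit 246)) (XT.nd (nat_lit 78) (nat_lit 456) (nat_lit 0) (XT.lf (nat_lit 0) (nat_lit 8431202416) (nat_lit 456) (nat_lit 21515136043) (nat_lit 532) (nat_lit 13388044316) (nat_lit 222) (nat_lit 5) (nat_lit 228) (nat_lit 5) (nat_lit 229) (nat_lit 5) (nat_lit 501) (nat_lit 454) (nat_lit 245)) (XT.lf (nat_lit 0) (nat_lit 3771911898) (nat_lit 456) (nat_lit 39930994159) (nat_lit 532) (nat_lit 411368478) (nat_lit 216) (nat_lit 5) (nat_lit 222) (nat_lit 5) (nat_lit 223) (nat_lit 5) (nat_lit 502) (nat_lit 454) (nat_lit 244)))) (XT.nd (nat_lit 156) (nat_lit 912) (nat_lit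 0) (XT.nd (nat_lit 78) (nat_lit 456) (nat_lit 0) (XT.lf (nat_lit 0) (nat_lit 13163407461) (nat_lit 532) (nat_lit 1062053651) (nat_lit 76) (nat_lit 30682845762) (nat_lit 215) (nat_lit 5) (nat_lit 222) (nat_lit 5) (nat_lit 216) (nat_lit 5) (nat_lit 503) (nat_lit 454) (nat_lit 243)) (XT.lf (nat_lit 0) (nat_lit 27477113093) (nat_lit 532) (nat_lit 5889420994) (nat_lit 76) (nat_lit 12352826266) (nat_lit 209) (nat_lit 5) (nat_lit 216) (nat_lit 5) (nat_lit 210) (nat_lit 5) (nat_lit 504) (nat_lit 454) (nat_lit 242))) (XT.nd (nat_lit 78) (nat_lit 456) (nat_lit 0) (XT.lf (nat_lit 0) (nat_lit 35778161856) (nat_lit 456) (nat_lit 6773628590) (nat_lit 532) (nat_lit 3996323838) (nat_lit 203) (nat_lit 5) (nat_lit 209) (nat_lit 5) (nat_lit 210) (nat_lit 5) (nat_lit 505) (nat_lit 454) (nat_lit 241)) (XT.lf (nat_lit 0) (nat_lit 10915919166) (nat_lit 456) (nat_lit 15814066978) (nat_lit 76) (nat_lit 20662778857) (nat_lit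 197) (nat_lit 5) (nat_lit 203) (nat_lit 5) (nat_lit 198) (nat_lit 5) (nat_lit 506) (nat_lit 454) (nat_lit 240))))) (XT.nd (nat_lit 234) (nat_lit 760) (nat_lit 0) (XT.nd (nat_lit 78) (nat_lit 836) (nat_lit 0) (XT.lf (nat_lit 0) (nat_lit 26520490319) (nat_lit 532) (nat_lit 20896011766) (nat_lit 76) (nat_lit 839739789) (nat_lit 191) (nat_lit 5) (nat_lit 198) (nat_lit 5) (nat_lit 192) (nat_lit 5) (nat_lit 507) (nat_lit 454) (nat_lit 239)) (XT.nd (nat_lit 78) (nat_lit 456) (nat_lit 0) (XT.lf (nat_lit 0) (nat_lit 23020751240) (nat_lit 380) (nat_lit 20005571051) (nat_lit 456) (nat_lit 6110638340) (nat_lit 186) (nat_lit 5) (nat_lit 191) (nat_lit 5) (nat_lit 192) (nat_lit 5) (nat_lit 508) (nat_lit 454) (nat_lit 238)) (XT.lf (nat_lit 0) (nat_lit 10168736074) (nat_lit 456) (nat_lit 31418647033) (nat_lit 76) (nat_lit 8449092746) (nat_lit 180) (nat_lit 5) (nat_lit 186) (nat_lit 5) (nat_lit 181) (nat_lit 5) (nat_lit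 509) (nat_lit 454) (nat_lit 237)))) (XT.nd (nat_lit 58188) (nat_lit 0) (nat_lit 23636) (XT.nd (nat_lit 78) (nat_lit 380) (nat_lit 0) (XT.lf (nat_lit 0) (nat_lit 14096600644) (nat_lit 380) (nat_lit 13157916947) (nat_lit 456) (nat_lit 23699630253) (nat_lit 175) (nat_lit 5) (nat_lit 180) (nat_lit 5) (nat_lit 181) (nat_lit 5) (nat_lit 510) (nat_lit 454) (nat_lit 236)) (XT.lf (nat_lit 0) (nat_lit 9526756188) (nat_lit 380) (nat_lit 35704137711) (nat_lit 456) (nat_lit 6660895716) (nat_lit 170) (nat_lit 5) (nat_lit 175) (nat_lit 5) (nat_lit 176) (nat_lit 5) (nat_lit 511) (nat_lit 454) (nat_lit 235))) (XT.nd (nat_lit 78) (nat_lit 0) (nat_lit 76) (XT.lf (nat_lit 0) (nat_lit 152188338) (nat_lit 1900) (nat_lit 5108035573) (nat_lit 1900) (nat_lit 5108035573) (nat_lit 481) (nat_lit 3) (nat_lit 506) (nat_lit 3) (nat_lit 506) (nat_lit 5) (nat_lit 455) (nat_lit 455) (nat_lit 290)) (XT.lf (nat_lit 0) (nat_lit 605242498)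 (nat_lit 1824) (nat_lit 15729984443) (nat_lit 1900) (nat_lit 4706406829) (nat_lit 482) (nat_lit 5) (nat_lit 506) (nat_lit 5) (nat_lit 507) (nat_lit 5) (nat_lit 456) (nat_lit 455) (nat_lit 289)))))) (XT.nd (nat_lit 546) (nat_lit 1140) (nat_lit 0) (XT.nd (nat_lit 234) (nat_lit 0) (nat_lit 228) (XT.nd (nat_lit 78) (nat_lit 0) (nat_lit 76) (XT.lf (nat_lit 76) (nat_lit 15045895) (nat_lit 0) (nat_lit 1031223565) (nat_lit 1900) (nat_lit 20307010124) (nat_lit 483) (nat_lit 5) (nat_lit 482) (nat_lit 5) (nat_lit 507) (nat_lit 5) (nat_lit 457) (nat_lit 455) (nat_lit 288)) (XT.nd (nat_lit 78) (nat_lit 0) (nat_lit 76) (XT.lf (nat_lit 0) (nat_lit 1694727623) (nat_lit 1824) (nat_lit 5325740422) (nat_lit 1900) (nat_lit 14649922985) (nat_lit 483) (nat_lit 5) (nat_lit 507) (nat_lit 5) (nat_lit 508) (nat_lit 5) (nat_lit 458) (nat_lit 455) (nat_lit 287)) (XT.lf (nat_lit 0) (nat_lit 2492019914) (nat_lit 1824) (nat_lit 10749523043)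 (nat_lit 1900) (nat_lit 8752885510) (nat_lit 484) (nat_lit 5) (nat_lit 508) (nat_lit 5) (nat_lit 509) (nat_lit 5) (nat_lit 459) (nat_lit 455) (nat_lit 286)))) (XT.nd (nat_lit 156) (nat_lit 0) (nat_lit 76) (XT.nd (nat_lit 78) (nat_lit 0) (nat_lit 0) (XT.lf (nat_lit 0) (nat_lit 3445026258) (nat_lit 1824) (nat_lit 16257369841) (nat_lit 1900) (nat_lit 2623155274) (nat_lit 485) (nat_lit 5) (nat_lit 509) (nat_lit 5) (nat_lit 510) (nat_lit 5) (nat_lit 460) (nat_lit 455) (nat_lit 285)) (XT.lf (nat_lit 76) (nat_lit 788666029) (nat_lit 0) (nat_lit 3796931145) (nat_lit 1900) (nat_lit 18077831544) (nat_lit 486) (nat_lit 5) (nat_lit 485) (nat_lit 5) (nat_lit 510) (nat_lit 5) (nat_lit 461) (nat_lit 455) (nat_lit 284))) (XT.nd (nat_lit 78) (nat_lit 0) (nat_lit 76) (XT.lf (nat_lit 0) (nat_lit 5945191711) (nat_lit 1824) (nat_lit 4528210477) (nat_lit 1900) (nat_lit 12534344302) (nat_lit 486) (nat_lit 5) (nat_lit 510)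 (nat_lit 5) (nat_lit 511) (nat_lit 5) (nat_lit 462) (nat_lit 455) (nat_lit 283)) (XT.lf (nat_lit 0) (nat_lit 7490123690) (nat_lit 1824) (nat_lit 9914251266) (nat_lit 1900) (nat_lit 5955128075) (nat_lit 487) (nat_lit 5) (nat_lit 511) (nat_lit 5) (nat_lit 512) (nat_lit 5) (nat_lit 463) (nat_lit 455) (nat_lit 282))))) (XT.nd (nat_lit 312) (nat_lit 1520) (nat_lit 0) (XT.nd (nat_lit 156) (nat_lit 0) (nat_lit 152) (XT.nd (nat_lit 78) (nat_lit 0) (nat_lit 76) (XT.lf (nat_lit 76) (nat_lit 8332666347) (nat_lit 0) (nat_lit 896395787) (nat_lit 1900) (nat_lit 14489797185) (nat_lit 488) (nat_lit 5) (nat_lit 487) (nat_lit 5) (nat_lit 512) (nat_lit 5) (nat_lit 464) (nat_lit 455) (nat_lit 281)) (XT.lf (nat_lit 76) (nat_lit 3105603522) (nat_lit 0) (nat_lit 8099757773) (nat_lit 1900) (nat_lit 12879931365) (nat_lit 489) (nat_lit 5) (nat_lit 488) (nat_lit 5) (nat_lit 513) (nat_lit 5) (nat_lit 465) (nat_lit 455) (nat_lit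 280))) (XT.nd (nat_lit 78) (nat_lit 0) (nat_lit 76) (XT.lf (nat_lit 0) (nat_lit 13402650422) (nat_lit 1824) (nat_lit 2167517906) (nat_lit 1900) (nat_lit 8889316862) (nat_lit 489) (nat_lit 5) (nat_lit 513) (nat_lit 5) (nat_lit 514) (nat_lit 5) (nat_lit 466) (nat_lit 455) (nat_lit 279)) (XT.lf (nat_lit 0) (nat_lit 15836144352) (nat_lit 1824) (nat_lit 7474079878) (nat_lit 1900) (nat_lit 1531273746) (nat_lit 490) (nat_lit 5) (nat_lit 514) (nat_lit 5) (nat_lit 515) (nat_lit 5) (nat_lit 467) (nat_lit 455) (nat_lit 278)))) (XT.nd (nat_lit 156) (nat_lit 1748) (nat_lit 0) (XT.nd (nat_lit 78) (nat_lit 0) (nat_lit 76) (XT.lf (nat_lit 76) (nat_lit 12335828349) (nat_lit 0) (nat_lit 6199210318) (nat_lit 1900) (nat_lit 6696084764) (nat_lit 491) (nat_lit 5) (nat_lit 490) (nat_lit 5) (nat_lit 515) (nat_lit 5) (nat_lit 468) (nat_lit 455) (nat_lit 277)) (XT.lf (nat_lit 76) (nat_lit 7225985161) (nat_lit 0) (nat_lit 14254554477)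 (nat_lit 1900) (nat_lit 4148585406) (nat_lit 492) (nat_lit 5) (nat_lit 491) (nat_lit 5) (nat_lit 516) (nat_lit 5) (nat_lit 469) (nat_lit 455) (nat_lit 276))) (XT.nd (nat_lit 78) (nat_lit 1900) (nat_lit 0) (XT.lf (nat_lit 76) (nat_lit 2048190403) (nat_lit 0) (nat_lit 22624155057) (nat_lit 1900) (nat_lit 1363562634) (nat_lit 493) (nat_lit 5) (nat_lit 492) (nat_lit 5) (nat_lit 517) (nat_lit 5) (nat_lit 470) (nat_lit 455) (nat_lit 275)) (XT.lf (nat_lit 0) (nat_lit 1699963122) (nat_lit 1900) (nat_lit 3198590833) (nat_lit 1976) (nat_lit 21551851612) (nat_lit 467) (nat_lit 5) (nat_lit 492) (nat_lit 5) (nat_lit 493) (nat_lit 5) (nat_lit 471) (nat_lit 455) (nat_lit 274))))))))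
noncomputable def xc105 : XT := (XT.nd (nat_lit 2262) (nat_lit 4560) (nat_lit 0) (XT.nd (nat_lit 1092) (nat_lit 8132) (nat_lit 0) (XT.nd (nat_lit 546) (nat_lit 4788) (nat_lit 0) (XT.nd (nat_lit 234) (nat_lit 2736) (nat_lit 0) (XT.nd (nat_lit 78) (nat_lit 2052) (nat_lit 0) (XT.lf (nat_lit 0) (nat_lit 5038317771) (nat_lit 1900) (nat_lit 8520594330) (nat_lit 76) (nat_lit 13314216800) (nat_lit 468) (nat_lit 5) (nat_lit 493) (nat_lit 5) (nat_lit 469) (nat_lit 5) (nat_lit 472) (nat_lit 455) (nat_lit 273)) (XT.nd (nat_lit 78) (nat_lit 912) (nat_lit 0) (XT.lf (nat_lit 0) (nat_lit 8643954451) (nat_lit 1216) (nat_lit 13913142763) (nat_lit 76) (nat_lit 4748094259) (nat_lit 453) (nat_lit 5) (nat_lit 469) (nat_lit 5) (nat_lit 454) (nat_lit 5) (nat_lit 473) (nat_lit 455) (nat_lit 272)) (XT.lf (nat_lit 0) (nat_lit 8342846907) (nat_lit 912) (nat_lit 4212177396) (nat_lit 988) (nat_lit 15191246498) (nat_lit 441) (nat_lit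 5) (nat_lit 453) (nat_lit 5) (nat_lit 454) (nat_lit 5) (nat_lit 474) (nat_lit 455) (nat_lit 271)))) (XT.nd (nat_lit 156) (nat_lit 1824) (nat_lit 0) (XT.nd (nat_lit 78) (nat_lit 0) (nat_lit 0) (XT.lf (nat_lit 0) (nat_lit 3199078047) (nat_lit 912) (nat_lit 13589793276) (nat_lit 988) (nat_lit 11407602442) (nat_lit 429) (nat_lit 5) (nat_lit 441) (nat_lit 5) (nat_lit 442) (nat_lit 5) (nat_lit 475) (nat_lit 455) (nat_lit 270)) (XT.lf (nat_lit 0) (nat_lit 21338878969) (nat_lit 988) (nat_lit 1980606651) (nat_lit 76) (nat_lit 5336914447) (nat_lit 429) (nat_lit 5) (nat_lit 442) (nat_lit 5) (nat_lit 430) (nat_lit 5) (nat_lit 476) (nat_lit 455) (nat_lit 269))) (XT.nd (nat_lit 78) (nat_lit 988) (nat_lit 0) (XT.lf (nat_lit 0) (nat_lit 21918204980) (nat_lit 836) (nat_lit 4335097524) (nat_lit 912) (nat_lit 2872263489) (nat_lit 418) (nat_lit 5) (nat_lit 429) (nat_lit 5) (nat_lit 430) (nat_lit 5) (nat_lit 477) (nat_lit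 455) (nat_lit 268)) (XT.lf (nat_lit 0) (nat_lit 1903432587) (nat_lit 988) (nat_lit 12544490411) (nat_lit 76) (nat_lit 15156273265) (nat_lit 405) (nat_lit 5) (nat_lit 418) (nat_lit 5) (nat_lit 406) (nat_lit 5) (nat_lit 478) (nat_lit 455) (nat_lit 267))))) (XT.nd (nat_lit 234) (nat_lit 2356) (nat_lit 0) (XT.nd (nat_lit 78) (nat_lit 1596) (nat_lit 0) (XT.lf (nat_lit 0) (nat_lit 6969598060) (nat_lit 912) (nat_lit 17964537815) (nat_lit 76) (nat_lit 5158945566) (nat_lit 394) (nat_lit 5) (nat_lit 406) (nat_lit 5) (nat_lit 395) (nat_lit 5) (nat_lit 479) (nat_lit 455) (nat_lit 266)) (XT.nd (nat_lit 78) (nat_lit 760) (nat_lit 0) (XT.lf (nat_lit 0) (nat_lit 7109521416) (nat_lit 836) (nat_lit 5301623423) (nat_lit 912) (nat_lit 18181020539) (nat_lit 383) (nat_lit 5) (nat_lit 394) (nat_lit 5) (nat_lit 395) (nat_lit 5) (nat_lit 480) (nat_lit 455) (nat_lit 265)) (XT.lf (nat_lit 0) (nat_lit 2001390880) (nat_lit 760)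 (nat_lit 16242109966) (nat_lit 836) (nat_lit 12858169861) (nat_lit 373) (nat_lit 5) (nat_lit 383) (nat_lit 5) (nat_lit 384) (nat_lit 5) (nat_lit 481) (nat_lit 455) (nat_lit 264)))) (XT.nd (nat_lit 156) (nat_lit 1596) (nat_lit 0) (XT.nd (nat_lit 78) (nat_lit 760) (nat_lit 0) (XT.lf (nat_lit 0) (nat_lit 24466997049) (nat_lit 836) (nat_lit 3118784427) (nat_lit 76) (nat_lit 4036356453) (nat_lit 373) (nat_lit 5) (nat_lit 384) (nat_lit 5) (nat_lit 374) (nat_lit 5) (nat_lit 482) (nat_lit 455) (nat_lit 263)) (XT.lf (nat_lit 0) (nat_lit 23841260077) (nat_lit 760) (nat_lit 7294753245) (nat_lit 836) (nat_lit 1017029664) (nat_lit 363) (nat_lit 5) (nat_lit 373) (nat_lit 5) (nat_lit 374) (nat_lit 5) (nat_lit 483) (nat_lit 455) (nat_lit 262))) (XT.nd (nat_lit 78) (nat_lit 760) (nat_lit 0) (XT.lf (nat_lit 0) (nat_lit 5466351873) (nat_lit 836) (nat_lit 13620712071) (nat_lit 76) (nat_lit 13607508346) (nat_lit 352) (nat_lit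 5) (nat_lit 363) (nat_lit 5) (nat_lit 353) (nat_lit 5) (nat_lit 484) (nat_lit 455) (nat_lit 261)) (XT.lf (nat_lit 0) (nat_lit 12336831207) (nat_lit 836) (nat_lit 18991096478) (nat_lit 76) (nat_lit 1920157174) (nat_lit 342) (nat_lit 5) (nat_lit 353) (nat_lit 5) (nat_lit 343) (nat_lit 5) (nat_lit 485) (nat_lit 455) (nat_lit 260)))))) (XT.nd (nat_lit 546) (nat_lit 4104) (nat_lit 0) (XT.nd (nat_lit 234) (nat_lit 2584) (nat_lit 0) (XT.nd (nat_lit 78) (nat_lit 760) (nat_lit 0) (XT.lf (nat_lit 0) (nat_lit 9330270388) (nat_lit 684) (nat_lit 10359953267) (nat_lit 760) (nat_lit 14122443283) (nat_lit 333) (nat_lit 5) (nat_lit 342) (nat_lit 5) (nat_lit 343) (nat_lit 5) (nat_lit 486) (nat_lit 455) (nat_lit 259)) (XT.nd (nat_lit 78) (nat_lit 76) (nat_lit 0) (XT.lf (nat_lit 0) (nat_lit 4347882414) (nat_lit 684) (nat_lit 23142822946) (nat_lit 760) (nat_lit 6898951477) (nat_lit 324) (nat_lit 5) (nat_lit 333) (nat_lit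 5) (nat_lit 334) (nat_lit 5) (nat_lit 487) (nat_lit 455) (nat_lit 258)) (XT.lf (nat_lit 0) (nat_lit 766249429) (nat_lit 760) (nat_lit 681268342) (nat_lit 76) (nat_lit 33531726422) (nat_lit 323) (nat_lit 5) (nat_lit 333) (nat_lit 5) (nat_lit 324) (nat_lit 5) (nat_lit 488) (nat_lit 455) (nat_lit 257)))) (XT.nd (nat_lit 156) (nat_lit 1216) (nat_lit 0) (XT.nd (nat_lit 78) (nat_lit 684) (nat_lit 0) (XT.lf (nat_lit 0) (nat_lit 8895568222) (nat_lit 760) (nat_lit 5817772579) (nat_lit 76) (nat_lit 20865708593) (nat_lit 314) (nat_lit 5) (nat_lit 324) (nat_lit 5) (nat_lit 315) (nat_lit 5) (nat_lit 489) (nat_lit 455) (nat_lit 256)) (XT.lf (nat_lit 0) (nat_lit 17493700035) (nat_lit 760) (nat_lit 10997739177) (nat_lit 76) (nat_lit 7700910966) (nat_lit 305) (nat_lit 5) (nat_lit 315) (nat_lit 5) (nat_lit 306) (nat_lit 5) (nat_lit 490) (nat_lit 455) (nat_lit 255))) (XT.nd (nat_lit 78) (nat_lit 608) (nat_lit 0) (XT.lf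 (nat_lit 0) (nat_lit 20559958037) (nat_lit 608) (nat_lit 6057492026) (nat_lit 684) (nat_lit 10201246530) (nat_lit 297) (nat_lit 5) (nat_lit 305) (nat_lit 5) (nat_lit 306) (nat_lit 5) (nat_lit 491) (nat_lit 455) (nat_lit 254)) (XT.lf (nat_lit 0) (nat_lit 15844428468) (nat_lit 608) (nat_lit 20455254613) (nat_lit 684) (nat_lit 1158454998) (nat_lit 289) (nat_lit 5) (nat_lit 297) (nat_lit 5) (nat_lit 298) (nat_lit 5) (nat_lit 492) (nat_lit 455) (nat_lit 253))))) (XT.nd (nat_lit 312) (nat_lit 2280) (nat_lit 0) (XT.nd (nat_lit 156) (nat_lit 532) (nat_lit 0) (XT.nd (nat_lit 78) (nat_lit 608) (nat_lit 0) (XT.lf (nat_lit 0) (nat_lit 8286309272) (nat_lit 684) (nat_lit 27064600286) (nat_lit 76) (nat_lit 2760041274) (nat_lit 280) (nat_lit 5) (nat_lit 289) (nat_lit 5) (nat_lit 281) (nat_lit 5) (nat_lit 493) (nat_lit 455) (nat_lit 252)) (XT.lf (nat_lit 0) (nat_lit 6131825977) (nat_lit 608) (nat_lit 12187290388) (nat_lit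 684) (nat_lit 20457669763) (nat_lit 272) (nat_lit 5) (nat_lit 280) (nat_lit 5) (nat_lit 281) (nat_lit 5) (nat_lit 494) (nat_lit 455) (nat_lit 251))) (XT.nd (nat_lit 78) (nat_lit 0) (nat_lit 0) (XT.lf (nat_lit 0) (nat_lit 1169306673) (nat_lit 532) (nat_lit 27747966132) (nat_lit 608) (nat_lit 10540036455) (nat_lit 265) (nat_lit 5) (nat_lit 272) (nat_lit 5) (nat_lit 273) (nat_lit 5) (nat_lit 495) (nat_lit 455) (nat_lit 250)) (XT.lf (nat_lit 0) (nat_lit 36357624435) (nat_lit 532) (nat_lit 3774385862) (nat_lit 608) (nat_lit 20265140) (nat_lit 265) (nat_lit 5) (nat_lit 272) (nat_lit 5) (nat_lit 273) (nat_lit 5) (nat_lit 496) (nat_lit 455) (nat_lit 249)))) (XT.nd (nat_lit 156) (nat_lit 1064) (nat_lit 0) (XT.nd (nat_lit 78) (nat_lit 532) (nat_lit 0) (XT.lf (nat_lit 0) (nat_lit 11015730382) (nat_lit 684) (nat_lit 8920785539) (nat_lit 76) (nat_lit 20923320916) (nat_lit 256) (nat_lit 5) (nat_lit 265) (nat_lit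 5) (nat_lit 257) (nat_lit 5) (nat_lit 497) (nat_lit 455) (nat_lit 248)) (XT.lf (nat_lit 0) (nat_lit 22641079134) (nat_lit 608) (nat_lit 14076407092) (nat_lit 76) (nat_lit 4865965271) (nat_lit 249) (nat_lit 5) (nat_lit 257) (nat_lit 5) (nat_lit 250) (nat_lit 5) (nat_lit 498) (nat_lit 455) (nat_lit 247))) (XT.nd (nat_lit 78) (nat_lit 532) (nat_lit 0) (XT.lf (nat_lit 0) (nat_lit 22985461683) (nat_lit 532) (nat_lit 11969803956) (nat_lit 608) (nat_lit 7366707483) (nat_lit 242) (nat_lit 5) (nat_lit 249) (nat_lit 5) (nat_lit 250) (nat_lit 5) (nat_lit 499) (nat_lit 455) (nat_lit 246)) (XT.lf (nat_lit 0) (nat_lit 4798579433) (nat_lit 532) (nat_lit 24688438710) (nat_lit 76) (nat_lit 13588998523) (nat_lit 235) (nat_lit 5) (nat_lit 242) (nat_lit 5) (nat_lit 236) (nat_lit 5) (nat_lit 500) (nat_lit 455) (nat_lit 245))))))) (XT.nd (nat_lit 59280) (nat_lit 0) (nat_lit 21128) (XT.nd (nat_lit 546) (nat_lit 1672) (nat_lit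 0) (XT.nd (nat_lit 234) (nat_lit 1444) (nat_lit 0) (XT.nd (nat_lit 78) (nat_lit 912) (nat_lit 0) (XT.lf (nat_lit 0) (nat_lit 13703070004) (nat_lit 532) (nat_lit 3823927132) (nat_lit 608) (nat_lit 26318745427) (nat_lit 228) (nat_lit 5) (nat_lit 235) (nat_lit 5) (nat_lit 236) (nat_lit 5) (nat_lit 501) (nat_lit 455) (nat_lit 244)) (XT.nd (nat_lit 78) (nat_lit 456) (nat_lit 0) (XT.lf (nat_lit 0) (nat_lit 8913589751) (nat_lit 456) (nat_lit 22093576966) (nat_lit 532) (nat_lit 13623995597) (nat_lit 222) (nat_lit 5) (nat_lit 228) (nat_lit 5) (nat_lit 229) (nat_lit 5) (nat_lit 502) (nat_lit 455) (nat_lit 243)) (XT.lf (nat_lit 0) (nat_lit 4113569093) (nat_lit 456) (nat_lit 41060037035) (nat_lit 532) (nat_lit 260901294) (nat_lit 216) (nat_lit 5) (nat_lit 222) (nat_lit 5) (nat_lit 223) (nat_lit 5) (nat_lit 503) (nat_lit 455) (nat_lit 242)))) (XT.nd (nat_lit 156) (nat_lit 912) (nat_lit 0) (XT.nd (nat_lit 78) (nat_lit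 456) (nat_lit 0) (XT.lf (nat_lit 0) (nat_lit 13714302867) (nat_lit 532) (nat_lit 869994748) (nat_lit 76) (nat_lit 31668135659) (nat_lit 215) (nat_lit 5) (nat_lit 222) (nat_lit 5) (nat_lit 216) (nat_lit 5) (nat_lit 504) (nat_lit 455) (nat_lit 241)) (XT.lf (nat_lit 0) (nat_lit 28454744087) (nat_lit 532) (nat_lit 5843193157) (nat_lit 76) (nat_lit 12789934712) (nat_lit 209) (nat_lit 5) (nat_lit 216) (nat_lit 5) (nat_lit 210) (nat_lit 5) (nat_lit 505) (nat_lit 455) (nat_lit 240))) (XT.nd (nat_lit 78) (nat_lit 456) (nat_lit 0) (XT.lf (nat_lit 0) (nat_lit 37070800721) (nat_lit 456) (nat_lit 6907819281) (nat_lit 532) (nat_lit 3962929421) (nat_lit 203) (nat_lit 5) (nat_lit 209) (nat_lit 5) (nat_lit 210) (nat_lit 5) (nat_lit 506) (nat_lit 455) (nat_lit 239)) (XT.lf (nat_lit 0) (nat_lit 11392128872) (nat_lit 456) (nat_lit 16068254911) (nat_lit 76) (nat_lit 21351186887) (nat_lit 197) (nat_lit 5) (nat_lit 203) (nat_lit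 5) (nat_lit 198) (nat_lit 5) (nat_lit 507) (nat_lit 455) (nat_lit 238))))) (XT.nd (nat_lit 58422) (nat_lit 0) (nat_lit 23256) (XT.nd (nat_lit 156) (nat_lit 836) (nat_lit 0) (XT.nd (nat_lit 78) (nat_lit 380) (nat_lit 0) (XT.lf (nat_lit 0) (nat_lit 27462371895) (nat_lit 532) (nat_lit 21303772412) (nat_lit 76) (nat_lit 934856923) (nat_lit 191) (nat_lit 5) (nat_lit 198) (nat_lit 5) (nat_lit 192) (nat_lit 5) (nat_lit 508) (nat_lit 455) (nat_lit 237)) (XT.lf (nat_lit 0) (nat_lit 23926938527) (nat_lit 380) (nat_lit 20533579689) (nat_lit 456) (nat_lit 6147680621) (nat_lit 186) (nat_lit 5) (nat_lit 191) (nat_lit 5) (nat_lit 192) (nat_lit 5) (nat_lit 509) (nat_lit 455) (nat_lit 236))) (XT.nd (nat_lit 78) (nat_lit 380) (nat_lit 0) (XT.lf (nat_lit 0) (nat_lit 10615811276) (nat_lit 456) (nat_lit 32144886189) (nat_lit 76) (nat_lit 8774030034) (nat_lit 180) (nat_lit 5) (nat_lit 186) (nat_lit 5) (nat_lit 181) (nat_lit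 5) (nat_lit 510) (nat_lit 455) (nat_lit 235)) (XT.lf (nat_lit 0) (nat_lit 14732309380) (nat_lit 380) (nat_lit 13479102263) (nat_lit 456) (nat_lit 24268573168) (nat_lit 175) (nat_lit 5) (nat_lit 180) (nat_lit 5) (nat_lit 181) (nat_lit 5) (nat_lit 511) (nat_lit 455) (nat_lit 234)))) (XT.nd (nat_lit 156) (nat_lit 0) (nat_lit 76) (XT.nd (nat_lit 78) (nat_lit 0) (nat_lit 76) (XT.lf (nat_lit 0) (nat_lit 385182050) (nat_lit 1900) (nat_lit 5144774872) (nat_lit 1900) (nat_lit 5144774872) (nat_lit 481) (nat_lit 3) (nat_lit 506) (nat_lit 3) (nat_lit 506) (nat_lit 5) (nat_lit 456) (nat_lit 456) (nat_lit 288)) (XT.lf (nat_lit 0) (nat_lit 1067036466) (nat_lit 1824) (nat_lit 15962345253) (nat_lit 1900) (nat_lit 4634614907) (nat_lit 482) (nat_lit 5) (nat_lit 506) (nat_lit 5) (nat_lit 507) (nat_lit 5) (nat_lit 457) (nat_lit 456) (nat_lit 287))) (XT.nd (nat_lit 78) (nat_lit 0) (nat_lit 76) (XT.lf (nat_lit 76) (nat_lit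 251149763) (nat_lit 0) (nat_lit 1258753029) (nat_lit 1900) (nat_lit 20475317243) (nat_lit 483) (nat_lit 5) (nat_lit 482) (nat_lit 5) (nat_lit 507) (nat_lit 5) (nat_lit 458) (nat_lit 456) (nat_lit 286)) (XT.lf (nat_lit 0) (nat_lit 2163985799) (nat_lit 1824) (nat_lit 5247078810) (nat_lit 1900) (nat_lit 14901057172) (nat_lit 483) (nat_lit 5) (nat_lit 507) (nat_lit 5) (nat_lit 508) (nat_lit 5) (nat_lit 459) (nat_lit 456) (nat_lit 285)))))) (XT.nd (nat_lit 546) (nat_lit 2356) (nat_lit 0) (XT.nd (nat_lit 234) (nat_lit 0) (nat_lit 152) (XT.nd (nat_lit 78) (nat_lit 0) (nat_lit 76) (XT.lf (nat_lit 0) (nat_lit 2973408485) (nat_lit 1824) (nat_lit 10828151439) (nat_lit 1900) (nat_lit 8844556553) (nat_lit 484) (nat_lit 5) (nat_lit 508) (nat_lit 5) (nat_lit 509) (nat_lit 5) (nat_lit 460) (nat_lit 456) (nat_lit 284)) (XT.nd (nat_lit 78) (nat_lit 0) (nat_lit 0) (XT.lf (nat_lit 0) (nat_lit 3943703364) (nat_lit 1824)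 (nat_lit 16496235450) (nat_lit 1900) (nat_lit 2547460647) (nat_lit 485) (nat_lit 5) (nat_lit 509) (nat_lit 5) (nat_lit 510) (nat_lit 5) (nat_lit 461) (nat_lit 456) (nat_lit 283)) (XT.lf (nat_lit 76) (nat_lit 1057144111) (nat_lit 0) (nat_lit 4051422459) (nat_lit 1900) (nat_lit 18227045401) (nat_lit 486) (nat_lit 5) (nat_lit 485) (nat_lit 5) (nat_lit 510) (nat_lit 5) (nat_lit 462) (nat_lit 456) (nat_lit 282)))) (XT.nd (nat_lit 156) (nat_lit 0) (nat_lit 76) (XT.nd (nat_lit 78) (nat_lit 0) (nat_lit 76) (XT.lf (nat_lit 0) (nat_lit 6496837482) (nat_lit 1824) (nat_lit 4417988374) (nat_lit 1900) (nat_lit 12775675987) (nat_lit 486) (nat_lit 5) (nat_lit 510) (nat_lit 5) (nat_lit 511) (nat_lit 5) (nat_lit 463) (nat_lit 456) (nat_lit 281)) (XT.lf (nat_lit 0) (nat_lit 8078025075) (nat_lit 1824) (nat_lit 9961520315) (nat_lit 1900) (nat_lit 6013467863) (nat_lit 487) (nat_lit 5) (nat_lit 511) (nat_lit 5) (nat_lit 512)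 (nat_lit 5) (nat_lit 464) (nat_lit 456) (nat_lit 280))) (XT.nd (nat_lit 78) (nat_lit 0) (nat_lit 76) (XT.lf (nat_lit 76) (nat_lit 8828746301) (nat_lit 0) (nat_lit 1031404643) (nat_lit 1900) (nat_lit 14563179219) (nat_lit 488) (nat_lit 5) (nat_lit 487) (nat_lit 5) (nat_lit 512) (nat_lit 5) (nat_lit 465) (nat_lit 456) (nat_lit 279)) (XT.lf (nat_lit 76) (nat_lit 3448549319) (nat_lit 0) (nat_lit 8437812963) (nat_lit 1900) (nat_lit 12914582067) (nat_lit 489) (nat_lit 5) (nat_lit 488) (nat_lit 5) (nat_lit 513) (nat_lit 5) (nat_lit 466) (nat_lit 456) (nat_lit 278))))) (XT.nd (nat_lit 312) (nat_lit 2736) (nat_lit 0) (XT.nd (nat_lit 156) (nat_lit 0) (nat_lit 76) (XT.nd (nat_lit 78) (nat_lit 0) (nat_lit 76) (XT.lf (nat_lit 0) (nat_lit 14138926964) (nat_lit 1824) (nat_lit 1982735685) (nat_lit 1900) (nat_lit 9064913168) (nat_lit 489) (nat_lit 5) (nat_lit 513) (nat_lit 5) (nat_lit 514) (nat_lit 5) (nat_lit 467)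 (nat_lit 456) (nat_lit 277)) (XT.lf (nat_lit 0) (nat_lit 16636766036) (nat_lit 1824) (nat_lit 7445495094) (nat_lit 1900) (nat_lit 1497961342) (nat_lit 490) (nat_lit 5) (nat_lit 514) (nat_lit 5) (nat_lit 515) (nat_lit 5) (nat_lit 468) (nat_lit 456) (nat_lit 276))) (XT.nd (nat_lit 78) (nat_lit 0) (nat_lit 76) (XT.lf (nat_lit 76) (nat_lit 12954608884) (nat_lit 0) (nat_lit 6454151388) (nat_lit 1900) (nat_lit 6572934038) (nat_lit 491) (nat_lit 5) (nat_lit 490) (nat_lit 5) (nat_lit 515) (nat_lit 5) (nat_lit 469) (nat_lit 456) (nat_lit 275)) (XT.lf (nat_lit 76) (nat_lit 7694135541) (nat_lit 0) (nat_lit 14740435537) (nat_lit 1900) (nat_lit 3957226272) (nat_lit 492) (nat_lit 5) (nat_lit 491) (nat_lit 5) (nat_lit 516) (nat_lit 5) (nat_lit 470) (nat_lit 456) (nat_lit 274)))) (XT.nd (nat_lit 156) (nat_lit 1064) (nat_lit 0) (XT.nd (nat_lit 78) (nat_lit 1900) (nat_lit 0) (XT.lf (nat_lit 76) (nat_lit 2363401608) (nat_lit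 0) (nat_lit 23350992014) (nat_lit 1900) (nat_lit 1096545286) (nat_lit 493) (nat_lit 5) (nat_lit 492) (nat_lit 5) (nat_lit 517) (nat_lit 5) (nat_lit 471) (nat_lit 456) (nat_lit 273)) (XT.lf (nat_lit 0) (nat_lit 2045996721) (nat_lit 1900) (nat_lit 3044244990) (nat_lit 1976) (nat_lit 22147766882) (nat_lit 467) (nat_lit 5) (nat_lit 492) (nat_lit 5) (nat_lit 493) (nat_lit 5) (nat_lit 472) (nat_lit 456) (nat_lit 272))) (XT.nd (nat_lit 78) (nat_lit 1140) (nat_lit 0) (XT.lf (nat_lit 0) (nat_lit 5477236159) (nat_lit 1900) (nat_lit 8523929087) (nat_lit 76) (nat_lit 13672393944) (nat_lit 468) (nat_lit 5) (nat_lit 493) (nat_lit 5) (nat_lit 469) (nat_lit 5) (nat_lit 473) (nat_lit 456) (nat_lit 271)) (XT.lf (nat_lit 0) (nat_lit 9184058722) (nat_lit 1216) (nat_lit 14076506016) (nat_lit 76) (nat_lit 4858158804) (nat_lit 453) (nat_lit 5) (nat_lit 469) (nat_lit 5) (nat_lit 454) (nat_lit 5) (nat_lit 474) (nat_lit 456)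 (nat_lit 270))))))))
noncomputable def xc106 : XT := (XT.nd (nat_lit 2262) (nat_lit 3192) (nat_lit 0) (XT.nd (nat_lit 1092) (nat_lit 7752) (nat_lit 0) (XT.nd (nat_lit 546) (nat_lit 4484) (nat_lit 0) (XT.nd (nat_lit 234) (nat_lit 3496) (nat_lit 0) (XT.nd (nat_lit 78) (nat_lit 912) (nat_lit 0) (XT.lf (nat_lit 0) (nat_lit 8843041992) (nat_lit 912) (nat_lit 4362863035) (nat_lit 988) (nat_lit 15367261569) (nat_lit 441) (nat_lit 5) (nat_lit 453) (nat_lit 5) (nat_lit 454) (nat_lit 5) (nat_lit 475) (nat_lit 456) (nat_lit 269)) (XT.nd (nat_lit 78) (nat_lit 0) (nat_lit 0) (XT.lf (nat_lit 0) (nat_lit 3546464144) (nat_lit 912) (nat_lit 14013795073) (nat_lit 988) (nat_lit 11476746823) (nat_lit 429) (nat_lit 5) (nat_lit 441) (nat_lit 5) (nat_lit 442) (nat_lit 5) (nat_lit 476) (nat_lit 456) (nat_lit 268)) (XT.lf (nat_lit 0) (nat_lit 22238866572) (nat_lit 988) (nat_lit 1790625262) (nat_lit 76) (nat_lit 5481396525)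 (nat_lit 429) (nat_lit 5) (nat_lit 442) (nat_lit 5) (nat_lit 430) (nat_lit 5) (nat_lit 477) (nat_lit 456) (nat_lit 267)))) (XT.nd (nat_lit 156) (nat_lit 1672) (nat_lit 0) (XT.nd (nat_lit 78) (nat_lit 988) (nat_lit 0) (XT.lf (nat_lit 0) (nat_lit 22821104506) (nat_lit 836) (nat_lit 4473643694) (nat_lit 912) (nat_lit 2699500766) (nat_lit 418) (nat_lit 5) (nat_lit 429) (nat_lit 5) (nat_lit 430) (nat_lit 5) (nat_lit 478) (nat_lit 456) (nat_lit 266)) (XT.lf (nat_lit 0) (nat_lit 2210184194) (nat_lit 988) (nat_lit 12671072108) (nat_lit 76) (nat_lit 15606066144) (nat_lit 405) (nat_lit 5) (nat_lit 418) (nat_lit 5) (nat_lit 406) (nat_lit 5) (nat_lit 479) (nat_lit 456) (nat_lit 265))) (XT.nd (nat_lit 78) (nat_lit 836) (nat_lit 0) (XT.lf (nat_lit 0) (nat_lit 7422669789) (nat_lit 912) (nat_lit 18252898113) (nat_lit 76) (nat_lit 5315419769) (nat_lit 394) (nat_lit 5) (nat_lit 406) (nat_lit 5) (nat_lit 395) (nat_lit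 5) (nat_lit 480) (nat_lit 456) (nat_lit 264)) (XT.lf (nat_lit 0) (nat_lit 7569317599) (nat_lit 836) (nat_lit 5452639558) (nat_lit 912) (nat_lit 18483197276) (nat_lit 383) (nat_lit 5) (nat_lit 394) (nat_lit 5) (nat_lit 395) (nat_lit 5) (nat_lit 481) (nat_lit 456) (nat_lit 263))))) (XT.nd (nat_lit 234) (nat_lit 2964) (nat_lit 0) (XT.nd (nat_lit 78) (nat_lit 760) (nat_lit 0) (XT.lf (nat_lit 0) (nat_lit 2308590922) (nat_lit 760) (nat_lit 16715402311) (nat_lit 836) (nat_lit 13006057685) (nat_lit 373) (nat_lit 5) (nat_lit 383) (nat_lit 5) (nat_lit 384) (nat_lit 5) (nat_lit 482) (nat_lit 456) (nat_lit 262)) (XT.nd (nat_lit 78) (nat_lit 760) (nat_lit 0) (XT.lf (nat_lit 0) (nat_lit 25427490525) (nat_lit 836) (nat_lit 2967942603) (nat_lit 76) (nat_lit 4170833285) (nat_lit 373) (nat_lit 5) (nat_lit 384) (nat_lit 5) (nat_lit 374) (nat_lit 5) (nat_lit 483) (nat_lit 456) (nat_lit 261)) (XT.lf (nat_lit 0) (nat_lit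 24796938049) (nat_lit 760) (nat_lit 7494603725) (nat_lit 836) (nat_lit 821657732) (nat_lit 363) (nat_lit 5) (nat_lit 373) (nat_lit 5) (nat_lit 374) (nat_lit 5) (nat_lit 484) (nat_lit 456) (nat_lit 260)))) (XT.nd (nat_lit 156) (nat_lit 1368) (nat_lit 0) (XT.nd (nat_lit 78) (nat_lit 760) (nat_lit 0) (XT.lf (nat_lit 0) (nat_lit 5848464105) (nat_lit 836) (nat_lit 13785648357) (nat_lit 76) (nat_lit 14036929035) (nat_lit 352) (nat_lit 5) (nat_lit 363) (nat_lit 5) (nat_lit 353) (nat_lit 5) (nat_lit 485) (nat_lit 456) (nat_lit 259)) (XT.lf (nat_lit 0) (nat_lit 12920432705) (nat_lit 836) (nat_lit 19316997376) (nat_lit 76) (nat_lit 2003822025) (nat_lit 342) (nat_lit 5) (nat_lit 353) (nat_lit 5) (nat_lit 343) (nat_lit 5) (nat_lit 486) (nat_lit 456) (nat_lit 258))) (XT.nd (nat_lit 78) (nat_lit 684) (nat_lit 0) (XT.lf (nat_lit 0) (nat_lit 9850054611) (nat_lit 684) (nat_lit 10639711404) (nat_lit 760) (nat_lit 14333099008)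 (nat_lit 333) (nat_lit 5) (nat_lit 342) (nat_lit 5) (nat_lit 343) (nat_lit 5) (nat_lit 487) (nat_lit 456) (nat_lit 257)) (XT.lf (nat_lit 0) (nat_lit 4718219105) (nat_lit 684) (nat_lit 23801713730) (nat_lit 760) (nat_lit 6897318521) (nat_lit 324) (nat_lit 5) (nat_lit 333) (nat_lit 5) (nat_lit 334) (nat_lit 5) (nat_lit 488) (nat_lit 456) (nat_lit 256)))))) (XT.nd (nat_lit 546) (nat_lit 3800) (nat_lit 0) (XT.nd (nat_lit 234) (nat_lit 2508) (nat_lit 0) (XT.nd (nat_lit 78) (nat_lit 1368) (nat_lit 0) (XT.lf (nat_lit 0) (nat_lit 989106479) (nat_lit 760) (nat_lit 466132582) (nat_lit 76) (nat_lit 34569380251) (nat_lit 323) (nat_lit 5) (nat_lit 333) (nat_lit 5) (nat_lit 324) (nat_lit 5) (nat_lit 489) (nat_lit 456) (nat_lit 255)) (XT.nd (nat_lit 78) (nat_lit 684) (nat_lit 0) (XT.lf (nat_lit 0) (nat_lit 9358223108) (nat_lit 760) (nat_lit 5756873148) (nat_lit 76) (nat_lit 21527404188) (nat_lit 314) (nat_lit 5) (nat_lit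 324) (nat_lit 5) (nat_lit 315) (nat_lit 5) (nat_lit 490) (nat_lit 456) (nat_lit 254)) (XT.lf (nat_lit 0) (nat_lit 18210359964) (nat_lit 760) (nat_lit 11092481899) (nat_lit 76) (nat_lit 7971437302) (nat_lit 305) (nat_lit 5) (nat_lit 315) (nat_lit 5) (nat_lit 306) (nat_lit 5) (nat_lit 491) (nat_lit 456) (nat_lit 253)))) (XT.nd (nat_lit 156) (nat_lit 1292) (nat_lit 0) (XT.nd (nat_lit 78) (nat_lit 608) (nat_lit 0) (XT.lf (nat_lit 0) (nat_lit 21408130561) (nat_lit 608) (nat_lit 6195606330) (nat_lit 684) (nat_lit 10315760925) (nat_lit 297) (nat_lit 5) (nat_lit 305) (nat_lit 5) (nat_lit 306) (nat_lit 5) (nat_lit 492) (nat_lit 456) (nat_lit 252)) (XT.lf (nat_lit 0) (nat_lit 16550801463) (nat_lit 608) (nat_lit 21021941569) (nat_lit 684) (nat_lit 1005453521) (nat_lit 289) (nat_lit 5) (nat_lit 297) (nat_lit 5) (nat_lit 298) (nat_lit 5) (nat_lit 493) (nat_lit 456) (nat_lit 251))) (XT.nd (nat_lit 78) (nat_lit 608)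 (nat_lit 0) (XT.lf (nat_lit 0) (nat_lit 8716599642) (nat_lit 684) (nat_lit 27643501866) (nat_lit 76) (nat_lit 2890539755) (nat_lit 280) (nat_lit 5) (nat_lit 289) (nat_lit 5) (nat_lit 281) (nat_lit 5) (nat_lit 494) (nat_lit 456) (nat_lit 250)) (XT.lf (nat_lit 0) (nat_lit 6545036446) (nat_lit 608) (nat_lit 12501550717) (nat_lit 684) (nat_lit 20889940649) (nat_lit 272) (nat_lit 5) (nat_lit 280) (nat_lit 5) (nat_lit 281) (nat_lit 5) (nat_lit 495) (nat_lit 456) (nat_lit 249))))) (XT.nd (nat_lit 312) (nat_lit 2052) (nat_lit 0) (XT.nd (nat_lit 156) (nat_lit 1140) (nat_lit 0) (XT.nd (nat_lit 78) (nat_lit 76) (nat_lit 0) (XT.lf (nat_lit 0) (nat_lit 1433098232) (nat_lit 532) (nat_lit 28526217283) (nat_lit 608) (nat_lit 10678218694) (nat_lit 265) (nat_lit 5) (nat_lit 272) (nat_lit 5) (nat_lit 273) (nat_lit 5) (nat_lit 496) (nat_lit 456) (nat_lit 248)) (XT.lf (nat_lit 0) (nat_lit 149967752) (nat_lit 608) (nat_lit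 3684033776) (nat_lit 76) (nat_lit 37519429887) (nat_lit 264) (nat_lit 5) (nat_lit 272) (nat_lit 5) (nat_lit 265) (nat_lit 5) (nat_lit 497) (nat_lit 456) (nat_lit 247))) (XT.nd (nat_lit 78) (nat_lit 532) (nat_lit 0) (XT.lf (nat_lit 0) (nat_lit 11513582557) (nat_lit 684) (nat_lit 8964731362) (nat_lit 76) (nat_lit 21603966871) (nat_lit 256) (nat_lit 5) (nat_lit 265) (nat_lit 5) (nat_lit 257) (nat_lit 5) (nat_lit 498) (nat_lit 456) (nat_lit 246)) (XT.lf (nat_lit 0) (nat_lit 23484609657) (nat_lit 608) (nat_lit 14275732683) (nat_lit 76) (nat_lit 5067323296) (nat_lit 249) (nat_lit 5) (nat_lit 257) (nat_lit 5) (nat_lit 250) (nat_lit 5) (nat_lit 499) (nat_lit 456) (nat_lit 245)))) (XT.nd (nat_lit 156) (nat_lit 988) (nat_lit 0) (XT.nd (nat_lit 78) (nat_lit 532) (nat_lit 0) (XT.lf (nat_lit 0) (nat_lit 23894374788) (nat_lit 532) (nat_lit 12270485748) (nat_lit 608) (nat_lit 7423549699) (nat_lit 242) (nat_lit 5)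 (nat_lit 249) (nat_lit 5) (nat_lit 250) (nat_lit 5) (nat_lit 500) (nat_lit 456) (nat_lit 244)) (XT.lf (nat_lit 0) (nat_lit 5101623484) (nat_lit 532) (nat_lit 25208387228) (nat_lit 76) (nat_lit 14055101537) (nat_lit 235) (nat_lit 5) (nat_lit 242) (nat_lit 5) (nat_lit 236) (nat_lit 5) (nat_lit 501) (nat_lit 456) (nat_lit 243))) (XT.nd (nat_lit 78) (nat_lit 456) (nat_lit 0) (XT.lf (nat_lit 0) (nat_lit 14331286076) (nat_lit 532) (nat_lit 3877383763) (nat_lit 608) (nat_lit 26949324655) (nat_lit 228) (nat_lit 5) (nat_lit 235) (nat_lit 5) (nat_lit 236) (nat_lit 5) (nat_lit 502) (nat_lit 456) (nat_lit 242)) (XT.lf (nat_lit 0) (nat_lit 9397277264) (nat_lit 456) (nat_lit 22693217945) (nat_lit 532) (nat_lit 13876536704) (nat_lit 222) (nat_lit 5) (nat_lit 228) (nat_lit 5) (nat_lit 229) (nat_lit 5) (nat_lit 503) (nat_lit 456) (nat_lit 241))))))) (XT.nd (nat_lit 59358) (nat_lit 0) (nat_lit 18924) (XT.nd (nat_lit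 546) (nat_lit 456) (nat_lit 0) (XT.nd (nat_lit 234) (nat_lit 1748) (nat_lit 0) (XT.nd (nat_lit 78) (nat_lit 532) (nat_lit 0) (XT.lf (nat_lit 0) (nat_lit 4452359179) (nat_lit 456) (nat_lit 42226905590) (nat_lit 532) (nat_lit 115265954) (nat_lit 216) (nat_lit 5) (nat_lit 222) (nat_lit 5) (nat_lit 223) (nat_lit 5) (nat_lit 504) (nat_lit 456) (nat_lit 240)) (XT.nd (nat_lit 78) (nat_lit 456) (nat_lit 0) (XT.lf (nat_lit 0) (nat_lit 14272770489) (nat_lit 532) (nat_lit 685028032) (nat_lit 76) (nat_lit 32679264208) (nat_lit 215) (nat_lit 5) (nat_lit 222) (nat_lit 5) (nat_lit 216) (nat_lit 5) (nat_lit 505) (nat_lit 456) (nat_lit 239)) (XT.lf (nat_lit 0) (nat_lit 29452902954) (nat_lit 532) (nat_lit 5808374458) (nat_lit 76) (nat_lit 13236337681) (nat_lit 209) (nat_lit 5) (nat_lit 216) (nat_lit 5) (nat_lit 210) (nat_lit 5) (nat_lit 506) (nat_lit 456) (nat_lit 238)))) (XT.nd (nat_lit 156) (nat_lit 836) (nat_lit 0)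 (XT.nd (nat_lit 78) (nat_lit 456) (nat_lit 0) (XT.lf (nat_lit 0) (nat_lit 38389630378) (nat_lit 456) (nat_lit 7049997618) (nat_lit 532) (nat_lit 3937332309) (nat_lit 203) (nat_lit 5) (nat_lit 209) (nat_lit 5) (nat_lit 210) (nat_lit 5) (nat_lit 507) (nat_lit 456) (nat_lit 237)) (XT.lf (nat_lit 0) (nat_lit 11874087036) (nat_lit 456) (nat_lit 16342710818) (nat_lit 76) (nat_lit 22056313562) (nat_lit 197) (nat_lit 5) (nat_lit 203) (nat_lit 5) (nat_lit 198) (nat_lit 5) (nat_lit 508) (nat_lit 456) (nat_lit 236))) (XT.nd (nat_lit 78) (nat_lit 380) (nat_lit 0) (XT.lf (nat_lit 0) (nat_lit 28424113602) (nat_lit 532) (nat_lit 21736344245) (nat_lit 76) (nat_lit 1028813594) (nat_lit 191) (nat_lit 5) (nat_lit 198) (nat_lit 5) (nat_lit 192) (nat_lit 5) (nat_lit 509) (nat_lit 456) (nat_lit 235)) (XT.lf (nat_lit 0) (nat_lit 24847937134) (nat_lit 380) (nat_lit 21081570779) (nat_lit 456) (nat_lit 6194231062) (nat_lit 186)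 (nat_lit 5) (nat_lit 191) (nat_lit 5) (nat_lit 192) (nat_lit 5) (nat_lit 510) (nat_lit 456) (nat_lit 234))))) (XT.nd (nat_lit 58500) (nat_lit 0) (nat_lit 23028) (XT.nd (nat_lit 58344) (nat_lit 0) (nat_lit 22952) (XT.nd (nat_lit 58266) (nat_lit 0) (nat_lit 22876) (XT.lf (nat_lit 0) (nat_lit 11068146601) (nat_lit 456) (nat_lit 32905330187) (nat_lit 76) (nat_lit 9104613085) (nat_lit 180) (nat_lit 5) (nat_lit 186) (nat_lit 5) (nat_lit 181) (nat_lit 5) (nat_lit 511) (nat_lit 456) (nat_lit 233)) (XT.lf (nat_lit 0) (nat_lit 612052868) (nat_lit 1900) (nat_lit 5189304029) (nat_lit 1900) (nat_lit 5189304029) (nat_lit 481) (nat_lit 3) (nat_lit 506) (nat_lit 3) (nat_lit 506) (nat_lit 5) (nat_lit 457) (nat_lit 457) (nat_lit 286))) (XT.nd (nat_lit 78) (nat_lit 0) (nat_lit 0) (XT.lf (nat_lit 0) (nat_lit 1517217692) (nat_lit 1824) (nat_lit 16215427391) (nat_lit 1900) (nat_lit 4572895387) (nat_lit 482) (nat_lit 5) (nat_lit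 506) (nat_lit 5) (nat_lit 507) (nat_lit 5) (nat_lit 458) (nat_lit 457) (nat_lit 285)) (XT.lf (nat_lit 76) (nat_lit 480809331) (nat_lit 0) (nat_lit 1481823148) (nat_lit 1900) (nat_lit 20673983221) (nat_lit 483) (nat_lit 5) (nat_lit 482) (nat_lit 5) (nat_lit 507) (nat_lit 5) (nat_lit 459) (nat_lit 457) (nat_lit 284)))) (XT.nd (nat_lit 156) (nat_lit 0) (nat_lit 152) (XT.nd (nat_lit 78) (nat_lit 0) (nat_lit 76) (XT.lf (nat_lit 0) (nat_lit 2623302910) (nat_lit 1824) (nat_lit 5179744427) (nat_lit 1900) (nat_lit 15170538221) (nat_lit 483) (nat_lit 5) (nat_lit 507) (nat_lit 5) (nat_lit 508) (nat_lit 5) (nat_lit 460) (nat_lit 457) (nat_lit 283)) (XT.lf (nat_lit 0) (nat_lit 3445896605) (nat_lit 1824) (nat_lit 10923137094) (nat_lit 1900) (nat_lit 8948788978) (nat_lit 484) (nat_lit 5) (nat_lit 508) (nat_lit 5) (nat_lit 509) (nat_lit 5) (nat_lit 461) (nat_lit 457) (nat_lit 282))) (XT.nd (nat_lit 78) (nat_lit 0)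 (nat_lit 0) (XT.lf (nat_lit 0) (nat_lit 4434647435) (nat_lit 1824) (nat_lit 16756552350) (nat_lit 1900) (nat_lit 2478357759) (nat_lit 485) (nat_lit 5) (nat_lit 509) (nat_lit 5) (nat_lit 510) (nat_lit 5) (nat_lit 462) (nat_lit 457) (nat_lit 281)) (XT.lf (nat_lit 76) (nat_lit 1319622975) (nat_lit 0) (nat_lit 4305478452) (nat_lit 1900) (nat_lit 18403302432) (nat_lit 486) (nat_lit 5) (nat_lit 485) (nat_lit 5) (nat_lit 510) (nat_lit 5) (nat_lit 463) (nat_lit 457) (nat_lit 280)))))) (XT.nd (nat_lit 546) (nat_lit 4332) (nat_lit 0) (XT.nd (nat_lit 234) (nat_lit 0) (nat_lit 152) (XT.nd (nat_lit 78) (nat_lit 0) (nat_lit 76) (XT.lf (nat_lit 0) (nat_lit 7043604252) (nat_lit 1824) (nat_lit 4318584941) (nat_lit 1900) (nat_lit 13031979876) (nat_lit 486) (nat_lit 5) (nat_lit 510) (nat_lit 5) (nat_lit 511) (nat_lit 5) (nat_lit 464) (nat_lit 457) (nat_lit 279)) (XT.nd (nat_lit 78) (nat_lit 0) (nat_lit 0) (XT.lf (nat_lit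 0) (nat_lit 8662714470) (nat_lit 1824) (nat_lit 10024567557) (nat_lit 1900) (nat_lit 6080464364) (nat_lit 487) (nat_lit 5) (nat_lit 511) (nat_lit 5) (nat_lit 512) (nat_lit 5) (nat_lit 465) (nat_lit 457) (nat_lit 278)) (XT.lf (nat_lit 76) (nat_lit 9325581510) (nat_lit 0) (nat_lit 1164257407) (nat_lit 1900) (nat_lit 14659503495) (nat_lit 488) (nat_lit 5) (nat_lit 487) (nat_lit 5) (nat_lit 512) (nat_lit 5) (nat_lit 466) (nat_lit 457) (nat_lit 277)))) (XT.nd (nat_lit 156) (nat_lit 0) (nat_lit 152) (XT.nd (nat_lit 78) (nat_lit 0) (nat_lit 76) (XT.lf (nat_lit 76) (nat_lit 3787445228) (nat_lit 0) (nat_lit 8780552836) (nat_lit 1900) (nat_lit 12970464021) (nat_lit 489) (nat_lit 5) (nat_lit 488) (nat_lit 5) (nat_lit 513) (nat_lit 5) (nat_lit 467) (nat_lit 457) (nat_lit 276)) (XT.lf (nat_lit 0) (nat_lit 14878107525) (nat_lit 1824) (nat_lit 1806749986) (nat_lit 1900) (nat_lit 9251005911) (nat_lit 489) (nat_lit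 5) (nat_lit 513) (nat_lit 5) (nat_lit 514) (nat_lit 5) (nat_lit 468) (nat_lit 457) (nat_lit 275))) (XT.nd (nat_lit 78) (nat_lit 0) (nat_lit 0) (XT.lf (nat_lit 0) (nat_lit 17442719195) (nat_lit 1824) (nat_lit 7430564932) (nat_lit 1900) (nat_lit 1468198875) (nat_lit 490) (nat_lit 5) (nat_lit 514) (nat_lit 5) (nat_lit 515) (nat_lit 5) (nat_lit 469) (nat_lit 457) (nat_lit 274)) (XT.lf (nat_lit 76) (nat_lit 13577676112) (nat_lit 0) (nat_lit 6712781831) (nat_lit 1900) (nat_lit 6464689626) (nat_lit 491) (nat_lit 5) (nat_lit 490) (nat_lit 5) (nat_lit 515) (nat_lit 5) (nat_lit 470) (nat_lit 457) (nat_lit 273))))) (XT.nd (nat_lit 312) (nat_lit 2888) (nat_lit 0) (XT.nd (nat_lit 156) (nat_lit 1824) (nat_lit 0) (XT.nd (nat_lit 78) (nat_lit 0) (nat_lit 76) (XT.lf (nat_lit 76) (nat_lit 8161900718) (nat_lit 0) (nat_lit 15237549561) (nat_lit 1900) (nat_lit 3778255535) (nat_lit 492) (nat_lit 5) (nat_lit 491) (nat_lit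 5) (nat_lit 516) (nat_lit 5) (nat_lit 471) (nat_lit 457) (nat_lit 272)) (XT.lf (nat_lit 76) (nat_lit 2673501972) (nat_lit 0) (nat_lit 24096872236) (nat_lit 1900) (nat_lit 839193527) (nat_lit 493) (nat_lit 5) (nat_lit 492) (nat_lit 5) (nat_lit 517) (nat_lit 5) (nat_lit 472) (nat_lit 457) (nat_lit 271))) (XT.nd (nat_lit 78) (nat_lit 0) (nat_lit 76) (XT.lf (nat_lit 0) (nat_lit 2385475129) (nat_lit 1900) (nat_lit 2899637221) (nat_lit 1976) (nat_lit 22764466570) (nat_lit 467) (nat_lit 5) (nat_lit 492) (nat_lit 5) (nat_lit 493) (nat_lit 5) (nat_lit 473) (nat_lit 457) (nat_lit 270)) (XT.lf (nat_lit 0) (nat_lit 5912802988) (nat_lit 1900) (nat_lit 8541845968) (nat_lit 76) (nat_lit 14043684284) (nat_lit 468) (nat_lit 5) (nat_lit 493) (nat_lit 5) (nat_lit 469) (nat_lit 5) (nat_lit 474) (nat_lit 457) (nat_lit 269)))) (XT.nd (nat_lit 156) (nat_lit 912) (nat_lit 0) (XT.nd (nat_lit 78) (nat_lit 912) (nat_lit 0) (XT.lf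 (nat_lit 0) (nat_lit 9724247877) (nat_lit 1216) (nat_lit 14259352588) (nat_lit 76) (nat_lit 4973383931) (nat_lit 453) (nat_lit 5) (nat_lit 469) (nat_lit 5) (nat_lit 454) (nat_lit 5) (nat_lit 475) (nat_lit 457) (nat_lit 268)) (XT.lf (nat_lit 0) (nat_lit 9343897091) (nat_lit 912) (nat_lit 4516673157) (nat_lit 988) (nat_lit 15564614298) (nat_lit 441) (nat_lit 5) (nat_lit 453) (nat_lit 5) (nat_lit 454) (nat_lit 5) (nat_lit 476) (nat_lit 457) (nat_lit 267))) (XT.nd (nat_lit 78) (nat_lit 0) (nat_lit 0) (XT.lf (nat_lit 0) (nat_lit 3889839645) (nat_lit 912) (nat_lit 14449580777) (nat_lit 988) (nat_lit 11563641656) (nat_lit 429) (nat_lit 5) (nat_lit 441) (nat_lit 5) (nat_lit 442) (nat_lit 5) (nat_lit 477) (nat_lit 457) (nat_lit 266)) (XT.lf (nat_lit 0) (nat_lit 23150939001) (nat_lit 988) (nat_lit 1609260987) (nat_lit 76) (nat_lit 5631110025) (nat_lit 429) (nat_lit 5) (nat_lit 442) (nat_lit 5) (nat_lit 430) (nat_lit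 5) (nat_lit 478) (nat_lit 457) (nat_lit 265))))))))
noncomputable def xc107 : XT := (XT.nd (nat_lit 2262) (nat_lit 1748) (nat_lit 0) (XT.nd (nat_lit 1092) (nat_lit 7296) (nat_lit 0) (XT.nd (nat_lit 546) (nat_lit 4408) (nat_lit 0) (XT.nd (nat_lit 234) (nat_lit 2356) (nat_lit 0) (XT.nd (nat_lit 78) (nat_lit 1824) (nat_lit 0) (XT.lf (nat_lit 0) (nat_lit 23737006731) (nat_lit 836) (nat_lit 4615858702) (nat_lit 912) (nat_lit 2536418838) (nat_lit 418) (nat_lit 5) (nat_lit 429) (nat_lit 5) (nat_lit 430) (nat_lit 5) (nat_lit 479) (nat_lit 457) (nat_lit 264)) (XT.nd (nat_lit 78) (nat_lit 836) (nat_lit 0) (XT.lf (nat_lit 0) (nat_lit 2511807497) (nat_lit 988) (nat_lit 12815788100) (nat_lit 76) (nat_lit 16069633820) (nat_lit 405) (nat_lit 5) (nat_lit 418) (nat_lit 5) (nat_lit 406) (nat_lit 5) (nat_lit 480) (nat_lit 457) (nat_lit 263)) (XT.lf (nat_lit 0) (nat_lit 7875328002) (nat_lit 912) (nat_lit 18564293299) (nat_lit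 76) (nat_lit 5476490276) (nat_lit 394) (nat_lit 5) (nat_lit 406) (nat_lit 5) (nat_lit 395) (nat_lit 5) (nat_lit 481) (nat_lit 457) (nat_lit 262)))) (XT.nd (nat_lit 156) (nat_lit 760) (nat_lit 0) (XT.nd (nat_lit 78) (nat_lit 760) (nat_lit 0) (XT.lf (nat_lit 0) (nat_lit 8028756954) (nat_lit 836) (nat_lit 5608647280) (nat_lit 912) (nat_lit 18808403083) (nat_lit 383) (nat_lit 5) (nat_lit 394) (nat_lit 5) (nat_lit 395) (nat_lit 5) (nat_lit 482) (nat_lit 457) (nat_lit 261)) (XT.lf (nat_lit 0) (nat_lit 2610819068) (nat_lit 760) (nat_lit 17203695416) (nat_lit 836) (nat_lit 13172036124) (nat_lit 373) (nat_lit 5) (nat_lit 383) (nat_lit 5) (nat_lit 384) (nat_lit 5) (nat_lit 483) (nat_lit 457) (nat_lit 260))) (XT.nd (nat_lit 78) (nat_lit 760) (nat_lit 0) (XT.lf (nat_lit 0) (nat_lit 26403797721) (nat_lit 836) (nat_lit 2826605393) (nat_lit 76) (nat_lit 4308576003) (nat_lit 373) (nat_lit 5) (nat_lit 384) (nat_lit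 5) (nat_lit 374) (nat_lit 5) (nat_lit 484) (nat_lit 457) (nat_lit 259)) (XT.lf (nat_lit 0) (nat_lit 25767484110) (nat_lit 760) (nat_lit 7701539945) (nat_lit 836) (nat_lit 633391241) (nat_lit 363) (nat_lit 5) (nat_lit 373) (nat_lit 5) (nat_lit 374) (nat_lit 5) (nat_lit 485) (nat_lit 457) (nat_lit 258))))) (XT.nd (nat_lit 234) (nat_lit 2128) (nat_lit 0) (XT.nd (nat_lit 78) (nat_lit 1444) (nat_lit 0) (XT.lf (nat_lit 0) (nat_lit 6229518627) (nat_lit 836) (nat_lit 13969521253) (nat_lit 76) (nat_lit 14478015640) (nat_lit 352) (nat_lit 5) (nat_lit 363) (nat_lit 5) (nat_lit 353) (nat_lit 5) (nat_lit 486) (nat_lit 457) (nat_lit 257)) (XT.nd (nat_lit 78) (nat_lit 684) (nat_lit 0) (XT.lf (nat_lit 0) (nat_lit 13509286671) (nat_lit 836) (nat_lit 19666672255) (nat_lit 76) (nat_lit 2088500863) (nat_lit 342) (nat_lit 5) (nat_lit 353) (nat_lit 5) (nat_lit 343) (nat_lit 5) (nat_lit 487) (nat_lit 457) (nat_lit 256)) (XT.lf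 (nat_lit 0) (nat_lit 10371662491) (nat_lit 684) (nat_lit 10929644133) (nat_lit 760) (nat_lit 14562302484) (nat_lit 333) (nat_lit 5) (nat_lit 342) (nat_lit 5) (nat_lit 343) (nat_lit 5) (nat_lit 488) (nat_lit 457) (nat_lit 255)))) (XT.nd (nat_lit 156) (nat_lit 1368) (nat_lit 0) (XT.nd (nat_lit 78) (nat_lit 76) (nat_lit 0) (XT.lf (nat_lit 0) (nat_lit 5085894643) (nat_lit 684) (nat_lit 24482402993) (nat_lit 760) (nat_lit 6907611155) (nat_lit 324) (nat_lit 5) (nat_lit 333) (nat_lit 5) (nat_lit 334) (nat_lit 5) (nat_lit 489) (nat_lit 457) (nat_lit 254)) (XT.lf (nat_lit 0) (nat_lit 1207175909) (nat_lit 760) (nat_lit 258065649) (nat_lit 76) (nat_lit 35636343868) (nat_lit 323) (nat_lit 5) (nat_lit 333) (nat_lit 5) (nat_lit 324) (nat_lit 5) (nat_lit 490) (nat_lit 457) (nat_lit 253))) (XT.nd (nat_lit 78) (nat_lit 684) (nat_lit 0) (XT.lf (nat_lit 0) (nat_lit 9823518617) (nat_lit 760) (nat_lit 5707661529) (nat_lit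 76) (nat_lit 22206899928) (nat_lit 314) (nat_lit 5) (nat_lit 324) (nat_lit 5) (nat_lit 315) (nat_lit 5) (nat_lit 491) (nat_lit 457) (nat_lit 252)) (XT.lf (nat_lit 0) (nat_lit 18937506777) (nat_lit 760) (nat_lit 11203567740) (nat_lit 76) (nat_lit 8247812024) (nat_lit 305) (nat_lit 5) (nat_lit 315) (nat_lit 5) (nat_lit 306) (nat_lit 5) (nat_lit 492) (nat_lit 457) (nat_lit 251)))))) (XT.nd (nat_lit 546) (nat_lit 3572) (nat_lit 0) (XT.nd (nat_lit 234) (nat_lit 1824) (nat_lit 0) (XT.nd (nat_lit 78) (nat_lit 1292) (nat_lit 0) (XT.lf (nat_lit 0) (nat_lit 22268466459) (nat_lit 608) (nat_lit 6340367483) (nat_lit 684) (nat_lit 10444704956) (nat_lit 297) (nat_lit 5) (nat_lit 305) (nat_lit 5) (nat_lit 306) (nat_lit 5) (nat_lit 493) (nat_lit 457) (nat_lit 250)) (XT.nd (nat_lit 78) (nat_lit 684) (nat_lit 0) (XT.lf (nat_lit 0) (nat_lit 17265102999) (nat_lit 608) (nat_lit 21608325443) (nat_lit 684) (nat_lit 858639912)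 (nat_lit 289) (nat_lit 5) (nat_lit 297) (nat_lit 5) (nat_lit 298) (nat_lit 5) (nat_lit 494) (nat_lit 457) (nat_lit 249)) (XT.lf (nat_lit 0) (nat_lit 9149368338) (nat_lit 684) (nat_lit 28253147737) (nat_lit 76) (nat_lit 3022215173) (nat_lit 280) (nat_lit 5) (nat_lit 289) (nat_lit 5) (nat_lit 281) (nat_lit 5) (nat_lit 495) (nat_lit 457) (nat_lit 248)))) (XT.nd (nat_lit 156) (nat_lit 684) (nat_lit 0) (XT.nd (nat_lit 78) (nat_lit 532) (nat_lit 0) (XT.lf (nat_lit 0) (nat_lit 6957483015) (nat_lit 608) (nat_lit 12828187037) (nat_lit 684) (nat_lit 21345596162) (nat_lit 272) (nat_lit 5) (nat_lit 280) (nat_lit 5) (nat_lit 281) (nat_lit 5) (nat_lit 496) (nat_lit 457) (nat_lit 247)) (XT.lf (nat_lit 0) (nat_lit 1691674512) (nat_lit 532) (nat_lit 29330926571) (nat_lit 608) (nat_lit 10830765411) (nat_lit 265) (nat_lit 5) (nat_lit 272) (nat_lit 5) (nat_lit 273) (nat_lit 5) (nat_lit 497) (nat_lit 457) (nat_lit 246)))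 (XT.nd (nat_lit 78) (nat_lit 608) (nat_lit 0) (XT.lf (nat_lit 0) (nat_lit 315242628) (nat_lit 608) (nat_lit 3583110512) (nat_lit 76) (nat_lit 38692462257) (nat_lit 264) (nat_lit 5) (nat_lit 272) (nat_lit 5) (nat_lit 265) (nat_lit 5) (nat_lit 498) (nat_lit 457) (nat_lit 245)) (XT.lf (nat_lit 0) (nat_lit 12016761985) (nat_lit 684) (nat_lit 9022835576) (nat_lit 76) (nat_lit 22301992869) (nat_lit 256) (nat_lit 5) (nat_lit 265) (nat_lit 5) (nat_lit 257) (nat_lit 5) (nat_lit 499) (nat_lit 457) (nat_lit 244))))) (XT.nd (nat_lit 312) (nat_lit 1444) (nat_lit 0) (XT.nd (nat_lit 156) (nat_lit 1064) (nat_lit 0) (XT.nd (nat_lit 78) (nat_lit 532) (nat_lit 0) (XT.lf (nat_lit 0) (nat_lit 24344014710) (nat_lit 608) (nat_lit 14493837237) (nat_lit 76) (nat_lit 5271543077) (nat_lit 249) (nat_lit 5) (nat_lit 257) (nat_lit 5) (nat_lit 250) (nat_lit 5) (nat_lit 500) (nat_lit 457) (nat_lit 243)) (XT.lf (nat_lit 0) (nat_lit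 24817963741) (nat_lit 532) (nat_lit 12583541100) (nat_lit 608) (nat_lit 7491520579) (nat_lit 242) (nat_lit 5) (nat_lit 249) (nat_lit 5) (nat_lit 250) (nat_lit 5) (nat_lit 501) (nat_lit 457) (nat_lit 242))) (XT.nd (nat_lit 78) (nat_lit 532) (nat_lit 0) (XT.lf (nat_lit 0) (nat_lit 5404626631) (nat_lit 532) (nat_lit 25756603551) (nat_lit 76) (nat_lit 14531833346) (nat_lit 235) (nat_lit 5) (nat_lit 242) (nat_lit 5) (nat_lit 236) (nat_lit 5) (nat_lit 502) (nat_lit 457) (nat_lit 241)) (XT.lf (nat_lit 0) (nat_lit 14965884827) (nat_lit 532) (nat_lit 3935960734) (nat_lit 608) (nat_lit 27607947543) (nat_lit 228) (nat_lit 5) (nat_lit 235) (nat_lit 5) (nat_lit 236) (nat_lit 5) (nat_lit 503) (nat_lit 457) (nat_lit 240)))) (XT.nd (nat_lit 156) (nat_lit 456) (nat_lit 0) (XT.nd (nat_lit 78) (nat_lit 532) (nat_lit 0) (XT.lf (nat_lit 0) (nat_lit 9883060056) (nat_lit 456) (nat_lit 23314474160) (nat_lit 532) (nat_lit 14145619344)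 (nat_lit 222) (nat_lit 5) (nat_lit 228) (nat_lit 5) (nat_lit 229) (nat_lit 5) (nat_lit 504) (nat_lit 457) (nat_lit 239)) (XT.lf (nat_lit 0) (nat_lit 25589012) (nat_lit 532) (nat_lit 43406746868) (nat_lit 76) (nat_lit 4763188373) (nat_lit 215) (nat_lit 5) (nat_lit 222) (nat_lit 5) (nat_lit 216) (nat_lit 5) (nat_lit 505) (nat_lit 457) (nat_lit 238))) (XT.nd (nat_lit 78) (nat_lit 456) (nat_lit 0) (XT.lf (nat_lit 0) (nat_lit 14839551526) (nat_lit 532) (nat_lit 506628398) (nat_lit 76) (nat_lit 33717220115) (nat_lit 215) (nat_lit 5) (nat_lit 222) (nat_lit 5) (nat_lit 216) (nat_lit 5) (nat_lit 506) (nat_lit 457) (nat_lit 237)) (XT.lf (nat_lit 0) (nat_lit 30472710745) (nat_lit 532) (nat_lit 5784572629) (nat_lit 76) (nat_lit 13692533219) (nat_lit 209) (nat_lit 5) (nat_lit 216) (nat_lit 5) (nat_lit 210) (nat_lit 5) (nat_lit 507) (nat_lit 457) (nat_lit 236))))))) (XT.nd (nat_lit 59436) (nat_lit 0) (nat_lit 14972)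 (XT.nd (nat_lit 58812) (nat_lit 0) (nat_lit 22572) (XT.nd (nat_lit 234) (nat_lit 380) (nat_lit 0) (XT.nd (nat_lit 78) (nat_lit 912) (nat_lit 0) (XT.lf (nat_lit 0) (nat_lit 39736159176) (nat_lit 456) (nat_lit 7200175799) (nat_lit 532) (nat_lit 3919261313) (nat_lit 203) (nat_lit 5) (nat_lit 209) (nat_lit 5) (nat_lit 210) (nat_lit 5) (nat_lit 508) (nat_lit 457) (nat_lit 235)) (XT.nd (nat_lit 78) (nat_lit 456) (nat_lit 0) (XT.lf (nat_lit 0) (nat_lit 12362456219) (nat_lit 456) (nat_lit 16637317018) (nat_lit 76) (nat_lit 22778886245) (nat_lit 197) (nat_lit 5) (nat_lit 203) (nat_lit 5) (nat_lit 198) (nat_lit 5) (nat_lit 509) (nat_lit 457) (nat_lit 234)) (XT.lf (nat_lit 0) (nat_lit 29406793227) (nat_lit 532) (nat_lit 22193749551) (nat_lit 76) (nat_lit 1121805406) (nat_lit 191) (nat_lit 5) (nat_lit 198) (nat_lit 5) (nat_lit 192) (nat_lit 5) (nat_lit 510) (nat_lit 457) (nat_lit 233)))) (XT.nd (nat_lit 58422)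 (nat_lit 0) (nat_lit 22496) (XT.nd (nat_lit 58344) (nat_lit 0) (nat_lit 22420) (XT.lf (nat_lit 0) (nat_lit 25784901736) (nat_lit 380) (nat_lit 21649906016) (nat_lit 456) (nat_lit 6250092890) (nat_lit 186) (nat_lit 5) (nat_lit 191) (nat_lit 5) (nat_lit 192) (nat_lit 5) (nat_lit 511) (nat_lit 457) (nat_lit 232)) (XT.lf (nat_lit 0) (nat_lit 833369828) (nat_lit 1900) (nat_lit 5241472838) (nat_lit 1900) (nat_lit 5241472838) (nat_lit 481) (nat_lit 3) (nat_lit 506) (nat_lit 3) (nat_lit 506) (nat_lit 5) (nat_lit 458) (nat_lit 458) (nat_lit 284))) (XT.nd (nat_lit 78) (nat_lit 0) (nat_lit 0) (XT.lf (nat_lit 0) (nat_lit 1956899679) (nat_lit 1824) (nat_lit 16489063160) (nat_lit 1900) (nat_lit 4520848610) (nat_lit 482) (nat_lit 5) (nat_lit 506) (nat_lit 5) (nat_lit 507) (nat_lit 5) (nat_lit 459) (nat_lit 458) (nat_lit 283)) (XT.lf (nat_lit 76) (nat_lit 704607797) (nat_lit 0) (nat_lit 1700947961) (nat_lit 1900) (nat_lit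 20902465948) (nat_lit 483) (nat_lit 5) (nat_lit 482) (nat_lit 5) (nat_lit 507) (nat_lit 5) (nat_lit 460) (nat_lit 458) (nat_lit 282))))) (XT.nd (nat_lit 312) (nat_lit 0) (nat_lit 228) (XT.nd (nat_lit 156) (nat_lit 0) (nat_lit 152) (XT.nd (nat_lit 78) (nat_lit 0) (nat_lit 76) (XT.lf (nat_lit 0) (nat_lit 3073759502) (nat_lit 1824) (nat_lit 5123291395) (nat_lit 1900) (nat_lit 15458295835) (nat_lit 483) (nat_lit 5) (nat_lit 507) (nat_lit 5) (nat_lit 508) (nat_lit 5) (nat_lit 461) (nat_lit 458) (nat_lit 281)) (XT.lf (nat_lit 0) (nat_lit 3910557191) (nat_lit 1824) (nat_lit 11034167158) (nat_lit 1900) (nat_lit 9065396419) (nat_lit 484) (nat_lit 5) (nat_lit 508) (nat_lit 5) (nat_lit 509) (nat_lit 5) (nat_lit 462) (nat_lit 458) (nat_lit 280))) (XT.nd (nat_lit 78) (nat_lit 0) (nat_lit 0) (XT.lf (nat_lit 0) (nat_lit 4918929172) (nat_lit 1824) (nat_lit 17038144045) (nat_lit 1900) (nat_lit 2415535612) (nat_lit 485)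 (nat_lit 5) (nat_lit 509) (nat_lit 5) (nat_lit 510) (nat_lit 5) (nat_lit 463) (nat_lit 458) (nat_lit 279)) (XT.lf (nat_lit 76) (nat_lit 1576729377) (nat_lit 0) (nat_lit 4559549317) (nat_lit 1900) (nat_lit 18606118509) (nat_lit 486) (nat_lit 5) (nat_lit 485) (nat_lit 5) (nat_lit 510) (nat_lit 5) (nat_lit 464) (nat_lit 458) (nat_lit 278)))) (XT.nd (nat_lit 156) (nat_lit 0) (nat_lit 76) (XT.nd (nat_lit 78) (nat_lit 0) (nat_lit 76) (XT.lf (nat_lit 0) (nat_lit 7586575727) (nat_lit 1824) (nat_lit 4229513887) (nat_lit 1900) (nat_lit 13303261272) (nat_lit 486) (nat_lit 5) (nat_lit 510) (nat_lit 5) (nat_lit 511) (nat_lit 5) (nat_lit 465) (nat_lit 458) (nat_lit 277)) (XT.lf (nat_lit 0) (nat_lit 9245292334) (nat_lit 1824) (nat_lit 10103042007) (nat_lit 1900) (nat_lit 6155980816) (nat_lit 487) (nat_lit 5) (nat_lit 511) (nat_lit 5) (nat_lit 512) (nat_lit 5) (nat_lit 466) (nat_lit 458) (nat_lit 276))) (XT.nd (nat_lit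 78) (nat_lit 0) (nat_lit 76) (XT.lf (nat_lit 76) (nat_lit 9824005586) (nat_lit 0) (nat_lit 1295245667) (nat_lit 1900) (nat_lit 14778267673) (nat_lit 488) (nat_lit 5) (nat_lit 487) (nat_lit 5) (nat_lit 512) (nat_lit 5) (nat_lit 467) (nat_lit 458) (nat_lit 275)) (XT.lf (nat_lit 76) (nat_lit 4122992829) (nat_lit 0) (nat_lit 9128431183) (nat_lit 1900) (nat_lit 13047055075) (nat_lit 489) (nat_lit 5) (nat_lit 488) (nat_lit 5) (nat_lit 513) (nat_lit 5) (nat_lit 468) (nat_lit 458) (nat_lit 274)))))) (XT.nd (nat_lit 546) (nat_lit 6384) (nat_lit 0) (XT.nd (nat_lit 234) (nat_lit 1672) (nat_lit 0) (XT.nd (nat_lit 78) (nat_lit 0) (nat_lit 76) (XT.lf (nat_lit 0) (nat_lit 15621380483) (nat_lit 1824) (nat_lit 1639001528) (nat_lit 1900) (nat_lit 9447609845) (nat_lit 489) (nat_lit 5) (nat_lit 513) (nat_lit 5) (nat_lit 514) (nat_lit 5) (nat_lit 469) (nat_lit 458) (nat_lit 273)) (XT.nd (nat_lit 78) (nat_lit 0) (nat_lit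 0) (XT.lf (nat_lit 0) (nat_lit 18255236492) (nat_lit 1824) (nat_lit 7428865974) (nat_lit 1900) (nat_lit 1441831695) (nat_lit 490) (nat_lit 5) (nat_lit 514) (nat_lit 5) (nat_lit 515) (nat_lit 5) (nat_lit 470) (nat_lit 458) (nat_lit 272)) (XT.lf (nat_lit 76) (nat_lit 14205978175) (nat_lit 0) (nat_lit 6975439582) (nat_lit 1900) (nat_lit 6370730953) (nat_lit 491) (nat_lit 5) (nat_lit 490) (nat_lit 5) (nat_lit 515) (nat_lit 5) (nat_lit 471) (nat_lit 458) (nat_lit 271)))) (XT.nd (nat_lit 156) (nat_lit 1824) (nat_lit 0) (XT.nd (nat_lit 78) (nat_lit 0) (nat_lit 76) (XT.lf (nat_lit 76) (nat_lit 8630097462) (nat_lit 0) (nat_lit 15746425465) (nat_lit 1900) (nat_lit 3611004157) (nat_lit 492) (nat_lit 5) (nat_lit 491) (nat_lit 5) (nat_lit 516) (nat_lit 5) (nat_lit 472) (nat_lit 458) (nat_lit 270)) (XT.lf (nat_lit 76) (nat_lit 2979174384) (nat_lit 0) (nat_lit 24862525563) (nat_lit 1900) (nat_lit 590782645) (nat_lit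 493) (nat_lit 5) (nat_lit 492) (nat_lit 5) (nat_lit 517) (nat_lit 5) (nat_lit 473) (nat_lit 458) (nat_lit 269))) (XT.nd (nat_lit 78) (nat_lit 0) (nat_lit 76) (XT.lf (nat_lit 0) (nat_lit 2719173897) (nat_lit 1900) (nat_lit 2764234860) (nat_lit 1976) (nat_lit 23402407335) (nat_lit 467) (nat_lit 5) (nat_lit 492) (nat_lit 5) (nat_lit 493) (nat_lit 5) (nat_lit 474) (nat_lit 458) (nat_lit 268)) (XT.lf (nat_lit 0) (nat_lit 6345865978) (nat_lit 1900) (nat_lit 8573951105) (nat_lit 76) (nat_lit 14428345290) (nat_lit 468) (nat_lit 5) (nat_lit 493) (nat_lit 5) (nat_lit 469) (nat_lit 5) (nat_lit 475) (nat_lit 458) (nat_lit 267))))) (XT.nd (nat_lit 312) (nat_lit 3496) (nat_lit 0) (XT.nd (nat_lit 156) (nat_lit 912) (nat_lit 0) (XT.nd (nat_lit 78) (nat_lit 912) (nat_lit 0) (XT.lf (nat_lit 0) (nat_lit 10265449715) (nat_lit 1216) (nat_lit 14461429887) (nat_lit 76) (nat_lit 5093817764) (nat_lit 453) (nat_lit 5) (nat_lit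 469) (nat_lit 5) (nat_lit 454) (nat_lit 5) (nat_lit 476) (nat_lit 458) (nat_lit 266)) (XT.lf (nat_lit 0) (nat_lit 9846255515) (nat_lit 912) (nat_lit 4673781638) (nat_lit 988) (nat_lit 15783023065) (nat_lit 441) (nat_lit 5) (nat_lit 453) (nat_lit 5) (nat_lit 454) (nat_lit 5) (nat_lit 477) (nat_lit 458) (nat_lit 265))) (XT.nd (nat_lit 78) (nat_lit 0) (nat_lit 0) (XT.lf (nat_lit 0) (nat_lit 4229912699) (nat_lit 912) (nat_lit 14897557646) (nat_lit 988) (nat_lit 11667919581) (nat_lit 429) (nat_lit 5) (nat_lit 441) (nat_lit 5) (nat_lit 442) (nat_lit 5) (nat_lit 478) (nat_lit 458) (nat_lit 264)) (XT.lf (nat_lit 0) (nat_lit 24076314972) (nat_lit 988) (nat_lit 1435950512) (nat_lit 76) (nat_lit 5786160400) (nat_lit 429) (nat_lit 5) (nat_lit 442) (nat_lit 5) (nat_lit 430) (nat_lit 5) (nat_lit 479) (nat_lit 458) (nat_lit 263)))) (XT.nd (nat_lit 156) (nat_lit 1672) (nat_lit 0) (XT.nd (nat_lit 78) (nat_lit 988) (nat_lit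 0) (XT.lf (nat_lit 0) (nat_lit 24667110231) (nat_lit 836) (nat_lit 4761880601) (nat_lit 912) (nat_lit 2382454893) (nat_lit 418) (nat_lit 5) (nat_lit 429) (nat_lit 5) (nat_lit 430) (nat_lit 5) (nat_lit 480) (nat_lit 458) (nat_lit 262)) (XT.lf (nat_lit 0) (nat_lit 2808971296) (nat_lit 988) (nat_lit 12978359423) (nat_lit 76) (nat_lit 16547373407) (nat_lit 405) (nat_lit 5) (nat_lit 418) (nat_lit 5) (nat_lit 406) (nat_lit 5) (nat_lit 481) (nat_lit 458) (nat_lit 261))) (XT.nd (nat_lit 78) (nat_lit 836) (nat_lit 0) (XT.lf (nat_lit 0) (nat_lit 8328364277) (nat_lit 912) (nat_lit 18898588713) (nat_lit 76) (nat_lit 5642300597) (nat_lit 394) (nat_lit 5) (nat_lit 406) (nat_lit 5) (nat_lit 395) (nat_lit 5) (nat_lit 482) (nat_lit 458) (nat_lit 260)) (XT.lf (nat_lit 0) (nat_lit 8488641085) (nat_lit 836) (nat_lit 5769769866) (nat_lit 912) (nat_lit 19156527254) (nat_lit 383) (nat_lit 5) (nat_lit 394) (nat_lit 5) (nat_lit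 395) (nat_lit 5) (nat_lit 483) (nat_lit 458) (nat_lit 259))))))))
noncomputable def xc108 : XT := (XT.nd (nat_lit 60606) (nat_lit 0) (nat_lit 11476) (XT.nd (nat_lit 1092) (nat_lit 6156) (nat_lit 0) (XT.nd (nat_lit 546) (nat_lit 3952) (nat_lit 0) (XT.nd (nat_lit 234) (nat_lit 2964) (nat_lit 0) (XT.nd (nat_lit 78) (nat_lit 760) (nat_lit 0) (XT.lf (nat_lit 0) (nat_lit 2908740602) (nat_lit 760) (nat_lit 17707393267) (nat_lit 836) (nat_lit 13355864103) (nat_lit 373) (nat_lit 5) (nat_lit 383) (nat_lit 5) (nat_lit 384) (nat_lit 5) (nat_lit 484) (nat_lit 458) (nat_lit 258)) (XT.nd (nat_lit 78) (nat_lit 760) (nat_lit 0) (XT.lf (nat_lit 0) (nat_lit 27397139366) (nat_lit 836) (nat_lit 2694252561) (nat_lit 76) (nat_lit 4449726693) (nat_lit 373) (nat_lit 5) (nat_lit 384) (nat_lit 5) (nat_lit 374) (nat_lit 5) (nat_lit 485) (nat_lit 458) (nat_lit 257)) (XT.lf (nat_lit 0) (nat_lit 26754136610) (nat_lit 760) (nat_lit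 7915711894) (nat_lit 836) (nat_lit 451699016) (nat_lit 363) (nat_lit 5) (nat_lit 373) (nat_lit 5) (nat_lit 374) (nat_lit 5) (nat_lit 486) (nat_lit 458) (nat_lit 256)))) (XT.nd (nat_lit 156) (nat_lit 1368) (nat_lit 0) (XT.nd (nat_lit 78) (nat_lit 760) (nat_lit 0) (XT.lf (nat_lit 0) (nat_lit 6610202469) (nat_lit 836) (nat_lit 14172095857) (nat_lit 76) (nat_lit 14931187981) (nat_lit 352) (nat_lit 5) (nat_lit 363) (nat_lit 5) (nat_lit 353) (nat_lit 5) (nat_lit 487) (nat_lit 458) (nat_lit 255)) (XT.lf (nat_lit 0) (nat_lit 14104254201) (nat_lit 836) (nat_lit 20040030853) (nat_lit 76) (nat_lit 2174309982) (nat_lit 342) (nat_lit 5) (nat_lit 353) (nat_lit 5) (nat_lit 343) (nat_lit 5) (nat_lit 488) (nat_lit 458) (nat_lit 254))) (XT.nd (nat_lit 78) (nat_lit 684) (nat_lit 0) (XT.lf (nat_lit 0) (nat_lit 10895939184) (nat_lit 684) (nat_lit 11229954409) (nat_lit 760) (nat_lit 14809908203) (nat_lit 333) (nat_lit 5)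 (nat_lit 342) (nat_lit 5) (nat_lit 343) (nat_lit 5) (nat_lit 489) (nat_lit 458) (nat_lit 253)) (XT.lf (nat_lit 0) (nat_lit 5451619719) (nat_lit 684) (nat_lit 25185428058) (nat_lit 760) (nat_lit 6929499759) (nat_lit 324) (nat_lit 5) (nat_lit 333) (nat_lit 5) (nat_lit 334) (nat_lit 5) (nat_lit 490) (nat_lit 458) (nat_lit 252))))) (XT.nd (nat_lit 234) (nat_lit 2508) (nat_lit 0) (XT.nd (nat_lit 78) (nat_lit 1368) (nat_lit 0) (XT.lf (nat_lit 0) (nat_lit 1420972708) (nat_lit 760) (nat_lit 56503339) (nat_lit 76) (nat_lit 36733601033) (nat_lit 323) (nat_lit 5) (nat_lit 333) (nat_lit 5) (nat_lit 324) (nat_lit 5) (nat_lit 491) (nat_lit 458) (nat_lit 251)) (XT.nd (nat_lit 78) (nat_lit 684) (nat_lit 0) (XT.lf (nat_lit 0) (nat_lit 10292179135) (nat_lit 760) (nat_lit 5669712552) (nat_lit 76) (nat_lit 22904847536) (nat_lit 314) (nat_lit 5) (nat_lit 324) (nat_lit 5) (nat_lit 315) (nat_lit 5) (nat_lit 492) (nat_lit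 458) (nat_lit 250)) (XT.lf (nat_lit 0) (nat_lit 19676087268) (nat_lit 760) (nat_lit 11330711990) (nat_lit 76) (nat_lit 8530340741) (nat_lit 305) (nat_lit 5) (nat_lit 315) (nat_lit 5) (nat_lit 306) (nat_lit 5) (nat_lit 493) (nat_lit 458) (nat_lit 249)))) (XT.nd (nat_lit 156) (nat_lit 1292) (nat_lit 0) (XT.nd (nat_lit 78) (nat_lit 608) (nat_lit 0) (XT.lf (nat_lit 0) (nat_lit 23142093063) (nat_lit 608) (nat_lit 6491831182) (nat_lit 684) (nat_lit 10587880399) (nat_lit 297) (nat_lit 5) (nat_lit 305) (nat_lit 5) (nat_lit 306) (nat_lit 5) (nat_lit 494) (nat_lit 458) (nat_lit 248)) (XT.lf (nat_lit 0) (nat_lit 17988332263) (nat_lit 608) (nat_lit 22214842363) (nat_lit 684) (nat_lit 717581111) (nat_lit 289) (nat_lit 5) (nat_lit 297) (nat_lit 5) (nat_lit 298) (nat_lit 5) (nat_lit 495) (nat_lit 458) (nat_lit 247))) (XT.nd (nat_lit 78) (nat_lit 608) (nat_lit 0) (XT.lf (nat_lit 0) (nat_lit 9585288455) (nat_lit 684)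 (nat_lit 28893692320) (nat_lit 76) (nat_lit 3155260011) (nat_lit 280) (nat_lit 5) (nat_lit 289) (nat_lit 5) (nat_lit 281) (nat_lit 5) (nat_lit 496) (nat_lit 458) (nat_lit 246)) (XT.lf (nat_lit 0) (nat_lit 7369898217) (nat_lit 608) (nat_lit 13167401390) (nat_lit 684) (nat_lit 21824739891) (nat_lit 272) (nat_lit 5) (nat_lit 280) (nat_lit 5) (nat_lit 281) (nat_lit 5) (nat_lit 497) (nat_lit 458) (nat_lit 245)))))) (XT.nd (nat_lit 546) (nat_lit 2812) (nat_lit 0) (XT.nd (nat_lit 234) (nat_lit 2128) (nat_lit 0) (XT.nd (nat_lit 78) (nat_lit 684) (nat_lit 0) (XT.lf (nat_lit 0) (nat_lit 1945632716) (nat_lit 532) (nat_lit 30162709180) (nat_lit 608) (nat_lit 10997520927) (nat_lit 265) (nat_lit 5) (nat_lit 272) (nat_lit 5) (nat_lit 273) (nat_lit 5) (nat_lit 498) (nat_lit 458) (nat_lit 244)) (XT.nd (nat_lit 78) (nat_lit 608) (nat_lit 0) (XT.lf (nat_lit 0) (nat_lit 476246559) (nat_lit 608) (nat_lit 3491297316) (nat_lit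 76) (nat_lit 39897961804) (nat_lit 264) (nat_lit 5) (nat_lit 272) (nat_lit 5) (nat_lit 265) (nat_lit 5) (nat_lit 499) (nat_lit 458) (nat_lit 243)) (XT.lf (nat_lit 0) (nat_lit 12525980041) (nat_lit 684) (nat_lit 9094785865) (nat_lit 76) (nat_lit 23018094782) (nat_lit 256) (nat_lit 5) (nat_lit 265) (nat_lit 5) (nat_lit 257) (nat_lit 5) (nat_lit 500) (nat_lit 458) (nat_lit 242)))) (XT.nd (nat_lit 156) (nat_lit 1064) (nat_lit 0) (XT.nd (nat_lit 78) (nat_lit 532) (nat_lit 0) (XT.lf (nat_lit 0) (nat_lit 25220311929) (nat_lit 608) (nat_lit 14730549397) (nat_lit 76) (nat_lit 5478892952) (nat_lit 249) (nat_lit 5) (nat_lit 257) (nat_lit 5) (nat_lit 250) (nat_lit 5) (nat_lit 501) (nat_lit 458) (nat_lit 241)) (XT.lf (nat_lit 0) (nat_lit 25757391624) (nat_lit 532) (nat_lit 12909148736) (nat_lit 608) (nat_lit 7570413043) (nat_lit 242) (nat_lit 5) (nat_lit 249) (nat_lit 5) (nat_lit 250) (nat_lit 5) (nat_lit 502) (nat_lit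 458) (nat_lit 240))) (XT.nd (nat_lit 78) (nat_lit 532) (nat_lit 0) (XT.lf (nat_lit 0) (nat_lit 5708111875) (nat_lit 532) (nat_lit 26333208441) (nat_lit 76) (nat_lit 15019705362) (nat_lit 235) (nat_lit 5) (nat_lit 242) (nat_lit 5) (nat_lit 236) (nat_lit 5) (nat_lit 503) (nat_lit 458) (nat_lit 239)) (XT.lf (nat_lit 0) (nat_lit 15607773209) (nat_lit 532) (nat_lit 3999609788) (nat_lit 608) (nat_lit 28294931513) (nat_lit 228) (nat_lit 5) (nat_lit 235) (nat_lit 5) (nat_lit 236) (nat_lit 5) (nat_lit 504) (nat_lit 458) (nat_lit 238))))) (XT.nd (nat_lit 312) (nat_lit 1368) (nat_lit 0) (XT.nd (nat_lit 156) (nat_lit 456) (nat_lit 0) (XT.nd (nat_lit 78) (nat_lit 532) (nat_lit 0) (XT.lf (nat_lit 0) (nat_lit 10371713677) (nat_lit 456) (nat_lit 23957785919) (nat_lit 532) (nat_lit 14431225118) (nat_lit 222) (nat_lit 5) (nat_lit 228) (nat_lit 5) (nat_lit 229) (nat_lit 5) (nat_lit 505) (nat_lit 458) (nat_lit 237)) (XT.lf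 (nat_lit 0) (nat_lit 160917772) (nat_lit 532) (nat_lit 44515793473) (nat_lit 76) (nat_lit 4961984977) (nat_lit 215) (nat_lit 5) (nat_lit 222) (nat_lit 5) (nat_lit 216) (nat_lit 5) (nat_lit 506) (nat_lit 458) (nat_lit 236))) (XT.nd (nat_lit 78) (nat_lit 456) (nat_lit 0) (XT.lf (nat_lit 0) (nat_lit 15415379907) (nat_lit 532) (nat_lit 334297347) (nat_lit 76) (nat_lit 34783009488) (nat_lit 215) (nat_lit 5) (nat_lit 222) (nat_lit 5) (nat_lit 216) (nat_lit 5) (nat_lit 507) (nat_lit 458) (nat_lit 235)) (XT.lf (nat_lit 0) (nat_lit 31515293145) (nat_lit 532) (nat_lit 5771425801) (nat_lit 76) (nat_lit 14159021732) (nat_lit 209) (nat_lit 5) (nat_lit 216) (nat_lit 5) (nat_lit 210) (nat_lit 5) (nat_lit 508) (nat_lit 458) (nat_lit 234)))) (XT.nd (nat_lit 156) (nat_lit 456) (nat_lit 0) (XT.nd (nat_lit 78) (nat_lit 456) (nat_lit 0) (XT.lf (nat_lit 0) (nat_lit 41111899232) (nat_lit 456) (nat_lit 7358379445) (nat_lit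 532) (nat_lit 3908466105) (nat_lit 203) (nat_lit 5) (nat_lit 209) (nat_lit 5) (nat_lit 210) (nat_lit 5) (nat_lit 509) (nat_lit 458) (nat_lit 233)) (XT.lf (nat_lit 0) (nat_lit 12857890724) (nat_lit 456) (nat_lit 16951993956) (nat_lit 76) (nat_lit 23519641160) (nat_lit 197) (nat_lit 5) (nat_lit 203) (nat_lit 5) (nat_lit 198) (nat_lit 5) (nat_lit 510) (nat_lit 458) (nat_lit 232))) (XT.nd (nat_lit 58422) (nat_lit 0) (nat_lit 22040) (XT.lf (nat_lit 0) (nat_lit 30411493222) (nat_lit 532) (nat_lit 22676052733) (nat_lit 76) (nat_lit 1214020605) (nat_lit 191) (nat_lit 5) (nat_lit 198) (nat_lit 5) (nat_lit 192) (nat_lit 5) (nat_lit 511) (nat_lit 458) (nat_lit 231)) (XT.lf (nat_lit 0) (nat_lit 1049675828) (nat_lit 1900) (nat_lit 5301148626) (nat_lit 1900) (nat_lit 5301148626) (nat_lit 481) (nat_lit 3) (nat_lit 506) (nat_lit 3) (nat_lit 506) (nat_lit 5) (nat_lit 459) (nat_lit 459) (nat_lit 282))))))) (XT.nd (nat_lit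 1170) (nat_lit 10640) (nat_lit 0) (XT.nd (nat_lit 546) (nat_lit 0) (nat_lit 380) (XT.nd (nat_lit 234) (nat_lit 0) (nat_lit 152) (XT.nd (nat_lit 78) (nat_lit 0) (nat_lit 0) (XT.lf (nat_lit 0) (nat_lit 2387145415) (nat_lit 1824) (nat_lit 16783125146) (nat_lit 1900) (nat_lit 4478103215) (nat_lit 482) (nat_lit 5) (nat_lit 506) (nat_lit 5) (nat_lit 507) (nat_lit 5) (nat_lit 460) (nat_lit 459) (nat_lit 281)) (XT.nd (nat_lit 78) (nat_lit 0) (nat_lit 76) (XT.lf (nat_lit 76) (nat_lit 923101283) (nat_lit 0) (nat_lit 1916619738) (nat_lit 1900) (nat_lit 21160290451) (nat_lit 483) (nat_lit 5) (nat_lit 482) (nat_lit 5) (nat_lit 507) (nat_lit 5) (nat_lit 461) (nat_lit 459) (nat_lit 280)) (XT.lf (nat_lit 0) (nat_lit 3516389391) (nat_lit 1824) (nat_lit 5077305563) (nat_lit 1900) (nat_lit 15764293243) (nat_lit 483) (nat_lit 5) (nat_lit 507) (nat_lit 5) (nat_lit 508) (nat_lit 5) (nat_lit 462) (nat_lit 459) (nat_lit 279))))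 (XT.nd (nat_lit 156) (nat_lit 0) (nat_lit 76) (XT.nd (nat_lit 78) (nat_lit 0) (nat_lit 76) (XT.lf (nat_lit 0) (nat_lit 4368418434) (nat_lit 1824) (nat_lit 11160965528) (nat_lit 1900) (nat_lit 9194219253) (nat_lit 484) (nat_lit 5) (nat_lit 508) (nat_lit 5) (nat_lit 509) (nat_lit 5) (nat_lit 463) (nat_lit 459) (nat_lit 278)) (XT.lf (nat_lit 0) (nat_lit 5397576615) (nat_lit 1824) (nat_lit 17340875814) (nat_lit 1900) (nat_lit 2358703085) (nat_lit 485) (nat_lit 5) (nat_lit 509) (nat_lit 5) (nat_lit 510) (nat_lit 5) (nat_lit 464) (nat_lit 459) (nat_lit 277))) (XT.nd (nat_lit 78) (nat_lit 0) (nat_lit 76) (XT.lf (nat_lit 76) (nat_lit 1829062564) (nat_lit 0) (nat_lit 4814072164) (nat_lit 1900) (nat_lit 18835069341) (nat_lit 486) (nat_lit 5) (nat_lit 485) (nat_lit 5) (nat_lit 510) (nat_lit 5) (nat_lit 465) (nat_lit 459) (nat_lit 276)) (XT.lf (nat_lit 0) (nat_lit 8126797514) (nat_lit 1824) (nat_lit 4150320878)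 (nat_lit 1900) (nat_lit 13589551116) (nat_lit 486) (nat_lit 5) (nat_lit 510) (nat_lit 5) (nat_lit 511) (nat_lit 5) (nat_lit 466) (nat_lit 459) (nat_lit 275))))) (XT.nd (nat_lit 312) (nat_lit 0) (nat_lit 228) (XT.nd (nat_lit 156) (nat_lit 0) (nat_lit 76) (XT.nd (nat_lit 78) (nat_lit 0) (nat_lit 0) (XT.lf (nat_lit 0) (nat_lit 9826823439) (nat_lit 1824) (nat_lit 10196629472) (nat_lit 1900) (nat_lit 6239899115) (nat_lit 487) (nat_lit 5) (nat_lit 511) (nat_lit 5) (nat_lit 512) (nat_lit 5) (nat_lit 467) (nat_lit 459) (nat_lit 274)) (XT.lf (nat_lit 76) (nat_lit 10324830599) (nat_lit 0) (nat_lit 1424649308) (nat_lit 1900) (nat_lit 14919022691) (nat_lit 488) (nat_lit 5) (nat_lit 487) (nat_lit 5) (nat_lit 512) (nat_lit 5) (nat_lit 468) (nat_lit 459) (nat_lit 273))) (XT.nd (nat_lit 78) (nat_lit 0) (nat_lit 76) (XT.lf (nat_lit 76) (nat_lit 4455867498) (nat_lit 0) (nat_lit 9481897429) (nat_lit 1900) (nat_lit 13143883953)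 (nat_lit 489) (nat_lit 5) (nat_lit 488) (nat_lit 5) (nat_lit 513) (nat_lit 5) (nat_lit 469) (nat_lit 459) (nat_lit 272)) (XT.lf (nat_lit 0) (nat_lit 16369906648) (nat_lit 1824) (nat_lit 1478961510) (nat_lit 1900) (nat_lit 9654757394) (nat_lit 489) (nat_lit 5) (nat_lit 513) (nat_lit 5) (nat_lit 514) (nat_lit 5) (nat_lit 470) (nat_lit 459) (nat_lit 271)))) (XT.nd (nat_lit 156) (nat_lit 0) (nat_lit 76) (XT.nd (nat_lit 78) (nat_lit 0) (nat_lit 0) (XT.lf (nat_lit 0) (nat_lit 19075525996) (nat_lit 1824) (nat_lit 7440009920) (nat_lit 1900) (nat_lit 1418715502) (nat_lit 490) (nat_lit 5) (nat_lit 514) (nat_lit 5) (nat_lit 515) (nat_lit 5) (nat_lit 471) (nat_lit 459) (nat_lit 270)) (XT.lf (nat_lit 76) (nat_lit 14840444615) (nat_lit 0) (nat_lit 7242459671) (nat_lit 1900) (nat_lit 6290480120) (nat_lit 491) (nat_lit 5) (nat_lit 490) (nat_lit 5) (nat_lit 515) (nat_lit 5) (nat_lit 472) (nat_lit 459) (nat_lit 269)))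 (XT.nd (nat_lit 78) (nat_lit 0) (nat_lit 76) (XT.lf (nat_lit 76) (nat_lit 9099519495) (nat_lit 0) (nat_lit 16267597018) (nat_lit 1900) (nat_lit 3454842771) (nat_lit 492) (nat_lit 5) (nat_lit 491) (nat_lit 5) (nat_lit 516) (nat_lit 5) (nat_lit 473) (nat_lit 459) (nat_lit 268)) (XT.lf (nat_lit 76) (nat_lit 3281074221) (nat_lit 0) (nat_lit 25648694628) (nat_lit 1900) (nat_lit 350624431) (nat_lit 493) (nat_lit 5) (nat_lit 492) (nat_lit 5) (nat_lit 517) (nat_lit 5) (nat_lit 474) (nat_lit 459) (nat_lit 267)))))) (XT.nd (nat_lit 546) (nat_lit 5776) (nat_lit 0) (XT.nd (nat_lit 234) (nat_lit 2660) (nat_lit 0) (XT.nd (nat_lit 78) (nat_lit 1064) (nat_lit 0) (XT.lf (nat_lit 0) (nat_lit 3047836034) (nat_lit 1900) (nat_lit 2637536609) (nat_lit 1976) (nat_lit 24062069119) (nat_lit 467) (nat_lit 5) (nat_lit 492) (nat_lit 5) (nat_lit 493) (nat_lit 5) (nat_lit 475) (nat_lit 459) (nat_lit 266)) (XT.nd (nat_lit 78) (nat_lit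 1140) (nat_lit 0) (XT.lf (nat_lit 0) (nat_lit 6777243843) (nat_lit 1900) (nat_lit 8619886537) (nat_lit 76) (nat_lit 14826649959) (nat_lit 468) (nat_lit 5) (nat_lit 493) (nat_lit 5) (nat_lit 469) (nat_lit 5) (nat_lit 476) (nat_lit 459) (nat_lit 265)) (XT.lf (nat_lit 0) (nat_lit 10808566757) (nat_lit 1216) (nat_lit 14682525796) (nat_lit 76) (nat_lit 5219515995) (nat_lit 453) (nat_lit 5) (nat_lit 469) (nat_lit 5) (nat_lit 454) (nat_lit 5) (nat_lit 477) (nat_lit 459) (nat_lit 264)))) (XT.nd (nat_lit 156) (nat_lit 836) (nat_lit 0) (XT.nd (nat_lit 78) (nat_lit 912) (nat_lit 0) (XT.lf (nat_lit 0) (nat_lit 10350938601) (nat_lit 912) (nat_lit 4834362970) (nat_lit 988) (nat_lit 16022250714) (nat_lit 441) (nat_lit 5) (nat_lit 453) (nat_lit 5) (nat_lit 454) (nat_lit 5) (nat_lit 478) (nat_lit 459) (nat_lit 263)) (XT.lf (nat_lit 0) (nat_lit 4567365142) (nat_lit 912) (nat_lit 15358142067) (nat_lit 988) (nat_lit 11789253875)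 (nat_lit 429) (nat_lit 5) (nat_lit 441) (nat_lit 5) (nat_lit 442) (nat_lit 5) (nat_lit 479) (nat_lit 459) (nat_lit 262))) (XT.nd (nat_lit 78) (nat_lit 836) (nat_lit 0) (XT.lf (nat_lit 0) (nat_lit 25016200614) (nat_lit 988) (nat_lit 1270160797) (nat_lit 76) (nat_lit 5946659223) (nat_lit 429) (nat_lit 5) (nat_lit 442) (nat_lit 5) (nat_lit 430) (nat_lit 5) (nat_lit 480) (nat_lit 459) (nat_lit 261)) (XT.lf (nat_lit 0) (nat_lit 25612603129) (nat_lit 836) (nat_lit 4911849978) (nat_lit 912) (nat_lit 2237078215) (nat_lit 418) (nat_lit 5) (nat_lit 429) (nat_lit 5) (nat_lit 430) (nat_lit 5) (nat_lit 481) (nat_lit 459) (nat_lit 260))))) (XT.nd (nat_lit 312) (nat_lit 2356) (nat_lit 0) (XT.nd (nat_lit 156) (nat_lit 1596) (nat_lit 0) (XT.nd (nat_lit 78) (nat_lit 836) (nat_lit 0) (XT.lf (nat_lit 0) (nat_lit 3102317232) (nat_lit 988) (nat_lit 13158545986) (nat_lit 76) (nat_lit 17039694856) (nat_lit 405) (nat_lit 5)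 (nat_lit 418) (nat_lit 5) (nat_lit 406) (nat_lit 5) (nat_lit 482) (nat_lit 459) (nat_lit 259)) (XT.lf (nat_lit 0) (nat_lit 8782547786) (nat_lit 912) (nat_lit 19255693056) (nat_lit 76) (nat_lit 5812998226) (nat_lit 394) (nat_lit 5) (nat_lit 406) (nat_lit 5) (nat_lit 395) (nat_lit 5) (nat_lit 483) (nat_lit 459) (nat_lit 258))) (XT.nd (nat_lit 78) (nat_lit 760) (nat_lit 0) (XT.lf (nat_lit 0) (nat_lit 8949749015) (nat_lit 836) (nat_lit 5936135813) (nat_lit 912) (nat_lit 19527501777) (nat_lit 383) (nat_lit 5) (nat_lit 394) (nat_lit 5) (nat_lit 395) (nat_lit 5) (nat_lit 484) (nat_lit 459) (nat_lit 257)) (XT.lf (nat_lit 0) (nat_lit 3202994019) (nat_lit 760) (nat_lit 18226914611) (nat_lit 836) (nat_lit 13557338306) (nat_lit 373) (nat_lit 5) (nat_lit 383) (nat_lit 5) (nat_lit 384) (nat_lit 5) (nat_lit 485) (nat_lit 459) (nat_lit 256)))) (XT.nd (nat_lit 156) (nat_lit 1596) (nat_lit 0) (XT.nd (nat_lit 78) (nat_lit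 760) (nat_lit 0) (XT.lf (nat_lit 0) (nat_lit 28408729967) (nat_lit 836) (nat_lit 2570394500) (nat_lit 76) (nat_lit 4594429174) (nat_lit 373) (nat_lit 5) (nat_lit 384) (nat_lit 5) (nat_lit 374) (nat_lit 5) (nat_lit 486) (nat_lit 459) (nat_lit 255)) (XT.lf (nat_lit 0) (nat_lit 27758125565) (nat_lit 760) (nat_lit 8137277652) (nat_lit 836) (nat_lit 276076680) (nat_lit 363) (nat_lit 5) (nat_lit 373) (nat_lit 5) (nat_lit 374) (nat_lit 5) (nat_lit 487) (nat_lit 459) (nat_lit 254))) (XT.nd (nat_lit 78) (nat_lit 760) (nat_lit 0) (XT.lf (nat_lit 0) (nat_lit 6991182012) (nat_lit 836) (nat_lit 14393176318) (nat_lit 76) (nat_lit 15396874467) (nat_lit 352) (nat_lit 5) (nat_lit 363) (nat_lit 5) (nat_lit 353) (nat_lit 5) (nat_lit 488) (nat_lit 459) (nat_lit 253)) (XT.lf (nat_lit 0) (nat_lit 14706181836) (nat_lit 836) (nat_lit 20437026320) (nat_lit 76) (nat_lit 2261364236) (nat_lit 342) (nat_lit 5) (nat_lit 353) (nat_lit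 5) (nat_lit 343) (nat_lit 5) (nat_lit 489) (nat_lit 459) (nat_lit 252))))))))
noncomputable def xc109 : XT := (XT.nd (nat_lit 60684) (nat_lit 0) (nat_lit 7600) (XT.nd (nat_lit 1092) (nat_lit 3420) (nat_lit 0) (XT.nd (nat_lit 546) (nat_lit 3572) (nat_lit 0) (XT.nd (nat_lit 234) (nat_lit 1900) (nat_lit 0) (XT.nd (nat_lit 78) (nat_lit 1444) (nat_lit 0) (XT.lf (nat_lit 0) (nat_lit 11423709827) (nat_lit 684) (nat_lit 11540857143) (nat_lit 760) (nat_lit 15075806585) (nat_lit 333) (nat_lit 5) (nat_lit 342) (nat_lit 5) (nat_lit 343) (nat_lit 5) (nat_lit 490) (nat_lit 459) (nat_lit 251)) (XT.nd (nat_lit 78) (nat_lit 760) (nat_lit 0) (XT.lf (nat_lit 0) (nat_lit 5816080967) (nat_lit 684) (nat_lit 25911349063) (nat_lit 760) (nat_lit 6962684279) (nat_lit 324) (nat_lit 5) (nat_lit 333) (nat_lit 5) (nat_lit 334) (nat_lit 5) (nat_lit 491) (nat_lit 459) (nat_lit 250)) (XT.lf (nat_lit 0) (nat_lit 140939363) (nat_lit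 684) (nat_lit 1490965214) (nat_lit 760) (nat_lit 37722134729) (nat_lit 314) (nat_lit 5) (nat_lit 323) (nat_lit 5) (nat_lit 324) (nat_lit 5) (nat_lit 492) (nat_lit 459) (nat_lit 249)))) (XT.nd (nat_lit 156) (nat_lit 1216) (nat_lit 0) (XT.nd (nat_lit 78) (nat_lit 684) (nat_lit 0) (XT.lf (nat_lit 0) (nat_lit 10764913742) (nat_lit 760) (nat_lit 5642632825) (nat_lit 76) (nat_lit 23621911532) (nat_lit 314) (nat_lit 5) (nat_lit 324) (nat_lit 5) (nat_lit 315) (nat_lit 5) (nat_lit 493) (nat_lit 459) (nat_lit 248)) (XT.lf (nat_lit 0) (nat_lit 20427040343) (nat_lit 760) (nat_lit 11473665886) (nat_lit 76) (nat_lit 8819330760) (nat_lit 305) (nat_lit 5) (nat_lit 315) (nat_lit 5) (nat_lit 306) (nat_lit 5) (nat_lit 494) (nat_lit 459) (nat_lit 247))) (XT.nd (nat_lit 78) (nat_lit 608) (nat_lit 0) (XT.lf (nat_lit 0) (nat_lit 24030127756) (nat_lit 608) (nat_lit 6650063046) (nat_lit 684) (nat_lit 10745119314) (nat_lit 297)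 (nat_lit 5) (nat_lit 305) (nat_lit 5) (nat_lit 306) (nat_lit 5) (nat_lit 495) (nat_lit 459) (nat_lit 246)) (XT.lf (nat_lit 0) (nat_lit 18721474712) (nat_lit 608) (nat_lit 22841950427) (nat_lit 684) (nat_lit 581866582) (nat_lit 289) (nat_lit 5) (nat_lit 297) (nat_lit 5) (nat_lit 298) (nat_lit 5) (nat_lit 496) (nat_lit 459) (nat_lit 245))))) (XT.nd (nat_lit 234) (nat_lit 1748) (nat_lit 0) (XT.nd (nat_lit 78) (nat_lit 1140) (nat_lit 0) (XT.lf (nat_lit 0) (nat_lit 10025018913) (nat_lit 684) (nat_lit 29565338748) (nat_lit 76) (nat_lit 3289863501) (nat_lit 280) (nat_lit 5) (nat_lit 289) (nat_lit 5) (nat_lit 281) (nat_lit 5) (nat_lit 497) (nat_lit 459) (nat_lit 244)) (XT.nd (nat_lit 78) (nat_lit 532) (nat_lit 0) (XT.lf (nat_lit 0) (nat_lit 7782993195) (nat_lit 608) (nat_lit 13519411595) (nat_lit 684) (nat_lit 22327512858) (nat_lit 272) (nat_lit 5) (nat_lit 280) (nat_lit 5) (nat_lit 281) (nat_lit 5) (nat_lit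 498) (nat_lit 459) (nat_lit 243)) (XT.lf (nat_lit 0) (nat_lit 2195544697) (nat_lit 532) (nat_lit 31022208998) (nat_lit 608) (nat_lit 11178358567) (nat_lit 265) (nat_lit 5) (nat_lit 272) (nat_lit 5) (nat_lit 273) (nat_lit 5) (nat_lit 499) (nat_lit 459) (nat_lit 242)))) (XT.nd (nat_lit 156) (nat_lit 1064) (nat_lit 0) (XT.nd (nat_lit 78) (nat_lit 608) (nat_lit 0) (XT.lf (nat_lit 0) (nat_lit 633381211) (nat_lit 608) (nat_lit 3408170733) (nat_lit 76) (nat_lit 41137058901) (nat_lit 264) (nat_lit 5) (nat_lit 272) (nat_lit 5) (nat_lit 265) (nat_lit 5) (nat_lit 500) (nat_lit 459) (nat_lit 241)) (XT.lf (nat_lit 0) (nat_lit 13041937777) (nat_lit 684) (nat_lit 9180302852) (nat_lit 76) (nat_lit 23752979341) (nat_lit 256) (nat_lit 5) (nat_lit 265) (nat_lit 5) (nat_lit 257) (nat_lit 5) (nat_lit 501) (nat_lit 459) (nat_lit 240))) (XT.nd (nat_lit 78) (nat_lit 532) (nat_lit 0) (XT.lf (nat_lit 0) (nat_lit 26114518400)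 (nat_lit 608) (nat_lit 14985734843) (nat_lit 76) (nat_lit 5689638837) (nat_lit 249) (nat_lit 5) (nat_lit 257) (nat_lit 5) (nat_lit 250) (nat_lit 5) (nat_lit 502) (nat_lit 459) (nat_lit 239)) (XT.lf (nat_lit 0) (nat_lit 26713814920) (nat_lit 532) (nat_lit 13247503794) (nat_lit 608) (nat_lit 7660044849) (nat_lit 242) (nat_lit 5) (nat_lit 249) (nat_lit 5) (nat_lit 250) (nat_lit 5) (nat_lit 503) (nat_lit 459) (nat_lit 238)))))) (XT.nd (nat_lit 546) (nat_lit 456) (nat_lit 0) (XT.nd (nat_lit 234) (nat_lit 1444) (nat_lit 0) (XT.nd (nat_lit 78) (nat_lit 988) (nat_lit 0) (XT.lf (nat_lit 0) (nat_lit 6012587811) (nat_lit 532) (nat_lit 26938368030) (nat_lit 76) (nat_lit 15519233290) (nat_lit 235) (nat_lit 5) (nat_lit 242) (nat_lit 5) (nat_lit 236) (nat_lit 5) (nat_lit 504) (nat_lit 459) (nat_lit 237)) (XT.nd (nat_lit 78) (nat_lit 456) (nat_lit 0) (XT.lf (nat_lit 0) (nat_lit 16257844314) (nat_lit 532) (nat_lit 4068292804)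 (nat_lit 608) (nat_lit 29010633586) (nat_lit 228) (nat_lit 5) (nat_lit 235) (nat_lit 5) (nat_lit 236) (nat_lit 5) (nat_lit 505) (nat_lit 459) (nat_lit 236)) (XT.lf (nat_lit 0) (nat_lit 10863996032) (nat_lit 456) (nat_lit 24623618690) (nat_lit 532) (nat_lit 14733364618) (nat_lit 222) (nat_lit 5) (nat_lit 228) (nat_lit 5) (nat_lit 229) (nat_lit 5) (nat_lit 506) (nat_lit 459) (nat_lit 235)))) (XT.nd (nat_lit 156) (nat_lit 912) (nat_lit 0) (XT.nd (nat_lit 78) (nat_lit 0) (nat_lit 0) (XT.lf (nat_lit 0) (nat_lit 292582038) (nat_lit 532) (nat_lit 45669199410) (nat_lit 76) (nat_lit 5163536535) (nat_lit 215) (nat_lit 5) (nat_lit 222) (nat_lit 5) (nat_lit 216) (nat_lit 5) (nat_lit 507) (nat_lit 459) (nat_lit 234)) (XT.lf (nat_lit 0) (nat_lit 16000983763) (nat_lit 532) (nat_lit 167561347) (nat_lit 76) (nat_lit 35877657062) (nat_lit 215) (nat_lit 5) (nat_lit 222) (nat_lit 5) (nat_lit 216) (nat_lit 5) (nat_lit 508)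 (nat_lit 459) (nat_lit 233))) (XT.nd (nat_lit 78) (nat_lit 456) (nat_lit 0) (XT.lf (nat_lit 0) (nat_lit 32581782270) (nat_lit 532) (nat_lit 5768600995) (nat_lit 76) (nat_lit 14636306774) (nat_lit 209) (nat_lit 5) (nat_lit 216) (nat_lit 5) (nat_lit 210) (nat_lit 5) (nat_lit 509) (nat_lit 459) (nat_lit 232)) (XT.lf (nat_lit 0) (nat_lit 42518368925) (nat_lit 456) (nat_lit 7524647250) (nat_lit 532) (nat_lit 3904716179) (nat_lit 203) (nat_lit 5) (nat_lit 209) (nat_lit 5) (nat_lit 210) (nat_lit 5) (nat_lit 510) (nat_lit 459) (nat_lit 231))))) (XT.nd (nat_lit 58734) (nat_lit 0) (nat_lit 21736) (XT.nd (nat_lit 58578) (nat_lit 0) (nat_lit 21660) (XT.nd (nat_lit 58500) (nat_lit 0) (nat_lit 21584) (XT.lf (nat_lit 0) (nat_lit 13361037963) (nat_lit 456) (nat_lit 17286698961) (nat_lit 76) (nat_lit 24279324397) (nat_lit 197) (nat_lit 5) (nat_lit 203) (nat_lit 5) (nat_lit 198) (nat_lit 5) (nat_lit 511) (nat_lit 459)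 (nat_lit 230)) (XT.lf (nat_lit 0) (nat_lit 1261489325) (nat_lit 1900) (nat_lit 5368215514) (nat_lit 1900) (nat_lit 5368215514) (nat_lit 481) (nat_lit 3) (nat_lit 506) (nat_lit 3) (nat_lit 506) (nat_lit 5) (nat_lit 460) (nat_lit 460) (nat_lit 280))) (XT.nd (nat_lit 78) (nat_lit 0) (nat_lit 0) (XT.lf (nat_lit 0) (nat_lit 2808970680) (nat_lit 1824) (nat_lit 17097524820) (nat_lit 1900) (nat_lit 4444314675) (nat_lit 482) (nat_lit 5) (nat_lit 506) (nat_lit 5) (nat_lit 507) (nat_lit 5) (nat_lit 461) (nat_lit 460) (nat_lit 279)) (XT.lf (nat_lit 76) (nat_lit 1136820574) (nat_lit 0) (nat_lit 2129310468) (nat_lit 1900) (nat_lit 21447046118) (nat_lit 483) (nat_lit 5) (nat_lit 482) (nat_lit 5) (nat_lit 507) (nat_lit 5) (nat_lit 462) (nat_lit 460) (nat_lit 278)))) (XT.nd (nat_lit 156) (nat_lit 0) (nat_lit 152) (XT.nd (nat_lit 78) (nat_lit 0) (nat_lit 76) (XT.lf (nat_lit 0) (nat_lit 3952182801) (nat_lit 1824) (nat_lit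 5041402867) (nat_lit 1900) (nat_lit 16088526152) (nat_lit 483) (nat_lit 5) (nat_lit 507) (nat_lit 5) (nat_lit 508) (nat_lit 5) (nat_lit 463) (nat_lit 460) (nat_lit 277)) (XT.lf (nat_lit 0) (nat_lit 4820466864) (nat_lit 1824) (nat_lit 11303291293) (nat_lit 1900) (nat_lit 9335123539) (nat_lit 484) (nat_lit 5) (nat_lit 508) (nat_lit 5) (nat_lit 509) (nat_lit 5) (nat_lit 464) (nat_lit 460) (nat_lit 276))) (XT.nd (nat_lit 78) (nat_lit 0) (nat_lit 0) (XT.lf (nat_lit 0) (nat_lit 5871578159) (nat_lit 1824) (nat_lit 17664653270) (nat_lit 1900) (nat_lit 2307587850) (nat_lit 485) (nat_lit 5) (nat_lit 509) (nat_lit 5) (nat_lit 510) (nat_lit 5) (nat_lit 465) (nat_lit 460) (nat_lit 275)) (XT.lf (nat_lit 76) (nat_lit 2077196111) (nat_lit 0) (nat_lit 5069472147) (nat_lit 1900) (nat_lit 19089788003) (nat_lit 486) (nat_lit 5) (nat_lit 485) (nat_lit 5) (nat_lit 510) (nat_lit 5) (nat_lit 466) (nat_lit 460) (nat_lit 274)))))))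 (XT.nd (nat_lit 1170) (nat_lit 10032) (nat_lit 0) (XT.nd (nat_lit 546) (nat_lit 4332) (nat_lit 0) (XT.nd (nat_lit 234) (nat_lit 0) (nat_lit 152) (XT.nd (nat_lit 78) (nat_lit 0) (nat_lit 76) (XT.lf (nat_lit 0) (nat_lit 8665280028) (nat_lit 1824) (nat_lit 4080581823) (nat_lit 1900) (nat_lit 13890905296) (nat_lit 486) (nat_lit 5) (nat_lit 510) (nat_lit 5) (nat_lit 511) (nat_lit 5) (nat_lit 467) (nat_lit 460) (nat_lit 273)) (XT.nd (nat_lit 78) (nat_lit 0) (nat_lit 0) (XT.lf (nat_lit 0) (nat_lit 10408339740) (nat_lit 1824) (nat_lit 10305050935) (nat_lit 1900) (nat_lit 6332119063) (nat_lit 487) (nat_lit 5) (nat_lit 511) (nat_lit 5) (nat_lit 512) (nat_lit 5) (nat_lit 468) (nat_lit 460) (nat_lit 272)) (XT.lf (nat_lit 76) (nat_lit 10828849101) (nat_lit 0) (nat_lit 1552737331) (nat_lit 1900) (nat_lit 15081370437) (nat_lit 488) (nat_lit 5) (nat_lit 487) (nat_lit 5) (nat_lit 512) (nat_lit 5) (nat_lit 469) (nat_lit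 460) (nat_lit 271)))) (XT.nd (nat_lit 156) (nat_lit 0) (nat_lit 152) (XT.nd (nat_lit 78) (nat_lit 0) (nat_lit 76) (XT.lf (nat_lit 76) (nat_lit 4786720339) (nat_lit 0) (nat_lit 9841397534) (nat_lit 1900) (nat_lit 13260527953) (nat_lit 489) (nat_lit 5) (nat_lit 488) (nat_lit 5) (nat_lit 513) (nat_lit 5) (nat_lit 470) (nat_lit 460) (nat_lit 270)) (XT.lf (nat_lit 0) (nat_lit 17124822068) (nat_lit 1824) (nat_lit 1326129805) (nat_lit 1900) (nat_lit 9872498197) (nat_lit 489) (nat_lit 5) (nat_lit 513) (nat_lit 5) (nat_lit 514) (nat_lit 5) (nat_lit 471) (nat_lit 460) (nat_lit 269))) (XT.nd (nat_lit 78) (nat_lit 0) (nat_lit 0) (XT.lf (nat_lit 0) (nat_lit 19904773968) (nat_lit 1824) (nat_lit 7463641894) (nat_lit 1900) (nat_lit 1398715799) (nat_lit 490) (nat_lit 5) (nat_lit 514) (nat_lit 5) (nat_lit 515) (nat_lit 5) (nat_lit 472) (nat_lit 460) (nat_lit 268)) (XT.lf (nat_lit 76) (nat_lit 15481988518) (nat_lit 0)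 (nat_lit 7514174880) (nat_lit 1900) (nat_lit 6223399669) (nat_lit 491) (nat_lit 5) (nat_lit 490) (nat_lit 5) (nat_lit 515) (nat_lit 5) (nat_lit 473) (nat_lit 460) (nat_lit 267))))) (XT.nd (nat_lit 312) (nat_lit 2888) (nat_lit 0) (XT.nd (nat_lit 156) (nat_lit 1824) (nat_lit 0) (XT.nd (nat_lit 78) (nat_lit 0) (nat_lit 76) (XT.lf (nat_lit 76) (nat_lit 9570939531) (nat_lit 0) (nat_lit 16801603616) (nat_lit 1900) (nat_lit 3309179437) (nat_lit 492) (nat_lit 5) (nat_lit 491) (nat_lit 5) (nat_lit 516) (nat_lit 5) (nat_lit 474) (nat_lit 460) (nat_lit 266)) (XT.lf (nat_lit 76) (nat_lit 3579831271) (nat_lit 0) (nat_lit 26456135765) (nat_lit 1900) (nat_lit 118064935) (nat_lit 493) (nat_lit 5) (nat_lit 492) (nat_lit 5) (nat_lit 517) (nat_lit 5) (nat_lit 475) (nat_lit 460) (nat_lit 265))) (XT.nd (nat_lit 78) (nat_lit 0) (nat_lit 76) (XT.lf (nat_lit 0) (nat_lit 3372174236) (nat_lit 1900) (nat_lit 2519070760) (nat_lit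 1976) (nat_lit 24743955290) (nat_lit 467) (nat_lit 5) (nat_lit 492) (nat_lit 5) (nat_lit 493) (nat_lit 5) (nat_lit 476) (nat_lit 460) (nat_lit 264)) (XT.lf (nat_lit 0) (nat_lit 7207728549) (nat_lit 1900) (nat_lit 8679328547) (nat_lit 76) (nat_lit 15238886832) (nat_lit 468) (nat_lit 5) (nat_lit 493) (nat_lit 5) (nat_lit 469) (nat_lit 5) (nat_lit 477) (nat_lit 460) (nat_lit 263)))) (XT.nd (nat_lit 156) (nat_lit 912) (nat_lit 0) (XT.nd (nat_lit 78) (nat_lit 912) (nat_lit 0) (XT.lf (nat_lit 0) (nat_lit 11354478534) (nat_lit 1216) (nat_lit 14922467130) (nat_lit 76) (nat_lit 5350541759) (nat_lit 453) (nat_lit 5) (nat_lit 469) (nat_lit 5) (nat_lit 454) (nat_lit 5) (nat_lit 478) (nat_lit 460) (nat_lit 262)) (XT.lf (nat_lit 0) (nat_lit 10858747766) (nat_lit 912) (nat_lit 4998592542) (nat_lit 988) (nat_lit 16282102850) (nat_lit 441) (nat_lit 5) (nat_lit 453) (nat_lit 5) (nat_lit 454) (nat_lit 5) (nat_lit 479)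 (nat_lit 460) (nat_lit 261))) (XT.nd (nat_lit 78) (nat_lit 0) (nat_lit 0) (XT.lf (nat_lit 0) (nat_lit 4902854435) (nat_lit 912) (nat_lit 15831760014) (nat_lit 988) (nat_lit 11927356702) (nat_lit 429) (nat_lit 5) (nat_lit 441) (nat_lit 5) (nat_lit 442) (nat_lit 5) (nat_lit 480) (nat_lit 460) (nat_lit 260)) (XT.lf (nat_lit 0) (nat_lit 25971791914) (nat_lit 988) (nat_lit 1111387282) (nat_lit 76) (nat_lit 6112724200) (nat_lit 429) (nat_lit 5) (nat_lit 442) (nat_lit 5) (nat_lit 430) (nat_lit 5) (nat_lit 481) (nat_lit 460) (nat_lit 259)))))) (XT.nd (nat_lit 546) (nat_lit 5016) (nat_lit 0) (XT.nd (nat_lit 234) (nat_lit 2356) (nat_lit 0) (XT.nd (nat_lit 78) (nat_lit 1824) (nat_lit 0) (XT.lf (nat_lit 0) (nat_lit 26574665444) (nat_lit 836) (nat_lit 5065910123) (nat_lit 912) (nat_lit 2099788333) (nat_lit 418) (nat_lit 5) (nat_lit 429) (nat_lit 5) (nat_lit 430) (nat_lit 5) (nat_lit 482) (nat_lit 460) (nat_lit 258))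 (XT.nd (nat_lit 78) (nat_lit 836) (nat_lit 0) (XT.lf (nat_lit 0) (nat_lit 3392461682) (nat_lit 988) (nat_lit 13356145029) (nat_lit 76) (nat_lit 17547021292) (nat_lit 405) (nat_lit 5) (nat_lit 418) (nat_lit 5) (nat_lit 406) (nat_lit 5) (nat_lit 483) (nat_lit 460) (nat_lit 257)) (XT.lf (nat_lit 0) (nat_lit 9238627274) (nat_lit 912) (nat_lit 19635556969) (nat_lit 76) (nat_lit 5988734775) (nat_lit 394) (nat_lit 5) (nat_lit 406) (nat_lit 5) (nat_lit 395) (nat_lit 5) (nat_lit 484) (nat_lit 460) (nat_lit 256)))) (XT.nd (nat_lit 156) (nat_lit 760) (nat_lit 0) (XT.nd (nat_lit 78) (nat_lit 760) (nat_lit 0) (XT.lf (nat_lit 0) (nat_lit 9412839183) (nat_lit 836) (nat_lit 6107878905) (nat_lit 912) (nat_lit 19921299972) (nat_lit 383) (nat_lit 5) (nat_lit 394) (nat_lit 5) (nat_lit 395) (nat_lit 5) (nat_lit 485) (nat_lit 460) (nat_lit 255)) (XT.lf (nat_lit 0) (nat_lit 3494192897) (nat_lit 760) (nat_lit 18762693250)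 (nat_lit 836) (nat_lit 13776291729) (nat_lit 373) (nat_lit 5) (nat_lit 383) (nat_lit 5) (nat_lit 384) (nat_lit 5) (nat_lit 486) (nat_lit 460) (nat_lit 254))) (XT.nd (nat_lit 78) (nat_lit 760) (nat_lit 0) (XT.lf (nat_lit 0) (nat_lit 29439780082) (nat_lit 836) (nat_lit 2454570490) (nat_lit 76) (nat_lit 4742829190) (nat_lit 373) (nat_lit 5) (nat_lit 384) (nat_lit 5) (nat_lit 374) (nat_lit 5) (nat_lit 487) (nat_lit 460) (nat_lit 253)) (XT.lf (nat_lit 0) (nat_lit 28780675022) (nat_lit 760) (nat_lit 8366403429) (nat_lit 836) (nat_lit 106044995) (nat_lit 363) (nat_lit 5) (nat_lit 373) (nat_lit 5) (nat_lit 374) (nat_lit 5) (nat_lit 488) (nat_lit 460) (nat_lit 252))))) (XT.nd (nat_lit 312) (nat_lit 2052) (nat_lit 0) (XT.nd (nat_lit 156) (nat_lit 1368) (nat_lit 0) (XT.nd (nat_lit 78) (nat_lit 760) (nat_lit 0) (XT.lf (nat_lit 0) (nat_lit 7373104737) (nat_lit 836) (nat_lit 14632604359) (nat_lit 76) (nat_lit 15875512575)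 (nat_lit 352) (nat_lit 5) (nat_lit 363) (nat_lit 5) (nat_lit 353) (nat_lit 5) (nat_lit 489) (nat_lit 460) (nat_lit 251)) (XT.lf (nat_lit 0) (nat_lit 15315903449) (nat_lit 836) (nat_lit 20857653880) (nat_lit 76) (nat_lit 2349777275) (nat_lit 342) (nat_lit 5) (nat_lit 353) (nat_lit 5) (nat_lit 343) (nat_lit 5) (nat_lit 490) (nat_lit 460) (nat_lit 250))) (XT.nd (nat_lit 78) (nat_lit 684) (nat_lit 0) (XT.lf (nat_lit 0) (nat_lit 11955781539) (nat_lit 684) (nat_lit 11862579230) (nat_lit 760) (nat_lit 15359922742) (nat_lit 333) (nat_lit 5) (nat_lit 342) (nat_lit 5) (nat_lit 343) (nat_lit 5) (nat_lit 491) (nat_lit 460) (nat_lit 249)) (XT.lf (nat_lit 0) (nat_lit 6179942844) (nat_lit 684) (nat_lit 26660749260) (nat_lit 760) (nat_lit 7006892856) (nat_lit 324) (nat_lit 5) (nat_lit 333) (nat_lit 5) (nat_lit 334) (nat_lit 5) (nat_lit 492) (nat_lit 460) (nat_lit 248)))) (XT.nd (nat_lit 156) (nat_lit 1292) (nat_lit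 0) (XT.nd (nat_lit 78) (nat_lit 0) (nat_lit 0) (XT.lf (nat_lit 0) (nat_lit 333603051) (nat_lit 684) (nat_lit 1506260994) (nat_lit 760) (nat_lit 38691612593) (nat_lit 314) (nat_lit 5) (nat_lit 323) (nat_lit 5) (nat_lit 324) (nat_lit 5) (nat_lit 493) (nat_lit 460) (nat_lit 247)) (XT.lf (nat_lit 0) (nat_lit 11242417883) (nat_lit 760) (nat_lit 5626059135) (nat_lit 76) (nat_lit 24358770000) (nat_lit 314) (nat_lit 5) (nat_lit 324) (nat_lit 5) (nat_lit 315) (nat_lit 5) (nat_lit 494) (nat_lit 460) (nat_lit 246))) (XT.nd (nat_lit 78) (nat_lit 608) (nat_lit 0) (XT.lf (nat_lit 0) (nat_lit 21191298868) (nat_lit 760) (nat_lit 11632215136) (nat_lit 76) (nat_lit 9115091564) (nat_lit 305) (nat_lit 5) (nat_lit 315) (nat_lit 5) (nat_lit 306) (nat_lit 5) (nat_lit 495) (nat_lit 460) (nat_lit 245)) (XT.lf (nat_lit 0) (nat_lit 24933680189) (nat_lit 608) (nat_lit 6815138441) (nat_lit 684) (nat_lit 10916282868) (nat_lit 297)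 (nat_lit 5) (nat_lit 305) (nat_lit 5) (nat_lit 306) (nat_lit 5) (nat_lit 496) (nat_lit 460) (nat_lit 244))))))))
noncomputable def xc110 : XT := (XT.nd (nat_lit 60762) (nat_lit 0) (nat_lit 3496) (XT.nd (nat_lit 1092) (nat_lit 456) (nat_lit 0) (XT.nd (nat_lit 546) (nat_lit 3040) (nat_lit 0) (XT.nd (nat_lit 234) (nat_lit 1748) (nat_lit 0) (XT.nd (nat_lit 78) (nat_lit 1292) (nat_lit 0) (XT.lf (nat_lit 0) (nat_lit 19465504174) (nat_lit 608) (nat_lit 23490129849) (nat_lit 684) (nat_lit 451106948) (nat_lit 289) (nat_lit 5) (nat_lit 297) (nat_lit 5) (nat_lit 298) (nat_lit 5) (nat_lit 497) (nat_lit 460) (nat_lit 243)) (XT.nd (nat_lit 78) (nat_lit 608) (nat_lit 0) (XT.lf (nat_lit 0) (nat_lit 10469206000) (nat_lit 684) (nat_lit 30268337802) (nat_lit 76) (nat_lit 3426212050) (nat_lit 280) (nat_lit 5) (nat_lit 289) (nat_lit 5) (nat_lit 281) (nat_lit 5) (nat_lit 498) (nat_lit 460) (nat_lit 242)) (XT.lf (nat_lit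 0) (nat_lit 8197459549) (nat_lit 608) (nat_lit 13884451161) (nat_lit 684) (nat_lit 22854092670) (nat_lit 272) (nat_lit 5) (nat_lit 280) (nat_lit 5) (nat_lit 281) (nat_lit 5) (nat_lit 499) (nat_lit 460) (nat_lit 241)))) (XT.nd (nat_lit 156) (nat_lit 1140) (nat_lit 0) (XT.nd (nat_lit 78) (nat_lit 76) (nat_lit 0) (XT.lf (nat_lit 0) (nat_lit 2441958686) (nat_lit 532) (nat_lit 31910098892) (nat_lit 608) (nat_lit 11373179596) (nat_lit 265) (nat_lit 5) (nat_lit 272) (nat_lit 5) (nat_lit 273) (nat_lit 5) (nat_lit 500) (nat_lit 460) (nat_lit 240)) (XT.lf (nat_lit 0) (nat_lit 787029885) (nat_lit 608) (nat_lit 3333334601) (nat_lit 76) (nat_lit 42410908854) (nat_lit 264) (nat_lit 5) (nat_lit 272) (nat_lit 5) (nat_lit 265) (nat_lit 5) (nat_lit 501) (nat_lit 460) (nat_lit 239))) (XT.nd (nat_lit 78) (nat_lit 532) (nat_lit 0) (XT.lf (nat_lit 0) (nat_lit 13565327436) (nat_lit 684) (nat_lit 9279138661) (nat_lit 76) (nat_lit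 24507365042) (nat_lit 256) (nat_lit 5) (nat_lit 265) (nat_lit 5) (nat_lit 257) (nat_lit 5) (nat_lit 502) (nat_lit 460) (nat_lit 238)) (XT.lf (nat_lit 0) (nat_lit 27027652428) (nat_lit 608) (nat_lit 15259294978) (nat_lit 76) (nat_lit 5904044749) (nat_lit 249) (nat_lit 5) (nat_lit 257) (nat_lit 5) (nat_lit 250) (nat_lit 5) (nat_lit 503) (nat_lit 460) (nat_lit 237))))) (XT.nd (nat_lit 234) (nat_lit 1444) (nat_lit 0) (XT.nd (nat_lit 78) (nat_lit 1064) (nat_lit 0) (XT.lf (nat_lit 0) (nat_lit 27688385694) (nat_lit 532) (nat_lit 13598817677) (nat_lit 608) (nat_lit 7760257557) (nat_lit 242) (nat_lit 5) (nat_lit 249) (nat_lit 5) (nat_lit 250) (nat_lit 5) (nat_lit 504) (nat_lit 460) (nat_lit 236)) (XT.nd (nat_lit 78) (nat_lit 532) (nat_lit 0) (XT.lf (nat_lit 0) (nat_lit 6318549930) (nat_lit 532) (nat_lit 27572292787) (nat_lit 76) (nat_lit 16030937885) (nat_lit 235) (nat_lit 5) (nat_lit 242) (nat_lit 5) (nat_lit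 236) (nat_lit 5) (nat_lit 505) (nat_lit 460) (nat_lit 235)) (XT.lf (nat_lit 0) (nat_lit 16916979313) (nat_lit 532) (nat_lit 4141981444) (nat_lit 608) (nat_lit 29755449839) (nat_lit 228) (nat_lit 5) (nat_lit 235) (nat_lit 5) (nat_lit 236) (nat_lit 5) (nat_lit 506) (nat_lit 460) (nat_lit 234)))) (XT.nd (nat_lit 156) (nat_lit 456) (nat_lit 0) (XT.nd (nat_lit 78) (nat_lit 532) (nat_lit 0) (XT.lf (nat_lit 0) (nat_lit 11360649201) (nat_lit 456) (nat_lit 25312463167) (nat_lit 532) (nat_lit 15052076600) (nat_lit 222) (nat_lit 5) (nat_lit 228) (nat_lit 5) (nat_lit 229) (nat_lit 5) (nat_lit 507) (nat_lit 460) (nat_lit 233)) (XT.lf (nat_lit 0) (nat_lit 420915284) (nat_lit 532) (nat_lit 46867658965) (nat_lit 76) (nat_lit 5368109903) (nat_lit 215) (nat_lit 5) (nat_lit 222) (nat_lit 5) (nat_lit 216) (nat_lit 5) (nat_lit 508) (nat_lit 460) (nat_lit 232))) (XT.nd (nat_lit 78) (nat_lit 456) (nat_lit 0) (XT.lf (nat_lit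 0) (nat_lit 16597086854) (nat_lit 532) (nat_lit 5970297) (nat_lit 76) (nat_lit 37002207426) (nat_lit 215) (nat_lit 5) (nat_lit 222) (nat_lit 5) (nat_lit 216) (nat_lit 5) (nat_lit 509) (nat_lit 460) (nat_lit 231)) (XT.lf (nat_lit 0) (nat_lit 33673318432) (nat_lit 532) (nat_lit 5775792703) (nat_lit 76) (nat_lit 15124895826) (nat_lit 209) (nat_lit 5) (nat_lit 216) (nat_lit 5) (nat_lit 210) (nat_lit 5) (nat_lit 510) (nat_lit 460) (nat_lit 230)))))) (XT.nd (nat_lit 59046) (nat_lit 0) (nat_lit 21432) (XT.nd (nat_lit 58734) (nat_lit 0) (nat_lit 21204) (XT.nd (nat_lit 58578) (nat_lit 0) (nat_lit 21128) (XT.lf (nat_lit 0) (nat_lit 43957095330) (nat_lit 456) (nat_lit 7699030669) (nat_lit 532) (nat_lit 3907799875) (nat_lit 203) (nat_lit 5) (nat_lit 209) (nat_lit 5) (nat_lit 210) (nat_lit 5) (nat_lit 511) (nat_lit 460) (nat_lit 229)) (XT.nd (nat_lit 78) (nat_lit 0) (nat_lit 76) (XT.lf (nat_lit 0) (nat_lit 1469305935)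 (nat_lit 1900) (nat_lit 5442573722) (nat_lit 1900) (nat_lit 5442573722) (nat_lit 481) (nat_lit 3) (nat_lit 506) (nat_lit 3) (nat_lit 506) (nat_lit 5) (nat_lit 461) (nat_lit 461) (nat_lit 278)) (XT.lf (nat_lit 0) (nat_lit 3223347164) (nat_lit 1824) (nat_lit 17432211259) (nat_lit 1900) (nat_lit 4419163922) (nat_lit 482) (nat_lit 5) (nat_lit 506) (nat_lit 5) (nat_lit 507) (nat_lit 5) (nat_lit 462) (nat_lit 461) (nat_lit 277)))) (XT.nd (nat_lit 156) (nat_lit 0) (nat_lit 152) (XT.nd (nat_lit 78) (nat_lit 0) (nat_lit 76) (XT.lf (nat_lit 76) (nat_lit 1346272776) (nat_lit 0) (nat_lit 2339473256) (nat_lit 1900) (nat_lit 21762384125) (nat_lit 483) (nat_lit 5) (nat_lit 482) (nat_lit 5) (nat_lit 507) (nat_lit 5) (nat_lit 463) (nat_lit 461) (nat_lit 276)) (XT.lf (nat_lit 0) (nat_lit 4382089343) (nat_lit 1824) (nat_lit 5015227796) (nat_lit 1900) (nat_lit 16431021800) (nat_lit 483) (nat_lit 5) (nat_lit 507) (nat_lit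 5) (nat_lit 508) (nat_lit 5) (nat_lit 464) (nat_lit 461) (nat_lit 275))) (XT.nd (nat_lit 78) (nat_lit 0) (nat_lit 76) (XT.lf (nat_lit 0) (nat_lit 5267650272) (nat_lit 1824) (nat_lit 11460937302) (nat_lit 1900) (nat_lit 9488000045) (nat_lit 484) (nat_lit 5) (nat_lit 508) (nat_lit 5) (nat_lit 509) (nat_lit 5) (nat_lit 465) (nat_lit 461) (nat_lit 274)) (XT.lf (nat_lit 0) (nat_lit 6341885412) (nat_lit 1824) (nat_lit 18009421015) (nat_lit 1900) (nat_lit 2261935358) (nat_lit 485) (nat_lit 5) (nat_lit 509) (nat_lit 5) (nat_lit 510) (nat_lit 5) (nat_lit 466) (nat_lit 461) (nat_lit 273))))) (XT.nd (nat_lit 312) (nat_lit 0) (nat_lit 228) (XT.nd (nat_lit 156) (nat_lit 0) (nat_lit 152) (XT.nd (nat_lit 78) (nat_lit 0) (nat_lit 76) (XT.lf (nat_lit 76) (nat_lit 2321679654) (nat_lit 0) (nat_lit 5326163548) (nat_lit 1900) (nat_lit 19369962633) (nat_lit 486) (nat_lit 5) (nat_lit 485) (nat_lit 5) (nat_lit 510) (nat_lit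 5) (nat_lit 467) (nat_lit 461) (nat_lit 272)) (XT.lf (nat_lit 0) (nat_lit 9203001261) (nat_lit 1824) (nat_lit 4019901265) (nat_lit 1900) (nat_lit 14207404014) (nat_lit 486) (nat_lit 5) (nat_lit 510) (nat_lit 5) (nat_lit 511) (nat_lit 5) (nat_lit 468) (nat_lit 461) (nat_lit 271))) (XT.nd (nat_lit 78) (nat_lit 0) (nat_lit 0) (XT.lf (nat_lit 0) (nat_lit 10990843112) (nat_lit 1824) (nat_lit 10428061054) (nat_lit 1900) (nat_lit 6432557679) (nat_lit 487) (nat_lit 5) (nat_lit 511) (nat_lit 5) (nat_lit 512) (nat_lit 5) (nat_lit 469) (nat_lit 461) (nat_lit 270)) (XT.lf (nat_lit 76) (nat_lit 11336836059) (nat_lit 0) (nat_lit 1679768639) (nat_lit 1900) (nat_lit 15264961578) (nat_lit 488) (nat_lit 5) (nat_lit 487) (nat_lit 5) (nat_lit 512) (nat_lit 5) (nat_lit 470) (nat_lit 461) (nat_lit 269)))) (XT.nd (nat_lit 156) (nat_lit 0) (nat_lit 152) (XT.nd (nat_lit 78) (nat_lit 0) (nat_lit 76) (XT.lf (nat_lit 76) (nat_lit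 5116180009) (nat_lit 0) (nat_lit 10207374856) (nat_lit 1900) (nat_lit 13396610811) (nat_lit 489) (nat_lit 5) (nat_lit 488) (nat_lit 5) (nat_lit 513) (nat_lit 5) (nat_lit 471) (nat_lit 461) (nat_lit 268)) (XT.lf (nat_lit 0) (nat_lit 17887240706) (nat_lit 1824) (nat_lit 1180033266) (nat_lit 1900) (nat_lit 10100898688) (nat_lit 489) (nat_lit 5) (nat_lit 513) (nat_lit 5) (nat_lit 514) (nat_lit 5) (nat_lit 472) (nat_lit 461) (nat_lit 267))) (XT.nd (nat_lit 78) (nat_lit 0) (nat_lit 0) (XT.lf (nat_lit 0) (nat_lit 20744147551) (nat_lit 1824) (nat_lit 7499438866) (nat_lit 1900) (nat_lit 1381707371) (nat_lit 490) (nat_lit 5) (nat_lit 514) (nat_lit 5) (nat_lit 515) (nat_lit 5) (nat_lit 473) (nat_lit 461) (nat_lit 266)) (XT.lf (nat_lit 76) (nat_lit 16131508560) (nat_lit 0) (nat_lit 7790916385) (nat_lit 1900) (nat_lit 6168990476) (nat_lit 491) (nat_lit 5) (nat_lit 490) (nat_lit 5) (nat_lit 515) (nat_lit 5) (nat_lit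 474) (nat_lit 461) (nat_lit 265))))))) (XT.nd (nat_lit 1170) (nat_lit 8588) (nat_lit 0) (XT.nd (nat_lit 546) (nat_lit 5092) (nat_lit 0) (XT.nd (nat_lit 234) (nat_lit 2888) (nat_lit 0) (XT.nd (nat_lit 78) (nat_lit 1824) (nat_lit 0) (XT.lf (nat_lit 76) (nat_lit 10045111218) (nat_lit 0) (nat_lit 17348991048) (nat_lit 1900) (nat_lit 3173457539) (nat_lit 492) (nat_lit 5) (nat_lit 491) (nat_lit 5) (nat_lit 516) (nat_lit 5) (nat_lit 475) (nat_lit 461) (nat_lit 264)) (XT.nd (nat_lit 78) (nat_lit 0) (nat_lit 0) (XT.lf (nat_lit 0) (nat_lit 106107547) (nat_lit 1900) (nat_lit 27178800327) (nat_lit 1976) (nat_lit 3769231983) (nat_lit 467) (nat_lit 5) (nat_lit 492) (nat_lit 5) (nat_lit 493) (nat_lit 5) (nat_lit 476) (nat_lit 461) (nat_lit 263)) (XT.lf (nat_lit 0) (nat_lit 3692872991) (nat_lit 1900) (nat_lit 2408393521) (nat_lit 1976) (nat_lit 25448592825) (nat_lit 467) (nat_lit 5) (nat_lit 492) (nat_lit 5) (nat_lit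 493) (nat_lit 5) (nat_lit 477) (nat_lit 461) (nat_lit 262)))) (XT.nd (nat_lit 156) (nat_lit 1824) (nat_lit 0) (XT.nd (nat_lit 78) (nat_lit 1140) (nat_lit 0) (XT.lf (nat_lit 0) (nat_lit 7638087460) (nat_lit 1900) (nat_lit 8751986104) (nat_lit 76) (nat_lit 15665360039) (nat_lit 468) (nat_lit 5) (nat_lit 493) (nat_lit 5) (nat_lit 469) (nat_lit 5) (nat_lit 478) (nat_lit 461) (nat_lit 261)) (XT.lf (nat_lit 0) (nat_lit 11904043774) (nat_lit 1216) (nat_lit 15181118201) (nat_lit 76) (nat_lit 5486965529) (nat_lit 453) (nat_lit 5) (nat_lit 469) (nat_lit 5) (nat_lit 454) (nat_lit 5) (nat_lit 479) (nat_lit 461) (nat_lit 260))) (XT.nd (nat_lit 78) (nat_lit 912) (nat_lit 0) (XT.lf (nat_lit 0) (nat_lit 11370466469) (nat_lit 912) (nat_lit 5166646918) (nat_lit 988) (nat_lit 16562426257) (nat_lit 441) (nat_lit 5) (nat_lit 453) (nat_lit 5) (nat_lit 454) (nat_lit 5) (nat_lit 480) (nat_lit 461) (nat_lit 259)) (XT.lf (nat_lit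 0) (nat_lit 5237015514) (nat_lit 912) (nat_lit 16318847496) (nat_lit 988) (nat_lit 12081977489) (nat_lit 429) (nat_lit 5) (nat_lit 441) (nat_lit 5) (nat_lit 442) (nat_lit 5) (nat_lit 481) (nat_lit 461) (nat_lit 258))))) (XT.nd (nat_lit 312) (nat_lit 2432) (nat_lit 0) (XT.nd (nat_lit 156) (nat_lit 1824) (nat_lit 0) (XT.nd (nat_lit 78) (nat_lit 836) (nat_lit 0) (XT.lf (nat_lit 0) (nat_lit 26944277070) (nat_lit 988) (nat_lit 959152184) (nat_lit 76) (nat_lit 6284479194) (nat_lit 429) (nat_lit 5) (nat_lit 442) (nat_lit 5) (nat_lit 430) (nat_lit 5) (nat_lit 482) (nat_lit 461) (nat_lit 257)) (XT.lf (nat_lit 0) (nat_lit 27554471363) (nat_lit 836) (nat_lit 5224207198) (nat_lit 912) (nat_lit 1970113278) (nat_lit 418) (nat_lit 5) (nat_lit 429) (nat_lit 5) (nat_lit 430) (nat_lit 5) (nat_lit 483) (nat_lit 461) (nat_lit 256))) (XT.nd (nat_lit 78) (nat_lit 836) (nat_lit 0) (XT.lf (nat_lit 0) (nat_lit 3679997559) (nat_lit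 988) (nat_lit 13570989680) (nat_lit 76) (nat_lit 18069789353) (nat_lit 405) (nat_lit 5) (nat_lit 418) (nat_lit 5) (nat_lit 406) (nat_lit 5) (nat_lit 484) (nat_lit 461) (nat_lit 255)) (XT.lf (nat_lit 0) (nat_lit 9697332944) (nat_lit 912) (nat_lit 20038171724) (nat_lit 76) (nat_lit 6169666120) (nat_lit 394) (nat_lit 5) (nat_lit 406) (nat_lit 5) (nat_lit 395) (nat_lit 5) (nat_lit 485) (nat_lit 461) (nat_lit 254)))) (XT.nd (nat_lit 156) (nat_lit 836) (nat_lit 0) (XT.nd (nat_lit 78) (nat_lit 760) (nat_lit 0) (XT.lf (nat_lit 0) (nat_lit 9878651351) (nat_lit 836) (nat_lit 6285138287) (nat_lit 912) (nat_lit 20337935239) (nat_lit 383) (nat_lit 5) (nat_lit 394) (nat_lit 5) (nat_lit 395) (nat_lit 5) (nat_lit 486) (nat_lit 461) (nat_lit 253)) (XT.lf (nat_lit 0) (nat_lit 3782927683) (nat_lit 760) (nat_lit 19315178345) (nat_lit 836) (nat_lit 14012592332) (nat_lit 373) (nat_lit 5) (nat_lit 383) (nat_lit 5) (nat_lit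 384) (nat_lit 5) (nat_lit 487) (nat_lit 461) (nat_lit 252))) (XT.nd (nat_lit 78) (nat_lit 836) (nat_lit 0) (XT.lf (nat_lit 0) (nat_lit 30491498527) (nat_lit 836) (nat_lit 2346347067) (nat_lit 76) (nat_lit 4895074610) (nat_lit 373) (nat_lit 5) (nat_lit 384) (nat_lit 5) (nat_lit 374) (nat_lit 5) (nat_lit 488) (nat_lit 461) (nat_lit 251)) (XT.lf (nat_lit 0) (nat_lit 58079837) (nat_lit 836) (nat_lit 8544794029) (nat_lit 76) (nat_lit 29764535756) (nat_lit 362) (nat_lit 5) (nat_lit 373) (nat_lit 5) (nat_lit 363) (nat_lit 5) (nat_lit 489) (nat_lit 461) (nat_lit 250)))))) (XT.nd (nat_lit 546) (nat_lit 4256) (nat_lit 0) (XT.nd (nat_lit 234) (nat_lit 2128) (nat_lit 0) (XT.nd (nat_lit 78) (nat_lit 1444) (nat_lit 0) (XT.lf (nat_lit 0) (nat_lit 7756600891) (nat_lit 836) (nat_lit 14890257907) (nat_lit 76) (nat_lit 16367549349) (nat_lit 352) (nat_lit 5) (nat_lit 363) (nat_lit 5) (nat_lit 353) (nat_lit 5) (nat_lit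 490) (nat_lit 461) (nat_lit 249)) (XT.nd (nat_lit 78) (nat_lit 684) (nat_lit 0) (XT.lf (nat_lit 0) (nat_lit 15934242045) (nat_lit 836) (nat_lit 21301949592) (nat_lit 76) (nat_lit 2439661782) (nat_lit 342) (nat_lit 5) (nat_lit 353) (nat_lit 5) (nat_lit 343) (nat_lit 5) (nat_lit 491) (nat_lit 461) (nat_lit 248)) (XT.lf (nat_lit 0) (nat_lit 12492945341) (nat_lit 684) (nat_lit 12195359588) (nat_lit 760) (nat_lit 15662215344) (nat_lit 333) (nat_lit 5) (nat_lit 342) (nat_lit 5) (nat_lit 343) (nat_lit 5) (nat_lit 492) (nat_lit 461) (nat_lit 247)))) (XT.nd (nat_lit 156) (nat_lit 684) (nat_lit 0) (XT.nd (nat_lit 78) (nat_lit 760) (nat_lit 0) (XT.lf (nat_lit 0) (nat_lit 6543849422) (nat_lit 684) (nat_lit 27434235350) (nat_lit 760) (nat_lit 7061880535) (nat_lit 324) (nat_lit 5) (nat_lit 333) (nat_lit 5) (nat_lit 334) (nat_lit 5) (nat_lit 493) (nat_lit 461) (nat_lit 246)) (XT.lf (nat_lit 0) (nat_lit 521229680)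 (nat_lit 684) (nat_lit 1523705232) (nat_lit 760) (nat_lit 39699484942) (nat_lit 314) (nat_lit 5) (nat_lit 323) (nat_lit 5) (nat_lit 324) (nat_lit 5) (nat_lit 494) (nat_lit 461) (nat_lit 245))) (XT.nd (nat_lit 78) (nat_lit 684) (nat_lit 0) (XT.lf (nat_lit 0) (nat_lit 11725374959) (nat_lit 760) (nat_lit 5619656937) (nat_lit 76) (nat_lit 25116115362) (nat_lit 314) (nat_lit 5) (nat_lit 324) (nat_lit 5) (nat_lit 315) (nat_lit 5) (nat_lit 495) (nat_lit 461) (nat_lit 244)) (XT.lf (nat_lit 0) (nat_lit 21969791454) (nat_lit 760) (nat_lit 11806178550) (nat_lit 76) (nat_lit 9417935282) (nat_lit 305) (nat_lit 5) (nat_lit 315) (nat_lit 5) (nat_lit 306) (nat_lit 5) (nat_lit 496) (nat_lit 461) (nat_lit 243))))) (XT.nd (nat_lit 312) (nat_lit 1748) (nat_lit 0) (XT.nd (nat_lit 156) (nat_lit 1292) (nat_lit 0) (XT.nd (nat_lit 78) (nat_lit 608) (nat_lit 0) (XT.lf (nat_lit 0) (nat_lit 25853854419) (nat_lit 608) (nat_lit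 6987142319) (nat_lit 684) (nat_lit 11101260255) (nat_lit 297) (nat_lit 5) (nat_lit 305) (nat_lit 5) (nat_lit 306) (nat_lit 5) (nat_lit 497) (nat_lit 461) (nat_lit 242)) (XT.lf (nat_lit 0) (nat_lit 20221384863) (nat_lit 608) (nat_lit 24159883145) (nat_lit 684) (nat_lit 324932709) (nat_lit 289) (nat_lit 5) (nat_lit 297) (nat_lit 5) (nat_lit 298) (nat_lit 5) (nat_lit 498) (nat_lit 461) (nat_lit 241))) (XT.nd (nat_lit 78) (nat_lit 608) (nat_lit 0) (XT.lf (nat_lit 0) (nat_lit 10918484857) (nat_lit 684) (nat_lit 31002986947) (nat_lit 76) (nat_lit 3564489639) (nat_lit 280) (nat_lit 5) (nat_lit 289) (nat_lit 5) (nat_lit 281) (nat_lit 5) (nat_lit 499) (nat_lit 461) (nat_lit 240)) (XT.lf (nat_lit 0) (nat_lit 8613971100) (nat_lit 608) (nat_lit 14262769236) (nat_lit 684) (nat_lit 23404692758) (nat_lit 272) (nat_lit 5) (nat_lit 280) (nat_lit 5) (nat_lit 281) (nat_lit 5) (nat_lit 500) (nat_lit 461) (nat_lit 239))))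 (XT.nd (nat_lit 156) (nat_lit 1140) (nat_lit 0) (XT.nd (nat_lit 78) (nat_lit 76) (nat_lit 0) (XT.lf (nat_lit 0) (nat_lit 2685400921) (nat_lit 532) (nat_lit 32827081022) (nat_lit 608) (nat_lit 11581912238) (nat_lit 265) (nat_lit 5) (nat_lit 272) (nat_lit 5) (nat_lit 273) (nat_lit 5) (nat_lit 501) (nat_lit 461) (nat_lit 238)) (XT.lf (nat_lit 0) (nat_lit 937558717) (nat_lit 608) (nat_lit 3266418574) (nat_lit 76) (nat_lit 43720693172) (nat_lit 264) (nat_lit 5) (nat_lit 272) (nat_lit 5) (nat_lit 265) (nat_lit 5) (nat_lit 502) (nat_lit 461) (nat_lit 237))) (XT.nd (nat_lit 78) (nat_lit 532) (nat_lit 0) (XT.lf (nat_lit 0) (nat_lit 14096833894) (nat_lit 684) (nat_lit 9391075573) (nat_lit 76) (nat_lit 25281983033) (nat_lit 256) (nat_lit 5) (nat_lit 265) (nat_lit 5) (nat_lit 257) (nat_lit 5) (nat_lit 503) (nat_lit 461) (nat_lit 236)) (XT.lf (nat_lit 0) (nat_lit 27960735253) (nat_lit 608) (nat_lit 15551165720)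 (nat_lit 76) (nat_lit 6122373318) (nat_lit 249) (nat_lit 5) (nat_lit 257) (nat_lit 5) (nat_lit 250) (nat_lit 5) (nat_lit 504) (nat_lit 461) (nat_lit 235))))))))
noncomputable def xc111 : XT := (XT.nd (nat_lit 60840) (nat_lit 0) (nat_lit 0) (XT.nd (nat_lit 59670) (nat_lit 0) (nat_lit 16720) (XT.nd (nat_lit 59124) (nat_lit 0) (nat_lit 20672) (XT.nd (nat_lit 234) (nat_lit 1444) (nat_lit 0) (XT.nd (nat_lit 78) (nat_lit 1064) (nat_lit 0) (XT.lf (nat_lit 0) (nat_lit 28682253711) (nat_lit 532) (nat_lit 13963317950) (nat_lit 608) (nat_lit 7870915563) (nat_lit 242) (nat_lit 5) (nat_lit 249) (nat_lit 5) (nat_lit 250) (nat_lit 5) (nat_lit 505) (nat_lit 461) (nat_lit 234)) (XT.nd (nat_lit 78) (nat_lit 532) (nat_lit 0) (XT.lf (nat_lit 0) (nat_lit 6626481850) (nat_lit 532) (nat_lit 28235236589) (nat_lit 76) (nat_lit 16555345705) (nat_lit 235) (nat_lit 5) (nat_lit 242) (nat_lit 5) (nat_lit 236) (nat_lit 5) (nat_lit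 506) (nat_lit 461) (nat_lit 233)) (XT.lf (nat_lit 0) (nat_lit 17586049319) (nat_lit 532) (nat_lit 4220656814) (nat_lit 608) (nat_lit 30529814952) (nat_lit 228) (nat_lit 5) (nat_lit 235) (nat_lit 5) (nat_lit 236) (nat_lit 5) (nat_lit 507) (nat_lit 461) (nat_lit 232)))) (XT.nd (nat_lit 156) (nat_lit 456) (nat_lit 0) (XT.nd (nat_lit 78) (nat_lit 532) (nat_lit 0) (XT.lf (nat_lit 0) (nat_lit 11862401176) (nat_lit 456) (nat_lit 26024835380) (nat_lit 532) (nat_lit 15387427232) (nat_lit 222) (nat_lit 5) (nat_lit 228) (nat_lit 5) (nat_lit 229) (nat_lit 5) (nat_lit 508) (nat_lit 461) (nat_lit 231)) (XT.lf (nat_lit 0) (nat_lit 546235537) (nat_lit 532) (nat_lit 48111923792) (nat_lit 76) (nat_lit 5575969367) (nat_lit 215) (nat_lit 5) (nat_lit 222) (nat_lit 5) (nat_lit 216) (nat_lit 5) (nat_lit 509) (nat_lit 461) (nat_lit 230))) (XT.nd (nat_lit 78) (nat_lit 0) (nat_lit 0) (XT.lf (nat_lit 0) (nat_lit 152909369) (nat_lit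 456) (nat_lit 17052493359) (nat_lit 532) (nat_lit 38005809659) (nat_lit 209) (nat_lit 5) (nat_lit 215) (nat_lit 5) (nat_lit 216) (nat_lit 5) (nat_lit 510) (nat_lit 461) (nat_lit 229)) (XT.lf (nat_lit 0) (nat_lit 34791051866) (nat_lit 532) (nat_lit 5792721567) (nat_lit 76) (nat_lit 15625301056) (nat_lit 209) (nat_lit 5) (nat_lit 216) (nat_lit 5) (nat_lit 210) (nat_lit 5) (nat_lit 511) (nat_lit 461) (nat_lit 228))))) (XT.nd (nat_lit 234) (nat_lit 0) (nat_lit 152) (XT.nd (nat_lit 78) (nat_lit 0) (nat_lit 76) (XT.lf (nat_lit 0) (nat_lit 1673599960) (nat_lit 1900) (nat_lit 5524138938) (nat_lit 1900) (nat_lit 5524138938) (nat_lit 481) (nat_lit 3) (nat_lit 506) (nat_lit 3) (nat_lit 506) (nat_lit 5) (nat_lit 462) (nat_lit 462) (nat_lit 276)) (XT.nd (nat_lit 78) (nat_lit 0) (nat_lit 0) (XT.lf (nat_lit 0) (nat_lit 3631205430) (nat_lit 1824) (nat_lit 17787169956) (nat_lit 1900) (nat_lit 4402356058) (nat_lit 482)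 (nat_lit 5) (nat_lit 506) (nat_lit 5) (nat_lit 507) (nat_lit 5) (nat_lit 463) (nat_lit 462) (nat_lit 275)) (XT.lf (nat_lit 76) (nat_lit 1551942876) (nat_lit 0) (nat_lit 2547543658) (nat_lit 1900) (nat_lit 22106015025) (nat_lit 483) (nat_lit 5) (nat_lit 482) (nat_lit 5) (nat_lit 507) (nat_lit 5) (nat_lit 464) (nat_lit 462) (nat_lit 274)))) (XT.nd (nat_lit 156) (nat_lit 0) (nat_lit 152) (XT.nd (nat_lit 78) (nat_lit 0) (nat_lit 76) (XT.lf (nat_lit 0) (nat_lit 4807020831) (nat_lit 1824) (nat_lit 4998451943) (nat_lit 1900) (nat_lit 16791838084) (nat_lit 483) (nat_lit 5) (nat_lit 507) (nat_lit 5) (nat_lit 508) (nat_lit 5) (nat_lit 465) (nat_lit 462) (nat_lit 273)) (XT.lf (nat_lit 0) (nat_lit 5710880459) (nat_lit 1824) (nat_lit 11633728821) (nat_lit 1900) (nat_lit 9652763338) (nat_lit 484) (nat_lit 5) (nat_lit 508) (nat_lit 5) (nat_lit 509) (nat_lit 5) (nat_lit 466) (nat_lit 462) (nat_lit 272))) (XT.nd (nat_lit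 78) (nat_lit 0) (nat_lit 0) (XT.lf (nat_lit 0) (nat_lit 6809415900) (nat_lit 1824) (nat_lit 18375161414) (nat_lit 1900) (nat_lit 2221507881) (nat_lit 485) (nat_lit 5) (nat_lit 509) (nat_lit 5) (nat_lit 510) (nat_lit 5) (nat_lit 467) (nat_lit 462) (nat_lit 271)) (XT.lf (nat_lit 76) (nat_lit 2563040534) (nat_lit 0) (nat_lit 5584550809) (nat_lit 1900) (nat_lit 19675334289) (nat_lit 486) (nat_lit 5) (nat_lit 485) (nat_lit 5) (nat_lit 510) (nat_lit 5) (nat_lit 468) (nat_lit 462) (nat_lit 270)))))) (XT.nd (nat_lit 546) (nat_lit 4332) (nat_lit 0) (XT.nd (nat_lit 234) (nat_lit 0) (nat_lit 152) (XT.nd (nat_lit 78) (nat_lit 0) (nat_lit 76) (XT.lf (nat_lit 0) (nat_lit 9740909408) (nat_lit 1824) (nat_lit 3967910866) (nat_lit 1900) (nat_lit 14539151216) (nat_lit 486) (nat_lit 5) (nat_lit 510) (nat_lit 5) (nat_lit 511) (nat_lit 5) (nat_lit 469) (nat_lit 462) (nat_lit 269)) (XT.nd (nat_lit 78) (nat_lit 0) (nat_lit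 0) (XT.lf (nat_lit 0) (nat_lit 11575307947) (nat_lit 1824) (nat_lit 10565446756) (nat_lit 1900) (nat_lit 6541148553) (nat_lit 487) (nat_lit 5) (nat_lit 511) (nat_lit 5) (nat_lit 512) (nat_lit 5) (nat_lit 470) (nat_lit 462) (nat_lit 268)) (XT.lf (nat_lit 76) (nat_lit 11849550705) (nat_lit 0) (nat_lit 1805992774) (nat_lit 1900) (nat_lit 15469493541) (nat_lit 488) (nat_lit 5) (nat_lit 487) (nat_lit 5) (nat_lit 512) (nat_lit 5) (nat_lit 471) (nat_lit 462) (nat_lit 267)))) (XT.nd (nat_lit 156) (nat_lit 0) (nat_lit 152) (XT.nd (nat_lit 78) (nat_lit 0) (nat_lit 76) (XT.lf (nat_lit 76) (nat_lit 5444854456) (nat_lit 0) (nat_lit 10580270996) (nat_lit 1900) (nat_lit 13551800699) (nat_lit 489) (nat_lit 5) (nat_lit 488) (nat_lit 5) (nat_lit 513) (nat_lit 5) (nat_lit 472) (nat_lit 462) (nat_lit 266)) (XT.lf (nat_lit 0) (nat_lit 18658256999) (nat_lit 1824) (nat_lit 1040224129) (nat_lit 1900) (nat_lit 10340041725)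 (nat_lit 489) (nat_lit 5) (nat_lit 513) (nat_lit 5) (nat_lit 514) (nat_lit 5) (nat_lit 473) (nat_lit 462) (nat_lit 265))) (XT.nd (nat_lit 78) (nat_lit 0) (nat_lit 0) (XT.lf (nat_lit 0) (nat_lit 21594797327) (nat_lit 1824) (nat_lit 7547108162) (nat_lit 1900) (nat_lit 1367573804) (nat_lit 490) (nat_lit 5) (nat_lit 514) (nat_lit 5) (nat_lit 515) (nat_lit 5) (nat_lit 474) (nat_lit 462) (nat_lit 264)) (XT.lf (nat_lit 76) (nat_lit 16789890980) (nat_lit 0) (nat_lit 8073014371) (nat_lit 1900) (nat_lit 6126789775) (nat_lit 491) (nat_lit 5) (nat_lit 490) (nat_lit 5) (nat_lit 515) (nat_lit 5) (nat_lit 475) (nat_lit 462) (nat_lit 263))))) (XT.nd (nat_lit 312) (nat_lit 2888) (nat_lit 0) (XT.nd (nat_lit 156) (nat_lit 0) (nat_lit 0) (XT.nd (nat_lit 78) (nat_lit 1824) (nat_lit 0) (XT.lf (nat_lit 76) (nat_lit 10522770994) (nat_lit 0) (nat_lit 17910312247) (nat_lit 1900) (nat_lit 3047153789) (nat_lit 492) (nat_lit 5)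 (nat_lit 491) (nat_lit 5) (nat_lit 516) (nat_lit 5) (nat_lit 476) (nat_lit 462) (nat_lit 262)) (XT.lf (nat_lit 0) (nat_lit 322430121) (nat_lit 1900) (nat_lit 27813339714) (nat_lit 1976) (nat_lit 3845725328) (nat_lit 467) (nat_lit 5) (nat_lit 492) (nat_lit 5) (nat_lit 493) (nat_lit 5) (nat_lit 477) (nat_lit 462) (nat_lit 261))) (XT.nd (nat_lit 78) (nat_lit 0) (nat_lit 76) (XT.lf (nat_lit 0) (nat_lit 4010590587) (nat_lit 1900) (nat_lit 2305087441) (nat_lit 1976) (nat_lit 26176532538) (nat_lit 467) (nat_lit 5) (nat_lit 492) (nat_lit 5) (nat_lit 493) (nat_lit 5) (nat_lit 478) (nat_lit 462) (nat_lit 260)) (XT.lf (nat_lit 0) (nat_lit 8069065368) (nat_lit 1900) (nat_lit 8837599416) (nat_lit 76) (nat_lit 16106389369) (nat_lit 468) (nat_lit 5) (nat_lit 493) (nat_lit 5) (nat_lit 469) (nat_lit 5) (nat_lit 479) (nat_lit 462) (nat_lit 259)))) (XT.nd (nat_lit 156) (nat_lit 912) (nat_lit 0) (XT.nd (nat_lit 78) (nat_lit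 912) (nat_lit 0) (XT.lf (nat_lit 0) (nat_lit 12458102484) (nat_lit 1216) (nat_lit 15458379495) (nat_lit 76) (nat_lit 5628865019) (nat_lit 453) (nat_lit 5) (nat_lit 469) (nat_lit 5) (nat_lit 454) (nat_lit 5) (nat_lit 480) (nat_lit 462) (nat_lit 258)) (XT.lf (nat_lit 0) (nat_lit 11886862083) (nat_lit 912) (nat_lit 5338704106) (nat_lit 988) (nat_lit 16863107435) (nat_lit 441) (nat_lit 5) (nat_lit 453) (nat_lit 5) (nat_lit 454) (nat_lit 5) (nat_lit 481) (nat_lit 462) (nat_lit 257))) (XT.nd (nat_lit 78) (nat_lit 0) (nat_lit 0) (XT.lf (nat_lit 0) (nat_lit 5570462528) (nat_lit 912) (nat_lit 16819851023) (nat_lit 988) (nat_lit 12252901406) (nat_lit 429) (nat_lit 5) (nat_lit 441) (nat_lit 5) (nat_lit 442) (nat_lit 5) (nat_lit 482) (nat_lit 462) (nat_lit 256)) (XT.lf (nat_lit 0) (nat_lit 27934838768) (nat_lit 988) (nat_lit 813002895) (nat_lit 76) (nat_lit 6462054260) (nat_lit 429) (nat_lit 5) (nat_lit 442) (nat_lit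 5) (nat_lit 430) (nat_lit 5) (nat_lit 483) (nat_lit 462) (nat_lit 255))))))) (XT.nd (nat_lit 1170) (nat_lit 6688) (nat_lit 0) (XT.nd (nat_lit 546) (nat_lit 4940) (nat_lit 0) (XT.nd (nat_lit 234) (nat_lit 2432) (nat_lit 0) (XT.nd (nat_lit 78) (nat_lit 1824) (nat_lit 0) (XT.lf (nat_lit 0) (nat_lit 28553191426) (nat_lit 836) (nat_lit 5386890405) (nat_lit 912) (nat_lit 1847607943) (nat_lit 418) (nat_lit 5) (nat_lit 429) (nat_lit 5) (nat_lit 430) (nat_lit 5) (nat_lit 484) (nat_lit 462) (nat_lit 254)) (XT.nd (nat_lit 78) (nat_lit 836) (nat_lit 0) (XT.lf (nat_lit 0) (nat_lit 3965496011) (nat_lit 988) (nat_lit 13802947630) (nat_lit 76) (nat_lit 18608449555) (nat_lit 405) (nat_lit 5) (nat_lit 418) (nat_lit 5) (nat_lit 406) (nat_lit 5) (nat_lit 485) (nat_lit 462) (nat_lit 253)) (XT.lf (nat_lit 0) (nat_lit 10159378252) (nat_lit 912) (nat_lit 20463568026) (nat_lit 76) (nat_lit 6355952543) (nat_lit 394) (nat_lit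 5) (nat_lit 406) (nat_lit 5) (nat_lit 395) (nat_lit 5) (nat_lit 486) (nat_lit 462) (nat_lit 252)))) (XT.nd (nat_lit 156) (nat_lit 836) (nat_lit 0) (XT.nd (nat_lit 78) (nat_lit 760) (nat_lit 0) (XT.lf (nat_lit 0) (nat_lit 10347908425) (nat_lit 836) (nat_lit 6468058555) (nat_lit 912) (nat_lit 20777459920) (nat_lit 383) (nat_lit 5) (nat_lit 394) (nat_lit 5) (nat_lit 395) (nat_lit 5) (nat_lit 487) (nat_lit 462) (nat_lit 251)) (XT.lf (nat_lit 0) (nat_lit 4069767384) (nat_lit 760) (nat_lit 19884834750) (nat_lit 836) (nat_lit 14266141798) (nat_lit 373) (nat_lit 5) (nat_lit 383) (nat_lit 5) (nat_lit 384) (nat_lit 5) (nat_lit 488) (nat_lit 462) (nat_lit 250))) (XT.nd (nat_lit 78) (nat_lit 836) (nat_lit 0) (XT.lf (nat_lit 0) (nat_lit 31565094498) (nat_lit 836) (nat_lit 2245316479) (nat_lit 76) (nat_lit 5051315616) (nat_lit 373) (nat_lit 5) (nat_lit 384) (nat_lit 5) (nat_lit 374) (nat_lit 5) (nat_lit 489) (nat_lit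 462) (nat_lit 249)) (XT.lf (nat_lit 0) (nat_lit 216174065) (nat_lit 836) (nat_lit 8630416125) (nat_lit 76) (nat_lit 30668710690) (nat_lit 362) (nat_lit 5) (nat_lit 373) (nat_lit 5) (nat_lit 363) (nat_lit 5) (nat_lit 490) (nat_lit 462) (nat_lit 248))))) (XT.nd (nat_lit 312) (nat_lit 2052) (nat_lit 0) (XT.nd (nat_lit 156) (nat_lit 1368) (nat_lit 0) (XT.nd (nat_lit 78) (nat_lit 760) (nat_lit 0) (XT.lf (nat_lit 0) (nat_lit 8142285072) (nat_lit 836) (nat_lit 15166049835) (nat_lit 76) (nat_lit 16873441884) (nat_lit 352) (nat_lit 5) (nat_lit 363) (nat_lit 5) (nat_lit 353) (nat_lit 5) (nat_lit 491) (nat_lit 462) (nat_lit 247)) (XT.lf (nat_lit 0) (nat_lit 16562011499) (nat_lit 836) (nat_lit 21769989223) (nat_lit 76) (nat_lit 2531129690) (nat_lit 342) (nat_lit 5) (nat_lit 353) (nat_lit 5) (nat_lit 343) (nat_lit 5) (nat_lit 492) (nat_lit 462) (nat_lit 246))) (XT.nd (nat_lit 78) (nat_lit 684) (nat_lit 0) (XT.lf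 (nat_lit 0) (nat_lit 13035977979) (nat_lit 684) (nat_lit 12539449221) (nat_lit 760) (nat_lit 15982675564) (nat_lit 333) (nat_lit 5) (nat_lit 342) (nat_lit 5) (nat_lit 343) (nat_lit 5) (nat_lit 493) (nat_lit 462) (nat_lit 245)) (XT.lf (nat_lit 0) (nat_lit 6908426092) (nat_lit 684) (nat_lit 28232437838) (nat_lit 760) (nat_lit 7127428056) (nat_lit 324) (nat_lit 5) (nat_lit 333) (nat_lit 5) (nat_lit 334) (nat_lit 5) (nat_lit 494) (nat_lit 462) (nat_lit 244)))) (XT.nd (nat_lit 156) (nat_lit 1292) (nat_lit 0) (XT.nd (nat_lit 78) (nat_lit 0) (nat_lit 0) (XT.lf (nat_lit 0) (nat_lit 704289078) (nat_lit 684) (nat_lit 1543265393) (nat_lit 760) (nat_lit 40746369172) (nat_lit 314) (nat_lit 5) (nat_lit 323) (nat_lit 5) (nat_lit 324) (nat_lit 5) (nat_lit 495) (nat_lit 462) (nat_lit 243)) (XT.lf (nat_lit 0) (nat_lit 12214457859) (nat_lit 760) (nat_lit 5623118951) (nat_lit 76) (nat_lit 25894655154) (nat_lit 314) (nat_lit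 5) (nat_lit 324) (nat_lit 5) (nat_lit 315) (nat_lit 5) (nat_lit 496) (nat_lit 462) (nat_lit 242))) (XT.nd (nat_lit 78) (nat_lit 608) (nat_lit 0) (XT.lf (nat_lit 0) (nat_lit 22763444176) (nat_lit 760) (nat_lit 11995406756) (nat_lit 76) (nat_lit 9728177149) (nat_lit 305) (nat_lit 5) (nat_lit 315) (nat_lit 5) (nat_lit 306) (nat_lit 5) (nat_lit 497) (nat_lit 462) (nat_lit 241)) (XT.lf (nat_lit 0) (nat_lit 26791750968) (nat_lit 608) (nat_lit 7166169092) (nat_lit 684) (nat_lit 11299967683) (nat_lit 297) (nat_lit 5) (nat_lit 305) (nat_lit 5) (nat_lit 306) (nat_lit 5) (nat_lit 498) (nat_lit 462) (nat_lit 240)))))) (XT.nd (nat_lit 546) (nat_lit 3040) (nat_lit 0) (XT.nd (nat_lit 234) (nat_lit 1748) (nat_lit 0) (XT.nd (nat_lit 78) (nat_lit 1292) (nat_lit 0) (XT.lf (nat_lit 0) (nat_lit 20990073316) (nat_lit 608) (nat_lit 24851735348) (nat_lit 684) (nat_lit 202993022) (nat_lit 289) (nat_lit 5) (nat_lit 297) (nat_lit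 5) (nat_lit 298) (nat_lit 5) (nat_lit 499) (nat_lit 462) (nat_lit 239)) (XT.nd (nat_lit 78) (nat_lit 608) (nat_lit 0) (XT.lf (nat_lit 0) (nat_lit 11373480893) (nat_lit 684) (nat_lit 31769629492) (nat_lit 76) (nat_lit 3704878215) (nat_lit 280) (nat_lit 5) (nat_lit 289) (nat_lit 5) (nat_lit 281) (nat_lit 5) (nat_lit 500) (nat_lit 462) (nat_lit 238)) (XT.lf (nat_lit 0) (nat_lit 9033185561) (nat_lit 608) (nat_lit 14654630577) (nat_lit 684) (nat_lit 23979561703) (nat_lit 272) (nat_lit 5) (nat_lit 280) (nat_lit 5) (nat_lit 281) (nat_lit 5) (nat_lit 501) (nat_lit 462) (nat_lit 237)))) (XT.nd (nat_lit 156) (nat_lit 1140) (nat_lit 0) (XT.nd (nat_lit 78) (nat_lit 76) (nat_lit 0) (XT.lf (nat_lit 0) (nat_lit 2926377195) (nat_lit 532) (nat_lit 33773887197) (nat_lit 608) (nat_lit 11804510762) (nat_lit 265) (nat_lit 5) (nat_lit 272) (nat_lit 5) (nat_lit 273) (nat_lit 5) (nat_lit 502) (nat_lit 462) (nat_lit 236)) (XT.lf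 (nat_lit 0) (nat_lit 1085317805) (nat_lit 608) (nat_lit 3207076731) (nat_lit 76) (nat_lit 45067620832) (nat_lit 264) (nat_lit 5) (nat_lit 272) (nat_lit 5) (nat_lit 265) (nat_lit 5) (nat_lit 503) (nat_lit 462) (nat_lit 235))) (XT.nd (nat_lit 78) (nat_lit 532) (nat_lit 0) (XT.lf (nat_lit 0) (nat_lit 14637136060) (nat_lit 684) (nat_lit 9515924771) (nat_lit 76) (nat_lit 26077578013) (nat_lit 256) (nat_lit 5) (nat_lit 265) (nat_lit 5) (nat_lit 257) (nat_lit 5) (nat_lit 504) (nat_lit 462) (nat_lit 234)) (XT.lf (nat_lit 0) (nat_lit 28914792727) (nat_lit 608) (nat_lit 15861316388) (nat_lit 76) (nat_lit 6344886281) (nat_lit 249) (nat_lit 5) (nat_lit 257) (nat_lit 5) (nat_lit 250) (nat_lit 5) (nat_lit 505) (nat_lit 462) (nat_lit 233))))) (XT.nd (nat_lit 312) (nat_lit 988) (nat_lit 0) (XT.nd (nat_lit 156) (nat_lit 988) (nat_lit 0) (XT.nd (nat_lit 78) (nat_lit 532) (nat_lit 0) (XT.lf (nat_lit 0) (nat_lit 29696568475)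 (nat_lit 532) (nat_lit 14341248258) (nat_lit 608) (nat_lit 7991905204) (nat_lit 242) (nat_lit 5) (nat_lit 249) (nat_lit 5) (nat_lit 250) (nat_lit 5) (nat_lit 506) (nat_lit 462) (nat_lit 232)) (XT.lf (nat_lit 0) (nat_lit 6936856493) (nat_lit 532) (nat_lit 28927495890) (nat_lit 76) (nat_lit 17092989848) (nat_lit 235) (nat_lit 5) (nat_lit 242) (nat_lit 5) (nat_lit 236) (nat_lit 5) (nat_lit 507) (nat_lit 462) (nat_lit 231))) (XT.nd (nat_lit 78) (nat_lit 456) (nat_lit 0) (XT.lf (nat_lit 0) (nat_lit 18265917184) (nat_lit 532) (nat_lit 4304309156) (nat_lit 608) (nat_lit 31334201828) (nat_lit 228) (nat_lit 5) (nat_lit 235) (nat_lit 5) (nat_lit 236) (nat_lit 5) (nat_lit 508) (nat_lit 462) (nat_lit 230)) (XT.lf (nat_lit 0) (nat_lit 12369967526) (nat_lit 456) (nat_lit 26761276849) (nat_lit 532) (nat_lit 15739509409) (nat_lit 222) (nat_lit 5) (nat_lit 228) (nat_lit 5) (nat_lit 229) (nat_lit 5) (nat_lit 509) (nat_lit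 462) (nat_lit 229)))) (XT.nd (nat_lit 58812) (nat_lit 0) (nat_lit 20672) (XT.nd (nat_lit 78) (nat_lit 456) (nat_lit 0) (XT.lf (nat_lit 0) (nat_lit 668846370) (nat_lit 532) (nat_lit 49402802533) (nat_lit 76) (nat_lit 5787377176) (nat_lit 215) (nat_lit 5) (nat_lit 222) (nat_lit 5) (nat_lit 216) (nat_lit 5) (nat_lit 510) (nat_lit 462) (nat_lit 228)) (XT.lf (nat_lit 0) (nat_lit 307501832) (nat_lit 456) (nat_lit 17518166781) (nat_lit 532) (nat_lit 39039796124) (nat_lit 209) (nat_lit 5) (nat_lit 215) (nat_lit 5) (nat_lit 216) (nat_lit 5) (nat_lit 511) (nat_lit 462) (nat_lit 227))) (XT.nd (nat_lit 78) (nat_lit 0) (nat_lit 76) (XT.lf (nat_lit 0) (nat_lit 1874825818) (nat_lit 1900) (nat_lit 5612841713) (nat_lit 1900) (nat_lit 5612841713) (nat_lit 481) (nat_lit 3) (nat_lit 506) (nat_lit 3) (nat_lit 506) (nat_lit 5) (nat_lit 463) (nat_lit 463) (nat_lit 274)) (XT.lf (nat_lit 0) (nat_lit 4033437710) (nat_lit 1824)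 (nat_lit 18162421740) (nat_lit 1900) (nat_lit 4393619141) (nat_lit 482) (nat_lit 5) (nat_lit 506) (nat_lit 5) (nat_lit 507) (nat_lit 5) (nat_lit 464) (nat_lit 463) (nat_lit 273))))))))
noncomputable def xc112 : XT := (XT.nd (nat_lit 2262) (nat_lit 9652) (nat_lit 0) (XT.nd (nat_lit 1092) (nat_lit 9500) (nat_lit 0) (XT.nd (nat_lit 546) (nat_lit 1140) (nat_lit 0) (XT.nd (nat_lit 234) (nat_lit 0) (nat_lit 228) (XT.nd (nat_lit 78) (nat_lit 0) (nat_lit 76) (XT.lf (nat_lit 76) (nat_lit 1754295220) (nat_lit 0) (nat_lit 2753940940) (nat_lit 1900) (nat_lit 22477706530) (nat_lit 483) (nat_lit 5) (nat_lit 482) (nat_lit 5) (nat_lit 507) (nat_lit 5) (nat_lit 465) (nat_lit 463) (nat_lit 272)) (XT.nd (nat_lit 78) (nat_lit 0) (nat_lit 76) (XT.lf (nat_lit 0) (nat_lit 5227853953) (nat_lit 1824) (nat_lit 4990772654) (nat_lit 1900) (nat_lit 17171062761) (nat_lit 483) (nat_lit 5) (nat_lit 507) (nat_lit 5) (nat_lit 508) (nat_lit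 5) (nat_lit 466) (nat_lit 463) (nat_lit 271)) (XT.lf (nat_lit 0) (nat_lit 6151035867) (nat_lit 1824) (nat_lit 11821522285) (nat_lit 1900) (nat_lit 9829350943) (nat_lit 484) (nat_lit 5) (nat_lit 508) (nat_lit 5) (nat_lit 509) (nat_lit 5) (nat_lit 467) (nat_lit 463) (nat_lit 270)))) (XT.nd (nat_lit 156) (nat_lit 0) (nat_lit 76) (XT.nd (nat_lit 78) (nat_lit 0) (nat_lit 0) (XT.lf (nat_lit 0) (nat_lit 7275055645) (nat_lit 1824) (nat_lit 18761893464) (nat_lit 1900) (nat_lit 2186083613) (nat_lit 485) (nat_lit 5) (nat_lit 509) (nat_lit 5) (nat_lit 510) (nat_lit 5) (nat_lit 468) (nat_lit 463) (nat_lit 269)) (XT.lf (nat_lit 76) (nat_lit 2801785356) (nat_lit 0) (nat_lit 5845029508) (nat_lit 1900) (nat_lit 20005694966) (nat_lit 486) (nat_lit 5) (nat_lit 485) (nat_lit 5) (nat_lit 510) (nat_lit 5) (nat_lit 469) (nat_lit 463) (nat_lit 268))) (XT.nd (nat_lit 78) (nat_lit 0) (nat_lit 76) (XT.lf (nat_lit 0) (nat_lit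 10279925370) (nat_lit 1824) (nat_lit 3924267979) (nat_lit 1900) (nat_lit 14886274080) (nat_lit 486) (nat_lit 5) (nat_lit 510) (nat_lit 5) (nat_lit 511) (nat_lit 5) (nat_lit 470) (nat_lit 463) (nat_lit 267)) (XT.lf (nat_lit 0) (nat_lit 12162683635) (nat_lit 1824) (nat_lit 10717025927) (nat_lit 1900) (nat_lit 6657841246) (nat_lit 487) (nat_lit 5) (nat_lit 511) (nat_lit 5) (nat_lit 512) (nat_lit 5) (nat_lit 471) (nat_lit 463) (nat_lit 266))))) (XT.nd (nat_lit 234) (nat_lit 1520) (nat_lit 0) (XT.nd (nat_lit 78) (nat_lit 0) (nat_lit 76) (XT.lf (nat_lit 76) (nat_lit 12367738294) (nat_lit 0) (nat_lit 1931650619) (nat_lit 1900) (nat_lit 15694708630) (nat_lit 488) (nat_lit 5) (nat_lit 487) (nat_lit 5) (nat_lit 512) (nat_lit 5) (nat_lit 472) (nat_lit 463) (nat_lit 265)) (XT.nd (nat_lit 78) (nat_lit 0) (nat_lit 76) (XT.lf (nat_lit 76) (nat_lit 5773332569) (nat_lit 0) (nat_lit 10960526609) (nat_lit 1900) (nat_lit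 13725808357) (nat_lit 489) (nat_lit 5) (nat_lit 488) (nat_lit 5) (nat_lit 513) (nat_lit 5) (nat_lit 473) (nat_lit 463) (nat_lit 264)) (XT.lf (nat_lit 0) (nat_lit 19438948316) (nat_lit 1824) (nat_lit 906278497) (nat_lit 1900) (nat_lit 10590026252) (nat_lit 489) (nat_lit 5) (nat_lit 513) (nat_lit 5) (nat_lit 514) (nat_lit 5) (nat_lit 474) (nat_lit 463) (nat_lit 263)))) (XT.nd (nat_lit 156) (nat_lit 1748) (nat_lit 0) (XT.nd (nat_lit 78) (nat_lit 0) (nat_lit 0) (XT.lf (nat_lit 0) (nat_lit 22457859788) (nat_lit 1824) (nat_lit 7606386078) (nat_lit 1900) (nat_lit 1356207025) (nat_lit 490) (nat_lit 5) (nat_lit 514) (nat_lit 5) (nat_lit 515) (nat_lit 5) (nat_lit 475) (nat_lit 463) (nat_lit 262)) (XT.lf (nat_lit 76) (nat_lit 17458011466) (nat_lit 0) (nat_lit 8360798634) (nat_lit 1900) (nat_lit 6096369305) (nat_lit 491) (nat_lit 5) (nat_lit 490) (nat_lit 5) (nat_lit 515) (nat_lit 5) (nat_lit 476) (nat_lit 463)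 (nat_lit 261))) (XT.nd (nat_lit 78) (nat_lit 1824) (nat_lit 0) (XT.lf (nat_lit 76) (nat_lit 11004639852) (nat_lit 0) (nat_lit 18486128041) (nat_lit 1900) (nat_lit 2929776361) (nat_lit 492) (nat_lit 5) (nat_lit 491) (nat_lit 5) (nat_lit 516) (nat_lit 5) (nat_lit 477) (nat_lit 463) (nat_lit 260)) (XT.lf (nat_lit 0) (nat_lit 533007302) (nat_lit 1900) (nat_lit 28477295356) (nat_lit 1976) (nat_lit 3926613523) (nat_lit 467) (nat_lit 5) (nat_lit 492) (nat_lit 5) (nat_lit 493) (nat_lit 5) (nat_lit 478) (nat_lit 463) (nat_lit 259)))))) (XT.nd (nat_lit 546) (nat_lit 5776) (nat_lit 0) (XT.nd (nat_lit 234) (nat_lit 2660) (nat_lit 0) (XT.nd (nat_lit 78) (nat_lit 1064) (nat_lit 0) (XT.lf (nat_lit 0) (nat_lit 4325961002) (nat_lit 1900) (nat_lit 2208759919) (nat_lit 1976) (nat_lit 26928349324) (nat_lit 467) (nat_lit 5) (nat_lit 492) (nat_lit 5) (nat_lit 493) (nat_lit 5) (nat_lit 479) (nat_lit 463) (nat_lit 258)) (XT.nd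 (nat_lit 78) (nat_lit 1140) (nat_lit 0) (XT.lf (nat_lit 0) (nat_lit 8501386443) (nat_lit 1900) (nat_lit 8935938568) (nat_lit 76) (nat_lit 16562310363) (nat_lit 468) (nat_lit 5) (nat_lit 493) (nat_lit 5) (nat_lit 469) (nat_lit 5) (nat_lit 480) (nat_lit 463) (nat_lit 257)) (XT.lf (nat_lit 0) (nat_lit 13017477943) (nat_lit 1216) (nat_lit 15754186443) (nat_lit 76) (nat_lit 5776325110) (nat_lit 453) (nat_lit 5) (nat_lit 469) (nat_lit 5) (nat_lit 454) (nat_lit 5) (nat_lit 481) (nat_lit 463) (nat_lit 256)))) (XT.nd (nat_lit 156) (nat_lit 836) (nat_lit 0) (XT.nd (nat_lit 78) (nat_lit 912) (nat_lit 0) (XT.lf (nat_lit 0) (nat_lit 12408687683) (nat_lit 912) (nat_lit 5514943824) (nat_lit 988) (nat_lit 17184071249) (nat_lit 441) (nat_lit 5) (nat_lit 453) (nat_lit 5) (nat_lit 454) (nat_lit 5) (nat_lit 482) (nat_lit 463) (nat_lit 255)) (XT.lf (nat_lit 0) (nat_lit 5903790514) (nat_lit 912) (nat_lit 17335228062) (nat_lit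 988) (nat_lit 12439947956) (nat_lit 429) (nat_lit 5) (nat_lit 441) (nat_lit 5) (nat_lit 442) (nat_lit 5) (nat_lit 483) (nat_lit 463) (nat_lit 254))) (XT.nd (nat_lit 78) (nat_lit 836) (nat_lit 0) (XT.lf (nat_lit 0) (nat_lit 28944656375) (nat_lit 988) (nat_lit 672510473) (nat_lit 76) (nat_lit 6645585687) (nat_lit 429) (nat_lit 5) (nat_lit 442) (nat_lit 5) (nat_lit 430) (nat_lit 5) (nat_lit 484) (nat_lit 463) (nat_lit 253)) (XT.lf (nat_lit 0) (nat_lit 29571994655) (nat_lit 836) (nat_lit 5554112152) (nat_lit 912) (nat_lit 1731852533) (nat_lit 418) (nat_lit 5) (nat_lit 429) (nat_lit 5) (nat_lit 430) (nat_lit 5) (nat_lit 485) (nat_lit 463) (nat_lit 252))))) (XT.nd (nat_lit 312) (nat_lit 2356) (nat_lit 0) (XT.nd (nat_lit 156) (nat_lit 1596) (nat_lit 0) (XT.nd (nat_lit 78) (nat_lit 836) (nat_lit 0) (XT.lf (nat_lit 0) (nat_lit 4249508046) (nat_lit 988) (nat_lit 14051919893) (nat_lit 76) (nat_lit 19163466659)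 (nat_lit 405) (nat_lit 5) (nat_lit 418) (nat_lit 5) (nat_lit 406) (nat_lit 5) (nat_lit 486) (nat_lit 463) (nat_lit 251)) (XT.lf (nat_lit 0) (nat_lit 10625461625) (nat_lit 912) (nat_lit 20911814920) (nat_lit 76) (nat_lit 6547758878) (nat_lit 394) (nat_lit 5) (nat_lit 406) (nat_lit 5) (nat_lit 395) (nat_lit 5) (nat_lit 487) (nat_lit 463) (nat_lit 250))) (XT.nd (nat_lit 78) (nat_lit 760) (nat_lit 0) (XT.lf (nat_lit 0) (nat_lit 10821318186) (nat_lit 836) (nat_lit 6656789838) (nat_lit 912) (nat_lit 21239964246) (nat_lit 383) (nat_lit 5) (nat_lit 394) (nat_lit 5) (nat_lit 395) (nat_lit 5) (nat_lit 488) (nat_lit 463) (nat_lit 249)) (XT.lf (nat_lit 0) (nat_lit 4355261169) (nat_lit 760) (nat_lit 20472143346) (nat_lit 836) (nat_lit 14536874374) (nat_lit 373) (nat_lit 5) (nat_lit 383) (nat_lit 5) (nat_lit 384) (nat_lit 5) (nat_lit 489) (nat_lit 463) (nat_lit 248)))) (XT.nd (nat_lit 156) (nat_lit 1520) (nat_lit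 0) (XT.nd (nat_lit 78) (nat_lit 836) (nat_lit 0) (XT.lf (nat_lit 0) (nat_lit 32661779650) (nat_lit 836) (nat_lit 2151095241) (nat_lit 76) (nat_lit 5211704899) (nat_lit 373) (nat_lit 5) (nat_lit 384) (nat_lit 5) (nat_lit 374) (nat_lit 5) (nat_lit 490) (nat_lit 463) (nat_lit 247)) (XT.lf (nat_lit 0) (nat_lit 370035885) (nat_lit 836) (nat_lit 8728407010) (nat_lit 76) (nat_lit 31599365715) (nat_lit 362) (nat_lit 5) (nat_lit 373) (nat_lit 5) (nat_lit 363) (nat_lit 5) (nat_lit 491) (nat_lit 463) (nat_lit 246))) (XT.nd (nat_lit 78) (nat_lit 760) (nat_lit 0) (XT.lf (nat_lit 0) (nat_lit 8530757748) (nat_lit 836) (nat_lit 15459926788) (nat_lit 76) (nat_lit 17393657822) (nat_lit 352) (nat_lit 5) (nat_lit 363) (nat_lit 5) (nat_lit 353) (nat_lit 5) (nat_lit 492) (nat_lit 463) (nat_lit 245)) (XT.lf (nat_lit 0) (nat_lit 17200018222) (nat_lit 836) (nat_lit 22261887226) (nat_lit 76) (nat_lit 2624292401) (nat_lit 342)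 (nat_lit 5) (nat_lit 353) (nat_lit 5) (nat_lit 343) (nat_lit 5) (nat_lit 493) (nat_lit 463) (nat_lit 244))))))) (XT.nd (nat_lit 1092) (nat_lit 2052) (nat_lit 0) (XT.nd (nat_lit 546) (nat_lit 3572) (nat_lit 0) (XT.nd (nat_lit 234) (nat_lit 1900) (nat_lit 0) (XT.nd (nat_lit 78) (nat_lit 1444) (nat_lit 0) (XT.lf (nat_lit 0) (nat_lit 13585643688) (nat_lit 684) (nat_lit 12895111295) (nat_lit 760) (nat_lit 16321326120) (nat_lit 333) (nat_lit 5) (nat_lit 342) (nat_lit 5) (nat_lit 343) (nat_lit 5) (nat_lit 494) (nat_lit 463) (nat_lit 243)) (XT.nd (nat_lit 78) (nat_lit 760) (nat_lit 0) (XT.lf (nat_lit 0) (nat_lit 7274281180) (nat_lit 684) (nat_lit 29056011433) (nat_lit 760) (nat_lit 7203340731) (nat_lit 324) (nat_lit 5) (nat_lit 333) (nat_lit 5) (nat_lit 334) (nat_lit 5) (nat_lit 495) (nat_lit 463) (nat_lit 242)) (XT.lf (nat_lit 0) (nat_lit 883229521) (nat_lit 684) (nat_lit 1564913532) (nat_lit 760) (nat_lit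 41832931876) (nat_lit 314) (nat_lit 5) (nat_lit 323) (nat_lit 5) (nat_lit 324) (nat_lit 5) (nat_lit 496) (nat_lit 463) (nat_lit 241)))) (XT.nd (nat_lit 156) (nat_lit 1216) (nat_lit 0) (XT.nd (nat_lit 78) (nat_lit 684) (nat_lit 0) (XT.lf (nat_lit 0) (nat_lit 12710330421) (nat_lit 760) (nat_lit 5636163830) (nat_lit 76) (nat_lit 26695112804) (nat_lit 314) (nat_lit 5) (nat_lit 324) (nat_lit 5) (nat_lit 315) (nat_lit 5) (nat_lit 497) (nat_lit 463) (nat_lit 240)) (XT.lf (nat_lit 0) (nat_lit 23573182243) (nat_lit 760) (nat_lit 12199781024) (nat_lit 76) (nat_lit 10046135960) (nat_lit 305) (nat_lit 5) (nat_lit 315) (nat_lit 5) (nat_lit 306) (nat_lit 5) (nat_lit 498) (nat_lit 463) (nat_lit 239))) (XT.nd (nat_lit 78) (nat_lit 608) (nat_lit 0) (XT.lf (nat_lit 0) (nat_lit 27748468825) (nat_lit 608) (nat_lit 7352322516) (nat_lit 684) (nat_lit 11512347448) (nat_lit 297) (nat_lit 5) (nat_lit 305) (nat_lit 5) (nat_lit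 306) (nat_lit 5) (nat_lit 499) (nat_lit 463) (nat_lit 238)) (XT.lf (nat_lit 0) (nat_lit 21772520267) (nat_lit 608) (nat_lit 25566234254) (nat_lit 684) (nat_lit 84954555) (nat_lit 289) (nat_lit 5) (nat_lit 297) (nat_lit 5) (nat_lit 298) (nat_lit 5) (nat_lit 500) (nat_lit 463) (nat_lit 237))))) (XT.nd (nat_lit 234) (nat_lit 1748) (nat_lit 0) (XT.nd (nat_lit 78) (nat_lit 1140) (nat_lit 0) (XT.lf (nat_lit 0) (nat_lit 11834811147) (nat_lit 684) (nat_lit 32568653844) (nat_lit 76) (nat_lit 3847558058) (nat_lit 280) (nat_lit 5) (nat_lit 289) (nat_lit 5) (nat_lit 281) (nat_lit 5) (nat_lit 501) (nat_lit 463) (nat_lit 236)) (XT.nd (nat_lit 78) (nat_lit 532) (nat_lit 0) (XT.lf (nat_lit 0) (nat_lit 9455746147) (nat_lit 608) (nat_lit 15060315553) (nat_lit 684) (nat_lit 24578982641) (nat_lit 272) (nat_lit 5) (nat_lit 280) (nat_lit 5) (nat_lit 281) (nat_lit 5) (nat_lit 502) (nat_lit 463) (nat_lit 235)) (XT.lf (nat_lit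 0) (nat_lit 3165374324) (nat_lit 532) (nat_lit 34751279271) (nat_lit 608) (nat_lit 12040954650) (nat_lit 265) (nat_lit 5) (nat_lit 272) (nat_lit 5) (nat_lit 273) (nat_lit 5) (nat_lit 503) (nat_lit 463) (nat_lit 234)))) (XT.nd (nat_lit 156) (nat_lit 1064) (nat_lit 0) (XT.nd (nat_lit 78) (nat_lit 608) (nat_lit 0) (XT.lf (nat_lit 0) (nat_lit 1230642281) (nat_lit 608) (nat_lit 3154986270) (nat_lit 76) (nat_lit 46452929563) (nat_lit 264) (nat_lit 5) (nat_lit 272) (nat_lit 5) (nat_lit 265) (nat_lit 5) (nat_lit 504) (nat_lit 463) (nat_lit 233)) (XT.lf (nat_lit 0) (nat_lit 15186908214) (nat_lit 684) (nat_lit 9653525175) (nat_lit 76) (nat_lit 26894909114) (nat_lit 256) (nat_lit 5) (nat_lit 265) (nat_lit 5) (nat_lit 257) (nat_lit 5) (nat_lit 505) (nat_lit 463) (nat_lit 232))) (XT.nd (nat_lit 78) (nat_lit 532) (nat_lit 0) (XT.lf (nat_lit 0) (nat_lit 29890856940) (nat_lit 608) (nat_lit 16189748676) (nat_lit 76)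 (nat_lit 6571844956) (nat_lit 249) (nat_lit 5) (nat_lit 257) (nat_lit 5) (nat_lit 250) (nat_lit 5) (nat_lit 506) (nat_lit 463) (nat_lit 231)) (XT.lf (nat_lit 0) (nat_lit 30732481227) (nat_lit 532) (nat_lit 14732868276) (nat_lit 608) (nat_lit 8123133916) (nat_lit 242) (nat_lit 5) (nat_lit 249) (nat_lit 5) (nat_lit 250) (nat_lit 5) (nat_lit 507) (nat_lit 463) (nat_lit 230)))))) (XT.nd (nat_lit 59280) (nat_lit 0) (nat_lit 20368) (XT.nd (nat_lit 234) (nat_lit 532) (nat_lit 0) (XT.nd (nat_lit 78) (nat_lit 988) (nat_lit 0) (XT.lf (nat_lit 0) (nat_lit 7250137217) (nat_lit 532) (nat_lit 29649408998) (nat_lit 76) (nat_lit 17644410679) (nat_lit 235) (nat_lit 5) (nat_lit 242) (nat_lit 5) (nat_lit 236) (nat_lit 5) (nat_lit 508) (nat_lit 463) (nat_lit 229)) (XT.nd (nat_lit 78) (nat_lit 456) (nat_lit 0) (XT.lf (nat_lit 0) (nat_lit 18957439224) (nat_lit 532) (nat_lit 4392937571) (nat_lit 608) (nat_lit 32169121302)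 (nat_lit 228) (nat_lit 5) (nat_lit 235) (nat_lit 5) (nat_lit 236) (nat_lit 5) (nat_lit 509) (nat_lit 463) (nat_lit 228)) (XT.lf (nat_lit 0) (nat_lit 12884052992) (nat_lit 456) (nat_lit 27522354769) (nat_lit 532) (nat_lit 16108442131) (nat_lit 222) (nat_lit 5) (nat_lit 228) (nat_lit 5) (nat_lit 229) (nat_lit 5) (nat_lit 510) (nat_lit 463) (nat_lit 227)))) (XT.nd (nat_lit 58890) (nat_lit 0) (nat_lit 20292) (XT.nd (nat_lit 58812) (nat_lit 0) (nat_lit 20216) (XT.lf (nat_lit 0) (nat_lit 789037849) (nat_lit 532) (nat_lit 50741160553) (nat_lit 76) (nat_lit 6002594049) (nat_lit 215) (nat_lit 5) (nat_lit 222) (nat_lit 5) (nat_lit 216) (nat_lit 5) (nat_lit 511) (nat_lit 463) (nat_lit 226)) (XT.lf (nat_lit 0) (nat_lit 2073419408) (nat_lit 1900) (nat_lit 5708626914) (nat_lit 1900) (nat_lit 5708626914) (nat_lit 481) (nat_lit 3) (nat_lit 506) (nat_lit 3) (nat_lit 506) (nat_lit 5) (nat_lit 464) (nat_lit 464) (nat_lit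 272))) (XT.nd (nat_lit 78) (nat_lit 0) (nat_lit 0) (XT.lf (nat_lit 0) (nat_lit 4430900561) (nat_lit 1824) (nat_lit 18558021780) (nat_lit 1900) (nat_lit 4392703049) (nat_lit 482) (nat_lit 5) (nat_lit 506) (nat_lit 5) (nat_lit 507) (nat_lit 5) (nat_lit 465) (nat_lit 464) (nat_lit 271)) (XT.lf (nat_lit 76) (nat_lit 1953774919) (nat_lit 0) (nat_lit 2959069275) (nat_lit 1900) (nat_lit 22877281437) (nat_lit 483) (nat_lit 5) (nat_lit 482) (nat_lit 5) (nat_lit 507) (nat_lit 5) (nat_lit 466) (nat_lit 464) (nat_lit 270))))) (XT.nd (nat_lit 312) (nat_lit 0) (nat_lit 228) (XT.nd (nat_lit 156) (nat_lit 0) (nat_lit 152) (XT.nd (nat_lit 78) (nat_lit 0) (nat_lit 76) (XT.lf (nat_lit 0) (nat_lit 5645432806) (nat_lit 1824) (nat_lit 4991911757) (nat_lit 1900) (nat_lit 17568812736) (nat_lit 483) (nat_lit 5) (nat_lit 507) (nat_lit 5) (nat_lit 508) (nat_lit 5) (nat_lit 467) (nat_lit 464) (nat_lit 269)) (XT.lf (nat_lit 0)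 (nat_lit 6588964053) (nat_lit 1824) (nat_lit 12024204150) (nat_lit 1900) (nat_lit 10017722568) (nat_lit 484) (nat_lit 5) (nat_lit 508) (nat_lit 5) (nat_lit 509) (nat_lit 5) (nat_lit 468) (nat_lit 464) (nat_lit 268))) (XT.nd (nat_lit 78) (nat_lit 0) (nat_lit 0) (XT.lf (nat_lit 0) (nat_lit 7739661606) (nat_lit 1824) (nat_lit 19169671756) (nat_lit 1900) (nat_lit 2155455823) (nat_lit 485) (nat_lit 5) (nat_lit 509) (nat_lit 5) (nat_lit 510) (nat_lit 5) (nat_lit 469) (nat_lit 464) (nat_lit 267)) (XT.lf (nat_lit 76) (nat_lit 3038401464) (nat_lit 0) (nat_lit 6107987308) (nat_lit 1900) (nat_lit 20360885749) (nat_lit 486) (nat_lit 5) (nat_lit 485) (nat_lit 5) (nat_lit 510) (nat_lit 5) (nat_lit 470) (nat_lit 464) (nat_lit 266)))) (XT.nd (nat_lit 156) (nat_lit 0) (nat_lit 76) (XT.nd (nat_lit 78) (nat_lit 0) (nat_lit 76) (XT.lf (nat_lit 0) (nat_lit 10820945130) (nat_lit 1824) (nat_lit 3888654316) (nat_lit 1900)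 (nat_lit 15248922561) (nat_lit 486) (nat_lit 5) (nat_lit 510) (nat_lit 5) (nat_lit 511) (nat_lit 5) (nat_lit 471) (nat_lit 464) (nat_lit 265)) (XT.lf (nat_lit 0) (nat_lit 12753896928) (nat_lit 1824) (nat_lit 10882646206) (nat_lit 1900) (nat_lit 6782600743) (nat_lit 487) (nat_lit 5) (nat_lit 511) (nat_lit 5) (nat_lit 512) (nat_lit 5) (nat_lit 472) (nat_lit 464) (nat_lit 264))) (XT.nd (nat_lit 78) (nat_lit 0) (nat_lit 76) (XT.lf (nat_lit 76) (nat_lit 12892131804) (nat_lit 0) (nat_lit 2056975066) (nat_lit 1900) (nat_lit 15940392270) (nat_lit 488) (nat_lit 5) (nat_lit 487) (nat_lit 5) (nat_lit 512) (nat_lit 5) (nat_lit 473) (nat_lit 464) (nat_lit 263)) (XT.lf (nat_lit 76) (nat_lit 6102185746) (nat_lit 0) (nat_lit 11348582188) (nat_lit 1900) (nat_lit 13918385358) (nat_lit 489) (nat_lit 5) (nat_lit 488) (nat_lit 5) (nat_lit 513) (nat_lit 5) (nat_lit 474) (nat_lit 464) (nat_lit 262))))))))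
noncomputable def xc113 : XT := (XT.nd (nat_lit 2262) (nat_lit 3344) (nat_lit 0) (XT.nd (nat_lit 1092) (nat_lit 9272) (nat_lit 0) (XT.nd (nat_lit 546) (nat_lit 5548) (nat_lit 0) (XT.nd (nat_lit 234) (nat_lit 1672) (nat_lit 0) (XT.nd (nat_lit 78) (nat_lit 0) (nat_lit 76) (XT.lf (nat_lit 0) (nat_lit 20230377305) (nat_lit 1824) (nat_lit 777794916) (nat_lit 1900) (nat_lit 10850967000) (nat_lit 489) (nat_lit 5) (nat_lit 513) (nat_lit 5) (nat_lit 514) (nat_lit 5) (nat_lit 475) (nat_lit 464) (nat_lit 261)) (XT.nd (nat_lit 78) (nat_lit 0) (nat_lit 0) (XT.lf (nat_lit 0) (nat_lit 23334459698) (nat_lit 1824) (nat_lit 7677036583) (nat_lit 1900) (nat_lit 1347506871) (nat_lit 490) (nat_lit 5) (nat_lit 514) (nat_lit 5) (nat_lit 515) (nat_lit 5) (nat_lit 476) (nat_lit 464) (nat_lit 260)) (XT.lf (nat_lit 76) (nat_lit 18136736971) (nat_lit 0) (nat_lit 8654599151) (nat_lit 1900) (nat_lit 6077333564) (nat_lit 491) (nat_lit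 5) (nat_lit 490) (nat_lit 5) (nat_lit 515) (nat_lit 5) (nat_lit 477) (nat_lit 464) (nat_lit 259)))) (XT.nd (nat_lit 156) (nat_lit 0) (nat_lit 0) (XT.nd (nat_lit 78) (nat_lit 1824) (nat_lit 0) (XT.lf (nat_lit 76) (nat_lit 11491425035) (nat_lit 0) (nat_lit 19077007883) (nat_lit 1900) (nat_lit 2820863128) (nat_lit 492) (nat_lit 5) (nat_lit 491) (nat_lit 5) (nat_lit 516) (nat_lit 5) (nat_lit 478) (nat_lit 464) (nat_lit 258)) (XT.lf (nat_lit 0) (nat_lit 738369072) (nat_lit 1900) (nat_lit 29170953881) (nat_lit 1976) (nat_lit 4011907861) (nat_lit 467) (nat_lit 5) (nat_lit 492) (nat_lit 5) (nat_lit 493) (nat_lit 5) (nat_lit 479) (nat_lit 464) (nat_lit 257))) (XT.nd (nat_lit 78) (nat_lit 0) (nat_lit 76) (XT.lf (nat_lit 0) (nat_lit 4639595706) (nat_lit 1900) (nat_lit 2119041808) (nat_lit 1976) (nat_lit 27704642457) (nat_lit 467) (nat_lit 5) (nat_lit 492) (nat_lit 5) (nat_lit 493) (nat_lit 5) (nat_lit 480) (nat_lit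 464) (nat_lit 256)) (XT.lf (nat_lit 0) (nat_lit 8935756073) (nat_lit 1900) (nat_lit 9046802255) (nat_lit 76) (nat_lit 17033474437) (nat_lit 468) (nat_lit 5) (nat_lit 493) (nat_lit 5) (nat_lit 469) (nat_lit 5) (nat_lit 481) (nat_lit 464) (nat_lit 255))))) (XT.nd (nat_lit 234) (nat_lit 2660) (nat_lit 0) (XT.nd (nat_lit 78) (nat_lit 1824) (nat_lit 0) (XT.lf (nat_lit 0) (nat_lit 13582978607) (nat_lit 1216) (nat_lit 16068508298) (nat_lit 76) (nat_lit 5929437788) (nat_lit 453) (nat_lit 5) (nat_lit 469) (nat_lit 5) (nat_lit 454) (nat_lit 5) (nat_lit 482) (nat_lit 464) (nat_lit 254)) (XT.nd (nat_lit 78) (nat_lit 912) (nat_lit 0) (XT.lf (nat_lit 0) (nat_lit 12936683762) (nat_lit 912) (nat_lit 5695547756) (nat_lit 988) (nat_lit 17525279682) (nat_lit 441) (nat_lit 5) (nat_lit 453) (nat_lit 5) (nat_lit 454) (nat_lit 5) (nat_lit 483) (nat_lit 464) (nat_lit 253)) (XT.lf (nat_lit 0) (nat_lit 6237576970) (nat_lit 912)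 (nat_lit 17865447509) (nat_lit 988) (nat_lit 12642969666) (nat_lit 429) (nat_lit 5) (nat_lit 441) (nat_lit 5) (nat_lit 442) (nat_lit 5) (nat_lit 484) (nat_lit 464) (nat_lit 252)))) (XT.nd (nat_lit 156) (nat_lit 1824) (nat_lit 0) (XT.nd (nat_lit 78) (nat_lit 836) (nat_lit 0) (XT.lf (nat_lit 0) (nat_lit 29974908069) (nat_lit 988) (nat_lit 537268208) (nat_lit 76) (nat_lit 6835216053) (nat_lit 429) (nat_lit 5) (nat_lit 442) (nat_lit 5) (nat_lit 430) (nat_lit 5) (nat_lit 485) (nat_lit 464) (nat_lit 251)) (XT.lf (nat_lit 0) (nat_lit 30612050608) (nat_lit 836) (nat_lit 5726028226) (nat_lit 912) (nat_lit 1622451102) (nat_lit 418) (nat_lit 5) (nat_lit 429) (nat_lit 5) (nat_lit 430) (nat_lit 5) (nat_lit 486) (nat_lit 464) (nat_lit 250))) (XT.nd (nat_lit 78) (nat_lit 836) (nat_lit 0) (XT.lf (nat_lit 0) (nat_lit 4532566060) (nat_lit 988) (nat_lit 14317839667) (nat_lit 76) (nat_lit 19735320058) (nat_lit 405) (nat_lit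 5) (nat_lit 418) (nat_lit 5) (nat_lit 406) (nat_lit 5) (nat_lit 487) (nat_lit 464) (nat_lit 249)) (XT.lf (nat_lit 0) (nat_lit 11096268104) (nat_lit 912) (nat_lit 21383018791) (nat_lit 76) (nat_lit 6745254665) (nat_lit 394) (nat_lit 5) (nat_lit 406) (nat_lit 5) (nat_lit 395) (nat_lit 5) (nat_lit 488) (nat_lit 464) (nat_lit 248)))))) (XT.nd (nat_lit 546) (nat_lit 4636) (nat_lit 0) (XT.nd (nat_lit 234) (nat_lit 3040) (nat_lit 0) (XT.nd (nat_lit 78) (nat_lit 760) (nat_lit 0) (XT.lf (nat_lit 0) (nat_lit 11299574951) (nat_lit 836) (nat_lit 6851487902) (nat_lit 912) (nat_lit 21725575398) (nat_lit 383) (nat_lit 5) (nat_lit 394) (nat_lit 5) (nat_lit 395) (nat_lit 5) (nat_lit 489) (nat_lit 464) (nat_lit 247)) (XT.nd (nat_lit 78) (nat_lit 0) (nat_lit 0) (XT.lf (nat_lit 0) (nat_lit 4639939896) (nat_lit 760) (nat_lit 21077601410) (nat_lit 836) (nat_lit 14824755818) (nat_lit 373) (nat_lit 5) (nat_lit 383) (nat_lit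 5) (nat_lit 384) (nat_lit 5) (nat_lit 490) (nat_lit 464) (nat_lit 246)) (XT.lf (nat_lit 0) (nat_lit 33782770108) (nat_lit 836) (nat_lit 2063322761) (nat_lit 76) (nat_lit 5376397845) (nat_lit 373) (nat_lit 5) (nat_lit 384) (nat_lit 5) (nat_lit 374) (nat_lit 5) (nat_lit 491) (nat_lit 464) (nat_lit 245)))) (XT.nd (nat_lit 156) (nat_lit 1444) (nat_lit 0) (XT.nd (nat_lit 78) (nat_lit 760) (nat_lit 0) (XT.lf (nat_lit 0) (nat_lit 520053540) (nat_lit 836) (nat_lit 8838575179) (nat_lit 76) (nat_lit 32557332270) (nat_lit 362) (nat_lit 5) (nat_lit 373) (nat_lit 5) (nat_lit 363) (nat_lit 5) (nat_lit 492) (nat_lit 464) (nat_lit 244)) (XT.lf (nat_lit 0) (nat_lit 8922606697) (nat_lit 836) (nat_lit 15771868109) (nat_lit 76) (nat_lit 17928675853) (nat_lit 352) (nat_lit 5) (nat_lit 363) (nat_lit 5) (nat_lit 353) (nat_lit 5) (nat_lit 493) (nat_lit 464) (nat_lit 243))) (XT.nd (nat_lit 78) (nat_lit 684) (nat_lit 0) (XT.lf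 (nat_lit 0) (nat_lit 17849062767) (nat_lit 836) (nat_lit 22777795804) (nat_lit 76) (nat_lit 2719260988) (nat_lit 342) (nat_lit 5) (nat_lit 353) (nat_lit 5) (nat_lit 343) (nat_lit 5) (nat_lit 494) (nat_lit 464) (nat_lit 242)) (XT.lf (nat_lit 0) (nat_lit 14142695861) (nat_lit 684) (nat_lit 13262621244) (nat_lit 760) (nat_lit 16678220394) (nat_lit 333) (nat_lit 5) (nat_lit 342) (nat_lit 5) (nat_lit 343) (nat_lit 5) (nat_lit 495) (nat_lit 464) (nat_lit 241))))) (XT.nd (nat_lit 312) (nat_lit 2508) (nat_lit 0) (XT.nd (nat_lit 156) (nat_lit 684) (nat_lit 0) (XT.nd (nat_lit 78) (nat_lit 760) (nat_lit 0) (XT.lf (nat_lit 0) (nat_lit 7642007501) (nat_lit 684) (nat_lit 29905635465) (nat_lit 760) (nat_lit 7289447395) (nat_lit 324) (nat_lit 5) (nat_lit 333) (nat_lit 5) (nat_lit 334) (nat_lit 5) (nat_lit 496) (nat_lit 464) (nat_lit 240)) (XT.lf (nat_lit 0) (nat_lit 1058479136) (nat_lit 684) (nat_lit 1588626117) (nat_lit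 760) (nat_lit 42959888565) (nat_lit 314) (nat_lit 5) (nat_lit 323) (nat_lit 5) (nat_lit 324) (nat_lit 5) (nat_lit 497) (nat_lit 464) (nat_lit 239))) (XT.nd (nat_lit 78) (nat_lit 684) (nat_lit 0) (XT.lf (nat_lit 0) (nat_lit 13213648842) (nat_lit 760) (nat_lit 5658534927) (nat_lit 76) (nat_lit 27518228414) (nat_lit 314) (nat_lit 5) (nat_lit 324) (nat_lit 5) (nat_lit 315) (nat_lit 5) (nat_lit 498) (nat_lit 464) (nat_lit 238)) (XT.lf (nat_lit 0) (nat_lit 24399931620) (nat_lit 760) (nat_lit 12419212163) (nat_lit 76) (nat_lit 10372134515) (nat_lit 305) (nat_lit 5) (nat_lit 315) (nat_lit 5) (nat_lit 306) (nat_lit 5) (nat_lit 499) (nat_lit 464) (nat_lit 237)))) (XT.nd (nat_lit 156) (nat_lit 1216) (nat_lit 0) (XT.nd (nat_lit 78) (nat_lit 684) (nat_lit 0) (XT.lf (nat_lit 0) (nat_lit 28725107382) (nat_lit 608) (nat_lit 7545715597) (nat_lit 684) (nat_lit 11738367069) (nat_lit 297) (nat_lit 5) (nat_lit 305) (nat_lit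 5) (nat_lit 306) (nat_lit 5) (nat_lit 500) (nat_lit 464) (nat_lit 236)) (XT.lf (nat_lit 0) (nat_lit 29112702) (nat_lit 684) (nat_lit 26274642641) (nat_lit 76) (nat_lit 22540364388) (nat_lit 288) (nat_lit 5) (nat_lit 297) (nat_lit 5) (nat_lit 289) (nat_lit 5) (nat_lit 501) (nat_lit 464) (nat_lit 235))) (XT.nd (nat_lit 78) (nat_lit 608) (nat_lit 0) (XT.lf (nat_lit 0) (nat_lit 12303085595) (nat_lit 684) (nat_lit 33400492861) (nat_lit 76) (nat_lit 3992708144) (nat_lit 280) (nat_lit 5) (nat_lit 289) (nat_lit 5) (nat_lit 281) (nat_lit 5) (nat_lit 502) (nat_lit 464) (nat_lit 234)) (XT.lf (nat_lit 0) (nat_lit 9882283098) (nat_lit 608) (nat_lit 15480120174) (nat_lit 684) (nat_lit 25203272741) (nat_lit 272) (nat_lit 5) (nat_lit 280) (nat_lit 5) (nat_lit 281) (nat_lit 5) (nat_lit 503) (nat_lit 464) (nat_lit 233))))))) (XT.nd (nat_lit 60060) (nat_lit 0) (nat_lit 14440) (XT.nd (nat_lit 59436) (nat_lit 0) (nat_lit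 19228) (XT.nd (nat_lit 234) (nat_lit 2128) (nat_lit 0) (XT.nd (nat_lit 78) (nat_lit 684) (nat_lit 0) (XT.lf (nat_lit 0) (nat_lit 3402861534) (nat_lit 532) (nat_lit 35760049583) (nat_lit 608) (nat_lit 12291247825) (nat_lit 265) (nat_lit 5) (nat_lit 272) (nat_lit 5) (nat_lit 273) (nat_lit 5) (nat_lit 504) (nat_lit 464) (nat_lit 232)) (XT.nd (nat_lit 78) (nat_lit 608) (nat_lit 0) (XT.lf (nat_lit 0) (nat_lit 1373853323) (nat_lit 608) (nat_lit 3109846281) (nat_lit 76) (nat_lit 47877887141) (nat_lit 264) (nat_lit 5) (nat_lit 272) (nat_lit 5) (nat_lit 265) (nat_lit 5) (nat_lit 505) (nat_lit 464) (nat_lit 231)) (XT.lf (nat_lit 0) (nat_lit 15746821307) (nat_lit 684) (nat_lit 9803742355) (nat_lit 76) (nat_lit 27734750789) (nat_lit 256) (nat_lit 5) (nat_lit 265) (nat_lit 5) (nat_lit 257) (nat_lit 5) (nat_lit 506) (nat_lit 464) (nat_lit 230)))) (XT.nd (nat_lit 156) (nat_lit 1064) (nat_lit 0) (XT.nd (nat_lit 78)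 (nat_lit 532) (nat_lit 0) (XT.lf (nat_lit 0) (nat_lit 30889967823) (nat_lit 608) (nat_lit 16536495708) (nat_lit 76) (nat_lit 6803510708) (nat_lit 249) (nat_lit 5) (nat_lit 257) (nat_lit 5) (nat_lit 250) (nat_lit 5) (nat_lit 507) (nat_lit 464) (nat_lit 229)) (XT.lf (nat_lit 0) (nat_lit 31791146867) (nat_lit 532) (nat_lit 15138453693) (nat_lit 608) (nat_lit 8264529467) (nat_lit 242) (nat_lit 5) (nat_lit 249) (nat_lit 5) (nat_lit 250) (nat_lit 5) (nat_lit 508) (nat_lit 464) (nat_lit 228))) (XT.nd (nat_lit 78) (nat_lit 532) (nat_lit 0) (XT.lf (nat_lit 0) (nat_lit 7566778886) (nat_lit 532) (nat_lit 30401355431) (nat_lit 76) (nat_lit 18210156550) (nat_lit 235) (nat_lit 5) (nat_lit 242) (nat_lit 5) (nat_lit 236) (nat_lit 5) (nat_lit 509) (nat_lit 464) (nat_lit 227)) (XT.lf (nat_lit 0) (nat_lit 19661466882) (nat_lit 532) (nat_lit 4486549754) (nat_lit 608) (nat_lit 33035121908) (nat_lit 228) (nat_lit 5) (nat_lit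 235) (nat_lit 5) (nat_lit 236) (nat_lit 5) (nat_lit 510) (nat_lit 464) (nat_lit 226))))) (XT.nd (nat_lit 312) (nat_lit 0) (nat_lit 228) (XT.nd (nat_lit 156) (nat_lit 0) (nat_lit 76) (XT.nd (nat_lit 78) (nat_lit 0) (nat_lit 76) (XT.lf (nat_lit 0) (nat_lit 2269799402) (nat_lit 1900) (nat_lit 5811453212) (nat_lit 1900) (nat_lit 5811453212) (nat_lit 481) (nat_lit 3) (nat_lit 506) (nat_lit 3) (nat_lit 506) (nat_lit 5) (nat_lit 465) (nat_lit 465) (nat_lit 270)) (XT.lf (nat_lit 0) (nat_lit 4824417379) (nat_lit 1824) (nat_lit 18974058679) (nat_lit 1900) (nat_lit 4399378412) (nat_lit 482) (nat_lit 5) (nat_lit 506) (nat_lit 5) (nat_lit 507) (nat_lit 5) (nat_lit 466) (nat_lit 465) (nat_lit 269))) (XT.nd (nat_lit 78) (nat_lit 0) (nat_lit 76) (XT.lf (nat_lit 76) (nat_lit 2150809169) (nat_lit 0) (nat_lit 3163318878) (nat_lit 1900) (nat_lit 23304615727) (nat_lit 483) (nat_lit 5) (nat_lit 482) (nat_lit 5) (nat_lit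 507) (nat_lit 5) (nat_lit 467) (nat_lit 465) (nat_lit 268)) (XT.lf (nat_lit 0) (nat_lit 6060571297) (nat_lit 1824) (nat_lit 5001614368) (nat_lit 1900) (nat_lit 17985233413) (nat_lit 483) (nat_lit 5) (nat_lit 507) (nat_lit 5) (nat_lit 508) (nat_lit 5) (nat_lit 468) (nat_lit 465) (nat_lit 267)))) (XT.nd (nat_lit 156) (nat_lit 0) (nat_lit 76) (XT.nd (nat_lit 78) (nat_lit 0) (nat_lit 76) (XT.lf (nat_lit 0) (nat_lit 7025484054) (nat_lit 1824) (nat_lit 12241689814) (nat_lit 1900) (nat_lit 10217859389) (nat_lit 484) (nat_lit 5) (nat_lit 508) (nat_lit 5) (nat_lit 509) (nat_lit 5) (nat_lit 469) (nat_lit 465) (nat_lit 266)) (XT.lf (nat_lit 0) (nat_lit 8204064002) (nat_lit 1824) (nat_lit 19598585538) (nat_lit 1900) (nat_lit 2129432064) (nat_lit 485) (nat_lit 5) (nat_lit 509) (nat_lit 5) (nat_lit 510) (nat_lit 5) (nat_lit 470) (nat_lit 465) (nat_lit 265))) (XT.nd (nat_lit 78) (nat_lit 0) (nat_lit 76) (XT.lf (nat_lit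 76) (nat_lit 3273358340) (nat_lit 0) (nat_lit 6373804846) (nat_lit 1900) (nat_lit 20740795114) (nat_lit 486) (nat_lit 5) (nat_lit 485) (nat_lit 5) (nat_lit 510) (nat_lit 5) (nat_lit 471) (nat_lit 465) (nat_lit 264)) (XT.lf (nat_lit 0) (nat_lit 11364842029) (nat_lit 1824) (nat_lit 3860774684) (nat_lit 1900) (nat_lit 15627268981) (nat_lit 486) (nat_lit 5) (nat_lit 510) (nat_lit 5) (nat_lit 511) (nat_lit 5) (nat_lit 472) (nat_lit 465) (nat_lit 263)))))) (XT.nd (nat_lit 546) (nat_lit 5244) (nat_lit 0) (XT.nd (nat_lit 234) (nat_lit 0) (nat_lit 152) (XT.nd (nat_lit 78) (nat_lit 0) (nat_lit 0) (XT.lf (nat_lit 0) (nat_lit 13349854191) (nat_lit 1824) (nat_lit 11062183845) (nat_lit 1900) (nat_lit 6915406938) (nat_lit 487) (nat_lit 5) (nat_lit 511) (nat_lit 5) (nat_lit 512) (nat_lit 5) (nat_lit 473) (nat_lit 465) (nat_lit 262)) (XT.nd (nat_lit 78) (nat_lit 0) (nat_lit 76) (XT.lf (nat_lit 76) (nat_lit 13423453550)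 (nat_lit 0) (nat_lit 2182191651) (nat_lit 1900) (nat_lit 16206371387) (nat_lit 488) (nat_lit 5) (nat_lit 487) (nat_lit 5) (nat_lit 512) (nat_lit 5) (nat_lit 474) (nat_lit 465) (nat_lit 261)) (XT.lf (nat_lit 76) (nat_lit 6431969387) (nat_lit 0) (nat_lit 11744878829) (nat_lit 1900) (nat_lit 14129322487) (nat_lit 489) (nat_lit 5) (nat_lit 488) (nat_lit 5) (nat_lit 513) (nat_lit 5) (nat_lit 475) (nat_lit 465) (nat_lit 260)))) (XT.nd (nat_lit 156) (nat_lit 0) (nat_lit 76) (XT.nd (nat_lit 78) (nat_lit 0) (nat_lit 76) (XT.lf (nat_lit 0) (nat_lit 21033594157) (nat_lit 1824) (nat_lit 654393034) (nat_lit 1900) (nat_lit 11122994230) (nat_lit 489) (nat_lit 5) (nat_lit 513) (nat_lit 5) (nat_lit 514) (nat_lit 5) (nat_lit 476) (nat_lit 465) (nat_lit 259)) (XT.lf (nat_lit 0) (nat_lit 24225712375) (nat_lit 1824) (nat_lit 7758850106) (nat_lit 1900) (nat_lit 1341380693) (nat_lit 490) (nat_lit 5) (nat_lit 514) (nat_lit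 5) (nat_lit 515) (nat_lit 5) (nat_lit 477) (nat_lit 465) (nat_lit 258))) (XT.nd (nat_lit 78) (nat_lit 0) (nat_lit 76) (XT.lf (nat_lit 76) (nat_lit 18826927458) (nat_lit 0) (nat_lit 8954746654) (nat_lit 1900) (nat_lit 6069318176) (nat_lit 491) (nat_lit 5) (nat_lit 490) (nat_lit 5) (nat_lit 515) (nat_lit 5) (nat_lit 478) (nat_lit 465) (nat_lit 257)) (XT.lf (nat_lit 76) (nat_lit 11983821654) (nat_lit 0) (nat_lit 19683530581) (nat_lit 1900) (nat_lit 2719979998) (nat_lit 492) (nat_lit 5) (nat_lit 491) (nat_lit 5) (nat_lit 516) (nat_lit 5) (nat_lit 479) (nat_lit 465) (nat_lit 256))))) (XT.nd (nat_lit 312) (nat_lit 2660) (nat_lit 0) (XT.nd (nat_lit 156) (nat_lit 1064) (nat_lit 0) (XT.nd (nat_lit 78) (nat_lit 0) (nat_lit 0) (XT.lf (nat_lit 0) (nat_lit 939020993) (nat_lit 1900) (nat_lit 29894644723) (nat_lit 1976) (nat_lit 4101626895) (nat_lit 467) (nat_lit 5) (nat_lit 492) (nat_lit 5) (nat_lit 493) (nat_lit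 5) (nat_lit 480) (nat_lit 465) (nat_lit 255)) (XT.lf (nat_lit 0) (nat_lit 4952085372) (nat_lit 1900) (nat_lit 2035586097) (nat_lit 1976) (nat_lit 28506035904) (nat_lit 467) (nat_lit 5) (nat_lit 492) (nat_lit 5) (nat_lit 493) (nat_lit 5) (nat_lit 481) (nat_lit 465) (nat_lit 254))) (XT.nd (nat_lit 78) (nat_lit 1140) (nat_lit 0) (XT.lf (nat_lit 0) (nat_lit 9372862628) (nat_lit 1900) (nat_lit 9170016607) (nat_lit 76) (nat_lit 17520249018) (nat_lit 468) (nat_lit 5) (nat_lit 493) (nat_lit 5) (nat_lit 469) (nat_lit 5) (nat_lit 482) (nat_lit 465) (nat_lit 253)) (XT.lf (nat_lit 0) (nat_lit 14155399935) (nat_lit 1216) (nat_lit 16401347090) (nat_lit 76) (nat_lit 6088302093) (nat_lit 453) (nat_lit 5) (nat_lit 469) (nat_lit 5) (nat_lit 454) (nat_lit 5) (nat_lit 483) (nat_lit 465) (nat_lit 252)))) (XT.nd (nat_lit 156) (nat_lit 836) (nat_lit 0) (XT.nd (nat_lit 78) (nat_lit 912) (nat_lit 0) (XT.lf (nat_lit 0) (nat_lit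 13471579872) (nat_lit 912) (nat_lit 5880699811) (nat_lit 988) (nat_lit 17886730687) (nat_lit 441) (nat_lit 5) (nat_lit 453) (nat_lit 5) (nat_lit 454) (nat_lit 5) (nat_lit 484) (nat_lit 465) (nat_lit 251)) (XT.lf (nat_lit 0) (nat_lit 6572383363) (nat_lit 912) (nat_lit 18410990164) (nat_lit 988) (nat_lit 12861850867) (nat_lit 429) (nat_lit 5) (nat_lit 441) (nat_lit 5) (nat_lit 442) (nat_lit 5) (nat_lit 485) (nat_lit 465) (nat_lit 250))) (XT.nd (nat_lit 78) (nat_lit 836) (nat_lit 0) (XT.lf (nat_lit 0) (nat_lit 31026772903) (nat_lit 988) (nat_lit 406890281) (nat_lit 76) (nat_lit 7031094285) (nat_lit 429) (nat_lit 5) (nat_lit 442) (nat_lit 5) (nat_lit 430) (nat_lit 5) (nat_lit 486) (nat_lit 465) (nat_lit 249)) (XT.lf (nat_lit 0) (nat_lit 31674531377) (nat_lit 836) (nat_lit 5902797959) (nat_lit 912) (nat_lit 1519030180) (nat_lit 418) (nat_lit 5) (nat_lit 429) (nat_lit 5) (nat_lit 430) (nat_lit 5) (nat_lit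 487) (nat_lit 465) (nat_lit 248))))))))
noncomputable def xc114 : XT := (XT.nd (nat_lit 61230) (nat_lit 0) (nat_lit 5320) (XT.nd (nat_lit 1092) (nat_lit 4712) (nat_lit 0) (XT.nd (nat_lit 546) (nat_lit 4180) (nat_lit 0) (XT.nd (nat_lit 234) (nat_lit 2356) (nat_lit 0) (XT.nd (nat_lit 78) (nat_lit 1672) (nat_lit 0) (XT.lf (nat_lit 0) (nat_lit 4815185300) (nat_lit 988) (nat_lit 14600671283) (nat_lit 76) (nat_lit 20324504175) (nat_lit 405) (nat_lit 5) (nat_lit 418) (nat_lit 5) (nat_lit 406) (nat_lit 5) (nat_lit 488) (nat_lit 465) (nat_lit 247)) (XT.nd (nat_lit 78) (nat_lit 836) (nat_lit 0) (XT.lf (nat_lit 0) (nat_lit 11572470908) (nat_lit 912) (nat_lit 21877322459) (nat_lit 76) (nat_lit 6948614303) (nat_lit 394) (nat_lit 5) (nat_lit 406) (nat_lit 5) (nat_lit 395) (nat_lit 5) (nat_lit 489) (nat_lit 465) (nat_lit 246)) (XT.lf (nat_lit 0) (nat_lit 11783361162) (nat_lit 836) (nat_lit 7052314253) (nat_lit 912)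 (nat_lit 22234456643) (nat_lit 383) (nat_lit 5) (nat_lit 394) (nat_lit 5) (nat_lit 395) (nat_lit 5) (nat_lit 490) (nat_lit 465) (nat_lit 245)))) (XT.nd (nat_lit 156) (nat_lit 1596) (nat_lit 0) (XT.nd (nat_lit 78) (nat_lit 0) (nat_lit 0) (XT.lf (nat_lit 0) (nat_lit 4924317555) (nat_lit 760) (nat_lit 21701722989) (nat_lit 836) (nat_lit 15129782414) (nat_lit 373) (nat_lit 5) (nat_lit 383) (nat_lit 5) (nat_lit 384) (nat_lit 5) (nat_lit 491) (nat_lit 465) (nat_lit 244)) (XT.lf (nat_lit 0) (nat_lit 34929288436) (nat_lit 836) (nat_lit 1981660055) (nat_lit 76) (nat_lit 5545552726) (nat_lit 373) (nat_lit 5) (nat_lit 384) (nat_lit 5) (nat_lit 374) (nat_lit 5) (nat_lit 492) (nat_lit 465) (nat_lit 243))) (XT.nd (nat_lit 78) (nat_lit 760) (nat_lit 0) (XT.lf (nat_lit 0) (nat_lit 666597345) (nat_lit 836) (nat_lit 8960755677) (nat_lit 76) (nat_lit 33543464607) (nat_lit 362) (nat_lit 5) (nat_lit 373) (nat_lit 5) (nat_lit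 363) (nat_lit 5) (nat_lit 493) (nat_lit 465) (nat_lit 242)) (XT.lf (nat_lit 0) (nat_lit 9318408394) (nat_lit 836) (nat_lit 16101884853) (nat_lit 76) (nat_lit 18478986215) (nat_lit 352) (nat_lit 5) (nat_lit 363) (nat_lit 5) (nat_lit 353) (nat_lit 5) (nat_lit 494) (nat_lit 465) (nat_lit 241))))) (XT.nd (nat_lit 234) (nat_lit 2052) (nat_lit 0) (XT.nd (nat_lit 78) (nat_lit 1368) (nat_lit 0) (XT.lf (nat_lit 0) (nat_lit 18509941379) (nat_lit 836) (nat_lit 23317904078) (nat_lit 76) (nat_lit 2816146401) (nat_lit 342) (nat_lit 5) (nat_lit 353) (nat_lit 5) (nat_lit 343) (nat_lit 5) (nat_lit 495) (nat_lit 465) (nat_lit 240)) (XT.nd (nat_lit 78) (nat_lit 684) (nat_lit 0) (XT.lf (nat_lit 0) (nat_lit 14707878671) (nat_lit 684) (nat_lit 13642266882) (nat_lit 760) (nat_lit 17053441631) (nat_lit 333) (nat_lit 5) (nat_lit 342) (nat_lit 5) (nat_lit 343) (nat_lit 5) (nat_lit 496) (nat_lit 465) (nat_lit 239)) (XT.lf (nat_lit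 0) (nat_lit 8012183821) (nat_lit 684) (nat_lit 30782014341) (nat_lit 760) (nat_lit 7385599420) (nat_lit 324) (nat_lit 5) (nat_lit 333) (nat_lit 5) (nat_lit 334) (nat_lit 5) (nat_lit 497) (nat_lit 465) (nat_lit 238)))) (XT.nd (nat_lit 156) (nat_lit 1292) (nat_lit 0) (XT.nd (nat_lit 78) (nat_lit 0) (nat_lit 0) (XT.lf (nat_lit 0) (nat_lit 1230447224) (nat_lit 684) (nat_lit 1614383853) (nat_lit 760) (nat_lit 44128003473) (nat_lit 314) (nat_lit 5) (nat_lit 323) (nat_lit 5) (nat_lit 324) (nat_lit 5) (nat_lit 498) (nat_lit 465) (nat_lit 237)) (XT.lf (nat_lit 0) (nat_lit 13725063029) (nat_lit 760) (nat_lit 5689999130) (nat_lit 76) (nat_lit 28364759550) (nat_lit 314) (nat_lit 5) (nat_lit 324) (nat_lit 5) (nat_lit 315) (nat_lit 5) (nat_lit 499) (nat_lit 465) (nat_lit 236))) (XT.nd (nat_lit 78) (nat_lit 608) (nat_lit 0) (XT.lf (nat_lit 0) (nat_lit 25244620594) (nat_lit 760) (nat_lit 12653639512) (nat_lit 76) (nat_lit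 10706500054) (nat_lit 305) (nat_lit 5) (nat_lit 315) (nat_lit 5) (nat_lit 306) (nat_lit 5) (nat_lit 500) (nat_lit 465) (nat_lit 235)) (XT.lf (nat_lit 0) (nat_lit 29722768316) (nat_lit 608) (nat_lit 7746470518) (nat_lit 684) (nat_lit 11978018503) (nat_lit 297) (nat_lit 5) (nat_lit 305) (nat_lit 5) (nat_lit 306) (nat_lit 5) (nat_lit 501) (nat_lit 465) (nat_lit 234)))))) (XT.nd (nat_lit 546) (nat_lit 1064) (nat_lit 0) (XT.nd (nat_lit 234) (nat_lit 1748) (nat_lit 0) (XT.nd (nat_lit 78) (nat_lit 1216) (nat_lit 0) (XT.lf (nat_lit 0) (nat_lit 138826007) (nat_lit 684) (nat_lit 26925721297) (nat_lit 76) (nat_lit 23242716756) (nat_lit 288) (nat_lit 5) (nat_lit 297) (nat_lit 5) (nat_lit 289) (nat_lit 5) (nat_lit 502) (nat_lit 465) (nat_lit 233)) (XT.nd (nat_lit 78) (nat_lit 608) (nat_lit 0) (XT.lf (nat_lit 0) (nat_lit 12778908405) (nat_lit 684) (nat_lit 34265623305) (nat_lit 76) (nat_lit 4140506492) (nat_lit 280)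 (nat_lit 5) (nat_lit 289) (nat_lit 5) (nat_lit 281) (nat_lit 5) (nat_lit 503) (nat_lit 465) (nat_lit 232)) (XT.lf (nat_lit 0) (nat_lit 10313415147) (nat_lit 608) (nat_lit 15914356142) (nat_lit 684) (nat_lit 25852782764) (nat_lit 272) (nat_lit 5) (nat_lit 280) (nat_lit 5) (nat_lit 281) (nat_lit 5) (nat_lit 504) (nat_lit 465) (nat_lit 231)))) (XT.nd (nat_lit 156) (nat_lit 1140) (nat_lit 0) (XT.nd (nat_lit 78) (nat_lit 76) (nat_lit 0) (XT.lf (nat_lit 0) (nat_lit 3639291786) (nat_lit 532) (nat_lit 36801021429) (nat_lit 608) (nat_lit 12555417944) (nat_lit 265) (nat_lit 5) (nat_lit 272) (nat_lit 5) (nat_lit 273) (nat_lit 5) (nat_lit 505) (nat_lit 465) (nat_lit 230)) (XT.lf (nat_lit 0) (nat_lit 1515259113) (nat_lit 608) (nat_lit 3071376586) (nat_lit 76) (nat_lit 49343792698) (nat_lit 264) (nat_lit 5) (nat_lit 272) (nat_lit 5) (nat_lit 265) (nat_lit 5) (nat_lit 506) (nat_lit 465) (nat_lit 229))) (XT.nd (nat_lit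 78) (nat_lit 532) (nat_lit 0) (XT.lf (nat_lit 0) (nat_lit 16317544210) (nat_lit 684) (nat_lit 9966467525) (nat_lit 76) (nat_lit 28597893700) (nat_lit 256) (nat_lit 5) (nat_lit 265) (nat_lit 5) (nat_lit 257) (nat_lit 5) (nat_lit 507) (nat_lit 465) (nat_lit 228)) (XT.lf (nat_lit 0) (nat_lit 31913174705) (nat_lit 608) (nat_lit 16901621187) (nat_lit 76) (nat_lit 7040145395) (nat_lit 249) (nat_lit 5) (nat_lit 257) (nat_lit 5) (nat_lit 250) (nat_lit 5) (nat_lit 508) (nat_lit 465) (nat_lit 227))))) (XT.nd (nat_lit 59280) (nat_lit 0) (nat_lit 18772) (XT.nd (nat_lit 59124) (nat_lit 0) (nat_lit 18696) (XT.nd (nat_lit 78) (nat_lit 532) (nat_lit 0) (XT.lf (nat_lit 0) (nat_lit 32873725843) (nat_lit 532) (nat_lit 15558296217) (nat_lit 608) (nat_lit 8416039234) (nat_lit 242) (nat_lit 5) (nat_lit 249) (nat_lit 5) (nat_lit 250) (nat_lit 5) (nat_lit 509) (nat_lit 465) (nat_lit 226)) (XT.lf (nat_lit 0) (nat_lit 7887228903)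 (nat_lit 532) (nat_lit 31183755376) (nat_lit 76) (nat_lit 18790784510) (nat_lit 235) (nat_lit 5) (nat_lit 242) (nat_lit 5) (nat_lit 236) (nat_lit 5) (nat_lit 510) (nat_lit 465) (nat_lit 225))) (XT.nd (nat_lit 78) (nat_lit 0) (nat_lit 76) (XT.lf (nat_lit 0) (nat_lit 2464368464) (nat_lit 1900) (nat_lit 5921292604) (nat_lit 1900) (nat_lit 5921292604) (nat_lit 481) (nat_lit 3) (nat_lit 506) (nat_lit 3) (nat_lit 506) (nat_lit 5) (nat_lit 466) (nat_lit 466) (nat_lit 268)) (XT.lf (nat_lit 0) (nat_lit 5214780781) (nat_lit 1824) (nat_lit 19410653657) (nat_lit 1900) (nat_lit 4413435617) (nat_lit 482) (nat_lit 5) (nat_lit 506) (nat_lit 5) (nat_lit 507) (nat_lit 5) (nat_lit 467) (nat_lit 466) (nat_lit 267)))) (XT.nd (nat_lit 156) (nat_lit 0) (nat_lit 152) (XT.nd (nat_lit 78) (nat_lit 0) (nat_lit 76) (XT.lf (nat_lit 76) (nat_lit 2345808515) (nat_lit 0) (nat_lit 3367067087) (nat_lit 1900) (nat_lit 23759636795) (nat_lit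 483) (nat_lit 5) (nat_lit 482) (nat_lit 5) (nat_lit 507) (nat_lit 5) (nat_lit 468) (nat_lit 466) (nat_lit 266)) (XT.lf (nat_lit 0) (nat_lit 6474055422) (nat_lit 1824) (nat_lit 5019647771) (nat_lit 1900) (nat_lit 18420498111) (nat_lit 483) (nat_lit 5) (nat_lit 507) (nat_lit 5) (nat_lit 508) (nat_lit 5) (nat_lit 469) (nat_lit 466) (nat_lit 265))) (XT.nd (nat_lit 78) (nat_lit 0) (nat_lit 76) (XT.lf (nat_lit 0) (nat_lit 7461388626) (nat_lit 1824) (nat_lit 12473922637) (nat_lit 1900) (nat_lit 10429763390) (nat_lit 484) (nat_lit 5) (nat_lit 508) (nat_lit 5) (nat_lit 509) (nat_lit 5) (nat_lit 470) (nat_lit 466) (nat_lit 264)) (XT.lf (nat_lit 0) (nat_lit 8669068520) (nat_lit 1824) (nat_lit 20048757856) (nat_lit 1900) (nat_lit 2107833423) (nat_lit 485) (nat_lit 5) (nat_lit 509) (nat_lit 5) (nat_lit 510) (nat_lit 5) (nat_lit 471) (nat_lit 466) (nat_lit 263))))))) (XT.nd (nat_lit 1170) (nat_lit 9424) (nat_lit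 0) (XT.nd (nat_lit 546) (nat_lit 4256) (nat_lit 0) (XT.nd (nat_lit 234) (nat_lit 0) (nat_lit 152) (XT.nd (nat_lit 78) (nat_lit 0) (nat_lit 76) (XT.lf (nat_lit 76) (nat_lit 3507108938) (nat_lit 0) (nat_lit 6642856600) (nat_lit 1900) (nat_lit 21145357351) (nat_lit 486) (nat_lit 5) (nat_lit 485) (nat_lit 5) (nat_lit 510) (nat_lit 5) (nat_lit 472) (nat_lit 466) (nat_lit 262)) (XT.nd (nat_lit 78) (nat_lit 0) (nat_lit 76) (XT.lf (nat_lit 0) (nat_lit 11912468923) (nat_lit 1824) (nat_lit 3840355807) (nat_lit 1900) (nat_lit 16021507677) (nat_lit 486) (nat_lit 5) (nat_lit 510) (nat_lit 5) (nat_lit 511) (nat_lit 5) (nat_lit 473) (nat_lit 466) (nat_lit 261)) (XT.lf (nat_lit 0) (nat_lit 13951443564) (nat_lit 1824) (nat_lit 11255542671) (nat_lit 1900) (nat_lit 7056254172) (nat_lit 487) (nat_lit 5) (nat_lit 511) (nat_lit 5) (nat_lit 512) (nat_lit 5) (nat_lit 474) (nat_lit 466) (nat_lit 260)))) (XT.nd (nat_lit 156)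 (nat_lit 0) (nat_lit 152) (XT.nd (nat_lit 78) (nat_lit 0) (nat_lit 76) (XT.lf (nat_lit 76) (nat_lit 13962416740) (nat_lit 0) (nat_lit 2307519152) (nat_lit 1900) (nat_lit 16492512900) (nat_lit 488) (nat_lit 5) (nat_lit 487) (nat_lit 5) (nat_lit 512) (nat_lit 5) (nat_lit 475) (nat_lit 466) (nat_lit 259)) (XT.lf (nat_lit 76) (nat_lit 6763224320) (nat_lit 0) (nat_lit 12149858971) (nat_lit 1900) (nat_lit 14358448244) (nat_lit 489) (nat_lit 5) (nat_lit 488) (nat_lit 5) (nat_lit 513) (nat_lit 5) (nat_lit 476) (nat_lit 466) (nat_lit 258))) (XT.nd (nat_lit 78) (nat_lit 0) (nat_lit 76) (XT.lf (nat_lit 0) (nat_lit 21849638773) (nat_lit 1824) (nat_lit 535712326) (nat_lit 1900) (nat_lit 11406253497) (nat_lit 489) (nat_lit 5) (nat_lit 513) (nat_lit 5) (nat_lit 514) (nat_lit 5) (nat_lit 477) (nat_lit 466) (nat_lit 257)) (XT.lf (nat_lit 0) (nat_lit 25132725885) (nat_lit 1824) (nat_lit 7851642402) (nat_lit 1900) (nat_lit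 1337742969) (nat_lit 490) (nat_lit 5) (nat_lit 514) (nat_lit 5) (nat_lit 515) (nat_lit 5) (nat_lit 478) (nat_lit 466) (nat_lit 256))))) (XT.nd (nat_lit 312) (nat_lit 2888) (nat_lit 0) (XT.nd (nat_lit 156) (nat_lit 1748) (nat_lit 0) (XT.nd (nat_lit 78) (nat_lit 0) (nat_lit 76) (XT.lf (nat_lit 76) (nat_lit 19529437589) (nat_lit 0) (nat_lit 9261573170) (nat_lit 1900) (nat_lit 6071988357) (nat_lit 491) (nat_lit 5) (nat_lit 490) (nat_lit 5) (nat_lit 515) (nat_lit 5) (nat_lit 479) (nat_lit 466) (nat_lit 255)) (XT.lf (nat_lit 76) (nat_lit 12482514234) (nat_lit 0) (nat_lit 20306285025) (nat_lit 1900) (nat_lit 2626719350) (nat_lit 492) (nat_lit 5) (nat_lit 491) (nat_lit 5) (nat_lit 516) (nat_lit 5) (nat_lit 480) (nat_lit 466) (nat_lit 254))) (XT.nd (nat_lit 78) (nat_lit 0) (nat_lit 0) (XT.lf (nat_lit 0) (nat_lit 1135445792) (nat_lit 1900) (nat_lit 30648739437) (nat_lit 1976) (nat_lit 4195796259) (nat_lit 467)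 (nat_lit 5) (nat_lit 492) (nat_lit 5) (nat_lit 493) (nat_lit 5) (nat_lit 481) (nat_lit 466) (nat_lit 253)) (XT.lf (nat_lit 0) (nat_lit 5264001496) (nat_lit 1900) (nat_lit 1958066663) (nat_lit 1976) (nat_lit 29333178687) (nat_lit 467) (nat_lit 5) (nat_lit 492) (nat_lit 5) (nat_lit 493) (nat_lit 5) (nat_lit 482) (nat_lit 466) (nat_lit 252)))) (XT.nd (nat_lit 156) (nat_lit 1824) (nat_lit 0) (XT.nd (nat_lit 78) (nat_lit 1140) (nat_lit 0) (XT.lf (nat_lit 0) (nat_lit 9813379145) (nat_lit 1900) (nat_lit 9305434085) (nat_lit 76) (nat_lit 18023017718) (nat_lit 468) (nat_lit 5) (nat_lit 493) (nat_lit 5) (nat_lit 469) (nat_lit 5) (nat_lit 483) (nat_lit 466) (nat_lit 251)) (XT.lf (nat_lit 0) (nat_lit 14735526132) (nat_lit 1216) (nat_lit 16752736681) (nat_lit 76) (nat_lit 6253024085) (nat_lit 453) (nat_lit 5) (nat_lit 469) (nat_lit 5) (nat_lit 454) (nat_lit 5) (nat_lit 484) (nat_lit 466) (nat_lit 250))) (XT.nd (nat_lit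 78) (nat_lit 912) (nat_lit 0) (XT.lf (nat_lit 0) (nat_lit 14014096197) (nat_lit 912) (nat_lit 6070586375) (nat_lit 988) (nat_lit 18268457139) (nat_lit 441) (nat_lit 5) (nat_lit 453) (nat_lit 5) (nat_lit 454) (nat_lit 5) (nat_lit 485) (nat_lit 466) (nat_lit 249)) (XT.lf (nat_lit 0) (nat_lit 6908756564) (nat_lit 912) (nat_lit 18972349213) (nat_lit 988) (nat_lit 13096506574) (nat_lit 429) (nat_lit 5) (nat_lit 441) (nat_lit 5) (nat_lit 442) (nat_lit 5) (nat_lit 486) (nat_lit 466) (nat_lit 248)))))) (XT.nd (nat_lit 546) (nat_lit 5168) (nat_lit 0) (XT.nd (nat_lit 234) (nat_lit 2432) (nat_lit 0) (XT.nd (nat_lit 78) (nat_lit 1824) (nat_lit 0) (XT.lf (nat_lit 0) (nat_lit 32101432808) (nat_lit 988) (nat_lit 281010484) (nat_lit 76) (nat_lit 7233375733) (nat_lit 429) (nat_lit 5) (nat_lit 442) (nat_lit 5) (nat_lit 430) (nat_lit 5) (nat_lit 487) (nat_lit 466) (nat_lit 247)) (XT.nd (nat_lit 78) (nat_lit 988) (nat_lit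 0) (XT.lf (nat_lit 0) (nat_lit 32760613535) (nat_lit 836) (nat_lit 6084584401) (nat_lit 912) (nat_lit 1421237474) (nat_lit 418) (nat_lit 5) (nat_lit 429) (nat_lit 5) (nat_lit 430) (nat_lit 5) (nat_lit 488) (nat_lit 466) (nat_lit 246)) (XT.lf (nat_lit 0) (nat_lit 5097865253) (nat_lit 988) (nat_lit 14900409232) (nat_lit 76) (nat_lit 20931528881) (nat_lit 405) (nat_lit 5) (nat_lit 418) (nat_lit 5) (nat_lit 406) (nat_lit 5) (nat_lit 489) (nat_lit 466) (nat_lit 245)))) (XT.nd (nat_lit 156) (nat_lit 760) (nat_lit 0) (XT.nd (nat_lit 78) (nat_lit 836) (nat_lit 0) (XT.lf (nat_lit 0) (nat_lit 12054732942) (nat_lit 912) (nat_lit 22394904368) (nat_lit 76) (nat_lit 7158017212) (nat_lit 394) (nat_lit 5) (nat_lit 406) (nat_lit 5) (nat_lit 395) (nat_lit 5) (nat_lit 490) (nat_lit 466) (nat_lit 244)) (XT.lf (nat_lit 0) (nat_lit 12273348906) (nat_lit 836) (nat_lit 7259436242) (nat_lit 912) (nat_lit 22766806567) (nat_lit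 383) (nat_lit 5) (nat_lit 394) (nat_lit 5) (nat_lit 395) (nat_lit 5) (nat_lit 491) (nat_lit 466) (nat_lit 243))) (XT.nd (nat_lit 78) (nat_lit 0) (nat_lit 0) (XT.lf (nat_lit 0) (nat_lit 5208892648) (nat_lit 760) (nat_lit 22345039300) (nat_lit 836) (nat_lit 15451980082) (nat_lit 373) (nat_lit 5) (nat_lit 383) (nat_lit 5) (nat_lit 384) (nat_lit 5) (nat_lit 492) (nat_lit 466) (nat_lit 242)) (XT.lf (nat_lit 0) (nat_lit 36102565547) (nat_lit 836) (nat_lit 1905788537) (nat_lit 76) (nat_lit 5719330888) (nat_lit 373) (nat_lit 5) (nat_lit 384) (nat_lit 5) (nat_lit 374) (nat_lit 5) (nat_lit 493) (nat_lit 466) (nat_lit 241))))) (XT.nd (nat_lit 312) (nat_lit 2128) (nat_lit 0) (XT.nd (nat_lit 156) (nat_lit 1444) (nat_lit 0) (XT.nd (nat_lit 78) (nat_lit 760) (nat_lit 0) (XT.lf (nat_lit 0) (nat_lit 810020846) (nat_lit 836) (nat_lit 9094809042) (nat_lit 76) (nat_lit 34558640606) (nat_lit 362) (nat_lit 5) (nat_lit 373)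 (nat_lit 5) (nat_lit 363) (nat_lit 5) (nat_lit 494) (nat_lit 466) (nat_lit 240)) (XT.lf (nat_lit 0) (nat_lit 9718729329) (nat_lit 836) (nat_lit 16450018880) (nat_lit 76) (nat_lit 19045091201) (nat_lit 352) (nat_lit 5) (nat_lit 363) (nat_lit 5) (nat_lit 353) (nat_lit 5) (nat_lit 495) (nat_lit 466) (nat_lit 239))) (XT.nd (nat_lit 78) (nat_lit 684) (nat_lit 0) (XT.lf (nat_lit 0) (nat_lit 19183447490) (nat_lit 836) (nat_lit 23882437336) (nat_lit 76) (nat_lit 2915059659) (nat_lit 342) (nat_lit 5) (nat_lit 353) (nat_lit 5) (nat_lit 343) (nat_lit 5) (nat_lit 496) (nat_lit 466) (nat_lit 238)) (XT.lf (nat_lit 0) (nat_lit 15281928618) (nat_lit 684) (nat_lit 14034348537) (nat_lit 760) (nat_lit 17447102214) (nat_lit 333) (nat_lit 5) (nat_lit 342) (nat_lit 5) (nat_lit 343) (nat_lit 5) (nat_lit 497) (nat_lit 466) (nat_lit 237)))) (XT.nd (nat_lit 156) (nat_lit 684) (nat_lit 0) (XT.nd (nat_lit 78) (nat_lit 760) (nat_lit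 0) (XT.lf (nat_lit 0) (nat_lit 8385376270) (nat_lit 684) (nat_lit 31685878025) (nat_lit 760) (nat_lit 7491669809) (nat_lit 324) (nat_lit 5) (nat_lit 333) (nat_lit 5) (nat_lit 334) (nat_lit 5) (nat_lit 498) (nat_lit 466) (nat_lit 236)) (XT.lf (nat_lit 0) (nat_lit 1399525514) (nat_lit 684) (nat_lit 1642171531) (nat_lit 760) (nat_lit 45338089455) (nat_lit 314) (nat_lit 5) (nat_lit 323) (nat_lit 5) (nat_lit 324) (nat_lit 5) (nat_lit 499) (nat_lit 466) (nat_lit 235))) (XT.nd (nat_lit 78) (nat_lit 684) (nat_lit 0) (XT.lf (nat_lit 0) (nat_lit 14245217899) (nat_lit 760) (nat_lit 5730345777) (nat_lit 76) (nat_lit 29235482035) (nat_lit 314) (nat_lit 5) (nat_lit 324) (nat_lit 5) (nat_lit 315) (nat_lit 5) (nat_lit 500) (nat_lit 466) (nat_lit 234)) (XT.lf (nat_lit 0) (nat_lit 26108181312) (nat_lit 760) (nat_lit 12903030000) (nat_lit 76) (nat_lit 11049564698) (nat_lit 305) (nat_lit 5) (nat_lit 315) (nat_lit 5) (nat_lit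 306) (nat_lit 5) (nat_lit 501) (nat_lit 466) (nat_lit 233))))))))
noncomputable def xc115 : XT := (XT.nd (nat_lit 61308) (nat_lit 0) (nat_lit 532) (XT.nd (nat_lit 60138) (nat_lit 0) (nat_lit 15124) (XT.nd (nat_lit 546) (nat_lit 1064) (nat_lit 0) (XT.nd (nat_lit 234) (nat_lit 1824) (nat_lit 0) (XT.nd (nat_lit 78) (nat_lit 1292) (nat_lit 0) (XT.lf (nat_lit 0) (nat_lit 30742557420) (nat_lit 608) (nat_lit 7954718581) (nat_lit 684) (nat_lit 12231317417) (nat_lit 297) (nat_lit 5) (nat_lit 305) (nat_lit 5) (nat_lit 306) (nat_lit 5) (nat_lit 502) (nat_lit 466) (nat_lit 232)) (XT.nd (nat_lit 78) (nat_lit 608) (nat_lit 0) (XT.lf (nat_lit 0) (nat_lit 245582854) (nat_lit 684) (nat_lit 27604205895) (nat_lit 76) (nat_lit 23964639070) (nat_lit 288) (nat_lit 5) (nat_lit 297) (nat_lit 5) (nat_lit 289) (nat_lit 5) (nat_lit 503) (nat_lit 466) (nat_lit 231)) (XT.lf (nat_lit 0) (nat_lit 13262879147) (nat_lit 684) (nat_lit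 35164565383) (nat_lit 76) (nat_lit 4291130493) (nat_lit 280) (nat_lit 5) (nat_lit 289) (nat_lit 5) (nat_lit 281) (nat_lit 5) (nat_lit 504) (nat_lit 466) (nat_lit 230)))) (XT.nd (nat_lit 156) (nat_lit 684) (nat_lit 0) (XT.nd (nat_lit 78) (nat_lit 532) (nat_lit 0) (XT.lf (nat_lit 0) (nat_lit 10749750919) (nat_lit 608) (nat_lit 16363350935) (nat_lit 684) (nat_lit 26527896683) (nat_lit 272) (nat_lit 5) (nat_lit 280) (nat_lit 5) (nat_lit 281) (nat_lit 5) (nat_lit 505) (nat_lit 466) (nat_lit 229)) (XT.lf (nat_lit 0) (nat_lit 3875103027) (nat_lit 532) (nat_lit 37875049583) (nat_lit 608) (nat_lit 12833515759) (nat_lit 265) (nat_lit 5) (nat_lit 272) (nat_lit 5) (nat_lit 273) (nat_lit 5) (nat_lit 506) (nat_lit 466) (nat_lit 228))) (XT.nd (nat_lit 78) (nat_lit 608) (nat_lit 0) (XT.lf (nat_lit 0) (nat_lit 1655155750) (nat_lit 608) (nat_lit 3039316655) (nat_lit 76) (nat_lit 50851978044) (nat_lit 264) (nat_lit 5)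 (nat_lit 272) (nat_lit 5) (nat_lit 265) (nat_lit 5) (nat_lit 507) (nat_lit 466) (nat_lit 227)) (XT.lf (nat_lit 0) (nat_lit 16899744930) (nat_lit 684) (nat_lit 10141616607) (nat_lit 76) (nat_lit 29485145609) (nat_lit 256) (nat_lit 5) (nat_lit 265) (nat_lit 5) (nat_lit 257) (nat_lit 5) (nat_lit 508) (nat_lit 466) (nat_lit 226))))) (XT.nd (nat_lit 59280) (nat_lit 0) (nat_lit 18240) (XT.nd (nat_lit 78) (nat_lit 532) (nat_lit 0) (XT.lf (nat_lit 0) (nat_lit 32961537847) (nat_lit 608) (nat_lit 17285218610) (nat_lit 76) (nat_lit 7282011803) (nat_lit 249) (nat_lit 5) (nat_lit 257) (nat_lit 5) (nat_lit 250) (nat_lit 5) (nat_lit 509) (nat_lit 466) (nat_lit 225)) (XT.nd (nat_lit 59124) (nat_lit 0) (nat_lit 18164) (XT.lf (nat_lit 0) (nat_lit 33981385981) (nat_lit 532) (nat_lit 15992703614) (nat_lit 608) (nat_lit 8577629548) (nat_lit 242) (nat_lit 5) (nat_lit 249) (nat_lit 5) (nat_lit 250) (nat_lit 5) (nat_lit 510)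 (nat_lit 466) (nat_lit 224)) (XT.lf (nat_lit 0) (nat_lit 2657514410) (nat_lit 1900) (nat_lit 6038129983) (nat_lit 1900) (nat_lit 6038129983) (nat_lit 481) (nat_lit 3) (nat_lit 506) (nat_lit 3) (nat_lit 506) (nat_lit 5) (nat_lit 467) (nat_lit 467) (nat_lit 266)))) (XT.nd (nat_lit 156) (nat_lit 0) (nat_lit 76) (XT.nd (nat_lit 78) (nat_lit 0) (nat_lit 0) (XT.lf (nat_lit 0) (nat_lit 5602754868) (nat_lit 1824) (nat_lit 19867959804) (nat_lit 1900) (nat_lit 4434683867) (nat_lit 482) (nat_lit 5) (nat_lit 506) (nat_lit 5) (nat_lit 507) (nat_lit 5) (nat_lit 468) (nat_lit 467) (nat_lit 265)) (XT.lf (nat_lit 76) (nat_lit 2539168039) (nat_lit 0) (nat_lit 3570679385) (nat_lit 1900) (nat_lit 24242321833) (nat_lit 483) (nat_lit 5) (nat_lit 482) (nat_lit 5) (nat_lit 507) (nat_lit 5) (nat_lit 469) (nat_lit 467) (nat_lit 264))) (XT.nd (nat_lit 78) (nat_lit 0) (nat_lit 76) (XT.lf (nat_lit 0) (nat_lit 6886645439) (nat_lit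 1824) (nat_lit 5045800379) (nat_lit 1900) (nat_lit 18874807555) (nat_lit 483) (nat_lit 5) (nat_lit 507) (nat_lit 5) (nat_lit 508) (nat_lit 5) (nat_lit 470) (nat_lit 467) (nat_lit 263)) (XT.lf (nat_lit 0) (nat_lit 7897446375) (nat_lit 1824) (nat_lit 12720873022) (nat_lit 1900) (nat_lit 10653456762) (nat_lit 484) (nat_lit 5) (nat_lit 508) (nat_lit 5) (nat_lit 509) (nat_lit 5) (nat_lit 471) (nat_lit 467) (nat_lit 262)))))) (XT.nd (nat_lit 546) (nat_lit 3344) (nat_lit 0) (XT.nd (nat_lit 234) (nat_lit 0) (nat_lit 152) (XT.nd (nat_lit 78) (nat_lit 0) (nat_lit 0) (XT.lf (nat_lit 0) (nat_lit 9135458416) (nat_lit 1824) (nat_lit 20520344779) (nat_lit 1900) (nat_lit 2090493815) (nat_lit 485) (nat_lit 5) (nat_lit 509) (nat_lit 5) (nat_lit 510) (nat_lit 5) (nat_lit 472) (nat_lit 467) (nat_lit 261)) (XT.nd (nat_lit 78) (nat_lit 0) (nat_lit 76) (XT.lf (nat_lit 76) (nat_lit 3740090937) (nat_lit 0) (nat_lit 6915511710)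 (nat_lit 1900) (nat_lit 21574551123) (nat_lit 486) (nat_lit 5) (nat_lit 485) (nat_lit 5) (nat_lit 510) (nat_lit 5) (nat_lit 473) (nat_lit 467) (nat_lit 260)) (XT.lf (nat_lit 0) (nat_lit 12464660252) (nat_lit 1824) (nat_lit 3827145220) (nat_lit 1900) (nat_lit 16431854695) (nat_lit 486) (nat_lit 5) (nat_lit 510) (nat_lit 5) (nat_lit 511) (nat_lit 5) (nat_lit 474) (nat_lit 467) (nat_lit 259)))) (XT.nd (nat_lit 156) (nat_lit 0) (nat_lit 76) (XT.nd (nat_lit 78) (nat_lit 0) (nat_lit 0) (XT.lf (nat_lit 0) (nat_lit 14559537013) (nat_lit 1824) (nat_lit 11462653112) (nat_lit 1900) (nat_lit 7205150795) (nat_lit 487) (nat_lit 5) (nat_lit 511) (nat_lit 5) (nat_lit 512) (nat_lit 5) (nat_lit 475) (nat_lit 467) (nat_lit 258)) (XT.lf (nat_lit 76) (nat_lit 14509726968) (nat_lit 0) (nat_lit 2433170168) (nat_lit 1900) (nat_lit 16798722326) (nat_lit 488) (nat_lit 5) (nat_lit 487) (nat_lit 5) (nat_lit 512) (nat_lit 5) (nat_lit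 476) (nat_lit 467) (nat_lit 257))) (XT.nd (nat_lit 78) (nat_lit 0) (nat_lit 76) (XT.lf (nat_lit 76) (nat_lit 7096478154) (nat_lit 0) (nat_lit 12563967124) (nat_lit 1900) (nat_lit 14605627445) (nat_lit 489) (nat_lit 5) (nat_lit 488) (nat_lit 5) (nat_lit 513) (nat_lit 5) (nat_lit 477) (nat_lit 467) (nat_lit 256)) (XT.lf (nat_lit 0) (nat_lit 22679542860) (nat_lit 1824) (nat_lit 421410901) (nat_lit 1900) (nat_lit 11700905463) (nat_lit 489) (nat_lit 5) (nat_lit 513) (nat_lit 5) (nat_lit 514) (nat_lit 5) (nat_lit 478) (nat_lit 467) (nat_lit 255))))) (XT.nd (nat_lit 312) (nat_lit 1976) (nat_lit 0) (XT.nd (nat_lit 156) (nat_lit 1748) (nat_lit 0) (XT.nd (nat_lit 78) (nat_lit 0) (nat_lit 0) (XT.lf (nat_lit 0) (nat_lit 26056603166) (nat_lit 1824) (nat_lit 7955253503) (nat_lit 1900) (nat_lit 1336514955) (nat_lit 490) (nat_lit 5) (nat_lit 514) (nat_lit 5) (nat_lit 515) (nat_lit 5) (nat_lit 479) (nat_lit 467) (nat_lit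 254)) (XT.lf (nat_lit 76) (nat_lit 20245118349) (nat_lit 0) (nat_lit 9575412556) (nat_lit 1900) (nat_lit 6085037475) (nat_lit 491) (nat_lit 5) (nat_lit 490) (nat_lit 5) (nat_lit 515) (nat_lit 5) (nat_lit 480) (nat_lit 467) (nat_lit 253))) (XT.nd (nat_lit 78) (nat_lit 1824) (nat_lit 0) (XT.lf (nat_lit 76) (nat_lit 12988178210) (nat_lit 0) (nat_lit 20945870904) (nat_lit 1900) (nat_lit 2540698565) (nat_lit 492) (nat_lit 5) (nat_lit 491) (nat_lit 5) (nat_lit 516) (nat_lit 5) (nat_lit 481) (nat_lit 467) (nat_lit 252)) (XT.lf (nat_lit 0) (nat_lit 1328104858) (nat_lit 1900) (nat_lit 31433651119) (nat_lit 1976) (nat_lit 4294448502) (nat_lit 467) (nat_lit 5) (nat_lit 492) (nat_lit 5) (nat_lit 493) (nat_lit 5) (nat_lit 482) (nat_lit 467) (nat_lit 251)))) (XT.nd (nat_lit 156) (nat_lit 1976) (nat_lit 0) (XT.nd (nat_lit 78) (nat_lit 0) (nat_lit 76) (XT.lf (nat_lit 0) (nat_lit 5575897941) (nat_lit 1900) (nat_lit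 1886177108) (nat_lit 1976) (nat_lit 30186745266) (nat_lit 467) (nat_lit 5) (nat_lit 492) (nat_lit 5) (nat_lit 493) (nat_lit 5) (nat_lit 483) (nat_lit 467) (nat_lit 250)) (XT.lf (nat_lit 0) (nat_lit 10257964926) (nat_lit 1900) (nat_lit 9452932464) (nat_lit 76) (nat_lit 18542180518) (nat_lit 468) (nat_lit 5) (nat_lit 493) (nat_lit 5) (nat_lit 469) (nat_lit 5) (nat_lit 484) (nat_lit 467) (nat_lit 249))) (XT.nd (nat_lit 78) (nat_lit 912) (nat_lit 0) (XT.lf (nat_lit 0) (nat_lit 15324131834) (nat_lit 1216) (nat_lit 17122741893) (nat_lit 76) (nat_lit 6423716825) (nat_lit 453) (nat_lit 5) (nat_lit 469) (nat_lit 5) (nat_lit 454) (nat_lit 5) (nat_lit 485) (nat_lit 467) (nat_lit 248)) (XT.lf (nat_lit 0) (nat_lit 14564945070) (nat_lit 912) (nat_lit 6265396558) (nat_lit 988) (nat_lit 18670525870) (nat_lit 441) (nat_lit 5) (nat_lit 453) (nat_lit 5) (nat_lit 454) (nat_lit 5) (nat_lit 486) (nat_lit 467) (nat_lit 247)))))))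 (XT.nd (nat_lit 1170) (nat_lit 4940) (nat_lit 0) (XT.nd (nat_lit 546) (nat_lit 4484) (nat_lit 0) (XT.nd (nat_lit 234) (nat_lit 3420) (nat_lit 0) (XT.nd (nat_lit 78) (nat_lit 836) (nat_lit 0) (XT.lf (nat_lit 0) (nat_lit 7247230214) (nat_lit 912) (nat_lit 19550030711) (nat_lit 988) (nat_lit 13346881440) (nat_lit 429) (nat_lit 5) (nat_lit 441) (nat_lit 5) (nat_lit 442) (nat_lit 5) (nat_lit 487) (nat_lit 467) (nat_lit 246)) (XT.nd (nat_lit 78) (nat_lit 836) (nat_lit 0) (XT.lf (nat_lit 0) (nat_lit 33200074545) (nat_lit 988) (nat_lit 159281023) (nat_lit 76) (nat_lit 7442222250) (nat_lit 429) (nat_lit 5) (nat_lit 442) (nat_lit 5) (nat_lit 430) (nat_lit 5) (nat_lit 488) (nat_lit 467) (nat_lit 245)) (XT.lf (nat_lit 0) (nat_lit 33871480029) (nat_lit 836) (nat_lit 6271554494) (nat_lit 912) (nat_lit 1328740646) (nat_lit 418) (nat_lit 5) (nat_lit 429) (nat_lit 5) (nat_lit 430) (nat_lit 5) (nat_lit 489) (nat_lit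 467) (nat_lit 244)))) (XT.nd (nat_lit 156) (nat_lit 1596) (nat_lit 0) (XT.nd (nat_lit 78) (nat_lit 836) (nat_lit 0) (XT.lf (nat_lit 0) (nat_lit 5381090958) (nat_lit 988) (nat_lit 15217077282) (nat_lit 76) (nat_lit 21556919917) (nat_lit 405) (nat_lit 5) (nat_lit 418) (nat_lit 5) (nat_lit 406) (nat_lit 5) (nat_lit 490) (nat_lit 467) (nat_lit 243)) (XT.lf (nat_lit 0) (nat_lit 12543708240) (nat_lit 912) (nat_lit 22935977850) (nat_lit 76) (nat_lit 7373647992) (nat_lit 394) (nat_lit 5) (nat_lit 406) (nat_lit 5) (nat_lit 395) (nat_lit 5) (nat_lit 491) (nat_lit 467) (nat_lit 242))) (XT.nd (nat_lit 78) (nat_lit 760) (nat_lit 0) (XT.lf (nat_lit 0) (nat_lit 12770201376) (nat_lit 836) (nat_lit 7473027193) (nat_lit 912) (nat_lit 23322858389) (nat_lit 383) (nat_lit 5) (nat_lit 394) (nat_lit 5) (nat_lit 395) (nat_lit 5) (nat_lit 492) (nat_lit 467) (nat_lit 241)) (XT.lf (nat_lit 0) (nat_lit 5494149500) (nat_lit 760)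 (nat_lit 23008099143) (nat_lit 836) (nat_lit 15791403558) (nat_lit 373) (nat_lit 5) (nat_lit 383) (nat_lit 5) (nat_lit 384) (nat_lit 5) (nat_lit 493) (nat_lit 467) (nat_lit 240))))) (XT.nd (nat_lit 312) (nat_lit 2128) (nat_lit 0) (XT.nd (nat_lit 156) (nat_lit 1520) (nat_lit 0) (XT.nd (nat_lit 78) (nat_lit 836) (nat_lit 0) (XT.lf (nat_lit 0) (nat_lit 37303842587) (nat_lit 836) (nat_lit 1835408871) (nat_lit 76) (nat_lit 5897896940) (nat_lit 373) (nat_lit 5) (nat_lit 384) (nat_lit 5) (nat_lit 374) (nat_lit 5) (nat_lit 494) (nat_lit 467) (nat_lit 239)) (XT.lf (nat_lit 0) (nat_lit 950661918) (nat_lit 836) (nat_lit 9240620316) (nat_lit 76) (nat_lit 35603762593) (nat_lit 362) (nat_lit 5) (nat_lit 373) (nat_lit 5) (nat_lit 363) (nat_lit 5) (nat_lit 495) (nat_lit 467) (nat_lit 238))) (XT.nd (nat_lit 78) (nat_lit 760) (nat_lit 0) (XT.lf (nat_lit 0) (nat_lit 10124127275) (nat_lit 836) (nat_lit 16816342033) (nat_lit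 76) (nat_lit 19627505678) (nat_lit 352) (nat_lit 5) (nat_lit 363) (nat_lit 5) (nat_lit 353) (nat_lit 5) (nat_lit 496) (nat_lit 467) (nat_lit 237)) (XT.lf (nat_lit 0) (nat_lit 19870373170) (nat_lit 836) (nat_lit 24471656366) (nat_lit 76) (nat_lit 3016112038) (nat_lit 342) (nat_lit 5) (nat_lit 353) (nat_lit 5) (nat_lit 343) (nat_lit 5) (nat_lit 497) (nat_lit 467) (nat_lit 236)))) (XT.nd (nat_lit 156) (nat_lit 760) (nat_lit 0) (XT.nd (nat_lit 78) (nat_lit 684) (nat_lit 0) (XT.lf (nat_lit 0) (nat_lit 15865576021) (nat_lit 684) (nat_lit 14439179209) (nat_lit 760) (nat_lit 17859343006) (nat_lit 333) (nat_lit 5) (nat_lit 342) (nat_lit 5) (nat_lit 343) (nat_lit 5) (nat_lit 498) (nat_lit 467) (nat_lit 235)) (XT.lf (nat_lit 0) (nat_lit 8762139683) (nat_lit 684) (nat_lit 32617982553) (nat_lit 760) (nat_lit 7607552345) (nat_lit 324) (nat_lit 5) (nat_lit 333) (nat_lit 5) (nat_lit 334) (nat_lit 5) (nat_lit 499) (nat_lit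 467) (nat_lit 234))) (XT.nd (nat_lit 78) (nat_lit 0) (nat_lit 0) (XT.lf (nat_lit 0) (nat_lit 1566089348) (nat_lit 684) (nat_lit 1671977879) (nat_lit 760) (nat_lit 46591007968) (nat_lit 314) (nat_lit 5) (nat_lit 323) (nat_lit 5) (nat_lit 324) (nat_lit 5) (nat_lit 500) (nat_lit 467) (nat_lit 233)) (XT.lf (nat_lit 0) (nat_lit 14774754641) (nat_lit 760) (nat_lit 5779385637) (nat_lit 76) (nat_lit 30131190760) (nat_lit 314) (nat_lit 5) (nat_lit 324) (nat_lit 5) (nat_lit 315) (nat_lit 5) (nat_lit 501) (nat_lit 467) (nat_lit 232)))))) (XT.nd (nat_lit 546) (nat_lit 1140) (nat_lit 0) (XT.nd (nat_lit 234) (nat_lit 1824) (nat_lit 0) (XT.nd (nat_lit 78) (nat_lit 1292) (nat_lit 0) (XT.lf (nat_lit 0) (nat_lit 26991551268) (nat_lit 760) (nat_lit 13167377288) (nat_lit 76) (nat_lit 11401665875) (nat_lit 305) (nat_lit 5) (nat_lit 315) (nat_lit 5) (nat_lit 306) (nat_lit 5) (nat_lit 502) (nat_lit 467) (nat_lit 231)) (XT.nd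 (nat_lit 78) (nat_lit 684) (nat_lit 0) (XT.lf (nat_lit 0) (nat_lit 31785586385) (nat_lit 608) (nat_lit 8170600168) (nat_lit 684) (nat_lit 12498302522) (nat_lit 297) (nat_lit 5) (nat_lit 305) (nat_lit 5) (nat_lit 306) (nat_lit 5) (nat_lit 503) (nat_lit 467) (nat_lit 230)) (XT.lf (nat_lit 0) (nat_lit 349653203) (nat_lit 684) (nat_lit 28310466635) (nat_lit 76) (nat_lit 24706804570) (nat_lit 288) (nat_lit 5) (nat_lit 297) (nat_lit 5) (nat_lit 289) (nat_lit 5) (nat_lit 504) (nat_lit 467) (nat_lit 229)))) (XT.nd (nat_lit 156) (nat_lit 608) (nat_lit 0) (XT.nd (nat_lit 78) (nat_lit 608) (nat_lit 0) (XT.lf (nat_lit 0) (nat_lit 13755593958) (nat_lit 684) (nat_lit 36097882380) (nat_lit 76) (nat_lit 4444757241) (nat_lit 280) (nat_lit 5) (nat_lit 289) (nat_lit 5) (nat_lit 281) (nat_lit 5) (nat_lit 505) (nat_lit 467) (nat_lit 228)) (XT.lf (nat_lit 0) (nat_lit 11191890272) (nat_lit 608) (nat_lit 16827447908) (nat_lit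 684) (nat_lit 27229031384) (nat_lit 272) (nat_lit 5) (nat_lit 280) (nat_lit 5) (nat_lit 281) (nat_lit 5) (nat_lit 506) (nat_lit 467) (nat_lit 227))) (XT.nd (nat_lit 78) (nat_lit 76) (nat_lit 0) (XT.lf (nat_lit 0) (nat_lit 4110719383) (nat_lit 532) (nat_lit 38983020846) (nat_lit 608) (nat_lit 13125614527) (nat_lit 265) (nat_lit 5) (nat_lit 272) (nat_lit 5) (nat_lit 273) (nat_lit 5) (nat_lit 507) (nat_lit 467) (nat_lit 226)) (XT.lf (nat_lit 0) (nat_lit 1793828109) (nat_lit 608) (nat_lit 3013424585) (nat_lit 76) (nat_lit 52403809008) (nat_lit 264) (nat_lit 5) (nat_lit 272) (nat_lit 5) (nat_lit 265) (nat_lit 5) (nat_lit 508) (nat_lit 467) (nat_lit 225))))) (XT.nd (nat_lit 59436) (nat_lit 0) (nat_lit 17708) (XT.nd (nat_lit 59280) (nat_lit 0) (nat_lit 17632) (XT.nd (nat_lit 78) (nat_lit 532) (nat_lit 0) (XT.lf (nat_lit 0) (nat_lit 17494091782) (nat_lit 684) (nat_lit 10329129368) (nat_lit 76) (nat_lit 30397332269)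 (nat_lit 256) (nat_lit 5) (nat_lit 265) (nat_lit 5) (nat_lit 257) (nat_lit 5) (nat_lit 509) (nat_lit 467) (nat_lit 224)) (XT.lf (nat_lit 0) (nat_lit 34036129955) (nat_lit 608) (nat_lit 17687410560) (nat_lit 76) (nat_lit 7529374077) (nat_lit 249) (nat_lit 5) (nat_lit 257) (nat_lit 5) (nat_lit 250) (nat_lit 5) (nat_lit 510) (nat_lit 467) (nat_lit 223))) (XT.nd (nat_lit 78) (nat_lit 0) (nat_lit 76) (XT.lf (nat_lit 0) (nat_lit 2849611312) (nat_lit 1900) (nat_lit 6161962732) (nat_lit 1900) (nat_lit 6161962732) (nat_lit 481) (nat_lit 3) (nat_lit 506) (nat_lit 3) (nat_lit 506) (nat_lit 5) (nat_lit 468) (nat_lit 468) (nat_lit 264)) (XT.lf (nat_lit 0) (nat_lit 5989077370) (nat_lit 1824) (nat_lit 20346161419) (nat_lit 1900) (nat_lit 4462950306) (nat_lit 482) (nat_lit 5) (nat_lit 506) (nat_lit 5) (nat_lit 507) (nat_lit 5) (nat_lit 469) (nat_lit 468) (nat_lit 263)))) (XT.nd (nat_lit 156) (nat_lit 0) (nat_lit 152)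 (XT.nd (nat_lit 78) (nat_lit 0) (nat_lit 76) (XT.lf (nat_lit 76) (nat_lit 2731268490) (nat_lit 0) (nat_lit 3774510376) (nat_lit 1900) (nat_lit 24752696337) (nat_lit 483) (nat_lit 5) (nat_lit 482) (nat_lit 5) (nat_lit 507) (nat_lit 5) (nat_lit 470) (nat_lit 468) (nat_lit 262)) (XT.lf (nat_lit 0) (nat_lit 7299077919) (nat_lit 1824) (nat_lit 5079880749) (nat_lit 1900) (nat_lit 19348389420) (nat_lit 483) (nat_lit 5) (nat_lit 507) (nat_lit 5) (nat_lit 508) (nat_lit 5) (nat_lit 471) (nat_lit 468) (nat_lit 261))) (XT.nd (nat_lit 78) (nat_lit 0) (nat_lit 76) (XT.lf (nat_lit 0) (nat_lit 8334403785) (nat_lit 1824) (nat_lit 12982537583) (nat_lit 1900) (nat_lit 10888981354) (nat_lit 484) (nat_lit 5) (nat_lit 508) (nat_lit 5) (nat_lit 509) (nat_lit 5) (nat_lit 472) (nat_lit 468) (nat_lit 260)) (XT.lf (nat_lit 0) (nat_lit 9603996522) (nat_lit 1824) (nat_lit 21013534714) (nat_lit 1900) (nat_lit 2077259332) (nat_lit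 485) (nat_lit 5) (nat_lit 509) (nat_lit 5) (nat_lit 510) (nat_lit 5) (nat_lit 473) (nat_lit 468) (nat_lit 259))))))))
noncomputable def xc116 : XT := (XT.nd (nat_lit 2262) (nat_lit 4408) (nat_lit 0) (XT.nd (nat_lit 1092) (nat_lit 9652) (nat_lit 0) (XT.nd (nat_lit 546) (nat_lit 3344) (nat_lit 0) (XT.nd (nat_lit 234) (nat_lit 0) (nat_lit 152) (XT.nd (nat_lit 78) (nat_lit 0) (nat_lit 76) (XT.lf (nat_lit 76) (nat_lit 3972727949) (nat_lit 0) (nat_lit 7192134768) (nat_lit 1900) (nat_lit 22028398131) (nat_lit 486) (nat_lit 5) (nat_lit 485) (nat_lit 5) (nat_lit 510) (nat_lit 5) (nat_lit 474) (nat_lit 468) (nat_lit 258)) (XT.nd (nat_lit 78) (nat_lit 0) (nat_lit 76) (XT.lf (nat_lit 0) (nat_lit 13022234014) (nat_lit 1824) (nat_lit 3820910220) (nat_lit 1900) (nat_lit 16858547529) (nat_lit 486) (nat_lit 5) (nat_lit 510) (nat_lit 5) (nat_lit 511) (nat_lit 5) (nat_lit 475) (nat_lit 468) (nat_lit 257)) (XT.lf (nat_lit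 0) (nat_lit 15174992313) (nat_lit 1824) (nat_lit 11683471305) (nat_lit 1900) (nat_lit 7362118776) (nat_lit 487) (nat_lit 5) (nat_lit 511) (nat_lit 5) (nat_lit 512) (nat_lit 5) (nat_lit 476) (nat_lit 468) (nat_lit 256)))) (XT.nd (nat_lit 156) (nat_lit 0) (nat_lit 152) (XT.nd (nat_lit 78) (nat_lit 0) (nat_lit 76) (XT.lf (nat_lit 76) (nat_lit 15066083651) (nat_lit 0) (nat_lit 2559351664) (nat_lit 1900) (nat_lit 17124942493) (nat_lit 488) (nat_lit 5) (nat_lit 487) (nat_lit 5) (nat_lit 512) (nat_lit 5) (nat_lit 477) (nat_lit 468) (nat_lit 255)) (XT.lf (nat_lit 76) (nat_lit 7432246571) (nat_lit 0) (nat_lit 12987650567) (nat_lit 1900) (nat_lit 14870759935) (nat_lit 489) (nat_lit 5) (nat_lit 488) (nat_lit 5) (nat_lit 513) (nat_lit 5) (nat_lit 478) (nat_lit 468) (nat_lit 254))) (XT.nd (nat_lit 78) (nat_lit 0) (nat_lit 76) (XT.lf (nat_lit 0) (nat_lit 23524331939) (nat_lit 1824) (nat_lit 311164364) (nat_lit 1900)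 (nat_lit 12007125728) (nat_lit 489) (nat_lit 5) (nat_lit 513) (nat_lit 5) (nat_lit 514) (nat_lit 5) (nat_lit 479) (nat_lit 468) (nat_lit 253)) (XT.lf (nat_lit 0) (nat_lit 26998444067) (nat_lit 1824) (nat_lit 8069546727) (nat_lit 1900) (nat_lit 1337624352) (nat_lit 490) (nat_lit 5) (nat_lit 514) (nat_lit 5) (nat_lit 515) (nat_lit 5) (nat_lit 480) (nat_lit 468) (nat_lit 252))))) (XT.nd (nat_lit 234) (nat_lit 1976) (nat_lit 0) (XT.nd (nat_lit 78) (nat_lit 1748) (nat_lit 0) (XT.lf (nat_lit 76) (nat_lit 20974818616) (nat_lit 0) (nat_lit 9896601025) (nat_lit 1900) (nat_lit 6108185703) (nat_lit 491) (nat_lit 5) (nat_lit 490) (nat_lit 5) (nat_lit 515) (nat_lit 5) (nat_lit 481) (nat_lit 468) (nat_lit 251)) (XT.nd (nat_lit 78) (nat_lit 1824) (nat_lit 0) (XT.lf (nat_lit 76) (nat_lit 13501481346) (nat_lit 0) (nat_lit 21602899429) (nat_lit 1900) (nat_lit 2461558635) (nat_lit 492) (nat_lit 5) (nat_lit 491) (nat_lit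 5) (nat_lit 516) (nat_lit 5) (nat_lit 482) (nat_lit 468) (nat_lit 250)) (XT.lf (nat_lit 0) (nat_lit 1517439654) (nat_lit 1900) (nat_lit 32249833900) (nat_lit 1976) (nat_lit 4397622946) (nat_lit 467) (nat_lit 5) (nat_lit 492) (nat_lit 5) (nat_lit 493) (nat_lit 5) (nat_lit 483) (nat_lit 468) (nat_lit 249)))) (XT.nd (nat_lit 156) (nat_lit 1976) (nat_lit 0) (XT.nd (nat_lit 78) (nat_lit 0) (nat_lit 76) (XT.lf (nat_lit 0) (nat_lit 5888312404) (nat_lit 1900) (nat_lit 1819629652) (nat_lit 1976) (nat_lit 31067435962) (nat_lit 467) (nat_lit 5) (nat_lit 492) (nat_lit 5) (nat_lit 493) (nat_lit 5) (nat_lit 484) (nat_lit 468) (nat_lit 248)) (XT.lf (nat_lit 0) (nat_lit 10707267082) (nat_lit 1900) (nat_lit 9612413883) (nat_lit 76) (nat_lit 19078153981) (nat_lit 468) (nat_lit 5) (nat_lit 493) (nat_lit 5) (nat_lit 469) (nat_lit 5) (nat_lit 485) (nat_lit 468) (nat_lit 247))) (XT.nd (nat_lit 78) (nat_lit 912) (nat_lit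 0) (XT.lf (nat_lit 0) (nat_lit 15921983717) (nat_lit 1216) (nat_lit 17511457716) (nat_lit 76) (nat_lit 6600500360) (nat_lit 453) (nat_lit 5) (nat_lit 469) (nat_lit 5) (nat_lit 454) (nat_lit 5) (nat_lit 486) (nat_lit 468) (nat_lit 246)) (XT.lf (nat_lit 0) (nat_lit 15124832423) (nat_lit 912) (nat_lit 6465322439) (nat_lit 988) (nat_lit 19093036799) (nat_lit 441) (nat_lit 5) (nat_lit 453) (nat_lit 5) (nat_lit 454) (nat_lit 5) (nat_lit 487) (nat_lit 468) (nat_lit 245)))))) (XT.nd (nat_lit 546) (nat_lit 4484) (nat_lit 0) (XT.nd (nat_lit 234) (nat_lit 3420) (nat_lit 0) (XT.nd (nat_lit 78) (nat_lit 836) (nat_lit 0) (XT.lf (nat_lit 0) (nat_lit 7588326028) (nat_lit 912) (nat_lit 20144554087) (nat_lit 988) (nat_lit 13612948801) (nat_lit 429) (nat_lit 5) (nat_lit 441) (nat_lit 5) (nat_lit 442) (nat_lit 5) (nat_lit 488) (nat_lit 468) (nat_lit 244)) (XT.nd (nat_lit 78) (nat_lit 836) (nat_lit 0) (XT.lf (nat_lit 0)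 (nat_lit 34323891612) (nat_lit 988) (nat_lit 41371382) (nat_lit 76) (nat_lit 7657802278) (nat_lit 429) (nat_lit 5) (nat_lit 442) (nat_lit 5) (nat_lit 430) (nat_lit 5) (nat_lit 489) (nat_lit 468) (nat_lit 243)) (XT.lf (nat_lit 0) (nat_lit 35008322033) (nat_lit 836) (nat_lit 6463879242) (nat_lit 912) (nat_lit 1241226154) (nat_lit 418) (nat_lit 5) (nat_lit 429) (nat_lit 5) (nat_lit 430) (nat_lit 5) (nat_lit 490) (nat_lit 468) (nat_lit 242)))) (XT.nd (nat_lit 156) (nat_lit 1596) (nat_lit 0) (XT.nd (nat_lit 78) (nat_lit 836) (nat_lit 0) (XT.lf (nat_lit 0) (nat_lit 5665334270) (nat_lit 988) (nat_lit 15550727666) (nat_lit 76) (nat_lit 22201219341) (nat_lit 405) (nat_lit 5) (nat_lit 418) (nat_lit 5) (nat_lit 406) (nat_lit 5) (nat_lit 491) (nat_lit 468) (nat_lit 241)) (XT.lf (nat_lit 0) (nat_lit 13040043343) (nat_lit 912) (nat_lit 23500790478) (nat_lit 76) (nat_lit 7595696590) (nat_lit 394) (nat_lit 5) (nat_lit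 406) (nat_lit 5) (nat_lit 395) (nat_lit 5) (nat_lit 492) (nat_lit 468) (nat_lit 240))) (XT.nd (nat_lit 78) (nat_lit 760) (nat_lit 0) (XT.lf (nat_lit 0) (nat_lit 13274574268) (nat_lit 836) (nat_lit 7693266518) (nat_lit 912) (nat_lit 23902879351) (nat_lit 383) (nat_lit 5) (nat_lit 394) (nat_lit 5) (nat_lit 395) (nat_lit 5) (nat_lit 493) (nat_lit 468) (nat_lit 239)) (XT.lf (nat_lit 0) (nat_lit 5780559499) (nat_lit 760) (nat_lit 23691469334) (nat_lit 836) (nat_lit 16148135649) (nat_lit 373) (nat_lit 5) (nat_lit 383) (nat_lit 5) (nat_lit 384) (nat_lit 5) (nat_lit 494) (nat_lit 468) (nat_lit 238))))) (XT.nd (nat_lit 312) (nat_lit 2128) (nat_lit 0) (XT.nd (nat_lit 156) (nat_lit 1520) (nat_lit 0) (XT.nd (nat_lit 78) (nat_lit 836) (nat_lit 0) (XT.lf (nat_lit 0) (nat_lit 38534372771) (nat_lit 836) (nat_lit 1770239897) (nat_lit 76) (nat_lit 6081418941) (nat_lit 373) (nat_lit 5) (nat_lit 384) (nat_lit 5) (nat_lit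 374) (nat_lit 5) (nat_lit 495) (nat_lit 468) (nat_lit 237)) (XT.lf (nat_lit 0) (nat_lit 1088843806) (nat_lit 836) (nat_lit 9398098143) (nat_lit 76) (nat_lit 36679758182) (nat_lit 362) (nat_lit 5) (nat_lit 373) (nat_lit 5) (nat_lit 363) (nat_lit 5) (nat_lit 496) (nat_lit 468) (nat_lit 236))) (XT.nd (nat_lit 78) (nat_lit 760) (nat_lit 0) (XT.lf (nat_lit 0) (nat_lit 10535152504) (nat_lit 836) (nat_lit 17200955385) (nat_lit 76) (nat_lit 20226757599) (nat_lit 352) (nat_lit 5) (nat_lit 363) (nat_lit 5) (nat_lit 353) (nat_lit 5) (nat_lit 497) (nat_lit 468) (nat_lit 235)) (XT.lf (nat_lit 0) (nat_lit 20571510526) (nat_lit 836) (nat_lit 25085856872) (nat_lit 76) (nat_lit 3119415259) (nat_lit 342) (nat_lit 5) (nat_lit 353) (nat_lit 5) (nat_lit 343) (nat_lit 5) (nat_lit 498) (nat_lit 468) (nat_lit 234)))) (XT.nd (nat_lit 156) (nat_lit 760) (nat_lit 0) (XT.nd (nat_lit 78) (nat_lit 684) (nat_lit 0) (XT.lf (nat_lit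 0) (nat_lit 16459546453) (nat_lit 684) (nat_lit 14857084735) (nat_lit 760) (nat_lit 18290332765) (nat_lit 333) (nat_lit 5) (nat_lit 342) (nat_lit 5) (nat_lit 343) (nat_lit 5) (nat_lit 499) (nat_lit 468) (nat_lit 233)) (XT.lf (nat_lit 0) (nat_lit 9143018884) (nat_lit 684) (nat_lit 33579110574) (nat_lit 760) (nat_lit 7733160800) (nat_lit 324) (nat_lit 5) (nat_lit 333) (nat_lit 5) (nat_lit 334) (nat_lit 5) (nat_lit 500) (nat_lit 468) (nat_lit 232))) (XT.nd (nat_lit 78) (nat_lit 0) (nat_lit 0) (XT.lf (nat_lit 0) (nat_lit 1730498807) (nat_lit 684) (nat_lit 1703795433) (nat_lit 760) (nat_lit 47887669143) (nat_lit 314) (nat_lit 5) (nat_lit 323) (nat_lit 5) (nat_lit 324) (nat_lit 5) (nat_lit 501) (nat_lit 468) (nat_lit 231)) (XT.lf (nat_lit 0) (nat_lit 15314311923) (nat_lit 760) (nat_lit 5836949964) (nat_lit 76) (nat_lit 31052700490) (nat_lit 314) (nat_lit 5) (nat_lit 324) (nat_lit 5) (nat_lit 315) (nat_lit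 5) (nat_lit 502) (nat_lit 468) (nat_lit 230))))))) (XT.nd (nat_lit 60294) (nat_lit 0) (nat_lit 13148) (XT.nd (nat_lit 546) (nat_lit 608) (nat_lit 0) (XT.nd (nat_lit 234) (nat_lit 1824) (nat_lit 0) (XT.nd (nat_lit 78) (nat_lit 1292) (nat_lit 0) (XT.lf (nat_lit 0) (nat_lit 27895674766) (nat_lit 760) (nat_lit 13446700981) (nat_lit 76) (nat_lit 11763146745) (nat_lit 305) (nat_lit 5) (nat_lit 315) (nat_lit 5) (nat_lit 306) (nat_lit 5) (nat_lit 503) (nat_lit 468) (nat_lit 229)) (XT.nd (nat_lit 78) (nat_lit 684) (nat_lit 0) (XT.lf (nat_lit 0) (nat_lit 32852974546) (nat_lit 608) (nat_lit 8394264719) (nat_lit 684) (nat_lit 12779034972) (nat_lit 297) (nat_lit 5) (nat_lit 305) (nat_lit 5) (nat_lit 306) (nat_lit 5) (nat_lit 504) (nat_lit 468) (nat_lit 228)) (XT.lf (nat_lit 0) (nat_lit 451294521) (nat_lit 684) (nat_lit 29044910772) (nat_lit 76) (nat_lit 25469901748) (nat_lit 288) (nat_lit 5) (nat_lit 297) (nat_lit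 5) (nat_lit 289) (nat_lit 5) (nat_lit 505) (nat_lit 468) (nat_lit 227)))) (XT.nd (nat_lit 156) (nat_lit 608) (nat_lit 0) (XT.nd (nat_lit 78) (nat_lit 608) (nat_lit 0) (XT.lf (nat_lit 0) (nat_lit 14257646674) (nat_lit 684) (nat_lit 37066180370) (nat_lit 76) (nat_lit 4601563841) (nat_lit 280) (nat_lit 5) (nat_lit 289) (nat_lit 5) (nat_lit 281) (nat_lit 5) (nat_lit 506) (nat_lit 468) (nat_lit 226)) (XT.lf (nat_lit 0) (nat_lit 11640425588) (nat_lit 608) (nat_lit 17307006424) (nat_lit 684) (nat_lit 27956636419) (nat_lit 272) (nat_lit 5) (nat_lit 280) (nat_lit 5) (nat_lit 281) (nat_lit 5) (nat_lit 507) (nat_lit 468) (nat_lit 225))) (XT.nd (nat_lit 78) (nat_lit 76) (nat_lit 0) (XT.lf (nat_lit 0) (nat_lit 4346552290) (nat_lit 532) (nat_lit 40125854648) (nat_lit 608) (nat_lit 13431809482) (nat_lit 265) (nat_lit 5) (nat_lit 272) (nat_lit 5) (nat_lit 273) (nat_lit 5) (nat_lit 508) (nat_lit 468) (nat_lit 224))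 (XT.lf (nat_lit 0) (nat_lit 1931550659) (nat_lit 608) (nat_lit 2993476140) (nat_lit 76) (nat_lit 54000686803) (nat_lit 264) (nat_lit 5) (nat_lit 272) (nat_lit 5) (nat_lit 265) (nat_lit 5) (nat_lit 509) (nat_lit 468) (nat_lit 223))))) (XT.nd (nat_lit 59436) (nat_lit 0) (nat_lit 17176) (XT.nd (nat_lit 59280) (nat_lit 0) (nat_lit 17100) (XT.lf (nat_lit 0) (nat_lit 18101254534) (nat_lit 684) (nat_lit 10528968621) (nat_lit 76) (nat_lit 31335298322) (nat_lit 256) (nat_lit 5) (nat_lit 265) (nat_lit 5) (nat_lit 257) (nat_lit 5) (nat_lit 510) (nat_lit 468) (nat_lit 222)) (XT.nd (nat_lit 78) (nat_lit 0) (nat_lit 76) (XT.lf (nat_lit 0) (nat_lit 3041020540) (nat_lit 1900) (nat_lit 6292800359) (nat_lit 1900) (nat_lit 6292800359) (nat_lit 481) (nat_lit 3) (nat_lit 506) (nat_lit 3) (nat_lit 506) (nat_lit 5) (nat_lit 469) (nat_lit 469) (nat_lit 262)) (XT.lf (nat_lit 0) (nat_lit 6374461686) (nat_lit 1824) (nat_lit 20845473419)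 (nat_lit 1900) (nat_lit 4498079198) (nat_lit 482) (nat_lit 5) (nat_lit 506) (nat_lit 5) (nat_lit 507) (nat_lit 5) (nat_lit 470) (nat_lit 469) (nat_lit 261)))) (XT.nd (nat_lit 156) (nat_lit 0) (nat_lit 152) (XT.nd (nat_lit 78) (nat_lit 0) (nat_lit 76) (XT.lf (nat_lit 76) (nat_lit 2922477363) (nat_lit 0) (nat_lit 3978904713) (nat_lit 1900) (nat_lit 25290832744) (nat_lit 483) (nat_lit 5) (nat_lit 482) (nat_lit 5) (nat_lit 507) (nat_lit 5) (nat_lit 471) (nat_lit 469) (nat_lit 260)) (XT.lf (nat_lit 0) (nat_lit 7712067711) (nat_lit 1824) (nat_lit 5121716664) (nat_lit 1900) (nat_lit 19841497940) (nat_lit 483) (nat_lit 5) (nat_lit 507) (nat_lit 5) (nat_lit 508) (nat_lit 5) (nat_lit 472) (nat_lit 469) (nat_lit 259))) (XT.nd (nat_lit 78) (nat_lit 0) (nat_lit 76) (XT.lf (nat_lit 0) (nat_lit 8772987146) (nat_lit 1824) (nat_lit 13258938368) (nat_lit 1900) (nat_lit 11136398168) (nat_lit 484) (nat_lit 5) (nat_lit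 508) (nat_lit 5) (nat_lit 509) (nat_lit 5) (nat_lit 473) (nat_lit 469) (nat_lit 258)) (XT.lf (nat_lit 0) (nat_lit 10075427147) (nat_lit 1824) (nat_lit 21528547778) (nat_lit 1900) (nat_lit 2067987615) (nat_lit 485) (nat_lit 5) (nat_lit 509) (nat_lit 5) (nat_lit 510) (nat_lit 5) (nat_lit 474) (nat_lit 469) (nat_lit 257)))))) (XT.nd (nat_lit 546) (nat_lit 4256) (nat_lit 0) (XT.nd (nat_lit 234) (nat_lit 0) (nat_lit 152) (XT.nd (nat_lit 78) (nat_lit 0) (nat_lit 76) (XT.lf (nat_lit 76) (nat_lit 4205430650) (nat_lit 0) (nat_lit 7473086583) (nat_lit 1900) (nat_lit 22506961898) (nat_lit 486) (nat_lit 5) (nat_lit 485) (nat_lit 5) (nat_lit 510) (nat_lit 5) (nat_lit 475) (nat_lit 469) (nat_lit 256)) (XT.nd (nat_lit 78) (nat_lit 0) (nat_lit 76) (XT.lf (nat_lit 0) (nat_lit 13585993649) (nat_lit 1824) (nat_lit 3821436899) (nat_lit 1900) (nat_lit 17301844904) (nat_lit 486) (nat_lit 5) (nat_lit 510) (nat_lit 5) (nat_lit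 511) (nat_lit 5) (nat_lit 476) (nat_lit 469) (nat_lit 255)) (XT.lf (nat_lit 0) (nat_lit 15798654929) (nat_lit 1824) (nat_lit 11917978272) (nat_lit 1900) (nat_lit 7527193347) (nat_lit 487) (nat_lit 5) (nat_lit 511) (nat_lit 5) (nat_lit 512) (nat_lit 5) (nat_lit 477) (nat_lit 469) (nat_lit 254)))) (XT.nd (nat_lit 156) (nat_lit 0) (nat_lit 152) (XT.nd (nat_lit 78) (nat_lit 0) (nat_lit 76) (XT.lf (nat_lit 76) (nat_lit 15632181417) (nat_lit 0) (nat_lit 2686265489) (nat_lit 1900) (nat_lit 17471152353) (nat_lit 488) (nat_lit 5) (nat_lit 487) (nat_lit 5) (nat_lit 512) (nat_lit 5) (nat_lit 478) (nat_lit 469) (nat_lit 253)) (XT.lf (nat_lit 76) (nat_lit 7771034567) (nat_lit 0) (nat_lit 13421360045) (nat_lit 1900) (nat_lit 15153779393) (nat_lit 489) (nat_lit 5) (nat_lit 488) (nat_lit 5) (nat_lit 513) (nat_lit 5) (nat_lit 479) (nat_lit 469) (nat_lit 252))) (XT.nd (nat_lit 78) (nat_lit 0) (nat_lit 76) (XT.lf (nat_lit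 0) (nat_lit 24385027297) (nat_lit 1824) (nat_lit 204664755) (nat_lit 1900) (nat_lit 12325104700) (nat_lit 489) (nat_lit 5) (nat_lit 513) (nat_lit 5) (nat_lit 514) (nat_lit 5) (nat_lit 480) (nat_lit 469) (nat_lit 251)) (XT.lf (nat_lit 0) (nat_lit 27959347343) (nat_lit 1824) (nat_lit 8194407772) (nat_lit 1900) (nat_lit 1341004990) (nat_lit 490) (nat_lit 5) (nat_lit 514) (nat_lit 5) (nat_lit 515) (nat_lit 5) (nat_lit 481) (nat_lit 469) (nat_lit 250))))) (XT.nd (nat_lit 312) (nat_lit 2888) (nat_lit 0) (XT.nd (nat_lit 156) (nat_lit 1748) (nat_lit 0) (XT.nd (nat_lit 78) (nat_lit 0) (nat_lit 76) (XT.lf (nat_lit 76) (nat_lit 21719386689) (nat_lit 0) (nat_lit 10225477651) (nat_lit 1900) (nat_lit 6141178756) (nat_lit 491) (nat_lit 5) (nat_lit 490) (nat_lit 5) (nat_lit 515) (nat_lit 5) (nat_lit 482) (nat_lit 469) (nat_lit 249)) (XT.lf (nat_lit 76) (nat_lit 14023085112) (nat_lit 0) (nat_lit 22277994045) (nat_lit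 1900) (nat_lit 2388962857) (nat_lit 492) (nat_lit 5) (nat_lit 491) (nat_lit 5) (nat_lit 516) (nat_lit 5) (nat_lit 483) (nat_lit 469) (nat_lit 248))) (XT.nd (nat_lit 78) (nat_lit 0) (nat_lit 0) (XT.lf (nat_lit 0) (nat_lit 1703873062) (nat_lit 1900) (nat_lit 33097782540) (nat_lit 1976) (nat_lit 4505365555) (nat_lit 467) (nat_lit 5) (nat_lit 492) (nat_lit 5) (nat_lit 493) (nat_lit 5) (nat_lit 484) (nat_lit 469) (nat_lit 247)) (XT.lf (nat_lit 0) (nat_lit 6201767813) (nat_lit 1900) (nat_lit 1758154097) (nat_lit 1976) (nat_lit 31975977411) (nat_lit 467) (nat_lit 5) (nat_lit 492) (nat_lit 5) (nat_lit 493) (nat_lit 5) (nat_lit 485) (nat_lit 469) (nat_lit 246)))) (XT.nd (nat_lit 156) (nat_lit 1824) (nat_lit 0) (XT.nd (nat_lit 78) (nat_lit 1140) (nat_lit 0) (XT.lf (nat_lit 0) (nat_lit 11161921995) (nat_lit 1900) (nat_lit 9783803969) (nat_lit 76) (nat_lit 19631371490) (nat_lit 468) (nat_lit 5) (nat_lit 493) (nat_lit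 5) (nat_lit 469) (nat_lit 5) (nat_lit 486) (nat_lit 469) (nat_lit 245)) (XT.lf (nat_lit 0) (nat_lit 16529842048) (nat_lit 1216) (nat_lit 17919008599) (nat_lit 76) (nat_lit 6783501732) (nat_lit 453) (nat_lit 5) (nat_lit 469) (nat_lit 5) (nat_lit 454) (nat_lit 5) (nat_lit 487) (nat_lit 469) (nat_lit 244))) (XT.nd (nat_lit 78) (nat_lit 912) (nat_lit 0) (XT.lf (nat_lit 0) (nat_lit 15694459195) (nat_lit 912) (nat_lit 6670559315) (nat_lit 988) (nat_lit 19536122136) (nat_lit 441) (nat_lit 5) (nat_lit 453) (nat_lit 5) (nat_lit 454) (nat_lit 5) (nat_lit 488) (nat_lit 469) (nat_lit 243)) (XT.lf (nat_lit 0) (nat_lit 7932555041) (nat_lit 912) (nat_lit 20756452642) (nat_lit 988) (nat_lit 13894709797) (nat_lit 429) (nat_lit 5) (nat_lit 441) (nat_lit 5) (nat_lit 442) (nat_lit 5) (nat_lit 489) (nat_lit 469) (nat_lit 242))))))))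
noncomputable def xc117 : XT := (XT.nd (nat_lit 61542) (nat_lit 0) (nat_lit 1824) (XT.nd (nat_lit 1092) (nat_lit 3800) (nat_lit 0) (XT.nd (nat_lit 546) (nat_lit 4484) (nat_lit 0) (XT.nd (nat_lit 234) (nat_lit 2432) (nat_lit 0) (XT.nd (nat_lit 78) (nat_lit 988) (nat_lit 0) (XT.lf (nat_lit 0) (nat_lit 74003317) (nat_lit 836) (nat_lit 35400563257) (nat_lit 912) (nat_lit 7806768112) (nat_lit 418) (nat_lit 5) (nat_lit 429) (nat_lit 5) (nat_lit 430) (nat_lit 5) (nat_lit 490) (nat_lit 469) (nat_lit 241)) (XT.nd (nat_lit 78) (nat_lit 988) (nat_lit 0) (XT.lf (nat_lit 0) (nat_lit 36172340761) (nat_lit 836) (nat_lit 6661733892) (nat_lit 912) (nat_lit 1158398171) (nat_lit 418) (nat_lit 5) (nat_lit 429) (nat_lit 5) (nat_lit 430) (nat_lit 5) (nat_lit 491) (nat_lit 469) (nat_lit 240)) (XT.lf (nat_lit 0) (nat_lit 5951055051) (nat_lit 988) (nat_lit 15901440340) (nat_lit 76) (nat_lit 22864985988) (nat_lit 405) (nat_lit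 5) (nat_lit 418) (nat_lit 5) (nat_lit 406) (nat_lit 5) (nat_lit 492) (nat_lit 469) (nat_lit 239)))) (XT.nd (nat_lit 156) (nat_lit 760) (nat_lit 0) (XT.nd (nat_lit 78) (nat_lit 836) (nat_lit 0) (XT.lf (nat_lit 0) (nat_lit 13544378639) (nat_lit 912) (nat_lit 24089623498) (nat_lit 76) (nat_lit 7824358474) (nat_lit 394) (nat_lit 5) (nat_lit 406) (nat_lit 5) (nat_lit 395) (nat_lit 5) (nat_lit 493) (nat_lit 469) (nat_lit 238)) (XT.lf (nat_lit 0) (nat_lit 13787117134) (nat_lit 836) (nat_lit 7920339854) (nat_lit 912) (nat_lit 24507170190) (nat_lit 383) (nat_lit 5) (nat_lit 394) (nat_lit 5) (nat_lit 395) (nat_lit 5) (nat_lit 494) (nat_lit 469) (nat_lit 237))) (XT.nd (nat_lit 78) (nat_lit 0) (nat_lit 0) (XT.lf (nat_lit 0) (nat_lit 6068582292) (nat_lit 760) (nat_lit 24395735156) (nat_lit 836) (nat_lit 16522286556) (nat_lit 373) (nat_lit 5) (nat_lit 383) (nat_lit 5) (nat_lit 384) (nat_lit 5) (nat_lit 495) (nat_lit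 469) (nat_lit 236)) (XT.lf (nat_lit 0) (nat_lit 39795423188) (nat_lit 836) (nat_lit 1710017619) (nat_lit 76) (nat_lit 6270068591) (nat_lit 373) (nat_lit 5) (nat_lit 384) (nat_lit 5) (nat_lit 374) (nat_lit 5) (nat_lit 496) (nat_lit 469) (nat_lit 235))))) (XT.nd (nat_lit 234) (nat_lit 2128) (nat_lit 0) (XT.nd (nat_lit 78) (nat_lit 1520) (nat_lit 0) (XT.lf (nat_lit 0) (nat_lit 1224876101) (nat_lit 836) (nat_lit 9567173915) (nat_lit 76) (nat_lit 37787581139) (nat_lit 362) (nat_lit 5) (nat_lit 373) (nat_lit 5) (nat_lit 363) (nat_lit 5) (nat_lit 497) (nat_lit 469) (nat_lit 234)) (XT.nd (nat_lit 78) (nat_lit 760) (nat_lit 0) (XT.lf (nat_lit 0) (nat_lit 10952348950) (nat_lit 836) (nat_lit 17603988561) (nat_lit 76) (nat_lit 20843388540) (nat_lit 352) (nat_lit 5) (nat_lit 363) (nat_lit 5) (nat_lit 353) (nat_lit 5) (nat_lit 498) (nat_lit 469) (nat_lit 233)) (XT.lf (nat_lit 0) (nat_lit 21287653072) (nat_lit 836)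 (nat_lit 25725368967) (nat_lit 76) (nat_lit 3225081665) (nat_lit 342) (nat_lit 5) (nat_lit 353) (nat_lit 5) (nat_lit 343) (nat_lit 5) (nat_lit 499) (nat_lit 469) (nat_lit 232)))) (XT.nd (nat_lit 156) (nat_lit 760) (nat_lit 0) (XT.nd (nat_lit 78) (nat_lit 684) (nat_lit 0) (XT.lf (nat_lit 0) (nat_lit 17064562135) (nat_lit 684) (nat_lit 15288403979) (nat_lit 760) (nat_lit 18740267623) (nat_lit 333) (nat_lit 5) (nat_lit 342) (nat_lit 5) (nat_lit 343) (nat_lit 5) (nat_lit 500) (nat_lit 469) (nat_lit 231)) (XT.lf (nat_lit 0) (nat_lit 9528549917) (nat_lit 684) (nat_lit 34570071925) (nat_lit 760) (nat_lit 7868428208) (nat_lit 324) (nat_lit 5) (nat_lit 333) (nat_lit 5) (nat_lit 334) (nat_lit 5) (nat_lit 501) (nat_lit 469) (nat_lit 230))) (XT.nd (nat_lit 78) (nat_lit 0) (nat_lit 0) (XT.lf (nat_lit 0) (nat_lit 1893099772) (nat_lit 684) (nat_lit 1737620407) (nat_lit 760) (nat_lit 49229031931) (nat_lit 314) (nat_lit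 5) (nat_lit 323) (nat_lit 5) (nat_lit 324) (nat_lit 5) (nat_lit 502) (nat_lit 469) (nat_lit 229)) (XT.lf (nat_lit 0) (nat_lit 15864527070) (nat_lit 760) (nat_lit 5902889603) (nat_lit 76) (nat_lit 32000846691) (nat_lit 314) (nat_lit 5) (nat_lit 324) (nat_lit 5) (nat_lit 315) (nat_lit 5) (nat_lit 503) (nat_lit 469) (nat_lit 228)))))) (XT.nd (nat_lit 59826) (nat_lit 0) (nat_lit 16492) (XT.nd (nat_lit 234) (nat_lit 1824) (nat_lit 0) (XT.nd (nat_lit 78) (nat_lit 1292) (nat_lit 0) (XT.lf (nat_lit 0) (nat_lit 28821504345) (nat_lit 760) (nat_lit 13741045901) (nat_lit 76) (nat_lit 12134356629) (nat_lit 305) (nat_lit 5) (nat_lit 315) (nat_lit 5) (nat_lit 306) (nat_lit 5) (nat_lit 504) (nat_lit 469) (nat_lit 227)) (XT.nd (nat_lit 78) (nat_lit 684) (nat_lit 0) (XT.lf (nat_lit 0) (nat_lit 33945850586) (nat_lit 608) (nat_lit 8625870722) (nat_lit 684) (nat_lit 13073597816) (nat_lit 297) (nat_lit 5) (nat_lit 305) (nat_lit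 5) (nat_lit 306) (nat_lit 5) (nat_lit 505) (nat_lit 469) (nat_lit 226)) (XT.lf (nat_lit 0) (nat_lit 550752598) (nat_lit 684) (nat_lit 29807982233) (nat_lit 76) (nat_lit 26254635092) (nat_lit 288) (nat_lit 5) (nat_lit 297) (nat_lit 5) (nat_lit 289) (nat_lit 5) (nat_lit 506) (nat_lit 469) (nat_lit 225)))) (XT.nd (nat_lit 156) (nat_lit 608) (nat_lit 0) (XT.nd (nat_lit 78) (nat_lit 608) (nat_lit 0) (XT.lf (nat_lit 0) (nat_lit 14769629913) (nat_lit 684) (nat_lit 38070108018) (nat_lit 76) (nat_lit 4761727716) (nat_lit 280) (nat_lit 5) (nat_lit 289) (nat_lit 5) (nat_lit 281) (nat_lit 5) (nat_lit 507) (nat_lit 469) (nat_lit 224)) (XT.lf (nat_lit 0) (nat_lit 12095943010) (nat_lit 608) (nat_lit 17802402006) (nat_lit 684) (nat_lit 28711193834) (nat_lit 272) (nat_lit 5) (nat_lit 280) (nat_lit 5) (nat_lit 281) (nat_lit 5) (nat_lit 508) (nat_lit 469) (nat_lit 223))) (XT.nd (nat_lit 78) (nat_lit 76) (nat_lit 0) (XT.lf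 (nat_lit 0) (nat_lit 4583001573) (nat_lit 532) (nat_lit 41304503675) (nat_lit 608) (nat_lit 13752217363) (nat_lit 265) (nat_lit 5) (nat_lit 272) (nat_lit 5) (nat_lit 273) (nat_lit 5) (nat_lit 509) (nat_lit 469) (nat_lit 222)) (XT.lf (nat_lit 0) (nat_lit 2068588241) (nat_lit 608) (nat_lit 2979263850) (nat_lit 76) (nat_lit 55644049404) (nat_lit 264) (nat_lit 5) (nat_lit 272) (nat_lit 5) (nat_lit 265) (nat_lit 5) (nat_lit 510) (nat_lit 469) (nat_lit 221))))) (XT.nd (nat_lit 312) (nat_lit 0) (nat_lit 228) (XT.nd (nat_lit 156) (nat_lit 0) (nat_lit 76) (XT.nd (nat_lit 78) (nat_lit 0) (nat_lit 76) (XT.lf (nat_lit 0) (nat_lit 3232091751) (nat_lit 1900) (nat_lit 6430664155) (nat_lit 1900) (nat_lit 6430664155) (nat_lit 481) (nat_lit 3) (nat_lit 506) (nat_lit 3) (nat_lit 506) (nat_lit 5) (nat_lit 470) (nat_lit 470) (nat_lit 260)) (XT.lf (nat_lit 0) (nat_lit 6759598822) (nat_lit 1824) (nat_lit 21366140814) (nat_lit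 1900) (nat_lit 4539931163) (nat_lit 482) (nat_lit 5) (nat_lit 506) (nat_lit 5) (nat_lit 507) (nat_lit 5) (nat_lit 471) (nat_lit 470) (nat_lit 259))) (XT.nd (nat_lit 78) (nat_lit 0) (nat_lit 76) (XT.lf (nat_lit 76) (nat_lit 3113149910) (nat_lit 0) (nat_lit 4184197978) (nat_lit 1900) (nat_lit 25856849194) (nat_lit 483) (nat_lit 5) (nat_lit 482) (nat_lit 5) (nat_lit 507) (nat_lit 5) (nat_lit 472) (nat_lit 470) (nat_lit 258)) (XT.lf (nat_lit 0) (nat_lit 8126309801) (nat_lit 1824) (nat_lit 5171154282) (nat_lit 1900) (nat_lit 20354413570) (nat_lit 483) (nat_lit 5) (nat_lit 507) (nat_lit 5) (nat_lit 508) (nat_lit 5) (nat_lit 473) (nat_lit 470) (nat_lit 257)))) (XT.nd (nat_lit 156) (nat_lit 0) (nat_lit 76) (XT.nd (nat_lit 78) (nat_lit 0) (nat_lit 76) (XT.lf (nat_lit 0) (nat_lit 9213904395) (nat_lit 1824) (nat_lit 13550122164) (nat_lit 1900) (nat_lit 11395786912) (nat_lit 484) (nat_lit 5) (nat_lit 508) (nat_lit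 5) (nat_lit 509) (nat_lit 5) (nat_lit 474) (nat_lit 470) (nat_lit 256)) (XT.lf (nat_lit 0) (nat_lit 10550477905) (nat_lit 1824) (nat_lit 22065635264) (nat_lit 1900) (nat_lit 2062547276) (nat_lit 485) (nat_lit 5) (nat_lit 509) (nat_lit 5) (nat_lit 510) (nat_lit 5) (nat_lit 475) (nat_lit 470) (nat_lit 255))) (XT.nd (nat_lit 78) (nat_lit 0) (nat_lit 76) (XT.lf (nat_lit 76) (nat_lit 4438597870) (nat_lit 0) (nat_lit 7758724908) (nat_lit 1900) (nat_lit 23010346666) (nat_lit 486) (nat_lit 5) (nat_lit 485) (nat_lit 5) (nat_lit 510) (nat_lit 5) (nat_lit 476) (nat_lit 470) (nat_lit 254)) (XT.lf (nat_lit 0) (nat_lit 14156729848) (nat_lit 1824) (nat_lit 3828529221) (nat_lit 1900) (nat_lit 17762026605) (nat_lit 486) (nat_lit 5) (nat_lit 510) (nat_lit 5) (nat_lit 511) (nat_lit 5) (nat_lit 477) (nat_lit 470) (nat_lit 253))))))) (XT.nd (nat_lit 1170) (nat_lit 9880) (nat_lit 0) (XT.nd (nat_lit 546) (nat_lit 5244) (nat_lit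 0) (XT.nd (nat_lit 234) (nat_lit 0) (nat_lit 152) (XT.nd (nat_lit 78) (nat_lit 0) (nat_lit 0) (XT.lf (nat_lit 0) (nat_lit 16431359837) (nat_lit 1824) (nat_lit 12166179161) (nat_lit 1900) (nat_lit 7700422671) (nat_lit 487) (nat_lit 5) (nat_lit 511) (nat_lit 5) (nat_lit 512) (nat_lit 5) (nat_lit 478) (nat_lit 470) (nat_lit 252)) (XT.nd (nat_lit 78) (nat_lit 0) (nat_lit 76) (XT.lf (nat_lit 76) (nat_lit 16208711432) (nat_lit 0) (nat_lit 2814108873) (nat_lit 1900) (nat_lit 17837365900) (nat_lit 488) (nat_lit 5) (nat_lit 487) (nat_lit 5) (nat_lit 512) (nat_lit 5) (nat_lit 479) (nat_lit 470) (nat_lit 251)) (XT.lf (nat_lit 76) (nat_lit 8113337626) (nat_lit 0) (nat_lit 13865550436) (nat_lit 1900) (nat_lit 15454652233) (nat_lit 489) (nat_lit 5) (nat_lit 488) (nat_lit 5) (nat_lit 513) (nat_lit 5) (nat_lit 480) (nat_lit 470) (nat_lit 250)))) (XT.nd (nat_lit 156) (nat_lit 0) (nat_lit 76) (XT.nd (nat_lit 78) (nat_lit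 0) (nat_lit 76) (XT.lf (nat_lit 0) (nat_lit 25262647869) (nat_lit 1824) (nat_lit 101619534) (nat_lit 1900) (nat_lit 12655047492) (nat_lit 489) (nat_lit 5) (nat_lit 513) (nat_lit 5) (nat_lit 514) (nat_lit 5) (nat_lit 481) (nat_lit 470) (nat_lit 249)) (XT.lf (nat_lit 0) (nat_lit 28940412573) (nat_lit 1824) (nat_lit 8329743863) (nat_lit 1900) (nat_lit 1346596537) (nat_lit 490) (nat_lit 5) (nat_lit 514) (nat_lit 5) (nat_lit 515) (nat_lit 5) (nat_lit 482) (nat_lit 470) (nat_lit 248))) (XT.nd (nat_lit 78) (nat_lit 0) (nat_lit 76) (XT.lf (nat_lit 76) (nat_lit 22479671763) (nat_lit 0) (nat_lit 10562384875) (nat_lit 1900) (nat_lit 6183786709) (nat_lit 491) (nat_lit 5) (nat_lit 490) (nat_lit 5) (nat_lit 515) (nat_lit 5) (nat_lit 483) (nat_lit 470) (nat_lit 247)) (XT.lf (nat_lit 76) (nat_lit 14553646010) (nat_lit 0) (nat_lit 22971791151) (nat_lit 1900) (nat_lit 2322595607) (nat_lit 492) (nat_lit 5) (nat_lit 491)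 (nat_lit 5) (nat_lit 516) (nat_lit 5) (nat_lit 484) (nat_lit 470) (nat_lit 246))))) (XT.nd (nat_lit 312) (nat_lit 2660) (nat_lit 0) (XT.nd (nat_lit 156) (nat_lit 1064) (nat_lit 0) (XT.nd (nat_lit 78) (nat_lit 0) (nat_lit 0) (XT.lf (nat_lit 0) (nat_lit 1887810649) (nat_lit 1900) (nat_lit 33978032089) (nat_lit 1976) (nat_lit 4617728823) (nat_lit 467) (nat_lit 5) (nat_lit 492) (nat_lit 5) (nat_lit 493) (nat_lit 5) (nat_lit 485) (nat_lit 470) (nat_lit 245)) (XT.lf (nat_lit 0) (nat_lit 6516773658) (nat_lit 1900) (nat_lit 1701496850) (nat_lit 1976) (nat_lit 32913123045) (nat_lit 467) (nat_lit 5) (nat_lit 492) (nat_lit 5) (nat_lit 493) (nat_lit 5) (nat_lit 486) (nat_lit 470) (nat_lit 244))) (XT.nd (nat_lit 78) (nat_lit 1140) (nat_lit 0) (XT.lf (nat_lit 0) (nat_lit 11622556732) (nat_lit 1900) (nat_lit 9967051022) (nat_lit 76) (nat_lit 20202283498) (nat_lit 468) (nat_lit 5) (nat_lit 493) (nat_lit 5) (nat_lit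 469) (nat_lit 5) (nat_lit 487) (nat_lit 470) (nat_lit 243)) (XT.lf (nat_lit 0) (nat_lit 17148462184) (nat_lit 1216) (nat_lit 18345547800) (nat_lit 76) (nat_lit 6972854989) (nat_lit 453) (nat_lit 5) (nat_lit 469) (nat_lit 5) (nat_lit 454) (nat_lit 5) (nat_lit 488) (nat_lit 470) (nat_lit 242)))) (XT.nd (nat_lit 156) (nat_lit 836) (nat_lit 0) (XT.nd (nat_lit 78) (nat_lit 912) (nat_lit 0) (XT.lf (nat_lit 0) (nat_lit 16274522682) (nat_lit 912) (nat_lit 6881305939) (nat_lit 988) (nat_lit 19999945675) (nat_lit 441) (nat_lit 5) (nat_lit 453) (nat_lit 5) (nat_lit 454) (nat_lit 5) (nat_lit 489) (nat_lit 470) (nat_lit 241)) (XT.lf (nat_lit 0) (nat_lit 8280418800) (nat_lit 912) (nat_lit 21386274068) (nat_lit 988) (nat_lit 14192192557) (nat_lit 429) (nat_lit 5) (nat_lit 441) (nat_lit 5) (nat_lit 442) (nat_lit 5) (nat_lit 490) (nat_lit 470) (nat_lit 240))) (XT.nd (nat_lit 78) (nat_lit 0) (nat_lit 0) (XT.lf (nat_lit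 0) (nat_lit 186678822) (nat_lit 836) (nat_lit 36466403721) (nat_lit 912) (nat_lit 7924403420) (nat_lit 418) (nat_lit 5) (nat_lit 429) (nat_lit 5) (nat_lit 430) (nat_lit 5) (nat_lit 491) (nat_lit 470) (nat_lit 239)) (XT.lf (nat_lit 0) (nat_lit 37364749242) (nat_lit 836) (nat_lit 6865298109) (nat_lit 912) (nat_lit 1079977558) (nat_lit 418) (nat_lit 5) (nat_lit 429) (nat_lit 5) (nat_lit 430) (nat_lit 5) (nat_lit 492) (nat_lit 470) (nat_lit 238)))))) (XT.nd (nat_lit 546) (nat_lit 4864) (nat_lit 0) (XT.nd (nat_lit 234) (nat_lit 2356) (nat_lit 0) (XT.nd (nat_lit 78) (nat_lit 1672) (nat_lit 0) (XT.lf (nat_lit 0) (nat_lit 6238702315) (nat_lit 988) (nat_lit 16269322313) (nat_lit 76) (nat_lit 23548795937) (nat_lit 405) (nat_lit 5) (nat_lit 418) (nat_lit 5) (nat_lit 406) (nat_lit 5) (nat_lit 493) (nat_lit 470) (nat_lit 237)) (XT.nd (nat_lit 78) (nat_lit 836) (nat_lit 0) (XT.lf (nat_lit 0) (nat_lit 14057349640)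 (nat_lit 912) (nat_lit 24702791331) (nat_lit 76) (nat_lit 8059834810) (nat_lit 394) (nat_lit 5) (nat_lit 406) (nat_lit 5) (nat_lit 395) (nat_lit 5) (nat_lit 494) (nat_lit 470) (nat_lit 236)) (XT.lf (nat_lit 0) (nat_lit 14308474675) (nat_lit 836) (nat_lit 8154439201) (nat_lit 912) (nat_lit 25136064680) (nat_lit 383) (nat_lit 5) (nat_lit 394) (nat_lit 5) (nat_lit 395) (nat_lit 5) (nat_lit 495) (nat_lit 470) (nat_lit 235)))) (XT.nd (nat_lit 156) (nat_lit 1596) (nat_lit 0) (XT.nd (nat_lit 78) (nat_lit 0) (nat_lit 0) (XT.lf (nat_lit 0) (nat_lit 6358666915) (nat_lit 760) (nat_lit 25121500832) (nat_lit 836) (nat_lit 16913993268) (nat_lit 373) (nat_lit 5) (nat_lit 383) (nat_lit 5) (nat_lit 384) (nat_lit 5) (nat_lit 496) (nat_lit 470) (nat_lit 234)) (XT.lf (nat_lit 0) (nat_lit 41088276585) (nat_lit 836) (nat_lit 1654494248) (nat_lit 76) (nat_lit 6464021418) (nat_lit 373) (nat_lit 5) (nat_lit 384) (nat_lit 5)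 (nat_lit 374) (nat_lit 5) (nat_lit 497) (nat_lit 470) (nat_lit 233))) (XT.nd (nat_lit 78) (nat_lit 760) (nat_lit 0) (XT.lf (nat_lit 0) (nat_lit 1359055677) (nat_lit 836) (nat_lit 9747800998) (nat_lit 76) (nat_lit 38928212260) (nat_lit 362) (nat_lit 5) (nat_lit 373) (nat_lit 5) (nat_lit 363) (nat_lit 5) (nat_lit 498) (nat_lit 470) (nat_lit 232)) (XT.lf (nat_lit 0) (nat_lit 11376255333) (nat_lit 836) (nat_lit 18025599137) (nat_lit 76) (nat_lit 21477954230) (nat_lit 352) (nat_lit 5) (nat_lit 363) (nat_lit 5) (nat_lit 353) (nat_lit 5) (nat_lit 499) (nat_lit 470) (nat_lit 231))))) (XT.nd (nat_lit 312) (nat_lit 1976) (nat_lit 0) (XT.nd (nat_lit 156) (nat_lit 1444) (nat_lit 0) (XT.nd (nat_lit 78) (nat_lit 684) (nat_lit 0) (XT.lf (nat_lit 0) (nat_lit 22019597048) (nat_lit 836) (nat_lit 26390556739) (nat_lit 76) (nat_lit 3333224394) (nat_lit 342) (nat_lit 5) (nat_lit 353) (nat_lit 5) (nat_lit 343) (nat_lit 5)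 (nat_lit 500) (nat_lit 470) (nat_lit 230)) (XT.lf (nat_lit 0) (nat_lit 17681343271) (nat_lit 684) (nat_lit 15733489034) (nat_lit 760) (nat_lit 19209370622) (nat_lit 333) (nat_lit 5) (nat_lit 342) (nat_lit 5) (nat_lit 343) (nat_lit 5) (nat_lit 501) (nat_lit 470) (nat_lit 229))) (XT.nd (nat_lit 78) (nat_lit 760) (nat_lit 0) (XT.lf (nat_lit 0) (nat_lit 9919261223) (nat_lit 684) (nat_lit 35591704230) (nat_lit 760) (nat_lit 8013306188) (nat_lit 324) (nat_lit 5) (nat_lit 333) (nat_lit 5) (nat_lit 334) (nat_lit 5) (nat_lit 502) (nat_lit 470) (nat_lit 228)) (XT.lf (nat_lit 0) (nat_lit 2054224936) (nat_lit 684) (nat_lit 1773452583) (nat_lit 760) (nat_lit 50616104334) (nat_lit 314) (nat_lit 5) (nat_lit 323) (nat_lit 5) (nat_lit 324) (nat_lit 5) (nat_lit 503) (nat_lit 470) (nat_lit 227)))) (XT.nd (nat_lit 156) (nat_lit 1292) (nat_lit 0) (XT.nd (nat_lit 78) (nat_lit 684) (nat_lit 0) (XT.lf (nat_lit 0) (nat_lit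 16426037195) (nat_lit 760) (nat_lit 5977074171) (nat_lit 76) (nat_lit 32976486369) (nat_lit 314) (nat_lit 5) (nat_lit 324) (nat_lit 5) (nat_lit 315) (nat_lit 5) (nat_lit 504) (nat_lit 470) (nat_lit 226)) (XT.lf (nat_lit 0) (nat_lit 29770002182) (nat_lit 760) (nat_lit 14050481435) (nat_lit 76) (nat_lit 12515651426) (nat_lit 305) (nat_lit 5) (nat_lit 315) (nat_lit 5) (nat_lit 306) (nat_lit 5) (nat_lit 505) (nat_lit 470) (nat_lit 225))) (XT.nd (nat_lit 78) (nat_lit 684) (nat_lit 0) (XT.lf (nat_lit 0) (nat_lit 35065354206) (nat_lit 608) (nat_lit 8865585727) (nat_lit 684) (nat_lit 13382095499) (nat_lit 297) (nat_lit 5) (nat_lit 305) (nat_lit 5) (nat_lit 306) (nat_lit 5) (nat_lit 506) (nat_lit 470) (nat_lit 224)) (XT.lf (nat_lit 0) (nat_lit 648262301) (nat_lit 684) (nat_lit 30600161315) (nat_lit 76) (nat_lit 27061725828) (nat_lit 288) (nat_lit 5) (nat_lit 297) (nat_lit 5) (nat_lit 289) (nat_lit 5) (nat_lit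 507) (nat_lit 470) (nat_lit 223))))))))
noncomputable def xc118 : XT := (XT.nd (nat_lit 61698) (nat_lit 0) (nat_lit 608) (XT.nd (nat_lit 60528) (nat_lit 0) (nat_lit 7676) (XT.nd (nat_lit 59982) (nat_lit 0) (nat_lit 16188) (XT.nd (nat_lit 59670) (nat_lit 0) (nat_lit 15960) (XT.nd (nat_lit 78) (nat_lit 608) (nat_lit 0) (XT.lf (nat_lit 0) (nat_lit 15292136134) (nat_lit 684) (nat_lit 39110356452) (nat_lit 76) (nat_lit 4925426904) (nat_lit 280) (nat_lit 5) (nat_lit 289) (nat_lit 5) (nat_lit 281) (nat_lit 5) (nat_lit 508) (nat_lit 470) (nat_lit 222)) (XT.nd (nat_lit 59514) (nat_lit 0) (nat_lit 15884) (XT.lf (nat_lit 0) (nat_lit 12559023633) (nat_lit 608) (nat_lit 18314026511) (nat_lit 684) (nat_lit 29493218048) (nat_lit 272) (nat_lit 5) (nat_lit 280) (nat_lit 5) (nat_lit 281) (nat_lit 5) (nat_lit 509) (nat_lit 470) (nat_lit 221)) (XT.lf (nat_lit 0) (nat_lit 3423163841) (nat_lit 1900) (nat_lit 6575586894)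 (nat_lit 1900) (nat_lit 6575586894) (nat_lit 481) (nat_lit 3) (nat_lit 506) (nat_lit 3) (nat_lit 506) (nat_lit 5) (nat_lit 471) (nat_lit 471) (nat_lit 258)))) (XT.nd (nat_lit 156) (nat_lit 0) (nat_lit 76) (XT.nd (nat_lit 78) (nat_lit 0) (nat_lit 0) (XT.lf (nat_lit 0) (nat_lit 7145159231) (nat_lit 1824) (nat_lit 21908438256) (nat_lit 1900) (nat_lit 4588382458) (nat_lit 482) (nat_lit 5) (nat_lit 506) (nat_lit 5) (nat_lit 507) (nat_lit 5) (nat_lit 472) (nat_lit 471) (nat_lit 257)) (XT.lf (nat_lit 76) (nat_lit 3303630113) (nat_lit 0) (nat_lit 4390717530) (nat_lit 1900) (nat_lit 26450908395) (nat_lit 483) (nat_lit 5) (nat_lit 482) (nat_lit 5) (nat_lit 507) (nat_lit 5) (nat_lit 473) (nat_lit 471) (nat_lit 256))) (XT.nd (nat_lit 78) (nat_lit 0) (nat_lit 76) (XT.lf (nat_lit 0) (nat_lit 8542481090) (nat_lit 1824) (nat_lit 5228057332) (nat_lit 1900) (nat_lit 20887442708) (nat_lit 483) (nat_lit 5) (nat_lit 507)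 (nat_lit 5) (nat_lit 508) (nat_lit 5) (nat_lit 474) (nat_lit 471) (nat_lit 255)) (XT.lf (nat_lit 0) (nat_lit 9657846869) (nat_lit 1824) (nat_lit 13856159852) (nat_lit 1900) (nat_lit 11667245587) (nat_lit 484) (nat_lit 5) (nat_lit 508) (nat_lit 5) (nat_lit 509) (nat_lit 5) (nat_lit 475) (nat_lit 471) (nat_lit 254))))) (XT.nd (nat_lit 234) (nat_lit 0) (nat_lit 152) (XT.nd (nat_lit 78) (nat_lit 0) (nat_lit 0) (XT.lf (nat_lit 0) (nat_lit 11029861451) (nat_lit 1824) (nat_lit 22625079157) (nat_lit 1900) (nat_lit 2060817353) (nat_lit 485) (nat_lit 5) (nat_lit 509) (nat_lit 5) (nat_lit 510) (nat_lit 5) (nat_lit 476) (nat_lit 471) (nat_lit 253)) (XT.nd (nat_lit 78) (nat_lit 0) (nat_lit 76) (XT.lf (nat_lit 76) (nat_lit 4672617623) (nat_lit 0) (nat_lit 8049405146) (nat_lit 1900) (nat_lit 23538696382) (nat_lit 486) (nat_lit 5) (nat_lit 485) (nat_lit 5) (nat_lit 510) (nat_lit 5) (nat_lit 477) (nat_lit 471) (nat_lit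 252)) (XT.lf (nat_lit 0) (nat_lit 14735222289) (nat_lit 1824) (nat_lit 3842008167) (nat_lit 1900) (nat_lit 18239393345) (nat_lit 486) (nat_lit 5) (nat_lit 510) (nat_lit 5) (nat_lit 511) (nat_lit 5) (nat_lit 478) (nat_lit 471) (nat_lit 251)))) (XT.nd (nat_lit 156) (nat_lit 0) (nat_lit 76) (XT.nd (nat_lit 78) (nat_lit 0) (nat_lit 0) (XT.lf (nat_lit 0) (nat_lit 17073933266) (nat_lit 1824) (nat_lit 12428102551) (nat_lit 1900) (nat_lit 7881867554) (nat_lit 487) (nat_lit 5) (nat_lit 511) (nat_lit 5) (nat_lit 512) (nat_lit 5) (nat_lit 479) (nat_lit 471) (nat_lit 250)) (XT.lf (nat_lit 76) (nat_lit 16796362702) (nat_lit 0) (nat_lit 2943074904) (nat_lit 1900) (nat_lit 18223631166) (nat_lit 488) (nat_lit 5) (nat_lit 487) (nat_lit 5) (nat_lit 512) (nat_lit 5) (nat_lit 480) (nat_lit 471) (nat_lit 249))) (XT.nd (nat_lit 78) (nat_lit 0) (nat_lit 76) (XT.lf (nat_lit 76) (nat_lit 8459642857) (nat_lit 0) (nat_lit 14320681423)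 (nat_lit 1900) (nat_lit 15773376595) (nat_lit 489) (nat_lit 5) (nat_lit 488) (nat_lit 5) (nat_lit 513) (nat_lit 5) (nat_lit 481) (nat_lit 471) (nat_lit 248)) (XT.lf (nat_lit 0) (nat_lit 26158212056) (nat_lit 1824) (nat_lit 1750632) (nat_lit 1900) (nat_lit 12997173844) (nat_lit 489) (nat_lit 5) (nat_lit 513) (nat_lit 5) (nat_lit 514) (nat_lit 5) (nat_lit 482) (nat_lit 471) (nat_lit 247)))))) (XT.nd (nat_lit 546) (nat_lit 6080) (nat_lit 0) (XT.nd (nat_lit 234) (nat_lit 2812) (nat_lit 0) (XT.nd (nat_lit 78) (nat_lit 0) (nat_lit 0) (XT.lf (nat_lit 0) (nat_lit 29942742030) (nat_lit 1824) (nat_lit 8475482968) (nat_lit 1900) (nat_lit 1354344229) (nat_lit 490) (nat_lit 5) (nat_lit 514) (nat_lit 5) (nat_lit 515) (nat_lit 5) (nat_lit 483) (nat_lit 471) (nat_lit 246)) (XT.nd (nat_lit 78) (nat_lit 0) (nat_lit 76) (XT.lf (nat_lit 76) (nat_lit 23256525365) (nat_lit 0) (nat_lit 10907668989) (nat_lit 1900) (nat_lit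 6235802894) (nat_lit 491) (nat_lit 5) (nat_lit 490) (nat_lit 5) (nat_lit 515) (nat_lit 5) (nat_lit 484) (nat_lit 471) (nat_lit 245)) (XT.lf (nat_lit 76) (nat_lit 15093816842) (nat_lit 0) (nat_lit 23684940818) (nat_lit 1900) (nat_lit 2262161178) (nat_lit 492) (nat_lit 5) (nat_lit 491) (nat_lit 5) (nat_lit 516) (nat_lit 5) (nat_lit 485) (nat_lit 471) (nat_lit 244)))) (XT.nd (nat_lit 156) (nat_lit 1064) (nat_lit 0) (XT.nd (nat_lit 78) (nat_lit 0) (nat_lit 0) (XT.lf (nat_lit 0) (nat_lit 2069641872) (nat_lit 1900) (nat_lit 34891157644) (nat_lit 1976) (nat_lit 4734771669) (nat_lit 467) (nat_lit 5) (nat_lit 492) (nat_lit 5) (nat_lit 493) (nat_lit 5) (nat_lit 486) (nat_lit 471) (nat_lit 243)) (XT.lf (nat_lit 0) (nat_lit 6833827260) (nat_lit 1900) (nat_lit 1649420000) (nat_lit 1976) (nat_lit 33879653612) (nat_lit 467) (nat_lit 5) (nat_lit 492) (nat_lit 5) (nat_lit 493) (nat_lit 5) (nat_lit 487) (nat_lit 471)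 (nat_lit 242))) (XT.nd (nat_lit 78) (nat_lit 1140) (nat_lit 0) (XT.lf (nat_lit 0) (nat_lit 12089790392) (nat_lit 1900) (nat_lit 10162125268) (nat_lit 76) (nat_lit 20791357813) (nat_lit 468) (nat_lit 5) (nat_lit 493) (nat_lit 5) (nat_lit 469) (nat_lit 5) (nat_lit 488) (nat_lit 471) (nat_lit 241)) (XT.lf (nat_lit 0) (nat_lit 17778596014) (nat_lit 1216) (nat_lit 18791256813) (nat_lit 76) (nat_lit 7168701215) (nat_lit 453) (nat_lit 5) (nat_lit 469) (nat_lit 5) (nat_lit 454) (nat_lit 5) (nat_lit 489) (nat_lit 471) (nat_lit 240))))) (XT.nd (nat_lit 312) (nat_lit 3420) (nat_lit 0) (XT.nd (nat_lit 156) (nat_lit 836) (nat_lit 0) (XT.nd (nat_lit 78) (nat_lit 912) (nat_lit 0) (XT.lf (nat_lit 0) (nat_lit 16865717840) (nat_lit 912) (nat_lit 7097764766) (nat_lit 988) (nat_lit 20484702151) (nat_lit 441) (nat_lit 5) (nat_lit 453) (nat_lit 5) (nat_lit 454) (nat_lit 5) (nat_lit 490) (nat_lit 471) (nat_lit 239)) (XT.lf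 (nat_lit 0) (nat_lit 8632410503) (nat_lit 912) (nat_lit 22034580970) (nat_lit 988) (nat_lit 14505451468) (nat_lit 429) (nat_lit 5) (nat_lit 441) (nat_lit 5) (nat_lit 442) (nat_lit 5) (nat_lit 491) (nat_lit 471) (nat_lit 238))) (XT.nd (nat_lit 78) (nat_lit 0) (nat_lit 0) (XT.lf (nat_lit 0) (nat_lit 296394000) (nat_lit 836) (nat_lit 37563999910) (nat_lit 912) (nat_lit 8052259253) (nat_lit 418) (nat_lit 5) (nat_lit 429) (nat_lit 5) (nat_lit 430) (nat_lit 5) (nat_lit 492) (nat_lit 471) (nat_lit 237)) (XT.lf (nat_lit 0) (nat_lit 38586774062) (nat_lit 836) (nat_lit 7074756156) (nat_lit 912) (nat_lit 1005700894) (nat_lit 418) (nat_lit 5) (nat_lit 429) (nat_lit 5) (nat_lit 430) (nat_lit 5) (nat_lit 493) (nat_lit 471) (nat_lit 236)))) (XT.nd (nat_lit 156) (nat_lit 1596) (nat_lit 0) (XT.nd (nat_lit 78) (nat_lit 836) (nat_lit 0) (XT.lf (nat_lit 0) (nat_lit 6528715314) (nat_lit 988) (nat_lit 16654507046) (nat_lit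 76) (nat_lit 24253243009) (nat_lit 405) (nat_lit 5) (nat_lit 418) (nat_lit 5) (nat_lit 406) (nat_lit 5) (nat_lit 494) (nat_lit 471) (nat_lit 235)) (XT.lf (nat_lit 0) (nat_lit 14579588219) (nat_lit 912) (nat_lit 25340641144) (nat_lit 76) (nat_lit 8302332636) (nat_lit 394) (nat_lit 5) (nat_lit 406) (nat_lit 5) (nat_lit 395) (nat_lit 5) (nat_lit 495) (nat_lit 471) (nat_lit 234))) (XT.nd (nat_lit 78) (nat_lit 760) (nat_lit 0) (XT.lf (nat_lit 0) (nat_lit 14839287994) (nat_lit 836) (nat_lit 8395763066) (nat_lit 912) (nat_lit 25789929243) (nat_lit 383) (nat_lit 5) (nat_lit 394) (nat_lit 5) (nat_lit 395) (nat_lit 5) (nat_lit 496) (nat_lit 471) (nat_lit 233)) (XT.lf (nat_lit 0) (nat_lit 6651252876) (nat_lit 760) (nat_lit 25869390008) (nat_lit 836) (nat_lit 17323419020) (nat_lit 373) (nat_lit 5) (nat_lit 383) (nat_lit 5) (nat_lit 384) (nat_lit 5) (nat_lit 497) (nat_lit 471) (nat_lit 232))))))) (XT.nd (nat_lit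 60684) (nat_lit 0) (nat_lit 14212) (XT.nd (nat_lit 546) (nat_lit 2584) (nat_lit 0) (XT.nd (nat_lit 234) (nat_lit 2888) (nat_lit 0) (XT.nd (nat_lit 78) (nat_lit 1596) (nat_lit 0) (XT.lf (nat_lit 0) (nat_lit 42414233112) (nat_lit 836) (nat_lit 1603437305) (nat_lit 76) (nat_lit 6663456973) (nat_lit 373) (nat_lit 5) (nat_lit 384) (nat_lit 5) (nat_lit 374) (nat_lit 5) (nat_lit 498) (nat_lit 471) (nat_lit 231)) (XT.nd (nat_lit 78) (nat_lit 760) (nat_lit 0) (XT.lf (nat_lit 0) (nat_lit 1491667571) (nat_lit 836) (nat_lit 9939954008) (nat_lit 76) (nat_lit 40102660274) (nat_lit 362) (nat_lit 5) (nat_lit 373) (nat_lit 5) (nat_lit 363) (nat_lit 5) (nat_lit 499) (nat_lit 471) (nat_lit 230)) (XT.lf (nat_lit 0) (nat_lit 11807406235) (nat_lit 836) (nat_lit 18465972086) (nat_lit 76) (nat_lit 22131025097) (nat_lit 352) (nat_lit 5) (nat_lit 363) (nat_lit 5) (nat_lit 353) (nat_lit 5) (nat_lit 500) (nat_lit 471) (nat_lit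 229)))) (XT.nd (nat_lit 156) (nat_lit 1444) (nat_lit 0) (XT.nd (nat_lit 78) (nat_lit 684) (nat_lit 0) (XT.lf (nat_lit 0) (nat_lit 22768142716) (nat_lit 836) (nat_lit 27081817887) (nat_lit 76) (nat_lit 3443957557) (nat_lit 342) (nat_lit 5) (nat_lit 353) (nat_lit 5) (nat_lit 343) (nat_lit 5) (nat_lit 501) (nat_lit 471) (nat_lit 228)) (XT.lf (nat_lit 0) (nat_lit 18310609351) (nat_lit 684) (nat_lit 16192705445) (nat_lit 760) (nat_lit 19697891320) (nat_lit 333) (nat_lit 5) (nat_lit 342) (nat_lit 5) (nat_lit 343) (nat_lit 5) (nat_lit 502) (nat_lit 471) (nat_lit 227))) (XT.nd (nat_lit 78) (nat_lit 760) (nat_lit 0) (XT.lf (nat_lit 0) (nat_lit 10315674774) (nat_lit 684) (nat_lit 36644873537) (nat_lit 760) (nat_lit 8167764317) (nat_lit 324) (nat_lit 5) (nat_lit 333) (nat_lit 5) (nat_lit 334) (nat_lit 5) (nat_lit 503) (nat_lit 471) (nat_lit 226)) (XT.lf (nat_lit 0) (nat_lit 2214194763) (nat_lit 684) (nat_lit 1811295206)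 (nat_lit 760) (nat_lit 52049943714) (nat_lit 314) (nat_lit 5) (nat_lit 323) (nat_lit 5) (nat_lit 324) (nat_lit 5) (nat_lit 504) (nat_lit 471) (nat_lit 225))))) (XT.nd (nat_lit 312) (nat_lit 608) (nat_lit 0) (XT.nd (nat_lit 156) (nat_lit 1292) (nat_lit 0) (XT.nd (nat_lit 78) (nat_lit 684) (nat_lit 0) (XT.lf (nat_lit 0) (nat_lit 16999480308) (nat_lit 760) (nat_lit 6059391279) (nat_lit 76) (nat_lit 33980498914) (nat_lit 314) (nat_lit 5) (nat_lit 324) (nat_lit 5) (nat_lit 315) (nat_lit 5) (nat_lit 505) (nat_lit 471) (nat_lit 224)) (XT.lf (nat_lit 0) (nat_lit 30742141465) (nat_lit 760) (nat_lit 14375100938) (nat_lit 76) (nat_lit 12907394036) (nat_lit 305) (nat_lit 5) (nat_lit 315) (nat_lit 5) (nat_lit 306) (nat_lit 5) (nat_lit 506) (nat_lit 471) (nat_lit 223))) (XT.nd (nat_lit 78) (nat_lit 684) (nat_lit 0) (XT.lf (nat_lit 0) (nat_lit 36212637767) (nat_lit 608) (nat_lit 9113586368) (nat_lit 684) (nat_lit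 13704653423) (nat_lit 297) (nat_lit 5) (nat_lit 305) (nat_lit 5) (nat_lit 306) (nat_lit 5) (nat_lit 507) (nat_lit 471) (nat_lit 222)) (XT.lf (nat_lit 0) (nat_lit 744048303) (nat_lit 684) (nat_lit 31421964454) (nat_lit 76) (nat_lit 27891912681) (nat_lit 288) (nat_lit 5) (nat_lit 297) (nat_lit 5) (nat_lit 289) (nat_lit 5) (nat_lit 508) (nat_lit 471) (nat_lit 221)))) (XT.nd (nat_lit 59670) (nat_lit 0) (nat_lit 15352) (XT.nd (nat_lit 59592) (nat_lit 0) (nat_lit 15276) (XT.lf (nat_lit 0) (nat_lit 15825758662) (nat_lit 684) (nat_lit 40187659222) (nat_lit 76) (nat_lit 5092840344) (nat_lit 280) (nat_lit 5) (nat_lit 289) (nat_lit 5) (nat_lit 281) (nat_lit 5) (nat_lit 509) (nat_lit 471) (nat_lit 220)) (XT.lf (nat_lit 0) (nat_lit 3614565832) (nat_lit 1900) (nat_lit 6727612550) (nat_lit 1900) (nat_lit 6727612550) (nat_lit 481) (nat_lit 3) (nat_lit 506) (nat_lit 3) (nat_lit 506) (nat_lit 5) (nat_lit 472) (nat_lit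 472) (nat_lit 256))) (XT.nd (nat_lit 78) (nat_lit 0) (nat_lit 0) (XT.lf (nat_lit 0) (nat_lit 7531794565) (nat_lit 1824) (nat_lit 22472669647) (nat_lit 1900) (nat_lit 4643324307) (nat_lit 482) (nat_lit 5) (nat_lit 506) (nat_lit 5) (nat_lit 507) (nat_lit 5) (nat_lit 473) (nat_lit 472) (nat_lit 255)) (XT.lf (nat_lit 76) (nat_lit 3494251606) (nat_lit 0) (nat_lit 4598783304) (nat_lit 1900) (nat_lit 27073216612) (nat_lit 483) (nat_lit 5) (nat_lit 482) (nat_lit 5) (nat_lit 507) (nat_lit 5) (nat_lit 474) (nat_lit 472) (nat_lit 254)))))) (XT.nd (nat_lit 546) (nat_lit 1216) (nat_lit 0) (XT.nd (nat_lit 234) (nat_lit 0) (nat_lit 152) (XT.nd (nat_lit 78) (nat_lit 0) (nat_lit 76) (XT.lf (nat_lit 0) (nat_lit 8961242086) (nat_lit 1824) (nat_lit 5292306368) (nat_lit 1900) (nat_lit 21440917466) (nat_lit 483) (nat_lit 5) (nat_lit 507) (nat_lit 5) (nat_lit 508) (nat_lit 5) (nat_lit 475) (nat_lit 472) (nat_lit 253)) (XT.nd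 (nat_lit 78) (nat_lit 0) (nat_lit 76) (XT.lf (nat_lit 0) (nat_lit 10105490976) (nat_lit 1824) (nat_lit 14177145829) (nat_lit 1900) (nat_lit 11950890127) (nat_lit 484) (nat_lit 5) (nat_lit 508) (nat_lit 5) (nat_lit 509) (nat_lit 5) (nat_lit 476) (nat_lit 472) (nat_lit 252)) (XT.lf (nat_lit 0) (nat_lit 11514277144) (nat_lit 1824) (nat_lit 23207191730) (nat_lit 1900) (nat_lit 2062686797) (nat_lit 485) (nat_lit 5) (nat_lit 509) (nat_lit 5) (nat_lit 510) (nat_lit 5) (nat_lit 477) (nat_lit 472) (nat_lit 251)))) (XT.nd (nat_lit 156) (nat_lit 0) (nat_lit 152) (XT.nd (nat_lit 78) (nat_lit 0) (nat_lit 76) (XT.lf (nat_lit 76) (nat_lit 4907868087) (nat_lit 0) (nat_lit 8345481033) (nat_lit 1900) (nat_lit 24092193796) (nat_lit 486) (nat_lit 5) (nat_lit 485) (nat_lit 5) (nat_lit 510) (nat_lit 5) (nat_lit 478) (nat_lit 472) (nat_lit 250)) (XT.lf (nat_lit 0) (nat_lit 15322241297) (nat_lit 1824) (nat_lit 3861710933)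 (nat_lit 1900) (nat_lit 18734266674) (nat_lit 486) (nat_lit 5) (nat_lit 510) (nat_lit 5) (nat_lit 511) (nat_lit 5) (nat_lit 479) (nat_lit 472) (nat_lit 249))) (XT.nd (nat_lit 78) (nat_lit 0) (nat_lit 0) (XT.lf (nat_lit 0) (nat_lit 17727194372) (nat_lit 1824) (nat_lit 12703799822) (nat_lit 1900) (nat_lit 8071601178) (nat_lit 487) (nat_lit 5) (nat_lit 511) (nat_lit 5) (nat_lit 512) (nat_lit 5) (nat_lit 480) (nat_lit 472) (nat_lit 248)) (XT.lf (nat_lit 76) (nat_lit 17395823313) (nat_lit 0) (nat_lit 3073352979) (nat_lit 1900) (nat_lit 18630029317) (nat_lit 488) (nat_lit 5) (nat_lit 487) (nat_lit 5) (nat_lit 512) (nat_lit 5) (nat_lit 481) (nat_lit 472) (nat_lit 247))))) (XT.nd (nat_lit 312) (nat_lit 1596) (nat_lit 0) (XT.nd (nat_lit 156) (nat_lit 0) (nat_lit 152) (XT.nd (nat_lit 78) (nat_lit 0) (nat_lit 76) (XT.lf (nat_lit 76) (nat_lit 8810430070) (nat_lit 0) (nat_lit 14787218138) (nat_lit 1900) (nat_lit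 16109981414) (nat_lit 489) (nat_lit 5) (nat_lit 488) (nat_lit 5) (nat_lit 513) (nat_lit 5) (nat_lit 482) (nat_lit 472) (nat_lit 246)) (XT.lf (nat_lit 76) (nat_lit 96471696) (nat_lit 0) (nat_lit 26976894163) (nat_lit 1900) (nat_lit 13255872742) (nat_lit 490) (nat_lit 5) (nat_lit 489) (nat_lit 5) (nat_lit 514) (nat_lit 5) (nat_lit 483) (nat_lit 472) (nat_lit 245))) (XT.nd (nat_lit 78) (nat_lit 0) (nat_lit 0) (XT.lf (nat_lit 0) (nat_lit 30967442501) (nat_lit 1824) (nat_lit 8631573066) (nat_lit 1900) (nat_lit 1364198606) (nat_lit 490) (nat_lit 5) (nat_lit 514) (nat_lit 5) (nat_lit 515) (nat_lit 5) (nat_lit 484) (nat_lit 472) (nat_lit 244)) (XT.lf (nat_lit 76) (nat_lit 24050802754) (nat_lit 0) (nat_lit 11261680629) (nat_lit 1900) (nat_lit 6297042863) (nat_lit 491) (nat_lit 5) (nat_lit 490) (nat_lit 5) (nat_lit 515) (nat_lit 5) (nat_lit 485) (nat_lit 472) (nat_lit 243)))) (XT.nd (nat_lit 156) (nat_lit 0)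 (nat_lit 0) (XT.nd (nat_lit 78) (nat_lit 1824) (nat_lit 0) (XT.lf (nat_lit 76) (nat_lit 15644247948) (nat_lit 0) (nat_lit 24418107510) (nat_lit 1900) (nat_lit 2207382694) (nat_lit 492) (nat_lit 5) (nat_lit 491) (nat_lit 5) (nat_lit 516) (nat_lit 5) (nat_lit 486) (nat_lit 472) (nat_lit 242)) (XT.lf (nat_lit 0) (nat_lit 2249741218) (nat_lit 1900) (nat_lit 35837774164) (nat_lit 1976) (nat_lit 4856559359) (nat_lit 467) (nat_lit 5) (nat_lit 492) (nat_lit 5) (nat_lit 493) (nat_lit 5) (nat_lit 487) (nat_lit 472) (nat_lit 241))) (XT.nd (nat_lit 78) (nat_lit 0) (nat_lit 76) (XT.lf (nat_lit 0) (nat_lit 7153414980) (nat_lit 1900) (nat_lit 1601700455) (nat_lit 1976) (nat_lit 34876377725) (nat_lit 467) (nat_lit 5) (nat_lit 492) (nat_lit 5) (nat_lit 493) (nat_lit 5) (nat_lit 488) (nat_lit 472) (nat_lit 240)) (XT.lf (nat_lit 0) (nat_lit 12564235407) (nat_lit 1900) (nat_lit 10369018166) (nat_lit 76) (nat_lit 21399079893)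 (nat_lit 468) (nat_lit 5) (nat_lit 493) (nat_lit 5) (nat_lit 469) (nat_lit 5) (nat_lit 489) (nat_lit 472) (nat_lit 239))))))))
noncomputable def xc119 : XT := (XT.nd (nat_lit 61854) (nat_lit 0) (nat_lit 684) (XT.nd (nat_lit 1092) (nat_lit 3420) (nat_lit 0) (XT.nd (nat_lit 546) (nat_lit 4636) (nat_lit 0) (XT.nd (nat_lit 234) (nat_lit 2660) (nat_lit 0) (XT.nd (nat_lit 78) (nat_lit 1824) (nat_lit 0) (XT.lf (nat_lit 0) (nat_lit 18420993356) (nat_lit 1216) (nat_lit 19256344861) (nat_lit 76) (nat_lit 7371188565) (nat_lit 453) (nat_lit 5) (nat_lit 469) (nat_lit 5) (nat_lit 454) (nat_lit 5) (nat_lit 490) (nat_lit 472) (nat_lit 238)) (XT.nd (nat_lit 78) (nat_lit 912) (nat_lit 0) (XT.lf (nat_lit 0) (nat_lit 17468738558) (nat_lit 912) (nat_lit 7320142188) (nat_lit 988) (nat_lit 20990616678) (nat_lit 441) (nat_lit 5) (nat_lit 453) (nat_lit 5) (nat_lit 454) (nat_lit 5) (nat_lit 491) (nat_lit 472) (nat_lit 237))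 (XT.lf (nat_lit 0) (nat_lit 8989016090) (nat_lit 912) (nat_lit 22701951399) (nat_lit 988) (nat_lit 14834566501) (nat_lit 429) (nat_lit 5) (nat_lit 441) (nat_lit 5) (nat_lit 442) (nat_lit 5) (nat_lit 492) (nat_lit 472) (nat_lit 236)))) (XT.nd (nat_lit 156) (nat_lit 1824) (nat_lit 0) (XT.nd (nat_lit 78) (nat_lit 0) (nat_lit 0) (XT.lf (nat_lit 0) (nat_lit 403424017) (nat_lit 836) (nat_lit 38694317096) (nat_lit 912) (nat_lit 8190258108) (nat_lit 418) (nat_lit 5) (nat_lit 429) (nat_lit 5) (nat_lit 430) (nat_lit 5) (nat_lit 493) (nat_lit 472) (nat_lit 235)) (XT.lf (nat_lit 0) (nat_lit 39839657087) (nat_lit 836) (nat_lit 7290297082) (nat_lit 912) (nat_lit 935319569) (nat_lit 418) (nat_lit 5) (nat_lit 429) (nat_lit 5) (nat_lit 430) (nat_lit 5) (nat_lit 494) (nat_lit 472) (nat_lit 234))) (XT.nd (nat_lit 78) (nat_lit 836) (nat_lit 0) (XT.lf (nat_lit 0) (nat_lit 6821524582) (nat_lit 988) (nat_lit 17057153912)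 (nat_lit 76) (nat_lit 24978939265) (nat_lit 405) (nat_lit 5) (nat_lit 418) (nat_lit 5) (nat_lit 406) (nat_lit 5) (nat_lit 495) (nat_lit 472) (nat_lit 233)) (XT.lf (nat_lit 0) (nat_lit 15111723805) (nat_lit 912) (nat_lit 26003552501) (nat_lit 76) (nat_lit 8552065054) (nat_lit 394) (nat_lit 5) (nat_lit 406) (nat_lit 5) (nat_lit 395) (nat_lit 5) (nat_lit 496) (nat_lit 472) (nat_lit 232))))) (XT.nd (nat_lit 234) (nat_lit 3040) (nat_lit 0) (XT.nd (nat_lit 78) (nat_lit 760) (nat_lit 0) (XT.lf (nat_lit 0) (nat_lit 15380195806) (nat_lit 836) (nat_lit 8644516614) (nat_lit 912) (nat_lit 26469162630) (nat_lit 383) (nat_lit 5) (nat_lit 394) (nat_lit 5) (nat_lit 395) (nat_lit 5) (nat_lit 497) (nat_lit 472) (nat_lit 231)) (XT.nd (nat_lit 78) (nat_lit 0) (nat_lit 0) (XT.lf (nat_lit 0) (nat_lit 6946771190) (nat_lit 760) (nat_lit 26640046270) (nat_lit 836) (nat_lit 17750752803) (nat_lit 373) (nat_lit 5) (nat_lit 383)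 (nat_lit 5) (nat_lit 384) (nat_lit 5) (nat_lit 498) (nat_lit 472) (nat_lit 230)) (XT.lf (nat_lit 0) (nat_lit 43774612061) (nat_lit 836) (nat_lit 1556628773) (nat_lit 76) (nat_lit 6868559015) (nat_lit 373) (nat_lit 5) (nat_lit 384) (nat_lit 5) (nat_lit 374) (nat_lit 5) (nat_lit 499) (nat_lit 472) (nat_lit 229)))) (XT.nd (nat_lit 156) (nat_lit 1444) (nat_lit 0) (XT.nd (nat_lit 78) (nat_lit 760) (nat_lit 0) (XT.lf (nat_lit 0) (nat_lit 1622985817) (nat_lit 836) (nat_lit 10143628148) (nat_lit 76) (nat_lit 41311962767) (nat_lit 362) (nat_lit 5) (nat_lit 373) (nat_lit 5) (nat_lit 363) (nat_lit 5) (nat_lit 500) (nat_lit 472) (nat_lit 228)) (XT.lf (nat_lit 0) (nat_lit 12246333146) (nat_lit 836) (nat_lit 18925319309) (nat_lit 76) (nat_lit 22803186823) (nat_lit 352) (nat_lit 5) (nat_lit 363) (nat_lit 5) (nat_lit 353) (nat_lit 5) (nat_lit 501) (nat_lit 472) (nat_lit 227))) (XT.nd (nat_lit 78) (nat_lit 684) (nat_lit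 0) (XT.lf (nat_lit 0) (nat_lit 23534095619) (nat_lit 836) (nat_lit 27799583430) (nat_lit 76) (nat_lit 3557396400) (nat_lit 342) (nat_lit 5) (nat_lit 353) (nat_lit 5) (nat_lit 343) (nat_lit 5) (nat_lit 502) (nat_lit 472) (nat_lit 226)) (XT.lf (nat_lit 0) (nat_lit 18953080410) (nat_lit 684) (nat_lit 16666432448) (nat_lit 760) (nat_lit 20206105447) (nat_lit 333) (nat_lit 5) (nat_lit 342) (nat_lit 5) (nat_lit 343) (nat_lit 5) (nat_lit 503) (nat_lit 472) (nat_lit 225)))))) (XT.nd (nat_lit 60138) (nat_lit 0) (nat_lit 14744) (XT.nd (nat_lit 234) (nat_lit 1976) (nat_lit 0) (XT.nd (nat_lit 78) (nat_lit 760) (nat_lit 0) (XT.lf (nat_lit 0) (nat_lit 10718307156) (nat_lit 684) (nat_lit 37730474980) (nat_lit 760) (nat_lit 8331789559) (nat_lit 324) (nat_lit 5) (nat_lit 333) (nat_lit 5) (nat_lit 334) (nat_lit 5) (nat_lit 504) (nat_lit 472) (nat_lit 224)) (XT.nd (nat_lit 78) (nat_lit 0) (nat_lit 0) (XT.lf (nat_lit 0)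 (nat_lit 2373318388) (nat_lit 684) (nat_lit 1851154890) (nat_lit 760) (nat_lit 53531657172) (nat_lit 314) (nat_lit 5) (nat_lit 323) (nat_lit 5) (nat_lit 324) (nat_lit 5) (nat_lit 505) (nat_lit 472) (nat_lit 223)) (XT.lf (nat_lit 0) (nat_lit 17585496386) (nat_lit 760) (nat_lit 6149745817) (nat_lit 76) (nat_lit 35013786965) (nat_lit 314) (nat_lit 5) (nat_lit 324) (nat_lit 5) (nat_lit 315) (nat_lit 5) (nat_lit 506) (nat_lit 472) (nat_lit 222)))) (XT.nd (nat_lit 156) (nat_lit 684) (nat_lit 0) (XT.nd (nat_lit 78) (nat_lit 608) (nat_lit 0) (XT.lf (nat_lit 0) (nat_lit 31738907753) (nat_lit 760) (nat_lit 14715021192) (nat_lit 76) (nat_lit 13309954785) (nat_lit 305) (nat_lit 5) (nat_lit 315) (nat_lit 5) (nat_lit 306) (nat_lit 5) (nat_lit 507) (nat_lit 472) (nat_lit 221)) (XT.lf (nat_lit 0) (nat_lit 37388867909) (nat_lit 608) (nat_lit 9370058404) (nat_lit 684) (nat_lit 14041417552) (nat_lit 297) (nat_lit 5) (nat_lit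 305) (nat_lit 5) (nat_lit 306) (nat_lit 5) (nat_lit 508) (nat_lit 472) (nat_lit 220))) (XT.nd (nat_lit 59670) (nat_lit 0) (nat_lit 14668) (XT.lf (nat_lit 0) (nat_lit 838325763) (nat_lit 684) (nat_lit 32273944057) (nat_lit 76) (nat_lit 28745952630) (nat_lit 288) (nat_lit 5) (nat_lit 297) (nat_lit 5) (nat_lit 289) (nat_lit 5) (nat_lit 509) (nat_lit 472) (nat_lit 219)) (XT.lf (nat_lit 0) (nat_lit 3806617734) (nat_lit 1900) (nat_lit 6886796048) (nat_lit 1900) (nat_lit 6886796048) (nat_lit 481) (nat_lit 3) (nat_lit 506) (nat_lit 3) (nat_lit 506) (nat_lit 5) (nat_lit 473) (nat_lit 473) (nat_lit 254))))) (XT.nd (nat_lit 312) (nat_lit 0) (nat_lit 228) (XT.nd (nat_lit 156) (nat_lit 0) (nat_lit 76) (XT.nd (nat_lit 78) (nat_lit 0) (nat_lit 0) (XT.lf (nat_lit 0) (nat_lit 7920139351) (nat_lit 1824) (nat_lit 23059167809) (nat_lit 1900) (nat_lit 4704662283) (nat_lit 482) (nat_lit 5) (nat_lit 506) (nat_lit 5) (nat_lit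 507) (nat_lit 5) (nat_lit 474) (nat_lit 473) (nat_lit 253)) (XT.lf (nat_lit 76) (nat_lit 3685338547) (nat_lit 0) (nat_lit 4808708579) (nat_lit 1900) (nat_lit 27724022748) (nat_lit 483) (nat_lit 5) (nat_lit 482) (nat_lit 5) (nat_lit 507) (nat_lit 5) (nat_lit 475) (nat_lit 473) (nat_lit 252))) (XT.nd (nat_lit 78) (nat_lit 0) (nat_lit 76) (XT.lf (nat_lit 0) (nat_lit 9383238518) (nat_lit 1824) (nat_lit 5363798074) (nat_lit 1900) (nat_lit 22015195490) (nat_lit 483) (nat_lit 5) (nat_lit 507) (nat_lit 5) (nat_lit 508) (nat_lit 5) (nat_lit 476) (nat_lit 473) (nat_lit 251)) (XT.lf (nat_lit 0) (nat_lit 10557499801) (nat_lit 1824) (nat_lit 14513197485) (nat_lit 1900) (nat_lit 12246854076) (nat_lit 484) (nat_lit 5) (nat_lit 508) (nat_lit 5) (nat_lit 509) (nat_lit 5) (nat_lit 477) (nat_lit 473) (nat_lit 250)))) (XT.nd (nat_lit 156) (nat_lit 0) (nat_lit 76) (XT.nd (nat_lit 78) (nat_lit 0) (nat_lit 0) (XT.lf (nat_lit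 0) (nat_lit 12004412641) (nat_lit 1824) (nat_lit 23812315200) (nat_lit 1900) (nat_lit 2068053991) (nat_lit 485) (nat_lit 5) (nat_lit 509) (nat_lit 5) (nat_lit 510) (nat_lit 5) (nat_lit 478) (nat_lit 473) (nat_lit 249)) (XT.lf (nat_lit 76) (nat_lit 5144718547) (nat_lit 0) (nat_lit 8647305293) (nat_lit 1900) (nat_lit 24671059640) (nat_lit 486) (nat_lit 5) (nat_lit 485) (nat_lit 5) (nat_lit 510) (nat_lit 5) (nat_lit 479) (nat_lit 473) (nat_lit 248))) (XT.nd (nat_lit 78) (nat_lit 0) (nat_lit 76) (XT.lf (nat_lit 0) (nat_lit 15918549444) (nat_lit 1824) (nat_lit 3887490171) (nat_lit 1900) (nat_lit 19246988922) (nat_lit 486) (nat_lit 5) (nat_lit 510) (nat_lit 5) (nat_lit 511) (nat_lit 5) (nat_lit 480) (nat_lit 473) (nat_lit 247)) (XT.lf (nat_lit 0) (nat_lit 18391956859) (nat_lit 1824) (nat_lit 12993344578) (nat_lit 1900) (nat_lit 8269708868) (nat_lit 487) (nat_lit 5) (nat_lit 511) (nat_lit 5) (nat_lit 512)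 (nat_lit 5) (nat_lit 481) (nat_lit 473) (nat_lit 246))))))) (XT.nd (nat_lit 1170) (nat_lit 8208) (nat_lit 0) (XT.nd (nat_lit 546) (nat_lit 4712) (nat_lit 0) (XT.nd (nat_lit 234) (nat_lit 1520) (nat_lit 0) (XT.nd (nat_lit 78) (nat_lit 0) (nat_lit 76) (XT.lf (nat_lit 76) (nat_lit 18007781649) (nat_lit 0) (nat_lit 3205129238) (nat_lit 1900) (nat_lit 19056673825) (nat_lit 488) (nat_lit 5) (nat_lit 487) (nat_lit 5) (nat_lit 512) (nat_lit 5) (nat_lit 482) (nat_lit 473) (nat_lit 245)) (XT.nd (nat_lit 78) (nat_lit 0) (nat_lit 76) (XT.lf (nat_lit 76) (nat_lit 9166172822) (nat_lit 0) (nat_lit 15265631810) (nat_lit 1900) (nat_lit 16464525573) (nat_lit 489) (nat_lit 5) (nat_lit 488) (nat_lit 5) (nat_lit 513) (nat_lit 5) (nat_lit 483) (nat_lit 473) (nat_lit 244)) (XT.lf (nat_lit 76) (nat_lit 192021903) (nat_lit 0) (nat_lit 27816477634) (nat_lit 1900) (nat_lit 13528153912) (nat_lit 490) (nat_lit 5) (nat_lit 489)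 (nat_lit 5) (nat_lit 514) (nat_lit 5) (nat_lit 484) (nat_lit 473) (nat_lit 243)))) (XT.nd (nat_lit 156) (nat_lit 1748) (nat_lit 0) (XT.nd (nat_lit 78) (nat_lit 0) (nat_lit 0) (XT.lf (nat_lit 0) (nat_lit 32015627064) (nat_lit 1824) (nat_lit 8797981479) (nat_lit 1900) (nat_lit 1376115281) (nat_lit 490) (nat_lit 5) (nat_lit 514) (nat_lit 5) (nat_lit 515) (nat_lit 5) (nat_lit 485) (nat_lit 473) (nat_lit 242)) (XT.lf (nat_lit 76) (nat_lit 24863364284) (nat_lit 0) (nat_lit 11624775247) (nat_lit 1900) (nat_lit 6367343423) (nat_lit 491) (nat_lit 5) (nat_lit 490) (nat_lit 5) (nat_lit 515) (nat_lit 5) (nat_lit 486) (nat_lit 473) (nat_lit 241))) (XT.nd (nat_lit 78) (nat_lit 1824) (nat_lit 0) (XT.lf (nat_lit 76) (nat_lit 16205588395) (nat_lit 0) (nat_lit 25171970810) (nat_lit 1900) (nat_lit 2158001084) (nat_lit 492) (nat_lit 5) (nat_lit 491) (nat_lit 5) (nat_lit 516) (nat_lit 5) (nat_lit 487) (nat_lit 473) (nat_lit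 240)) (XT.lf (nat_lit 0) (nat_lit 2428469282) (nat_lit 1900) (nat_lit 36818536374) (nat_lit 1976) (nat_lit 4983163426) (nat_lit 467) (nat_lit 5) (nat_lit 492) (nat_lit 5) (nat_lit 493) (nat_lit 5) (nat_lit 488) (nat_lit 473) (nat_lit 239))))) (XT.nd (nat_lit 312) (nat_lit 2736) (nat_lit 0) (XT.nd (nat_lit 156) (nat_lit 1976) (nat_lit 0) (XT.nd (nat_lit 78) (nat_lit 0) (nat_lit 76) (XT.lf (nat_lit 0) (nat_lit 7476013378) (nat_lit 1900) (nat_lit 1558129124) (nat_lit 1976) (nat_lit 35904132441) (nat_lit 467) (nat_lit 5) (nat_lit 492) (nat_lit 5) (nat_lit 493) (nat_lit 5) (nat_lit 489) (nat_lit 473) (nat_lit 238)) (XT.lf (nat_lit 0) (nat_lit 13046498791) (nat_lit 1900) (nat_lit 10587741779) (nat_lit 76) (nat_lit 22025953172) (nat_lit 468) (nat_lit 5) (nat_lit 493) (nat_lit 5) (nat_lit 469) (nat_lit 5) (nat_lit 490) (nat_lit 473) (nat_lit 237))) (XT.nd (nat_lit 78) (nat_lit 912) (nat_lit 0) (XT.lf (nat_lit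 0) (nat_lit 19076403307) (nat_lit 1216) (nat_lit 19741048445) (nat_lit 76) (nat_lit 7580472317) (nat_lit 453) (nat_lit 5) (nat_lit 469) (nat_lit 5) (nat_lit 454) (nat_lit 5) (nat_lit 491) (nat_lit 473) (nat_lit 236)) (XT.lf (nat_lit 0) (nat_lit 18084278878) (nat_lit 912) (nat_lit 7548648782) (nat_lit 988) (nat_lit 21517944249) (nat_lit 441) (nat_lit 5) (nat_lit 453) (nat_lit 5) (nat_lit 454) (nat_lit 5) (nat_lit 492) (nat_lit 473) (nat_lit 235)))) (XT.nd (nat_lit 156) (nat_lit 988) (nat_lit 0) (XT.nd (nat_lit 78) (nat_lit 836) (nat_lit 0) (XT.lf (nat_lit 0) (nat_lit 9350715295) (nat_lit 912) (nat_lit 23388979400) (nat_lit 988) (nat_lit 15179642603) (nat_lit 429) (nat_lit 5) (nat_lit 441) (nat_lit 5) (nat_lit 442) (nat_lit 5) (nat_lit 493) (nat_lit 473) (nat_lit 234)) (XT.lf (nat_lit 0) (nat_lit 508031401) (nat_lit 836) (nat_lit 39858348785) (nat_lit 912) (nat_lit 8338342208) (nat_lit 418) (nat_lit 5)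 (nat_lit 429) (nat_lit 5) (nat_lit 430) (nat_lit 5) (nat_lit 494) (nat_lit 473) (nat_lit 233))) (XT.nd (nat_lit 78) (nat_lit 988) (nat_lit 0) (XT.lf (nat_lit 0) (nat_lit 41124657152) (nat_lit 836) (nat_lit 7512114904) (nat_lit 912) (nat_lit 868598920) (nat_lit 418) (nat_lit 5) (nat_lit 429) (nat_lit 5) (nat_lit 430) (nat_lit 5) (nat_lit 495) (nat_lit 473) (nat_lit 232)) (XT.lf (nat_lit 0) (nat_lit 7117552927) (nat_lit 988) (nat_lit 17477447712) (nat_lit 76) (nat_lit 25726515536) (nat_lit 405) (nat_lit 5) (nat_lit 418) (nat_lit 5) (nat_lit 406) (nat_lit 5) (nat_lit 496) (nat_lit 473) (nat_lit 231)))))) (XT.nd (nat_lit 546) (nat_lit 3420) (nat_lit 0) (XT.nd (nat_lit 234) (nat_lit 2356) (nat_lit 0) (XT.nd (nat_lit 78) (nat_lit 1596) (nat_lit 0) (XT.lf (nat_lit 0) (nat_lit 15654384541) (nat_lit 912) (nat_lit 26691937069) (nat_lit 76) (nat_lit 8809251418) (nat_lit 394) (nat_lit 5) (nat_lit 406) (nat_lit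 5) (nat_lit 395) (nat_lit 5) (nat_lit 497) (nat_lit 473) (nat_lit 230)) (XT.nd (nat_lit 78) (nat_lit 760) (nat_lit 0) (XT.lf (nat_lit 0) (nat_lit 15931835607) (nat_lit 836) (nat_lit 8900911833) (nat_lit 912) (nat_lit 27174195667) (nat_lit 383) (nat_lit 5) (nat_lit 394) (nat_lit 5) (nat_lit 395) (nat_lit 5) (nat_lit 498) (nat_lit 473) (nat_lit 229)) (XT.lf (nat_lit 0) (nat_lit 7245645367) (nat_lit 760) (nat_lit 27434133662) (nat_lit 836) (nat_lit 18196208946) (nat_lit 373) (nat_lit 5) (nat_lit 383) (nat_lit 5) (nat_lit 384) (nat_lit 5) (nat_lit 499) (nat_lit 473) (nat_lit 228)))) (XT.nd (nat_lit 156) (nat_lit 1520) (nat_lit 0) (XT.nd (nat_lit 78) (nat_lit 836) (nat_lit 0) (XT.lf (nat_lit 0) (nat_lit 45170753576) (nat_lit 836) (nat_lit 1513864302) (nat_lit 76) (nat_lit 7079515713) (nat_lit 373) (nat_lit 5) (nat_lit 384) (nat_lit 5) (nat_lit 374) (nat_lit 5) (nat_lit 500) (nat_lit 473) (nat_lit 227)) (XT.lf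 (nat_lit 0) (nat_lit 1753274240) (nat_lit 836) (nat_lit 10358838605) (nat_lit 76) (nat_lit 42557187128) (nat_lit 362) (nat_lit 5) (nat_lit 373) (nat_lit 5) (nat_lit 363) (nat_lit 5) (nat_lit 501) (nat_lit 473) (nat_lit 226))) (XT.nd (nat_lit 78) (nat_lit 760) (nat_lit 0) (XT.lf (nat_lit 0) (nat_lit 12693565468) (nat_lit 836) (nat_lit 19403879209) (nat_lit 76) (nat_lit 23495040910) (nat_lit 352) (nat_lit 5) (nat_lit 363) (nat_lit 5) (nat_lit 353) (nat_lit 5) (nat_lit 502) (nat_lit 473) (nat_lit 225)) (XT.lf (nat_lit 0) (nat_lit 24318267815) (nat_lit 836) (nat_lit 28544317474) (nat_lit 76) (nat_lit 3673657471) (nat_lit 342) (nat_lit 5) (nat_lit 353) (nat_lit 5) (nat_lit 343) (nat_lit 5) (nat_lit 503) (nat_lit 473) (nat_lit 224))))) (XT.nd (nat_lit 312) (nat_lit 1292) (nat_lit 0) (XT.nd (nat_lit 156) (nat_lit 760) (nat_lit 0) (XT.nd (nat_lit 78) (nat_lit 684) (nat_lit 0) (XT.lf (nat_lit 0) (nat_lit 19609478249)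 (nat_lit 684) (nat_lit 17155063219) (nat_lit 760) (nat_lit 20734314614) (nat_lit 333) (nat_lit 5) (nat_lit 342) (nat_lit 5) (nat_lit 343) (nat_lit 5) (nat_lit 504) (nat_lit 473) (nat_lit 223)) (XT.lf (nat_lit 0) (nat_lit 11127670623) (nat_lit 684) (nat_lit 38849433471) (nat_lit 760) (nat_lit 8505385730) (nat_lit 324) (nat_lit 5) (nat_lit 333) (nat_lit 5) (nat_lit 334) (nat_lit 5) (nat_lit 505) (nat_lit 473) (nat_lit 222))) (XT.nd (nat_lit 78) (nat_lit 0) (nat_lit 0) (XT.lf (nat_lit 0) (nat_lit 2531894491) (nat_lit 684) (nat_lit 1893041527) (nat_lit 760) (nat_lit 55062402012) (nat_lit 314) (nat_lit 5) (nat_lit 323) (nat_lit 5) (nat_lit 324) (nat_lit 5) (nat_lit 506) (nat_lit 473) (nat_lit 221)) (XT.lf (nat_lit 0) (nat_lit 18184728418) (nat_lit 760) (nat_lit 6248059286) (nat_lit 76) (nat_lit 36077277285) (nat_lit 314) (nat_lit 5) (nat_lit 324) (nat_lit 5) (nat_lit 315) (nat_lit 5) (nat_lit 507) (nat_lit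 473) (nat_lit 220)))) (XT.nd (nat_lit 59826) (nat_lit 0) (nat_lit 13984) (XT.nd (nat_lit 78) (nat_lit 608) (nat_lit 0) (XT.lf (nat_lit 0) (nat_lit 32761300307) (nat_lit 760) (nat_lit 15070381928) (nat_lit 76) (nat_lit 13723711838) (nat_lit 305) (nat_lit 5) (nat_lit 315) (nat_lit 5) (nat_lit 306) (nat_lit 5) (nat_lit 508) (nat_lit 473) (nat_lit 219)) (XT.lf (nat_lit 0) (nat_lit 38595227139) (nat_lit 608) (nat_lit 9635196771) (nat_lit 684) (nat_lit 14392554061) (nat_lit 297) (nat_lit 5) (nat_lit 305) (nat_lit 5) (nat_lit 306) (nat_lit 5) (nat_lit 509) (nat_lit 473) (nat_lit 218))) (XT.nd (nat_lit 78) (nat_lit 0) (nat_lit 76) (XT.lf (nat_lit 0) (nat_lit 3999631354) (nat_lit 1900) (nat_lit 7053203042) (nat_lit 1900) (nat_lit 7053203042) (nat_lit 481) (nat_lit 3) (nat_lit 506) (nat_lit 3) (nat_lit 506) (nat_lit 5) (nat_lit 474) (nat_lit 474) (nat_lit 252)) (XT.lf (nat_lit 0) (nat_lit 8310812576) (nat_lit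 1824) (nat_lit 23668294217) (nat_lit 1900) (nat_lit 4772315722) (nat_lit 482) (nat_lit 5) (nat_lit 506) (nat_lit 5) (nat_lit 507) (nat_lit 5) (nat_lit 475) (nat_lit 474) (nat_lit 251))))))))
noncomputable def xc120 : XT := (XT.nd (nat_lit 2262) (nat_lit 2812) (nat_lit 0) (XT.nd (nat_lit 1092) (nat_lit 9500) (nat_lit 0) (XT.nd (nat_lit 546) (nat_lit 1140) (nat_lit 0) (XT.nd (nat_lit 234) (nat_lit 0) (nat_lit 228) (XT.nd (nat_lit 78) (nat_lit 0) (nat_lit 76) (XT.lf (nat_lit 76) (nat_lit 3877206454) (nat_lit 0) (nat_lit 5020800712) (nat_lit 1900) (nat_lit 28403617535) (nat_lit 483) (nat_lit 5) (nat_lit 482) (nat_lit 5) (nat_lit 507) (nat_lit 5) (nat_lit 476) (nat_lit 474) (nat_lit 250)) (XT.nd (nat_lit 78) (nat_lit 0) (nat_lit 76) (XT.lf (nat_lit 0) (nat_lit 9809102881) (nat_lit 1824) (nat_lit 5442444615) (nat_lit 1900) (nat_lit 22610659839) (nat_lit 483) (nat_lit 5) (nat_lit 507) (nat_lit 5) (nat_lit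 508) (nat_lit 5) (nat_lit 477) (nat_lit 474) (nat_lit 249)) (XT.lf (nat_lit 0) (nat_lit 11014524631) (nat_lit 1824) (nat_lit 14864454736) (nat_lit 1900) (nat_lit 12555288301) (nat_lit 484) (nat_lit 5) (nat_lit 508) (nat_lit 5) (nat_lit 509) (nat_lit 5) (nat_lit 478) (nat_lit 474) (nat_lit 248)))) (XT.nd (nat_lit 156) (nat_lit 0) (nat_lit 76) (XT.nd (nat_lit 78) (nat_lit 0) (nat_lit 0) (XT.lf (nat_lit 0) (nat_lit 12500945419) (nat_lit 1824) (nat_lit 24440821444) (nat_lit 1900) (nat_lit 2076826301) (nat_lit 485) (nat_lit 5) (nat_lit 509) (nat_lit 5) (nat_lit 510) (nat_lit 5) (nat_lit 479) (nat_lit 474) (nat_lit 247)) (XT.lf (nat_lit 76) (nat_lit 5383530287) (nat_lit 0) (nat_lit 8955230276) (nat_lit 1900) (nat_lit 25275551907) (nat_lit 486) (nat_lit 5) (nat_lit 485) (nat_lit 5) (nat_lit 510) (nat_lit 5) (nat_lit 480) (nat_lit 474) (nat_lit 246))) (XT.nd (nat_lit 78) (nat_lit 0) (nat_lit 76) (XT.lf (nat_lit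 0) (nat_lit 16524903088) (nat_lit 1824) (nat_lit 3919213293) (nat_lit 1900) (nat_lit 19777923190) (nat_lit 486) (nat_lit 5) (nat_lit 510) (nat_lit 5) (nat_lit 511) (nat_lit 5) (nat_lit 481) (nat_lit 474) (nat_lit 245)) (XT.lf (nat_lit 0) (nat_lit 19069030539) (nat_lit 1824) (nat_lit 13296832125) (nat_lit 1900) (nat_lit 8476287884) (nat_lit 487) (nat_lit 5) (nat_lit 511) (nat_lit 5) (nat_lit 512) (nat_lit 5) (nat_lit 482) (nat_lit 474) (nat_lit 244))))) (XT.nd (nat_lit 234) (nat_lit 1520) (nat_lit 0) (XT.nd (nat_lit 78) (nat_lit 0) (nat_lit 76) (XT.lf (nat_lit 76) (nat_lit 18632927566) (nat_lit 0) (nat_lit 3338586980) (nat_lit 1900) (nat_lit 19503709725) (nat_lit 488) (nat_lit 5) (nat_lit 487) (nat_lit 5) (nat_lit 512) (nat_lit 5) (nat_lit 483) (nat_lit 474) (nat_lit 243)) (XT.nd (nat_lit 78) (nat_lit 0) (nat_lit 76) (XT.lf (nat_lit 76) (nat_lit 9527339409) (nat_lit 0) (nat_lit 15756400394) (nat_lit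 1900) (nat_lit 16837097138) (nat_lit 489) (nat_lit 5) (nat_lit 488) (nat_lit 5) (nat_lit 513) (nat_lit 5) (nat_lit 484) (nat_lit 474) (nat_lit 242)) (XT.lf (nat_lit 76) (nat_lit 285119780) (nat_lit 0) (nat_lit 28679510605) (nat_lit 1900) (nat_lit 13815801703) (nat_lit 490) (nat_lit 5) (nat_lit 489) (nat_lit 5) (nat_lit 514) (nat_lit 5) (nat_lit 485) (nat_lit 474) (nat_lit 241)))) (XT.nd (nat_lit 156) (nat_lit 1748) (nat_lit 0) (XT.nd (nat_lit 78) (nat_lit 0) (nat_lit 0) (XT.lf (nat_lit 0) (nat_lit 33088416818) (nat_lit 1824) (nat_lit 8974694248) (nat_lit 1900) (nat_lit 1390054707) (nat_lit 490) (nat_lit 5) (nat_lit 514) (nat_lit 5) (nat_lit 515) (nat_lit 5) (nat_lit 486) (nat_lit 474) (nat_lit 240)) (XT.lf (nat_lit 76) (nat_lit 25695076738) (nat_lit 0) (nat_lit 11997313583) (nat_lit 1900) (nat_lit 6446561742) (nat_lit 491) (nat_lit 5) (nat_lit 490) (nat_lit 5) (nat_lit 515) (nat_lit 5) (nat_lit 487)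 (nat_lit 474) (nat_lit 239))) (XT.nd (nat_lit 78) (nat_lit 1824) (nat_lit 0) (XT.lf (nat_lit 76) (nat_lit 16778487132) (nat_lit 0) (nat_lit 25947226150) (nat_lit 1900) (nat_lit 2113774116) (nat_lit 492) (nat_lit 5) (nat_lit 491) (nat_lit 5) (nat_lit 516) (nat_lit 5) (nat_lit 488) (nat_lit 474) (nat_lit 238)) (XT.lf (nat_lit 0) (nat_lit 2606173796) (nat_lit 1900) (nat_lit 37834138733) (nat_lit 1976) (nat_lit 5114661614) (nat_lit 467) (nat_lit 5) (nat_lit 492) (nat_lit 5) (nat_lit 493) (nat_lit 5) (nat_lit 489) (nat_lit 474) (nat_lit 237)))))) (XT.nd (nat_lit 546) (nat_lit 5776) (nat_lit 0) (XT.nd (nat_lit 234) (nat_lit 2660) (nat_lit 0) (XT.nd (nat_lit 78) (nat_lit 1064) (nat_lit 0) (XT.lf (nat_lit 0) (nat_lit 7802090320) (nat_lit 1900) (nat_lit 1518510151) (nat_lit 1976) (nat_lit 36963783877) (nat_lit 467) (nat_lit 5) (nat_lit 492) (nat_lit 5) (nat_lit 493) (nat_lit 5) (nat_lit 490) (nat_lit 474) (nat_lit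 236)) (XT.nd (nat_lit 78) (nat_lit 1140) (nat_lit 0) (XT.lf (nat_lit 0) (nat_lit 13537183340) (nat_lit 1900) (nat_lit 10818328192) (nat_lit 76) (nat_lit 22672499400) (nat_lit 468) (nat_lit 5) (nat_lit 493) (nat_lit 5) (nat_lit 469) (nat_lit 5) (nat_lit 491) (nat_lit 474) (nat_lit 235)) (XT.lf (nat_lit 0) (nat_lit 19745575556) (nat_lit 1216) (nat_lit 20245630956) (nat_lit 76) (nat_lit 7796714929) (nat_lit 453) (nat_lit 5) (nat_lit 469) (nat_lit 5) (nat_lit 454) (nat_lit 5) (nat_lit 492) (nat_lit 474) (nat_lit 234)))) (XT.nd (nat_lit 156) (nat_lit 836) (nat_lit 0) (XT.nd (nat_lit 78) (nat_lit 912) (nat_lit 0) (XT.lf (nat_lit 0) (nat_lit 18713034186) (nat_lit 912) (nat_lit 7783499543) (nat_lit 988) (nat_lit 22066969304) (nat_lit 441) (nat_lit 5) (nat_lit 453) (nat_lit 5) (nat_lit 454) (nat_lit 5) (nat_lit 493) (nat_lit 474) (nat_lit 233)) (XT.lf (nat_lit 0) (nat_lit 9717982651) (nat_lit 912) (nat_lit 24096275570)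 (nat_lit 988) (nat_lit 15540809152) (nat_lit 429) (nat_lit 5) (nat_lit 441) (nat_lit 5) (nat_lit 442) (nat_lit 5) (nat_lit 494) (nat_lit 474) (nat_lit 232))) (XT.nd (nat_lit 78) (nat_lit 0) (nat_lit 0) (XT.lf (nat_lit 0) (nat_lit 610466859) (nat_lit 836) (nat_lit 41057117606) (nat_lit 912) (nat_lit 8496472828) (nat_lit 418) (nat_lit 5) (nat_lit 429) (nat_lit 5) (nat_lit 430) (nat_lit 5) (nat_lit 495) (nat_lit 474) (nat_lit 231)) (XT.lf (nat_lit 0) (nat_lit 42443051737) (nat_lit 836) (nat_lit 7740408795) (nat_lit 912) (nat_lit 805317425) (nat_lit 418) (nat_lit 5) (nat_lit 429) (nat_lit 5) (nat_lit 430) (nat_lit 5) (nat_lit 496) (nat_lit 474) (nat_lit 230))))) (XT.nd (nat_lit 312) (nat_lit 2356) (nat_lit 0) (XT.nd (nat_lit 156) (nat_lit 1596) (nat_lit 0) (XT.nd (nat_lit 78) (nat_lit 836) (nat_lit 0) (XT.lf (nat_lit 0) (nat_lit 7417216387) (nat_lit 988) (nat_lit 17915598254) (nat_lit 76) (nat_lit 26496621958)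 (nat_lit 405) (nat_lit 5) (nat_lit 418) (nat_lit 5) (nat_lit 406) (nat_lit 5) (nat_lit 497) (nat_lit 474) (nat_lit 229)) (XT.lf (nat_lit 0) (nat_lit 16208198394) (nat_lit 912) (nat_lit 27406238393) (nat_lit 76) (nat_lit 9074117530) (nat_lit 394) (nat_lit 5) (nat_lit 406) (nat_lit 5) (nat_lit 395) (nat_lit 5) (nat_lit 498) (nat_lit 474) (nat_lit 228))) (XT.nd (nat_lit 78) (nat_lit 760) (nat_lit 0) (XT.lf (nat_lit 0) (nat_lit 16494844805) (nat_lit 836) (nat_lit 9165167691) (nat_lit 912) (nat_lit 27905491061) (nat_lit 383) (nat_lit 5) (nat_lit 394) (nat_lit 5) (nat_lit 395) (nat_lit 5) (nat_lit 499) (nat_lit 474) (nat_lit 227)) (XT.lf (nat_lit 0) (nat_lit 7548292361) (nat_lit 760) (nat_lit 28252337239) (nat_lit 836) (nat_lit 18660026743) (nat_lit 373) (nat_lit 5) (nat_lit 383) (nat_lit 5) (nat_lit 384) (nat_lit 5) (nat_lit 500) (nat_lit 474) (nat_lit 226)))) (XT.nd (nat_lit 156) (nat_lit 1520) (nat_lit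 0) (XT.nd (nat_lit 78) (nat_lit 836) (nat_lit 0) (XT.lf (nat_lit 0) (nat_lit 46604020357) (nat_lit 836) (nat_lit 1474952459) (nat_lit 76) (nat_lit 7296519836) (nat_lit 373) (nat_lit 5) (nat_lit 384) (nat_lit 5) (nat_lit 374) (nat_lit 5) (nat_lit 501) (nat_lit 474) (nat_lit 225)) (XT.lf (nat_lit 0) (nat_lit 1882787209) (nat_lit 836) (nat_lit 10585619987) (nat_lit 76) (nat_lit 43839431516) (nat_lit 362) (nat_lit 5) (nat_lit 373) (nat_lit 5) (nat_lit 363) (nat_lit 5) (nat_lit 502) (nat_lit 474) (nat_lit 224))) (XT.nd (nat_lit 78) (nat_lit 760) (nat_lit 0) (XT.lf (nat_lit 0) (nat_lit 13149631482) (nat_lit 836) (nat_lit 19901916333) (nat_lit 76) (nat_lit 24207205251) (nat_lit 352) (nat_lit 5) (nat_lit 363) (nat_lit 5) (nat_lit 353) (nat_lit 5) (nat_lit 503) (nat_lit 474) (nat_lit 223)) (XT.lf (nat_lit 0) (nat_lit 25121479086) (nat_lit 836) (nat_lit 29316517053) (nat_lit 76) (nat_lit 3792858788) (nat_lit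 342) (nat_lit 5) (nat_lit 353) (nat_lit 5) (nat_lit 343) (nat_lit 5) (nat_lit 504) (nat_lit 474) (nat_lit 222))))))) (XT.nd (nat_lit 60840) (nat_lit 0) (nat_lit 7600) (XT.nd (nat_lit 60294) (nat_lit 0) (nat_lit 13452) (XT.nd (nat_lit 234) (nat_lit 684) (nat_lit 0) (XT.nd (nat_lit 78) (nat_lit 1444) (nat_lit 0) (XT.lf (nat_lit 0) (nat_lit 20280527633) (nat_lit 684) (nat_lit 17659005149) (nat_lit 760) (nat_lit 21282846082) (nat_lit 333) (nat_lit 5) (nat_lit 342) (nat_lit 5) (nat_lit 343) (nat_lit 5) (nat_lit 505) (nat_lit 474) (nat_lit 221)) (XT.nd (nat_lit 78) (nat_lit 760) (nat_lit 0) (XT.lf (nat_lit 0) (nat_lit 11544274095) (nat_lit 684) (nat_lit 40002704431) (nat_lit 760) (nat_lit 8688573021) (nat_lit 324) (nat_lit 5) (nat_lit 333) (nat_lit 5) (nat_lit 334) (nat_lit 5) (nat_lit 506) (nat_lit 474) (nat_lit 220)) (XT.lf (nat_lit 0) (nat_lit 2690212106) (nat_lit 684) (nat_lit 1936968216) (nat_lit 760)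 (nat_lit 56643386264) (nat_lit 314) (nat_lit 5) (nat_lit 323) (nat_lit 5) (nat_lit 324) (nat_lit 5) (nat_lit 507) (nat_lit 474) (nat_lit 219)))) (XT.nd (nat_lit 59904) (nat_lit 0) (nat_lit 13376) (XT.nd (nat_lit 78) (nat_lit 684) (nat_lit 0) (XT.lf (nat_lit 0) (nat_lit 18797823423) (nat_lit 760) (nat_lit 6354269180) (nat_lit 76) (nat_lit 37171921658) (nat_lit 314) (nat_lit 5) (nat_lit 324) (nat_lit 5) (nat_lit 315) (nat_lit 5) (nat_lit 508) (nat_lit 474) (nat_lit 218)) (XT.lf (nat_lit 0) (nat_lit 33810333417) (nat_lit 760) (nat_lit 15441345398) (nat_lit 76) (nat_lit 14149051632) (nat_lit 305) (nat_lit 5) (nat_lit 315) (nat_lit 5) (nat_lit 306) (nat_lit 5) (nat_lit 509) (nat_lit 474) (nat_lit 217))) (XT.nd (nat_lit 78) (nat_lit 0) (nat_lit 76) (XT.lf (nat_lit 0) (nat_lit 4193911075) (nat_lit 1900) (nat_lit 7226909712) (nat_lit 1900) (nat_lit 7226909712) (nat_lit 481) (nat_lit 3) (nat_lit 506) (nat_lit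 3) (nat_lit 506) (nat_lit 5) (nat_lit 475) (nat_lit 475) (nat_lit 250)) (XT.lf (nat_lit 0) (nat_lit 8704419208) (nat_lit 1824) (nat_lit 24300438786) (nat_lit 1900) (nat_lit 4846217185) (nat_lit 482) (nat_lit 5) (nat_lit 506) (nat_lit 5) (nat_lit 507) (nat_lit 5) (nat_lit 476) (nat_lit 475) (nat_lit 249))))) (XT.nd (nat_lit 234) (nat_lit 0) (nat_lit 228) (XT.nd (nat_lit 78) (nat_lit 0) (nat_lit 76) (XT.lf (nat_lit 76) (nat_lit 4070163001) (nat_lit 0) (nat_lit 5235361839) (nat_lit 1900) (nat_lit 29112332815) (nat_lit 483) (nat_lit 5) (nat_lit 482) (nat_lit 5) (nat_lit 507) (nat_lit 5) (nat_lit 477) (nat_lit 475) (nat_lit 248)) (XT.nd (nat_lit 78) (nat_lit 0) (nat_lit 76) (XT.lf (nat_lit 0) (nat_lit 10239455906) (nat_lit 1824) (nat_lit 5528173039) (nat_lit 1900) (nat_lit 23227718897) (nat_lit 483) (nat_lit 5) (nat_lit 507) (nat_lit 5) (nat_lit 508) (nat_lit 5) (nat_lit 478) (nat_lit 475) (nat_lit 247))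 (XT.lf (nat_lit 0) (nat_lit 11477206422) (nat_lit 1824) (nat_lit 15231079608) (nat_lit 1900) (nat_lit 12876360752) (nat_lit 484) (nat_lit 5) (nat_lit 508) (nat_lit 5) (nat_lit 509) (nat_lit 5) (nat_lit 479) (nat_lit 475) (nat_lit 246)))) (XT.nd (nat_lit 156) (nat_lit 0) (nat_lit 76) (XT.nd (nat_lit 78) (nat_lit 0) (nat_lit 0) (XT.lf (nat_lit 0) (nat_lit 13004544239) (nat_lit 1824) (nat_lit 25093111776) (nat_lit 1900) (nat_lit 2088919657) (nat_lit 485) (nat_lit 5) (nat_lit 509) (nat_lit 5) (nat_lit 510) (nat_lit 5) (nat_lit 480) (nat_lit 475) (nat_lit 245)) (XT.lf (nat_lit 76) (nat_lit 5624657444) (nat_lit 0) (nat_lit 9269608576) (nat_lit 1900) (nat_lit 25905965204) (nat_lit 486) (nat_lit 5) (nat_lit 485) (nat_lit 5) (nat_lit 510) (nat_lit 5) (nat_lit 481) (nat_lit 475) (nat_lit 244))) (XT.nd (nat_lit 78) (nat_lit 0) (nat_lit 76) (XT.lf (nat_lit 0) (nat_lit 17142053857) (nat_lit 1824) (nat_lit 3956761808)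 (nat_lit 1900) (nat_lit 20327453364) (nat_lit 486) (nat_lit 5) (nat_lit 510) (nat_lit 5) (nat_lit 511) (nat_lit 5) (nat_lit 482) (nat_lit 475) (nat_lit 243)) (XT.lf (nat_lit 0) (nat_lit 19759222838) (nat_lit 1824) (nat_lit 13614379006) (nat_lit 1900) (nat_lit 8691447243) (nat_lit 487) (nat_lit 5) (nat_lit 511) (nat_lit 5) (nat_lit 512) (nat_lit 5) (nat_lit 483) (nat_lit 475) (nat_lit 242)))))) (XT.nd (nat_lit 546) (nat_lit 4712) (nat_lit 0) (XT.nd (nat_lit 234) (nat_lit 1520) (nat_lit 0) (XT.nd (nat_lit 78) (nat_lit 0) (nat_lit 76) (XT.lf (nat_lit 76) (nat_lit 19271953538) (nat_lit 0) (nat_lit 3473907060) (nat_lit 1900) (nat_lit 19971312944) (nat_lit 488) (nat_lit 5) (nat_lit 487) (nat_lit 5) (nat_lit 512) (nat_lit 5) (nat_lit 484) (nat_lit 475) (nat_lit 241)) (XT.nd (nat_lit 78) (nat_lit 0) (nat_lit 76) (XT.lf (nat_lit 76) (nat_lit 9894393829) (nat_lit 0) (nat_lit 16260009203) (nat_lit 1900) (nat_lit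 17227812651) (nat_lit 489) (nat_lit 5) (nat_lit 488) (nat_lit 5) (nat_lit 513) (nat_lit 5) (nat_lit 485) (nat_lit 475) (nat_lit 240)) (XT.lf (nat_lit 76) (nat_lit 375997079) (nat_lit 0) (nat_lit 29566796332) (nat_lit 1900) (nat_lit 14118863910) (nat_lit 490) (nat_lit 5) (nat_lit 489) (nat_lit 5) (nat_lit 514) (nat_lit 5) (nat_lit 486) (nat_lit 475) (nat_lit 239)))) (XT.nd (nat_lit 156) (nat_lit 1748) (nat_lit 0) (XT.nd (nat_lit 78) (nat_lit 0) (nat_lit 0) (XT.lf (nat_lit 0) (nat_lit 34186942584) (nat_lit 1824) (nat_lit 9161715569) (nat_lit 1900) (nat_lit 1405981975) (nat_lit 490) (nat_lit 5) (nat_lit 514) (nat_lit 5) (nat_lit 515) (nat_lit 5) (nat_lit 487) (nat_lit 475) (nat_lit 238)) (XT.lf (nat_lit 76) (nat_lit 26546814633) (nat_lit 0) (nat_lit 12379662134) (nat_lit 1900) (nat_lit 6534574501) (nat_lit 491) (nat_lit 5) (nat_lit 490) (nat_lit 5) (nat_lit 515) (nat_lit 5) (nat_lit 488) (nat_lit 475)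 (nat_lit 237))) (XT.nd (nat_lit 78) (nat_lit 1824) (nat_lit 0) (XT.lf (nat_lit 76) (nat_lit 17363594112) (nat_lit 0) (nat_lit 26744585545) (nat_lit 1900) (nat_lit 2074475491) (nat_lit 492) (nat_lit 5) (nat_lit 491) (nat_lit 5) (nat_lit 516) (nat_lit 5) (nat_lit 489) (nat_lit 475) (nat_lit 236)) (XT.lf (nat_lit 0) (nat_lit 2783190602) (nat_lit 1900) (nat_lit 38885315471) (nat_lit 1976) (nat_lit 5251137834) (nat_lit 467) (nat_lit 5) (nat_lit 492) (nat_lit 5) (nat_lit 493) (nat_lit 5) (nat_lit 490) (nat_lit 475) (nat_lit 235))))) (XT.nd (nat_lit 312) (nat_lit 2736) (nat_lit 0) (XT.nd (nat_lit 156) (nat_lit 1976) (nat_lit 0) (XT.nd (nat_lit 78) (nat_lit 0) (nat_lit 76) (XT.lf (nat_lit 0) (nat_lit 8132106031) (nat_lit 1900) (nat_lit 1482660189) (nat_lit 1976) (nat_lit 38056227850) (nat_lit 467) (nat_lit 5) (nat_lit 492) (nat_lit 5) (nat_lit 493) (nat_lit 5) (nat_lit 491) (nat_lit 475) (nat_lit 234)) (XT.lf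 (nat_lit 0) (nat_lit 14036888798) (nat_lit 1900) (nat_lit 11060828985) (nat_lit 76) (nat_lit 23339259011) (nat_lit 468) (nat_lit 5) (nat_lit 493) (nat_lit 5) (nat_lit 469) (nat_lit 5) (nat_lit 492) (nat_lit 475) (nat_lit 233))) (XT.nd (nat_lit 78) (nat_lit 912) (nat_lit 0) (XT.lf (nat_lit 0) (nat_lit 20429261655) (nat_lit 1216) (nat_lit 20770382350) (nat_lit 76) (nat_lit 8020086113) (nat_lit 453) (nat_lit 5) (nat_lit 469) (nat_lit 5) (nat_lit 454) (nat_lit 5) (nat_lit 493) (nat_lit 475) (nat_lit 232)) (XT.lf (nat_lit 0) (nat_lit 19355702374) (nat_lit 912) (nat_lit 8024914133) (nat_lit 988) (nat_lit 22638005368) (nat_lit 441) (nat_lit 5) (nat_lit 453) (nat_lit 5) (nat_lit 454) (nat_lit 5) (nat_lit 494) (nat_lit 475) (nat_lit 231)))) (XT.nd (nat_lit 156) (nat_lit 988) (nat_lit 0) (XT.nd (nat_lit 78) (nat_lit 836) (nat_lit 0) (XT.lf (nat_lit 0) (nat_lit 10091288459) (nat_lit 912) (nat_lit 24824467625)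 (nat_lit 988) (nat_lit 15918219468) (nat_lit 429) (nat_lit 5) (nat_lit 441) (nat_lit 5) (nat_lit 442) (nat_lit 5) (nat_lit 495) (nat_lit 475) (nat_lit 230)) (XT.lf (nat_lit 0) (nat_lit 710970060) (nat_lit 836) (nat_lit 42291676226) (nat_lit 912) (nat_lit 8664629670) (nat_lit 418) (nat_lit 5) (nat_lit 429) (nat_lit 5) (nat_lit 430) (nat_lit 5) (nat_lit 496) (nat_lit 475) (nat_lit 229))) (XT.nd (nat_lit 78) (nat_lit 988) (nat_lit 0) (XT.lf (nat_lit 0) (nat_lit 43796138624) (nat_lit 836) (nat_lit 7975383285) (nat_lit 912) (nat_lit 745265936) (nat_lit 418) (nat_lit 5) (nat_lit 429) (nat_lit 5) (nat_lit 430) (nat_lit 5) (nat_lit 497) (nat_lit 475) (nat_lit 228)) (XT.lf (nat_lit 0) (nat_lit 7720925142) (nat_lit 988) (nat_lit 18371839990) (nat_lit 76) (nat_lit 27289928531) (nat_lit 405) (nat_lit 5) (nat_lit 418) (nat_lit 5) (nat_lit 406) (nat_lit 5) (nat_lit 498) (nat_lit 475) (nat_lit 227))))))))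
noncomputable def xc121 : XT := (XT.nd (nat_lit 62166) (nat_lit 0) (nat_lit 760) (XT.nd (nat_lit 60996) (nat_lit 0) (nat_lit 10564) (XT.nd (nat_lit 546) (nat_lit 2128) (nat_lit 0) (XT.nd (nat_lit 234) (nat_lit 2356) (nat_lit 0) (XT.nd (nat_lit 78) (nat_lit 1596) (nat_lit 0) (XT.lf (nat_lit 0) (nat_lit 16773794255) (nat_lit 912) (nat_lit 28146931730) (nat_lit 76) (nat_lit 9346895838) (nat_lit 394) (nat_lit 5) (nat_lit 406) (nat_lit 5) (nat_lit 395) (nat_lit 5) (nat_lit 499) (nat_lit 475) (nat_lit 226)) (XT.nd (nat_lit 78) (nat_lit 760) (nat_lit 0) (XT.lf (nat_lit 0) (nat_lit 17069861823) (nat_lit 836) (nat_lit 9437510321) (nat_lit 912) (nat_lit 28663543269) (nat_lit 383) (nat_lit 5) (nat_lit 394) (nat_lit 5) (nat_lit 395) (nat_lit 5) (nat_lit 500) (nat_lit 475) (nat_lit 225)) (XT.lf (nat_lit 0) (nat_lit 7855123480) (nat_lit 760) (nat_lit 29095363637) (nat_lit 836) (nat_lit 19142470140) (nat_lit 373)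 (nat_lit 5) (nat_lit 383) (nat_lit 5) (nat_lit 384) (nat_lit 5) (nat_lit 501) (nat_lit 475) (nat_lit 224)))) (XT.nd (nat_lit 156) (nat_lit 1520) (nat_lit 0) (XT.nd (nat_lit 78) (nat_lit 836) (nat_lit 0) (XT.lf (nat_lit 0) (nat_lit 48075799346) (nat_lit 836) (nat_lit 1439714019) (nat_lit 76) (nat_lit 7519768954) (nat_lit 373) (nat_lit 5) (nat_lit 384) (nat_lit 5) (nat_lit 374) (nat_lit 5) (nat_lit 502) (nat_lit 475) (nat_lit 223)) (XT.lf (nat_lit 0) (nat_lit 2011770346) (nat_lit 836) (nat_lit 10824025823) (nat_lit 76) (nat_lit 45159825863) (nat_lit 362) (nat_lit 5) (nat_lit 373) (nat_lit 5) (nat_lit 363) (nat_lit 5) (nat_lit 503) (nat_lit 475) (nat_lit 222))) (XT.nd (nat_lit 78) (nat_lit 760) (nat_lit 0) (XT.lf (nat_lit 0) (nat_lit 13615059300) (nat_lit 836) (nat_lit 20419721064) (nat_lit 76) (nat_lit 24940314719) (nat_lit 352) (nat_lit 5) (nat_lit 363) (nat_lit 5) (nat_lit 353) (nat_lit 5) (nat_lit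 504) (nat_lit 475) (nat_lit 221)) (XT.lf (nat_lit 0) (nat_lit 25944558123) (nat_lit 836) (nat_lit 30116712023) (nat_lit 76) (nat_lit 3915119989) (nat_lit 342) (nat_lit 5) (nat_lit 353) (nat_lit 5) (nat_lit 343) (nat_lit 5) (nat_lit 505) (nat_lit 475) (nat_lit 220))))) (XT.nd (nat_lit 60138) (nat_lit 0) (nat_lit 12692) (XT.nd (nat_lit 78) (nat_lit 1444) (nat_lit 0) (XT.lf (nat_lit 0) (nat_lit 20966957447) (nat_lit 684) (nat_lit 18178680134) (nat_lit 760) (nat_lit 21852052579) (nat_lit 333) (nat_lit 5) (nat_lit 342) (nat_lit 5) (nat_lit 343) (nat_lit 5) (nat_lit 506) (nat_lit 475) (nat_lit 219)) (XT.nd (nat_lit 78) (nat_lit 760) (nat_lit 0) (XT.lf (nat_lit 0) (nat_lit 11968624143) (nat_lit 684) (nat_lit 41191274541) (nat_lit 760) (nat_lit 8881387548) (nat_lit 324) (nat_lit 5) (nat_lit 333) (nat_lit 5) (nat_lit 334) (nat_lit 5) (nat_lit 507) (nat_lit 475) (nat_lit 218)) (XT.lf (nat_lit 0) (nat_lit 2848551403)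 (nat_lit 684) (nat_lit 1982951183) (nat_lit 760) (nat_lit 58275869294) (nat_lit 314) (nat_lit 5) (nat_lit 323) (nat_lit 5) (nat_lit 324) (nat_lit 5) (nat_lit 508) (nat_lit 475) (nat_lit 217)))) (XT.nd (nat_lit 156) (nat_lit 0) (nat_lit 76) (XT.nd (nat_lit 78) (nat_lit 0) (nat_lit 76) (XT.lf (nat_lit 0) (nat_lit 4389754592) (nat_lit 1900) (nat_lit 7408002589) (nat_lit 1900) (nat_lit 7408002589) (nat_lit 481) (nat_lit 3) (nat_lit 506) (nat_lit 3) (nat_lit 506) (nat_lit 5) (nat_lit 476) (nat_lit 476) (nat_lit 248)) (XT.lf (nat_lit 0) (nat_lit 9101551647) (nat_lit 1824) (nat_lit 24956019716) (nat_lit 1900) (nat_lit 4926311959) (nat_lit 482) (nat_lit 5) (nat_lit 506) (nat_lit 5) (nat_lit 507) (nat_lit 5) (nat_lit 477) (nat_lit 476) (nat_lit 247))) (XT.nd (nat_lit 78) (nat_lit 0) (nat_lit 76) (XT.lf (nat_lit 76) (nat_lit 4264508774) (nat_lit 0) (nat_lit 5452689549) (nat_lit 1900) (nat_lit 29850540912) (nat_lit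 483) (nat_lit 5) (nat_lit 482) (nat_lit 5) (nat_lit 507) (nat_lit 5) (nat_lit 478) (nat_lit 476) (nat_lit 246)) (XT.lf (nat_lit 0) (nat_lit 10674907977) (nat_lit 1824) (nat_lit 5620924710) (nat_lit 1900) (nat_lit 23866806344) (nat_lit 483) (nat_lit 5) (nat_lit 507) (nat_lit 5) (nat_lit 508) (nat_lit 5) (nat_lit 479) (nat_lit 476) (nat_lit 245)))))) (XT.nd (nat_lit 546) (nat_lit 2356) (nat_lit 0) (XT.nd (nat_lit 234) (nat_lit 0) (nat_lit 152) (XT.nd (nat_lit 78) (nat_lit 0) (nat_lit 76) (XT.lf (nat_lit 0) (nat_lit 11946177202) (nat_lit 1824) (nat_lit 15613255874) (nat_lit 1900) (nat_lit 13210256252) (nat_lit 484) (nat_lit 5) (nat_lit 508) (nat_lit 5) (nat_lit 509) (nat_lit 5) (nat_lit 480) (nat_lit 476) (nat_lit 244)) (XT.nd (nat_lit 78) (nat_lit 0) (nat_lit 0) (XT.lf (nat_lit 0) (nat_lit 13515870553) (nat_lit 1824) (nat_lit 25769616777) (nat_lit 1900) (nat_lit 2104258156) (nat_lit 485) (nat_lit 5) (nat_lit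 509) (nat_lit 5) (nat_lit 510) (nat_lit 5) (nat_lit 481) (nat_lit 476) (nat_lit 243)) (XT.lf (nat_lit 76) (nat_lit 5868447831) (nat_lit 0) (nat_lit 9590793630) (nat_lit 1900) (nat_lit 26562630201) (nat_lit 486) (nat_lit 5) (nat_lit 485) (nat_lit 5) (nat_lit 510) (nat_lit 5) (nat_lit 482) (nat_lit 476) (nat_lit 242)))) (XT.nd (nat_lit 156) (nat_lit 0) (nat_lit 76) (XT.nd (nat_lit 78) (nat_lit 0) (nat_lit 76) (XT.lf (nat_lit 0) (nat_lit 17770750082) (nat_lit 1824) (nat_lit 4000030705) (nat_lit 1900) (nat_lit 20895984175) (nat_lit 486) (nat_lit 5) (nat_lit 510) (nat_lit 5) (nat_lit 511) (nat_lit 5) (nat_lit 483) (nat_lit 476) (nat_lit 241)) (XT.lf (nat_lit 0) (nat_lit 20463340255) (nat_lit 1824) (nat_lit 13946122581) (nat_lit 1900) (nat_lit 8915307564) (nat_lit 487) (nat_lit 5) (nat_lit 511) (nat_lit 5) (nat_lit 512) (nat_lit 5) (nat_lit 484) (nat_lit 476) (nat_lit 240))) (XT.nd (nat_lit 78) (nat_lit 0)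 (nat_lit 76) (XT.lf (nat_lit 76) (nat_lit 19925555771) (nat_lit 0) (nat_lit 3611268272) (nat_lit 1900) (nat_lit 20459689704) (nat_lit 488) (nat_lit 5) (nat_lit 487) (nat_lit 5) (nat_lit 512) (nat_lit 5) (nat_lit 485) (nat_lit 476) (nat_lit 239)) (XT.lf (nat_lit 76) (nat_lit 10267796704) (nat_lit 0) (nat_lit 16776951526) (nat_lit 1900) (nat_lit 17636816508) (nat_lit 489) (nat_lit 5) (nat_lit 488) (nat_lit 5) (nat_lit 513) (nat_lit 5) (nat_lit 486) (nat_lit 476) (nat_lit 238))))) (XT.nd (nat_lit 312) (nat_lit 2736) (nat_lit 0) (XT.nd (nat_lit 156) (nat_lit 0) (nat_lit 76) (XT.nd (nat_lit 78) (nat_lit 0) (nat_lit 76) (XT.lf (nat_lit 76) (nat_lit 464874980) (nat_lit 0) (nat_lit 30479156436) (nat_lit 1900) (nat_lit 14437413478) (nat_lit 490) (nat_lit 5) (nat_lit 489) (nat_lit 5) (nat_lit 514) (nat_lit 5) (nat_lit 487) (nat_lit 476) (nat_lit 237)) (XT.lf (nat_lit 0) (nat_lit 35312346564) (nat_lit 1824) (nat_lit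 9359067265) (nat_lit 1900) (nat_lit 1423866615) (nat_lit 490) (nat_lit 5) (nat_lit 514) (nat_lit 5) (nat_lit 515) (nat_lit 5) (nat_lit 488) (nat_lit 476) (nat_lit 236))) (XT.nd (nat_lit 78) (nat_lit 0) (nat_lit 76) (XT.lf (nat_lit 76) (nat_lit 27419461501) (nat_lit 0) (nat_lit 12772193617) (nat_lit 1900) (nat_lit 6631277121) (nat_lit 491) (nat_lit 5) (nat_lit 490) (nat_lit 5) (nat_lit 515) (nat_lit 5) (nat_lit 489) (nat_lit 476) (nat_lit 235)) (XT.lf (nat_lit 76) (nat_lit 17961561382) (nat_lit 0) (nat_lit 27564778338) (nat_lit 1900) (nat_lit 2039893987) (nat_lit 492) (nat_lit 5) (nat_lit 491) (nat_lit 5) (nat_lit 516) (nat_lit 5) (nat_lit 490) (nat_lit 476) (nat_lit 234)))) (XT.nd (nat_lit 156) (nat_lit 1064) (nat_lit 0) (XT.nd (nat_lit 78) (nat_lit 0) (nat_lit 0) (XT.lf (nat_lit 0) (nat_lit 2959844575) (nat_lit 1900) (nat_lit 39972840696) (nat_lit 1976) (nat_lit 5392682121) (nat_lit 467) (nat_lit 5)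 (nat_lit 492) (nat_lit 5) (nat_lit 493) (nat_lit 5) (nat_lit 491) (nat_lit 476) (nat_lit 233)) (XT.lf (nat_lit 0) (nat_lit 8466514119) (nat_lit 1900) (nat_lit 1450407724) (nat_lit 1976) (nat_lit 39182390562) (nat_lit 467) (nat_lit 5) (nat_lit 492) (nat_lit 5) (nat_lit 493) (nat_lit 5) (nat_lit 492) (nat_lit 476) (nat_lit 232))) (XT.nd (nat_lit 78) (nat_lit 1140) (nat_lit 0) (XT.lf (nat_lit 0) (nat_lit 14546212973) (nat_lit 1900) (nat_lit 11315314753) (nat_lit 76) (nat_lit 24026791508) (nat_lit 468) (nat_lit 5) (nat_lit 493) (nat_lit 5) (nat_lit 469) (nat_lit 5) (nat_lit 493) (nat_lit 476) (nat_lit 231)) (XT.lf (nat_lit 0) (nat_lit 21128216263) (nat_lit 1216) (nat_lit 21315618871) (nat_lit 76) (nat_lit 8250762912) (nat_lit 453) (nat_lit 5) (nat_lit 469) (nat_lit 5) (nat_lit 454) (nat_lit 5) (nat_lit 494) (nat_lit 476) (nat_lit 230))))))) (XT.nd (nat_lit 61152) (nat_lit 0) (nat_lit 10868) (XT.nd (nat_lit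 546) (nat_lit 4484) (nat_lit 0) (XT.nd (nat_lit 234) (nat_lit 2660) (nat_lit 0) (XT.nd (nat_lit 78) (nat_lit 1748) (nat_lit 0) (XT.lf (nat_lit 0) (nat_lit 20012984967) (nat_lit 912) (nat_lit 8273117116) (nat_lit 988) (nat_lit 23231394737) (nat_lit 441) (nat_lit 5) (nat_lit 453) (nat_lit 5) (nat_lit 454) (nat_lit 5) (nat_lit 495) (nat_lit 476) (nat_lit 229)) (XT.nd (nat_lit 78) (nat_lit 836) (nat_lit 0) (XT.lf (nat_lit 0) (nat_lit 10471099719) (nat_lit 912) (nat_lit 25574200982) (nat_lit 988) (nat_lit 16312050378) (nat_lit 429) (nat_lit 5) (nat_lit 441) (nat_lit 5) (nat_lit 442) (nat_lit 5) (nat_lit 496) (nat_lit 476) (nat_lit 228)) (XT.lf (nat_lit 0) (nat_lit 809770361) (nat_lit 836) (nat_lit 43563108285) (nat_lit 912) (nat_lit 8842810296) (nat_lit 418) (nat_lit 5) (nat_lit 429) (nat_lit 5) (nat_lit 430) (nat_lit 5) (nat_lit 497) (nat_lit 476) (nat_lit 227)))) (XT.nd (nat_lit 156) (nat_lit 1672) (nat_lit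 0) (XT.nd (nat_lit 78) (nat_lit 988) (nat_lit 0) (XT.lf (nat_lit 0) (nat_lit 45185237539) (nat_lit 836) (nat_lit 8217248445) (nat_lit 912) (nat_lit 688246959) (nat_lit 418) (nat_lit 5) (nat_lit 429) (nat_lit 5) (nat_lit 430) (nat_lit 5) (nat_lit 498) (nat_lit 476) (nat_lit 226)) (XT.lf (nat_lit 0) (nat_lit 8029084392) (nat_lit 988) (nat_lit 18846431694) (nat_lit 76) (nat_lit 28107125694) (nat_lit 405) (nat_lit 5) (nat_lit 418) (nat_lit 5) (nat_lit 406) (nat_lit 5) (nat_lit 499) (nat_lit 476) (nat_lit 225))) (XT.nd (nat_lit 78) (nat_lit 836) (nat_lit 0) (XT.lf (nat_lit 0) (nat_lit 17351802981) (nat_lit 912) (nat_lit 28914523945) (nat_lit 76) (nat_lit 9627825649) (nat_lit 394) (nat_lit 5) (nat_lit 406) (nat_lit 5) (nat_lit 395) (nat_lit 5) (nat_lit 500) (nat_lit 476) (nat_lit 224)) (XT.lf (nat_lit 0) (nat_lit 17657527171) (nat_lit 836) (nat_lit 9718173192) (nat_lit 912) (nat_lit 29448878427) (nat_lit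 383) (nat_lit 5) (nat_lit 394) (nat_lit 5) (nat_lit 395) (nat_lit 5) (nat_lit 501) (nat_lit 476) (nat_lit 223))))) (XT.nd (nat_lit 312) (nat_lit 2128) (nat_lit 0) (XT.nd (nat_lit 156) (nat_lit 1596) (nat_lit 0) (XT.nd (nat_lit 78) (nat_lit 0) (nat_lit 0) (XT.lf (nat_lit 0) (nat_lit 8166545257) (nat_lit 760) (nat_lit 29963941655) (nat_lit 836) (nat_lit 19643827471) (nat_lit 373) (nat_lit 5) (nat_lit 383) (nat_lit 5) (nat_lit 384) (nat_lit 5) (nat_lit 502) (nat_lit 476) (nat_lit 222)) (XT.lf (nat_lit 0) (nat_lit 49587503412) (nat_lit 836) (nat_lit 1407981306) (nat_lit 76) (nat_lit 7749465634) (nat_lit 373) (nat_lit 5) (nat_lit 384) (nat_lit 5) (nat_lit 374) (nat_lit 5) (nat_lit 503) (nat_lit 476) (nat_lit 221))) (XT.nd (nat_lit 78) (nat_lit 760) (nat_lit 0) (XT.lf (nat_lit 0) (nat_lit 2140461208) (nat_lit 836) (nat_lit 11074128101) (nat_lit 76) (nat_lit 46519532884) (nat_lit 362) (nat_lit 5) (nat_lit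 373) (nat_lit 5) (nat_lit 363) (nat_lit 5) (nat_lit 504) (nat_lit 476) (nat_lit 220)) (XT.lf (nat_lit 0) (nat_lit 14090377771) (nat_lit 836) (nat_lit 20957609369) (nat_lit 76) (nat_lit 25695021767) (nat_lit 352) (nat_lit 5) (nat_lit 363) (nat_lit 5) (nat_lit 353) (nat_lit 5) (nat_lit 505) (nat_lit 476) (nat_lit 219)))) (XT.nd (nat_lit 156) (nat_lit 684) (nat_lit 0) (XT.nd (nat_lit 78) (nat_lit 684) (nat_lit 0) (XT.lf (nat_lit 0) (nat_lit 26788343699) (nat_lit 836) (nat_lit 30945465017) (nat_lit 76) (nat_lit 4040562502) (nat_lit 342) (nat_lit 5) (nat_lit 353) (nat_lit 5) (nat_lit 343) (nat_lit 5) (nat_lit 506) (nat_lit 476) (nat_lit 218)) (XT.lf (nat_lit 0) (nat_lit 21669501834) (nat_lit 684) (nat_lit 18714524872) (nat_lit 760) (nat_lit 22442312162) (nat_lit 333) (nat_lit 5) (nat_lit 342) (nat_lit 5) (nat_lit 343) (nat_lit 5) (nat_lit 507) (nat_lit 476) (nat_lit 217))) (XT.nd (nat_lit 60060) (nat_lit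 0) (nat_lit 11932) (XT.lf (nat_lit 0) (nat_lit 12401225921) (nat_lit 684) (nat_lit 42416162534) (nat_lit 760) (nat_lit 9083880957) (nat_lit 324) (nat_lit 5) (nat_lit 333) (nat_lit 5) (nat_lit 334) (nat_lit 5) (nat_lit 508) (nat_lit 476) (nat_lit 216)) (XT.lf (nat_lit 0) (nat_lit 4587453625) (nat_lit 1900) (nat_lit 7596578407) (nat_lit 1900) (nat_lit 7596578407) (nat_lit 481) (nat_lit 3) (nat_lit 506) (nat_lit 3) (nat_lit 506) (nat_lit 5) (nat_lit 477) (nat_lit 477) (nat_lit 246)))))) (XT.nd (nat_lit 546) (nat_lit 1140) (nat_lit 0) (XT.nd (nat_lit 234) (nat_lit 0) (nat_lit 152) (XT.nd (nat_lit 78) (nat_lit 0) (nat_lit 0) (XT.lf (nat_lit 0) (nat_lit 9502791111) (nat_lit 1824) (nat_lit 25635483384) (nat_lit 1900) (nat_lit 5012557590) (nat_lit 482) (nat_lit 5) (nat_lit 506) (nat_lit 5) (nat_lit 507) (nat_lit 5) (nat_lit 478) (nat_lit 477) (nat_lit 245)) (XT.nd (nat_lit 78) (nat_lit 0) (nat_lit 76) (XT.lf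 (nat_lit 76) (nat_lit 4460537998) (nat_lit 0) (nat_lit 5673077526) (nat_lit 1900) (nat_lit 30618654097) (nat_lit 483) (nat_lit 5) (nat_lit 482) (nat_lit 5) (nat_lit 507) (nat_lit 5) (nat_lit 479) (nat_lit 477) (nat_lit 244)) (XT.lf (nat_lit 0) (nat_lit 11116060479) (nat_lit 1824) (nat_lit 5720654798) (nat_lit 1900) (nat_lit 24528381162) (nat_lit 483) (nat_lit 5) (nat_lit 507) (nat_lit 5) (nat_lit 508) (nat_lit 5) (nat_lit 480) (nat_lit 477) (nat_lit 243)))) (XT.nd (nat_lit 156) (nat_lit 0) (nat_lit 76) (XT.nd (nat_lit 78) (nat_lit 0) (nat_lit 76) (XT.lf (nat_lit 0) (nat_lit 12422061422) (nat_lit 1824) (nat_lit 16011188735) (nat_lit 1900) (nat_lit 13557176323) (nat_lit 484) (nat_lit 5) (nat_lit 508) (nat_lit 5) (nat_lit 509) (nat_lit 5) (nat_lit 481) (nat_lit 477) (nat_lit 242)) (XT.lf (nat_lit 0) (nat_lit 14035579856) (nat_lit 1824) (nat_lit 26470796192) (nat_lit 1900) (nat_lit 2122773692) (nat_lit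 485) (nat_lit 5) (nat_lit 509) (nat_lit 5) (nat_lit 510) (nat_lit 5) (nat_lit 482) (nat_lit 477) (nat_lit 241))) (XT.nd (nat_lit 78) (nat_lit 0) (nat_lit 76) (XT.lf (nat_lit 76) (nat_lit 6115243715) (nat_lit 0) (nat_lit 9919140304) (nat_lit 1900) (nat_lit 27245913142) (nat_lit 486) (nat_lit 5) (nat_lit 485) (nat_lit 5) (nat_lit 510) (nat_lit 5) (nat_lit 483) (nat_lit 477) (nat_lit 240)) (XT.lf (nat_lit 0) (nat_lit 18411738179) (nat_lit 1824) (nat_lit 4048927887) (nat_lit 1900) (nat_lit 21483941284) (nat_lit 486) (nat_lit 5) (nat_lit 510) (nat_lit 5) (nat_lit 511) (nat_lit 5) (nat_lit 484) (nat_lit 477) (nat_lit 239))))) (XT.nd (nat_lit 312) (nat_lit 1520) (nat_lit 0) (XT.nd (nat_lit 156) (nat_lit 0) (nat_lit 76) (XT.nd (nat_lit 78) (nat_lit 0) (nat_lit 0) (XT.lf (nat_lit 0) (nat_lit 21182189781) (nat_lit 1824) (nat_lit 14292220655) (nat_lit 1900) (nat_lit 9148000936) (nat_lit 487) (nat_lit 5) (nat_lit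 511) (nat_lit 5) (nat_lit 512) (nat_lit 5) (nat_lit 485) (nat_lit 477) (nat_lit 238)) (XT.lf (nat_lit 76) (nat_lit 20594435299) (nat_lit 0) (nat_lit 3750847719) (nat_lit 1900) (nat_lit 20969075994) (nat_lit 488) (nat_lit 5) (nat_lit 487) (nat_lit 5) (nat_lit 512) (nat_lit 5) (nat_lit 486) (nat_lit 477) (nat_lit 237))) (XT.nd (nat_lit 78) (nat_lit 0) (nat_lit 76) (XT.lf (nat_lit 76) (nat_lit 10648006173) (nat_lit 0) (nat_lit 17307729246) (nat_lit 1900) (nat_lit 18064280394) (nat_lit 489) (nat_lit 5) (nat_lit 488) (nat_lit 5) (nat_lit 513) (nat_lit 5) (nat_lit 487) (nat_lit 477) (nat_lit 236)) (XT.lf (nat_lit 76) (nat_lit 551964776) (nat_lit 0) (nat_lit 31417431793) (nat_lit 1900) (nat_lit 14771547901) (nat_lit 490) (nat_lit 5) (nat_lit 489) (nat_lit 5) (nat_lit 514) (nat_lit 5) (nat_lit 488) (nat_lit 477) (nat_lit 235)))) (XT.nd (nat_lit 156) (nat_lit 1748) (nat_lit 0) (XT.nd (nat_lit 78) (nat_lit 0)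 (nat_lit 0) (XT.lf (nat_lit 0) (nat_lit 36465783982) (nat_lit 1824) (nat_lit 9566788317) (nat_lit 1900) (nat_lit 1443682417) (nat_lit 490) (nat_lit 5) (nat_lit 514) (nat_lit 5) (nat_lit 515) (nat_lit 5) (nat_lit 489) (nat_lit 477) (nat_lit 234)) (XT.lf (nat_lit 76) (nat_lit 28313911148) (nat_lit 0) (nat_lit 13175287429) (nat_lit 1900) (nat_lit 6736583032) (nat_lit 491) (nat_lit 5) (nat_lit 490) (nat_lit 5) (nat_lit 515) (nat_lit 5) (nat_lit 490) (nat_lit 477) (nat_lit 233))) (XT.nd (nat_lit 78) (nat_lit 1824) (nat_lit 0) (XT.lf (nat_lit 76) (nat_lit 18573044142) (nat_lit 0) (nat_lit 28408551952) (nat_lit 1900) (nat_lit 2009832659) (nat_lit 492) (nat_lit 5) (nat_lit 491) (nat_lit 5) (nat_lit 516) (nat_lit 5) (nat_lit 491) (nat_lit 477) (nat_lit 232)) (XT.lf (nat_lit 0) (nat_lit 3136450501) (nat_lit 1900) (nat_lit 41097528566) (nat_lit 1976) (nat_lit 5539390620) (nat_lit 467) (nat_lit 5) (nat_lit 492)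 (nat_lit 5) (nat_lit 493) (nat_lit 5) (nat_lit 492) (nat_lit 477) (nat_lit 231))))))))
noncomputable def xc122 : XT := (XT.nd (nat_lit 62322) (nat_lit 0) (nat_lit 1444) (XT.nd (nat_lit 1092) (nat_lit 1444) (nat_lit 0) (XT.nd (nat_lit 546) (nat_lit 5016) (nat_lit 0) (XT.nd (nat_lit 234) (nat_lit 2660) (nat_lit 0) (XT.nd (nat_lit 78) (nat_lit 1064) (nat_lit 0) (XT.lf (nat_lit 0) (nat_lit 8805762542) (nat_lit 1900) (nat_lit 1421592431) (nat_lit 1976) (nat_lit 40343229303) (nat_lit 467) (nat_lit 5) (nat_lit 492) (nat_lit 5) (nat_lit 493) (nat_lit 5) (nat_lit 493) (nat_lit 477) (nat_lit 230)) (XT.nd (nat_lit 78) (nat_lit 1140) (nat_lit 0) (XT.lf (nat_lit 0) (nat_lit 15065752827) (nat_lit 1900) (nat_lit 11581874675) (nat_lit 76) (nat_lit 24735675870) (nat_lit 468) (nat_lit 5) (nat_lit 493) (nat_lit 5) (nat_lit 469) (nat_lit 5) (nat_lit 494) (nat_lit 477) (nat_lit 229)) (XT.lf (nat_lit 0) (nat_lit 21843198350)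 (nat_lit 1216) (nat_lit 21881682828) (nat_lit 76) (nat_lit 8488929796) (nat_lit 453) (nat_lit 5) (nat_lit 469) (nat_lit 5) (nat_lit 454) (nat_lit 5) (nat_lit 495) (nat_lit 477) (nat_lit 228)))) (XT.nd (nat_lit 156) (nat_lit 836) (nat_lit 0) (XT.nd (nat_lit 78) (nat_lit 912) (nat_lit 0) (XT.lf (nat_lit 0) (nat_lit 20685588222) (nat_lit 912) (nat_lit 8528338210) (nat_lit 988) (nat_lit 23847508234) (nat_lit 441) (nat_lit 5) (nat_lit 453) (nat_lit 5) (nat_lit 454) (nat_lit 5) (nat_lit 496) (nat_lit 477) (nat_lit 227)) (XT.lf (nat_lit 0) (nat_lit 10857881034) (nat_lit 912) (nat_lit 26346139358) (nat_lit 988) (nat_lit 16722501837) (nat_lit 429) (nat_lit 5) (nat_lit 441) (nat_lit 5) (nat_lit 442) (nat_lit 5) (nat_lit 497) (nat_lit 477) (nat_lit 226))) (XT.nd (nat_lit 78) (nat_lit 0) (nat_lit 0) (XT.lf (nat_lit 0) (nat_lit 907087507) (nat_lit 836) (nat_lit 44872529361) (nat_lit 912) (nat_lit 9031029600) (nat_lit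 418) (nat_lit 5) (nat_lit 429) (nat_lit 5) (nat_lit 430) (nat_lit 5) (nat_lit 498) (nat_lit 477) (nat_lit 225)) (XT.lf (nat_lit 0) (nat_lit 46611691787) (nat_lit 836) (nat_lit 8466220100) (nat_lit 912) (nat_lit 634073974) (nat_lit 418) (nat_lit 5) (nat_lit 429) (nat_lit 5) (nat_lit 430) (nat_lit 5) (nat_lit 499) (nat_lit 477) (nat_lit 224))))) (XT.nd (nat_lit 234) (nat_lit 2356) (nat_lit 0) (XT.nd (nat_lit 78) (nat_lit 1672) (nat_lit 0) (XT.lf (nat_lit 0) (nat_lit 8342095198) (nat_lit 988) (nat_lit 19339656207) (nat_lit 76) (nat_lit 28948924917) (nat_lit 405) (nat_lit 5) (nat_lit 418) (nat_lit 5) (nat_lit 406) (nat_lit 5) (nat_lit 500) (nat_lit 477) (nat_lit 223)) (XT.nd (nat_lit 78) (nat_lit 836) (nat_lit 0) (XT.lf (nat_lit 0) (nat_lit 17942858437) (nat_lit 912) (nat_lit 29709553465) (nat_lit 76) (nat_lit 9917153335) (nat_lit 394) (nat_lit 5) (nat_lit 406) (nat_lit 5) (nat_lit 395) (nat_lit 5) (nat_lit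 501) (nat_lit 477) (nat_lit 222)) (XT.lf (nat_lit 0) (nat_lit 18258484480) (nat_lit 836) (nat_lit 10007397303) (nat_lit 912) (nat_lit 30262054327) (nat_lit 383) (nat_lit 5) (nat_lit 394) (nat_lit 5) (nat_lit 395) (nat_lit 5) (nat_lit 502) (nat_lit 477) (nat_lit 221)))) (XT.nd (nat_lit 156) (nat_lit 1596) (nat_lit 0) (XT.nd (nat_lit 78) (nat_lit 0) (nat_lit 0) (XT.lf (nat_lit 0) (nat_lit 8482960290) (nat_lit 760) (nat_lit 30858822868) (nat_lit 836) (nat_lit 20164411243) (nat_lit 373) (nat_lit 5) (nat_lit 383) (nat_lit 5) (nat_lit 384) (nat_lit 5) (nat_lit 503) (nat_lit 477) (nat_lit 220)) (XT.lf (nat_lit 0) (nat_lit 51140573030) (nat_lit 836) (nat_lit 1379597563) (nat_lit 76) (nat_lit 7985817652) (nat_lit 373) (nat_lit 5) (nat_lit 384) (nat_lit 5) (nat_lit 374) (nat_lit 5) (nat_lit 504) (nat_lit 477) (nat_lit 219))) (XT.nd (nat_lit 78) (nat_lit 760) (nat_lit 0) (XT.lf (nat_lit 0) (nat_lit 2269089929)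 (nat_lit 836) (nat_lit 11336016854) (nat_lit 76) (nat_lit 47919749132) (nat_lit 362) (nat_lit 5) (nat_lit 373) (nat_lit 5) (nat_lit 363) (nat_lit 5) (nat_lit 505) (nat_lit 477) (nat_lit 218)) (XT.lf (nat_lit 0) (nat_lit 14576117374) (nat_lit 836) (nat_lit 21515922599) (nat_lit 76) (nat_lit 26471997038) (nat_lit 352) (nat_lit 5) (nat_lit 363) (nat_lit 5) (nat_lit 353) (nat_lit 5) (nat_lit 506) (nat_lit 477) (nat_lit 217)))))) (XT.nd (nat_lit 60606) (nat_lit 0) (nat_lit 11552) (XT.nd (nat_lit 60294) (nat_lit 0) (nat_lit 11324) (XT.nd (nat_lit 78) (nat_lit 684) (nat_lit 0) (XT.lf (nat_lit 0) (nat_lit 27653685810) (nat_lit 836) (nat_lit 31803371463) (nat_lit 76) (nat_lit 4169309693) (nat_lit 342) (nat_lit 5) (nat_lit 353) (nat_lit 5) (nat_lit 343) (nat_lit 5) (nat_lit 507) (nat_lit 477) (nat_lit 216)) (XT.nd (nat_lit 60138) (nat_lit 0) (nat_lit 11248) (XT.lf (nat_lit 0) (nat_lit 22388901304) (nat_lit 684)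 (nat_lit 19266991190) (nat_lit 760) (nat_lit 23054028133) (nat_lit 333) (nat_lit 5) (nat_lit 342) (nat_lit 5) (nat_lit 343) (nat_lit 5) (nat_lit 508) (nat_lit 477) (nat_lit 215)) (XT.lf (nat_lit 0) (nat_lit 4787294592) (nat_lit 1900) (nat_lit 7792743965) (nat_lit 1900) (nat_lit 7792743965) (nat_lit 481) (nat_lit 3) (nat_lit 506) (nat_lit 3) (nat_lit 506) (nat_lit 5) (nat_lit 478) (nat_lit 478) (nat_lit 244)))) (XT.nd (nat_lit 156) (nat_lit 0) (nat_lit 76) (XT.nd (nat_lit 78) (nat_lit 0) (nat_lit 0) (XT.lf (nat_lit 0) (nat_lit 9908708961) (nat_lit 1824) (nat_lit 26339304296) (nat_lit 1900) (nat_lit 5104923451) (nat_lit 482) (nat_lit 5) (nat_lit 506) (nat_lit 5) (nat_lit 507) (nat_lit 5) (nat_lit 479) (nat_lit 478) (nat_lit 243)) (XT.lf (nat_lit 76) (nat_lit 4658539228) (nat_lit 0) (nat_lit 5896816171) (nat_lit 1900) (nat_lit 31417124133) (nat_lit 483) (nat_lit 5) (nat_lit 482) (nat_lit 5) (nat_lit 507)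 (nat_lit 5) (nat_lit 480) (nat_lit 478) (nat_lit 242))) (XT.nd (nat_lit 78) (nat_lit 0) (nat_lit 76) (XT.lf (nat_lit 0) (nat_lit 11563507100) (nat_lit 1824) (nat_lit 5827331797) (nat_lit 1900) (nat_lit 25212927694) (nat_lit 483) (nat_lit 5) (nat_lit 507) (nat_lit 5) (nat_lit 508) (nat_lit 5) (nat_lit 481) (nat_lit 478) (nat_lit 241)) (XT.lf (nat_lit 0) (nat_lit 12905477250) (nat_lit 1824) (nat_lit 16425104551) (nat_lit 1900) (nat_lit 13917339048) (nat_lit 484) (nat_lit 5) (nat_lit 508) (nat_lit 5) (nat_lit 509) (nat_lit 5) (nat_lit 482) (nat_lit 478) (nat_lit 240))))) (XT.nd (nat_lit 312) (nat_lit 0) (nat_lit 152) (XT.nd (nat_lit 156) (nat_lit 0) (nat_lit 76) (XT.nd (nat_lit 78) (nat_lit 0) (nat_lit 0) (XT.lf (nat_lit 0) (nat_lit 14564322986) (nat_lit 1824) (nat_lit 27197138866) (nat_lit 1900) (nat_lit 2144405618) (nat_lit 485) (nat_lit 5) (nat_lit 509) (nat_lit 5) (nat_lit 510) (nat_lit 5) (nat_lit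 483) (nat_lit 478) (nat_lit 239)) (XT.lf (nat_lit 76) (nat_lit 6365382569) (nat_lit 0) (nat_lit 10255005458) (nat_lit 1900) (nat_lit 27956215445) (nat_lit 486) (nat_lit 5) (nat_lit 485) (nat_lit 5) (nat_lit 510) (nat_lit 5) (nat_lit 484) (nat_lit 478) (nat_lit 238))) (XT.nd (nat_lit 78) (nat_lit 0) (nat_lit 76) (XT.lf (nat_lit 0) (nat_lit 19065763993) (nat_lit 1824) (nat_lit 4103373630) (nat_lit 1900) (nat_lit 22091771413) (nat_lit 486) (nat_lit 5) (nat_lit 510) (nat_lit 5) (nat_lit 511) (nat_lit 5) (nat_lit 485) (nat_lit 478) (nat_lit 237)) (XT.lf (nat_lit 0) (nat_lit 21916580272) (nat_lit 1824) (nat_lit 14652851162) (nat_lit 1900) (nat_lit 9389670810) (nat_lit 487) (nat_lit 5) (nat_lit 511) (nat_lit 5) (nat_lit 512) (nat_lit 5) (nat_lit 486) (nat_lit 478) (nat_lit 236)))) (XT.nd (nat_lit 156) (nat_lit 0) (nat_lit 152) (XT.nd (nat_lit 78) (nat_lit 0) (nat_lit 76) (XT.lf (nat_lit 76) (nat_lit 21279299044)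 (nat_lit 0) (nat_lit 3892821166) (nat_lit 1900) (nat_lit 21499737113) (nat_lit 488) (nat_lit 5) (nat_lit 487) (nat_lit 5) (nat_lit 512) (nat_lit 5) (nat_lit 487) (nat_lit 478) (nat_lit 235)) (XT.lf (nat_lit 76) (nat_lit 11035478753) (nat_lit 0) (nat_lit 17852853454) (nat_lit 1900) (nat_lit 18510402783) (nat_lit 489) (nat_lit 5) (nat_lit 488) (nat_lit 5) (nat_lit 513) (nat_lit 5) (nat_lit 488) (nat_lit 478) (nat_lit 234))) (XT.nd (nat_lit 78) (nat_lit 0) (nat_lit 76) (XT.lf (nat_lit 76) (nat_lit 637468527) (nat_lit 0) (nat_lit 32382483415) (nat_lit 1900) (nat_lit 15121388673) (nat_lit 490) (nat_lit 5) (nat_lit 489) (nat_lit 5) (nat_lit 514) (nat_lit 5) (nat_lit 489) (nat_lit 478) (nat_lit 233)) (XT.lf (nat_lit 0) (nat_lit 37648424690) (nat_lit 1824) (nat_lit 9784934424) (nat_lit 1900) (nat_lit 1465407258) (nat_lit 490) (nat_lit 5) (nat_lit 514) (nat_lit 5) (nat_lit 515) (nat_lit 5) (nat_lit 490) (nat_lit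 478) (nat_lit 232))))))) (XT.nd (nat_lit 1170) (nat_lit 1596) (nat_lit 0) (XT.nd (nat_lit 546) (nat_lit 5168) (nat_lit 0) (XT.nd (nat_lit 234) (nat_lit 1976) (nat_lit 0) (XT.nd (nat_lit 78) (nat_lit 1748) (nat_lit 0) (XT.lf (nat_lit 76) (nat_lit 29231068893) (nat_lit 0) (nat_lit 13589330107) (nat_lit 1900) (nat_lit 6850423004) (nat_lit 491) (nat_lit 5) (nat_lit 490) (nat_lit 5) (nat_lit 515) (nat_lit 5) (nat_lit 491) (nat_lit 478) (nat_lit 231)) (XT.nd (nat_lit 78) (nat_lit 1824) (nat_lit 0) (XT.lf (nat_lit 76) (nat_lit 19198701786) (nat_lit 0) (nat_lit 29276672649) (nat_lit 1900) (nat_lit 1984108082) (nat_lit 492) (nat_lit 5) (nat_lit 491) (nat_lit 5) (nat_lit 516) (nat_lit 5) (nat_lit 492) (nat_lit 478) (nat_lit 230)) (XT.lf (nat_lit 0) (nat_lit 3313313919) (nat_lit 1900) (nat_lit 42260233526) (nat_lit 1976) (nat_lit 5691365566) (nat_lit 467) (nat_lit 5) (nat_lit 492) (nat_lit 5) (nat_lit 493) (nat_lit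 5) (nat_lit 493) (nat_lit 478) (nat_lit 229)))) (XT.nd (nat_lit 156) (nat_lit 1976) (nat_lit 0) (XT.nd (nat_lit 78) (nat_lit 0) (nat_lit 76) (XT.lf (nat_lit 0) (nat_lit 9150294547) (nat_lit 1900) (nat_lit 1396064575) (nat_lit 1976) (nat_lit 41539733199) (nat_lit 467) (nat_lit 5) (nat_lit 492) (nat_lit 5) (nat_lit 493) (nat_lit 5) (nat_lit 494) (nat_lit 478) (nat_lit 228)) (XT.lf (nat_lit 0) (nat_lit 15596105527) (nat_lit 1900) (nat_lit 11860616125) (nat_lit 76) (nat_lit 25466510984) (nat_lit 468) (nat_lit 5) (nat_lit 493) (nat_lit 5) (nat_lit 469) (nat_lit 5) (nat_lit 495) (nat_lit 478) (nat_lit 227))) (XT.nd (nat_lit 78) (nat_lit 912) (nat_lit 0) (XT.lf (nat_lit 0) (nat_lit 22574972385) (nat_lit 1216) (nat_lit 22468942429) (nat_lit 76) (nat_lit 8734778759) (nat_lit 453) (nat_lit 5) (nat_lit 469) (nat_lit 5) (nat_lit 454) (nat_lit 5) (nat_lit 496) (nat_lit 478) (nat_lit 226)) (XT.lf (nat_lit 0) (nat_lit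 21374224213) (nat_lit 912) (nat_lit 8790812524) (nat_lit 988) (nat_lit 24486745013) (nat_lit 441) (nat_lit 5) (nat_lit 453) (nat_lit 5) (nat_lit 454) (nat_lit 5) (nat_lit 497) (nat_lit 478) (nat_lit 225))))) (XT.nd (nat_lit 312) (nat_lit 2432) (nat_lit 0) (XT.nd (nat_lit 156) (nat_lit 988) (nat_lit 0) (XT.nd (nat_lit 78) (nat_lit 836) (nat_lit 0) (XT.lf (nat_lit 0) (nat_lit 11252095478) (nat_lit 912) (nat_lit 27140965378) (nat_lit 988) (nat_lit 17149796600) (nat_lit 429) (nat_lit 5) (nat_lit 441) (nat_lit 5) (nat_lit 442) (nat_lit 5) (nat_lit 498) (nat_lit 478) (nat_lit 224)) (XT.lf (nat_lit 0) (nat_lit 1003132289) (nat_lit 836) (nat_lit 46221087962) (nat_lit 912) (nat_lit 9229319329) (nat_lit 418) (nat_lit 5) (nat_lit 429) (nat_lit 5) (nat_lit 430) (nat_lit 5) (nat_lit 499) (nat_lit 478) (nat_lit 223))) (XT.nd (nat_lit 78) (nat_lit 988) (nat_lit 0) (XT.lf (nat_lit 0) (nat_lit 48076869877) (nat_lit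 836) (nat_lit 8722520023) (nat_lit 912) (nat_lit 582570796) (nat_lit 418) (nat_lit 5) (nat_lit 429) (nat_lit 5) (nat_lit 430) (nat_lit 5) (nat_lit 500) (nat_lit 478) (nat_lit 222)) (XT.lf (nat_lit 0) (nat_lit 8660355296) (nat_lit 988) (nat_lit 19851820219) (nat_lit 76) (nat_lit 29816059317) (nat_lit 405) (nat_lit 5) (nat_lit 418) (nat_lit 5) (nat_lit 406) (nat_lit 5) (nat_lit 501) (nat_lit 478) (nat_lit 221)))) (XT.nd (nat_lit 156) (nat_lit 760) (nat_lit 0) (XT.nd (nat_lit 78) (nat_lit 836) (nat_lit 0) (XT.lf (nat_lit 0) (nat_lit 18547598489) (nat_lit 912) (nat_lit 30532590281) (nat_lit 76) (nat_lit 10215132557) (nat_lit 394) (nat_lit 5) (nat_lit 406) (nat_lit 5) (nat_lit 395) (nat_lit 5) (nat_lit 502) (nat_lit 478) (nat_lit 220)) (XT.lf (nat_lit 0) (nat_lit 18873381530) (nat_lit 836) (nat_lit 10305431378) (nat_lit 912) (nat_lit 31103660464) (nat_lit 383) (nat_lit 5) (nat_lit 394) (nat_lit 5) (nat_lit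 395) (nat_lit 5) (nat_lit 503) (nat_lit 478) (nat_lit 219))) (XT.nd (nat_lit 78) (nat_lit 0) (nat_lit 0) (XT.lf (nat_lit 0) (nat_lit 8804768050) (nat_lit 760) (nat_lit 31780782261) (nat_lit 836) (nat_lit 20704557971) (nat_lit 373) (nat_lit 5) (nat_lit 383) (nat_lit 5) (nat_lit 384) (nat_lit 5) (nat_lit 504) (nat_lit 478) (nat_lit 218)) (XT.lf (nat_lit 0) (nat_lit 52736477953) (nat_lit 836) (nat_lit 1354416367) (nat_lit 76) (nat_lit 8229038188) (nat_lit 373) (nat_lit 5) (nat_lit 384) (nat_lit 5) (nat_lit 374) (nat_lit 5) (nat_lit 505) (nat_lit 478) (nat_lit 217)))))) (XT.nd (nat_lit 60762) (nat_lit 0) (nat_lit 10108) (XT.nd (nat_lit 60450) (nat_lit 0) (nat_lit 9880) (XT.nd (nat_lit 78) (nat_lit 760) (nat_lit 0) (XT.lf (nat_lit 0) (nat_lit 2397879834) (nat_lit 836) (nat_lit 11609799791) (nat_lit 76) (nat_lit 49361706072) (nat_lit 362) (nat_lit 5) (nat_lit 373) (nat_lit 5) (nat_lit 363) (nat_lit 5) (nat_lit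 506) (nat_lit 478) (nat_lit 216)) (XT.nd (nat_lit 60294) (nat_lit 0) (nat_lit 9804) (XT.lf (nat_lit 0) (nat_lit 15072811085) (nat_lit 836) (nat_lit 22095027339) (nat_lit 76) (nat_lit 27271929988) (nat_lit 352) (nat_lit 5) (nat_lit 363) (nat_lit 5) (nat_lit 353) (nat_lit 5) (nat_lit 507) (nat_lit 478) (nat_lit 215)) (XT.lf (nat_lit 0) (nat_lit 4989559257) (nat_lit 1900) (nat_lit 7996616024) (nat_lit 1900) (nat_lit 7996616024) (nat_lit 481) (nat_lit 3) (nat_lit 506) (nat_lit 3) (nat_lit 506) (nat_lit 5) (nat_lit 479) (nat_lit 479) (nat_lit 242)))) (XT.nd (nat_lit 156) (nat_lit 0) (nat_lit 76) (XT.nd (nat_lit 78) (nat_lit 0) (nat_lit 0) (XT.lf (nat_lit 0) (nat_lit 10319867974) (nat_lit 1824) (nat_lit 27067985085) (nat_lit 1900) (nat_lit 5203390350) (nat_lit 482) (nat_lit 5) (nat_lit 506) (nat_lit 5) (nat_lit 507) (nat_lit 5) (nat_lit 480) (nat_lit 479) (nat_lit 241)) (XT.lf (nat_lit 76) (nat_lit 4858796007)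 (nat_lit 0) (nat_lit 6124193198) (nat_lit 1900) (nat_lit 32246441905) (nat_lit 483) (nat_lit 5) (nat_lit 482) (nat_lit 5) (nat_lit 507) (nat_lit 5) (nat_lit 481) (nat_lit 479) (nat_lit 240))) (XT.nd (nat_lit 78) (nat_lit 0) (nat_lit 76) (XT.lf (nat_lit 0) (nat_lit 12017835073) (nat_lit 1824) (nat_lit 5940937078) (nat_lit 1900) (nat_lit 25920955734) (nat_lit 483) (nat_lit 5) (nat_lit 507) (nat_lit 5) (nat_lit 508) (nat_lit 5) (nat_lit 482) (nat_lit 479) (nat_lit 239)) (XT.lf (nat_lit 0) (nat_lit 13397037822) (nat_lit 1824) (nat_lit 16855250613) (nat_lit 1900) (nat_lit 14290978961) (nat_lit 484) (nat_lit 5) (nat_lit 508) (nat_lit 5) (nat_lit 509) (nat_lit 5) (nat_lit 483) (nat_lit 479) (nat_lit 238))))) (XT.nd (nat_lit 312) (nat_lit 0) (nat_lit 152) (XT.nd (nat_lit 156) (nat_lit 0) (nat_lit 76) (XT.nd (nat_lit 78) (nat_lit 0) (nat_lit 0) (XT.lf (nat_lit 0) (nat_lit 15102747381) (nat_lit 1824) (nat_lit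 27949162738) (nat_lit 1900) (nat_lit 2169100418) (nat_lit 485) (nat_lit 5) (nat_lit 509) (nat_lit 5) (nat_lit 510) (nat_lit 5) (nat_lit 484) (nat_lit 479) (nat_lit 237)) (XT.lf (nat_lit 76) (nat_lit 6619197796) (nat_lit 0) (nat_lit 10598748511) (nat_lit 1900) (nat_lit 28693973365) (nat_lit 486) (nat_lit 5) (nat_lit 485) (nat_lit 5) (nat_lit 510) (nat_lit 5) (nat_lit 485) (nat_lit 479) (nat_lit 236))) (XT.nd (nat_lit 78) (nat_lit 0) (nat_lit 76) (XT.lf (nat_lit 0) (nat_lit 19733574096) (nat_lit 1824) (nat_lit 4163300088) (nat_lit 1900) (nat_lit 22719942493) (nat_lit 486) (nat_lit 5) (nat_lit 510) (nat_lit 5) (nat_lit 511) (nat_lit 5) (nat_lit 486) (nat_lit 479) (nat_lit 235)) (XT.lf (nat_lit 0) (nat_lit 22667323790) (nat_lit 1824) (nat_lit 15028211875) (nat_lit 1900) (nat_lit 9640471922) (nat_lit 487) (nat_lit 5) (nat_lit 511) (nat_lit 5) (nat_lit 512) (nat_lit 5) (nat_lit 487) (nat_lit 479) (nat_lit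 234)))) (XT.nd (nat_lit 156) (nat_lit 0) (nat_lit 152) (XT.nd (nat_lit 78) (nat_lit 0) (nat_lit 76) (XT.lf (nat_lit 76) (nat_lit 21980860865) (nat_lit 0) (nat_lit 4037363379) (nat_lit 1900) (nat_lit 22051967268) (nat_lit 488) (nat_lit 5) (nat_lit 487) (nat_lit 5) (nat_lit 512) (nat_lit 5) (nat_lit 488) (nat_lit 479) (nat_lit 233)) (XT.lf (nat_lit 76) (nat_lit 11430670173) (nat_lit 0) (nat_lit 18412845063) (nat_lit 1900) (nat_lit 18975408502) (nat_lit 489) (nat_lit 5) (nat_lit 488) (nat_lit 5) (nat_lit 513) (nat_lit 5) (nat_lit 489) (nat_lit 479) (nat_lit 232))) (XT.nd (nat_lit 78) (nat_lit 0) (nat_lit 76) (XT.lf (nat_lit 76) (nat_lit 721579677) (nat_lit 0) (nat_lit 33375193348) (nat_lit 1900) (nat_lit 15487080794) (nat_lit 490) (nat_lit 5) (nat_lit 489) (nat_lit 5) (nat_lit 514) (nat_lit 5) (nat_lit 490) (nat_lit 479) (nat_lit 231)) (XT.lf (nat_lit 0) (nat_lit 38861454761) (nat_lit 1824) (nat_lit 10013577618)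 (nat_lit 1900) (nat_lit 1489022948) (nat_lit 490) (nat_lit 5) (nat_lit 514) (nat_lit 5) (nat_lit 515) (nat_lit 5) (nat_lit 491) (nat_lit 479) (nat_lit 230))))))))
noncomputable def xc123 : XT := (XT.nd (nat_lit 62556) (nat_lit 0) (nat_lit 836) (XT.nd (nat_lit 1092) (nat_lit 836) (nat_lit 0) (XT.nd (nat_lit 546) (nat_lit 5168) (nat_lit 0) (XT.nd (nat_lit 234) (nat_lit 1976) (nat_lit 0) (XT.nd (nat_lit 78) (nat_lit 1748) (nat_lit 0) (XT.lf (nat_lit 76) (nat_lit 30171852794) (nat_lit 0) (nat_lit 14014715783) (nat_lit 1900) (nat_lit 6972744518) (nat_lit 491) (nat_lit 5) (nat_lit 490) (nat_lit 5) (nat_lit 515) (nat_lit 5) (nat_lit 492) (nat_lit 479) (nat_lit 229)) (XT.nd (nat_lit 78) (nat_lit 1824) (nat_lit 0) (XT.lf (nat_lit 76) (nat_lit 19839198912) (nat_lit 0) (nat_lit 30169926300) (nat_lit 1900) (nat_lit 1962549643) (nat_lit 492) (nat_lit 5) (nat_lit 491) (nat_lit 5) (nat_lit 516) (nat_lit 5) (nat_lit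 493) (nat_lit 479) (nat_lit 228)) (XT.lf (nat_lit 0) (nat_lit 3490731908) (nat_lit 1900) (nat_lit 43461850601) (nat_lit 1976) (nat_lit 5848715288) (nat_lit 467) (nat_lit 5) (nat_lit 492) (nat_lit 5) (nat_lit 493) (nat_lit 5) (nat_lit 494) (nat_lit 479) (nat_lit 227)))) (XT.nd (nat_lit 156) (nat_lit 1976) (nat_lit 0) (XT.nd (nat_lit 78) (nat_lit 0) (nat_lit 76) (XT.lf (nat_lit 0) (nat_lit 9500549569) (nat_lit 1900) (nat_lit 1373684444) (nat_lit 1976) (nat_lit 42772923986) (nat_lit 467) (nat_lit 5) (nat_lit 492) (nat_lit 5) (nat_lit 493) (nat_lit 5) (nat_lit 495) (nat_lit 479) (nat_lit 226)) (XT.lf (nat_lit 0) (nat_lit 16137869470) (nat_lit 1900) (nat_lit 12151664329) (nat_lit 76) (nat_lit 26219916096) (nat_lit 468) (nat_lit 5) (nat_lit 493) (nat_lit 5) (nat_lit 469) (nat_lit 5) (nat_lit 496) (nat_lit 479) (nat_lit 225))) (XT.nd (nat_lit 78) (nat_lit 912) (nat_lit 0) (XT.lf (nat_lit 0) (nat_lit 23324309486)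 (nat_lit 1216) (nat_lit 23077791658) (nat_lit 76) (nat_lit 8988509434) (nat_lit 453) (nat_lit 5) (nat_lit 469) (nat_lit 5) (nat_lit 454) (nat_lit 5) (nat_lit 497) (nat_lit 479) (nat_lit 224)) (XT.lf (nat_lit 0) (nat_lit 22079611883) (nat_lit 912) (nat_lit 9060780813) (nat_lit 988) (nat_lit 25149532425) (nat_lit 441) (nat_lit 5) (nat_lit 453) (nat_lit 5) (nat_lit 454) (nat_lit 5) (nat_lit 498) (nat_lit 479) (nat_lit 223))))) (XT.nd (nat_lit 234) (nat_lit 3420) (nat_lit 0) (XT.nd (nat_lit 78) (nat_lit 836) (nat_lit 0) (XT.lf (nat_lit 0) (nat_lit 11654205437) (nat_lit 912) (nat_lit 27959381198) (nat_lit 988) (nat_lit 17594179939) (nat_lit 429) (nat_lit 5) (nat_lit 441) (nat_lit 5) (nat_lit 442) (nat_lit 5) (nat_lit 499) (nat_lit 479) (nat_lit 222)) (XT.nd (nat_lit 78) (nat_lit 0) (nat_lit 0) (XT.lf (nat_lit 0) (nat_lit 1098107167) (nat_lit 836) (nat_lit 47609966543) (nat_lit 912) (nat_lit 9437727650) (nat_lit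 418) (nat_lit 5) (nat_lit 429) (nat_lit 5) (nat_lit 430) (nat_lit 5) (nat_lit 500) (nat_lit 479) (nat_lit 221)) (XT.lf (nat_lit 0) (nat_lit 49582167148) (nat_lit 836) (nat_lit 8986376150) (nat_lit 912) (nat_lit 533570970) (nat_lit 418) (nat_lit 5) (nat_lit 429) (nat_lit 5) (nat_lit 430) (nat_lit 5) (nat_lit 501) (nat_lit 479) (nat_lit 220)))) (XT.nd (nat_lit 156) (nat_lit 1596) (nat_lit 0) (XT.nd (nat_lit 78) (nat_lit 836) (nat_lit 0) (XT.lf (nat_lit 0) (nat_lit 8984259877) (nat_lit 988) (nat_lit 20383254103) (nat_lit 76) (nat_lit 30709284290) (nat_lit 405) (nat_lit 5) (nat_lit 418) (nat_lit 5) (nat_lit 406) (nat_lit 5) (nat_lit 502) (nat_lit 479) (nat_lit 219)) (XT.lf (nat_lit 0) (nat_lit 19166665994) (nat_lit 912) (nat_lit 31384236020) (nat_lit 76) (nat_lit 10522024484) (nat_lit 394) (nat_lit 5) (nat_lit 406) (nat_lit 5) (nat_lit 395) (nat_lit 5) (nat_lit 503) (nat_lit 479) (nat_lit 218))) (XT.nd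 (nat_lit 78) (nat_lit 760) (nat_lit 0) (XT.lf (nat_lit 0) (nat_lit 19502871236) (nat_lit 836) (nat_lit 10612532066) (nat_lit 912) (nat_lit 31974318122) (nat_lit 383) (nat_lit 5) (nat_lit 394) (nat_lit 5) (nat_lit 395) (nat_lit 5) (nat_lit 504) (nat_lit 479) (nat_lit 217)) (XT.lf (nat_lit 0) (nat_lit 9132365659) (nat_lit 760) (nat_lit 32730618874) (nat_lit 836) (nat_lit 21264628060) (nat_lit 373) (nat_lit 5) (nat_lit 383) (nat_lit 5) (nat_lit 384) (nat_lit 5) (nat_lit 505) (nat_lit 479) (nat_lit 216)))))) (XT.nd (nat_lit 60840) (nat_lit 0) (nat_lit 9348) (XT.nd (nat_lit 60528) (nat_lit 0) (nat_lit 9120) (XT.nd (nat_lit 78) (nat_lit 836) (nat_lit 0) (XT.lf (nat_lit 0) (nat_lit 54376718895) (nat_lit 836) (nat_lit 1332301076) (nat_lit 76) (nat_lit 8479346044) (nat_lit 373) (nat_lit 5) (nat_lit 384) (nat_lit 5) (nat_lit 374) (nat_lit 5) (nat_lit 506) (nat_lit 479) (nat_lit 215)) (XT.nd (nat_lit 60372) (nat_lit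 0) (nat_lit 9044) (XT.lf (nat_lit 0) (nat_lit 2527048020) (nat_lit 836) (nat_lit 11895601968) (nat_lit 76) (nat_lit 50846671182) (nat_lit 362) (nat_lit 5) (nat_lit 373) (nat_lit 5) (nat_lit 363) (nat_lit 5) (nat_lit 507) (nat_lit 479) (nat_lit 214)) (XT.lf (nat_lit 0) (nat_lit 5194525352) (nat_lit 1900) (nat_lit 8208321217) (nat_lit 1900) (nat_lit 8208321217) (nat_lit 481) (nat_lit 3) (nat_lit 506) (nat_lit 3) (nat_lit 506) (nat_lit 5) (nat_lit 480) (nat_lit 480) (nat_lit 240)))) (XT.nd (nat_lit 156) (nat_lit 0) (nat_lit 76) (XT.nd (nat_lit 78) (nat_lit 0) (nat_lit 0) (XT.lf (nat_lit 0) (nat_lit 10736823561) (nat_lit 1824) (nat_lit 27822056554) (nat_lit 1900) (nat_lit 5307950157) (nat_lit 482) (nat_lit 5) (nat_lit 506) (nat_lit 5) (nat_lit 507) (nat_lit 5) (nat_lit 481) (nat_lit 480) (nat_lit 239)) (XT.lf (nat_lit 76) (nat_lit 5061587507) (nat_lit 0) (nat_lit 6355494206) (nat_lit 1900) (nat_lit 33107137120)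 (nat_lit 483) (nat_lit 5) (nat_lit 482) (nat_lit 5) (nat_lit 507) (nat_lit 5) (nat_lit 482) (nat_lit 480) (nat_lit 238))) (XT.nd (nat_lit 78) (nat_lit 0) (nat_lit 76) (XT.lf (nat_lit 0) (nat_lit 12479626380) (nat_lit 1824) (nat_lit 6061464491) (nat_lit 1900) (nat_lit 26653000664) (nat_lit 483) (nat_lit 5) (nat_lit 507) (nat_lit 5) (nat_lit 508) (nat_lit 5) (nat_lit 483) (nat_lit 480) (nat_lit 237)) (XT.lf (nat_lit 0) (nat_lit 13897352439) (nat_lit 1824) (nat_lit 17301894958) (nat_lit 1900) (nat_lit 14678346979) (nat_lit 484) (nat_lit 5) (nat_lit 508) (nat_lit 5) (nat_lit 509) (nat_lit 5) (nat_lit 484) (nat_lit 480) (nat_lit 236))))) (XT.nd (nat_lit 312) (nat_lit 0) (nat_lit 152) (XT.nd (nat_lit 156) (nat_lit 0) (nat_lit 76) (XT.nd (nat_lit 78) (nat_lit 0) (nat_lit 0) (XT.lf (nat_lit 0) (nat_lit 15651498298) (nat_lit 1824) (nat_lit 28727414891) (nat_lit 1900) (nat_lit 2196811409) (nat_lit 485) (nat_lit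 5) (nat_lit 509) (nat_lit 5) (nat_lit 510) (nat_lit 5) (nat_lit 485) (nat_lit 480) (nat_lit 235)) (XT.lf (nat_lit 76) (nat_lit 6877019416) (nat_lit 0) (nat_lit 10950731976) (nat_lit 1900) (nat_lit 29459657733) (nat_lit 486) (nat_lit 5) (nat_lit 485) (nat_lit 5) (nat_lit 510) (nat_lit 5) (nat_lit 486) (nat_lit 480) (nat_lit 234))) (XT.nd (nat_lit 78) (nat_lit 0) (nat_lit 76) (XT.lf (nat_lit 0) (nat_lit 20415917056) (nat_lit 1824) (nat_lit 4228650828) (nat_lit 1900) (nat_lit 23368943858) (nat_lit 486) (nat_lit 5) (nat_lit 510) (nat_lit 5) (nat_lit 511) (nat_lit 5) (nat_lit 487) (nat_lit 480) (nat_lit 233)) (XT.lf (nat_lit 0) (nat_lit 23435236906) (nat_lit 1824) (nat_lit 15418520177) (nat_lit 1900) (nat_lit 9900570223) (nat_lit 487) (nat_lit 5) (nat_lit 511) (nat_lit 5) (nat_lit 512) (nat_lit 5) (nat_lit 488) (nat_lit 480) (nat_lit 232)))) (XT.nd (nat_lit 156) (nat_lit 0) (nat_lit 152) (XT.nd (nat_lit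 78) (nat_lit 0) (nat_lit 76) (XT.lf (nat_lit 76) (nat_lit 22699842588) (nat_lit 0) (nat_lit 4184648461) (nat_lit 1900) (nat_lit 22626089244) (nat_lit 488) (nat_lit 5) (nat_lit 487) (nat_lit 5) (nat_lit 512) (nat_lit 5) (nat_lit 489) (nat_lit 480) (nat_lit 231)) (XT.lf (nat_lit 76) (nat_lit 11834036180) (nat_lit 0) (nat_lit 18988235415) (nat_lit 1900) (nat_lit 19459548347) (nat_lit 489) (nat_lit 5) (nat_lit 488) (nat_lit 5) (nat_lit 513) (nat_lit 5) (nat_lit 490) (nat_lit 480) (nat_lit 230))) (XT.nd (nat_lit 78) (nat_lit 0) (nat_lit 76) (XT.lf (nat_lit 76) (nat_lit 804483636) (nat_lit 0) (nat_lit 34396465578) (nat_lit 1900) (nat_lit 15868792342) (nat_lit 490) (nat_lit 5) (nat_lit 489) (nat_lit 5) (nat_lit 514) (nat_lit 5) (nat_lit 491) (nat_lit 480) (nat_lit 229)) (XT.lf (nat_lit 0) (nat_lit 40106078053) (nat_lit 1824) (nat_lit 10252805912) (nat_lit 1900) (nat_lit 1514515082) (nat_lit 490) (nat_lit 5)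 (nat_lit 514) (nat_lit 5) (nat_lit 515) (nat_lit 5) (nat_lit 492) (nat_lit 480) (nat_lit 228))))))) (XT.nd (nat_lit 61542) (nat_lit 0) (nat_lit 8208) (XT.nd (nat_lit 546) (nat_lit 5168) (nat_lit 0) (XT.nd (nat_lit 234) (nat_lit 1976) (nat_lit 0) (XT.nd (nat_lit 78) (nat_lit 1748) (nat_lit 0) (XT.lf (nat_lit 76) (nat_lit 31137194855) (nat_lit 0) (nat_lit 14451846646) (nat_lit 1900) (nat_lit 7103511191) (nat_lit 491) (nat_lit 5) (nat_lit 490) (nat_lit 5) (nat_lit 515) (nat_lit 5) (nat_lit 493) (nat_lit 480) (nat_lit 227)) (XT.nd (nat_lit 78) (nat_lit 1824) (nat_lit 0) (XT.lf (nat_lit 76) (nat_lit 20495206318) (nat_lit 0) (nat_lit 31089119170) (nat_lit 1900) (nat_lit 1944998870) (nat_lit 492) (nat_lit 5) (nat_lit 491) (nat_lit 5) (nat_lit 516) (nat_lit 5) (nat_lit 494) (nat_lit 480) (nat_lit 226)) (XT.lf (nat_lit 0) (nat_lit 3668993851) (nat_lit 1900) (nat_lit 44703315760) (nat_lit 1976) (nat_lit 6011554213)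 (nat_lit 467) (nat_lit 5) (nat_lit 492) (nat_lit 5) (nat_lit 493) (nat_lit 5) (nat_lit 495) (nat_lit 480) (nat_lit 225)))) (XT.nd (nat_lit 156) (nat_lit 1976) (nat_lit 0) (XT.nd (nat_lit 78) (nat_lit 0) (nat_lit 76) (XT.lf (nat_lit 0) (nat_lit 9856964101) (nat_lit 1900) (nat_lit 1354321814) (nat_lit 1976) (nat_lit 44043856819) (nat_lit 467) (nat_lit 5) (nat_lit 492) (nat_lit 5) (nat_lit 493) (nat_lit 5) (nat_lit 496) (nat_lit 480) (nat_lit 224)) (XT.lf (nat_lit 0) (nat_lit 16691645272) (nat_lit 1900) (nat_lit 12455162058) (nat_lit 76) (nat_lit 26996531284) (nat_lit 468) (nat_lit 5) (nat_lit 493) (nat_lit 5) (nat_lit 469) (nat_lit 5) (nat_lit 497) (nat_lit 480) (nat_lit 223))) (XT.nd (nat_lit 78) (nat_lit 912) (nat_lit 0) (XT.lf (nat_lit 0) (nat_lit 24091988559) (nat_lit 1216) (nat_lit 23708650203) (nat_lit 76) (nat_lit 9250329211) (nat_lit 453) (nat_lit 5) (nat_lit 469) (nat_lit 5) (nat_lit 454) (nat_lit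 5) (nat_lit 498) (nat_lit 480) (nat_lit 222)) (XT.lf (nat_lit 0) (nat_lit 22802478081) (nat_lit 912) (nat_lit 9338489725) (nat_lit 988) (nat_lit 25836325931) (nat_lit 441) (nat_lit 5) (nat_lit 453) (nat_lit 5) (nat_lit 454) (nat_lit 5) (nat_lit 499) (nat_lit 480) (nat_lit 221))))) (XT.nd (nat_lit 312) (nat_lit 2432) (nat_lit 0) (XT.nd (nat_lit 156) (nat_lit 988) (nat_lit 0) (XT.nd (nat_lit 78) (nat_lit 836) (nat_lit 0) (XT.lf (nat_lit 0) (nat_lit 12064673427) (nat_lit 912) (nat_lit 28802109150) (nat_lit 988) (nat_lit 18055919411) (nat_lit 429) (nat_lit 5) (nat_lit 441) (nat_lit 5) (nat_lit 442) (nat_lit 5) (nat_lit 500) (nat_lit 480) (nat_lit 220)) (XT.lf (nat_lit 0) (nat_lit 1192206862) (nat_lit 836) (nat_lit 49040382554) (nat_lit 912) (nat_lit 9656318751) (nat_lit 418) (nat_lit 5) (nat_lit 429) (nat_lit 5) (nat_lit 430) (nat_lit 5) (nat_lit 501) (nat_lit 480) (nat_lit 219))) (XT.nd (nat_lit 78) (nat_lit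 988) (nat_lit 0) (XT.lf (nat_lit 0) (nat_lit 51129007385) (nat_lit 836) (nat_lit 9258022790) (nat_lit 912) (nat_lit 486917197) (nat_lit 418) (nat_lit 5) (nat_lit 429) (nat_lit 5) (nat_lit 430) (nat_lit 5) (nat_lit 502) (nat_lit 480) (nat_lit 218)) (XT.lf (nat_lit 0) (nat_lit 9314202342) (nat_lit 988) (nat_lit 20934311796) (nat_lit 76) (nat_lit 31629378157) (nat_lit 405) (nat_lit 5) (nat_lit 418) (nat_lit 5) (nat_lit 406) (nat_lit 5) (nat_lit 503) (nat_lit 480) (nat_lit 217)))) (XT.nd (nat_lit 156) (nat_lit 760) (nat_lit 0) (XT.nd (nat_lit 78) (nat_lit 836) (nat_lit 0) (XT.lf (nat_lit 0) (nat_lit 19800709758) (nat_lit 912) (nat_lit 32265124049) (nat_lit 76) (nat_lit 10838098029) (nat_lit 394) (nat_lit 5) (nat_lit 406) (nat_lit 5) (nat_lit 395) (nat_lit 5) (nat_lit 504) (nat_lit 480) (nat_lit 216)) (XT.lf (nat_lit 0) (nat_lit 20147612629) (nat_lit 836) (nat_lit 10928964156) (nat_lit 912) (nat_lit 32874680519)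 (nat_lit 383) (nat_lit 5) (nat_lit 394) (nat_lit 5) (nat_lit 395) (nat_lit 5) (nat_lit 505) (nat_lit 480) (nat_lit 215))) (XT.nd (nat_lit 78) (nat_lit 0) (nat_lit 0) (XT.lf (nat_lit 0) (nat_lit 9466148645) (nat_lit 760) (nat_lit 33709156486) (nat_lit 836) (nat_lit 21845005727) (nat_lit 373) (nat_lit 5) (nat_lit 383) (nat_lit 5) (nat_lit 384) (nat_lit 5) (nat_lit 506) (nat_lit 480) (nat_lit 214)) (XT.lf (nat_lit 0) (nat_lit 56062829213) (nat_lit 836) (nat_lit 1313124305) (nat_lit 76) (nat_lit 8736965855) (nat_lit 373) (nat_lit 5) (nat_lit 384) (nat_lit 5) (nat_lit 374) (nat_lit 5) (nat_lit 507) (nat_lit 480) (nat_lit 213)))))) (XT.nd (nat_lit 546) (nat_lit 0) (nat_lit 380) (XT.nd (nat_lit 234) (nat_lit 0) (nat_lit 152) (XT.nd (nat_lit 78) (nat_lit 0) (nat_lit 76) (XT.lf (nat_lit 0) (nat_lit 5402467171) (nat_lit 1900) (nat_lit 8427995975) (nat_lit 1900) (nat_lit 8427995975) (nat_lit 481) (nat_lit 3) (nat_lit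 506) (nat_lit 3) (nat_lit 506) (nat_lit 5) (nat_lit 481) (nat_lit 481) (nat_lit 238)) (XT.nd (nat_lit 78) (nat_lit 0) (nat_lit 0) (XT.lf (nat_lit 0) (nat_lit 11160124939) (nat_lit 1824) (nat_lit 28602077772) (nat_lit 1900) (nat_lit 5418605474) (nat_lit 482) (nat_lit 5) (nat_lit 506) (nat_lit 5) (nat_lit 507) (nat_lit 5) (nat_lit 482) (nat_lit 481) (nat_lit 237)) (XT.lf (nat_lit 76) (nat_lit 5267189134) (nat_lit 0) (nat_lit 6591003232) (nat_lit 1900) (nat_lit 33999778095) (nat_lit 483) (nat_lit 5) (nat_lit 482) (nat_lit 5) (nat_lit 507) (nat_lit 5) (nat_lit 483) (nat_lit 481) (nat_lit 236)))) (XT.nd (nat_lit 156) (nat_lit 0) (nat_lit 152) (XT.nd (nat_lit 78) (nat_lit 0) (nat_lit 76) (XT.lf (nat_lit 0) (nat_lit 12949458902) (nat_lit 1824) (nat_lit 6188919983) (nat_lit 1900) (nat_lit 27409623636) (nat_lit 483) (nat_lit 5) (nat_lit 507) (nat_lit 5) (nat_lit 508) (nat_lit 5) (nat_lit 484) (nat_lit 481) (nat_lit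 235)) (XT.lf (nat_lit 0) (nat_lit 14407027732) (nat_lit 1824) (nat_lit 17765326231) (nat_lit 1900) (nat_lit 15079710347) (nat_lit 484) (nat_lit 5) (nat_lit 508) (nat_lit 5) (nat_lit 509) (nat_lit 5) (nat_lit 485) (nat_lit 481) (nat_lit 234))) (XT.nd (nat_lit 78) (nat_lit 0) (nat_lit 0) (XT.lf (nat_lit 0) (nat_lit 16211219979) (nat_lit 1824) (nat_lit 29532471640) (nat_lit 1900) (nat_lit 2227498462) (nat_lit 485) (nat_lit 5) (nat_lit 509) (nat_lit 5) (nat_lit 510) (nat_lit 5) (nat_lit 486) (nat_lit 481) (nat_lit 233)) (XT.lf (nat_lit 76) (nat_lit 7139174741) (nat_lit 0) (nat_lit 11311321999) (nat_lit 1900) (nat_lit 30253773762) (nat_lit 486) (nat_lit 5) (nat_lit 485) (nat_lit 5) (nat_lit 510) (nat_lit 5) (nat_lit 487) (nat_lit 481) (nat_lit 232))))) (XT.nd (nat_lit 312) (nat_lit 0) (nat_lit 228) (XT.nd (nat_lit 156) (nat_lit 0) (nat_lit 76) (XT.nd (nat_lit 78) (nat_lit 0) (nat_lit 76) (XT.lf (nat_lit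 0) (nat_lit 21113544664) (nat_lit 1824) (nat_lit 4299380405) (nat_lit 1900) (nat_lit 24039286459) (nat_lit 486) (nat_lit 5) (nat_lit 510) (nat_lit 5) (nat_lit 511) (nat_lit 5) (nat_lit 488) (nat_lit 481) (nat_lit 231)) (XT.lf (nat_lit 0) (nat_lit 24221141974) (nat_lit 1824) (nat_lit 15824012860) (nat_lit 1900) (nat_lit 10170142842) (nat_lit 487) (nat_lit 5) (nat_lit 511) (nat_lit 5) (nat_lit 512) (nat_lit 5) (nat_lit 489) (nat_lit 481) (nat_lit 230))) (XT.nd (nat_lit 78) (nat_lit 0) (nat_lit 76) (XT.lf (nat_lit 76) (nat_lit 23436975009) (nat_lit 0) (nat_lit 4334850164) (nat_lit 1900) (nat_lit 23222454124) (nat_lit 488) (nat_lit 5) (nat_lit 487) (nat_lit 5) (nat_lit 512) (nat_lit 5) (nat_lit 490) (nat_lit 481) (nat_lit 229)) (XT.lf (nat_lit 76) (nat_lit 12246033325) (nat_lit 0) (nat_lit 19579566897) (nat_lit 1900) (nat_lit 19963098762) (nat_lit 489) (nat_lit 5) (nat_lit 488) (nat_lit 5) (nat_lit 513)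 (nat_lit 5) (nat_lit 491) (nat_lit 481) (nat_lit 228)))) (XT.nd (nat_lit 156) (nat_lit 0) (nat_lit 76) (XT.nd (nat_lit 78) (nat_lit 0) (nat_lit 76) (XT.lf (nat_lit 76) (nat_lit 886358336) (nat_lit 0) (nat_lit 35447226951) (nat_lit 1900) (nat_lit 16266714086) (nat_lit 490) (nat_lit 5) (nat_lit 489) (nat_lit 5) (nat_lit 514) (nat_lit 5) (nat_lit 492) (nat_lit 481) (nat_lit 227)) (XT.lf (nat_lit 0) (nat_lit 41383517769) (nat_lit 1824) (nat_lit 10502722982) (nat_lit 1900) (nat_lit 1541872908) (nat_lit 490) (nat_lit 5) (nat_lit 514) (nat_lit 5) (nat_lit 515) (nat_lit 5) (nat_lit 493) (nat_lit 481) (nat_lit 226))) (XT.nd (nat_lit 78) (nat_lit 0) (nat_lit 76) (XT.lf (nat_lit 76) (nat_lit 32128042228) (nat_lit 0) (nat_lit 14901133396) (nat_lit 1900) (nat_lit 7242702245) (nat_lit 491) (nat_lit 5) (nat_lit 490) (nat_lit 5) (nat_lit 515) (nat_lit 5) (nat_lit 494) (nat_lit 481) (nat_lit 225)) (XT.lf (nat_lit 76)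 (nat_lit 21167401972) (nat_lit 0) (nat_lit 32035078711) (nat_lit 1900) (nat_lit 1931308812) (nat_lit 492) (nat_lit 5) (nat_lit 491) (nat_lit 5) (nat_lit 516) (nat_lit 5) (nat_lit 495) (nat_lit 481) (nat_lit 224))))))))
noncomputable def xc124 : XT := (XT.nd (nat_lit 62712) (nat_lit 0) (nat_lit 1596) (XT.nd (nat_lit 61542) (nat_lit 0) (nat_lit 7144) (XT.nd (nat_lit 546) (nat_lit 3420) (nat_lit 0) (XT.nd (nat_lit 234) (nat_lit 3724) (nat_lit 0) (XT.nd (nat_lit 78) (nat_lit 0) (nat_lit 0) (XT.lf (nat_lit 0) (nat_lit 3848382157) (nat_lit 1900) (nat_lit 45985606337) (nat_lit 1976) (nat_lit 6180002891) (nat_lit 467) (nat_lit 5) (nat_lit 492) (nat_lit 5) (nat_lit 493) (nat_lit 5) (nat_lit 496) (nat_lit 481) (nat_lit 223)) (XT.nd (nat_lit 78) (nat_lit 0) (nat_lit 76) (XT.lf (nat_lit 0) (nat_lit 10219972529) (nat_lit 1900) (nat_lit 1337855452) (nat_lit 1976) (nat_lit 45353621118) (nat_lit 467) (nat_lit 5) (nat_lit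 492) (nat_lit 5) (nat_lit 493) (nat_lit 5) (nat_lit 497) (nat_lit 481) (nat_lit 222)) (XT.lf (nat_lit 0) (nat_lit 17258036743) (nat_lit 1900) (nat_lit 12771269365) (nat_lit 76) (nat_lit 27797017951) (nat_lit 468) (nat_lit 5) (nat_lit 493) (nat_lit 5) (nat_lit 469) (nat_lit 5) (nat_lit 498) (nat_lit 481) (nat_lit 221)))) (XT.nd (nat_lit 156) (nat_lit 1748) (nat_lit 0) (XT.nd (nat_lit 78) (nat_lit 912) (nat_lit 0) (XT.lf (nat_lit 0) (nat_lit 24878797407) (nat_lit 1216) (nat_lit 24361963433) (nat_lit 76) (nat_lit 9520453372) (nat_lit 453) (nat_lit 5) (nat_lit 469) (nat_lit 5) (nat_lit 454) (nat_lit 5) (nat_lit 499) (nat_lit 481) (nat_lit 220)) (XT.lf (nat_lit 0) (nat_lit 23543558590) (nat_lit 912) (nat_lit 9624192053) (nat_lit 988) (nat_lit 26547609066) (nat_lit 441) (nat_lit 5) (nat_lit 453) (nat_lit 5) (nat_lit 454) (nat_lit 5) (nat_lit 500) (nat_lit 481) (nat_lit 219))) (XT.nd (nat_lit 78) (nat_lit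 836) (nat_lit 0) (XT.lf (nat_lit 0) (nat_lit 12483962887) (nat_lit 912) (nat_lit 29669892394) (nat_lit 988) (nat_lit 18535304670) (nat_lit 429) (nat_lit 5) (nat_lit 441) (nat_lit 5) (nat_lit 442) (nat_lit 5) (nat_lit 501) (nat_lit 481) (nat_lit 218)) (XT.lf (nat_lit 0) (nat_lit 1285618915) (nat_lit 836) (nat_lit 50513589521) (nat_lit 912) (nat_lit 9885172487) (nat_lit 418) (nat_lit 5) (nat_lit 429) (nat_lit 5) (nat_lit 430) (nat_lit 5) (nat_lit 502) (nat_lit 481) (nat_lit 217))))) (XT.nd (nat_lit 234) (nat_lit 1596) (nat_lit 0) (XT.nd (nat_lit 78) (nat_lit 1824) (nat_lit 0) (XT.lf (nat_lit 0) (nat_lit 52718844449) (nat_lit 836) (nat_lit 9537700842) (nat_lit 912) (nat_lit 442460804) (nat_lit 418) (nat_lit 5) (nat_lit 429) (nat_lit 5) (nat_lit 430) (nat_lit 5) (nat_lit 503) (nat_lit 481) (nat_lit 216)) (XT.nd (nat_lit 78) (nat_lit 836) (nat_lit 0) (XT.lf (nat_lit 0) (nat_lit 9650575032) (nat_lit 988)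 (nat_lit 21505370719) (nat_lit 76) (nat_lit 32577142845) (nat_lit 405) (nat_lit 5) (nat_lit 418) (nat_lit 5) (nat_lit 406) (nat_lit 5) (nat_lit 504) (nat_lit 481) (nat_lit 215)) (XT.lf (nat_lit 0) (nat_lit 20450385480) (nat_lit 912) (nat_lit 33175919648) (nat_lit 76) (nat_lit 11163630083) (nat_lit 394) (nat_lit 5) (nat_lit 406) (nat_lit 5) (nat_lit 395) (nat_lit 5) (nat_lit 505) (nat_lit 481) (nat_lit 214)))) (XT.nd (nat_lit 60606) (nat_lit 0) (nat_lit 8208) (XT.nd (nat_lit 78) (nat_lit 760) (nat_lit 0) (XT.lf (nat_lit 0) (nat_lit 20808271807) (nat_lit 836) (nat_lit 11255000795) (nat_lit 912) (nat_lit 33805433002) (nat_lit 383) (nat_lit 5) (nat_lit 394) (nat_lit 5) (nat_lit 395) (nat_lit 5) (nat_lit 506) (nat_lit 481) (nat_lit 213)) (XT.lf (nat_lit 0) (nat_lit 9806511666) (nat_lit 760) (nat_lit 34717244308) (nat_lit 836) (nat_lit 22446098972) (nat_lit 373) (nat_lit 5) (nat_lit 383) (nat_lit 5) (nat_lit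 384) (nat_lit 5) (nat_lit 507) (nat_lit 481) (nat_lit 212))) (XT.nd (nat_lit 78) (nat_lit 0) (nat_lit 76) (XT.lf (nat_lit 0) (nat_lit 5613656143) (nat_lit 1900) (nat_lit 8655786483) (nat_lit 1900) (nat_lit 8655786483) (nat_lit 481) (nat_lit 3) (nat_lit 506) (nat_lit 3) (nat_lit 506) (nat_lit 5) (nat_lit 482) (nat_lit 482) (nat_lit 236)) (XT.lf (nat_lit 0) (nat_lit 11590316255) (nat_lit 1824) (nat_lit 29408636214) (nat_lit 1900) (nat_lit 5535369325) (nat_lit 482) (nat_lit 5) (nat_lit 506) (nat_lit 5) (nat_lit 507) (nat_lit 5) (nat_lit 483) (nat_lit 482) (nat_lit 235)))))) (XT.nd (nat_lit 546) (nat_lit 1140) (nat_lit 0) (XT.nd (nat_lit 234) (nat_lit 0) (nat_lit 228) (XT.nd (nat_lit 78) (nat_lit 0) (nat_lit 76) (XT.lf (nat_lit 76) (nat_lit 5475873110) (nat_lit 0) (nat_lit 6831003288) (nat_lit 1900) (nat_lit 34924971609) (nat_lit 483) (nat_lit 5) (nat_lit 482) (nat_lit 5) (nat_lit 507) (nat_lit 5) (nat_lit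 484) (nat_lit 482) (nat_lit 234)) (XT.nd (nat_lit 78) (nat_lit 0) (nat_lit 76) (XT.lf (nat_lit 0) (nat_lit 13427907540) (nat_lit 1824) (nat_lit 6323321258) (nat_lit 1900) (nat_lit 28191411780) (nat_lit 483) (nat_lit 5) (nat_lit 507) (nat_lit 5) (nat_lit 508) (nat_lit 5) (nat_lit 485) (nat_lit 482) (nat_lit 233)) (XT.lf (nat_lit 0) (nat_lit 14926668783) (nat_lit 1824) (nat_lit 18245853578) (nat_lit 1900) (nat_lit 15495352633) (nat_lit 484) (nat_lit 5) (nat_lit 508) (nat_lit 5) (nat_lit 509) (nat_lit 5) (nat_lit 486) (nat_lit 482) (nat_lit 232)))) (XT.nd (nat_lit 156) (nat_lit 0) (nat_lit 76) (XT.nd (nat_lit 78) (nat_lit 0) (nat_lit 0) (XT.lf (nat_lit 0) (nat_lit 16782556797) (nat_lit 1824) (nat_lit 30364938674) (nat_lit 1900) (nat_lit 2261127744) (nat_lit 485) (nat_lit 5) (nat_lit 509) (nat_lit 5) (nat_lit 510) (nat_lit 5) (nat_lit 487) (nat_lit 482) (nat_lit 231)) (XT.lf (nat_lit 76) (nat_lit 7405989009)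 (nat_lit 0) (nat_lit 11680888885) (nat_lit 1900) (nat_lit 31076860908) (nat_lit 486) (nat_lit 5) (nat_lit 485) (nat_lit 5) (nat_lit 510) (nat_lit 5) (nat_lit 488) (nat_lit 482) (nat_lit 230))) (XT.nd (nat_lit 78) (nat_lit 0) (nat_lit 76) (XT.lf (nat_lit 0) (nat_lit 21827213137) (nat_lit 1824) (nat_lit 4375453958) (nat_lit 1900) (nat_lit 24731503120) (nat_lit 486) (nat_lit 5) (nat_lit 510) (nat_lit 5) (nat_lit 511) (nat_lit 5) (nat_lit 489) (nat_lit 482) (nat_lit 229)) (XT.lf (nat_lit 0) (nat_lit 25025868382) (nat_lit 1824) (nat_lit 16244945969) (nat_lit 1900) (nat_lit 10449378066) (nat_lit 487) (nat_lit 5) (nat_lit 511) (nat_lit 5) (nat_lit 512) (nat_lit 5) (nat_lit 490) (nat_lit 482) (nat_lit 228))))) (XT.nd (nat_lit 312) (nat_lit 1520) (nat_lit 0) (XT.nd (nat_lit 156) (nat_lit 0) (nat_lit 152) (XT.nd (nat_lit 78) (nat_lit 0) (nat_lit 76) (XT.lf (nat_lit 76) (nat_lit 24192998902) (nat_lit 0) (nat_lit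 4488142204) (nat_lit 1900) (nat_lit 23841441068) (nat_lit 488) (nat_lit 5) (nat_lit 487) (nat_lit 5) (nat_lit 512) (nat_lit 5) (nat_lit 491) (nat_lit 482) (nat_lit 227)) (XT.lf (nat_lit 76) (nat_lit 12667119726) (nat_lit 0) (nat_lit 20187393550) (nat_lit 1900) (nat_lit 20486361566) (nat_lit 489) (nat_lit 5) (nat_lit 488) (nat_lit 5) (nat_lit 513) (nat_lit 5) (nat_lit 492) (nat_lit 482) (nat_lit 226))) (XT.nd (nat_lit 78) (nat_lit 0) (nat_lit 76) (XT.lf (nat_lit 76) (nat_lit 967374754) (nat_lit 0) (nat_lit 36528428098) (nat_lit 1900) (nat_lit 16681059154) (nat_lit 490) (nat_lit 5) (nat_lit 489) (nat_lit 5) (nat_lit 514) (nat_lit 5) (nat_lit 493) (nat_lit 482) (nat_lit 225)) (XT.lf (nat_lit 0) (nat_lit 42695018000) (nat_lit 1824) (nat_lit 10763447892) (nat_lit 1900) (nat_lit 1571089198) (nat_lit 490) (nat_lit 5) (nat_lit 514) (nat_lit 5) (nat_lit 515) (nat_lit 5) (nat_lit 494) (nat_lit 482) (nat_lit 224))))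 (XT.nd (nat_lit 156) (nat_lit 1748) (nat_lit 0) (XT.nd (nat_lit 78) (nat_lit 0) (nat_lit 76) (XT.lf (nat_lit 76) (nat_lit 33145358401) (nat_lit 0) (nat_lit 15362995704) (nat_lit 1900) (nat_lit 7390312011) (nat_lit 491) (nat_lit 5) (nat_lit 490) (nat_lit 5) (nat_lit 515) (nat_lit 5) (nat_lit 495) (nat_lit 482) (nat_lit 223)) (XT.lf (nat_lit 76) (nat_lit 21856471976) (nat_lit 0) (nat_lit 33008654369) (nat_lit 1900) (nat_lit 1921343444) (nat_lit 492) (nat_lit 5) (nat_lit 491) (nat_lit 5) (nat_lit 516) (nat_lit 5) (nat_lit 496) (nat_lit 482) (nat_lit 222))) (XT.nd (nat_lit 78) (nat_lit 0) (nat_lit 0) (XT.lf (nat_lit 0) (nat_lit 4029172947) (nat_lit 1900) (nat_lit 47309741502) (nat_lit 1976) (nat_lit 6354188021) (nat_lit 467) (nat_lit 5) (nat_lit 492) (nat_lit 5) (nat_lit 493) (nat_lit 5) (nat_lit 497) (nat_lit 482) (nat_lit 221)) (XT.lf (nat_lit 0) (nat_lit 10590007943) (nat_lit 1900) (nat_lit 1324172645)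 (nat_lit 1976) (nat_lit 46703341443) (nat_lit 467) (nat_lit 5) (nat_lit 492) (nat_lit 5) (nat_lit 493) (nat_lit 5) (nat_lit 498) (nat_lit 482) (nat_lit 220))))))) (XT.nd (nat_lit 61776) (nat_lit 0) (nat_lit 1824) (XT.nd (nat_lit 546) (nat_lit 836) (nat_lit 0) (XT.nd (nat_lit 234) (nat_lit 2736) (nat_lit 0) (XT.nd (nat_lit 78) (nat_lit 2052) (nat_lit 0) (XT.lf (nat_lit 0) (nat_lit 17837651833) (nat_lit 1900) (nat_lit 13100163356) (nat_lit 76) (nat_lit 28622059349) (nat_lit 468) (nat_lit 5) (nat_lit 493) (nat_lit 5) (nat_lit 469) (nat_lit 5) (nat_lit 499) (nat_lit 482) (nat_lit 219)) (XT.nd (nat_lit 78) (nat_lit 912) (nat_lit 0) (XT.lf (nat_lit 0) (nat_lit 25685533835) (nat_lit 1216) (nat_lit 25038202413) (nat_lit 76) (nat_lit 9799105228) (nat_lit 453) (nat_lit 5) (nat_lit 469) (nat_lit 5) (nat_lit 454) (nat_lit 5) (nat_lit 500) (nat_lit 482) (nat_lit 218)) (XT.lf (nat_lit 0) (nat_lit 24303599128) (nat_lit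 912) (nat_lit 9918146994) (nat_lit 988) (nat_lit 27283893458) (nat_lit 441) (nat_lit 5) (nat_lit 453) (nat_lit 5) (nat_lit 454) (nat_lit 5) (nat_lit 501) (nat_lit 482) (nat_lit 217)))) (XT.nd (nat_lit 156) (nat_lit 988) (nat_lit 0) (XT.nd (nat_lit 78) (nat_lit 836) (nat_lit 0) (XT.lf (nat_lit 0) (nat_lit 12912538949) (nat_lit 912) (nat_lit 30563495594) (nat_lit 988) (nat_lit 19032647320) (nat_lit 429) (nat_lit 5) (nat_lit 441) (nat_lit 5) (nat_lit 442) (nat_lit 5) (nat_lit 502) (nat_lit 482) (nat_lit 216)) (XT.lf (nat_lit 0) (nat_lit 1378524223) (nat_lit 836) (nat_lit 52030878148) (nat_lit 912) (nat_lit 10124384060) (nat_lit 418) (nat_lit 5) (nat_lit 429) (nat_lit 5) (nat_lit 430) (nat_lit 5) (nat_lit 503) (nat_lit 482) (nat_lit 215))) (XT.nd (nat_lit 78) (nat_lit 988) (nat_lit 0) (XT.lf (nat_lit 0) (nat_lit 54353163899) (nat_lit 836) (nat_lit 9825658024) (nat_lit 912) (nat_lit 400061229) (nat_lit 418)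 (nat_lit 5) (nat_lit 429) (nat_lit 5) (nat_lit 430) (nat_lit 5) (nat_lit 504) (nat_lit 482) (nat_lit 214)) (XT.lf (nat_lit 0) (nat_lit 9993769934) (nat_lit 988) (nat_lit 22096831745) (nat_lit 76) (nat_lit 33553404574) (nat_lit 405) (nat_lit 5) (nat_lit 418) (nat_lit 5) (nat_lit 406) (nat_lit 5) (nat_lit 505) (nat_lit 482) (nat_lit 213))))) (XT.nd (nat_lit 60918) (nat_lit 0) (nat_lit 6764) (XT.nd (nat_lit 60762) (nat_lit 0) (nat_lit 6688) (XT.nd (nat_lit 60684) (nat_lit 0) (nat_lit 6612) (XT.lf (nat_lit 0) (nat_lit 21116356681) (nat_lit 912) (nat_lit 34117320225) (nat_lit 76) (nat_lit 11498905762) (nat_lit 394) (nat_lit 5) (nat_lit 406) (nat_lit 5) (nat_lit 395) (nat_lit 5) (nat_lit 506) (nat_lit 482) (nat_lit 212)) (XT.lf (nat_lit 0) (nat_lit 5828361385) (nat_lit 1900) (nat_lit 8891848643) (nat_lit 1900) (nat_lit 8891848643) (nat_lit 481) (nat_lit 3) (nat_lit 506) (nat_lit 3) (nat_lit 506) (nat_lit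 5) (nat_lit 483) (nat_lit 483) (nat_lit 234))) (XT.nd (nat_lit 78) (nat_lit 0) (nat_lit 0) (XT.lf (nat_lit 0) (nat_lit 12027937673) (nat_lit 1824) (nat_lit 30242347943) (nat_lit 1900) (nat_lit 5658264872) (nat_lit 482) (nat_lit 5) (nat_lit 506) (nat_lit 5) (nat_lit 507) (nat_lit 5) (nat_lit 484) (nat_lit 483) (nat_lit 233)) (XT.lf (nat_lit 76) (nat_lit 5687909038) (nat_lit 0) (nat_lit 7075776877) (nat_lit 1900) (nat_lit 35883362827) (nat_lit 483) (nat_lit 5) (nat_lit 482) (nat_lit 5) (nat_lit 507) (nat_lit 5) (nat_lit 485) (nat_lit 483) (nat_lit 232)))) (XT.nd (nat_lit 156) (nat_lit 0) (nat_lit 152) (XT.nd (nat_lit 78) (nat_lit 0) (nat_lit 76) (XT.lf (nat_lit 0) (nat_lit 13915545285) (nat_lit 1824) (nat_lit 6464697468) (nat_lit 1900) (nat_lit 28998978468) (nat_lit 483) (nat_lit 5) (nat_lit 507) (nat_lit 5) (nat_lit 508) (nat_lit 5) (nat_lit 486) (nat_lit 483) (nat_lit 231)) (XT.lf (nat_lit 0) (nat_lit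 15456880214) (nat_lit 1824) (nat_lit 18743806582) (nat_lit 1900) (nat_lit 15925573731) (nat_lit 484) (nat_lit 5) (nat_lit 508) (nat_lit 5) (nat_lit 509) (nat_lit 5) (nat_lit 487) (nat_lit 483) (nat_lit 230))) (XT.nd (nat_lit 78) (nat_lit 0) (nat_lit 0) (XT.lf (nat_lit 0) (nat_lit 17366154359) (nat_lit 1824) (nat_lit 31225451247) (nat_lit 1900) (nat_lit 2297671471) (nat_lit 485) (nat_lit 5) (nat_lit 509) (nat_lit 5) (nat_lit 510) (nat_lit 5) (nat_lit 488) (nat_lit 483) (nat_lit 229)) (XT.lf (nat_lit 76) (nat_lit 7677786009) (nat_lit 0) (nat_lit 12059807611) (nat_lit 1900) (nat_lit 31929492811) (nat_lit 486) (nat_lit 5) (nat_lit 485) (nat_lit 5) (nat_lit 510) (nat_lit 5) (nat_lit 489) (nat_lit 483) (nat_lit 228)))))) (XT.nd (nat_lit 546) (nat_lit 5168) (nat_lit 0) (XT.nd (nat_lit 234) (nat_lit 0) (nat_lit 152) (XT.nd (nat_lit 78) (nat_lit 0) (nat_lit 76) (XT.lf (nat_lit 0) (nat_lit 22557684289) (nat_lit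 1824) (nat_lit 4456846844) (nat_lit 1900) (nat_lit 25446148815) (nat_lit 486) (nat_lit 5) (nat_lit 510) (nat_lit 5) (nat_lit 511) (nat_lit 5) (nat_lit 490) (nat_lit 483) (nat_lit 227)) (XT.nd (nat_lit 78) (nat_lit 0) (nat_lit 0) (XT.lf (nat_lit 0) (nat_lit 25850253774) (nat_lit 1824) (nat_lit 16681594680) (nat_lit 1900) (nat_lit 10738475336) (nat_lit 487) (nat_lit 5) (nat_lit 511) (nat_lit 5) (nat_lit 512) (nat_lit 5) (nat_lit 491) (nat_lit 483) (nat_lit 226)) (XT.lf (nat_lit 76) (nat_lit 24968665995) (nat_lit 0) (nat_lit 4644698558) (nat_lit 1900) (nat_lit 24483457154) (nat_lit 488) (nat_lit 5) (nat_lit 487) (nat_lit 5) (nat_lit 512) (nat_lit 5) (nat_lit 492) (nat_lit 483) (nat_lit 225)))) (XT.nd (nat_lit 156) (nat_lit 0) (nat_lit 152) (XT.nd (nat_lit 78) (nat_lit 0) (nat_lit 76) (XT.lf (nat_lit 76) (nat_lit 13097755809) (nat_lit 0) (nat_lit 20812281682) (nat_lit 1900) (nat_lit 21029663735) (nat_lit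 489) (nat_lit 5) (nat_lit 488) (nat_lit 5) (nat_lit 513) (nat_lit 5) (nat_lit 493) (nat_lit 483) (nat_lit 224)) (XT.lf (nat_lit 76) (nat_lit 1047697409) (nat_lit 0) (nat_lit 37641044386) (nat_lit 1900) (nat_lit 17112062751) (nat_lit 490) (nat_lit 5) (nat_lit 489) (nat_lit 5) (nat_lit 514) (nat_lit 5) (nat_lit 494) (nat_lit 483) (nat_lit 223))) (XT.nd (nat_lit 78) (nat_lit 0) (nat_lit 0) (XT.lf (nat_lit 0) (nat_lit 44041845256) (nat_lit 1824) (nat_lit 11035114850) (nat_lit 1900) (nat_lit 1602160137) (nat_lit 490) (nat_lit 5) (nat_lit 514) (nat_lit 5) (nat_lit 515) (nat_lit 5) (nat_lit 495) (nat_lit 483) (nat_lit 222)) (XT.lf (nat_lit 76) (nat_lit 34190124380) (nat_lit 0) (nat_lit 15837862676) (nat_lit 1900) (nat_lit 7546349489) (nat_lit 491) (nat_lit 5) (nat_lit 490) (nat_lit 5) (nat_lit 515) (nat_lit 5) (nat_lit 496) (nat_lit 483) (nat_lit 221))))) (XT.nd (nat_lit 312) (nat_lit 3724) (nat_lit 0) (XT.nd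 (nat_lit 156) (nat_lit 0) (nat_lit 0) (XT.nd (nat_lit 78) (nat_lit 1824) (nat_lit 0) (XT.lf (nat_lit 76) (nat_lit 22563111508) (nat_lit 0) (nat_lit 34010718409) (nat_lit 1900) (nat_lit 1914977119) (nat_lit 492) (nat_lit 5) (nat_lit 491) (nat_lit 5) (nat_lit 516) (nat_lit 5) (nat_lit 497) (nat_lit 483) (nat_lit 220)) (XT.lf (nat_lit 0) (nat_lit 4211636716) (nat_lit 1900) (nat_lit 48676782804) (nat_lit 1976) (nat_lit 6534242489) (nat_lit 467) (nat_lit 5) (nat_lit 492) (nat_lit 5) (nat_lit 493) (nat_lit 5) (nat_lit 498) (nat_lit 483) (nat_lit 219))) (XT.nd (nat_lit 78) (nat_lit 0) (nat_lit 76) (XT.lf (nat_lit 0) (nat_lit 10967502920) (nat_lit 1900) (nat_lit 1313168754) (nat_lit 1976) (nat_lit 48094178412) (nat_lit 467) (nat_lit 5) (nat_lit 492) (nat_lit 5) (nat_lit 493) (nat_lit 5) (nat_lit 499) (nat_lit 483) (nat_lit 218)) (XT.lf (nat_lit 0) (nat_lit 18431103555) (nat_lit 1900) (nat_lit 13442037999) (nat_lit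 76) (nat_lit 29472361114) (nat_lit 468) (nat_lit 5) (nat_lit 493) (nat_lit 5) (nat_lit 469) (nat_lit 5) (nat_lit 500) (nat_lit 483) (nat_lit 217)))) (XT.nd (nat_lit 156) (nat_lit 1748) (nat_lit 0) (XT.nd (nat_lit 78) (nat_lit 912) (nat_lit 0) (XT.lf (nat_lit 0) (nat_lit 26513006728) (nat_lit 1216) (nat_lit 25737863970) (nat_lit 76) (nat_lit 10086516272) (nat_lit 453) (nat_lit 5) (nat_lit 469) (nat_lit 5) (nat_lit 454) (nat_lit 5) (nat_lit 501) (nat_lit 483) (nat_lit 216)) (XT.lf (nat_lit 0) (nat_lit 25083356342) (nat_lit 912) (nat_lit 10220620407) (nat_lit 988) (nat_lit 28045718887) (nat_lit 441) (nat_lit 5) (nat_lit 453) (nat_lit 5) (nat_lit 454) (nat_lit 5) (nat_lit 502) (nat_lit 483) (nat_lit 215))) (XT.nd (nat_lit 78) (nat_lit 836) (nat_lit 0) (XT.lf (nat_lit 0) (nat_lit 13350869190) (nat_lit 912) (nat_lit 31483705607) (nat_lit 988) (nat_lit 19548280817) (nat_lit 429) (nat_lit 5) (nat_lit 441) (nat_lit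 5) (nat_lit 442) (nat_lit 5) (nat_lit 503) (nat_lit 483) (nat_lit 214)) (XT.lf (nat_lit 0) (nat_lit 1471097539) (nat_lit 836) (nat_lit 53593577460) (nat_lit 912) (nat_lit 10374063738) (nat_lit 418) (nat_lit 5) (nat_lit 429) (nat_lit 5) (nat_lit 430) (nat_lit 5) (nat_lit 504) (nat_lit 483) (nat_lit 213))))))))
noncomputable def xc125 : XT := (XT.nd (nat_lit 123786) (nat_lit 0) (nat_lit 1824) (XT.nd (nat_lit 61776) (nat_lit 0) (nat_lit 988) (XT.nd (nat_lit 61230) (nat_lit 0) (nat_lit 6080) (XT.nd (nat_lit 60918) (nat_lit 0) (nat_lit 5852) (XT.nd (nat_lit 78) (nat_lit 988) (nat_lit 0) (XT.lf (nat_lit 0) (nat_lit 56033484631) (nat_lit 836) (nat_lit 10122149092) (nat_lit 912) (nat_lit 359585547) (nat_lit 418) (nat_lit 5) (nat_lit 429) (nat_lit 5) (nat_lit 430) (nat_lit 5) (nat_lit 505) (nat_lit 483) (nat_lit 212)) (XT.nd (nat_lit 60762) (nat_lit 0) (nat_lit 5776) (XT.lf (nat_lit 0) (nat_lit 10344179367)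 (nat_lit 988) (nat_lit 22709119207) (nat_lit 76) (nat_lit 34559014576) (nat_lit 405) (nat_lit 5) (nat_lit 418) (nat_lit 5) (nat_lit 406) (nat_lit 5) (nat_lit 506) (nat_lit 483) (nat_lit 211)) (XT.lf (nat_lit 0) (nat_lit 6046850230) (nat_lit 1900) (nat_lit 9136348060) (nat_lit 1900) (nat_lit 9136348060) (nat_lit 481) (nat_lit 3) (nat_lit 506) (nat_lit 3) (nat_lit 506) (nat_lit 5) (nat_lit 484) (nat_lit 484) (nat_lit 232)))) (XT.nd (nat_lit 156) (nat_lit 0) (nat_lit 76) (XT.nd (nat_lit 78) (nat_lit 0) (nat_lit 0) (XT.lf (nat_lit 0) (nat_lit 12473526422) (nat_lit 1824) (nat_lit 31103857841) (nat_lit 1900) (nat_lit 5787325164) (nat_lit 482) (nat_lit 5) (nat_lit 506) (nat_lit 5) (nat_lit 507) (nat_lit 5) (nat_lit 485) (nat_lit 484) (nat_lit 231)) (XT.lf (nat_lit 76) (nat_lit 5903564439) (nat_lit 0) (nat_lit 7325606494) (nat_lit 1900) (nat_lit 36875635292) (nat_lit 483) (nat_lit 5) (nat_lit 482) (nat_lit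 5) (nat_lit 507) (nat_lit 5) (nat_lit 486) (nat_lit 484) (nat_lit 230))) (XT.nd (nat_lit 78) (nat_lit 0) (nat_lit 76) (XT.lf (nat_lit 0) (nat_lit 14412944266) (nat_lit 1824) (nat_lit 6613088927) (nat_lit 1900) (nat_lit 29832963595) (nat_lit 483) (nat_lit 5) (nat_lit 507) (nat_lit 5) (nat_lit 508) (nat_lit 5) (nat_lit 487) (nat_lit 484) (nat_lit 229)) (XT.lf (nat_lit 0) (nat_lit 15998267238) (nat_lit 1824) (nat_lit 19259535236) (nat_lit 1900) (nat_lit 16370689910) (nat_lit 484) (nat_lit 5) (nat_lit 508) (nat_lit 5) (nat_lit 509) (nat_lit 5) (nat_lit 488) (nat_lit 484) (nat_lit 228))))) (XT.nd (nat_lit 234) (nat_lit 0) (nat_lit 152) (XT.nd (nat_lit 78) (nat_lit 0) (nat_lit 0) (XT.lf (nat_lit 0) (nat_lit 17962660584) (nat_lit 1824) (nat_lit 32114674406) (nat_lit 1900) (nat_lit 2337107690) (nat_lit 485) (nat_lit 5) (nat_lit 509) (nat_lit 5) (nat_lit 510) (nat_lit 5) (nat_lit 489) (nat_lit 484) (nat_lit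 227)) (XT.nd (nat_lit 78) (nat_lit 0) (nat_lit 76) (XT.lf (nat_lit 76) (nat_lit 7954888682) (nat_lit 0) (nat_lit 12448458339) (nat_lit 1900) (nat_lit 32812277281) (nat_lit 486) (nat_lit 5) (nat_lit 485) (nat_lit 5) (nat_lit 510) (nat_lit 5) (nat_lit 490) (nat_lit 484) (nat_lit 226)) (XT.lf (nat_lit 0) (nat_lit 23305726683) (nat_lit 1824) (nat_lit 4543544302) (nat_lit 1900) (nat_lit 26183800977) (nat_lit 486) (nat_lit 5) (nat_lit 510) (nat_lit 5) (nat_lit 511) (nat_lit 5) (nat_lit 491) (nat_lit 484) (nat_lit 225)))) (XT.nd (nat_lit 156) (nat_lit 0) (nat_lit 76) (XT.nd (nat_lit 78) (nat_lit 0) (nat_lit 0) (XT.lf (nat_lit 0) (nat_lit 26695145250) (nat_lit 1824) (nat_lit 17134253222) (nat_lit 1900) (nat_lit 11037645270) (nat_lit 487) (nat_lit 5) (nat_lit 511) (nat_lit 5) (nat_lit 512) (nat_lit 5) (nat_lit 492) (nat_lit 484) (nat_lit 224)) (XT.lf (nat_lit 76) (nat_lit 25764739949) (nat_lit 0) (nat_lit 4804693761)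 (nat_lit 1900) (nat_lit 25148937260) (nat_lit 488) (nat_lit 5) (nat_lit 487) (nat_lit 5) (nat_lit 512) (nat_lit 5) (nat_lit 493) (nat_lit 484) (nat_lit 223))) (XT.nd (nat_lit 78) (nat_lit 0) (nat_lit 76) (XT.lf (nat_lit 76) (nat_lit 13538405036) (nat_lit 0) (nat_lit 21454810492) (nat_lit 1900) (nat_lit 21593357230) (nat_lit 489) (nat_lit 5) (nat_lit 488) (nat_lit 5) (nat_lit 513) (nat_lit 5) (nat_lit 494) (nat_lit 484) (nat_lit 222)) (XT.lf (nat_lit 76) (nat_lit 1127484832) (nat_lit 0) (nat_lit 38786076872) (nat_lit 1900) (nat_lit 17559981917) (nat_lit 490) (nat_lit 5) (nat_lit 489) (nat_lit 5) (nat_lit 514) (nat_lit 5) (nat_lit 495) (nat_lit 484) (nat_lit 221)))))) (XT.nd (nat_lit 546) (nat_lit 2660) (nat_lit 0) (XT.nd (nat_lit 234) (nat_lit 2812) (nat_lit 0) (XT.nd (nat_lit 78) (nat_lit 0) (nat_lit 0) (XT.lf (nat_lit 0) (nat_lit 45425289997) (nat_lit 1824) (nat_lit 11317873001) (nat_lit 1900) (nat_lit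 1635085213) (nat_lit 490) (nat_lit 5) (nat_lit 514) (nat_lit 5) (nat_lit 515) (nat_lit 5) (nat_lit 496) (nat_lit 484) (nat_lit 220)) (XT.nd (nat_lit 78) (nat_lit 0) (nat_lit 76) (XT.lf (nat_lit 76) (nat_lit 35263339873) (nat_lit 0) (nat_lit 16326173314) (nat_lit 1900) (nat_lit 7710837926) (nat_lit 491) (nat_lit 5) (nat_lit 490) (nat_lit 5) (nat_lit 515) (nat_lit 5) (nat_lit 497) (nat_lit 484) (nat_lit 219)) (XT.lf (nat_lit 76) (nat_lit 23288025752) (nat_lit 0) (nat_lit 35042166749) (nat_lit 1900) (nat_lit 1912094046) (nat_lit 492) (nat_lit 5) (nat_lit 491) (nat_lit 5) (nat_lit 516) (nat_lit 5) (nat_lit 498) (nat_lit 484) (nat_lit 218)))) (XT.nd (nat_lit 156) (nat_lit 1064) (nat_lit 0) (XT.nd (nat_lit 78) (nat_lit 0) (nat_lit 0) (XT.lf (nat_lit 0) (nat_lit 4396038962) (nat_lit 1900) (nat_lit 50087834764) (nat_lit 1976) (nat_lit 6720305419) (nat_lit 467) (nat_lit 5) (nat_lit 492) (nat_lit 5) (nat_lit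 493) (nat_lit 5) (nat_lit 499) (nat_lit 484) (nat_lit 217)) (XT.lf (nat_lit 0) (nat_lit 11352890283) (nat_lit 1900) (nat_lit 1304746802) (nat_lit 1976) (nat_lit 49527329643) (nat_lit 467) (nat_lit 5) (nat_lit 492) (nat_lit 5) (nat_lit 493) (nat_lit 5) (nat_lit 500) (nat_lit 484) (nat_lit 216))) (XT.nd (nat_lit 78) (nat_lit 1140) (nat_lit 0) (XT.lf (nat_lit 0) (nat_lit 19039010898) (nat_lit 1900) (nat_lit 13797103968) (nat_lit 76) (nat_lit 30348651831) (nat_lit 468) (nat_lit 5) (nat_lit 493) (nat_lit 5) (nat_lit 469) (nat_lit 5) (nat_lit 501) (nat_lit 484) (nat_lit 215)) (XT.lf (nat_lit 0) (nat_lit 27362037119) (nat_lit 1216) (nat_lit 26461470795) (nat_lit 76) (nat_lit 10382926340) (nat_lit 453) (nat_lit 5) (nat_lit 469) (nat_lit 5) (nat_lit 454) (nat_lit 5) (nat_lit 502) (nat_lit 484) (nat_lit 214))))) (XT.nd (nat_lit 61152) (nat_lit 0) (nat_lit 4864) (XT.nd (nat_lit 156) (nat_lit 836) (nat_lit 0) (XT.nd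 (nat_lit 78) (nat_lit 912) (nat_lit 0) (XT.lf (nat_lit 0) (nat_lit 25883598800) (nat_lit 912) (nat_lit 10531885078) (nat_lit 988) (nat_lit 28833653395) (nat_lit 441) (nat_lit 5) (nat_lit 453) (nat_lit 5) (nat_lit 454) (nat_lit 5) (nat_lit 503) (nat_lit 484) (nat_lit 213)) (XT.lf (nat_lit 0) (nat_lit 13799424366) (nat_lit 912) (nat_lit 32431332192) (nat_lit 988) (nat_lit 20082560401) (nat_lit 429) (nat_lit 5) (nat_lit 441) (nat_lit 5) (nat_lit 442) (nat_lit 5) (nat_lit 504) (nat_lit 484) (nat_lit 212))) (XT.nd (nat_lit 60918) (nat_lit 0) (nat_lit 4788) (XT.lf (nat_lit 0) (nat_lit 1563507955) (nat_lit 836) (nat_lit 55203055975) (nat_lit 912) (nat_lit 10634336603) (nat_lit 418) (nat_lit 5) (nat_lit 429) (nat_lit 5) (nat_lit 430) (nat_lit 5) (nat_lit 505) (nat_lit 484) (nat_lit 211)) (XT.lf (nat_lit 0) (nat_lit 6269388741) (nat_lit 1900) (nat_lit 9389460048) (nat_lit 1900) (nat_lit 9389460048) (nat_lit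 481) (nat_lit 3) (nat_lit 506) (nat_lit 3) (nat_lit 506) (nat_lit 5) (nat_lit 485) (nat_lit 485) (nat_lit 230)))) (XT.nd (nat_lit 156) (nat_lit 0) (nat_lit 76) (XT.nd (nat_lit 78) (nat_lit 0) (nat_lit 0) (XT.lf (nat_lit 0) (nat_lit 12927617801) (nat_lit 1824) (nat_lit 31993839878) (nat_lit 1900) (nat_lit 5922592902) (nat_lit 482) (nat_lit 5) (nat_lit 506) (nat_lit 5) (nat_lit 507) (nat_lit 5) (nat_lit 486) (nat_lit 485) (nat_lit 229)) (XT.lf (nat_lit 76) (nat_lit 6123105278) (nat_lit 0) (nat_lit 7580775115) (nat_lit 1900) (nat_lit 37902510987) (nat_lit 483) (nat_lit 5) (nat_lit 482) (nat_lit 5) (nat_lit 507) (nat_lit 5) (nat_lit 487) (nat_lit 485) (nat_lit 228))) (XT.nd (nat_lit 78) (nat_lit 0) (nat_lit 76) (XT.lf (nat_lit 0) (nat_lit 14920676756) (nat_lit 1824) (nat_lit 6768546856) (nat_lit 1900) (nat_lit 30694033918) (nat_lit 483) (nat_lit 5) (nat_lit 507) (nat_lit 5) (nat_lit 508) (nat_lit 5) (nat_lit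 488) (nat_lit 485) (nat_lit 227)) (XT.lf (nat_lit 0) (nat_lit 16551436687) (nat_lit 1824) (nat_lit 19793409950) (nat_lit 1900) (nat_lit 16831033878) (nat_lit 484) (nat_lit 5) (nat_lit 508) (nat_lit 5) (nat_lit 509) (nat_lit 5) (nat_lit 489) (nat_lit 485) (nat_lit 226))))))) (XT.nd (nat_lit 1170) (nat_lit 912) (nat_lit 0) (XT.nd (nat_lit 546) (nat_lit 3344) (nat_lit 0) (XT.nd (nat_lit 234) (nat_lit 0) (nat_lit 152) (XT.nd (nat_lit 78) (nat_lit 0) (nat_lit 0) (XT.lf (nat_lit 0) (nat_lit 18572726746) (nat_lit 1824) (nat_lit 33033303271) (nat_lit 1900) (nat_lit 2379420068) (nat_lit 485) (nat_lit 5) (nat_lit 509) (nat_lit 5) (nat_lit 510) (nat_lit 5) (nat_lit 490) (nat_lit 485) (nat_lit 225)) (XT.nd (nat_lit 78) (nat_lit 0) (nat_lit 76) (XT.lf (nat_lit 76) (nat_lit 8237619698) (nat_lit 0) (nat_lit 12847226915) (nat_lit 1900) (nat_lit 33725856349) (nat_lit 486) (nat_lit 5) (nat_lit 485) (nat_lit 5) (nat_lit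 510) (nat_lit 5) (nat_lit 491) (nat_lit 485) (nat_lit 224)) (XT.lf (nat_lit 0) (nat_lit 24072116755) (nat_lit 1824) (nat_lit 4635541131) (nat_lit 1900) (nat_lit 26945059844) (nat_lit 486) (nat_lit 5) (nat_lit 510) (nat_lit 5) (nat_lit 511) (nat_lit 5) (nat_lit 492) (nat_lit 485) (nat_lit 223)))) (XT.nd (nat_lit 156) (nat_lit 0) (nat_lit 76) (XT.nd (nat_lit 78) (nat_lit 0) (nat_lit 0) (XT.lf (nat_lit 0) (nat_lit 27561400553) (nat_lit 1824) (nat_lit 17603234821) (nat_lit 1900) (nat_lit 11347109696) (nat_lit 487) (nat_lit 5) (nat_lit 511) (nat_lit 5) (nat_lit 512) (nat_lit 5) (nat_lit 493) (nat_lit 485) (nat_lit 222)) (XT.lf (nat_lit 76) (nat_lit 26581997327) (nat_lit 0) (nat_lit 4968303181) (nat_lit 1900) (nat_lit 25838344007) (nat_lit 488) (nat_lit 5) (nat_lit 487) (nat_lit 5) (nat_lit 512) (nat_lit 5) (nat_lit 494) (nat_lit 485) (nat_lit 221))) (XT.nd (nat_lit 78) (nat_lit 0) (nat_lit 76) (XT.lf (nat_lit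 76) (nat_lit 13989534615) (nat_lit 0) (nat_lit 22115572688) (nat_lit 1900) (nat_lit 22177818880) (nat_lit 489) (nat_lit 5) (nat_lit 488) (nat_lit 5) (nat_lit 513) (nat_lit 5) (nat_lit 495) (nat_lit 485) (nat_lit 220)) (XT.lf (nat_lit 76) (nat_lit 1206890017) (nat_lit 0) (nat_lit 39964553282) (nat_lit 1900) (nat_lit 18025095337) (nat_lit 490) (nat_lit 5) (nat_lit 489) (nat_lit 5) (nat_lit 514) (nat_lit 5) (nat_lit 496) (nat_lit 485) (nat_lit 219))))) (XT.nd (nat_lit 312) (nat_lit 1976) (nat_lit 0) (XT.nd (nat_lit 156) (nat_lit 1748) (nat_lit 0) (XT.nd (nat_lit 78) (nat_lit 0) (nat_lit 0) (XT.lf (nat_lit 0) (nat_lit 46846668154) (nat_lit 1824) (nat_lit 11611886243) (nat_lit 1900) (nat_lit 1669867124) (nat_lit 490) (nat_lit 5) (nat_lit 514) (nat_lit 5) (nat_lit 515) (nat_lit 5) (nat_lit 497) (nat_lit 485) (nat_lit 218)) (XT.lf (nat_lit 76) (nat_lit 36366024460) (nat_lit 0) (nat_lit 16828376986) (nat_lit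 1900) (nat_lit 7883814446) (nat_lit 491) (nat_lit 5) (nat_lit 490) (nat_lit 5) (nat_lit 515) (nat_lit 5) (nat_lit 498) (nat_lit 485) (nat_lit 217))) (XT.nd (nat_lit 78) (nat_lit 1824) (nat_lit 0) (XT.lf (nat_lit 76) (nat_lit 24031930828) (nat_lit 0) (nat_lit 36103919815) (nat_lit 1900) (nat_lit 1912587807) (nat_lit 492) (nat_lit 5) (nat_lit 491) (nat_lit 5) (nat_lit 516) (nat_lit 5) (nat_lit 499) (nat_lit 485) (nat_lit 216)) (XT.lf (nat_lit 0) (nat_lit 4582640787) (nat_lit 1900) (nat_lit 51544045521) (nat_lit 1976) (nat_lit 6912522231) (nat_lit 467) (nat_lit 5) (nat_lit 492) (nat_lit 5) (nat_lit 493) (nat_lit 5) (nat_lit 500) (nat_lit 485) (nat_lit 215)))) (XT.nd (nat_lit 156) (nat_lit 1976) (nat_lit 0) (XT.nd (nat_lit 78) (nat_lit 0) (nat_lit 76) (XT.lf (nat_lit 0) (nat_lit 11746603843) (nat_lit 1900) (nat_lit 1298817084) (nat_lit 1976) (nat_lit 51004030746) (nat_lit 467) (nat_lit 5) (nat_lit 492)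 (nat_lit 5) (nat_lit 493) (nat_lit 5) (nat_lit 501) (nat_lit 485) (nat_lit 214)) (XT.lf (nat_lit 0) (nat_lit 19661999715) (nat_lit 1900) (nat_lit 14165588516) (nat_lit 76) (nat_lit 31251683620) (nat_lit 468) (nat_lit 5) (nat_lit 493) (nat_lit 5) (nat_lit 469) (nat_lit 5) (nat_lit 502) (nat_lit 485) (nat_lit 213))) (XT.nd (nat_lit 78) (nat_lit 912) (nat_lit 0) (XT.lf (nat_lit 0) (nat_lit 28233459256) (nat_lit 1216) (nat_lit 27209571593) (nat_lit 76) (nat_lit 10688583778) (nat_lit 453) (nat_lit 5) (nat_lit 469) (nat_lit 5) (nat_lit 454) (nat_lit 5) (nat_lit 503) (nat_lit 485) (nat_lit 212)) (XT.lf (nat_lit 0) (nat_lit 26705107958) (nat_lit 912) (nat_lit 10852220986) (nat_lit 988) (nat_lit 29648293444) (nat_lit 441) (nat_lit 5) (nat_lit 453) (nat_lit 5) (nat_lit 454) (nat_lit 5) (nat_lit 504) (nat_lit 485) (nat_lit 211)))))) (XT.nd (nat_lit 61464) (nat_lit 0) (nat_lit 4256) (XT.nd (nat_lit 61152) (nat_lit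 0) (nat_lit 4028) (XT.nd (nat_lit 60996) (nat_lit 0) (nat_lit 3952) (XT.lf (nat_lit 0) (nat_lit 14258679131) (nat_lit 912) (nat_lit 33407208736) (nat_lit 988) (nat_lit 20635863077) (nat_lit 429) (nat_lit 5) (nat_lit 441) (nat_lit 5) (nat_lit 442) (nat_lit 5) (nat_lit 505) (nat_lit 485) (nat_lit 210)) (XT.nd (nat_lit 78) (nat_lit 0) (nat_lit 76) (XT.lf (nat_lit 0) (nat_lit 6496242204) (nat_lit 1900) (nat_lit 9651369644) (nat_lit 1900) (nat_lit 9651369644) (nat_lit 481) (nat_lit 3) (nat_lit 506) (nat_lit 3) (nat_lit 506) (nat_lit 5) (nat_lit 486) (nat_lit 486) (nat_lit 228)) (XT.lf (nat_lit 0) (nat_lit 13390746162) (nat_lit 1824) (nat_lit 32912997426) (nat_lit 1900) (nat_lit 6064120235) (nat_lit 482) (nat_lit 5) (nat_lit 506) (nat_lit 5) (nat_lit 507) (nat_lit 5) (nat_lit 487) (nat_lit 486) (nat_lit 227)))) (XT.nd (nat_lit 156) (nat_lit 0) (nat_lit 152) (XT.nd (nat_lit 78) (nat_lit 0) (nat_lit 76) (XT.lf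 (nat_lit 76) (nat_lit 6346796462) (nat_lit 0) (nat_lit 7841566664) (nat_lit 1900) (nat_lit 38964750457) (nat_lit 483) (nat_lit 5) (nat_lit 482) (nat_lit 5) (nat_lit 507) (nat_lit 5) (nat_lit 488) (nat_lit 486) (nat_lit 226)) (XT.lf (nat_lit 0) (nat_lit 15439316159) (nat_lit 1824) (nat_lit 6931133152) (nat_lit 1900) (nat_lit 31582883417) (nat_lit 483) (nat_lit 5) (nat_lit 507) (nat_lit 5) (nat_lit 508) (nat_lit 5) (nat_lit 489) (nat_lit 486) (nat_lit 225))) (XT.nd (nat_lit 78) (nat_lit 0) (nat_lit 76) (XT.lf (nat_lit 0) (nat_lit 17116998010) (nat_lit 1824) (nat_lit 20345821597) (nat_lit 1900) (nat_lit 17306954874) (nat_lit 484) (nat_lit 5) (nat_lit 508) (nat_lit 5) (nat_lit 509) (nat_lit 5) (nat_lit 490) (nat_lit 486) (nat_lit 224)) (XT.lf (nat_lit 0) (nat_lit 19197008506) (nat_lit 1824) (nat_lit 33982063359) (nat_lit 1900) (nat_lit 2424597700) (nat_lit 485) (nat_lit 5) (nat_lit 509) (nat_lit 5) (nat_lit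 510) (nat_lit 5) (nat_lit 491) (nat_lit 486) (nat_lit 223))))) (XT.nd (nat_lit 312) (nat_lit 0) (nat_lit 228) (XT.nd (nat_lit 156) (nat_lit 0) (nat_lit 152) (XT.nd (nat_lit 78) (nat_lit 0) (nat_lit 76) (XT.lf (nat_lit 76) (nat_lit 8526302022) (nat_lit 0) (nat_lit 13256505374) (nat_lit 1900) (nat_lit 34670906383) (nat_lit 486) (nat_lit 5) (nat_lit 485) (nat_lit 5) (nat_lit 510) (nat_lit 5) (nat_lit 492) (nat_lit 486) (nat_lit 222)) (XT.lf (nat_lit 0) (nat_lit 24857639927) (nat_lit 1824) (nat_lit 4732841412) (nat_lit 1900) (nat_lit 27730548822) (nat_lit 486) (nat_lit 5) (nat_lit 510) (nat_lit 5) (nat_lit 511) (nat_lit 5) (nat_lit 493) (nat_lit 486) (nat_lit 221))) (XT.nd (nat_lit 78) (nat_lit 0) (nat_lit 0) (XT.lf (nat_lit 0) (nat_lit 28449889234) (nat_lit 1824) (nat_lit 18088871692) (nat_lit 1900) (nat_lit 11667101711) (nat_lit 487) (nat_lit 5) (nat_lit 511) (nat_lit 5) (nat_lit 512) (nat_lit 5) (nat_lit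 494) (nat_lit 486) (nat_lit 220)) (XT.lf (nat_lit 76) (nat_lit 27421228555) (nat_lit 0) (nat_lit 5135703305) (nat_lit 1900) (nat_lit 26552167745) (nat_lit 488) (nat_lit 5) (nat_lit 487) (nat_lit 5) (nat_lit 512) (nat_lit 5) (nat_lit 495) (nat_lit 486) (nat_lit 219)))) (XT.nd (nat_lit 156) (nat_lit 0) (nat_lit 152) (XT.nd (nat_lit 78) (nat_lit 0) (nat_lit 76) (XT.lf (nat_lit 76) (nat_lit 14451616193) (nat_lit 0) (nat_lit 22795175113) (nat_lit 1900) (nat_lit 22783450300) (nat_lit 489) (nat_lit 5) (nat_lit 488) (nat_lit 5) (nat_lit 513) (nat_lit 5) (nat_lit 496) (nat_lit 486) (nat_lit 218)) (XT.lf (nat_lit 76) (nat_lit 1286060842) (nat_lit 0) (nat_lit 41177529001) (nat_lit 1900) (nat_lit 18507703191) (nat_lit 490) (nat_lit 5) (nat_lit 489) (nat_lit 5) (nat_lit 514) (nat_lit 5) (nat_lit 497) (nat_lit 486) (nat_lit 217))) (XT.nd (nat_lit 78) (nat_lit 0) (nat_lit 0) (XT.lf (nat_lit 0) (nat_lit 48307322660)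 (nat_lit 1824) (nat_lit 11917333087) (nat_lit 1900) (nat_lit 1706511686) (nat_lit 490) (nat_lit 5) (nat_lit 514) (nat_lit 5) (nat_lit 515) (nat_lit 5) (nat_lit 498) (nat_lit 486) (nat_lit 216)) (XT.lf (nat_lit 76) (nat_lit 37499218779) (nat_lit 0) (nat_lit 17344933898) (nat_lit 1900) (nat_lit 8065329712) (nat_lit 491) (nat_lit 5) (nat_lit 490) (nat_lit 5) (nat_lit 515) (nat_lit 5) (nat_lit 499) (nat_lit 486) (nat_lit 215))))))))
noncomputable def xc126 : XT := (XT.nd (nat_lit 124410) (nat_lit 0) (nat_lit 1976) (XT.nd (nat_lit 62088) (nat_lit 0) (nat_lit 1976) (XT.nd (nat_lit 61542) (nat_lit 0) (nat_lit 3116) (XT.nd (nat_lit 234) (nat_lit 1976) (nat_lit 0) (XT.nd (nat_lit 78) (nat_lit 1824) (nat_lit 0) (XT.lf (nat_lit 76) (nat_lit 24795554699) (nat_lit 0) (nat_lit 37196923416) (nat_lit 1900) (nat_lit 1916360898) (nat_lit 492) (nat_lit 5) (nat_lit 491) (nat_lit 5) (nat_lit 516) (nat_lit 5) (nat_lit 500)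 (nat_lit 486) (nat_lit 214)) (XT.nd (nat_lit 78) (nat_lit 0) (nat_lit 0) (XT.lf (nat_lit 0) (nat_lit 4771699477) (nat_lit 1900) (nat_lit 53046607545) (nat_lit 1976) (nat_lit 7111044708) (nat_lit 467) (nat_lit 5) (nat_lit 492) (nat_lit 5) (nat_lit 493) (nat_lit 5) (nat_lit 501) (nat_lit 486) (nat_lit 213)) (XT.lf (nat_lit 0) (nat_lit 12149079110) (nat_lit 1900) (nat_lit 1295296799) (nat_lit 1976) (nat_lit 52525556338) (nat_lit 467) (nat_lit 5) (nat_lit 492) (nat_lit 5) (nat_lit 493) (nat_lit 5) (nat_lit 502) (nat_lit 486) (nat_lit 212)))) (XT.nd (nat_lit 156) (nat_lit 912) (nat_lit 0) (XT.nd (nat_lit 78) (nat_lit 1140) (nat_lit 0) (XT.lf (nat_lit 0) (nat_lit 20300703603) (nat_lit 1900) (nat_lit 14547735386) (nat_lit 76) (nat_lit 32182232748) (nat_lit 468) (nat_lit 5) (nat_lit 493) (nat_lit 5) (nat_lit 469) (nat_lit 5) (nat_lit 503) (nat_lit 486) (nat_lit 211)) (XT.lf (nat_lit 0) (nat_lit 29128121648)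 (nat_lit 1216) (nat_lit 27982741269) (nat_lit 76) (nat_lit 11003745626) (nat_lit 453) (nat_lit 5) (nat_lit 469) (nat_lit 5) (nat_lit 454) (nat_lit 5) (nat_lit 504) (nat_lit 486) (nat_lit 210))) (XT.nd (nat_lit 61074) (nat_lit 0) (nat_lit 3040) (XT.lf (nat_lit 0) (nat_lit 27548679139) (nat_lit 912) (nat_lit 11181915578) (nat_lit 988) (nat_lit 30490264113) (nat_lit 441) (nat_lit 5) (nat_lit 453) (nat_lit 5) (nat_lit 454) (nat_lit 5) (nat_lit 505) (nat_lit 486) (nat_lit 209)) (XT.lf (nat_lit 0) (nat_lit 6727675610) (nat_lit 1900) (nat_lit 9922271649) (nat_lit 1900) (nat_lit 9922271649) (nat_lit 481) (nat_lit 3) (nat_lit 506) (nat_lit 3) (nat_lit 506) (nat_lit 5) (nat_lit 487) (nat_lit 487) (nat_lit 226))))) (XT.nd (nat_lit 234) (nat_lit 0) (nat_lit 152) (XT.nd (nat_lit 78) (nat_lit 0) (nat_lit 0) (XT.lf (nat_lit 0) (nat_lit 13863445855) (nat_lit 1824) (nat_lit 33862063617) (nat_lit 1900) (nat_lit 6211968572)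 (nat_lit 482) (nat_lit 5) (nat_lit 506) (nat_lit 5) (nat_lit 507) (nat_lit 5) (nat_lit 488) (nat_lit 487) (nat_lit 225)) (XT.nd (nat_lit 78) (nat_lit 0) (nat_lit 76) (XT.lf (nat_lit 76) (nat_lit 6574902331) (nat_lit 0) (nat_lit 8108266484) (nat_lit 1900) (nat_lit 40063152995) (nat_lit 483) (nat_lit 5) (nat_lit 482) (nat_lit 5) (nat_lit 507) (nat_lit 5) (nat_lit 489) (nat_lit 487) (nat_lit 224)) (XT.lf (nat_lit 0) (nat_lit 15969437956) (nat_lit 1824) (nat_lit 7100920186) (nat_lit 1900) (nat_lit 32500233696) (nat_lit 483) (nat_lit 5) (nat_lit 507) (nat_lit 5) (nat_lit 508) (nat_lit 5) (nat_lit 490) (nat_lit 487) (nat_lit 223)))) (XT.nd (nat_lit 156) (nat_lit 0) (nat_lit 76) (XT.nd (nat_lit 78) (nat_lit 0) (nat_lit 76) (XT.lf (nat_lit 0) (nat_lit 17695564245) (nat_lit 1824) (nat_lit 20917181585) (nat_lit 1900) (nat_lit 17798818795) (nat_lit 484) (nat_lit 5) (nat_lit 508) (nat_lit 5) (nat_lit 509) (nat_lit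 5) (nat_lit 491) (nat_lit 487) (nat_lit 222)) (XT.lf (nat_lit 0) (nat_lit 19836166907) (nat_lit 1824) (nat_lit 34961710941) (nat_lit 1900) (nat_lit 2472634933) (nat_lit 485) (nat_lit 5) (nat_lit 509) (nat_lit 5) (nat_lit 510) (nat_lit 5) (nat_lit 492) (nat_lit 487) (nat_lit 221))) (XT.nd (nat_lit 78) (nat_lit 0) (nat_lit 76) (XT.lf (nat_lit 76) (nat_lit 8821259461) (nat_lit 0) (nat_lit 13676692430) (nat_lit 1900) (nat_lit 35648138242) (nat_lit 486) (nat_lit 5) (nat_lit 485) (nat_lit 5) (nat_lit 510) (nat_lit 5) (nat_lit 493) (nat_lit 487) (nat_lit 220)) (XT.lf (nat_lit 0) (nat_lit 25663091689) (nat_lit 1824) (nat_lit 4835458239) (nat_lit 1900) (nat_lit 28540914889) (nat_lit 486) (nat_lit 5) (nat_lit 510) (nat_lit 5) (nat_lit 511) (nat_lit 5) (nat_lit 494) (nat_lit 487) (nat_lit 219)))))) (XT.nd (nat_lit 546) (nat_lit 1520) (nat_lit 0) (XT.nd (nat_lit 234) (nat_lit 0) (nat_lit 152) (XT.nd (nat_lit 78)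 (nat_lit 0) (nat_lit 0) (XT.lf (nat_lit 0) (nat_lit 29361493804) (nat_lit 1824) (nat_lit 18591515057) (nat_lit 1900) (nat_lit 11997865751) (nat_lit 487) (nat_lit 5) (nat_lit 511) (nat_lit 5) (nat_lit 512) (nat_lit 5) (nat_lit 495) (nat_lit 487) (nat_lit 218)) (XT.nd (nat_lit 78) (nat_lit 0) (nat_lit 76) (XT.lf (nat_lit 76) (nat_lit 28283238875) (nat_lit 0) (nat_lit 5307072010) (nat_lit 1900) (nat_lit 27290926592) (nat_lit 488) (nat_lit 5) (nat_lit 487) (nat_lit 5) (nat_lit 512) (nat_lit 5) (nat_lit 496) (nat_lit 487) (nat_lit 217)) (XT.lf (nat_lit 76) (nat_lit 14925126540) (nat_lit 0) (nat_lit 23494239382) (nat_lit 1900) (nat_lit 23410677868) (nat_lit 489) (nat_lit 5) (nat_lit 488) (nat_lit 5) (nat_lit 513) (nat_lit 5) (nat_lit 497) (nat_lit 487) (nat_lit 216)))) (XT.nd (nat_lit 156) (nat_lit 0) (nat_lit 76) (XT.nd (nat_lit 78) (nat_lit 0) (nat_lit 76) (XT.lf (nat_lit 76) (nat_lit 1365140476) (nat_lit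 0) (nat_lit 42426088090) (nat_lit 1900) (nat_lit 19008127042) (nat_lit 490) (nat_lit 5) (nat_lit 489) (nat_lit 5) (nat_lit 514) (nat_lit 5) (nat_lit 498) (nat_lit 487) (nat_lit 215)) (XT.lf (nat_lit 0) (nat_lit 49808624968) (nat_lit 1824) (nat_lit 12234406530) (nat_lit 1900) (nat_lit 1745027753) (nat_lit 490) (nat_lit 5) (nat_lit 514) (nat_lit 5) (nat_lit 515) (nat_lit 5) (nat_lit 499) (nat_lit 487) (nat_lit 214))) (XT.nd (nat_lit 78) (nat_lit 0) (nat_lit 76) (XT.lf (nat_lit 76) (nat_lit 38663985694) (nat_lit 0) (nat_lit 17876315567) (nat_lit 1900) (nat_lit 8255447612) (nat_lit 491) (nat_lit 5) (nat_lit 490) (nat_lit 5) (nat_lit 515) (nat_lit 5) (nat_lit 500) (nat_lit 487) (nat_lit 213)) (XT.lf (nat_lit 76) (nat_lit 25579638087) (nat_lit 0) (nat_lit 38322149627) (nat_lit 1900) (nat_lit 1923324301) (nat_lit 492) (nat_lit 5) (nat_lit 491) (nat_lit 5) (nat_lit 516) (nat_lit 5) (nat_lit 501) (nat_lit 487)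 (nat_lit 212))))) (XT.nd (nat_lit 61464) (nat_lit 0) (nat_lit 1140) (XT.nd (nat_lit 156) (nat_lit 0) (nat_lit 76) (XT.nd (nat_lit 78) (nat_lit 0) (nat_lit 0) (XT.lf (nat_lit 0) (nat_lit 4963469056) (nat_lit 1900) (nat_lit 54596758394) (nat_lit 1976) (nat_lit 7316031067) (nat_lit 467) (nat_lit 5) (nat_lit 492) (nat_lit 5) (nat_lit 493) (nat_lit 5) (nat_lit 502) (nat_lit 487) (nat_lit 211)) (XT.lf (nat_lit 0) (nat_lit 12560754002) (nat_lit 1900) (nat_lit 1294109706) (nat_lit 1976) (nat_lit 54093221104) (nat_lit 467) (nat_lit 5) (nat_lit 492) (nat_lit 5) (nat_lit 493) (nat_lit 5) (nat_lit 503) (nat_lit 487) (nat_lit 210))) (XT.nd (nat_lit 61230) (nat_lit 0) (nat_lit 988) (XT.lf (nat_lit 0) (nat_lit 20955764769) (nat_lit 1900) (nat_lit 14943804751) (nat_lit 76) (nat_lit 33141100257) (nat_lit 468) (nat_lit 5) (nat_lit 493) (nat_lit 5) (nat_lit 469) (nat_lit 5) (nat_lit 504) (nat_lit 487) (nat_lit 209)) (XT.lf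 (nat_lit 0) (nat_lit 6963954122) (nat_lit 1900) (nat_lit 10202370673) (nat_lit 1900) (nat_lit 10202370673) (nat_lit 481) (nat_lit 3) (nat_lit 506) (nat_lit 3) (nat_lit 506) (nat_lit 5) (nat_lit 488) (nat_lit 488) (nat_lit 224)))) (XT.nd (nat_lit 156) (nat_lit 0) (nat_lit 76) (XT.nd (nat_lit 78) (nat_lit 0) (nat_lit 0) (XT.lf (nat_lit 0) (nat_lit 14346252152) (nat_lit 1824) (nat_lit 34841801732) (nat_lit 1900) (nat_lit 6366208419) (nat_lit 482) (nat_lit 5) (nat_lit 506) (nat_lit 5) (nat_lit 507) (nat_lit 5) (nat_lit 489) (nat_lit 488) (nat_lit 223)) (XT.lf (nat_lit 76) (nat_lit 6807687128) (nat_lit 0) (nat_lit 8381161777) (nat_lit 1900) (nat_lit 41198556893) (nat_lit 483) (nat_lit 5) (nat_lit 482) (nat_lit 5) (nat_lit 507) (nat_lit 5) (nat_lit 490) (nat_lit 488) (nat_lit 222))) (XT.nd (nat_lit 78) (nat_lit 0) (nat_lit 76) (XT.lf (nat_lit 0) (nat_lit 16511620645) (nat_lit 1824) (nat_lit 7277990623) (nat_lit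 1900) (nat_lit 33446834426) (nat_lit 483) (nat_lit 5) (nat_lit 507) (nat_lit 5) (nat_lit 508) (nat_lit 5) (nat_lit 491) (nat_lit 488) (nat_lit 221)) (XT.lf (nat_lit 0) (nat_lit 18287752969) (nat_lit 1824) (nat_lit 21507921974) (nat_lit 1900) (nat_lit 18307008332) (nat_lit 484) (nat_lit 5) (nat_lit 508) (nat_lit 5) (nat_lit 509) (nat_lit 5) (nat_lit 492) (nat_lit 488) (nat_lit 220))))))) (XT.nd (nat_lit 62400) (nat_lit 0) (nat_lit 1064) (XT.nd (nat_lit 546) (nat_lit 1368) (nat_lit 0) (XT.nd (nat_lit 234) (nat_lit 0) (nat_lit 152) (XT.nd (nat_lit 78) (nat_lit 0) (nat_lit 0) (XT.lf (nat_lit 0) (nat_lit 20490869357) (nat_lit 1824) (nat_lit 35973033456) (nat_lit 1900) (nat_lit 2523531204) (nat_lit 485) (nat_lit 5) (nat_lit 509) (nat_lit 5) (nat_lit 510) (nat_lit 5) (nat_lit 493) (nat_lit 488) (nat_lit 219)) (XT.nd (nat_lit 78) (nat_lit 0) (nat_lit 76) (XT.lf (nat_lit 76) (nat_lit 9122817198) (nat_lit 0)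 (nat_lit 14108193971) (nat_lit 1900) (nat_lit 36658297508) (nat_lit 486) (nat_lit 5) (nat_lit 485) (nat_lit 5) (nat_lit 510) (nat_lit 5) (nat_lit 494) (nat_lit 488) (nat_lit 218)) (XT.lf (nat_lit 0) (nat_lit 26489278684) (nat_lit 1824) (nat_lit 4943413477) (nat_lit 1900) (nat_lit 29376829019) (nat_lit 486) (nat_lit 5) (nat_lit 510) (nat_lit 5) (nat_lit 511) (nat_lit 5) (nat_lit 495) (nat_lit 488) (nat_lit 217)))) (XT.nd (nat_lit 156) (nat_lit 0) (nat_lit 76) (XT.nd (nat_lit 78) (nat_lit 0) (nat_lit 0) (XT.lf (nat_lit 0) (nat_lit 30297110880) (nat_lit 1824) (nat_lit 19111535195) (nat_lit 1900) (nat_lit 12339657684) (nat_lit 487) (nat_lit 5) (nat_lit 511) (nat_lit 5) (nat_lit 512) (nat_lit 5) (nat_lit 496) (nat_lit 488) (nat_lit 216)) (XT.lf (nat_lit 76) (nat_lit 29168849306) (nat_lit 0) (nat_lit 5482588822) (nat_lit 1900) (nat_lit 28055166516) (nat_lit 488) (nat_lit 5) (nat_lit 487) (nat_lit 5) (nat_lit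 512) (nat_lit 5) (nat_lit 497) (nat_lit 488) (nat_lit 215))) (XT.nd (nat_lit 78) (nat_lit 0) (nat_lit 76) (XT.lf (nat_lit 76) (nat_lit 15410548224) (nat_lit 0) (nat_lit 24213402520) (nat_lit 1900) (nat_lit 24059952733) (nat_lit 489) (nat_lit 5) (nat_lit 488) (nat_lit 5) (nat_lit 513) (nat_lit 5) (nat_lit 498) (nat_lit 488) (nat_lit 214)) (XT.lf (nat_lit 76) (nat_lit 1444267758) (nat_lit 0) (nat_lit 43711344310) (nat_lit 1900) (nat_lit 19526709768) (nat_lit 490) (nat_lit 5) (nat_lit 489) (nat_lit 5) (nat_lit 514) (nat_lit 5) (nat_lit 499) (nat_lit 488) (nat_lit 213))))) (XT.nd (nat_lit 312) (nat_lit 0) (nat_lit 0) (XT.nd (nat_lit 156) (nat_lit 1748) (nat_lit 0) (XT.nd (nat_lit 78) (nat_lit 0) (nat_lit 0) (XT.lf (nat_lit 0) (nat_lit 51351976590) (nat_lit 1824) (nat_lit 12563313974) (nat_lit 1900) (nat_lit 1785427144) (nat_lit 490) (nat_lit 5) (nat_lit 514) (nat_lit 5) (nat_lit 515) (nat_lit 5) (nat_lit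 500) (nat_lit 488) (nat_lit 212)) (XT.lf (nat_lit 76) (nat_lit 39861411488) (nat_lit 0) (nat_lit 18423005310) (nat_lit 1900) (nat_lit 8454244992) (nat_lit 491) (nat_lit 5) (nat_lit 490) (nat_lit 5) (nat_lit 515) (nat_lit 5) (nat_lit 501) (nat_lit 488) (nat_lit 211))) (XT.nd (nat_lit 78) (nat_lit 1824) (nat_lit 0) (XT.lf (nat_lit 76) (nat_lit 26384935371) (nat_lit 0) (nat_lit 39480597705) (nat_lit 1900) (nat_lit 1933397088) (nat_lit 492) (nat_lit 5) (nat_lit 491) (nat_lit 5) (nat_lit 516) (nat_lit 5) (nat_lit 502) (nat_lit 488) (nat_lit 210)) (XT.lf (nat_lit 0) (nat_lit 5158200815) (nat_lit 1900) (nat_lit 56195781538) (nat_lit 1976) (nat_lit 7527646054) (nat_lit 467) (nat_lit 5) (nat_lit 492) (nat_lit 5) (nat_lit 493) (nat_lit 5) (nat_lit 503) (nat_lit 488) (nat_lit 209)))) (XT.nd (nat_lit 61386) (nat_lit 0) (nat_lit 1140) (XT.nd (nat_lit 61308) (nat_lit 0) (nat_lit 1064) (XT.lf (nat_lit 0) (nat_lit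 12982069523) (nat_lit 1900) (nat_lit 1295185804) (nat_lit 1976) (nat_lit 55708380897) (nat_lit 467) (nat_lit 5) (nat_lit 492) (nat_lit 5) (nat_lit 493) (nat_lit 5) (nat_lit 504) (nat_lit 488) (nat_lit 208)) (XT.lf (nat_lit 0) (nat_lit 7205343518) (nat_lit 1900) (nat_lit 10491881208) (nat_lit 1900) (nat_lit 10491881208) (nat_lit 481) (nat_lit 3) (nat_lit 506) (nat_lit 3) (nat_lit 506) (nat_lit 5) (nat_lit 489) (nat_lit 489) (nat_lit 222))) (XT.nd (nat_lit 78) (nat_lit 0) (nat_lit 0) (XT.lf (nat_lit 0) (nat_lit 14839702136) (nat_lit 1824) (nat_lit 35853005644) (nat_lit 1900) (nat_lit 6526919235) (nat_lit 482) (nat_lit 5) (nat_lit 506) (nat_lit 5) (nat_lit 507) (nat_lit 5) (nat_lit 490) (nat_lit 489) (nat_lit 221)) (XT.lf (nat_lit 76) (nat_lit 7045415459) (nat_lit 0) (nat_lit 8660542053) (nat_lit 1900) (nat_lit 42371839745) (nat_lit 483) (nat_lit 5) (nat_lit 482) (nat_lit 5) (nat_lit 507) (nat_lit 5) (nat_lit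 491) (nat_lit 489) (nat_lit 220)))))) (XT.nd (nat_lit 546) (nat_lit 152) (nat_lit 0) (XT.nd (nat_lit 234) (nat_lit 0) (nat_lit 152) (XT.nd (nat_lit 78) (nat_lit 0) (nat_lit 76) (XT.lf (nat_lit 0) (nat_lit 17066446642) (nat_lit 1824) (nat_lit 7462437262) (nat_lit 1900) (nat_lit 34423463815) (nat_lit 483) (nat_lit 5) (nat_lit 507) (nat_lit 5) (nat_lit 508) (nat_lit 5) (nat_lit 492) (nat_lit 489) (nat_lit 219)) (XT.nd (nat_lit 78) (nat_lit 0) (nat_lit 76) (XT.lf (nat_lit 0) (nat_lit 18894187233) (nat_lit 1824) (nat_lit 22118495614) (nat_lit 1900) (nat_lit 18831923147) (nat_lit 484) (nat_lit 5) (nat_lit 508) (nat_lit 5) (nat_lit 509) (nat_lit 5) (nat_lit 493) (nat_lit 489) (nat_lit 218)) (XT.lf (nat_lit 0) (nat_lit 21161790596) (nat_lit 1824) (nat_lit 37016849953) (nat_lit 1900) (nat_lit 2577290890) (nat_lit 485) (nat_lit 5) (nat_lit 509) (nat_lit 5) (nat_lit 510) (nat_lit 5) (nat_lit 494) (nat_lit 489)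 (nat_lit 217)))) (XT.nd (nat_lit 156) (nat_lit 0) (nat_lit 152) (XT.nd (nat_lit 78) (nat_lit 0) (nat_lit 76) (XT.lf (nat_lit 76) (nat_lit 9431302311) (nat_lit 0) (nat_lit 14551423548) (nat_lit 1900) (nat_lit 37702164745) (nat_lit 486) (nat_lit 5) (nat_lit 485) (nat_lit 5) (nat_lit 510) (nat_lit 5) (nat_lit 495) (nat_lit 489) (nat_lit 216)) (XT.lf (nat_lit 0) (nat_lit 27337019770) (nat_lit 1824) (nat_lit 5056737554) (nat_lit 1900) (nat_lit 30238986640) (nat_lit 486) (nat_lit 5) (nat_lit 510) (nat_lit 5) (nat_lit 511) (nat_lit 5) (nat_lit 496) (nat_lit 489) (nat_lit 215))) (XT.nd (nat_lit 78) (nat_lit 0) (nat_lit 0) (XT.lf (nat_lit 0) (nat_lit 31257652317) (nat_lit 1824) (nat_lit 19649321524) (nat_lit 1900) (nat_lit 12692744917) (nat_lit 487) (nat_lit 5) (nat_lit 511) (nat_lit 5) (nat_lit 512) (nat_lit 5) (nat_lit 497) (nat_lit 489) (nat_lit 214)) (XT.lf (nat_lit 76) (nat_lit 30078897598) (nat_lit 0)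 (nat_lit 5662435185) (nat_lit 1900) (nat_lit 28845461465) (nat_lit 488) (nat_lit 5) (nat_lit 487) (nat_lit 5) (nat_lit 512) (nat_lit 5) (nat_lit 498) (nat_lit 489) (nat_lit 213))))) (XT.nd (nat_lit 312) (nat_lit 532) (nat_lit 0) (XT.nd (nat_lit 156) (nat_lit 0) (nat_lit 152) (XT.nd (nat_lit 78) (nat_lit 0) (nat_lit 76) (XT.lf (nat_lit 76) (nat_lit 15908370268) (nat_lit 0) (nat_lit 24953317609) (nat_lit 1900) (nat_lit 24731750870) (nat_lit 489) (nat_lit 5) (nat_lit 488) (nat_lit 5) (nat_lit 513) (nat_lit 5) (nat_lit 499) (nat_lit 489) (nat_lit 212)) (XT.lf (nat_lit 76) (nat_lit 1523577569) (nat_lit 0) (nat_lit 45034442182) (nat_lit 1900) (nat_lit 20063815534) (nat_lit 490) (nat_lit 5) (nat_lit 489) (nat_lit 5) (nat_lit 514) (nat_lit 5) (nat_lit 500) (nat_lit 489) (nat_lit 211))) (XT.nd (nat_lit 78) (nat_lit 0) (nat_lit 0) (XT.lf (nat_lit 0) (nat_lit 52938810629) (nat_lit 1824) (nat_lit 12904277158) (nat_lit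 1900) (nat_lit 1827724579) (nat_lit 490) (nat_lit 5) (nat_lit 514) (nat_lit 5) (nat_lit 515) (nat_lit 5) (nat_lit 501) (nat_lit 489) (nat_lit 210)) (XT.lf (nat_lit 76) (nat_lit 41092607045) (nat_lit 0) (nat_lit 18985498727) (nat_lit 1900) (nat_lit 8661811405) (nat_lit 491) (nat_lit 5) (nat_lit 490) (nat_lit 5) (nat_lit 515) (nat_lit 5) (nat_lit 502) (nat_lit 489) (nat_lit 209)))) (XT.nd (nat_lit 61542) (nat_lit 0) (nat_lit 76) (XT.nd (nat_lit 61464) (nat_lit 760) (nat_lit 0) (XT.lf (nat_lit 76) (nat_lit 27212215491) (nat_lit 0) (nat_lit 40673295011) (nat_lit 1900) (nat_lit 1946506039) (nat_lit 492) (nat_lit 5) (nat_lit 491) (nat_lit 5) (nat_lit 516) (nat_lit 5) (nat_lit 503) (nat_lit 489) (nat_lit 208)) (XT.lf (nat_lit 0) (nat_lit 7452110641) (nat_lit 1900) (nat_lit 10791027704) (nat_lit 1900) (nat_lit 10791027704) (nat_lit 481) (nat_lit 3) (nat_lit 506) (nat_lit 3) (nat_lit 506) (nat_lit 5) (nat_lit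 490) (nat_lit 490) (nat_lit 220))) (XT.nd (nat_lit 78) (nat_lit 0) (nat_lit 0) (XT.lf (nat_lit 0) (nat_lit 15344335578) (nat_lit 1824) (nat_lit 36896500291) (nat_lit 1900) (nat_lit 6694189310) (nat_lit 482) (nat_lit 5) (nat_lit 506) (nat_lit 5) (nat_lit 507) (nat_lit 5) (nat_lit 491) (nat_lit 490) (nat_lit 219)) (XT.lf (nat_lit 76) (nat_lit 7288352733) (nat_lit 0) (nat_lit 8946699556) (nat_lit 1900) (nat_lit 43583918818) (nat_lit 483) (nat_lit 5) (nat_lit 482) (nat_lit 5) (nat_lit 507) (nat_lit 5) (nat_lit 492) (nat_lit 490) (nat_lit 218))))))))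
noncomputable def xc127 : XT := (XT.nd (nat_lit 125346) (nat_lit 0) (nat_lit 0) (XT.nd (nat_lit 62556) (nat_lit 0) (nat_lit 0) (XT.nd (nat_lit 546) (nat_lit 152) (nat_lit 0) (XT.nd (nat_lit 234) (nat_lit 0) (nat_lit 152) (XT.nd (nat_lit 78) (nat_lit 0) (nat_lit 76) (XT.lf (nat_lit 0) (nat_lit 17634503174) (nat_lit 1824) (nat_lit 7654362902) (nat_lit 1900) (nat_lit 35430929116) (nat_lit 483) (nat_lit 5) (nat_lit 507) (nat_lit 5) (nat_lit 508) (nat_lit 5) (nat_lit 493) (nat_lit 490) (nat_lit 217)) (XT.nd (nat_lit 78) (nat_lit 0) (nat_lit 76) (XT.lf (nat_lit 0) (nat_lit 19515496472) (nat_lit 1824) (nat_lit 22749376319) (nat_lit 1900) (nat_lit 19373980064) (nat_lit 484) (nat_lit 5) (nat_lit 508) (nat_lit 5) (nat_lit 509) (nat_lit 5) (nat_lit 494) (nat_lit 490) (nat_lit 216)) (XT.lf (nat_lit 0) (nat_lit 21849613640) (nat_lit 1824) (nat_lit 38094011586) (nat_lit 1900) (nat_lit 2633923171) (nat_lit 485) (nat_lit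 5) (nat_lit 509) (nat_lit 5) (nat_lit 510) (nat_lit 5) (nat_lit 495) (nat_lit 490) (nat_lit 215)))) (XT.nd (nat_lit 156) (nat_lit 0) (nat_lit 152) (XT.nd (nat_lit 78) (nat_lit 0) (nat_lit 76) (XT.lf (nat_lit 76) (nat_lit 9747044281) (nat_lit 0) (nat_lit 15006802862) (nat_lit 1900) (nat_lit 38780555838) (nat_lit 486) (nat_lit 5) (nat_lit 485) (nat_lit 5) (nat_lit 510) (nat_lit 5) (nat_lit 496) (nat_lit 490) (nat_lit 214)) (XT.lf (nat_lit 0) (nat_lit 28207147070) (nat_lit 1824) (nat_lit 5175469252) (nat_lit 1900) (nat_lit 31128108120) (nat_lit 486) (nat_lit 5) (nat_lit 510) (nat_lit 5) (nat_lit 511) (nat_lit 5) (nat_lit 497) (nat_lit 490) (nat_lit 213))) (XT.nd (nat_lit 78) (nat_lit 0) (nat_lit 0) (XT.lf (nat_lit 0) (nat_lit 32244046332) (nat_lit 1824) (nat_lit 20205282717) (nat_lit 1900) (nat_lit 13057406521) (nat_lit 487) (nat_lit 5) (nat_lit 511) (nat_lit 5) (nat_lit 512) (nat_lit 5) (nat_lit 498)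 (nat_lit 490) (nat_lit 212)) (XT.lf (nat_lit 76) (nat_lit 31014239182) (nat_lit 0) (nat_lit 5846794713) (nat_lit 1900) (nat_lit 29662413539) (nat_lit 488) (nat_lit 5) (nat_lit 487) (nat_lit 5) (nat_lit 512) (nat_lit 5) (nat_lit 499) (nat_lit 490) (nat_lit 211))))) (XT.nd (nat_lit 234) (nat_lit 532) (nat_lit 0) (XT.nd (nat_lit 78) (nat_lit 0) (nat_lit 76) (XT.lf (nat_lit 76) (nat_lit 16419088806) (nat_lit 0) (nat_lit 25714654448) (nat_lit 1900) (nat_lit 25426573182) (nat_lit 489) (nat_lit 5) (nat_lit 488) (nat_lit 5) (nat_lit 513) (nat_lit 5) (nat_lit 500) (nat_lit 490) (nat_lit 210)) (XT.nd (nat_lit 78) (nat_lit 0) (nat_lit 76) (XT.lf (nat_lit 76) (nat_lit 1603201173) (nat_lit 0) (nat_lit 46396558059) (nat_lit 1900) (nat_lit 20619829795) (nat_lit 490) (nat_lit 5) (nat_lit 489) (nat_lit 5) (nat_lit 514) (nat_lit 5) (nat_lit 501) (nat_lit 490) (nat_lit 209)) (XT.lf (nat_lit 0) (nat_lit 54570593329) (nat_lit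 1824) (nat_lit 13257532125) (nat_lit 1900) (nat_lit 1871937616) (nat_lit 490) (nat_lit 5) (nat_lit 514) (nat_lit 5) (nat_lit 515) (nat_lit 5) (nat_lit 502) (nat_lit 490) (nat_lit 208)))) (XT.nd (nat_lit 61620) (nat_lit 0) (nat_lit 76) (XT.nd (nat_lit 61542) (nat_lit 684) (nat_lit 0) (XT.lf (nat_lit 76) (nat_lit 42358709049) (nat_lit 0) (nat_lit 19564304199) (nat_lit 1900) (nat_lit 8878248896) (nat_lit 491) (nat_lit 5) (nat_lit 490) (nat_lit 5) (nat_lit 515) (nat_lit 5) (nat_lit 503) (nat_lit 490) (nat_lit 207)) (XT.lf (nat_lit 0) (nat_lit 7704523821) (nat_lit 1900) (nat_lit 11100044669) (nat_lit 1900) (nat_lit 11100044669) (nat_lit 481) (nat_lit 3) (nat_lit 506) (nat_lit 3) (nat_lit 506) (nat_lit 5) (nat_lit 491) (nat_lit 491) (nat_lit 218))) (XT.nd (nat_lit 78) (nat_lit 0) (nat_lit 0) (XT.lf (nat_lit 0) (nat_lit 15860695789) (nat_lit 1824) (nat_lit 37973142192) (nat_lit 1900) (nat_lit 6868115657) (nat_lit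 482) (nat_lit 5) (nat_lit 506) (nat_lit 5) (nat_lit 507) (nat_lit 5) (nat_lit 492) (nat_lit 491) (nat_lit 217)) (XT.lf (nat_lit 76) (nat_lit 7536765603) (nat_lit 0) (nat_lit 9239929688) (nat_lit 1900) (nat_lit 44835751475) (nat_lit 483) (nat_lit 5) (nat_lit 482) (nat_lit 5) (nat_lit 507) (nat_lit 5) (nat_lit 493) (nat_lit 491) (nat_lit 216)))))) (XT.nd (nat_lit 546) (nat_lit 152) (nat_lit 0) (XT.nd (nat_lit 234) (nat_lit 0) (nat_lit 152) (XT.nd (nat_lit 78) (nat_lit 0) (nat_lit 76) (XT.lf (nat_lit 0) (nat_lit 18216383149) (nat_lit 1824) (nat_lit 7853880227) (nat_lit 1900) (nat_lit 36470067177) (nat_lit 483) (nat_lit 5) (nat_lit 507) (nat_lit 5) (nat_lit 508) (nat_lit 5) (nat_lit 494) (nat_lit 491) (nat_lit 215)) (XT.nd (nat_lit 78) (nat_lit 0) (nat_lit 76) (XT.lf (nat_lit 0) (nat_lit 20152317406) (nat_lit 1824) (nat_lit 23401059076) (nat_lit 1900) (nat_lit 19933613287) (nat_lit 484) (nat_lit 5) (nat_lit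 508) (nat_lit 5) (nat_lit 509) (nat_lit 5) (nat_lit 495) (nat_lit 491) (nat_lit 214)) (XT.lf (nat_lit 0) (nat_lit 22555030719) (nat_lit 1824) (nat_lit 39205402143) (nat_lit 1900) (nat_lit 2693441907) (nat_lit 485) (nat_lit 5) (nat_lit 509) (nat_lit 5) (nat_lit 510) (nat_lit 5) (nat_lit 496) (nat_lit 491) (nat_lit 213)))) (XT.nd (nat_lit 156) (nat_lit 0) (nat_lit 152) (XT.nd (nat_lit 78) (nat_lit 0) (nat_lit 76) (XT.lf (nat_lit 76) (nat_lit 10070375489) (nat_lit 0) (nat_lit 15474762257) (nat_lit 1900) (nat_lit 39894322357) (nat_lit 486) (nat_lit 5) (nat_lit 485) (nat_lit 5) (nat_lit 510) (nat_lit 5) (nat_lit 497) (nat_lit 491) (nat_lit 212)) (XT.lf (nat_lit 0) (nat_lit 29100507026) (nat_lit 1824) (nat_lit 5299655538) (nat_lit 1900) (nat_lit 32044939281) (nat_lit 486) (nat_lit 5) (nat_lit 510) (nat_lit 5) (nat_lit 511) (nat_lit 5) (nat_lit 498) (nat_lit 491) (nat_lit 211))) (XT.nd (nat_lit 78) (nat_lit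 0) (nat_lit 0) (XT.lf (nat_lit 0) (nat_lit 33257238629) (nat_lit 1824) (nat_lit 20779846842) (nat_lit 1900) (nat_lit 13433933369) (nat_lit 487) (nat_lit 5) (nat_lit 511) (nat_lit 5) (nat_lit 512) (nat_lit 5) (nat_lit 499) (nat_lit 491) (nat_lit 210)) (XT.lf (nat_lit 76) (nat_lit 31975748133) (nat_lit 0) (nat_lit 6035853443) (nat_lit 1900) (nat_lit 30506653208) (nat_lit 488) (nat_lit 5) (nat_lit 487) (nat_lit 5) (nat_lit 512) (nat_lit 5) (nat_lit 500) (nat_lit 491) (nat_lit 209))))) (XT.nd (nat_lit 61932) (nat_lit 0) (nat_lit 76) (XT.nd (nat_lit 61776) (nat_lit 532) (nat_lit 0) (XT.nd (nat_lit 78) (nat_lit 0) (nat_lit 76) (XT.lf (nat_lit 76) (nat_lit 16943207733) (nat_lit 0) (nat_lit 26498100219) (nat_lit 1900) (nat_lit 26144945630) (nat_lit 489) (nat_lit 5) (nat_lit 488) (nat_lit 5) (nat_lit 513) (nat_lit 5) (nat_lit 501) (nat_lit 491) (nat_lit 208)) (XT.lf (nat_lit 76) (nat_lit 1683266552) (nat_lit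 0) (nat_lit 47798901226) (nat_lit 1900) (nat_lit 21195159344) (nat_lit 490) (nat_lit 5) (nat_lit 489) (nat_lit 5) (nat_lit 514) (nat_lit 5) (nat_lit 502) (nat_lit 491) (nat_lit 207))) (XT.nd (nat_lit 78) (nat_lit 0) (nat_lit 76) (XT.lf (nat_lit 0) (nat_lit 7962853297) (nat_lit 1900) (nat_lit 11419176780) (nat_lit 1900) (nat_lit 11419176780) (nat_lit 481) (nat_lit 3) (nat_lit 506) (nat_lit 3) (nat_lit 506) (nat_lit 5) (nat_lit 492) (nat_lit 492) (nat_lit 216)) (XT.lf (nat_lit 0) (nat_lit 16389330446) (nat_lit 1824) (nat_lit 39083820002) (nat_lit 1900) (nat_lit 7048803925) (nat_lit 482) (nat_lit 5) (nat_lit 506) (nat_lit 5) (nat_lit 507) (nat_lit 5) (nat_lit 493) (nat_lit 492) (nat_lit 215)))) (XT.nd (nat_lit 156) (nat_lit 0) (nat_lit 152) (XT.nd (nat_lit 78) (nat_lit 0) (nat_lit 76) (XT.lf (nat_lit 76) (nat_lit 7790922381) (nat_lit 0) (nat_lit 9540531431) (nat_lit 1900) (nat_lit 46128335652) (nat_lit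 483) (nat_lit 5) (nat_lit 482) (nat_lit 5) (nat_lit 507) (nat_lit 5) (nat_lit 494) (nat_lit 492) (nat_lit 214)) (XT.lf (nat_lit 0) (nat_lit 18812686011) (nat_lit 1824) (nat_lit 8061111713) (nat_lit 1900) (nat_lit 37541745012) (nat_lit 483) (nat_lit 5) (nat_lit 507) (nat_lit 5) (nat_lit 508) (nat_lit 5) (nat_lit 495) (nat_lit 492) (nat_lit 213))) (XT.nd (nat_lit 78) (nat_lit 0) (nat_lit 76) (XT.lf (nat_lit 0) (nat_lit 20805294921) (nat_lit 1824) (nat_lit 24074060278) (nat_lit 1900) (nat_lit 20511274641) (nat_lit 484) (nat_lit 5) (nat_lit 508) (nat_lit 5) (nat_lit 509) (nat_lit 5) (nat_lit 496) (nat_lit 492) (nat_lit 212)) (XT.lf (nat_lit 0) (nat_lit 23278744201) (nat_lit 1824) (nat_lit 40351938615) (nat_lit 1900) (nat_lit 2755865526) (nat_lit 485) (nat_lit 5) (nat_lit 509) (nat_lit 5) (nat_lit 510) (nat_lit 5) (nat_lit 497) (nat_lit 492) (nat_lit 211))))))) (XT.nd (nat_lit 124800) (nat_lit 0) (nat_lit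 0) (XT.nd (nat_lit 62322) (nat_lit 0) (nat_lit 0) (XT.nd (nat_lit 234) (nat_lit 304) (nat_lit 0) (XT.nd (nat_lit 78) (nat_lit 0) (nat_lit 76) (XT.lf (nat_lit 76) (nat_lit 10401631706) (nat_lit 0) (nat_lit 15955741207) (nat_lit 1900) (nat_lit 41044351995) (nat_lit 486) (nat_lit 5) (nat_lit 485) (nat_lit 5) (nat_lit 510) (nat_lit 5) (nat_lit 498) (nat_lit 492) (nat_lit 210)) (XT.nd (nat_lit 78) (nat_lit 0) (nat_lit 76) (XT.lf (nat_lit 0) (nat_lit 30017961434) (nat_lit 1824) (nat_lit 5429351405) (nat_lit 1900) (nat_lit 32990251940) (nat_lit 486) (nat_lit 5) (nat_lit 510) (nat_lit 5) (nat_lit 511) (nat_lit 5) (nat_lit 499) (nat_lit 492) (nat_lit 209)) (XT.lf (nat_lit 0) (nat_lit 34298193517) (nat_lit 1824) (nat_lit 21373461536) (nat_lit 1900) (nat_lit 13822628298) (nat_lit 487) (nat_lit 5) (nat_lit 511) (nat_lit 5) (nat_lit 512) (nat_lit 5) (nat_lit 500) (nat_lit 492) (nat_lit 208)))) (XT.nd (nat_lit 61932)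 (nat_lit 0) (nat_lit 76) (XT.nd (nat_lit 61854) (nat_lit 456) (nat_lit 0) (XT.lf (nat_lit 76) (nat_lit 32964318131) (nat_lit 0) (nat_lit 6229800089) (nat_lit 1900) (nat_lit 31378839574) (nat_lit 488) (nat_lit 5) (nat_lit 487) (nat_lit 5) (nat_lit 512) (nat_lit 5) (nat_lit 501) (nat_lit 492) (nat_lit 207)) (XT.lf (nat_lit 0) (nat_lit 8227371624) (nat_lit 1900) (nat_lit 11748679004) (nat_lit 1900) (nat_lit 11748679004) (nat_lit 481) (nat_lit 3) (nat_lit 506) (nat_lit 3) (nat_lit 506) (nat_lit 5) (nat_lit 493) (nat_lit 493) (nat_lit 214))) (XT.nd (nat_lit 78) (nat_lit 0) (nat_lit 0) (XT.lf (nat_lit 0) (nat_lit 16930792415) (nat_lit 1824) (nat_lit 40229455107) (nat_lit 1900) (nat_lit 7236368334) (nat_lit 482) (nat_lit 5) (nat_lit 506) (nat_lit 5) (nat_lit 507) (nat_lit 5) (nat_lit 494) (nat_lit 493) (nat_lit 213)) (XT.lf (nat_lit 76) (nat_lit 8051093460) (nat_lit 0) (nat_lit 9848807748) (nat_lit 1900) (nat_lit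 47462710402) (nat_lit 483) (nat_lit 5) (nat_lit 482) (nat_lit 5) (nat_lit 507) (nat_lit 5) (nat_lit 495) (nat_lit 493) (nat_lit 212))))) (XT.nd (nat_lit 312) (nat_lit 152) (nat_lit 0) (XT.nd (nat_lit 156) (nat_lit 0) (nat_lit 152) (XT.nd (nat_lit 78) (nat_lit 0) (nat_lit 76) (XT.lf (nat_lit 0) (nat_lit 19424018583) (nat_lit 1824) (nat_lit 8276189554) (nat_lit 1900) (nat_lit 38646860422) (nat_lit 483) (nat_lit 5) (nat_lit 507) (nat_lit 5) (nat_lit 508) (nat_lit 5) (nat_lit 496) (nat_lit 493) (nat_lit 211)) (XT.lf (nat_lit 0) (nat_lit 21475082944) (nat_lit 1824) (nat_lit 24768917989) (nat_lit 1900) (nat_lit 21107433840) (nat_lit 484) (nat_lit 5) (nat_lit 508) (nat_lit 5) (nat_lit 509) (nat_lit 5) (nat_lit 497) (nat_lit 493) (nat_lit 210))) (XT.nd (nat_lit 78) (nat_lit 0) (nat_lit 0) (XT.lf (nat_lit 0) (nat_lit 24021467504) (nat_lit 1824) (nat_lit 41534571812) (nat_lit 1900) (nat_lit 2821216919) (nat_lit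 485) (nat_lit 5) (nat_lit 509) (nat_lit 5) (nat_lit 510) (nat_lit 5) (nat_lit 498) (nat_lit 493) (nat_lit 209)) (XT.lf (nat_lit 76) (nat_lit 10741152570) (nat_lit 0) (nat_lit 16450188806) (nat_lit 1900) (nat_lit 42231569034) (nat_lit 486) (nat_lit 5) (nat_lit 485) (nat_lit 5) (nat_lit 510) (nat_lit 5) (nat_lit 499) (nat_lit 493) (nat_lit 208)))) (XT.nd (nat_lit 62010) (nat_lit 380) (nat_lit 0) (XT.nd (nat_lit 78) (nat_lit 0) (nat_lit 76) (XT.lf (nat_lit 0) (nat_lit 30960388482) (nat_lit 1824) (nat_lit 5564619732) (nat_lit 1900) (nat_lit 33964844482) (nat_lit 486) (nat_lit 5) (nat_lit 510) (nat_lit 5) (nat_lit 511) (nat_lit 5) (nat_lit 500) (nat_lit 493) (nat_lit 207)) (XT.lf (nat_lit 0) (nat_lit 35367895030) (nat_lit 1824) (nat_lit 21986594206) (nat_lit 1900) (nat_lit 14223806278) (nat_lit 487) (nat_lit 5) (nat_lit 511) (nat_lit 5) (nat_lit 512) (nat_lit 5) (nat_lit 501) (nat_lit 493) (nat_lit 206)))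 (XT.nd (nat_lit 78) (nat_lit 0) (nat_lit 76) (XT.lf (nat_lit 0) (nat_lit 8498354077) (nat_lit 1900) (nat_lit 12088816744) (nat_lit 1900) (nat_lit 12088816744) (nat_lit 481) (nat_lit 3) (nat_lit 506) (nat_lit 3) (nat_lit 506) (nat_lit 5) (nat_lit 494) (nat_lit 494) (nat_lit 212)) (XT.lf (nat_lit 0) (nat_lit 17485640550) (nat_lit 1824) (nat_lit 41411002258) (nat_lit 1900) (nat_lit 7430931616) (nat_lit 482) (nat_lit 5) (nat_lit 506) (nat_lit 5) (nat_lit 507) (nat_lit 5) (nat_lit 495) (nat_lit 494) (nat_lit 211)))))) (XT.nd (nat_lit 62556) (nat_lit 0) (nat_lit 0) (XT.nd (nat_lit 234) (nat_lit 76) (nat_lit 0) (XT.nd (nat_lit 78) (nat_lit 0) (nat_lit 76) (XT.lf (nat_lit 76) (nat_lit 8317551711) (nat_lit 0) (nat_lit 10165066000) (nat_lit 1900) (nat_lit 48839956481) (nat_lit 483) (nat_lit 5) (nat_lit 482) (nat_lit 5) (nat_lit 507) (nat_lit 5) (nat_lit 496) (nat_lit 494) (nat_lit 210)) (XT.nd (nat_lit 78) (nat_lit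 0) (nat_lit 76) (XT.lf (nat_lit 0) (nat_lit 20050995895) (nat_lit 1824) (nat_lit 8499255606) (nat_lit 1900) (nat_lit 39786342640) (nat_lit 483) (nat_lit 5) (nat_lit 507) (nat_lit 5) (nat_lit 508) (nat_lit 5) (nat_lit 497) (nat_lit 494) (nat_lit 209)) (XT.lf (nat_lit 0) (nat_lit 22162345307) (nat_lit 1824) (nat_lit 25486192243) (nat_lit 1900) (nat_lit 21722578770) (nat_lit 484) (nat_lit 5) (nat_lit 508) (nat_lit 5) (nat_lit 509) (nat_lit 5) (nat_lit 498) (nat_lit 494) (nat_lit 208)))) (XT.nd (nat_lit 62166) (nat_lit 304) (nat_lit 0) (XT.nd (nat_lit 78) (nat_lit 0) (nat_lit 0) (XT.lf (nat_lit 0) (nat_lit 24783926004) (nat_lit 1824) (nat_lit 42754287011) (nat_lit 1900) (nat_lit 2889523355) (nat_lit 485) (nat_lit 5) (nat_lit 509) (nat_lit 5) (nat_lit 510) (nat_lit 5) (nat_lit 499) (nat_lit 494) (nat_lit 207)) (XT.lf (nat_lit 76) (nat_lit 11089282060) (nat_lit 0) (nat_lit 16958564263) (nat_lit 1900) (nat_lit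 43456934882) (nat_lit 486) (nat_lit 5) (nat_lit 485) (nat_lit 5) (nat_lit 510) (nat_lit 5) (nat_lit 500) (nat_lit 494) (nat_lit 206))) (XT.nd (nat_lit 78) (nat_lit 0) (nat_lit 76) (XT.lf (nat_lit 0) (nat_lit 8776079046) (nat_lit 1900) (nat_lit 12439865984) (nat_lit 1900) (nat_lit 12439865984) (nat_lit 481) (nat_lit 3) (nat_lit 506) (nat_lit 3) (nat_lit 506) (nat_lit 5) (nat_lit 495) (nat_lit 495) (nat_lit 210)) (XT.lf (nat_lit 0) (nat_lit 18054440479) (nat_lit 1824) (nat_lit 42629450243) (nat_lit 1900) (nat_lit 7632624983) (nat_lit 482) (nat_lit 5) (nat_lit 506) (nat_lit 5) (nat_lit 507) (nat_lit 5) (nat_lit 496) (nat_lit 495) (nat_lit 209))))) (XT.nd (nat_lit 62478) (nat_lit 0) (nat_lit 76) (XT.nd (nat_lit 156) (nat_lit 76) (nat_lit 0) (XT.nd (nat_lit 78) (nat_lit 0) (nat_lit 76) (XT.lf (nat_lit 76) (nat_lit 8590572887) (nat_lit 0) (nat_lit 10489618337) (nat_lit 1900) (nat_lit 50261196994) (nat_lit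 483) (nat_lit 5) (nat_lit 482) (nat_lit 5) (nat_lit 507) (nat_lit 5) (nat_lit 497) (nat_lit 495) (nat_lit 208)) (XT.lf (nat_lit 0) (nat_lit 20694242008) (nat_lit 1824) (nat_lit 8730461350) (nat_lit 1900) (nat_lit 40961153022) (nat_lit 483) (nat_lit 5) (nat_lit 507) (nat_lit 5) (nat_lit 508) (nat_lit 5) (nat_lit 498) (nat_lit 495) (nat_lit 207))) (XT.nd (nat_lit 62244) (nat_lit 228) (nat_lit 0) (XT.lf (nat_lit 0) (nat_lit 22867756598) (nat_lit 1824) (nat_lit 26226465364) (nat_lit 1900) (nat_lit 22357215804) (nat_lit 484) (nat_lit 5) (nat_lit 508) (nat_lit 5) (nat_lit 509) (nat_lit 5) (nat_lit 499) (nat_lit 495) (nat_lit 206)) (XT.lf (nat_lit 0) (nat_lit 9060828423) (nat_lit 1900) (nat_lit 12802113466) (nat_lit 1900) (nat_lit 12802113466) (nat_lit 481) (nat_lit 3) (nat_lit 506) (nat_lit 3) (nat_lit 506) (nat_lit 5) (nat_lit 496) (nat_lit 496) (nat_lit 208)))) (XT.nd (nat_lit 156) (nat_lit 0) (nat_lit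 0) (XT.nd (nat_lit 78) (nat_lit 0) (nat_lit 0) (XT.lf (nat_lit 0) (nat_lit 18637765382) (nat_lit 1824) (nat_lit 43885822597) (nat_lit 1900) (nat_lit 7841588103) (nat_lit 482) (nat_lit 5) (nat_lit 506) (nat_lit 5) (nat_lit 507) (nat_lit 5) (nat_lit 497) (nat_lit 496) (nat_lit 207)) (XT.lf (nat_lit 76) (nat_lit 8870436010) (nat_lit 0) (nat_lit 10822782103) (nat_lit 1900) (nat_lit 51727598103) (nat_lit 483) (nat_lit 5) (nat_lit 482) (nat_lit 5) (nat_lit 507) (nat_lit 5) (nat_lit 498) (nat_lit 496) (nat_lit 206))) (XT.nd (nat_lit 62400) (nat_lit 76) (nat_lit 0) (XT.lf (nat_lit 0) (nat_lit 21354390822) (nat_lit 1824) (nat_lit 8969967872) (nat_lit 1900) (nat_lit 42172285757) (nat_lit 483) (nat_lit 5) (nat_lit 507) (nat_lit 5) (nat_lit 508) (nat_lit 5) (nat_lit 499) (nat_lit 496) (nat_lit 205)) (XT.lf (nat_lit 0) (nat_lit 19236196758) (nat_lit 1824) (nat_lit 45181178353) (nat_lit 1900) (nat_lit 8057969095)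 (nat_lit 482) (nat_lit 5) (nat_lit 506) (nat_lit 5) (nat_lit 507) (nat_lit 5) (nat_lit 498) (nat_lit 497) (nat_lit 205))))))))

set_option maxRecDepth 10000000 in
noncomputable def Tp : PT := (PT.nd (nat_lit 12884274) (PT.nd (nat_lit 11762712) (PT.nd (nat_lit 10762752) (PT.nd (nat_lit 9826128) (PT.nd (nat_lit 9077016) (PT.nd (nat_lit 8515104) pc0 pc1) (PT.nd (nat_lit 374712) pc2 pc3)) (PT.nd (nat_lit 499824) (PT.nd (nat_lit 250068) pc4 pc5) (PT.nd (nat_lit 249444) pc6 pc7))) (PT.nd (nat_lit 562692) (PT.nd (nat_lit 312468) (PT.nd (nat_lit 187044) pc8 pc9) (PT.nd (nat_lit 125112) pc10 pc11)) (PT.nd (nat_lit 249366) (PT.nd (nat_lit 124800) pc12 pc13) (PT.nd (nat_lit 124410) pc14 pc15)))) (PT.nd (nat_lit 624858) (PT.nd (nat_lit 373776) (PT.nd (nat_lit 187200) (PT.nd (nat_lit 124020) pc16 pc17) (PT.nd (nat_lit 123552) pc18 pc19)) (PT.nd (nat_lit 125736) (PT.nd (nat_lit 62868) pc20 pc21) (PT.nd (nat_lit 62712)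 pc22 pc23))) (PT.nd (nat_lit 249210) (PT.nd (nat_lit 124722) (PT.nd (nat_lit 62400) pc24 pc25) (PT.nd (nat_lit 62244) pc26 pc27)) (PT.nd (nat_lit 123942) (PT.nd (nat_lit 62010) pc28 pc29) (PT.nd (nat_lit 61776) pc30 pc31))))) (PT.nd (nat_lit 624624) (PT.nd (nat_lit 314184) (PT.nd (nat_lit 128154) (PT.nd (nat_lit 64116) (PT.nd (nat_lit 2574) pc32 pc33) (PT.nd (nat_lit 61386) pc34 pc35)) (PT.nd (nat_lit 122382) (PT.nd (nat_lit 61230) pc36 pc37) (PT.nd (nat_lit 2574) pc38 pc39))) (PT.nd (nat_lit 184704) (PT.nd (nat_lit 63414) (PT.nd (nat_lit 60840) pc40 pc41) (PT.nd (nat_lit 60684) pc42 pc43)) (PT.nd (nat_lit 62946) (PT.nd (nat_lit 2574) pc44 pc45) (PT.nd (nat_lit 2574) pc46 pc47)))) (PT.nd (nat_lit 378066) (PT.nd (nat_lit 127764) (PT.nd (nat_lit 62556) (PT.nd (nat_lit 2574) pc48 pc49) (PT.nd (nat_lit 3510) pc50 pc51)) (PT.nd (nat_lit 121680) (PT.nd (nat_lit 62166) pc52 pc53) (PT.nd (nat_lit 62166) pc54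 pc55))) (PT.nd (nat_lit 369486) (PT.nd (nat_lit 182052) (PT.nd (nat_lit 62946) pc56 pc57) (PT.nd (nat_lit 68250) pc58 pc59)) (PT.nd (nat_lit 256386) (PT.nd (nat_lit 124410) pc60 pc61) (PT.nd (nat_lit 179790) pc62 pc63))))))

set_option maxRecDepth 10000000 in
noncomputable def Tx : XT := (XT.nd (nat_lit 22280232) (nat_lit 0) (nat_lit 836) XT.nil (XT.nd (nat_lit 8810256) (nat_lit 0) (nat_lit 0) (XT.nd (nat_lit 4119726) (nat_lit 0) (nat_lit 4484) (XT.nd (nat_lit 2622516) (nat_lit 0) (nat_lit 3876) (XT.nd (nat_lit 1811238) (nat_lit 0) (nat_lit 1672) (XT.nd (nat_lit 1248780) (nat_lit 0) (nat_lit 684) (XT.nd (nat_lit 873366) (nat_lit 0) (nat_lit 380) (XT.nd (nat_lit 562302) (nat_lit 0) (nat_lit 76) (XT.nd (nat_lit 374712) (nat_lit 0) (nat_lit 0) xc0 xc1) (XT.nd (nat_lit 186186) (nat_lit 0) (nat_lit 76) xc2 xc3)) (XT.nd (nat_lit 188370) (nat_lit 0) (nat_lit 76) (XT.nd (nat_lit 124176) (nat_lit 0) (nat_lit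 0) xc4 xc5) (XT.nd (nat_lit 123318) (nat_lit 0) (nat_lit 228) xc6 xc7))) (XT.nd (nat_lit 311922) (nat_lit 0) (nat_lit 608) (XT.nd (nat_lit 185718) (nat_lit 0) (nat_lit 380) (XT.nd (nat_lit 122382) (nat_lit 0) (nat_lit 380) xc8 xc9) (XT.nd (nat_lit 63180) (nat_lit 0) (nat_lit 152) xc10 xc11)) (XT.nd (nat_lit 125580) (nat_lit 0) (nat_lit 76) (XT.nd (nat_lit 62868) (nat_lit 0) (nat_lit 76) xc12 xc13) (XT.nd (nat_lit 62556) (nat_lit 0) (nat_lit 152) xc14 xc15)))) (XT.nd (nat_lit 437112) (nat_lit 0) (nat_lit 1064) (XT.nd (nat_lit 247962) (nat_lit 0) (nat_lit 684) (XT.nd (nat_lit 124254) (nat_lit 0) (nat_lit 152) (XT.nd (nat_lit 62166) (nat_lit 0) (nat_lit 0) xc16 xc17) (XT.nd (nat_lit 61932) (nat_lit 0) (nat_lit 228) xc18 xc19)) (XT.nd (nat_lit 123162) (nat_lit 0) (nat_lit 228) (XT.nd (nat_lit 61620) (nat_lit 0) (nat_lit 76) xc20 xc21) (XT.nd (nat_lit 61386) (nat_lit 0) (nat_lit 2964) xc22 xc23))) (XT.nd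 (nat_lit 187746) (nat_lit 0) (nat_lit 380) (XT.nd (nat_lit 122226) (nat_lit 0) (nat_lit 228) (XT.nd (nat_lit 61152) (nat_lit 0) (nat_lit 76) xc24 xc25) (XT.nd (nat_lit 60918) (nat_lit 0) (nat_lit 2052) xc26 xc27)) (XT.nd (nat_lit 121368) (nat_lit 0) (nat_lit 304) (XT.nd (nat_lit 60762) (nat_lit 0) (nat_lit 304) xc28 xc29) (XT.nd (nat_lit 60450) (nat_lit 0) (nat_lit 6384) xc30 xc31))))) (XT.nd (nat_lit 745680) (nat_lit 0) (nat_lit 152) (XT.nd (nat_lit 371280) (nat_lit 0) (nat_lit 1140) (XT.nd (nat_lit 185406) (nat_lit 0) (nat_lit 608) (XT.nd (nat_lit 120510) (nat_lit 0) (nat_lit 380) (XT.nd (nat_lit 60294) (nat_lit 0) (nat_lit 152) xc32 xc33) (XT.nd (nat_lit 4602) (nat_lit 5244) (nat_lit 0) xc34 xc35)) (XT.nd (nat_lit 64896) (nat_lit 0) (nat_lit 0) (XT.nd (nat_lit 60294) (nat_lit 0) (nat_lit 4332) xc36 xc37) (XT.nd (nat_lit 60450) (nat_lit 0) (nat_lit 304) xc38 xc39))) (XT.nd (nat_lit 186810) (nat_lit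 0) (nat_lit 988) (XT.nd (nat_lit 65130) (nat_lit 0) (nat_lit 532) (XT.nd (nat_lit 4524) (nat_lit 2128) (nat_lit 0) xc40 xc41) (XT.nd (nat_lit 60762) (nat_lit 0) (nat_lit 456) xc42 xc43)) (XT.nd (nat_lit 65520) (nat_lit 0) (nat_lit 76) (XT.nd (nat_lit 4602) (nat_lit 4180) (nat_lit 0) xc44 xc45) (XT.nd (nat_lit 60996) (nat_lit 0) (nat_lit 228) xc46 xc47)))) (XT.nd (nat_lit 377520) (nat_lit 2508) (nat_lit 0) (XT.nd (nat_lit 188214) (nat_lit 0) (nat_lit 1216) (XT.nd (nat_lit 65676) (nat_lit 0) (nat_lit 380) (XT.nd (nat_lit 4524) (nat_lit 4408) (nat_lit 0) xc48 xc49) (XT.nd (nat_lit 61230) (nat_lit 0) (nat_lit 228) xc50 xc51)) (XT.nd (nat_lit 66066) (nat_lit 304) (nat_lit 0) (XT.nd (nat_lit 4524) (nat_lit 380) (nat_lit 0) xc52 xc53) (XT.nd (nat_lit 61620) (nat_lit 380) (nat_lit 0) xc54 xc55))) (XT.nd (nat_lit 188058) (nat_lit 0) (nat_lit 228) (XT.nd (nat_lit 123084) (nat_lit 228) (nat_lit 0) (XT.nd (nat_lit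 61542) (nat_lit 0) (nat_lit 0) xc56 xc57) (XT.nd (nat_lit 4602) (nat_lit 5396) (nat_lit 0) xc58 xc59)) (XT.nd (nat_lit 65052) (nat_lit 0) (nat_lit 0) (XT.nd (nat_lit 60450) (nat_lit 0) (nat_lit 3800) xc60 xc61) (XT.nd (nat_lit 60450) (nat_lit 0) (nat_lit 0) xc62 xc63)))))) (XT.nd (nat_lit 1503684) (nat_lit 0) (nat_lit 4940) (XT.nd (nat_lit 690846) (nat_lit 0) (nat_lit 1520) (XT.nd (nat_lit 316602) (nat_lit 0) (nat_lit 228) (XT.nd (nat_lit 130182) (nat_lit 0) (nat_lit 228) (XT.nd (nat_lit 65052) (nat_lit 0) (nat_lit 0) (XT.nd (nat_lit 4524) (nat_lit 2432) (nat_lit 0) xc64 xc65) (XT.nd (nat_lit 60528) (nat_lit 0) (nat_lit 532) xc66 xc67)) (XT.nd (nat_lit 121134) (nat_lit 0) (nat_lit 0) (XT.nd (nat_lit 60528) (nat_lit 0) (nat_lit 0) xc68 xc69) (XT.nd (nat_lit 60684) (nat_lit 0) (nat_lit 4712) xc70 xc71))) (XT.nd (nat_lit 186810) (nat_lit 0) (nat_lit 836) (XT.nd (nat_lit 121368) (nat_lit 0) (nat_lit 532)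 (XT.nd (nat_lit 60606) (nat_lit 0) (nat_lit 304) xc72 xc73) (XT.nd (nat_lit 4602) (nat_lit 1064) (nat_lit 0) xc74 xc75)) (XT.nd (nat_lit 121836) (nat_lit 0) (nat_lit 228) (XT.nd (nat_lit 60918) (nat_lit 0) (nat_lit 0) xc76 xc77) (XT.nd (nat_lit 4602) (nat_lit 1976) (nat_lit 0) xc78 xc79)))) (XT.nd (nat_lit 376428) (nat_lit 0) (nat_lit 1444) (XT.nd (nat_lit 187980) (nat_lit 0) (nat_lit 532) (XT.nd (nat_lit 122148) (nat_lit 0) (nat_lit 532) (XT.nd (nat_lit 60996) (nat_lit 0) (nat_lit 304) xc80 xc81) (XT.nd (nat_lit 4602) (nat_lit 912) (nat_lit 0) xc82 xc83)) (XT.nd (nat_lit 122460) (nat_lit 0) (nat_lit 608) (XT.nd (nat_lit 61152) (nat_lit 0) (nat_lit 304) xc84 xc85) (XT.nd (nat_lit 61386) (nat_lit 0) (nat_lit 2280) xc86 xc87))) (XT.nd (nat_lit 246246) (nat_lit 0) (nat_lit 988) (XT.nd (nat_lit 122928) (nat_lit 0) (nat_lit 304) (XT.nd (nat_lit 61386) (nat_lit 0) (nat_lit 304) xc88 xc89) (XT.nd (nat_lit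 61620) (nat_lit 0) (nat_lit 304) xc90 xc91)) (XT.nd (nat_lit 66378) (nat_lit 0) (nat_lit 304) (XT.nd (nat_lit 61776) (nat_lit 0) (nat_lit 1748) xc92 xc93) (XT.nd (nat_lit 61854) (nat_lit 0) (nat_lit 304) xc94 xc95))))) (XT.nd (nat_lit 1059942) (nat_lit 0) (nat_lit 6080) (XT.nd (nat_lit 498108) (nat_lit 0) (nat_lit 2660) (XT.nd (nat_lit 248430) (nat_lit 0) (nat_lit 1444) (XT.nd (nat_lit 124020) (nat_lit 0) (nat_lit 760) (XT.nd (nat_lit 61932) (nat_lit 0) (nat_lit 304) xc96 xc97) (XT.nd (nat_lit 62166) (nat_lit 0) (nat_lit 304) xc98 xc99)) (XT.nd (nat_lit 124644) (nat_lit 0) (nat_lit 760) (XT.nd (nat_lit 62244) (nat_lit 0) (nat_lit 380) xc100 xc101) (XT.nd (nat_lit 62478) (nat_lit 0) (nat_lit 0) xc102 xc103))) (XT.nd (nat_lit 250926) (nat_lit 0) (nat_lit 1596) (XT.nd (nat_lit 125268) (nat_lit 0) (nat_lit 760) (XT.nd (nat_lit 62556) (nat_lit 0) (nat_lit 380) xc104 xc105) (XT.nd (nat_lit 62790) (nat_lit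 0) (nat_lit 456) xc106 xc107)) (XT.nd (nat_lit 125970) (nat_lit 0) (nat_lit 912) (XT.nd (nat_lit 62946) (nat_lit 0) (nat_lit 456) xc108 xc109) (XT.nd (nat_lit 63102) (nat_lit 0) (nat_lit 456) xc110 xc111)))) (XT.nd (nat_lit 688116) (nat_lit 0) (nat_lit 6840) (XT.nd (nat_lit 313092) (nat_lit 0) (nat_lit 3116) (XT.nd (nat_lit 126750) (nat_lit 0) (nat_lit 1520) (XT.nd (nat_lit 63258) (nat_lit 0) (nat_lit 988) xc112 xc113) (XT.nd (nat_lit 63570) (nat_lit 0) (nat_lit 532) xc114 xc115)) (XT.nd (nat_lit 127608) (nat_lit 0) (nat_lit 1216) (XT.nd (nat_lit 63726) (nat_lit 0) (nat_lit 608) xc116 xc117) (XT.nd (nat_lit 123552) (nat_lit 0) (nat_lit 1216) xc118 xc119))) (XT.nd (nat_lit 438906) (nat_lit 0) (nat_lit 5168) (XT.nd (nat_lit 188760) (nat_lit 0) (nat_lit 2128) (XT.nd (nat_lit 64272) (nat_lit 0) (nat_lit 684) xc120 xc121) (XT.nd (nat_lit 124878) (nat_lit 0) (nat_lit 2204) xc122 xc123)) (XT.nd (nat_lit 312702)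 (nat_lit 0) (nat_lit 5168) (XT.nd (nat_lit 125658) (nat_lit 0) (nat_lit 2432) xc124 xc125) (XT.nd (nat_lit 249366) (nat_lit 0) (nat_lit 3040) xc126 xc127))))))) XT.nil))

set_option maxRecDepth 10000000 in
noncomputable def Te : XT := XT.nil

set_option maxRecDepth 10000000 in
noncomputable def Tz : ZL := (ZL.cons (nat_lit 76) (nat_lit 6) (nat_lit 593566968227791701376) (ZL.cons (nat_lit 152) (nat_lit 3) (nat_lit 292410313307251284344) (ZL.cons (nat_lit 6536) (nat_lit 6) (nat_lit 227594281740801796782) (ZL.cons (nat_lit 6612) (nat_lit 6) (nat_lit 224507034892831443002) (ZL.cons (nat_lit 6688) (nat_lit 3) (nat_lit 112205400027701781833) (ZL.cons (nat_lit 6840) (nat_lit 6) (nat_lit 221327170639421978604) (ZL.cons (nat_lit 6916) (nat_lit 6) (nat_lit 218340699059386766422) (ZL.cons (nat_lit 6992) (nat_lit 3) (nat_lit 109123633589194412662) (ZL.cons (nat_lit 7144) (nat_lit 6) (nat_lit 215264633331950497876)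 (ZL.cons (nat_lit 7220) (nat_lit 6) (nat_lit 212376662915192632678) (ZL.cons (nat_lit 7296) (nat_lit 3) (nat_lit 106142976175558480853) (ZL.cons (nat_lit 7448) (nat_lit 6) (nat_lit 209402053385932031522) (ZL.cons (nat_lit 7524) (nat_lit 6) (nat_lit 206610416524678555442) (ZL.cons (nat_lit 7600) (nat_lit 3) (nat_lit 103261174007933612202) (ZL.cons (nat_lit 7752) (nat_lit 6) (nat_lit 203735030557587475082) (ZL.cons (nat_lit 7828) (nat_lit 6) (nat_lit 201037665490983607078) (ZL.cons (nat_lit 7904) (nat_lit 3) (nat_lit 100476081042185332159) (ZL.cons (nat_lit 7980) (nat_lit 6) (nat_lit 198427895895123636428) (ZL.cons (nat_lit 8056) (nat_lit 6) (nat_lit 198259379472381623032) (ZL.cons (nat_lit 8132) (nat_lit 6) (nat_lit 195654329804774923902) (ZL.cons (nat_lit 8208) (nat_lit 3) (nat_lit 97785658394322926633) (ZL.cons (nat_lit 8284) (nat_lit 6) (nat_lit 193134736824559454276) (ZL.cons (nat_lit 8360) (nat_lit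 6) (nat_lit 192971128647140023798) (ZL.cons (nat_lit 8512) (nat_lit 6) (nat_lit 190456543038808449926) (ZL.cons (nat_lit 8588) (nat_lit 3) (nat_lit 95187973938759045042) (ZL.cons (nat_lit 8664) (nat_lit 6) (nat_lit 188025362752925405034) (ZL.cons (nat_lit 8740) (nat_lit 6) (nat_lit 187866519862226928838) (ZL.cons (nat_lit 8892) (nat_lit 6) (nat_lit 185440651897175508952) (ZL.cons (nat_lit 8968) (nat_lit 3) (nat_lit 92681202083883696299) (ZL.cons (nat_lit 9044) (nat_lit 6) (nat_lit 183096224291908931122) (ZL.cons (nat_lit 9120) (nat_lit 6) (nat_lit 182942007893172546468) (ZL.cons (nat_lit 9272) (nat_lit 6) (nat_lit 180603216129076239606) (ZL.cons (nat_lit 9348) (nat_lit 3) (nat_lit 90263623729873985653) (ZL.cons (nat_lit 9424) (nat_lit 6) (nat_lit 178343985271024407282) (ZL.cons (nat_lit 9500) (nat_lit 6) (nat_lit 178194260612057043540) (ZL.cons (nat_lit 9576) (nat_lit 6) (nat_lit 176162341233801276052)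 (ZL.cons (nat_lit 9652) (nat_lit 6) (nat_lit 175941008817902751688) (ZL.cons (nat_lit 9728) (nat_lit 3) (nat_lit 87933626414131828123) (ZL.cons (nat_lit 9804) (nat_lit 6) (nat_lit 173765523216494087140) (ZL.cons (nat_lit 9880) (nat_lit 6) (nat_lit 173620159469923831076) (ZL.cons (nat_lit 9956) (nat_lit 6) (nat_lit 171665902898082246210) (ZL.cons (nat_lit 10032) (nat_lit 6) (nat_lit 171451017057404067214) (ZL.cons (nat_lit 10108) (nat_lit 3) (nat_lit 85689704650236453296) (ZL.cons (nat_lit 10184) (nat_lit 6) (nat_lit 169640313242971529230) (ZL.cons (nat_lit 10260) (nat_lit 6) (nat_lit 169357930223547793990) (ZL.cons (nat_lit 10336) (nat_lit 6) (nat_lit 169216800372508710436) (ZL.cons (nat_lit 10412) (nat_lit 6) (nat_lit 167339070057529311744) (ZL.cons (nat_lit 10488) (nat_lit 6) (nat_lit 167130443027744671946) (ZL.cons (nat_lit 10564) (nat_lit 3) (nat_lit 83530460466818374507) (ZL.cons (nat_lit 10640)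 (nat_lit 6) (nat_lit 165392672506776371324) (ZL.cons (nat_lit 10716) (nat_lit 6) (nat_lit 165118514235491191480) (ZL.cons (nat_lit 10792) (nat_lit 6) (nat_lit 164981494962637712304) (ZL.cons (nat_lit 10868) (nat_lit 6) (nat_lit 163179255999716202892) (ZL.cons (nat_lit 10944) (nat_lit 6) (nat_lit 162976705485362183670) (ZL.cons (nat_lit 11020) (nat_lit 3) (nat_lit 81454604153308313713) (ZL.cons (nat_lit 11096) (nat_lit 6) (nat_lit 161310973822932135802) (ZL.cons (nat_lit 11172) (nat_lit 6) (nat_lit 161044800744014485468) (ZL.cons (nat_lit 11248) (nat_lit 6) (nat_lit 160911772323768389178) (ZL.cons (nat_lit 11324) (nat_lit 6) (nat_lit 159184092666490527478) (ZL.cons (nat_lit 11400) (nat_lit 6) (nat_lit 158987441681680800076) (ZL.cons (nat_lit 11476) (nat_lit 3) (nat_lit 79460955220090130015) (ZL.cons (nat_lit 11552) (nat_lit 6) (nat_lit 157392955391363347014) (ZL.cons (nat_lit 11628) (nat_lit 6) (nat_lit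 157134534926394754456) (ZL.cons (nat_lit 11704) (nat_lit 6) (nat_lit 157005381120330583298) (ZL.cons (nat_lit 11780) (nat_lit 6) (nat_lit 155669823847227493142) (ZL.cons (nat_lit 11856) (nat_lit 6) (nat_lit 155351433013172623734) (ZL.cons (nat_lit 11932) (nat_lit 6) (nat_lit 155160509726949587420) (ZL.cons (nat_lit 12008) (nat_lit 3) (nat_lit 77548443581192978154) (ZL.cons (nat_lit 12084) (nat_lit 6) (nat_lit 153636577891798971098) (ZL.cons (nat_lit 12160) (nat_lit 6) (nat_lit 153385684236489657934) (ZL.cons (nat_lit 12236) (nat_lit 6) (nat_lit 153260292191767161666) (ZL.cons (nat_lit 12312) (nat_lit 6) (nat_lit 151988471145177450636) (ZL.cons (nat_lit 12388) (nat_lit 6) (nat_lit 151679353830561072568) (ZL.cons (nat_lit 12464) (nat_lit 6) (nat_lit 151493991416752299450) (ZL.cons (nat_lit 12540) (nat_lit 3) (nat_lit 75716110968296717147) (ZL.cons (nat_lit 12616) (nat_lit 6) (nat_lit 150040027540847971398)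 (ZL.cons (nat_lit 12692) (nat_lit 6) (nat_lit 149796441467732133376) (ZL.cons (nat_lit 12768) (nat_lit 6) (nat_lit 149674701618486991370) (ZL.cons (nat_lit 12844) (nat_lit 6) (nat_lit 148466272946320508022) (ZL.cons (nat_lit 12920) (nat_lit 6) (nat_lit 148166159048634704074) (ZL.cons (nat_lit 12996) (nat_lit 6) (nat_lit 147986195540082497164) (ZL.cons (nat_lit 13072) (nat_lit 3) (nat_lit 73963112585498110157) (ZL.cons (nat_lit 13148) (nat_lit 6) (nat_lit 146956714921604823492) (ZL.cons (nat_lit 13224) (nat_lit 6) (nat_lit 146601719640841382722) (ZL.cons (nat_lit 13300) (nat_lit 6) (nat_lit 146365228307719209886) (ZL.cons (nat_lit 13376) (nat_lit 6) (nat_lit 146247034279325868132) (ZL.cons (nat_lit 13452) (nat_lit 6) (nat_lit 145101756258461864478) (ZL.cons (nat_lit 13528) (nat_lit 6) (nat_lit 144810383542262054820) (ZL.cons (nat_lit 13604) (nat_lit 6) (nat_lit 144635661689298747140) (ZL.cons (nat_lit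 13680) (nat_lit 3) (nat_lit 72288719014995841118) (ZL.cons (nat_lit 13756) (nat_lit 6) (nat_lit 143664958253880477918) (ZL.cons (nat_lit 13832) (nat_lit 6) (nat_lit 143320302641488787850) (ZL.cons (nat_lit 13908) (nat_lit 6) (nat_lit 143090699405447843348) (ZL.cons (nat_lit 13984) (nat_lit 6) (nat_lit 142975947921570812518) (ZL.cons (nat_lit 14060) (nat_lit 6) (nat_lit 142290070172530113090) (ZL.cons (nat_lit 14136) (nat_lit 6) (nat_lit 141893683592961840102) (ZL.cons (nat_lit 14212) (nat_lit 6) (nat_lit 141610797460729015190) (ZL.cons (nat_lit 14288) (nat_lit 6) (nat_lit 141441164593774347538) (ZL.cons (nat_lit 14364) (nat_lit 3) (nat_lit 70692318384602190806) (ZL.cons (nat_lit 14440) (nat_lit 6) (nat_lit 140529279836347547252) (ZL.cons (nat_lit 14516) (nat_lit 6) (nat_lit 140194662736938139420) (ZL.cons (nat_lit 14592) (nat_lit 6) (nat_lit 139971746973791591358) (ZL.cons (nat_lit 14668) (nat_lit 6)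 (nat_lit 139860337766143988610) (ZL.cons (nat_lit 14744) (nat_lit 6) (nat_lit 139225899174188673508) (ZL.cons (nat_lit 14820) (nat_lit 6) (nat_lit 138841057834802000704) (ZL.cons (nat_lit 14896) (nat_lit 6) (nat_lit 138566411104478869722) (ZL.cons (nat_lit 14972) (nat_lit 6) (nat_lit 138401719000639386564) (ZL.cons (nat_lit 15048) (nat_lit 3) (nat_lit 69173418808780874871) (ZL.cons (nat_lit 15124) (nat_lit 6) (nat_lit 137548799992755625720) (ZL.cons (nat_lit 15200) (nat_lit 6) (nat_lit 137223929022455229766) (ZL.cons (nat_lit 15276) (nat_lit 6) (nat_lit 137007505951439163688) (ZL.cons (nat_lit 15352) (nat_lit 6) (nat_lit 136899341672169646456) (ZL.cons (nat_lit 15428) (nat_lit 6) (nat_lit 136316760053461304044) (ZL.cons (nat_lit 15504) (nat_lit 6) (nat_lit 135943127685124728506) (ZL.cons (nat_lit 15580) (nat_lit 6) (nat_lit 135676480374131397456) (ZL.cons (nat_lit 15656) (nat_lit 6) (nat_lit 135516585127685297304)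 (ZL.cons (nat_lit 15732) (nat_lit 3) (nat_lit 67731651115746708447) (ZL.cons (nat_lit 15808) (nat_lit 6) (nat_lit 135143861477166254230) (ZL.cons (nat_lit 15884) (nat_lit 6) (nat_lit 134722887945687756764) (ZL.cons (nat_lit 15960) (nat_lit 6) (nat_lit 134407479236658246130) (ZL.cons (nat_lit 16036) (nat_lit 6) (nat_lit 134197359750234881006) (ZL.cons (nat_lit 16112) (nat_lit 6) (nat_lit 134092345886866417676) (ZL.cons (nat_lit 16264) (nat_lit 6) (nat_lit 133562143575245777382) (ZL.cons (nat_lit 16340) (nat_lit 6) (nat_lit 133199393703074344820) (ZL.cons (nat_lit 16416) (nat_lit 6) (nat_lit 132940512818614800112) (ZL.cons (nat_lit 16492) (nat_lit 6) (nat_lit 132785274715269071810) (ZL.cons (nat_lit 16568) (nat_lit 3) (nat_lit 66366771874046244445) (ZL.cons (nat_lit 16644) (nat_lit 6) (nat_lit 132459880331145006108) (ZL.cons (nat_lit 16720) (nat_lit 6) (nat_lit 132051168164661027984) (ZL.cons (nat_lit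 16796) (nat_lit 6) (nat_lit 131744946117059561348) (ZL.cons (nat_lit 16872) (nat_lit 6) (nat_lit 131540946615677653462) (ZL.cons (nat_lit 16948) (nat_lit 6) (nat_lit 131438991408523805570) (ZL.cons (nat_lit 17024) (nat_lit 6) (nat_lit 131415135070744966534) (ZL.cons (nat_lit 17100) (nat_lit 6) (nat_lit 130961799317549779132) (ZL.cons (nat_lit 17176) (nat_lit 6) (nat_lit 130609614975635766934) (ZL.cons (nat_lit 17252) (nat_lit 6) (nat_lit 130358274311111937120) (ZL.cons (nat_lit 17328) (nat_lit 6) (nat_lit 130207557705921909644) (ZL.cons (nat_lit 17404) (nat_lit 3) (nat_lit 65078666732972322336) (ZL.cons (nat_lit 17480) (nat_lit 6) (nat_lit 130426994909837542126) (ZL.cons (nat_lit 17556) (nat_lit 6) (nat_lit 129930335286048947652) (ZL.cons (nat_lit 17632) (nat_lit 6) (nat_lit 129533527357423726176) (ZL.cons (nat_lit 17708) (nat_lit 6) (nat_lit 129236224398587350800) (ZL.cons (nat_lit 17784) (nat_lit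 6) (nat_lit 129038166630255401396) (ZL.cons (nat_lit 17860) (nat_lit 6) (nat_lit 128939180992241956840) (ZL.cons (nat_lit 17936) (nat_lit 6) (nat_lit 128955874790907707582) (ZL.cons (nat_lit 18012) (nat_lit 6) (nat_lit 128515742991689079034) (ZL.cons (nat_lit 18088) (nat_lit 6) (nat_lit 128173816446141494380) (ZL.cons (nat_lit 18164) (nat_lit 6) (nat_lit 127929796383496999414) (ZL.cons (nat_lit 18240) (nat_lit 6) (nat_lit 127783469582341632930) (ZL.cons (nat_lit 18316) (nat_lit 3) (nat_lit 63867354092152726673) (ZL.cons (nat_lit 18392) (nat_lit 6) (nat_lit 128037566361790498612) (ZL.cons (nat_lit 18468) (nat_lit 6) (nat_lit 127555372552287008832) (ZL.cons (nat_lit 18544) (nat_lit 6) (nat_lit 127170122136146017106) (ZL.cons (nat_lit 18620) (nat_lit 6) (nat_lit 126881478486790312862) (ZL.cons (nat_lit 18696) (nat_lit 6) (nat_lit 126689189391322400816) (ZL.cons (nat_lit 18772) (nat_lit 6) (nat_lit 126593086830144299304)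 (ZL.cons (nat_lit 18848) (nat_lit 6) (nat_lit 127174607593273820266) (ZL.cons (nat_lit 18924) (nat_lit 6) (nat_lit 126651576880581144824) (ZL.cons (nat_lit 19000) (nat_lit 6) (nat_lit 126224264454155291866) (ZL.cons (nat_lit 19076) (nat_lit 6) (nat_lit 125892296934206180550) (ZL.cons (nat_lit 19152) (nat_lit 6) (nat_lit 125655384252027059226) (ZL.cons (nat_lit 19228) (nat_lit 6) (nat_lit 125513319396536412152) (ZL.cons (nat_lit 19304) (nat_lit 3) (nat_lit 62732989116697245112) (ZL.cons (nat_lit 19380) (nat_lit 6) (nat_lit 125803566252198151792) (ZL.cons (nat_lit 19456) (nat_lit 6) (nat_lit 125335416922583113172) (ZL.cons (nat_lit 19532) (nat_lit 6) (nat_lit 124961387392349140624) (ZL.cons (nat_lit 19608) (nat_lit 6) (nat_lit 124681150839576612228) (ZL.cons (nat_lit 19684) (nat_lit 6) (nat_lit 124494462397374755876) (ZL.cons (nat_lit 19760) (nat_lit 6) (nat_lit 124401158939920288386) (ZL.cons (nat_lit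 19836) (nat_lit 6) (nat_lit 125010599686977306732) (ZL.cons (nat_lit 19912) (nat_lit 6) (nat_lit 124502802878537816010) (ZL.cons (nat_lit 19988) (nat_lit 6) (nat_lit 124087936445114657800) (ZL.cons (nat_lit 20064) (nat_lit 6) (nat_lit 123765637882057268172) (ZL.cons (nat_lit 20140) (nat_lit 6) (nat_lit 123535625569262004748) (ZL.cons (nat_lit 20216) (nat_lit 6) (nat_lit 123397698525096327980) (ZL.cons (nat_lit 20292) (nat_lit 3) (nat_lit 61675868115391891209) (ZL.cons (nat_lit 20368) (nat_lit 6) (nat_lit 124271984301512105990) (ZL.cons (nat_lit 20444) (nat_lit 6) (nat_lit 123725694795184797698) (ZL.cons (nat_lit 20520) (nat_lit 6) (nat_lit 123271180882937187386) (ZL.cons (nat_lit 20596) (nat_lit 6) (nat_lit 122908045416690612096) (ZL.cons (nat_lit 20672) (nat_lit 6) (nat_lit 122635971093610487440) (ZL.cons (nat_lit 20748) (nat_lit 6) (nat_lit 122454720178851403600) (ZL.cons (nat_lit 20824) (nat_lit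 6) (nat_lit 122364134297827648760) (ZL.cons (nat_lit 20900) (nat_lit 6) (nat_lit 123587074703718162502) (ZL.cons (nat_lit 20976) (nat_lit 6) (nat_lit 123003413646043458508) (ZL.cons (nat_lit 21052) (nat_lit 6) (nat_lit 122510407035908030626) (ZL.cons (nat_lit 21128) (nat_lit 6) (nat_lit 122107624090837003234) (ZL.cons (nat_lit 21204) (nat_lit 6) (nat_lit 121794712864567692916) (ZL.cons (nat_lit 21280) (nat_lit 6) (nat_lit 121571399939523747844) (ZL.cons (nat_lit 21356) (nat_lit 6) (nat_lit 121437490187906585932) (ZL.cons (nat_lit 21432) (nat_lit 3) (nat_lit 60696433300597688327) (ZL.cons (nat_lit 21508) (nat_lit 6) (nat_lit 122955272428898374760) (ZL.cons (nat_lit 21584) (nat_lit 6) (nat_lit 122335328311663092414) (ZL.cons (nat_lit 21660) (nat_lit 6) (nat_lit 121804950150180268830) (ZL.cons (nat_lit 21736) (nat_lit 6) (nat_lit 121363674507221423868) (ZL.cons (nat_lit 21812) (nat_lit 6) (nat_lit 121011115802127661448)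 (ZL.cons (nat_lit 21888) (nat_lit 6) (nat_lit 120746965973894530714) (ZL.cons (nat_lit 21964) (nat_lit 6) (nat_lit 120570994211992507570) (ZL.cons (nat_lit 22040) (nat_lit 6) (nat_lit 120483046754687891220) (ZL.cons (nat_lit 22116) (nat_lit 6) (nat_lit 121720855028159289394) (ZL.cons (nat_lit 22192) (nat_lit 6) (nat_lit 121154193807115887458) (ZL.cons (nat_lit 22268) (nat_lit 6) (nat_lit 120675546612809646794) (ZL.cons (nat_lit 22344) (nat_lit 6) (nat_lit 120284495209828066804) (ZL.cons (nat_lit 22420) (nat_lit 6) (nat_lit 119980697902770483968) (ZL.cons (nat_lit 22496) (nat_lit 6) (nat_lit 119763889237679275162) (ZL.cons (nat_lit 22572) (nat_lit 6) (nat_lit 119633879770089797580) (ZL.cons (nat_lit 22648) (nat_lit 3) (nat_lit 59795277949748195254) (ZL.cons (nat_lit 22724) (nat_lit 6) (nat_lit 121159456877128987866) (ZL.cons (nat_lit 22800) (nat_lit 6) (nat_lit 120557569384667548696) (ZL.cons (nat_lit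 22876) (nat_lit 6) (nat_lit 120042639130800729680) (ZL.cons (nat_lit 22952) (nat_lit 6) (nat_lit 119614216176471753988) (ZL.cons (nat_lit 23028) (nat_lit 6) (nat_lit 119271926171526353582) (ZL.cons (nat_lit 23104) (nat_lit 6) (nat_lit 119015470027610692674) (ZL.cons (nat_lit 23180) (nat_lit 6) (nat_lit 118844623656832029430) (ZL.cons (nat_lit 23256) (nat_lit 6) (nat_lit 118759237775953761126) (ZL.cons (nat_lit 23332) (nat_lit 6) (nat_lit 120650643316498472036) (ZL.cons (nat_lit 23408) (nat_lit 6) (nat_lit 120014555560524375358) (ZL.cons (nat_lit 23484) (nat_lit 6) (nat_lit 119464399035239519108) (ZL.cons (nat_lit 23560) (nat_lit 6) (nat_lit 118999693021349965064) (ZL.cons (nat_lit 23636) (nat_lit 6) (nat_lit 118620031465057168956) (ZL.cons (nat_lit 23712) (nat_lit 6) (nat_lit 118325082623253690478) (ZL.cons (nat_lit 23788) (nat_lit 6) (nat_lit 118114588773650575132) (ZL.cons (nat_lit 23864) (nat_lit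 6) (nat_lit 117988365989583121166) (ZL.cons (nat_lit 23940) (nat_lit 3) (nat_lit 58973151989649129967) (ZL.cons (nat_lit 24016) (nat_lit 6) (nat_lit 119435491680699625190) (ZL.cons (nat_lit 24092) (nat_lit 6) (nat_lit 119789037148163160494) (ZL.cons (nat_lit 24168) (nat_lit 6) (nat_lit 120193969751894375432) (ZL.cons (nat_lit 24244) (nat_lit 6) (nat_lit 119524677856587601560) (ZL.cons (nat_lit 24320) (nat_lit 6) (nat_lit 118940321067790087802) (ZL.cons (nat_lit 24396) (nat_lit 6) (nat_lit 118440388782482496524) (ZL.cons (nat_lit 24472) (nat_lit 6) (nat_lit 118024444166629122064) (ZL.cons (nat_lit 24548) (nat_lit 6) (nat_lit 117692123773478247884) (ZL.cons (nat_lit 24624) (nat_lit 6) (nat_lit 117443137225987314968) (ZL.cons (nat_lit 24700) (nat_lit 6) (nat_lit 117277266963095408900) (ZL.cons (nat_lit 24776) (nat_lit 6) (nat_lit 117194368049621362006) (ZL.cons (nat_lit 24852) (nat_lit 3) (nat_lit 58725669225113491530)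 (ZL.cons (nat_lit 24928) (nat_lit 6) (nat_lit 117476786658194616008) (ZL.cons (nat_lit 25004) (nat_lit 6) (nat_lit 117553153518395739002) (ZL.cons (nat_lit 25080) (nat_lit 6) (nat_lit 117680505759154799622) (ZL.cons (nat_lit 25156) (nat_lit 6) (nat_lit 117858954659128771804) (ZL.cons (nat_lit 25232) (nat_lit 6) (nat_lit 118088656144540933782) (ZL.cons (nat_lit 25308) (nat_lit 6) (nat_lit 118369810925427082586) (ZL.cons (nat_lit 25384) (nat_lit 6) (nat_lit 118702664671013235236) (ZL.cons (nat_lit 25460) (nat_lit 6) (nat_lit 119087508224378059252) (ZL.cons (nat_lit 25536) (nat_lit 6) (nat_lit 118469947296247868300) (ZL.cons (nat_lit 25612) (nat_lit 6) (nat_lit 117935814747427619514) (ZL.cons (nat_lit 25688) (nat_lit 6) (nat_lit 117484643860156207820) (ZL.cons (nat_lit 25764) (nat_lit 6) (nat_lit 117116040407444755288) (ZL.cons (nat_lit 25840) (nat_lit 6) (nat_lit 116829682308606426670) (ZL.cons (nat_lit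 25916) (nat_lit 6) (nat_lit 116625319347826703032) (ZL.cons (nat_lit 25992) (nat_lit 6) (nat_lit 116502772955528204036) (ZL.cons (nat_lit 26068) (nat_lit 3) (nat_lit 58230968026169509187) (ZL.cons (nat_lit 26144) (nat_lit 6) (nat_lit 116600694684562950272) (ZL.cons (nat_lit 26220) (nat_lit 6) (nat_lit 116652354546737245160) (ZL.cons (nat_lit 26296) (nat_lit 6) (nat_lit 116755719410771229948) (ZL.cons (nat_lit 26372) (nat_lit 6) (nat_lit 116910879595478138218) (ZL.cons (nat_lit 26448) (nat_lit 6) (nat_lit 117117970677718393482) (ZL.cons (nat_lit 26524) (nat_lit 6) (nat_lit 117377173610864827030) (ZL.cons (nat_lit 26600) (nat_lit 6) (nat_lit 117688714882917275552) (ZL.cons (nat_lit 26676) (nat_lit 6) (nat_lit 118052866714404716914) (ZL.cons (nat_lit 26752) (nat_lit 6) (nat_lit 117485530026251790934) (ZL.cons (nat_lit 26828) (nat_lit 6) (nat_lit 117000158875467721732) (ZL.cons (nat_lit 26904) (nat_lit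 6) (nat_lit 116596329151338231966) (ZL.cons (nat_lit 26980) (nat_lit 6) (nat_lit 116273687992939324996) (ZL.cons (nat_lit 27056) (nat_lit 6) (nat_lit 116031953480812205656) (ZL.cons (nat_lit 27132) (nat_lit 6) (nat_lit 115870914390625889090) (ZL.cons (nat_lit 27208) (nat_lit 6) (nat_lit 115790430008612251326) (ZL.cons (nat_lit 27284) (nat_lit 3) (nat_lit 57900137579438091228) (ZL.cons (nat_lit 27360) (nat_lit 6) (nat_lit 115826486813082844396) (ZL.cons (nat_lit 27436) (nat_lit 6) (nat_lit 115905144679090001078) (ZL.cons (nat_lit 27512) (nat_lit 6) (nat_lit 116036317487071833516) (ZL.cons (nat_lit 27588) (nat_lit 6) (nat_lit 116220119854045024868) (ZL.cons (nat_lit 27664) (nat_lit 6) (nat_lit 116456712384019551702) (ZL.cons (nat_lit 27740) (nat_lit 6) (nat_lit 116746301808332284968) (ZL.cons (nat_lit 27816) (nat_lit 6) (nat_lit 117089141166286022202) (ZL.cons (nat_lit 27892) (nat_lit 6) (nat_lit 116570565876169275806)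 (ZL.cons (nat_lit 27968) (nat_lit 6) (nat_lit 116132535888527128532) (ZL.cons (nat_lit 28044) (nat_lit 6) (nat_lit 115774668458710184328) (ZL.cons (nat_lit 28120) (nat_lit 6) (nat_lit 115496650887022486636) (ZL.cons (nat_lit 28196) (nat_lit 6) (nat_lit 115298240245488774368) (ZL.cons (nat_lit 28272) (nat_lit 6) (nat_lit 115179263165587319034) (ZL.cons (nat_lit 28348) (nat_lit 3) (nat_lit 57569807843381433466) (ZL.cons (nat_lit 28424) (nat_lit 6) (nat_lit 115074828685432256164) (ZL.cons (nat_lit 28500) (nat_lit 6) (nat_lit 115128038343471779898) (ZL.cons (nat_lit 28576) (nat_lit 6) (nat_lit 115234504153426784230) (ZL.cons (nat_lit 28652) (nat_lit 6) (nat_lit 115394319143674899750) (ZL.cons (nat_lit 28728) (nat_lit 6) (nat_lit 115607622958382362672) (ZL.cons (nat_lit 28804) (nat_lit 6) (nat_lit 115874601979523189224) (ZL.cons (nat_lit 28880) (nat_lit 6) (nat_lit 116195489489737211202) (ZL.cons (nat_lit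 28956) (nat_lit 6) (nat_lit 115724255362762386734) (ZL.cons (nat_lit 29032) (nat_lit 6) (nat_lit 115332187669432785022) (ZL.cons (nat_lit 29108) (nat_lit 6) (nat_lit 115018943826327050096) (ZL.cons (nat_lit 29184) (nat_lit 6) (nat_lit 114784250125232759476) (ZL.cons (nat_lit 29260) (nat_lit 6) (nat_lit 114627901493983908440) (ZL.cons (nat_lit 29336) (nat_lit 6) (nat_lit 114549761317271638768) (ZL.cons (nat_lit 29412) (nat_lit 3) (nat_lit 57198361687565125900) (ZL.cons (nat_lit 29488) (nat_lit 6) (nat_lit 114423721378963113594) (ZL.cons (nat_lit 29564) (nat_lit 6) (nat_lit 114504738980950484978) (ZL.cons (nat_lit 29640) (nat_lit 6) (nat_lit 114639846973171772392) (ZL.cons (nat_lit 29716) (nat_lit 6) (nat_lit 114829163411154159482) (ZL.cons (nat_lit 29792) (nat_lit 6) (nat_lit 115072853717027922122) (ZL.cons (nat_lit 29868) (nat_lit 6) (nat_lit 115371130824070037386) (ZL.cons (nat_lit 29944) (nat_lit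 6) (nat_lit 114945858991407758480) (ZL.cons (nat_lit 30020) (nat_lit 6) (nat_lit 114598414884789366046) (ZL.cons (nat_lit 30096) (nat_lit 6) (nat_lit 114328494912277038192) (ZL.cons (nat_lit 30172) (nat_lit 6) (nat_lit 114135863221467608804) (ZL.cons (nat_lit 30248) (nat_lit 6) (nat_lit 114020351493407943430) (ZL.cons (nat_lit 30324) (nat_lit 3) (nat_lit 56990929397760062930) (ZL.cons (nat_lit 30400) (nat_lit 6) (nat_lit 113791578362973654792) (ZL.cons (nat_lit 30476) (nat_lit 6) (nat_lit 113846384310754364236) (ZL.cons (nat_lit 30552) (nat_lit 6) (nat_lit 113956044095008018702) (ZL.cons (nat_lit 30628) (nat_lit 6) (nat_lit 114120653534963577686) (ZL.cons (nat_lit 30704) (nat_lit 6) (nat_lit 114340356464112264494) (ZL.cons (nat_lit 30780) (nat_lit 6) (nat_lit 114615344855887315846) (ZL.cons (nat_lit 30856) (nat_lit 6) (nat_lit 114234696609936246218) (ZL.cons (nat_lit 30932) (nat_lit 6) (nat_lit 113930576373911260856)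 (ZL.cons (nat_lit 31008) (nat_lit 6) (nat_lit 113702718411683794234) (ZL.cons (nat_lit 31084) (nat_lit 6) (nat_lit 113550923624063550508) (ZL.cons (nat_lit 31160) (nat_lit 6) (nat_lit 113475059374828337236) (ZL.cons (nat_lit 31236) (nat_lit 3) (nat_lit 56615528468764133531) (ZL.cons (nat_lit 31312) (nat_lit 6) (nat_lit 113258864881476114712) (ZL.cons (nat_lit 31388) (nat_lit 6) (nat_lit 113342313011523107238) (ZL.cons (nat_lit 31464) (nat_lit 6) (nat_lit 113481474243511033274) (ZL.cons (nat_lit 31540) (nat_lit 6) (nat_lit 113676470174632891976) (ZL.cons (nat_lit 31616) (nat_lit 6) (nat_lit 113927471189682867496) (ZL.cons (nat_lit 31692) (nat_lit 6) (nat_lit 113590146814325204940) (ZL.cons (nat_lit 31768) (nat_lit 6) (nat_lit 113328088588585080810) (ZL.cons (nat_lit 31844) (nat_lit 6) (nat_lit 113141067529546799850) (ZL.cons (nat_lit 31920) (nat_lit 6) (nat_lit 113028920220751008226) (ZL.cons (nat_lit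 31996) (nat_lit 3) (nat_lit 56495774334701806262) (ZL.cons (nat_lit 32072) (nat_lit 6) (nat_lit 112741667326624134054) (ZL.cons (nat_lit 32148) (nat_lit 6) (nat_lit 112798117452838264786) (ZL.cons (nat_lit 32224) (nat_lit 6) (nat_lit 112911067030619528882) (ZL.cons (nat_lit 32300) (nat_lit 6) (nat_lit 113080614753773754636) (ZL.cons (nat_lit 32376) (nat_lit 6) (nat_lit 113306908770796902050) (ZL.cons (nat_lit 32452) (nat_lit 6) (nat_lit 113011646405724100726) (ZL.cons (nat_lit 32528) (nat_lit 6) (nat_lit 112790425083173162258) (ZL.cons (nat_lit 32604) (nat_lit 6) (nat_lit 112643051502959333400) (ZL.cons (nat_lit 32680) (nat_lit 6) (nat_lit 112569396892051359346) (ZL.cons (nat_lit 32756) (nat_lit 3) (nat_lit 56147169863002431139) (ZL.cons (nat_lit 32832) (nat_lit 6) (nat_lit 112322981908271145360) (ZL.cons (nat_lit 32908) (nat_lit 6) (nat_lit 112408933482219547662) (ZL.cons (nat_lit 32984) (nat_lit 6)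 (nat_lit 112552269551167111476) (ZL.cons (nat_lit 33060) (nat_lit 6) (nat_lit 112753115360222625942) (ZL.cons (nat_lit 33136) (nat_lit 6) (nat_lit 112498689898339010280) (ZL.cons (nat_lit 33212) (nat_lit 6) (nat_lit 112317116054612523914) (ZL.cons (nat_lit 33288) (nat_lit 6) (nat_lit 112208235172286512626) (ZL.cons (nat_lit 33364) (nat_lit 3) (nat_lit 56085976056362967137) (ZL.cons (nat_lit 33440) (nat_lit 6) (nat_lit 111916491210841059246) (ZL.cons (nat_lit 33516) (nat_lit 6) (nat_lit 111974634840841613898) (ZL.cons (nat_lit 33592) (nat_lit 6) (nat_lit 112090972905956315918) (ZL.cons (nat_lit 33668) (nat_lit 6) (nat_lit 112265607060805168444) (ZL.cons (nat_lit 33744) (nat_lit 6) (nat_lit 112050829077746004884) (ZL.cons (nat_lit 33820) (nat_lit 6) (nat_lit 111907747931907336088) (ZL.cons (nat_lit 33896) (nat_lit 6) (nat_lit 111836238600928720502) (ZL.cons (nat_lit 33972) (nat_lit 3) (nat_lit 55789145087250854158)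 (ZL.cons (nat_lit 34048) (nat_lit 6) (nat_lit 111607791622235979886) (ZL.cons (nat_lit 34124) (nat_lit 6) (nat_lit 111696321743402834256) (ZL.cons (nat_lit 34200) (nat_lit 6) (nat_lit 111843957894418824988) (ZL.cons (nat_lit 34276) (nat_lit 6) (nat_lit 111667672609247478998) (ZL.cons (nat_lit 34352) (nat_lit 6) (nat_lit 111561963014756205904) (ZL.cons (nat_lit 34428) (nat_lit 3) (nat_lit 55763368371669084335) (ZL.cons (nat_lit 34504) (nat_lit 6) (nat_lit 111308083283784446526) (ZL.cons (nat_lit 34580) (nat_lit 6) (nat_lit 111367971222685017814) (ZL.cons (nat_lit 34656) (nat_lit 6) (nat_lit 111487799429753160896) (ZL.cons (nat_lit 34732) (nat_lit 6) (nat_lit 111348885695929210608) (ZL.cons (nat_lit 34808) (nat_lit 6) (nat_lit 111279459160998515866) (ZL.cons (nat_lit 34884) (nat_lit 3) (nat_lit 55537623972207290219) (ZL.cons (nat_lit 34960) (nat_lit 6) (nat_lit 111105634435580880156) (ZL.cons (nat_lit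 35036) (nat_lit 6) (nat_lit 111196820460382740156) (ZL.cons (nat_lit 35112) (nat_lit 6) (nat_lit 111094189786119368220) (ZL.cons (nat_lit 35188) (nat_lit 3) (nat_lit 55529994761303355356) (ZL.cons (nat_lit 35264) (nat_lit 6) (nat_lit 110909082155771592420) (ZL.cons (nat_lit 35340) (nat_lit 6) (nat_lit 110970766732839180850) (ZL.cons (nat_lit 35416) (nat_lit 6) (nat_lit 110903362329993846148) (ZL.cons (nat_lit 35492) (nat_lit 3) (nat_lit 55389071319273320818) (ZL.cons (nat_lit 35568) (nat_lit 6) (nat_lit 110809440724447930348) (ZL.cons (nat_lit 35644) (nat_lit 3) (nat_lit 55388118292557626577) (ZL.cons (nat_lit 35720) (nat_lit 6) (nat_lit 110712701470735637072) (ZL.cons (nat_lit 35796) (nat_lit 1) (nat_lit 18446744073709551617) ZL.nil))))))))))))))))))))))))))))))))))))))))))))))))))))))))))))))))))))))))))))))))))))))))))))))))))))))))))))))))))))))))))))))))))))))))))))))))))))))))))))))))))))))))))))))))))))))))))))))))))))))))))))))))))))))))))))))))))))))))))))))))))))))))))))))))))))))))))))))))))))))))))))))))))))))))))))))))))))))))))))))))))))))))))))))))))))))))))))))))))))))))))))))))))))))))))))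

noncomputable def vl : XL := ⟨(nat_lit 0), (nat_lit 76), (nat_lit 37314629), (nat_lit 152), (nat_lit 82733088), (nat_lit 152), (nat_lit 82733088), (nat_lit 1), (nat_lit 4), (nat_lit 2), (nat_lit 5), (nat_lit 2), (nat_lit 4), (nat_lit 0), (nat_lit 0), (nat_lit 0)⟩

noncomputable def cp0 : Nat := (nat_lit 35905238586698192193221588356676107117160380734462345103284250132490468432301623201921977602772702331148467435105621622237338223564154466443429547040910998850850094904008356312988630575741257289243335348159021944404022054103800788671980992071267183642887334504160366255881916553326373570932415114289531317857165035584411750455609470890960823591228579379911627228843034949611621141054962027024095877201649994284348756994186552669239500199602272526209135881598955270440948868384728224430021866804679720445925308432607631250939471175752145436838751920516492356918262237501830718677258548408446320652170398307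561108081763630833443231086970545038063106579567727930898075125360178271380370273046856095551310822722808572335809742678124337894938605090163478449211212880886530968185610747577163159653212896266553808902090257530167524926521148272836763441007291579023651165330415902774593596084485552325389245164390741687455812559044252691590242735836243731804391560877776477218408945752542992807328729171446973204794701344232981378171414126270554197113545932580311308529280758673449004752620819327026357426732152902812595040926042740354841965816215361339258732709297698826597806607701561049236297864399615331444518702567277014558675320846547948239120992729221944647370158457858974011377699530538793850225871332982286529943131981035074980820170404351259184875616998453482766645135711196302098178838844162911727020200685323806224597555221703227038558995097149543838302452014420067638931964905169302180216924078824314265539268413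065879208786569956492263173478039588878173134368876343435434086866642771355746802917085992228452082299058868832600593852535115513275051817879965179493199644712802166631673512275527808835152858283714312666153432213819829490956912116573762127456304109184208584623497283118625574501858427172800248881587640939042380903050042924912061588073953267732907009076660671411683696150765643403231137982150603314634793306504241148061407621763668741490487625420885099495964898365779994092106206032829439976046480239610509534055156163036066857554986595648376728730299290683494296190005541016805186412128811910492698411745925872223264258761696894158928273630634264517151373312502330986892581548920954083332561662104546212831837223395467418255700985044966212873993893742315289707408469790580791139884410174414066240007537863717071942026733067182197371225324607338592534862816449715374461911539510631041272893403040301639390182536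384134312888964289495043240558861572854391838633489775258028104539872255670827485081337894747332124764945756123037758134644293689158429857693338251093953076369684340456482231721069631310119834169640271147084303449538070280057060651337926193018676861061632875288468728888286364331415292844641060963173906031622530067271200950340414348387799452840532971909556803648069591851169821342726380349657520320273282854209043427467775861092008725977019655269034414965481937960070453808969350406923591884982749131958753797229330822949145147782346528027271026605393843717010394351882394857935573611977634520631238470787495866251432106247398194849251703972048267463204260818878340775547907653084849259023919586141690973713862376074495154411389115747044870582771619058334630175860135862556801736024090031132956047512880766270869554839318959991898296983170461263289875333579725585887158232008665052990749263346741790912186970031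839951888305481742435889396301790583736822758419155476435558153343478560091753512761505049000202749204484226837713641562285628492621484360049253481276106695631958579379262001378445215956029405598701326085481450091706979825017386793865563293711859879870662315404867783989243678370913382036833739058628414782981511492030836479551151261154894695060479479235649125640814642340770048171431997870107876968680837647609432674352321311399834665735420674907687962296018005495609070265657545437422773877084194699610552941603334583957075649187273445761391028553223058159163932499767993566679332942551984014758531248835682264588413053845917830979169080289895379807334545319600491646178692551965661422933871471213226553687906830117213054996177336813417860592509267824087829022123664322515181925776945097911903915905110779229892638550191484093769490272031177972780407506176025240987158176726439986300247317186147895624087052929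278506379709491036312502880378857932361082758440033410089783194557379798097584526399496555527817896847851996339962320718520844418302598041302085556813903088682551625167574003607387586062623578322521834874139918098952259847472112615597423442095173599365500030187151798717770224066795804748646365951053008460871215150723940050172818272423031085488587891940140233882219700676605347767643712250736114742832138938997880307444777454227889843635890207654492419173542434991954603635498064667897329799105969982538293354016756156264947863727724727357995910213711524028836889931600047580630797857733508265399769141165962759236851843308564134927762092320176630595552431207640930283368668341805374510546551688688102839716859401304980953417697122228115051471401073021547453850434314901182104352366334862336358507804165492208303289321758381568141180742090846005143636828329396683408153693581243167077048935309913571290955717058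207650631852081539334529664818544815258167970402268988779908892846929785485986245413058813608178370815437520360603077909107703461434198146406202953096848016578652772449150989412293629344436059716558418330754647334872780283665674695844045117219429716230305487364109209348999714201780414361756385848363741872387115383988451845292571520512021250958028656431436864126925634739755998977974951769572140304063753734883765560728414130281481411060191003219070477379760095444608025344773030216585144818127466396101333653069215249875188012702133913337676399167047905003455887534014834675259290687344592857310278636900703544523679777569747806606200339567094056215217591337765671297798275548064214278217135524556849220078696743868645485539127081404247007353109122104174723459781122895711143279461149620740220883752476519438214314028061044555073833295283266894213719693064488400997276899935148693396135748758802138823739957141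695738389156541956649356400941918629649399350926353877392416018296161694326186916394767419874136214896781022889415783304362378481553341281870887077842227277877623116159513277321570443278835434662288607594143417423461826298533790796767919079236729144888678031957490945743794680971761119249929238751375517620609016198536370748693243453151029648999463104306698074177456790341957355641732198954158466449838753826047218117460263163066206646572139832236723016455525242491143004356998828112222053960804973244836388771001595206599338873138367516909885122218386636053646240966171920962686927285893530467746266643862720610510235312573556305474731354238022513984405419679646227542864765110959317872495231380191593269583061836011667907403539021245704210733725923006041829998751890686609071025794727396033672974102984495141752487975349887570561677686508615249248379573079109990947436791009188328975100373889393282416269096024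556307072744544505097495831010371500291615705085941833589023073589116080365057088422433513881640270356224490134709406741139120513802990860528124841307142862001277926255894798548899973963701206684494904893076912173954778894461284719333116493231113932571617510627543798856528976057270954129621503249685934936216102663351716878217435087287921041155294859958022528570856973935914741565437776239970673578927719391689361203635062097160852391243633102963447239187976717932325675933396058211087096288277017098380763921017578259517168892222650980597488827981381873021819841981627252641461782444119375263275293923474394664842775632127239964391480300345245271793299566945348568101433380842206435143365164013871569118857418419208253775698254757656892360969756632020695310719051675911446708560917584226440502201737707987068006622385714004456765673341777818770013967009530198607399184584999555651996859908937271071232091884243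725566934966779095719571460389512304472269731350444940869504509323970572238558695587340880690488844605147259308625299217865550683709711014607064276853505977225528663410019677387466458721908182762390615299351289488247972284083114687543942536293434889462323629932202715447022201278960203640016514800386454979063419925594213603572164659237763699720859203300947774501874536053934384970459172588663942511549050089027756215504610763793965636382278989834323762087777162468361311922092002259366112769921216460424272641586044069936821364956890917462761863911548051365703629730603394086727580626342327752124625217703862894876258495273944999454266878286097492415105117086539461705338202034850770893840111059353084094417138469901105434060553030400689060698291310759078196699959079828812650061364517733689648725878206462805164033362298687425389588334459016238267482160683033493680710633812415746449549867491580587068579984869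285546731996877117005432975190919226321645739878678417494528469665738725707544866266799961742769351544302706731164389323868631321472057433416177542283615661412190254520200226384152809620257718131259319268772926723645849501196850081615237438299232064511889512843148396913898862234163922763264863267923844976211609492894760397373702921312027566340838876500555576981810384889651288519995523933919112473940618611500782289634932555381278283863304763476629999389533627625228778739011727300730777789238454776463676036729529215598501857378884231214266814689834814765874010963776848450948094918640091897372375308692554068059105325463758326957955493758044660280308477555690840500960382846028403528441431316633268095457986541783051805972897021406129493941357492203381679155188528588909305922870896433073334087174174998510921305152524744166885439963480654675266112711759562273197561747363304487504965821704950029325842606459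94670752524424520376367514579933418522542951552773490044264069302265677768461864754433223341830898219028399335555836434714037227065739581654235676905113579207895907460342832492746888173671853409795154075739250677968816661861493741718472842732053901502225999964445359749039023820360126666426873099765974154742431044193274028991808785539785056827334868434999632419300228719010771466658343771098099429007848221176601879590365920268450440940076181529276635224333138474406318887568508611229215173432866200396929210665392526325498312163224157932623899198045331504151560798453000756321574116527388174364059193195522250092743026653864164697422342436320474033183200818210865072500640578846826178949035281210226013682691690707392983558593827859464632440083081445504759519786485451143854789335505688944413134202753143240907702721614936367679526137676016954541019262298901864368942954634792384815313809990072525467413994781430498784080215680647653729182661437091320437608886271195864409335643541192375838202833037763686797503034693261456761311916965415326690117161958472159615516672)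

noncomputable def cp1 : Nat := (nat_lit 207097469943325660783235957226381848093247898091867180699335716329109503390668080785860614327013662928463152795013900277969735814782839750001417698118878091026289896466572965176233236214908333409376683160278293160266923260820825834439297651751815444198483211107838674861244703115541666996903066659546805604439564004797233045644159258676508470733330178969892946309429145937571187823755289437523484704463519274700400538507234300718493244122398256943430009813002406466197846872594953833901935348162397142095293561740183370597817004076084654973547032917863400077225144564276222495429812851864469162662250898148494737397395171113947602906487896401871923706206431674131286548078361601835001310364477090774544458390677208397313752304796346498759192076524609894185778229744437142035787944506317938624415053030920059611694332697982518342730476937692514652613469610228417305686601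365060846716978419499629904760507056481401861354887123291761422724468637170936364336950472909145947290397773424885074178180489922182475083917644220294692216113636940691956049610356349804596177527345538293627080894478293027327506278344662595895012982778240668857772617591294161359080248222464492716604280429153245101919235189396336972755230462953737505810863918884323676583239071258756956532019326124489315590678150027281734774463261172241290280509209798168790510166720046621069667706399248714474248388686109377858746345588518037679075744295865498987701007416213429395210665470921262274662523842466335386804036040161051424922656006681374375073934674371821730733242735817052005043826896731738267147668979861990683342417580881933754649135171347107611081826833483326902527262178778816175683699854223764456706518884732449662337348768211813285645511294549916188739708445604459955446760786931961398432424866124050752157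489889249644906062644037184612219136859743407575366740535156254386953625750505671088362598489199615965692560732533807087603979764537038586929371598254885972616338427931920498181594535849987577778920509713910954224457840751621988893377795371057080314031169168074209749710857702365232371099600246602013290199216381084887086644772921905629713824171012194604731670256127081353204007718963187802692933113925222830711150246050202989418270362676212504812141262215045795212717785870325207765540573822234784050995880982859243720402766091435835281313144318712605238052133171288024609887833875391871835351967365570397414849459789477870394452937337550770912067853951000364432323806748434632103111139447368603652742237139422903938995438042591199276782634104506446243860587699923903200260710674844547327150240168674226603977256244071095347296268276586549535907703179996651913106948141019415931039203598962859304602632415651330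498628232330967519672307250900708700283540981652109834075617204767456355160826558041735452831265752192595842905329595301039999159852733987068747089387704196083594595629633272337116950217846678850460970355946129776098689603959134020697918324574002959782534077249388881566785254772045189430250495104885988307002329525682667977149468695378423670491650460570674673014296229823737823134937773678683426440387655009084797896742164200116988090657572707851265374667480307826412881504338939857954580561064517959060837503279310383534760278438674434905295969999364816185868542501741999267216531683978815276536863409236964345383939997904512710488575435900040283823149073803479322949558443417048442757392876921742626767877608103047217359185165668011610586625722604563427647447185841245390872660299899185489677579751163172067149045599161079011458248577181953451829401217208691566832862683598605635861359971854274476644312091348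370527176435199278955535308874232983261988686522671685321760780273119748270718130322836602562839112823481374565737576680009709528025003683015677014992402575714552520821193347392781157146417482654738550653993921148650617106458521996753775486008461861149204902050880922294498588704403418161634158622495058801310304347701484535710830495730628928444128113290483329177908821826165627725528528156325983857957185157875819237720194508192460029481468682003364549331954025496971267873081619804478602581257410744111240041891016598617304224729755801237971050114514229277505992415361469621685754339438915345764044533231452936072932660523002890814076261660017578997016446612144145455037681922533642507419745116046974570787831382815239273540776986124964758958437513869242771063645248667939725242773737900240428536072294372367712329187610275679314747078355085480571653009236324980998802939430414308699415806057213361807043548362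847940871913965980595593945369104809751946050117536840193211439874039757805633210999727486709471723764461731872038604294144473993643040927580727828770311348666844243026913460848141497568415258735683750738019531750334580994058380426629177380539996640402898224957101872418684111562636131424087012860209919033032991128457384694836589003345002892650973297001419936202811823074962614070254042162761931977320709896326918336701291865391802530339631617237850105984321161045049643922572291523440400917885864008882803932025103295071784384545199865364215360440568428293539535559319159573673141139265038345035194564492365133822454189142193558358264821114895962956157728879035326876422177784448810187538956067642309786395908425271223136565212912605438335920406890128143868127735799640968606744063468635359709767969366480130811906506700356661150318540302345919845646619442887624335641090019213033115605730504600794493997557343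883704375075470375127247362406081746986278593517856590141324159041262970423481229720694190204886461192510540978707919094962847363477260622446542456549013727871936466027998762056718416693336888331774876499831088006641471451776962299081414454173329778291222666579688840943651179820194889170638172392997694128004814478569436513868284476553999374821590052595503859167960562457509629249490404137207102188196628673735608405053871454418040145536973598172143221806236764198455705163951928501528712671797225966814760498190019535359510900763688530640410614014681316557008244705789677673496368017357337804599002857184100129628627797171915277319370273351949172878071344572369089333826922783008811110638738408639320626022414824976446243758986853188580824162737480895662064208465195284704177147092025319205539297665838629950452332428076164976822718414010364456919332506724878962129898193605396894838736141153730592864199325758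084707243913601938927379858212224947728222781845466109557615066415228277320022151938052975640401321910955215777483852386080981794379623167631438371622436624154350785899549830854768817366490830330787638991065797908077785391134268329046617033533068018081514387603299056137934208179837279554943836946580771575456270279749690634326827763380822051458513667380350019730057758004759273866105588059780114512867554575328502261815200637662996838599294135526422385203792119579725023595871422738191066678034708134732032657788766648452679214605578764241718363245364777908468616622488869107505930579048695683813073604516758936148963465178206295775120374920177332066688901146387548427148061909910669900551641606341835603451335830898169527355328224566771759268505132541696073040534951154130340387336333441164048901637732454956352621189501775332683774215462942644088289275783312405131535466620970095797644733599367116896153431114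941434342789537282271443101818741471829640841822207424347046668962978201811065511754734803794030990775521353113102295215907232037645136897536976953589809445901349091184115648344162984146195156586237506767356676161422343831130623528654918696668833970095350355669914975074521469605151888850439493361978893855640551991381233910025596101114493684714795468409160777559682870325195227197303013871926034645486945132331829832598423315398746967824159839428126604233959547214651793619626643263192282473781239125276074502115540897182130144329370586863406961910470743974792717735942863608370422539459157839124522211024625735470344224404108389104664418033939065958191267663769529756822873188662687653887301440092788510203120646635181829015210714775015632008028046967765710591728995538079996132059004532408397259870962916688439076113807657239899464389729842829424706290424692214324193765304441857150164068428348798645432953072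996920759523452220140265883484745212109528401851106818071583520643575914017105083808085805726263891677898331944911721607093682570031454863877509087898825322268150491968552285080797564482996250892612597773599359938451344446684556133045913435265406131759860101801929370602648536182760218355428501915765062361336232692518751987486514805275822155488993472185405123346349645358747159528080446973378259692160413276513671239593842402350845136832473717594644664433192457900637484145817148478912298457799013721154202064448023587701839108077244522286887541606462267683763949316415178478773628657880501609419333778704921978177857450440312527346977058567074352680830685673196047634278914541046973909056428749746922138349732421638349158106968102393839638311198493177747146082865233731773214011083832048760240968573260961671644887401043315446609958955314226351106425065661711019754269404174463132471216048538572973797194535713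421663291252592658063404479119926155239600805777906641857777160586549704473231868949495973642920970320753483566986420809994335344433744988533178879952528309640468336314043872843919048721913402825122286433970982604154109376763479992525972267892281355396707985715864724009779758861721934646566353572221047773105061533332156648817160508173684096252089245831069969451063429031888371639843613291059708859814225197223897221257071131030138322025890201592368513009331371786956632438054952104617809955603256494921329533031897879797333464136371948512450238025595709460286862643256330756203507068721487415512976069406384730866899196482808677886004329520109032769610840190100978996873790702709618778805370319106457254914823203690052481740647271128836304140896410487646237168033923687204271363490880317570556140759724104391694835540326669976091795975996153376807491628891736508669482663324859090400173240758686480975268150201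912472247299862283442070199164944955153679577135185043966499043463829485736067147326064547725228005015558242760693791875454978167422312483442250456353215298968041613109689010047762615392014174825343827943312099995644143863057770159812383407406406750209853024998157389552012834652098754364371107120061223270625883480628631415193865456575011707324901504038211478988309466998339461519462595947856772867584533651083597339137736693072970301883503629701840525469643253461872922590699261261173805359694480076504881077113091159936539940614191089876869941935710492132605134029904317886107291703964135043734696742145958040451774259214730422710906347700318836292455888606457466994987993437315515029627135372466253248286179404757129348716586769620712820120168985181898824549651219527944948092926892701770515209882845166303245324513484264466839528571402826566593045506508706509613086442937197390104292643197254011372366228526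185576467604431668525385994249625115919143780525003813961110667056633650987615961234442792002053898885309129072103754118420250099027052584514079760952000201961452664921522436021994780833210507923516460234856059739100562990286689679796727080095587043390916872152581519531855914879419319586365910997392888437929078929547903066590770576373211983136354267482494277030084621958750586620151130420148875746000177739193281228994429750324890182872322417071951361111257108778577478583429211476008199088269269803527669679699899042288457901282718571004787780435463243009255768081881544701357726243180967467079331412001581664219369188821564673287355829497947069611849394389803724709761202348253525543371091071959333066855064979815373295696817069014859038766999589660069723382773126225486284008105135443239159891339774812121394267970260778335460117232735697087780021173627292490467673291427796292945513673845585006170591405565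930838489247941629315709219615744569462105513853027423870288388685892350889411095934690364390426542771759984961395141603269605513052088780287892843455044343485663485222265503815695047290932245322769255357696023581826335728241033545731905805092145437259324259020014663048307840066478390295226049691846939473465295195576919746751673296536631003490349075249672665421832905026807857156880364690030872930374730836974293175786192975882026533652439389076737663997676762242765911920258677005744211360702140254884889612999531400399983503187585145869710764373469849632230770740720074913239603660589332210144888731635841295697784195103616092282755029346577460926486497169693007202053434350109388123061302094410442791236833340093191685799229553043026007685478936393511226558733427721101891533388969522327020939105576836987320179690365205624520355012621163376365564194976939726051459225493628136288860289222805591828208623628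233962695723649363334170969253352578086546715137431172542082253929165974668027525735037861418737176005396197934928778523860454649106981136823714230718896450097643825378760909541101086016220583054311281462818332547701368266098302785346364807780959983152967324663255794935638481201475312267420005107086150017548238813571022383303813799816315941737635045585545677963294495423425255413728217571642825524976600979088354354107778851805690244934954424265457901152888752241875422895920063284823925443880138708638214496038723066470706661761818767916164445806311395942885116384111455473107713110862526749759404892627594312240392368603130940175924548166063550659309998991770946853816694707967384278193513896139015414501993965212158174356970224657701351557149476016289662909711556750574185874948636942193070870042687284412670389603031116373451875157401272438325792116902404700544185575328947610307494625619988267251491174322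447587730614920609640323831520820431089116526140330871094945977917170211535254684436302525406670865584936737688162733375421411861635771561302709107147622813165616189654187477781072415369912719115323317862252808718031598083454046244557649000888075959941489854186751669306254022042771650098460255753881062641216052113557038021511681184684874390078191512149226882664254024704485094272536320482187061427050394578008434447403264387773840291683914249828318091649318691994924872443024627761800320960097339096741535055293132808098881592100320144884660473058767969646698016749628538513900172918840875719705789734123117172006606510302524015477629597250194778279287161466763263189081752123112633732368462234577279129792758023397216732812338620737181268444051231879296944236494131671665544122427518821547707657393313726389323053163375597514645142856537378960474480881756000786369075263089606616189726492033367907679510052823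027324638287451012076434070874908568266784559226588826309024492646530439776988515640371213425288992315567284260035008527666305697178136731978803623410942003177469207601871894474216418088875624383497607826815683095571055478224483901373878020576608576669883407517719556770976496610907771505293947663869769600219293050950045136279294530680527038553235581961813141990980543885929826094024356500307077033757993611546987034700781662808897704370252465834833682758946380793443632383732806877274630969431840218258636429071564406309125468609250245030874816029542779602881740595068959317995404025692829670329505165346130956220786474037914581259414527086612926037647248103261646943515237465084880344217106192462039592204487007538019395175647517910198555777667454899580692962626897724640651837776404034930551398993250235095348048212798173019151545029549446896582459037754256518547878866014947180086721834977352646441578833241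676557278968807183128959893307506339138907649609123593049954612322007113921155537013467301637832211635417813903273358636631052734634194683551194580690044177170856071363804349471408278010419629615530385378786948603832610030617621451541771206123162772069521611638227486145346181173167110524415782015939537986760144777398170267370155022241961033859476223746996444502859322948649949704654885057991462715262063544508389237546757990137091264786768070165504574394391719177789681407991562098857564158839046013039790848625736556850789058891952202397540142212947132701049215683987845734496884805318116277643155607126029945860229535810220251329978705676453470651299674876690817674671408024602030180444042170318238189887699972558053491912643634903617905867127728095110121996234630003924090729963150336461902307422796346049353874224321137731748217307122021952523910513876158692094132026661873227074045246186131045657870117231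022052402214137203925768168547758445547011491071467787970186929976587514578085794903151780404543956770825611008062134552958042659385887081850490505164193112309736571026969664169407946748051951746749880388176766923016752862121144498055897949717989003230417084318207427220107998870536280278969149560690304283077615704488107192246861082977565633540234735794251483174847618227218203278666734206620328407034565044592586032890586586478947675636528551238072414565989223637382390768980249239029308812000969458701528723630783285076302879541025257269584215163656565587333183155296769336380341448332655548982124056230882799827180060152111434462596530640294923939735811618059681992070337624093812404777823452635307794896634431335713002873768333286852791235403321636580270615723738353866663378015335189464691644462129466772735596368421995935332675634881715311368440045945016098172848975340909371428338091583761957102893441636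147725964730390188193509461384194693245498787813045081743667639655832066889218007752934753048090836560337580379529117829549162255385212714392188041865055579043013531298739785454289159787897925842053473801465721261430232481381645036058087465026033974923842840130152326271343444265739446780139611848658047468694537764325629472289846664448261111575563754986187225744395875923549956282817994085957314621779561847443961556492276255630836713370818522070083393033391905912245395408449334181071726555567580108681140713775911254779325417350952874915375391638757960004930847166860184257959927432482459782619231893629573303011123196256399348412389124294786217090699417805896630557498495800123766646970740469239737802695078154562562957195953311622916183093124623310901265167692541053578965032497448277655877874759964492590921813787888987025128179492349589579876583423186245318985308438528)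

noncomputable def rc0 : Nat := (nat_lit 207097469943325660783235957226381848093247898091867180699335716329109503390668080785860614327013662928463152795013900277969735814782839750001417698118878091026289896466572965176233236214908333409376683160278293160266923260820825834439297651751815444198483211107838674861244703115541666996903066659546805604439564004797233045644159258676508470733330178969892946309429145937571187823755289437523484704463519274700400538507234300718493244122398256943430009813002406466197846872594953833901935348162397142095293561740183370597817004076084654973547032917863400077225144564276222495429812851864469162662250898148494737397395171113947602906487896401871923706206431674131286548078361601835001310364477090774544458390677208397313752304796346498759192076524609894185778229744437142035787944506317938624415053030920059611694332697982518342730476937692514652613469610228417305686601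365060846716978419499629904760507056481401861354887123291761422724468637170936364336950472909145947290397773424885074178180489922182475083917644220294692216113636940691956049610356349804596177527345538293627080894478293027327506278344662595895012982778240668857772617591294161359080248222464492716604280429153245101919235189396336972755230462953737505810863918884323676583239071258756956532019326124489315590678150027281734774463261172241290280509209798168790510166720046621069667706399248714474248388686109377858746345588518037679075744295865498987701007416213429395210665470921262274662523842466335386804036040161051424922656006681374375073934674371821730733242735817052005043826896731738267147668979861990683342417580881933754649135171347107611081826833483326902527262178778816175683699854223764456706518884732449662337348768211813285645511294549916188739708445604459955446760786931961398432424866124050752157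489889249644906062644037184612219136859743407575366740535156254386953625750505671088362598489199615965692560732533807087603979764537038586929371598254885972616338427931920498181594535849987577778920509713910954224457840751621988893377795371057080314031169168074209749710857702365232371099600246602013290199216381084887086644772921905629713824171012194604731670256127081353204007718963187802692933113925222830711150246050202989418270362676212504812141262215045795212717785870325207765540573822234784050995880982859243720402766091435835281313144318712605238052133171288024609887833875391871835351967365570397414849459789477870394452937337550770912067853951000364432323806748434632103111139447368603652742237139422903938995438042591199276782634104506446243860587699923903200260710674844547327150240168674226603977256244071095347296268276586549535907703179996651913106948141019415931039203598962859304602632415651330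498628232330967519672307250900708700283540981652109834075617204767456355160826558041735452831265752192595842905329595301039999159852733987068747089387704196083594595629633272337116950217846678850460970355946129776098689603959134020697918324574002959782534077249388881566785254772045189430250495104885988307002329525682667977149468695378423670491650460570674673014296229823737823134937773678683426440387655009084797896742164200116988090657572707851265374667480307826412881504338939857954580561064517959060837503279310383534760278438674434905295969999364816185868542501741999267216531683978815276536863409236964345383939997904512710488575435900040283823149073803479322949558443417048442757392876921742626767877608103047217359185165668011610586625722604563427647447185841245390872660299899185489677579751163172067149045599161079011458248577181953451829401217208691566832862683598605635861359971854274476644312091348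370527176435199278955535308874232983261988686522671685321760780273119748270718130322836602562839112823481374565737576680009709528025003683015677014992402575714552520821193347392781157146417482654738550653993921148650617106458521996753775486008461861149204902050880922294498588704403418161634158622495058801310304347701484535710830495730628928444128113290483329177908821826165627725528528156325983857957185157875819237720194508192460029481468682003364549331954025496971267873081619804478602581257410744111240041891016598617304224729755801237971050114514229277505992415361469621685754339438915345764044533231452936072932660523002890814076261660017578997016446612144145455037681922533642507419745116046974570787831382815239273540776986124964758958437513869242771063645248667939725242773737900240428536072294372367712329187610275679314747078355085480571653009236324980998802939430414308699415806057213361807043548362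847940871913965980595593945369104809751946050117536840193211439874039757805633210999727486709471723764461731872038604294144473993643040927580727828770311348666844243026913460848141497568415258735683750738019531750334580994058380426629177380539996640402898224957101872418684111562636131424087012860209919033032991128457384694836589003345002892650973297001419936202811823074962614070254042162761931977320709896326918336701291865391802530339631617237850105984321161045049643922572291523440400917885864008882803932025103295071784384545199865364215360440568428293539535559319159573673141139265038345035194564492365133822454189142193558358264821114895962956157728879035326876422177784448810187538956067642309786395908425271223136565212912605438335920406890128143868127735799640968606744063468635359709767969366480130811906506700356661150318540302345919845646619442887624335641090019213033115605730504600794493997557343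883704375075470375127247362406081746986278593517856590141324159041262970423481229720694190204886461192510540978707919094962847363477260622446542456549013727871936466027998762056718416693336888331774876499831088006641471451776962299081414454173329778291222666579688840943651179820194889170638172392997694128004814478569436513868284476553999374821590052595503859167960562457509629249490404137207102188196628673735608405053871454418040145536973598172143221806236764198455705163951928501528712671797225966814760498190019535359510900763688530640410614014681316557008244705789677673496368017357337804599002857184100129628627797171915277319370273351949172878071344572369089333826922783008811110638738408639320626022414824976446243758986853188580824162737480895662064208465195284704177147092025319205539297665838629950452332428076164976822718414010364456919332506724878962129898193605396894838736141153730592864199325758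084707243913601938927379858212224947728222781845466109557615066415228277320022151938052975640401321910955215777483852386080981794379623167631438371622436624154350785899549830854768817366490830330787638991065797908077785391134268329046617033533068018081514387603299056137934208179837279554943836946580771575456270279749690634326827763380822051458513667380350019730057758004759273866105588059780114512867554575328502261815200637662996838599294135526422385203792119579725023595871422738191066678034708134732032657788766648452679214605578764241718363245364777908468616622488869107505930579048695683813073604516758936148963465178206295775120374920177332066688901146387548427148061909910669900551641606341835603451335830898169527355328224566771759268505132541696073040534951154130340387336333441164048901637732454956352621189501775332683774215462942644088289275783312405131535466620970095797644733599367116896153431114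941434342789537282271443101818741471829640841822207424347046668962978201811065511754734803794030990775521353113102295215907232037645136897536976953589809445901349091184115648344162984146195156586237506767356676161422343831130623528654918696668833970095350355669914975074521469605151888850439493361978893855640551991381233910025596101114493684714795468409160777559682870325195227197303013871926034645486945132331829832598423315398746967824159839428126604233959547214651793619626643263192282473781239125276074502115540897182130144329370586863406961910470743974792717735942863608370422539459157839124522211024625735470344224404108389104664418033939065958191267663769529756822873188662687653887301440092788510203120646635181829015210714775015632008028046967765710591728995538079996132059004532408397259870962916688439076113807657239899464389729842829424706290424692214324193765304441857150164068428348798645432953072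996920759523452220140265883484745212109528401851106818071583520643575914017105083808085805726263891677898331944911721607093682570031454863877509087898825322268150491968552285080797564482996250892612597773599359938451344446684556133045913435265406131759860101801929370602648536182760218355428501915765062361336232692518751987486514805275822155488993472185405123346349645358747159528080446973378259692160413276513671239593842402350845136832473717594644664433192457900637484145817148478912298457799013721154202064448023587701839108077244522286887541606462267683763949316415178478773628657880501609419333778704921978177857450440312527346977058567074352680830685673196047634278914541046973909056428749746922138349732421638349158106968102393839638311198493177747146082865233731773214011083832048760240968573260961671644887401043315446609958955314226351106425065661711019754269404174463132471216048538572973797194535713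421663291252592658063404479119926155239600805777906641857777160586549704473231868949495973642920970320753483566986420809994335344433744988533178879952528309640468336314043872843919048721913402825122286433970982604154109376763479992525972267892281355396707985715864724009779758861721934646566353572221047773105061533332156648817160508173684096252089245831069969451063429031888371639843613291059708859814225197223897221257071131030138322025890201592368513009331371786956632438054952104617809955603256494921329533031897879797333464136371948512450238025595709460286862643256330756203507068721487415512976069406384730866899196482808677886004329520109032769610840190100978996873790702709618778805370319106457254914823203690052481740647271128836304140896410487646237168033923687204271363490880317570556140759724104391694835540326669976091795975996153376807491628891736508669482663324859090400173240758686480975268150201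912472247299862283442070199164944955153679577135185043966499043463829485736067147326064547725228005015558242760693791875454978167422312483442250456353215298968041613109689010047762615392014174825343827943312099995644143863057770159812383407406406750209853024998157389552012834652098754364371107120061223270625883480628631415193865456575011707324901504038211478988309466998339461519462595947856772867584533651083597339137736693072970301883503629701840525469643253461872922590699261261173805359694480076504881077113091159936539940614191089876869941935710492132605134029904317886107291703964135043734696742145958040451774259214730422710906347700318836292455888606457466994987993437315515029627135372466253248286179404757129348716586769620712820120168985181898824549651219527944948092926892701770515209882845166303245324513484264466839528571402826566593045506508706509613086442937197390104292643197254011372366228526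185576467604431668525385994249625115919143780525003813961110667056633650987615961234442792002053898885309129072103754118420250099027052584514079760952000201961452664921522436021994780833210507923516460234856059739100562990286689679796727080095587043390916872152581519531855914879419319586365910997392888437929078929547903066590770576373211983136354267482494277030084621958750586620151130420148875746000177739193281228994429750324890182872322417071951361111257108778577478583429211476008199088269269803527669679699899042288457901282718571004787780435463243009255768081881544701357726243180967467079331412001581664219369188821564673287355829497947069611849394389803724709761202348253525543371091071959333066855064979815373295696817069014859038766999589660069723382773126225486284008105135443239159891339774812121394267970260778335460117232735697087780021173627292490467673291427796292945513673845585006170591405565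930838489247941629315709219615744569462105513853027423870288388685892350889411095934690364390426542771759984961395141603269605513052088780287892843455044343485663485222265503815695047290932245322769255357696023581826335728241033545731905805092145437259324259020014663048307840066478390295226049691846939473465295195576919746751673296536631003490349075249672665421832905026807857156880364690030872930374730836974293175786192975882026533652439389076737663997676762242765911920258677005744211360702140254884889612999531400399983503187585145869710764373469849632230770740720074913239603660589332210144888731635841295697784195103616092282755029346577460926486497169693007202053434350109388123061302094410442791236833340093191685799229553043026007685478936393511226558733427721101891533388969522327020939105576836987320179690365205624520355012621163376365564194976939726051459225493628136288860289222805591828208623628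233962695723649363334170969253352578086546715137431172542082253929165974668027525735037861418737176005396197934928778523860454649106981136823714230718896450097643825378760909541101086016220583054311281462818332547701368266098302785346364807780959983152967324663255794935638481201475312267420005107086150017548238813571022383303813799816315941737635045585545677963294495423425255413728217571642825524976600979088354354107778851805690244934954424265457901152888752241875422895920063284823925443880138708638214496038723066470706661761818767916164445806311395942885116384111455473107713110862526749759404892627594312240392368603130940175924548166063550659309998991770946853816694707967384278193513896139015414501993965212158174356970224657701351557149476016289662909711556750574185874948636942193070870042687284412670389603031116373451875157401272438325792116902404700544185575328947610307494625619988267251491174322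447587730614920609640323831520820431089116526140330871094945977917170211535254684436302525406670865584936737688162733375421411861635771561302709107147622813165616189654187477781072415369912719115323317862252808718031598083454046244557649000888075959941489854186751669306254022042771650098460255753881062641216052113557038021511681184684874390078191512149226882664254024704485094272536320482187061427050394578008434447403264387773840291683914249828318091649318691994924872443024627761800320960097339096741535055293132808098881592100320144884660473058767969646698016749628538513900172918840875719705789734123117172006606510302524015477629597250194778279287161466763263189081752123112633732368462234577279129792758023397216732812338620737181268444051231879296944236494131671665544122427518821547707657393313726389323053163375597514645142856537378960474480881756000786369075263089606616189726492033367907679510052823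027324638287451012076434070874908568266784559226588826309024492646530439776988515640371213425288992315567284260035008527666305697178136731978803623410942003177469207601871894474216418088875624383497607826815683095571055478224483901373878020576608576669883407517719556770976496610907771505293947663869769600219293050950045136279294530680527038553235581961813141990980543885929826094024356500307077033757993611546987034700781662808897704370252465834833682758946380793443632383732806877274630969431840218258636429071564406309125468609250245030874816029542779602881740595068959317995404025692829670329505165346130956220786474037914581259414527086612926037647248103261646943515237465084880344217106192462039592204487007538019395175647517910198555777667454899580692962626897724640651837776404034930551398993250235095348048212798173019151545029549446896582459037754256518547878866014947180086721834977352646441578833241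676557278968807183128959893307506339138907649609123593049954612322007113921155537013467301637832211635417813903273358636631052734634194683551194580690044177170856071363804349471408278010419629615530385378786948603832610030617621451541771206123162772069521611638227486145346181173167110524415782015939537986760144777398170267370155022241961033859476223746996444502859322948649949704654885057991462715262063544508389237546757990137091264786768070165504574394391719177789681407991562098857564158839046013039790848625736556850789058891952202397540142212947132701049215683987845734496884805318116277643155607126029945860229535810220251329978705676453470651299674876690817674671408024602030180444042170318238189887699972558053491912643634903617905867127728095110121996234630003924090729963150336461902307422796346049353874224321137731748217307122021952523910513876158692094132026661873227074045246186131045657870117231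022052402214137203925768168547758445547011491071467787970186929976587514578085794903151780404543956770825611008062134552958042659385887081850490505164193112309736571026969664169407946748051951746749880388176766923016752862121144498055897949717989003230417084318207427220107998870536280278969149560690304283077615704488107192246861082977565633540234735794251483174847618227218203278666734206620328407034565044592586032890586586478947675636528551238072414565989223637382390768980249239029308812000969458701528723630783285076302879541025257269584215163656565587333183155296769336380341448332655548982124056230882799827180060152111434462596530640294923939735811618059681992070337624093812404777823452635307794896634431335713002873768333286852791235403321636580270615723738353866663378015335189464691644462129466772735596368421995935332675634881715311368440045945016098172848975340909371428338091583761957102893441636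147725964730390188193509461384194693245498787813045081743667639655832066889218007752934753048090836560337580379529117829549162255385212714392188041865055579043013531298739785454289159787897925842053473801465721261430232481381645036058087465026033974923842840130152326271343444265739446780139611848658047468694537764325629472289846664448261111575563754986187225744395875923549956282817994085957314621779561847443961556492276255630836713370818522070083393033391905912245395408449334181071726555567580108681140713775911254779325417350952874915375391638757960004930847166860184257959927432482459782619231893629573303011123196256399348412389124294786217090699417805896630557498495800123766646970740469239737802695078154562562957195953311622916183093124623310901265167692541053578965032497448277655877874759964492590921813787888987025128179492349589579876583423186245318985308438528)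

end Vale.Agent.Lib.P154.PChain.BB.S7
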